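import Crest.Agent.R144.Bd3a_856

/-!
# R144, BND block B3 (helper856): BULK

Under `E c Q`, given any `(s1, z)` information off `ball a (K n)`, with probability at least `p / 2` no path of
sites with height `≥ 1` crosses from outside `ball a (2 n + 2)` to `ball a n` (`Hb a n`); the same with
probability `≥ p / 2` for heights `≤ 0` (`Hb' a n`).

* `Hb a n`, `Hb' a n` : no crossing of `{h ≥ 1}` / `{h ≤ 0}`;
* `bulk` : `(p / 2) E c Q g ≤ E c Q (g * ind (Hb a n))` for `g ≥ 0` off `ball a (K n)`.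
-/

set_option autoImplicit false

noncomputable section

namespace Crest.Agent.R144.Bd3856

open Finset
open Crest.Agent.R144.It844 (P2 adj_iff adj_symm adj_up)
open Crest.Agent.R144.Zg349 Crest.Agent.R144.Zk349 Crest.Agent.R144.Zd349 Crest.Agent.R144.Zm349
open Crest.Agent.R144.Ze349
open Crest.Agent.R144.Pst967 (conn_in_hexB path_symm adj_of_share E_pos_congr wt_ne_zero)
open Crest.Agent.R144.Rsw867
open Crest.Agent.R144.Pos561 (Good E_pos_mono E_pos_congr' rf rf_of_mem rf_of_notMem rf_rf rf_valid E_rf)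
open Crest.ProbabilityR.HexHeights (Adj)

/-- no path of sites with `h ≥ 1` from outside `ball a (2 n + 2)` to `ball a n` -/
def Hb (a : P2) (n : ℕ) : Set Cfg :=
  {ω | ∀ u v, u ∉ ball a (2 * n + 2) → v ∈ ball a n →
    ¬ Relation.ReflTransGen (StepIn {x | 1 ≤ ω.1 x}) u v}

/-- no path of sites with `h ≤ 0` from outside `ball a (2 n + 2)` to `ball a n` -/
def Hb' (a : P2) (n : ℕ) : Set Cfg :=
  {ω | ∀ u v, u ∉ ball a (2 * n + 2) → v ∈ ball a n →
    ¬ Relation.ReflTransGen (StepIn {x | ω.1 x ≤ 0}) u v}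

/-- minus closed triangles of negative height -/
def Sn (ω : Cfg) : Set P2 := {t | mC ω t ∧ ω.1 t ≤ -1}
/-- minus closed triangles of positive height -/
def Sp (ω : Cfg) : Set P2 := {t | mC ω t ∧ 2 ≤ ω.1 t}

theorem s1_false_cases {x : ℤ} (h : s1 x = false) : x ≤ -1 ∨ 2 ≤ x := by
  rw [s1_false] at h
  omega

theorem sn_union (ω : Cfg) : {t | mC ω t} = Sn ω ∪ Sp ω := by
  ext t
  constructor
  · intro h
    rcases s1_false_cases h.2 with h1 | h1
    · exact Or.inl ⟨h, h1⟩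
    · exact Or.inr ⟨h, h1⟩
  · rintro (h | h)
    · exact h.1
    · exact h.1

variable {Q : Finset P2} {ω : Cfg}

theorem mc_mem (hv : Valid Q ω) {t : P2} (h : mC ω t) : t ∈ Q := by
  by_contra ht
  have h1 : t ∉ IV Q := fun h2 => ht (IV_sub Q h2)
  have h2 := hv.ht.s1_bd h1
  rw [h.2] at h2
  exact absurd h2 (by decide)

/-- on a minus closed triangle all corners have the same sign of the height -/
theorem mc_corner (hv : Valid Q ω) (hg : Good Q ω) {t v : P2} (h : mC ω t) (hvt : v ∈ up t) :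
    (ω.1 t ≤ -1 → ω.1 v ≤ -1) ∧ (2 ≤ ω.1 t → 2 ≤ ω.1 v) := by
  have htQ := mc_mem hv h
  obtain ⟨h1, h2⟩ := (hg t htQ).1 h.1
  obtain ⟨i, rfl⟩ := mem_up_iff.1 hvt
  have hl := abs_le.1 (hv.ht.lip t htQ i 0)
  have hs : s1 (ω.1 (cr t i)) = false := by
    have h0 : s1 (ω.1 (cr t 0)) = false := h.2
    fin_cases i
    · exact h0
    · show s1 (ω.1 (cr t 1)) = false
      rw [← h1]; exact h0
    · show s1 (ω.1 (cr t 2)) = false
      rw [← h2]; exact h0
  have h3 := s1_false_cases hs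
  rw [cr0] at hl
  constructor <;> intro h4 <;> rcases h3 with h3 | h3 <;> omega

theorem no_contact (hv : Valid Q ω) (hg : Good Q ω) : ∀ x ∈ Sn ω, ∀ y ∈ Sp ω, ¬ Adj x y := by
  intro x hx y hy hxy
  obtain ⟨w, h1, h2⟩ := adj_site hxy
  have h3 := (mc_corner hv hg hx.1 h1).1 hx.2
  have h4 := (mc_corner hv hg hy.1 h2).2 hy.2
  omega

theorem rf_s1 (hv : Valid Q ω) (v : P2) : s1 ((rf Q ω).1 v) = s1 (ω.1 v) := by
  by_cases h : v ∈ VF Q
  · rw [rf_of_mem h, s1_refl]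
  · rw [rf_of_notMem h, hv.ht.off v h]

theorem rf_mC (hv : Valid Q ω) (t : P2) : mC (rf Q ω) t ↔ mC ω t := by
  unfold mC
  rw [rf_s1 hv]
  rfl

theorem rf_Sn (hv : Valid Q ω) : Sn (rf Q ω) = Sp ω := by
  ext t
  unfold Sn Sp
  simp only [Set.mem_setOf_eq]
  rw [rf_mC hv]
  refine and_congr_right fun h => ?_
  have h1 : t ∈ VF Q := mem_VF.2 ⟨t, mc_mem hv h, base_mem_up t⟩
  rw [rf_of_mem h1]
  omega

/-- an up triangle containing two adjacent sites -/
theorem edge_tri {u v : P2} (h : Adj u v) : ∃ t, u ∈ up t ∧ v ∈ up t := by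
  obtain ⟨w, h1 | h1 | h1 | h1 | h1 | h1⟩ := adj_up h <;> refine ⟨w, ?_, ?_⟩ <;>
    rw [mem_up] <;> simp [h1.1, h1.2]

theorem tri_adj {t t' v : P2} (h1 : v ∈ up t) (h2 : v ∈ up t') (hne : t ≠ t') : Adj t t' := by
  rw [mem_up'] at h1 h2
  obtain ⟨a, b⟩ := t
  obtain ⟨a', b'⟩ := t'
  obtain ⟨x, y⟩ := v
  rw [adj_iff]
  simp only [Prod.mk.injEq, ne_eq] at *
  omega

/-- a path of sites of `X` gives a path of triangles touching `X` -/
theorem tri_path {X : Set P2} {S : Set P2} (hS : ∀ t ∈ S, ∀ v ∈ up t, v ∉ X) {u v : P2}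
    (hu : u ∈ X) (p : Relation.ReflTransGen (StepIn X) u v) :
    Relation.ReflTransGen (StepIn Sᶜ) u v := by
  have hb : ∀ w ∈ X, w ∈ Sᶜ := fun w hw h => hS w h w (base_mem_up w) hw
  induction p with
  | refl => exact Relation.ReflTransGen.refl
  | @tail x y _ h2 ih =>
    obtain ⟨hx, hy, hxy⟩ := h2
    obtain ⟨t, h3, h4⟩ := edge_tri hxy
    have ht : t ∈ Sᶜ := fun h => hS t h x h3 hx
    have s1 : Relation.ReflTransGen (StepIn Sᶜ) x t := by
      by_cases e : x = t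
      · rw [e]
      · exact Relation.ReflTransGen.single ⟨hb x hx, ht, tri_adj (base_mem_up x) h3 e⟩
    have s2 : Relation.ReflTransGen (StepIn Sᶜ) t y := by
      by_cases e : t = y
      · rw [e]
      · exact Relation.ReflTransGen.single ⟨ht, hb y hy, tri_adj h4 (base_mem_up y) e⟩
    exact ih.trans (s1.trans s2)

theorem hb_of_sepr (hv : Valid Q ω) (hg : Good Q ω) {a : P2} {n : ℕ} (h : Sepr (Sn ω) a n (2 * n)) :
    ω ∈ Hb a n := by
  intro u v hu hv' p
  have huv : u ≠ v := fun e => hu (ball_mono a (by omega) (e ▸ hv'))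
  have hu1 : u ∈ {x : P2 | 1 ≤ ω.1 x} := by
    rcases Relation.ReflTransGen.cases_head p with h1 | ⟨w, h1, _⟩
    · exact absurd h1 huv
    · exact h1.1
  refine h u v (fun h1 => hu (ball_mono a (by omega) h1)) hv' (tri_path ?_ hu1 p)
  intro t ht w hw h1
  have h2 := (mc_corner hv hg ht.1 hw).1 ht.2
  have h3 : 1 ≤ ω.1 w := h1
  omega

theorem hb'_of_sepr (hv : Valid Q ω) (hg : Good Q ω) {a : P2} {n : ℕ} (h : Sepr (Sp ω) a n (2 * n)) :
    ω ∈ Hb' a n := by
  intro u v hu hv' p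
  have huv : u ≠ v := fun e => hu (ball_mono a (by omega) (e ▸ hv'))
  have hu1 : u ∈ {x : P2 | ω.1 x ≤ 0} := by
    rcases Relation.ReflTransGen.cases_head p with h1 | ⟨w, h1, _⟩
    · exact absurd h1 huv
    · exact h1.1
  refine h u v (fun h1 => hu (ball_mono a (by omega) h1)) hv' (tri_path ?_ hu1 p)
  intro t ht w hw h1
  have h2 := (mc_corner hv hg ht.1 hw).2 ht.2
  have h3 : ω.1 w ≤ 0 := h1
  omega

/-- events of the two signs -/
def An (a : P2) (n : ℕ) : Set Cfg := {ω | Sepr (Sn ω) a n (2 * n)}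
def Ap (a : P2) (n : ℕ) : Set Cfg := {ω | Sepr (Sp ω) a n (2 * n)}

/-- **fair sign of the level of a minus closed layer** -/
theorem fair {c : ℝ} (hc : 1 ≤ c) {g : Cfg → ℝ} (hg0 : ∀ ω, 0 ≤ g ω) (hg : TZ g) {a : P2} {n : ℕ}
    (hn : 1 ≤ n) :
    E c Q (fun ω => g ω * ind (Blk a n (2 * n)) ω) / 2 ≤ E c Q (fun ω => g ω * ind (An a n) ω) ∧
    E c Q (fun ω => g ω * ind (Blk a n (2 * n)) ω) / 2 ≤ E c Q (fun ω => g ω * ind (Ap a n) ω) := by
  have e1 : E c Q (fun ω => g ω * ind (An a n) ω) = E c Q (fun ω => g ω * ind (Ap a n) ω) := by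
    rw [← E_rf c Q (fun ω => g ω * ind (An a n) ω)]
    refine E_congr fun ω hω => ?_
    have h1 : g (rf Q ω) = g ω := hg _ _ (fun v => rf_s1 hω v) (fun t => rfl)
    rw [h1]
    congr 1
    refine ind_congr ?_
    show Sepr (Sn (rf Q ω)) a n (2 * n) ↔ Sepr (Sp ω) a n (2 * n)
    rw [rf_Sn hω]
  have e2 : E c Q (fun ω => g ω * ind (Blk a n (2 * n)) ω) ≤
      E c Q (fun ω => g ω * ind (An a n) ω) + E c Q (fun ω => g ω * ind (Ap a n) ω) := by
    rw [← E_add]
    refine E_pos_mono hc fun ω hω hgd => ?_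
    rw [← mul_add]
    refine mul_le_mul_of_nonneg_left ?_ (hg0 ω)
    by_cases h : ω ∈ Blk a n (2 * n)
    · have h' : Sepr (Sn ω ∪ Sp ω) a n (2 * n) := by
        rw [← sn_union]; exact h
      rw [ind_of_mem h]
      rcases sepr_or (no_contact hω hgd) hn (by omega) h' with h1 | h1
      · have : ind (An a n) ω = 1 := ind_of_mem h1
        rw [this]
        linarith [ind_nonneg (Ap a n) ω]
      · have : ind (Ap a n) ω = 1 := ind_of_mem h1
        rw [this]
        linarith [ind_nonneg (An a n) ω]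
    · rw [ind_of_not_mem h]
      exact add_nonneg (ind_nonneg _ _) (ind_nonneg _ _)
  constructor <;> linarith

/-- **B3 (BULK)**, for a general function of `(s1, z)` off `ball a (K n)`. -/
theorem bulk {c : ℝ} (hc : 1 ≤ c) {K : ℕ} {p : ℝ} (h : RSW c K p) {n : ℕ} (hn : 1 ≤ n) {a : P2}
    (hQ : SC Q) (hB : ball a (K * n) ⊆ Q) {g : Cfg → ℝ} (hg0 : ∀ ω, 0 ≤ g ω)
    (hg : OffTZ (ball a (K * n)) g) :
    p / 2 * E c Q g ≤ E c Q (fun ω => g ω * ind (Hb a n) ω) := by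
  have h1 := h.minus n hn a Q hQ hB g hg0 hg
  have h2 := (fair (Q := Q) hc hg0 hg.tz (a := a) hn).1
  have h3 : E c Q (fun ω => g ω * ind (An a n) ω) ≤ E c Q (fun ω => g ω * ind (Hb a n) ω) := by
    refine E_pos_mono hc fun ω hω hgd => mul_le_mul_of_nonneg_left ?_ (hg0 ω)
    exact ind_le_ind fun h4 => hb_of_sepr hω hgd h4
  linarith

/-- the other sign -/
theorem bulk' {c : ℝ} (hc : 1 ≤ c) {K : ℕ} {p : ℝ} (h : RSW c K p) {n : ℕ} (hn : 1 ≤ n) {a : P2}
    (hQ : SC Q) (hB : ball a (K * n) ⊆ Q) {g : Cfg → ℝ} (hg0 : ∀ ω, 0 ≤ g ω)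
    (hg : OffTZ (ball a (K * n)) g) :
    p / 2 * E c Q g ≤ E c Q (fun ω => g ω * ind (Hb' a n) ω) := by
  have h1 := h.minus n hn a Q hQ hB g hg0 hg
  have h2 := (fair (Q := Q) hc hg0 hg.tz (a := a) hn).2
  have h3 : E c Q (fun ω => g ω * ind (Ap a n) ω) ≤ E c Q (fun ω => g ω * ind (Hb' a n) ω) := by
    refine E_pos_mono hc fun ω hω hgd => mul_le_mul_of_nonneg_left ?_ (hg0 ω)
    exact ind_le_ind fun h4 => hb'_of_sepr hω hgd h4
  linarith

end Crest.Agent.R144.Bd3856
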