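import Crest.Agent.R144.Pos2_561

/-!
# R144: Janiszewski's theorem on the triangular lattice (helper856)

* `janis` : `A`, `B` sets of sites of the triangular lattice without contact, `A` finite.  If two points are joined
  off `A` and joined off `B` then they are joined off `A ∪ B`;
* `sepr_or` : if `A ∪ B` separates `ball a m` from the outside of `ball a N`, `A` and `B` without contact, then
  `A` does or `B` does (`1 ≤ m ≤ N`).
-/

set_option autoImplicit false
set_option linter.unusedSimpArgs false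

noncomputable section

namespace Crest.Agent.R144.Bd3856

open Finset
open Crest.Agent.R144.It844 (P2 adj_iff adj_symm)
open Crest.Agent.R144.Zg349
open Crest.Agent.R144.Pst967 (hexB conn_in_hexB path_symm)
open Crest.Agent.R144.Rsw867
open Crest.ProbabilityR.HexHeights (Adj)

section janis
variable {A B : Set P2} {u v : P2}

/-- the sites joined to `u` off `A ∪ B` -/
def Uc (A B : Set P2) (u : P2) : Set P2 := {w | Relation.ReflTransGen (StepIn (A ∪ B)ᶜ) u w}

open Classical in
/-- crossing form -/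
def wf (A B : Set P2) (u x y : P2) : ℤ :=
  (if x ∈ Uc A B u ∧ y ∈ A then 1 else 0) - (if x ∈ A ∧ y ∈ Uc A B u then 1 else 0)

theorem uc_not {hu : u ∉ A ∪ B} {w : P2} (h : w ∈ Uc A B u) : w ∉ A ∪ B := by
  have h' : Relation.ReflTransGen (StepIn (A ∪ B)ᶜ) u w := h
  induction h' with
  | refl => exact hu
  | tail _ h2 _ => exact h2.2.1

theorem uc_step {x y : P2} (hu : u ∉ A ∪ B) (hx : x ∈ Uc A B u) (hxy : Adj x y) (hy : y ∉ A ∪ B) :
    y ∈ Uc A B u :=
  Relation.ReflTransGen.tail (show Relation.ReflTransGen (StepIn (A ∪ B)ᶜ) u x from hx)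
    ⟨uc_not (hu := hu) hx, hy, hxy⟩

theorem wf_anti (x y : P2) : wf A B u y x = - wf A B u x y := by
  unfold wf
  by_cases h1 : x ∈ Uc A B u <;> by_cases h2 : y ∈ Uc A B u <;> by_cases h3 : x ∈ A <;>
    by_cases h4 : y ∈ A <;> simp [h1, h2, h3, h4]

theorem wf_zero {x y : P2} (hx : x ∉ A) (hy : y ∉ A) : wf A B u x y = 0 := by
  unfold wf
  rw [if_neg fun h => hy h.2, if_neg fun h => hx h.1]
  rfl

/-- closed on triangles -/
theorem wf_closed (hu : u ∉ A ∪ B) (hAB : ∀ x ∈ A, ∀ y ∈ B, ¬ Adj x y) {x y z : P2} (hxy : Adj x y)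
    (hyz : Adj y z) (hzx : Adj z x) : wf A B u x y + wf A B u y z + wf A B u z x = 0 := by
  have hd : ∀ w, w ∈ Uc A B u → w ∉ A := fun w hw h => uc_not (hu := hu) hw (Or.inl h)
  have key : ∀ p q r : P2, Adj p q → Adj q r → Adj r p → p ∈ Uc A B u → q ∈ A →
      r ∈ A ∨ r ∈ Uc A B u := by
    intro p q r h1 h2 h3 h4 h5
    by_cases hr : r ∈ A
    · exact Or.inl hr
    · refine Or.inr (uc_step hu h4 (adj_symm h3) ?_)
      rintro (h | h)
      · exact hr h
      · exact hAB q h5 r h h2
  have k1 := key x y z hxy hyz hzx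
  have k2 := key y z x hyz hzx hxy
  have k3 := key z x y hzx hxy hyz
  have k4 := key y x z (adj_symm hxy) (adj_symm hzx) (adj_symm hyz)
  have k5 := key z y x (adj_symm hyz) (adj_symm hxy) (adj_symm hzx)
  have k6 := key x z y (adj_symm hzx) (adj_symm hyz) (adj_symm hxy)
  have dx := hd x
  have dy := hd y
  have dz := hd z
  unfold wf
  by_cases ax : x ∈ A <;> by_cases ay : y ∈ A <;> by_cases az : z ∈ A <;>
    by_cases ux : x ∈ Uc A B u <;> by_cases uy : y ∈ Uc A B u <;> by_cases uz : z ∈ Uc A B u <;>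
    simp only [ax, ay, az, ux, uy, uz, not_true_eq_false, not_false_eq_true, imp_false, forall_const,
      or_false, or_true, or_self, and_true, and_false, and_self, if_true, if_false, true_and, false_and,
      false_implies, implies_true, true_implies] at * <;> norm_num

/-- **Janiszewski's theorem.** -/
theorem janis (hA : A.Finite) (hAB : ∀ x ∈ A, ∀ y ∈ B, ¬ Adj x y) (hu : u ∉ A ∪ B)
    (pA : Relation.ReflTransGen (StepIn Aᶜ) u v) (pB : Relation.ReflTransGen (StepIn Bᶜ) u v) :
    Relation.ReflTransGen (StepIn (A ∪ B)ᶜ) u v := by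
  classical
  obtain ⟨N, hN⟩ : ∃ N : ℤ, ∀ t ∈ A, N + 1 < t.1 := by
    rcases (hA.toFinset.image fun t => t.1).eq_empty_or_nonempty with h | h
    · refine ⟨0, fun t ht => ?_⟩
      have : t.1 ∈ hA.toFinset.image fun t => t.1 :=
        Finset.mem_image_of_mem _ (hA.mem_toFinset.2 ht)
      rw [h] at this
      exact absurd this (by simp)
    · refine ⟨Finset.min' _ h - 2, fun t ht => ?_⟩
      have := Finset.min'_le _ t.1
        (Finset.mem_image_of_mem (fun t : P2 => t.1) (hA.mem_toFinset.2 ht))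
      omega
  have far : ∀ x : P2, x.1 ≤ N + 1 → x ∉ A := fun x hx h => by
    have := hN x h
    omega
  have cl := fun {x y z : P2} => wf_closed (A := A) (B := B) (u := u) hu hAB (x := x) (y := y) (z := z)
  obtain ⟨g, hg1, hg2, -⟩ := Crest.Agent.R161.Geo729.poincare
    (fun p : P2 => wf A B u p (p.1 + 1, p.2)) (fun p : P2 => wf A B u p (p.1, p.2 + 1)) N
    (fun i j h => wf_zero (far _ (by simp only; omega)) (far _ (by simp only; omega)))
    (fun i j h => wf_zero (far _ (by simp only; omega)) (far _ (by simp only; omega)))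
    (fun i j => by
      have h1 := cl (x := (i, j)) (y := (i + 1, j)) (z := (i, j + 1)) (by rw [adj_iff]; simp)
        (by rw [adj_iff]; simp) (by rw [adj_iff]; simp)
      have h2 := cl (x := (i + 1, j)) (y := (i + 1, j + 1)) (z := (i, j + 1)) (by rw [adj_iff]; simp)
        (by rw [adj_iff]; simp) (by rw [adj_iff]; simp)
      have a1 := wf_anti (A := A) (B := B) (u := u) (i, j) (i, j + 1)
      have a2 := wf_anti (A := A) (B := B) (u := u) (i + 1, j) (i, j + 1)
      have a3 := wf_anti (A := A) (B := B) (u := u) (i, j + 1) (i + 1, j + 1)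
      simp only
      linarith)
  have hg3 : ∀ x y : P2, Adj x y → g y = g x + wf A B u x y := by
    intro x y hxy
    have b1 : ∀ p : P2, g (p.1 + 1, p.2) = g p + wf A B u p (p.1 + 1, p.2) := fun p => hg1 p.1 p.2
    have b2 : ∀ p : P2, g (p.1, p.2 + 1) = g p + wf A B u p (p.1, p.2 + 1) := fun p => hg2 p.1 p.2
    have b3 : ∀ p : P2, g (p.1, p.2 + 1) = g (p.1 + 1, p.2) +
        wf A B u (p.1 + 1, p.2) (p.1, p.2 + 1) := by
      intro p
      have h1 := cl (x := p) (y := (p.1 + 1, p.2)) (z := (p.1, p.2 + 1)) (by rw [adj_iff]; simp)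
        (by rw [adj_iff]; simp) (by rw [adj_iff]; simp [Prod.ext_iff])
      have a1 := wf_anti (A := A) (B := B) (u := u) p (p.1, p.2 + 1)
      have := b1 p
      have := b2 p
      linarith
    rcases adj_iff.1 hxy with h | h | h | h | h | h
    · rw [h]; exact b1 x
    · have h1 := b1 y
      have e : ((y.1 + 1, y.2) : P2) = x := by rw [h]; ext <;> simp
      rw [e] at h1
      have := wf_anti (A := A) (B := B) (u := u) x y
      linarith
    · rw [h]; exact b2 x
    · have h1 := b2 y
      have e : ((y.1, y.2 + 1) : P2) = x := by rw [h]; ext <;> simp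
      rw [e] at h1
      have := wf_anti (A := A) (B := B) (u := u) x y
      linarith
    · -- y = x + (1, -1): p = (x.1, x.2 - 1)
      have h1 := b3 (x.1, x.2 - 1)
      have e : (((x.1, x.2 - 1) : P2).1, ((x.1, x.2 - 1) : P2).2 + 1) = x := by ext <;> simp
      have e' : ((((x.1, x.2 - 1) : P2).1 + 1, ((x.1, x.2 - 1) : P2).2) : P2) = y := by rw [h]
      rw [e, e'] at h1
      have := wf_anti (A := A) (B := B) (u := u) x y
      linarith
    · have h1 := b3 (x.1 - 1, x.2)
      have e : (((x.1 - 1, x.2) : P2).1 + 1, ((x.1 - 1, x.2) : P2).2) = x := by ext <;> simp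
      have e' : ((((x.1 - 1, x.2) : P2).1, ((x.1 - 1, x.2) : P2).2 + 1) : P2) = y := by rw [h]
      rw [e, e'] at h1
      exact h1
  have h1 : g v = g u := by
    clear pB
    induction pA with
    | refl => rfl
    | tail _ h2 ih => rw [hg3 _ _ h2.2.2, ih, wf_zero h2.1 h2.2.1, add_zero]
  have h2 : ∀ w, Relation.ReflTransGen (StepIn Bᶜ) u w →
      g w = g u + (if w ∈ Uc A B u then 0 else 1) := by
    intro w hw
    induction hw with
    | refl =>
      rw [if_pos (show u ∈ Uc A B u from Relation.ReflTransGen.refl), add_zero]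
    | @tail x y _ h2 ih =>
      obtain ⟨hxB, hyB, hxy⟩ := h2
      rw [hg3 _ _ hxy, ih]
      have hd : ∀ w, w ∈ Uc A B u → w ∉ A := fun w hw h => uc_not (hu := hu) hw (Or.inl h)
      unfold wf
      by_cases hx : x ∈ Uc A B u <;> by_cases hy : y ∈ Uc A B u
      · rw [if_pos hx, if_pos hy, if_neg fun h => hd _ hy h.2, if_neg fun h => hd _ hx h.1]
        ring
      · have hyA : y ∈ A := by
          by_contra hyA
          exact hy (uc_step hu hx hxy fun h => h.elim hyA hyB)
        rw [if_pos hx, if_neg hy, if_pos ⟨hx, hyA⟩, if_neg fun h => hd _ hx h.1]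
        ring
      · have hxA : x ∈ A := by
          by_contra hxA
          exact hx (uc_step hu hy (adj_symm hxy) fun h => h.elim hxA hxB)
        rw [if_neg hx, if_pos hy, if_neg fun h => hd _ hy h.2, if_pos ⟨hxA, hy⟩]
        ring
      · rw [if_neg hx, if_neg hy, if_neg fun h => hx h.1, if_neg fun h => hy h.2]
        ring
  have h3 := h2 v pB
  by_contra h4
  rw [if_neg (show v ∉ Uc A B u from h4), h1] at h3
  omega

end janis

/-! ### annuli -/

theorem self_mem_ball (a : P2) (n : ℕ) : a ∈ ball a n := by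
  rw [mem_ball]; simp

theorem conn_ball (a : P2) (n : ℕ) : IsConn ((ball a n : Finset P2) : Set P2) := by
  have h := conn_shift a (S := ((hexB n : Finset P2) : Set P2)) fun u hu v hv =>
    (conn_in_hexB n (by simpa using hu)).trans (path_symm (conn_in_hexB n (by simpa using hv)))
  have e : {v : P2 | v - a ∈ ((hexB n : Finset P2) : Set P2)} = ((ball a n : Finset P2) : Set P2) := by
    ext v
    show (v - a ∈ ((hexB n : Finset P2) : Set P2)) ↔ v ∈ ((ball a n : Finset P2) : Set P2)
    simp only [Finset.mem_coe, mem_ball']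
  rw [e] at h
  exact h

/-- a site outside `ball a N` has a neighbour outside `ball a (N + 1)` or is outside itself -/
theorem out_step {a u : P2} {N : ℕ} (hu : u ∉ ball a N) :
    ∃ u', u' ∉ ball a (N + 1) ∧ (u' = u ∨ Adj u u') := by
  by_contra hcon
  push Not at hcon
  apply hu
  have k0 := hcon u
  have k1 := hcon (u.1 + 1, u.2)
  have k2 := hcon (u.1 - 1, u.2)
  have k3 := hcon (u.1, u.2 + 1)
  have k4 := hcon (u.1, u.2 - 1)
  have k5 := hcon (u.1 + 1, u.2 - 1)
  have k6 := hcon (u.1 - 1, u.2 + 1)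
  have m : ∀ w : P2, Adj u w → w ∈ ball a (N + 1) := fun w hw => by
    by_contra h
    exact (hcon w h).2 hw
  have m0 : u ∈ ball a (N + 1) := by
    by_contra h
    exact (hcon u h).1 rfl
  have m1 := m (u.1 + 1, u.2) (adj_iff.2 (by simp))
  have m2 := m (u.1 - 1, u.2) (adj_iff.2 (by simp))
  have m3 := m (u.1, u.2 + 1) (adj_iff.2 (by simp))
  have m4 := m (u.1, u.2 - 1) (adj_iff.2 (by simp))
  rw [mem_ball] at m0 m1 m2 m3 m4 ⊢
  simp only [abs_le] at *
  push_cast at *
  omega

/-- a site of `ball a (m + 1)` has a neighbour in `ball a m` or is in it -/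
theorem in_step {a v : P2} {m : ℕ} (hv : v ∈ ball a (m + 1)) :
    ∃ v', v' ∈ ball a m ∧ (v' = v ∨ Adj v' v) := by
  by_contra hcon
  push Not at hcon
  have m0 : v ∉ ball a m := fun h => (hcon v h).1 rfl
  have mm : ∀ w : P2, Adj w v → w ∉ ball a m := fun w hw h => (hcon w h).2 hw
  have m1 := mm (v.1 + 1, v.2) (adj_symm (adj_iff.2 (by simp)))
  have m2 := mm (v.1 - 1, v.2) (adj_symm (adj_iff.2 (by simp)))
  have m3 := mm (v.1, v.2 + 1) (adj_symm (adj_iff.2 (by simp)))
  have m4 := mm (v.1, v.2 - 1) (adj_symm (adj_iff.2 (by simp)))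
  have m5 := mm (v.1 + 1, v.2 - 1) (adj_symm (adj_iff.2 (by simp)))
  have m6 := mm (v.1 - 1, v.2 + 1) (adj_symm (adj_iff.2 (by simp)))
  rw [mem_ball] at m0 m1 m2 m3 m4 m5 m6 hv
  simp only [abs_le] at *
  push_cast at *
  omega

/-- **Janiszewski for the annulus.** -/
theorem sepr_or {A B : Set P2} (hAB : ∀ x ∈ A, ∀ y ∈ B, ¬ Adj x y) {a : P2} {m N : ℕ} (hm : 1 ≤ m)
    (hmN : m ≤ N) (h : Sepr (A ∪ B) a m N) : Sepr A a m N ∨ Sepr B a m N := by
  obtain ⟨m, rfl⟩ : ∃ k, m = k + 1 := ⟨m - 1, by omega⟩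
  set R : Set P2 := {t | t ∈ ball a (N + 1) ∧ t ∉ ball a m} with hR
  -- restrict to the annulus
  have hred : ∀ S : Set P2, Sepr S a (m + 1) N → Sepr (S ∩ R) a (m + 1) N := by
    intro S hS
    refine Sepr.congr hmN (fun t ht h1 h2 => ⟨h2, ht, h1 m le_rfl⟩) hS
  have hred' : ∀ S : Set P2, Sepr (S ∩ R) a (m + 1) N → Sepr S a (m + 1) N := fun S hS =>
    Sepr.mono Set.inter_subset_left hS
  by_contra hcon
  rw [not_or] at hcon
  have hA : ¬ Sepr (A ∩ R) a (m + 1) N := fun h1 => hcon.1 (hred' A h1)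
  have hB : ¬ Sepr (B ∩ R) a (m + 1) N := fun h1 => hcon.2 (hred' B h1)
  -- a far point
  obtain ⟨z, hz⟩ : ∃ z : P2, z ∉ ball a (N + 1) := by
    refine ⟨(a.1 + N + 2, a.2), fun h1 => ?_⟩
    rw [mem_ball] at h1
    have := abs_le.1 h1.1
    simp only at this
    push_cast at this
    omega
  -- extend paths
  have ext : ∀ S : Set P2, ¬ Sepr (S ∩ R) a (m + 1) N →
      Relation.ReflTransGen (StepIn (S ∩ R)ᶜ) z a := by
    intro S hS
    unfold Sepr at hS
    push Not at hS
    obtain ⟨u, v, hu, hv, p⟩ := hS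
    have huv : u ≠ v := fun e => hu (ball_mono a hmN (e ▸ hv))
    have hu0 : u ∈ (S ∩ R)ᶜ := by
      rcases Relation.ReflTransGen.cases_head p with h1 | ⟨w, h1, _⟩
      · exact absurd h1 huv
      · exact h1.1
    have hv0 : v ∈ (S ∩ R)ᶜ := by
      rcases Relation.ReflTransGen.cases_tail p with h1 | ⟨w, _, h1⟩
      · exact absurd h1.symm huv
      · exact h1.2.1
    obtain ⟨u', hu', hu''⟩ := out_step hu
    obtain ⟨v', hv', hv''⟩ := in_step hv
    have c1 : Relation.ReflTransGen (StepIn (S ∩ R)ᶜ) z u' := by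
      have := sc_ball a (N + 1) z (by simpa using hz) u' (by simpa using hu')
      refine path_mono ?_ this
      intro t ht h1
      exact ht (by simpa using h1.2.1)
    have c2 : Relation.ReflTransGen (StepIn (S ∩ R)ᶜ) v' a := by
      have := conn_ball a m v' (by simpa using hv') a (by simpa using self_mem_ball a m)
      refine path_mono ?_ this
      intro t ht h1
      exact h1.2.2 (by simpa using ht)
    have c3 : Relation.ReflTransGen (StepIn (S ∩ R)ᶜ) u' u := by
      rcases hu'' with h1 | h1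
      · rw [h1]
      · exact Relation.ReflTransGen.single ⟨fun h2 => hu' h2.2.1, hu0, adj_symm h1⟩
    have c4 : Relation.ReflTransGen (StepIn (S ∩ R)ᶜ) v v' := by
      rcases hv'' with h1 | h1
      · rw [h1]
      · exact Relation.ReflTransGen.single ⟨hv0, fun h2 => h2.2.2 hv', adj_symm h1⟩
    exact c1.trans (c3.trans (p.trans (c4.trans c2)))
  have hfin : (A ∩ R).Finite := by
    refine Set.Finite.subset (Finset.finite_toSet (ball a (N + 1))) ?_
    intro t ht
    exact ht.2.1
  have key := janis (A := A ∩ R) (B := B ∩ R) (u := z) (v := a) hfin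
    (fun x hx y hy => hAB x hx.1 y hy.1)
    (fun h1 => hz (by rcases h1 with h1 | h1 <;> exact h1.2.1)) (ext A hA) (ext B hB)
  have h5 := hred (A ∪ B) h
  have e : (A ∪ B) ∩ R = A ∩ R ∪ B ∩ R := Set.union_inter_distrib_right A B R
  rw [e] at h5
  exact h5 z a (fun h1 => hz (ball_mono a (Nat.le_succ N) h1)) (self_mem_ball a _) key

end Crest.Agent.R144.Bd3856
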