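import Crest.Agent.R144.Zf_349
import Crest.Agent.R144.Ccnt_311

/-!
# R144: counting good blocks and barriers for the `(s1, z)` laws (helper311)

* `lower2` : conditional association + lower comparison,
  `E_F [g f1] * Em_B [f2] ≤ E_F [g f1 f2]` for `f1, f2 ≥ 0` increasing in `B`, `g ≥ 0` off `B`;
* `Em c B` : the minimal law of `B` (`F01` law shifted by `2`), its association, sub-domain
  monotonicity (`Em_sub`), FKG gluing (`Em_prod`), many sub-blocks (`Em_union`);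
* `LowB c Bl A E` : the interface "given everything off an allowed block, the law in the block
  dominates the minimal law, also given an increasing event of the block" (`lowB_E` for `E c F`);
* `LowB.few_good`, `LowB.many_bad` : the two counts of the closed-contour Ward identity.
-/

set_option autoImplicit false
set_option linter.unusedSectionVars false
set_option linter.unusedSimpArgs false

noncomputable section

namespace Crest.Agent.R144.Ccn2311

open Finset
open Crest.Agent.R144.It844 (P2)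
open Crest.Agent.R144.Zg349 Crest.Agent.R144.Zk349 Crest.Agent.R144.Zd349 Crest.Agent.R144.Zm349
open Crest.Agent.R144.HyA349 Crest.Agent.R144.HyB349 Crest.Agent.R144.HyC349
open Crest.Agent.R144.Ze349 Crest.Agent.R144.Zf349
open Crest.Agent.R144.Ccnt311

/-! ### elementary closure properties -/

theorem incP_mul {f g : Cfg → ℝ} (hf : IncP f) (hg : IncP g) (hf0 : ∀ ω, 0 ≤ f ω)
    (hg0 : ∀ ω, 0 ≤ g ω) : IncP fun ω => f ω * g ω := fun _ _ h =>
  mul_le_mul (hf _ _ h) (hg _ _ h) (hg0 _) (hf0 _)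

theorem inTZ_mul {B : Finset P2} {f g : Cfg → ℝ} (hf : InTZ B f) (hg : InTZ B g) :
    InTZ B fun ω => f ω * g ω := fun ω ω' h1 h2 => by
  show f ω * g ω = f ω' * g ω'
  rw [hf ω ω' h1 h2, hg ω ω' h1 h2]

theorem offTZ_mul {B : Finset P2} {f g : Cfg → ℝ} (hf : OffTZ B f) (hg : OffTZ B g) :
    OffTZ B fun ω => f ω * g ω := fun ω ω' h1 h2 => by
  show f ω * g ω = f ω' * g ω'
  rw [hf ω ω' h1 h2, hg ω ω' h1 h2]

theorem inTZ_comp {B : Finset P2} {f : Cfg → ℝ} (hf : InTZ B f) (φ : ℝ → ℝ) :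
    InTZ B fun ω => φ (f ω) := fun ω ω' h1 h2 => by
  show φ (f ω) = φ (f ω')
  rw [hf ω ω' h1 h2]

theorem offTZ_comp {B : Finset P2} {f : Cfg → ℝ} (hf : OffTZ B f) (φ : ℝ → ℝ) :
    OffTZ B fun ω => φ (f ω) := fun ω ω' h1 h2 => by
  show φ (f ω) = φ (f ω')
  rw [hf ω ω' h1 h2]

theorem offTZ_const (B : Finset P2) (a : ℝ) : OffTZ B fun _ => a := fun _ _ _ _ => rfl
theorem inTZ_const (B : Finset P2) (a : ℝ) : InTZ B fun _ => a := fun _ _ _ _ => rfl

theorem inTZ_mono {B B' : Finset P2} (h : B ⊆ B') {f : Cfg → ℝ} (hf : InTZ B f) : InTZ B' f :=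
  fun ω ω' h1 h2 => hf ω ω' (fun v hv => h1 v (IV_mono h hv)) (fun t ht => h2 t (h ht))

theorem offTZ_anti {B B' : Finset P2} (h : B ⊆ B') {f : Cfg → ℝ} (hf : OffTZ B' f) : OffTZ B f :=
  fun ω ω' h1 h2 => hf ω ω' (fun v hv => h1 v fun hv' => hv (IV_mono h hv'))
    (fun t ht => h2 t fun ht' => ht (h ht'))

/-- observables of disjoint blocks see only what is off the other block -/
theorem inTZ_off {B B' : Finset P2} (h : Disjoint B B') {f : Cfg → ℝ} (hf : InTZ B f) :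
    OffTZ B' f := fun ω ω' h1 h2 => hf ω ω'
  (fun v hv => h1 v fun hv' => Finset.disjoint_left.1 h (IV_sub _ hv) (IV_sub _ hv'))
  (fun t ht => h2 t fun ht' => Finset.disjoint_left.1 h ht ht')

theorem leP_addH {ω ω' : Cfg} (h : LeP ω ω') : LeP (addH 2 ω') (addH 2 ω) := by
  have k : ∀ a : ℤ, s1 (a + 2) = !(s1 a) := s1_add_two
  refine ⟨fun x hx => ?_, fun t ht => ?_, fun t ht => ?_⟩
  · have h1 := h.v x
    simp only [addH, k] at hx ⊢
    revert h1 hx
    generalize s1 (ω.1 x) = a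
    generalize s1 (ω'.1 x) = b
    revert a b
    decide
  · have h1 := h.m t
    simp only [pC, mC, addH, k] at ht h1 ⊢
    have := h1 ⟨ht.1, by simpa using ht.2⟩
    exact ⟨this.1, by simp [this.2]⟩
  · have h1 := h.p t
    simp only [pC, mC, addH, k] at ht h1 ⊢
    have := h1 ⟨ht.1, by simpa using ht.2⟩
    exact ⟨this.1, by simp [this.2]⟩

theorem incP_neg_addH {f : Cfg → ℝ} (hf : IncP f) : IncP fun ω => -f (addH 2 ω) := fun _ _ h =>
  neg_le_neg (hf _ _ (leP_addH h))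

theorem inTZ_addH {B : Finset P2} {f : Cfg → ℝ} (hf : InTZ B f) : InTZ B fun ω => f (addH 2 ω) :=
  fun _ _ h1 h2 => hf _ _ (fun v hv => s1_shift2 (h1 v hv)) h2

theorem offTZ_addH {B : Finset P2} {f : Cfg → ℝ} (hf : OffTZ B f) :
    OffTZ B fun ω => f (addH 2 ω) :=
  fun _ _ h1 h2 => hf _ _ (fun v hv => s1_shift2 (h1 v hv)) h2

/-! ### the finite volume laws as abstract laws -/

theorem law_E {c : ℝ} (hc : 1 ≤ c) (F : Finset P2) : Law (fun _ => True) (E c F) where
  add := fun _ _ _ _ => E_add c F _ _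
  smul := fun a _ _ => E_smul c F a _
  mono := fun _ _ _ _ h => E_mono hc fun _ _ => h _
  one := E_const hc F 1

/-- minimal law of `B` -/
def Em (c : ℝ) (B : Finset P2) (f : Cfg → ℝ) : ℝ := E c B (fun ω => f (addH 2 ω))

theorem law_Em {c : ℝ} (hc : 1 ≤ c) (B : Finset P2) : Law (fun _ => True) (Em c B) where
  add := fun _ _ _ _ => E_add c B _ _
  smul := fun a _ _ => E_smul c B a _
  mono := fun _ _ _ _ h => E_mono hc fun _ _ => h _
  one := E_const hc B 1

theorem Em_nonneg {c : ℝ} (hc : 1 ≤ c) (B : Finset P2) {f : Cfg → ℝ} (h : ∀ ω, 0 ≤ f ω) :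
    0 ≤ Em c B f := E_nonneg hc fun _ _ => h _

/-- association of the minimal law -/
theorem Em_assoc {c : ℝ} (hc : 1 ≤ c) {B : Finset P2} (hB : SC B) {f g : Cfg → ℝ}
    (hf : IncP f) (hg : IncP g) : Em c B f * Em c B g ≤ Em c B (fun ω => f ω * g ω) := by
  have h := assoc hc hB (incP_neg_addH hf) (incP_neg_addH hg)
  have e1 : E c B (fun ω => -f (addH 2 ω)) = - Em c B f := by
    have := E_smul c B (-1) (fun ω => f (addH 2 ω))
    simpa [Em] using this
  have e2 : E c B (fun ω => -g (addH 2 ω)) = - Em c B g := by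
    have := E_smul c B (-1) (fun ω => g (addH 2 ω))
    simpa [Em] using this
  rw [e1, e2, neg_mul_neg] at h
  simpa [Em] using h

/-- **Sub-domain comparison for the minimal law**, conditional form. -/
theorem Em_sub {c : ℝ} (hc : 1 ≤ c) {F B : Finset P2} (hF : SC F) (hB : SC B) (hBF : B ⊆ F)
    {f g : Cfg → ℝ} (hf : IncP f) (hin : InTZ B f) (hg0 : ∀ ω, 0 ≤ g ω) (hg : OffTZ B g) :
    Em c F g * Em c B f ≤ Em c F (fun ω => g ω * f ω) := by
  have h := upper hc hF hB hBF (incP_neg_addH hf) (f := fun ω => -f (addH 2 ω))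
    (g := fun ω => g (addH 2 ω)) (inTZ_comp (inTZ_addH hin) (fun x => -x)) (fun ω => hg0 _)
    (offTZ_addH hg)
  have e1 : E c B (fun ω => -f (addH 2 ω)) = - Em c B f := by
    have := E_smul c B (-1) (fun ω => f (addH 2 ω))
    simpa [Em] using this
  have e2 : E c F (fun ω => g (addH 2 ω) * -f (addH 2 ω)) = - Em c F (fun ω => g ω * f ω) := by
    have := E_smul c F (-1) (fun ω => g (addH 2 ω) * f (addH 2 ω))
    simp only [neg_mul, one_mul] at this
    simp only [mul_neg]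
    exact this
  rw [e1, e2] at h
  have e3 : E c F (fun ω => g (addH 2 ω)) = Em c F g := rfl
  rw [e3] at h
  linarith

/-- domain monotonicity of the minimal law -/
theorem Em_mono_dom {c : ℝ} (hc : 1 ≤ c) {F B : Finset P2} (hF : SC F) (hB : SC B) (hBF : B ⊆ F)
    {f : Cfg → ℝ} (hf : IncP f) (hin : InTZ B f) : Em c B f ≤ Em c F f := by
  have h := Em_sub hc hF hB hBF hf hin (g := fun _ => 1) (fun _ => zero_le_one) (offTZ_const _ 1)
  simp only [one_mul] at h
  have e : Em c F (fun _ => (1 : ℝ)) = 1 := E_const hc F 1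
  rwa [e, one_mul] at h

/-- **FKG gluing** for the minimal law. -/
theorem Em_prod {c : ℝ} (hc : 1 ≤ c) {B : Finset P2} (hB : SC B) {ι : Type*} (S : Finset ι)
    {f : ι → Cfg → ℝ} (hf : ∀ i ∈ S, IncP (f i)) (hf0 : ∀ i ∈ S, ∀ ω, 0 ≤ f i ω) :
    IncP (fun ω => ∏ i ∈ S, f i ω) ∧ ∏ i ∈ S, Em c B (f i) ≤ Em c B (fun ω => ∏ i ∈ S, f i ω) := by
  classical
  induction S using Finset.induction_on with
  | empty =>
    refine ⟨fun _ _ _ => by simp, ?_⟩
    simp only [Finset.prod_empty]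
    exact (E_const hc B 1).ge
  | insert j S hj ih =>
    obtain ⟨ih1, ih2⟩ := ih (fun i hi => hf i (Finset.mem_insert_of_mem hi))
      (fun i hi => hf0 i (Finset.mem_insert_of_mem hi))
    have hj1 := hf j (Finset.mem_insert_self _ _)
    have hj0 := hf0 j (Finset.mem_insert_self _ _)
    have h0 : ∀ ω, 0 ≤ ∏ i ∈ S, f i ω := fun ω =>
      Finset.prod_nonneg fun i hi => hf0 i (Finset.mem_insert_of_mem hi) ω
    simp only [Finset.prod_insert hj]
    refine ⟨incP_mul hj1 ih1 hj0 h0, ?_⟩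
    exact (mul_le_mul_of_nonneg_left ih2 (Em_nonneg hc B hj0)).trans (Em_assoc hc hB hj1 ih1)

/-! ### conditional association + lower comparison -/

/-- ratio form of the minimal law -/
theorem Em_ratio {c : ℝ} (hc : 1 ≤ c) {G B : Finset P2} (hG : Big G B) (hB : SC B)
    {f : Cfg → ℝ} (hf : IncP f) (hin : InTZ B f) :
    Em c B f = EB c (ID G) B (etaMin G B) (fun T P M => f (mk B T P M)) /
      EB c (ID G) B (etaMin G B) (fun _ _ _ => 1) := by
  have hm1pos : 0 < EB c (ID G) B (etaMin G B) (fun _ _ _ => 1) := EB_one_pos hc (etaMin_ok G B)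
  have e1 := EB_min c hG hB hf hin
  have e2 := EB_min c hG hB incP_one (inTZ_one B)
  rw [S_one] at e2
  have hZB := Z_pos hc B
  have hn := Nm_pos B
  have hk := Kmin_pos G B
  have hnw := ncl_pos G ∅
  set mf := EB c (ID G) B (etaMin G B) (fun T P M => f (mk B T P M)) with hmf
  set m1 := EB c (ID G) B (etaMin G B) (fun _ _ _ => 1) with hm1
  unfold Em
  rw [E_eq_S, div_eq_div_iff hZB.ne' hm1pos.ne']
  have h8 : (ncl G ∅ * Kmin G B) * Nm B * (S c B (fun ω => f (addH 2 ω)) * m1) =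
      (ncl G ∅ * Kmin G B) * Nm B * (mf * Z c B) := by
    calc _ = (ncl G ∅ * Kmin G B * S c B (fun ω => f (addH 2 ω))) * (m1 * Nm B) := by ring
      _ = (mf * Nm B) * (ncl G ∅ * Kmin G B * Z c B) := by rw [← e1, e2]
      _ = _ := by ring
  exact mul_left_cancel₀ (by positivity) h8

/-- **Conditional association and lower comparison.** -/
theorem lower2 {c : ℝ} (hc : 1 ≤ c) {F B : Finset P2} (hF : SC F) (hB : SC B)
    {f1 f2 g : Cfg → ℝ} (hf1 : IncP f1) (hin1 : InTZ B f1) (h10 : ∀ ω, 0 ≤ f1 ω)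
    (hf2 : IncP f2) (hin2 : InTZ B f2) (h20 : ∀ ω, 0 ≤ f2 ω) (hg0 : ∀ ω, 0 ≤ g ω)
    (hg : OffTZ B g) :
    E c F (fun ω => g ω * f1 ω) * Em c B f2 ≤ E c F (fun ω => g ω * (f1 ω * f2 ω)) := by
  classical
  obtain ⟨G, hFG, hG⟩ := exists_big F B hB
  have hBG := hG.sub
  set fB : Finset P2 → Finset P2 → Finset P2 → ℝ := fun T P M => f2 (mk B T P M) with hfB
  have hincB : Inc fB := mkG_inc B hf2
  set mf := EB c (ID G) B (etaMin G B) fB with hmf
  set m1 := EB c (ID G) B (etaMin G B) (fun _ _ _ => 1) with hm1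
  have hm1pos : 0 < m1 := EB_one_pos hc (etaMin_ok G B)
  -- the increasing nonnegative factor `Ain * f1`
  have hA1 : Inc (fun T P M => Ain F B T P M * f1 (mk B T P M)) := by
    intro T T' P P' M M' hT hP hM
    exact mul_le_mul (Ain_inc F B _ _ _ _ _ _ hT hP hM) (mkG_inc B hf1 _ _ _ _ _ _ hT hP hM)
      (h10 _) (Ain_nonneg F B _ _ _)
  have hloc : ∀ T1 ⊆ IV G \ IV B, ∀ Z1 ⊆ G \ B, (∀ t ∈ Z1, Cs up T1 t) →
      EB c (ID G) B (eta T1 Z1) (fun T P M => Ain F B T P M * f1 (mk B T P M)) * mf ≤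
        EB c (ID G) B (eta T1 Z1)
          (fun T P M => Ain F B T P M * (f1 (mk B T P M) * f2 (mk B T P M))) * m1 := by
    intro T1 hT1 Z1 hZ1 hs
    have hle : (etaMin G B).Le (eta T1 Z1) := by
      refine ⟨hT1, Finset.empty_subset _, ?_⟩
      intro e he
      have h1 := Finset.mem_filter.1 he
      refine Finset.mem_filter.2 ⟨hZ1 h1.1, fun v hv => ?_⟩
      exact (Finset.mem_sdiff.1 (hT1 (cs_minus (hs e h1.1) h1.2 v hv))).1
    have hok := eta_ok (B := B) (G := G) hT1 hZ1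
    have h1 := EB_mono hc (VA := ID G) (etaMin_ok G B) hok hle hincB
    have h2 := EB_fkg hc (VA := ID G) hok hA1 hincB
    have o1 : 0 < EB c (ID G) B (eta T1 Z1) (fun _ _ _ => 1) := EB_one_pos hc hok
    have hA : 0 ≤ EB c (ID G) B (eta T1 Z1)
        (fun T P M => Ain F B T P M * f1 (mk B T P M)) :=
      EB_nonneg hc fun _ _ _ => mul_nonneg (Ain_nonneg F B _ _ _) (h10 _)
    have e3 : EB c (ID G) B (eta T1 Z1)
          (fun T P M => Ain F B T P M * f1 (mk B T P M) * fB T P M) =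
        EB c (ID G) B (eta T1 Z1)
          (fun T P M => Ain F B T P M * (f1 (mk B T P M) * f2 (mk B T P M))) := by
      congr 1
      funext T P M
      rw [hfB]; ring
    rw [e3] at h2
    set o := EB c (ID G) B (eta T1 Z1) (fun _ _ _ => 1)
    set a := EB c (ID G) B (eta T1 Z1) (fun T P M => Ain F B T P M * f1 (mk B T P M))
    set b := EB c (ID G) B (eta T1 Z1) fB
    set d := EB c (ID G) B (eta T1 Z1)
      (fun T P M => Ain F B T P M * (f1 (mk B T P M) * f2 (mk B T P M)))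
    have h3 : a * (mf * o) ≤ a * (m1 * b) := mul_le_mul_of_nonneg_left h1 hA
    have h4 : m1 * (a * b) ≤ m1 * (o * d) := mul_le_mul_of_nonneg_left h2 hm1pos.le
    have h5 : o * (a * mf) ≤ o * (d * m1) := by linarith
    exact le_of_mul_le_mul_left h5 o1
  have s1 := env c hF hFG hBG (incP_mul hf1 hf2 h10 h20) (inTZ_mul hin1 hin2) hg
  have s2 := env c hF hFG hBG hf1 hin1 hg
  have hmain : S c F (fun ω => g ω * f1 ω) * mf ≤ S c F (fun ω => g ω * (f1 ω * f2 ω)) * m1 := by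
    have h7 := sum_env_le hc (F := F) (G := G) (B := B) hg0
      (a := fun η => EB c (ID G) B η (fun T P M => Ain F B T P M * f1 (mk B T P M)) * mf)
      (b := fun η => EB c (ID G) B η
        (fun T P M => Ain F B T P M * (f1 (mk B T P M) * f2 (mk B T P M))) * m1) hloc
    rw [s1, s2, mul_assoc, mul_assoc, Finset.sum_mul, Finset.sum_mul]
    simp only [Finset.sum_mul, mul_assoc] at h7 ⊢
    exact h7
  have hZF := Z_pos hc F
  rw [Em_ratio hc hG hB hf2 hin2, E_eq_S, E_eq_S, div_mul_div_comm,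
    div_le_div_iff₀ (mul_pos hZF hm1pos) hZF]
  nlinarith [mul_le_mul_of_nonneg_left hmain hZF.le]

/-! ### events -/

/-- increasing event of the block `B` -/
structure IncE (B : Finset P2) (G : Set Cfg) : Prop where
  inc : IncP (ind G)
  loc : InTZ B (ind G)

theorem IncE.mono {B B' : Finset P2} (h : B ⊆ B') {G : Set Cfg} (hG : IncE B G) : IncE B' G :=
  ⟨hG.inc, inTZ_mono h hG.loc⟩

theorem IncE.inter {B : Finset P2} {G H : Set Cfg} (hG : IncE B G) (hH : IncE B H) :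
    IncE B (G ∩ H) := by
  have e : (ind (G ∩ H) : Cfg → ℝ) = fun ω => ind G ω * ind H ω := funext (ind_inter G H)
  exact ⟨by rw [e]; exact incP_mul hG.inc hH.inc (ind_nonneg _) (ind_nonneg _),
    by rw [e]; exact inTZ_mul hG.loc hH.loc⟩

theorem ind_biUnion {ι : Type*} (S : Finset ι) (X : ι → Set Cfg) (ω : Cfg) :
    ind (⋃ i ∈ S, X i) ω = 1 - ∏ i ∈ S, (1 - ind (X i) ω) := by
  by_cases h : ω ∈ ⋃ i ∈ S, X i
  · rw [ind_mem h]
    simp only [Set.mem_iUnion] at h
    obtain ⟨i, hi, hiX⟩ := h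
    rw [Finset.prod_eq_zero hi (by rw [ind_mem hiX]; ring)]; ring
  · rw [ind_not h]
    simp only [Set.mem_iUnion, not_exists] at h
    rw [Finset.prod_eq_one fun i hi => by rw [ind_not (h i hi)]; ring]; ring

theorem IncE.biUnion {B : Finset P2} {ι : Type*} (S : Finset ι) {X : ι → Set Cfg}
    (h : ∀ i ∈ S, IncE B (X i)) : IncE B (⋃ i ∈ S, X i) := by
  constructor
  · intro ω ω' hle
    by_cases hω : ω ∈ ⋃ i ∈ S, X i
    · have h0 := hω
      simp only [Set.mem_iUnion] at h0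
      obtain ⟨i, hi, hiX⟩ := h0
      have h1 := (h i hi).inc ω ω' hle
      rw [ind_mem hiX] at h1
      have h2 : ω' ∈ X i := by
        by_contra hn
        rw [ind_not hn] at h1
        linarith
      have h3 : ω' ∈ ⋃ i ∈ S, X i := by
        simp only [Set.mem_iUnion]
        exact ⟨i, hi, h2⟩
      rw [ind_mem hω, ind_mem h3]
    · rw [ind_not hω]; exact ind_nonneg _ _
  · intro ω ω' h1 h2
    rw [ind_biUnion, ind_biUnion]
    congr 1
    exact Finset.prod_congr rfl fun i hi => by rw [(h i hi).loc ω ω' h1 h2]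

/-- **Many sub-blocks**: if each of the disjoint sub-blocks `b i ⊆ B` carries the increasing event
`X i` with minimal probability `≥ p`, then the minimal law of `B` gives `⋃ X i` probability
`≥ 1 - (1 - p) ^ k`. -/
theorem Em_union {c : ℝ} (hc : 1 ≤ c) {B : Finset P2} (hB : SC B) {ι : Type*} (S : Finset ι)
    {b : ι → Finset P2} (hb : ∀ i ∈ S, SC (b i)) (hbB : ∀ i ∈ S, b i ⊆ B)
    (hdis : ∀ i ∈ S, ∀ j ∈ S, i ≠ j → Disjoint (b i) (b j)) {X : ι → Set Cfg}
    (hX : ∀ i ∈ S, IncE (b i) (X i)) {p : ℝ} (hp1 : p ≤ 1)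
    (hp : ∀ i ∈ S, p ≤ Em c (b i) (ind (X i))) :
    1 - (1 - p) ^ S.card ≤ Em c B (ind (⋃ i ∈ S, X i)) := by
  classical
  have hE := law_Em hc B
  have h := hE.prod_le alg_top S (fun i ω => 1 - ind (X i) ω) (fun _ => 1 - p)
    (fun j => OffTZ (b j)) (fun j f g => offTZ_mul) (fun _ _ => trivial)
    (fun i _ ω => by linarith [ind_le_one (X i) ω]) (fun _ _ => by linarith)
    (fun i hi j hj hij => offTZ_comp (inTZ_off (hdis i hi j hj hij) (hX i hi).loc) (fun x => 1 - x))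
    (fun j hj g _ hg0 hg => by
      have h1 := Em_sub hc hB (hb j hj) (hbB j hj) (hX j hj).inc (hX j hj).loc hg0 hg
      have h2 : Em c B (fun w => g w * (1 - ind (X j) w)) =
          Em c B g - Em c B (fun w => g w * ind (X j) w) := by
        rw [← hE.sub alg_top trivial trivial]
        congr 1; funext w; ring
      have h3 : 0 ≤ Em c B g := Em_nonneg hc B hg0
      have h4 := mul_le_mul_of_nonneg_left (hp j hj) h3
      rw [h2]; linarith)
    (fun _ => 1) trivial (fun _ => zero_le_one) (fun j _ => offTZ_const _ 1)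
  simp only [one_mul] at h
  rw [Finset.prod_const, hE.one, mul_one] at h
  have e : Em c B (ind (⋃ i ∈ S, X i)) = 1 - Em c B (fun w => ∏ i ∈ S, (1 - ind (X i) w)) := by
    rw [show (ind (⋃ i ∈ S, X i) : Cfg → ℝ) =
      fun w => (fun _ => (1 : ℝ)) w - (fun w => ∏ i ∈ S, (1 - ind (X i) w)) w from
      funext fun w => ind_biUnion S X w, hE.sub alg_top trivial trivial, hE.one]
  rw [e]; linarith

/-! ### the interface -/

/-- Lower comparison interface: `A` admissible observables, `Bl` allowed blocks. -/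
structure LowB (c : ℝ) (Bl : Finset P2 → Prop) (A : (Cfg → ℝ) → Prop) (E' : (Cfg → ℝ) → ℝ) :
    Prop where
  alg : Alg A
  law : Law A E'
  loc : ∀ B f, InTZ B f → A f
  lb : ∀ B, Bl B → ∀ f1 f2 g : Cfg → ℝ, IncP f1 → InTZ B f1 → (∀ ω, 0 ≤ f1 ω) → IncP f2 →
    InTZ B f2 → (∀ ω, 0 ≤ f2 ω) → A g → (∀ ω, 0 ≤ g ω) → OffTZ B g →
    E' (fun ω => g ω * f1 ω) * Em c B f2 ≤ E' (fun ω => g ω * (f1 ω * f2 ω))

theorem lowB_E {c : ℝ} (hc : 1 ≤ c) {F : Finset P2} (hF : SC F) :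
    LowB c SC (fun _ => True) (E c F) where
  alg := alg_top
  law := law_E hc F
  loc := fun _ _ _ => trivial
  lb := fun _ hB _ _ _ h1 h2 h3 h4 h5 h6 _ h7 h8 => lower2 hc hF hB h1 h2 h3 h4 h5 h6 h7 h8

namespace LowB

variable {c : ℝ} {Bl : Finset P2 → Prop} {A : (Cfg → ℝ) → Prop} {E' : (Cfg → ℝ) → ℝ}
  {ι : Type*} (S : Finset ι) {B : ι → Finset P2} {G X : ι → Set Cfg}

theorem inTZ_cnt (S : Finset ι) {H : ι → Set Cfg} (hH : ∀ j ∈ S, InTZ (B j) (ind (H j)))
    {U : Finset P2} (hU : ∀ j ∈ S, B j ⊆ U) {ω ω' : Cfg}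
    (h1 : ∀ v ∈ IV U, s1 (ω.1 v) = s1 (ω'.1 v)) (h2 : ∀ t ∈ U, ω.2 t = ω'.2 t) :
    cnt S H ω = cnt S H ω' := by
  have h : (cnt S H ω : ℝ) = cnt S H ω' := by
    rw [mem_cnt, mem_cnt]
    exact Finset.sum_congr rfl fun j hj => inTZ_mono (hU j hj) (hH j hj) ω ω' h1 h2
  exact_mod_cast h

/-- a finite set containing all blocks -/
theorem exists_all (S : Finset ι) (B : ι → Finset P2) : ∃ U : Finset P2, ∀ j ∈ S, B j ⊆ U := by
  classical
  exact ⟨S.biUnion B, fun j hj => Finset.subset_biUnion_of_mem B hj⟩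

/-- **Few good blocks are rare** (all hypotheses on the minimal laws of the blocks). -/
theorem few_good (h : LowB c Bl A E') (hBl : ∀ j ∈ S, Bl (B j))
    (hdis : ∀ i ∈ S, ∀ j ∈ S, i ≠ j → Disjoint (B i) (B j))
    (hG : ∀ j ∈ S, IncE (B j) (G j)) {p : ℝ} (hp0 : 0 ≤ p) (hp1 : p ≤ 1)
    (hp : ∀ j ∈ S, p ≤ Em c (B j) (ind (G j))) {n : ℕ} (hn : (n : ℝ) ≤ p * S.card / 4) :
    E' (ind {w | cnt S G w ≤ n}) ≤ Real.exp (-(p * S.card / 4)) := by
  classical
  obtain ⟨U, hU⟩ := exists_all S B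
  have hcnt : ∀ φ : ℕ → ℝ, A (fun w => φ (cnt S G w)) := fun φ =>
    h.loc U _ fun ω ω' h1 h2 => by
      show φ (cnt S G ω) = φ (cnt S G ω')
      rw [inTZ_cnt S (fun j hj => (hG j hj).loc) hU h1 h2]
  refine h.law.few_good S (fun j => OffTZ (B j)) h.alg (fun j f g => offTZ_mul)
    (fun j hj => h.loc _ _ (hG j hj).loc)
    (fun i hi j hj hij a b => offTZ_comp (inTZ_off (hdis i hi j hj hij) (hG i hi).loc)
      (fun x => a + b * x))
    (fun j _ => offTZ_const _ 1) hp0 hp1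
    (fun j hj g hgA hg0 hg => ?_) hn ?_ (hcnt fun k => (1 / 2 : ℝ) ^ k)
  · have h1 := h.lb (B j) (hBl j hj) (fun _ => 1) (ind (G j)) g incP_one (inTZ_one _)
      (fun _ => zero_le_one) (hG j hj).inc (hG j hj).loc (ind_nonneg _) hgA hg0 hg
    simp only [mul_one, one_mul] at h1
    have h2 : 0 ≤ E' g := h.law.nonneg h.alg hgA hg0
    have h3 := mul_le_mul_of_nonneg_left (hp j hj) h2
    linarith
  · have := hcnt fun k => if k ≤ n then 1 else 0
    convert this using 2 with w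
    simp only [ind, Set.mem_ofPred_eq]
    congr

/-- **Among the good blocks, a fraction `1 / K` without barrier is rare.** -/
theorem many_bad (h : LowB c Bl A E') (hBl : ∀ j ∈ S, Bl (B j))
    (hdis : ∀ i ∈ S, ∀ j ∈ S, i ≠ j → Disjoint (B i) (B j))
    (hG : ∀ j ∈ S, IncE (B j) (G j)) (hX : ∀ j ∈ S, IncE (B j) (X j)) {ε : ℝ} (hε : 0 ≤ ε)
    (hp : ∀ j ∈ S, 1 - ε ≤ Em c (B j) (ind (X j))) {K : ℕ}
    (hK : ((2 : ℝ) ^ K - 1) * ε ≤ 1 / 2) (n : ℕ) :
    E' (ind {w | n ≤ cnt S G w ∧ cnt S G w ≤ K * cnt S (fun j => G j ∩ (X j)ᶜ) w}) ≤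
      (3 / 4 : ℝ) ^ n := by
  classical
  obtain ⟨U, hU⟩ := exists_all S B
  have hbad : ∀ j ∈ S, InTZ (B j) (ind (G j ∩ (X j)ᶜ)) := by
    intro j hj ω ω' h1 h2
    rw [ind_inter, ind_inter, ind_compl, ind_compl, (hG j hj).loc ω ω' h1 h2,
      (hX j hj).loc ω ω' h1 h2]
  have hcnt : ∀ φ : ℕ → ℕ → ℝ,
      A (fun w => φ (cnt S G w) (cnt S (fun j => G j ∩ (X j)ᶜ) w)) := fun φ =>
    h.loc U _ fun ω ω' h1 h2 => by
      show φ (cnt S G ω) (cnt S (fun j => G j ∩ (X j)ᶜ) ω) =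
        φ (cnt S G ω') (cnt S (fun j => G j ∩ (X j)ᶜ) ω')
      rw [inTZ_cnt S (fun j hj => (hG j hj).loc) hU h1 h2, inTZ_cnt S hbad hU h1 h2]
  refine h.law.many_bad S (fun j => OffTZ (B j)) h.alg (fun j f g => offTZ_mul)
    (fun j hj => h.loc _ _ (hG j hj).loc) (fun j hj => h.loc _ _ (hbad j hj))
    (fun i hi j hj hij a b => ?_) (fun j _ => offTZ_const _ 1) hε
    (fun j hj g hgA hg0 hg => ?_) hK n ?_
    (hcnt fun k l => (1 + ((2 : ℝ) ^ K - 1) * ε)⁻¹ ^ k * ((2 : ℝ) ^ K) ^ l)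
  · intro ω ω' h1 h2
    have e1 := inTZ_off (hdis i hi j hj hij) (hG i hi).loc ω ω' h1 h2
    have e2 := inTZ_off (hdis i hi j hj hij) (hbad i hi) ω ω' h1 h2
    show 1 + a * ind (G i) ω + b * ind (G i ∩ (X i)ᶜ) ω =
      1 + a * ind (G i) ω' + b * ind (G i ∩ (X i)ᶜ) ω'
    rw [e1, e2]
  · have h1 := h.lb (B j) (hBl j hj) (ind (G j)) (ind (X j)) g (hG j hj).inc (hG j hj).loc
      (ind_nonneg _) (hX j hj).inc (hX j hj).loc (ind_nonneg _) hgA hg0 hg
    have hGA := h.loc _ _ (hG j hj).loc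
    have hXA := h.loc _ _ (hX j hj).loc
    have a1 := h.alg.mul _ _ hgA hGA
    have a2 := h.alg.mul _ _ hgA (h.alg.mul _ _ hGA hXA)
    have e : E' (fun w => g w * ind (G j ∩ (X j)ᶜ) w) =
        E' (fun w => g w * ind (G j) w) - E' (fun w => g w * (ind (G j) w * ind (X j) w)) := by
      rw [← h.law.sub h.alg a1 a2]
      congr 1; funext w
      rw [ind_inter, ind_compl]; ring
    have h2 : 0 ≤ E' (fun w => g w * ind (G j) w) :=
      h.law.nonneg h.alg a1 fun w => mul_nonneg (hg0 w) (ind_nonneg _ _)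
    have h3 := mul_le_mul_of_nonneg_left (hp j hj) h2
    rw [e]; linarith
  · have := hcnt fun k l => if n ≤ k ∧ k ≤ K * l then 1 else 0
    convert this using 2 with w
    simp only [ind, Set.mem_ofPred_eq]
    congr

end LowB

end Crest.Agent.R144.Ccn2311
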