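import Crest.Agent.R144.Pst4_967
import Crest.Agent.R144.Zg_349

/-!
# R144, plane state of the integer models (helper967), part 5: the class of simply connected volumes

* `hexB n` : hexagonal ball `|x|, |y|, |x + y| ≤ n`, invariant under all lattice automorphisms fixing `0`;
  its complement is connected;
* `scs = {Λ | IsConn Λᶜ}` (finite sets with `Adj`-connected complement) and `cls_scs : Cls scs`.
-/

set_option autoImplicit false

noncomputable section

namespace Crest.Agent.R144.Pst967

open MeasureTheory Filter Topology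
open Crest.ProbabilityR.HexHeights (Adj)
open Crest.Agent.R144.It844
open Crest.Agent.R144.Zg349 (IsConn StepIn)

theorem stepIn_symm {S : Set P2} {a b : P2} (h : StepIn S a b) : StepIn S b a :=
  ⟨h.2.1, h.1, adj_symm h.2.2⟩

theorem path_symm {S : Set P2} {a b : P2} (h : Relation.ReflTransGen (StepIn S) a b) :
    Relation.ReflTransGen (StepIn S) b a := by
  induction h with
  | refl => exact Relation.ReflTransGen.refl
  | tail _ h2 ih => exact Relation.ReflTransGen.head (stepIn_symm h2) ih

/-- horizontal path to the right -/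
theorem path_right {S : Set P2} (y a : ℤ) (k : ℕ) (h : ∀ i : ℕ, i ≤ k → (a + (i : ℤ), y) ∈ S) :
    Relation.ReflTransGen (StepIn S) (a, y) (a + (k : ℤ), y) := by
  induction k with
  | zero => simpa using Relation.ReflTransGen.refl
  | succ k ih =>
    refine (ih fun i hi => h i (by omega)).tail ⟨h k (by omega), h (k + 1) le_rfl, ?_⟩
    rw [adj_iff]
    left
    ext <;> simp [add_assoc]

theorem path_up {S : Set P2} (x a : ℤ) (k : ℕ) (h : ∀ i : ℕ, i ≤ k → (x, a + (i : ℤ)) ∈ S) :
    Relation.ReflTransGen (StepIn S) (x, a) (x, a + (k : ℤ)) := by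
  induction k with
  | zero => simpa using Relation.ReflTransGen.refl
  | succ k ih =>
    refine (ih fun i hi => h i (by omega)).tail ⟨h k (by omega), h (k + 1) le_rfl, ?_⟩
    rw [adj_iff]
    right; right; left
    ext <;> simp [add_assoc]

theorem path_h {S : Set P2} (y a b : ℤ) (h : ∀ t : ℤ, min a b ≤ t → t ≤ max a b → (t, y) ∈ S) :
    Relation.ReflTransGen (StepIn S) (a, y) (b, y) := by
  rcases le_total a b with hab | hab
  · have h1 := path_right (S := S) y a (b - a).toNat fun i hi => h _ (by omega) (by omega)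
    have e : a + ((b - a).toNat : ℤ) = b := by omega
    rwa [e] at h1
  · have h1 := path_right (S := S) y b (a - b).toNat fun i hi => h _ (by omega) (by omega)
    have e : b + ((a - b).toNat : ℤ) = a := by omega
    rw [e] at h1
    exact path_symm h1

theorem path_v {S : Set P2} (x a b : ℤ) (h : ∀ t : ℤ, min a b ≤ t → t ≤ max a b → (x, t) ∈ S) :
    Relation.ReflTransGen (StepIn S) (x, a) (x, b) := by
  rcases le_total a b with hab | hab
  · have h1 := path_up (S := S) x a (b - a).toNat fun i hi => h _ (by omega) (by omega)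
    have e : a + ((b - a).toNat : ℤ) = b := by omega
    rwa [e] at h1
  · have h1 := path_up (S := S) x b (a - b).toNat fun i hi => h _ (by omega) (by omega)
    have e : b + ((a - b).toNat : ℤ) = a := by omega
    rw [e] at h1
    exact path_symm h1

/-- hexagonal ball -/
def hexB (n : ℕ) : Finset P2 :=
  ((Finset.Icc (-(n : ℤ)) n) ×ˢ (Finset.Icc (-(n : ℤ)) n)).filter fun v => |v.1 + v.2| ≤ (n : ℤ)

theorem mem_hexB {n : ℕ} {v : P2} : v ∈ hexB n ↔ |v.1| ≤ n ∧ |v.2| ≤ n ∧ |v.1 + v.2| ≤ n := by
  unfold hexB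
  simp only [Finset.mem_filter, Finset.mem_product, Finset.mem_Icc, abs_le]
  tauto

theorem hexB_mono {n m : ℕ} (h : n ≤ m) : hexB n ⊆ hexB m := by
  intro v hv
  rw [mem_hexB] at *
  have : (n : ℤ) ≤ m := by exact_mod_cast h
  exact ⟨hv.1.trans this, hv.2.1.trans this, hv.2.2.trans this⟩

theorem hexB_th {n : ℕ} (v : P2) : Tp952.th v ∈ hexB n ↔ v ∈ hexB n := by
  rw [mem_hexB, mem_hexB]
  simp only [Tp952.th, abs_neg]
  rw [show v.1 + v.2 + -v.2 = v.1 by ring]
  tauto

theorem subset_hexB (S : Finset P2) : ∃ n : ℕ, S ⊆ hexB n := by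
  refine ⟨∑ v ∈ S, (v.1.natAbs + v.2.natAbs), fun v hv => ?_⟩
  have h1 : v.1.natAbs + v.2.natAbs ≤ ∑ v ∈ S, (v.1.natAbs + v.2.natAbs) :=
    Finset.single_le_sum (f := fun v : P2 => v.1.natAbs + v.2.natAbs) (fun _ _ => Nat.zero_le _) hv
  rw [mem_hexB]
  generalize ∑ v ∈ S, (v.1.natAbs + v.2.natAbs) = n at *
  refine ⟨?_, ?_, ?_⟩ <;> rw [abs_le] <;> omega

/-- the complement of a hexagonal ball is connected -/
theorem conn_hexB (n : ℕ) : IsConn ((hexB n : Set P2)ᶜ) := by
  set S : Set P2 := (hexB n : Set P2)ᶜ with hS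
  have hmem : ∀ x y : ℤ, (x, y) ∈ S ↔ ((n : ℤ) < x ∨ x < -n ∨ (n : ℤ) < y ∨ y < -n ∨
      (n : ℤ) < x + y ∨ x + y < -n) := by
    intro x y
    rw [hS, Set.mem_compl_iff, Finset.mem_coe, mem_hexB]
    simp only [abs_le]
    constructor
    · intro h
      by_contra hc
      push Not at hc
      exact h ⟨⟨by omega, by omega⟩, ⟨by omega, by omega⟩, by omega, by omega⟩
    · rintro h ⟨h1, h2, h3⟩
      omega
  -- everything is joined to the base point
  set M : ℤ := (n : ℤ) + 1 with hM
  have key1 : ∀ x y : ℤ, ((n : ℤ) < x ∨ x < -n) →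
      Relation.ReflTransGen (StepIn S) (x, y) (M, M) := by
    intro x y hx
    refine (path_v x y M fun t _ _ => (hmem x t).2 (by omega)).trans ?_
    exact path_h M x M fun t _ _ => (hmem t M).2 (by omega)
  have key2 : ∀ x y : ℤ, ((n : ℤ) < y ∨ y < -n) →
      Relation.ReflTransGen (StepIn S) (x, y) (M, M) := by
    intro x y hy
    refine (path_h y x M fun t _ _ => (hmem t y).2 (by omega)).trans ?_
    exact path_v M y M fun t _ _ => (hmem M t).2 (by omega)
  have key : ∀ v ∈ S, Relation.ReflTransGen (StepIn S) v (M, M) := by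
    rintro ⟨x, y⟩ hv
    rw [hmem] at hv
    rcases hv with h | h | h | h | h | h
    · exact key1 x y (Or.inl h)
    · exact key1 x y (Or.inr h)
    · exact key2 x y (Or.inl h)
    · exact key2 x y (Or.inr h)
    · refine (path_h y x (max x M) fun t h1 h2 => (hmem t y).2 ?_).trans
        (key1 (max x M) y (Or.inl (by omega)))
      have : x ≤ t := by
        have := min_le_left x (max x M)
        rw [min_eq_left (le_max_left x M)] at h1
        exact h1
      omega
    · refine (path_h y x (min x (-M)) fun t h1 h2 => (hmem t y).2 ?_).trans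
        (key1 (min x (-M)) y (Or.inr (by omega)))
      have : t ≤ x := by
        rw [max_eq_left (min_le_left x (-M))] at h2
        exact h2
      omega
  intro u hu v hv
  exact (key u hu).trans (path_symm (key v hv))

/-- finite sets of sites with connected complement -/
def scs : Set (Finset P2) := {Λ | IsConn ((Λ : Set P2)ᶜ)}

theorem mem_scs {Λ : Finset P2} : Λ ∈ scs ↔ IsConn ((Λ : Set P2)ᶜ) := Iff.rfl

theorem hexB_mem_scs (n : ℕ) : hexB n ∈ scs := conn_hexB n

theorem map_mem_scs {σ : P2 ≃ P2} (hσ : Sym σ) {Λ : Finset P2} (hΛ : Λ ∈ scs) :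
    Λ.map σ.toEmbedding ∈ scs := by
  have hm : ∀ v : P2, v ∈ ((Λ.map σ.toEmbedding : Finset P2) : Set P2)ᶜ ↔
      σ.symm v ∈ ((Λ : Finset P2) : Set P2)ᶜ := by
    intro v
    simp only [Set.mem_compl_iff, Finset.mem_coe, Finset.mem_map, Equiv.coe_toEmbedding, not_iff_not]
    constructor
    · rintro ⟨a, ha, rfl⟩
      simpa using ha
    · intro h
      exact ⟨_, h, by simp⟩
  intro u hu v hv
  have h1 := hΛ (σ.symm u) ((hm u).1 hu) (σ.symm v) ((hm v).1 hv)
  have h2 : ∀ a b : P2, Relation.ReflTransGen (StepIn ((Λ : Set P2)ᶜ)) a b →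
      Relation.ReflTransGen (StepIn ((Λ.map σ.toEmbedding : Finset P2) : Set P2)ᶜ) (σ a) (σ b) := by
    intro a b hab
    induction hab with
    | refl => exact Relation.ReflTransGen.refl
    | tail _ h3 ih =>
      refine ih.tail ⟨(hm _).2 ?_, (hm _).2 ?_, (hσ _ _).2 h3.2.2⟩
      · simpa using h3.1
      · simpa using h3.2.1
  have h3 := h2 _ _ h1
  simpa using h3

/-- **the class of simply connected volumes** -/
theorem cls_scs : Cls scs where
  map σ hσ Λ hΛ := map_mem_scs hσ hΛ
  refl S := by
    obtain ⟨n, hn⟩ := subset_hexB S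
    exact ⟨hexB n, hexB_mem_scs n, hn, hexB_th⟩

/-- the class of all volumes -/
theorem cls_univ : Cls (Set.univ : Set (Finset P2)) where
  map _ _ _ _ := Set.mem_univ _
  refl S := by
    obtain ⟨n, hn⟩ := subset_hexB S
    exact ⟨hexB n, Set.mem_univ _, hn, hexB_th⟩

end Crest.Agent.R144.Pst967
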