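import Crest.Agent.R144.Hf3_702
import Crest.Agent.R144.Rsw0_867

/-!
# R144, block HALF (helper702), part 4: exploration of a set of triangles from outside

For a set `S` of triangles (the "closed" ones) and a finite set `D` with connected complement:
* `Xg S D` : triangles joined to the outside of `D` by triangles not in `S`;
* `Bg S D` : the unexplored domain; `sc_Bg`, `layer_Bg` (its neighbours are in `S`), `Bg_congr`;
* `ball_sub_Bg` : if `S` separates `ball a m` from outside `ball a N` (867's `Sepr`) then `ball a k`, `k + 1 ≤ m`,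
  is contained in `Bg S (ball a (N + 1))`;
* `PBI a N B` : the indicator that the plus-closed exploration from outside `ball a N` leaves `B` unexplored.
-/

set_option autoImplicit false
set_option linter.unusedVariables false

noncomputable section

namespace Crest.Agent.R144.Hf702

open Finset
open Crest.Agent.R144.It844 (P2 adj_symm adj_iff)
open Crest.Agent.R144.Zg349 Crest.Agent.R144.Zd349 Crest.Agent.R144.Zm349 Crest.Agent.R144.Ze349
open Crest.Agent.R144.Pst967 (path_symm)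
open Crest.Agent.R144.Rsw867
open Crest.ProbabilityR.HexHeights (Adj)

/-- explored set -/
def Xg (S : Set P2) (D : Finset P2) : Set P2 :=
  {t | ∃ t0, t0 ∉ D ∧ Relation.ReflTransGen (fun a b => Adj a b ∧ b ∉ S) t0 t}

theorem xg_of_notMem (S : Set P2) {D : Finset P2} {t : P2} (h : t ∉ D) : t ∈ Xg S D :=
  ⟨t, h, Relation.ReflTransGen.refl⟩

theorem xg_step {S : Set P2} {D : Finset P2} {t t' : P2} (h : t ∈ Xg S D) (h1 : Adj t t')
    (h2 : t' ∉ S) : t' ∈ Xg S D := by
  obtain ⟨t0, h3, h4⟩ := h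
  exact ⟨t0, h3, h4.tail ⟨h1, h2⟩⟩

open Classical in
/-- the unexplored domain -/
def Bg (S : Set P2) (D : Finset P2) : Finset P2 :=
  D.filter fun t => t ∉ Xg S D ∧ ∀ t', Adj t t' → t' ∉ Xg S D

theorem mem_Bg {S : Set P2} {D : Finset P2} {t : P2} :
    t ∈ Bg S D ↔ t ∉ Xg S D ∧ ∀ t', Adj t t' → t' ∉ Xg S D := by
  classical
  unfold Bg
  rw [Finset.mem_filter]
  refine ⟨fun h => h.2, fun h => ⟨?_, h⟩⟩
  by_contra h1
  exact h.1 (xg_of_notMem S h1)

theorem notMem_Bg {S : Set P2} {D : Finset P2} {t : P2} :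
    t ∉ Bg S D ↔ t ∈ Xg S D ∨ ∃ t', Adj t t' ∧ t' ∈ Xg S D := by
  rw [mem_Bg]
  push Not
  constructor
  · intro h
    by_cases h1 : t ∈ Xg S D
    · exact Or.inl h1
    · exact Or.inr (h h1)
  · rintro (h | h) h1
    · exact absurd h h1
    · exact h

theorem layer_Bg {S : Set P2} {D : Finset P2} {t t' : P2} (h : t ∈ Bg S D) (ht' : t' ∉ Bg S D)
    (ha : Adj t t') : t' ∈ S := by
  rw [mem_Bg] at h
  rw [notMem_Bg] at ht'
  have h1 : t' ∉ Xg S D := h.2 t' ha
  rcases ht' with h2 | ⟨u, hu, hux⟩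
  · exact absurd h2 h1
  · by_contra h3
    exact h1 (xg_step hux (adj_symm hu) h3)

theorem Bg_sub (S : Set P2) (D : Finset P2) : Bg S D ⊆ D := by
  classical
  exact Finset.filter_subset _ _

/-- the complement of the unexplored domain is connected -/
theorem sc_Bg (S : Set P2) {D : Finset P2} (hD : SC D) : SC (Bg S D) := by
  set T : Set P2 := ((Bg S D : Finset P2) : Set P2)ᶜ with hT
  have hmem : ∀ t, t ∈ T ↔ t ∉ Bg S D := fun t => by
    rw [hT, Set.mem_compl_iff, Finset.mem_coe]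
  have hX : ∀ t, t ∈ Xg S D → t ∈ T := fun t ht => by
    rw [hmem, notMem_Bg]; exact Or.inl ht
  have h1 : ∀ t0 t, t0 ∉ D → Relation.ReflTransGen (fun a b => Adj a b ∧ b ∉ S) t0 t →
      Relation.ReflTransGen (StepIn T) t0 t := by
    intro t0 t h0 h
    induction h with
    | refl => exact Relation.ReflTransGen.refl
    | @tail b d h2 h3 ih =>
      exact ih.tail ⟨hX _ ⟨t0, h0, h2⟩, hX _ ⟨t0, h0, h2.tail h3⟩, h3.1⟩
  have h2 : ∀ t ∈ T, ∃ t0, t0 ∉ D ∧ Relation.ReflTransGen (StepIn T) t0 t := by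
    intro t ht
    have ht' := ht
    rw [hmem, notMem_Bg] at ht
    rcases ht with ⟨t0, h3, h4⟩ | ⟨u, hu, t0, h3, h4⟩
    · exact ⟨t0, h3, h1 t0 t h3 h4⟩
    · exact ⟨t0, h3, (h1 t0 u h3 h4).tail ⟨hX u ⟨t0, h3, h4⟩, ht', adj_symm hu⟩⟩
  have h3 : ∀ t0 t1, t0 ∉ D → t1 ∉ D → Relation.ReflTransGen (StepIn T) t0 t1 := by
    intro t0 t1 ht0 ht1
    have := hD t0 (by simpa using ht0) t1 (by simpa using ht1)
    refine Relation.ReflTransGen.mono (fun a b hab => ?_) _ _ this
    exact ⟨hX a (xg_of_notMem S (by simpa using hab.1)),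
      hX b (xg_of_notMem S (by simpa using hab.2.1)), hab.2.2⟩
  intro u hu v hv
  obtain ⟨t0, h4, h5⟩ := h2 u hu
  obtain ⟨t1, h6, h7⟩ := h2 v hv
  exact ((path_symm h5).trans (h3 t0 t1 h4 h6)).trans h7

/-- the unexplored domain depends on the part of `S` outside of it -/
theorem Bg_congr {S S' : Set P2} {D B : Finset P2} (hst : ∀ t, t ∉ B → (t ∈ S ↔ t ∈ S'))
    (hB : Bg S D = B) : Bg S' D = B := by
  have hX : Xg S' D = Xg S D := by
    ext t
    constructor
    · rintro ⟨t0, h3, h4⟩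
      induction h4 with
      | refl => exact xg_of_notMem S h3
      | @tail b d _ h5 ih =>
        by_contra h6
        have h7 : d ∉ B := by
          rw [← hB, notMem_Bg]
          exact Or.inr ⟨b, adj_symm h5.1, ih⟩
        exact h6 (xg_step ih h5.1 fun h8 => h5.2 ((hst d h7).1 h8))
    · rintro ⟨t0, h3, h4⟩
      induction h4 with
      | refl => exact xg_of_notMem S' h3
      | @tail b d h4 h5 ih =>
        refine xg_step ih h5.1 fun h6 => ?_
        have h7 : d ∉ B := by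
          rw [← hB, notMem_Bg]
          exact Or.inl ⟨t0, h3, h4.tail h5⟩
        exact h5.2 ((hst d h7).2 h6)
  rw [← hB]
  ext t
  rw [mem_Bg, mem_Bg, hX]

/-- separation implies that the exploration does not reach the small ball -/
theorem notMem_Xg_of_sepr {S : Set P2} {a : P2} {m N : ℕ} (hmN : m ≤ N) (h : Sepr S a m N) {t : P2}
    (ht : t ∈ ball a m) : t ∉ Xg S (ball a (N + 1)) := by
  rintro ⟨t0, h0, hp⟩
  -- the path without its first vertex lies in the complement of `S`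
  have key : ∀ t, Relation.ReflTransGen (fun a b => Adj a b ∧ b ∉ S) t0 t → t = t0 ∨
      ∃ u, u ∉ ball a N ∧ u ∉ S ∧ t ∉ S ∧ Relation.ReflTransGen (StepIn Sᶜ) u t := by
    intro t hp
    induction hp with
    | refl => exact Or.inl rfl
    | @tail b d _ hbd ih =>
      right
      rcases ih with rfl | ⟨u, hu, huS, hbS, hpu⟩
      · refine ⟨d, fun hd => h0 ?_, hbd.2, hbd.2, Relation.ReflTransGen.refl⟩
        exact adj_ball hd (adj_symm hbd.1)
      · exact ⟨u, hu, huS, hbd.2, hpu.tail ⟨hbS, hbd.2, hbd.1⟩⟩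
  rcases key t hp with rfl | ⟨u, hu, -, -, hpu⟩
  · exact h0 (ball_mono a (by omega) ht)
  · exact h u t hu ht hpu

theorem ball_sub_Bg {S : Set P2} {a : P2} {k m N : ℕ} (hkm : k + 1 ≤ m) (hmN : m ≤ N)
    (h : Sepr S a m N) : ball a k ⊆ Bg S (ball a (N + 1)) := by
  intro t ht
  rw [mem_Bg]
  refine ⟨notMem_Xg_of_sepr hmN h (ball_mono a (by omega) ht), fun t' ha => ?_⟩
  exact notMem_Xg_of_sepr hmN h (ball_mono a hkm (adj_ball ht ha))

/-! ### plus-closed exploration -/

/-- unexplored domain of the plus-closed exploration -/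
def PB (D : Finset P2) (ω : Cfg) : Finset P2 := Bg {t | pC ω t} D

open Classical in
/-- indicator of `PB D ω = B` -/
def PBI (D B : Finset P2) (ω : Cfg) : ℝ := if PB D ω = B then 1 else 0

/-- the neighbours of `B` are plus closed -/
def PLay (B : Finset P2) (ω : Cfg) : Prop := ∀ t ∈ B, ∀ t', t' ∉ B → Adj t t' → pC ω t'

theorem PBI_nonneg (D B : Finset P2) (ω : Cfg) : 0 ≤ PBI D B ω := by
  unfold PBI; split_ifs <;> norm_num

theorem pLay_PB (D : Finset P2) (ω : Cfg) : PLay (PB D ω) ω := fun _ ht _ ht' ha =>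
  layer_Bg ht ht' ha

theorem pLay_of_PBI {D B : Finset P2} {ω : Cfg} (h : PBI D B ω ≠ 0) : PLay B ω := by
  unfold PBI at h
  by_cases h1 : PB D ω = B
  · rw [← h1]; exact pLay_PB D ω
  · rw [if_neg h1] at h; exact absurd rfl h

theorem pC_congr {B : Finset P2} {ω ω' : Cfg} (h1 : ∀ v, v ∉ IV B → s1 (ω.1 v) = s1 (ω'.1 v))
    (h2 : ∀ t, t ∉ B → ω.2 t = ω'.2 t) {t : P2} (ht : t ∉ B) : pC ω t ↔ pC ω' t := by
  unfold pC
  rw [h1 t (fun h => ht (IV_sub B h)), h2 t ht]

theorem offTZ_PBI (D B : Finset P2) : OffTZ B (PBI D B) := by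
  intro ω ω' h1 h2
  unfold PBI
  have key : ∀ ω ω' : Cfg, (∀ v, v ∉ IV B → s1 (ω.1 v) = s1 (ω'.1 v)) →
      (∀ t, t ∉ B → ω.2 t = ω'.2 t) → PB D ω = B → PB D ω' = B := fun ω ω' h1 h2 h =>
    Bg_congr (fun t ht => pC_congr h1 h2 ht) h
  by_cases h : PB D ω = B
  · rw [if_pos h, if_pos (key ω ω' h1 h2 h)]
  · rw [if_neg h, if_neg fun h' => h (key ω' ω (fun v hv => (h1 v hv).symm)
      (fun t ht => (h2 t ht).symm) h')]

theorem sum_PBI (D : Finset P2) (ω : Cfg) : ∑ B ∈ D.powerset, PBI D B ω = 1 := by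
  classical
  unfold PBI
  rw [Finset.sum_ite_eq, if_pos]
  exact Finset.mem_powerset.2 (Bg_sub _ D)

end Crest.Agent.R144.Hf702
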