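import Crest.Agent.R144.Bd3_856
import Crest.Agent.R144.Bnd0_991

/-!
# R144, BND block B3 (helper856): `BulkH` literally (991's definitions)
-/

set_option autoImplicit false

noncomputable section

namespace Crest.Agent.R144.Bd3856

open Finset
open Crest.Agent.R144.It844 (P2 adj_iff adj_symm)
open Crest.Agent.R144.Zg349 Crest.Agent.R144.Zd349 Crest.Agent.R144.Zm349 Crest.Agent.R144.Ze349
open Crest.Agent.R144.Rsw867
open Crest.Agent.R144.Bnd991 (Cn Cn_nonneg offTZ_Cn Hs BulkH)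
open Crest.ProbabilityR.HexHeights (Adj)

theorem hb_sub_hs {a : P2} {n : ℕ} : Hb a n = Hs a n := by
  have e : ∀ ω : Cfg, {v : P2 | ω.1 v ≤ 0}ᶜ = {x : P2 | 1 ≤ ω.1 x} := by
    intro ω
    ext x
    show ¬ (ω.1 x ≤ 0) ↔ 1 ≤ ω.1 x
    omega
  ext ω
  show (∀ u v, u ∉ ball a (2 * n + 2) → v ∈ ball a n →
    ¬ Relation.ReflTransGen (StepIn {x | 1 ≤ ω.1 x}) u v) ↔
    (∀ u v, u ∉ ball a (2 * n + 2) → v ∈ ball a n →
      ¬ Relation.ReflTransGen (StepIn {v : P2 | ω.1 v ≤ 0}ᶜ) u v)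
  rw [e ω]

/-- **B3 (BULK).** -/
theorem bulkH {c : ℝ} (hc : 1 ≤ c) {K : ℕ} {p : ℝ} (h : RSW c K p) : BulkH c K p := by
  intro N Q a n hQ hn hB hN
  have h1 := bulk hc h hn (a := a) hQ hB (g := Cn N) (fun ω => Cn_nonneg N ω)
    (offTZ_Cn fun v hv h2 => hN v (IV_sub _ h2) hv)
  rw [hb_sub_hs] at h1
  exact h1

/-- BULK with any further constraint seen off the ball -/
theorem bulk_g {c : ℝ} (hc : 1 ≤ c) {K : ℕ} {p : ℝ} (h : RSW c K p) {n : ℕ} (hn : 1 ≤ n) {a : P2}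
    {Q : Finset P2} (hQ : SC Q) (hB : ball a (K * n) ⊆ Q) {g : Cfg → ℝ} (hg0 : ∀ ω, 0 ≤ g ω)
    (hg : OffTZ (ball a (K * n)) g) :
    p / 2 * E c Q g ≤ E c Q (fun ω => g ω * ind (Hs a n) ω) := by
  have h1 := bulk hc h hn (a := a) hQ hB hg0 hg
  rwa [hb_sub_hs] at h1

end Crest.Agent.R144.Bd3856
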