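import Crest.Agent.R144.Hf7_702

/-!
# R144, block B5 of doc 1945 (helper400): parity on the triangular lattice

A closed walk in `K` crossing the half line "between the columns `o.1` and `o.1 + 1` above `o`"
exactly once separates `ball o r1` from the outside of `ball o r2`.
-/

set_option autoImplicit false

noncomputable section

namespace Crest.Agent.R144.Par400

open Crest.Agent.R144.It844 (P2 adj_iff)
open Crest.Agent.R144.Zg349 (StepIn IsConn SC)
open Crest.Agent.R144.Rsw867 (ball mem_ball sc_ball path_mono)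
open Crest.ProbabilityR.HexHeights (Adj)

/-- the edge `a b` crosses the ray above `v` -/
def cr (v a b : P2) : ZMod 2 :=
  if (a.1 = v.1 ∧ b.1 = v.1 + 1 ∧ v.2 < a.2) ∨ (b.1 = v.1 ∧ a.1 = v.1 + 1 ∧ v.2 < b.2) then 1
  else 0

/-- indicator of the half column above `v` -/
def hU (v a : P2) : ZMod 2 := if a.1 = v.1 ∧ v.2 < a.2 then 1 else 0

theorem cr_up {v a b : P2} (ha : a ≠ (v.1, v.2 + 1)) (hb : b ≠ (v.1, v.2 + 1)) :
    cr v a b = cr (v.1, v.2 + 1) a b := by
  have ha' : ¬ (a.1 = v.1 ∧ a.2 = v.2 + 1) := fun h => ha (Prod.ext h.1 h.2)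
  have hb' : ¬ (b.1 = v.1 ∧ b.2 = v.2 + 1) := fun h => hb (Prod.ext h.1 h.2)
  unfold cr
  refine if_congr ?_ rfl rfl
  simp only
  omega

theorem cr_right {v v' a b : P2} (hv : v' = (v.1 + 1, v.2) ∨ v' = (v.1 + 1, v.2 - 1))
    (hab : Adj a b) (ha : a ≠ v) (ha' : a ≠ v') (hb : b ≠ v) (hb' : b ≠ v') :
    cr v a b + cr v' a b = hU v' a + hU v' b := by
  have h1 : ¬ (a.1 = v.1 ∧ a.2 = v.2) := fun h => ha (Prod.ext h.1 h.2)
  have h2 : ¬ (a.1 = v'.1 ∧ a.2 = v'.2) := fun h => ha' (Prod.ext h.1 h.2)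
  have h3 : ¬ (b.1 = v.1 ∧ b.2 = v.2) := fun h => hb (Prod.ext h.1 h.2)
  have h4 : ¬ (b.1 = v'.1 ∧ b.2 = v'.2) := fun h => hb' (Prod.ext h.1 h.2)
  rw [adj_iff] at hab
  unfold cr hU
  rcases hv with hv | hv <;> subst hv <;> rcases hab with h | h | h | h | h | h <;> subst h <;>
    simp only at * <;> split_ifs <;> first | decide | (exfalso; omega)

/-! ### closed walks -/

theorem exists_fun {r : P2 → P2 → Prop} {a b : P2} (h : Relation.ReflTransGen r a b) :
    ∃ (n : ℕ) (w : ℕ → P2), w 0 = a ∧ w n = b ∧ ∀ i < n, r (w i) (w (i + 1)) := by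
  induction h with
  | refl => exact ⟨0, fun _ => a, rfl, rfl, fun i hi => absurd hi (Nat.not_lt_zero i)⟩
  | @tail b c _ hbc ih =>
    obtain ⟨n, w, h0, hn, hs⟩ := ih
    refine ⟨n + 1, fun i => if i ≤ n then w i else c, ?_, ?_, ?_⟩
    · simp [h0]
    · simp
    · intro i hi
      rcases Nat.lt_succ_iff_lt_or_eq.1 hi with h | h
      · have h1 : i ≤ n := h.le
        have h2 : i + 1 ≤ n := h
        simp only [h1, h2, if_true]
        exact hs i h
      · subst h
        have h2 : ¬ i + 1 ≤ i := by omega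
        simp only [le_refl, if_true, h2, if_false, hn]
        exact hbc

/-- total crossing parity of the closed walk `w 0, .., w n, w 0` with the ray above `v` -/
def tot (n : ℕ) (w : ℕ → P2) (v : P2) : ZMod 2 :=
  (∑ i ∈ Finset.range n, cr v (w i) (w (i + 1))) + cr v (w n) (w 0)

theorem sum_tel (n : ℕ) (f : ℕ → ZMod 2) :
    ∑ i ∈ Finset.range n, (f i + f (i + 1)) = f 0 + f n := by
  induction n with
  | zero =>
    have : ∀ x : ZMod 2, x + x = 0 := by decide
    simp [this]
  | succ n ih =>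
    rw [Finset.sum_range_succ, ih]
    have : ∀ x y z : ZMod 2, x + y + (y + z) = x + z := by decide
    exact this _ _ _

theorem z2 {x y : ZMod 2} (h : x + y = 0) : x = y := by
  revert x y
  decide

/-- the parity does not change when the base point moves off the walk -/
theorem tot_adj {n : ℕ} {w : ℕ → P2} {K : Set P2} (hw : ∀ i ≤ n, w i ∈ K)
    (hs : ∀ i < n, Adj (w i) (w (i + 1))) (hc : Adj (w n) (w 0)) {v v' : P2} (hv : v ∉ K)
    (hv' : v' ∉ K) (h : Adj v v') : tot n w v = tot n w v' := by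
  have key_up : ∀ v v' : P2, v ∉ K → v' ∉ K → v' = (v.1, v.2 + 1) → tot n w v = tot n w v' := by
    intro v v' _ hv' e
    subst e
    have hne : ∀ i ≤ n, w i ≠ (v.1, v.2 + 1) := fun i hi h => hv' (h ▸ hw i hi)
    unfold tot
    congr 1
    · refine Finset.sum_congr rfl fun i hi => ?_
      have hi := Finset.mem_range.1 hi
      exact cr_up (hne i hi.le) (hne (i + 1) hi)
    · exact cr_up (hne n le_rfl) (hne 0 (Nat.zero_le _))
  have key_r : ∀ v v' : P2, v ∉ K → v' ∉ K → (v' = (v.1 + 1, v.2) ∨ v' = (v.1 + 1, v.2 - 1)) →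
      tot n w v = tot n w v' := by
    intro v v' hv hv' e
    have hne : ∀ i ≤ n, w i ≠ v := fun i hi h => hv (h ▸ hw i hi)
    have hne' : ∀ i ≤ n, w i ≠ v' := fun i hi h => hv' (h ▸ hw i hi)
    apply z2
    unfold tot
    have e1 : (∑ i ∈ Finset.range n, cr v (w i) (w (i + 1))) + cr v (w n) (w 0) +
        ((∑ i ∈ Finset.range n, cr v' (w i) (w (i + 1))) + cr v' (w n) (w 0)) =
        (∑ i ∈ Finset.range n, (cr v (w i) (w (i + 1)) + cr v' (w i) (w (i + 1)))) +
          (cr v (w n) (w 0) + cr v' (w n) (w 0)) := by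
      rw [Finset.sum_add_distrib]
      ring
    rw [e1, cr_right e hc (hne n le_rfl) (hne' n le_rfl) (hne 0 (Nat.zero_le _))
      (hne' 0 (Nat.zero_le _))]
    have e2 : ∑ i ∈ Finset.range n, (cr v (w i) (w (i + 1)) + cr v' (w i) (w (i + 1))) =
        ∑ i ∈ Finset.range n, (hU v' (w i) + hU v' (w (i + 1))) := by
      refine Finset.sum_congr rfl fun i hi => ?_
      have hi := Finset.mem_range.1 hi
      exact cr_right e (hs i hi) (hne i hi.le) (hne' i hi.le) (hne (i + 1) hi) (hne' (i + 1) hi)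
    rw [e2, sum_tel n fun i => hU v' (w i)]
    have : ∀ x y : ZMod 2, x + y + (y + x) = 0 := by decide
    exact this _ _
  rw [adj_iff] at h
  rcases h with h | h | h | h | h | h
  · exact key_r v v' hv hv' (Or.inl h)
  · refine (key_r v' v hv' hv (Or.inl ?_)).symm
    subst h
    ext <;> simp
  · exact key_up v v' hv hv' h
  · refine (key_up v' v hv' hv ?_).symm
    subst h
    ext <;> simp
  · exact key_r v v' hv hv' (Or.inr h)
  · refine (key_r v' v hv' hv (Or.inr ?_)).symm
    subst h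
    ext <;> simp

theorem tot_path {n : ℕ} {w : ℕ → P2} {K : Set P2} (hw : ∀ i ≤ n, w i ∈ K)
    (hs : ∀ i < n, Adj (w i) (w (i + 1))) (hc : Adj (w n) (w 0)) {v v' : P2}
    (h : Relation.ReflTransGen (StepIn Kᶜ) v v') : tot n w v = tot n w v' := by
  induction h with
  | refl => rfl
  | tail _ hbc ih => exact ih.trans (tot_adj hw hs hc hbc.1 hbc.2.1 hbc.2.2)

/-- steps inside `K` avoiding the edge `e e'` -/
def StepEx (K : Set P2) (e e' : P2) (a b : P2) : Prop :=
  StepIn K a b ∧ ¬ (a = e ∧ b = e') ∧ ¬ (a = e' ∧ b = e)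

/-- **parity lemma** (B5 of doc 1945) -/
theorem parity {o : P2} {r1 r2 : ℕ} {y : ℤ} {K : Set P2} (hK1 : ∀ v ∈ K, v ∉ ball o r1)
    (hK2 : ∀ v ∈ K, v ∈ ball o r2) (hy : o.2 < y) (hl : (o.1, y) ∈ K)
    (hcol : ∀ v ∈ K, v.1 = o.1 ∨ v.1 = o.1 + 1 → o.2 ≤ v.2 → v = (o.1, y) ∨ v = (o.1 + 1, y - 1))
    (hpath : Relation.ReflTransGen (StepEx K (o.1, y) (o.1 + 1, y - 1)) (o.1 + 1, y - 1) (o.1, y))
    {u v : P2} (hu : u ∈ ball o r1) (hv : v ∉ ball o r2) :
    ¬ Relation.ReflTransGen (StepIn Kᶜ) u v := by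
  intro hp
  obtain ⟨n, w, h0, hn, hs⟩ := exists_fun hpath
  have hwK : ∀ i ≤ n, w i ∈ K := by
    intro i hi
    rcases Nat.lt_or_ge i n with h | h
    · exact (hs i h).1.1
    · have : i = n := le_antisymm hi h
      rw [this, hn]
      exact hl
  have hwA : ∀ i < n, Adj (w i) (w (i + 1)) := fun i hi => (hs i hi).1.2.2
  have hc : Adj (w n) (w 0) := by
    rw [hn, h0, adj_iff]
    simp
  -- at `o`
  have hTo : tot n w o = 1 := by
    unfold tot
    have e1 : ∀ i ∈ Finset.range n, cr o (w i) (w (i + 1)) = 0 := by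
      intro i hi
      have hi := Finset.mem_range.1 hi
      obtain ⟨⟨ha, hb, hab⟩, hx1, hx2⟩ := hs i hi
      unfold cr
      rw [if_neg]
      rintro (⟨h1, h2, h3⟩ | ⟨h1, h2, h3⟩)
      · have h4 := hcol _ ha (Or.inl h1) h3.le
        have h5 : o.2 ≤ (w (i + 1)).2 := by
          rw [adj_iff] at hab
          rcases hab with h | h | h | h | h | h <;> rw [h] at h2 ⊢ <;> simp only at h2 ⊢ <;> omega
        have h6 := hcol _ hb (Or.inr h2) h5
        rcases h4 with h4 | h4
        · rcases h6 with h6 | h6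
          · rw [h6] at h2
            simp only at h2
            omega
          · exact hx1 ⟨h4, h6⟩
        · rw [h4] at h1
          simp only at h1
          omega
      · have h4 := hcol _ hb (Or.inl h1) h3.le
        have h5 : o.2 ≤ (w i).2 := by
          rw [adj_iff] at hab
          rcases hab with h | h | h | h | h | h <;> rw [h] at h1 h3 <;> simp only at h1 h3 <;> omega
        have h6 := hcol _ ha (Or.inr h2) h5
        rcases h4 with h4 | h4
        · rcases h6 with h6 | h6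
          · rw [h6] at h2
            simp only at h2
            omega
          · exact hx2 ⟨h6, h4⟩
        · rw [h4] at h1
          simp only at h1
          omega
    rw [Finset.sum_eq_zero e1, zero_add, hn, h0]
    unfold cr
    rw [if_pos]
    left
    exact ⟨rfl, rfl, hy⟩
  -- far away
  set z : P2 := (o.1, o.2 + (r2 + 1)) with hz
  have hzb : z ∉ ball o r2 := by
    rw [mem_ball]
    simp only [hz, abs_le]
    omega
  have hTz : tot n w z = 0 := by
    have hne : ∀ a ∈ K, a.2 ≤ o.2 + r2 := by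
      intro a ha
      have := hK2 a ha
      rw [mem_ball] at this
      simp only [abs_le] at this
      omega
    have h1 : ∀ a ∈ K, ∀ b ∈ K, cr z a b = 0 := by
      intro a ha b hb
      unfold cr
      rw [if_neg]
      have h2 := hne a ha
      have h3 := hne b hb
      rintro (⟨_, _, h4⟩ | ⟨_, _, h4⟩) <;> simp only [hz] at h4 <;> omega
    unfold tot
    rw [Finset.sum_eq_zero, zero_add]
    · exact h1 _ (hwK n le_rfl) _ (hwK 0 (Nat.zero_le _))
    · intro i hi
      have hi := Finset.mem_range.1 hi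
      exact h1 _ (hwK i hi.le) _ (hwK (i + 1) hi)
  have hKout : ((ball o r2 : Finset P2) : Set P2)ᶜ ⊆ Kᶜ := fun a ha h => ha (by simpa using hK2 a h)
  have hKin : ((ball o r1 : Finset P2) : Set P2) ⊆ Kᶜ := fun a ha h => hK1 a h (by simpa using ha)
  have p1 : Relation.ReflTransGen (StepIn Kᶜ) v z :=
    path_mono hKout (sc_ball o r2 v (by simpa using hv) z (by simpa using hzb))
  have ho : o ∈ ball o r1 := by
    rw [mem_ball]
    simp
  have p0 : Relation.ReflTransGen (StepIn Kᶜ) o u :=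
    path_mono hKin (Crest.Agent.R144.Hf702.conn_ball o r1 o (by simpa using ho) u (by simpa using hu))
  have h3 := tot_path hwK hwA hc (p0.trans (hp.trans p1))
  rw [hTo, hTz] at h3
  exact absurd h3 (by decide)

/-- the same for a path inside any set `Q` disjoint from `K` -/
theorem parity' {o : P2} {r1 r2 : ℕ} {y : ℤ} {K Q : Set P2} (hK1 : ∀ v ∈ K, v ∉ ball o r1)
    (hK2 : ∀ v ∈ K, v ∈ ball o r2) (hy : o.2 < y) (hl : (o.1, y) ∈ K)
    (hcol : ∀ v ∈ K, v.1 = o.1 ∨ v.1 = o.1 + 1 → o.2 ≤ v.2 → v = (o.1, y) ∨ v = (o.1 + 1, y - 1))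
    (hpath : Relation.ReflTransGen (StepEx K (o.1, y) (o.1 + 1, y - 1)) (o.1 + 1, y - 1) (o.1, y))
    (hQ : Disjoint K Q) {u v : P2} (hu : u ∈ ball o r1) (hv : v ∉ ball o r2) :
    ¬ Relation.ReflTransGen (StepIn Q) u v := fun hp =>
  parity hK1 hK2 hy hl hcol hpath hu hv
    (path_mono (fun _ ha hk => Set.disjoint_left.1 hQ hk ha) hp)

/-! ### building the walk -/

theorem ex_of_left {K A : Set P2} {e e' a b : P2} (hA : A ⊆ K) (he : e ∉ A)
    (h : Relation.ReflTransGen (StepIn A) a b) : Relation.ReflTransGen (StepEx K e e') a b :=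
  Relation.ReflTransGen.mono (fun _ _ hs => ⟨⟨hA hs.1, hA hs.2.1, hs.2.2⟩,
    fun h => he (h.1 ▸ hs.1), fun h => he (h.2 ▸ hs.2.1)⟩) _ _ h

theorem ex_of_right {K A : Set P2} {e e' a b : P2} (hA : A ⊆ K) (he : e' ∉ A)
    (h : Relation.ReflTransGen (StepIn A) a b) : Relation.ReflTransGen (StepEx K e e') a b :=
  Relation.ReflTransGen.mono (fun _ _ hs => ⟨⟨hA hs.1, hA hs.2.1, hs.2.2⟩,
    fun h => he (h.2 ▸ hs.2.1), fun h => he (h.1 ▸ hs.1)⟩) _ _ h

theorem StepEx.symm {K : Set P2} {e e' a b : P2} (h : StepEx K e e' a b) : StepEx K e e' b a :=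
  ⟨Crest.Agent.R144.Pst967.stepIn_symm h.1, fun h' => h.2.2 ⟨h'.2, h'.1⟩,
    fun h' => h.2.1 ⟨h'.2, h'.1⟩⟩

theorem ex_symm {K : Set P2} {e e' a b : P2} (h : Relation.ReflTransGen (StepEx K e e') a b) :
    Relation.ReflTransGen (StepEx K e e') b a := by
  induction h with
  | refl => exact Relation.ReflTransGen.refl
  | tail _ hbc ih => exact ih.head hbc.symm

theorem ex_step {K : Set P2} {e e' a b : P2} (ha : a ∈ K) (hb : b ∈ K) (h : Adj a b)
    (h1 : ¬ (a = e ∧ b = e')) (h2 : ¬ (a = e' ∧ b = e)) : StepEx K e e' a b :=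
  ⟨⟨ha, hb, h⟩, h1, h2⟩

end Crest.Agent.R144.Par400
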