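import Crest.Agent.R144.Bnd4_991
import Crest.Agent.R144.Par_400
import Crest.Agent.R144.Bd3b_856

/-!
# R144, block BND, B7 (helper856): LEMMA A

`lemA` : from `RSW c K p`, `FKGh c` (B4), `BulkH c K p` (B3), `LemB c K A R c1` (B2):
`LemA c K A R (fun k => (p / 2) ^ (k + 1) * c1 ^ 2)`.

* `no_cross` : the deterministic part (parity lemma of helper400);
* `fkg_step`, `fkg_prod` : iteration of the FKG inequality.
-/

set_option autoImplicit false
set_option linter.unusedSimpArgs false

noncomputable section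

namespace Crest.Agent.R144.Bd7856

open Finset
open Crest.Agent.R144.It844 (P2 adj_iff adj_symm)
open Crest.Agent.R144.Zg349 Crest.Agent.R144.Zd349 Crest.Agent.R144.Zm349 Crest.Agent.R144.Ze349
open Crest.Agent.R144.Rsw867
open Crest.Agent.R144.Bnd991
open Crest.Agent.R144.Pst967 (path_symm)
open Crest.Agent.R144.Bd3856 (conn_ball self_mem_ball)
open Crest.Agent.R144.Par400 (StepEx parity' ex_of_left ex_of_right ex_symm)
open Crest.ProbabilityR.HexHeights (Adj)

/-! ### FKG iteration -/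

section fkg
variable {c : ℝ} {N : Set P2} {Q : Finset P2}

theorem fkg_step (hF : FKGh c) (hQ : SC Q) (hN : Anc N Q) (hZ : 0 < E c Q (Cn N))
    {f g : (P2 → ℤ) → ℝ} (hf : Antitone f) (hg : Antitone g) (hf0 : ∀ h, 0 ≤ f h)
    (hg0 : ∀ h, 0 ≤ g h) {α : ℝ} (h1 : α * E c Q (Cn N) ≤ E c Q (fun ω => Cn N ω * f ω.1))
    (h2 : 0 ≤ E c Q (fun ω => Cn N ω * g ω.1)) :
    α * E c Q (fun ω => Cn N ω * g ω.1) ≤ E c Q (fun ω => Cn N ω * (f ω.1 * g ω.1)) := by
  have h3 := hF N Q hQ hN f g hf hg hf0 hg0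
  have h4 : α * E c Q (Cn N) * E c Q (fun ω => Cn N ω * g ω.1) ≤
      E c Q (Cn N) * E c Q (fun ω => Cn N ω * (f ω.1 * g ω.1)) :=
    (mul_le_mul_of_nonneg_right h1 h2).trans h3
  have h5 : E c Q (Cn N) * (α * E c Q (fun ω => Cn N ω * g ω.1)) ≤
      E c Q (Cn N) * E c Q (fun ω => Cn N ω * (f ω.1 * g ω.1)) := by
    calc E c Q (Cn N) * (α * E c Q (fun ω => Cn N ω * g ω.1))
        = α * E c Q (Cn N) * E c Q (fun ω => Cn N ω * g ω.1) := by ring
      _ ≤ _ := h4
  exact le_of_mul_le_mul_left h5 hZ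

theorem anti_mul {f g : (P2 → ℤ) → ℝ} (hf : Antitone f) (hg : Antitone g) (hf0 : ∀ h, 0 ≤ f h)
    (hg0 : ∀ h, 0 ≤ g h) : Antitone fun h => f h * g h := fun a b hab =>
  mul_le_mul (hf hab) (hg hab) (hg0 _) (hf0 _)

theorem anti_prod {ι : Type*} (s : Finset ι) {f : ι → (P2 → ℤ) → ℝ} (hf : ∀ i ∈ s, Antitone (f i))
    (hf0 : ∀ i ∈ s, ∀ h, 0 ≤ f i h) : Antitone fun h => ∏ i ∈ s, f i h := fun a b hab =>
  Finset.prod_le_prod (fun i hi => hf0 i hi b) fun i hi => hf i hi hab

theorem fkg_prod (hc : 1 ≤ c) (hF : FKGh c) (hQ : SC Q) (hN : Anc N Q) (hZ : 0 < E c Q (Cn N))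
    {ι : Type*} (s : Finset ι) {f : ι → (P2 → ℤ) → ℝ} (hf : ∀ i ∈ s, Antitone (f i))
    (hf0 : ∀ i ∈ s, ∀ h, 0 ≤ f i h) {α : ι → ℝ} (hα : ∀ i ∈ s, 0 ≤ α i)
    (h1 : ∀ i ∈ s, α i * E c Q (Cn N) ≤ E c Q (fun ω => Cn N ω * f i ω.1)) :
    (∏ i ∈ s, α i) * E c Q (Cn N) ≤ E c Q (fun ω => Cn N ω * ∏ i ∈ s, f i ω.1) := by
  classical
  induction s using Finset.induction_on with
  | empty =>
    simp only [Finset.prod_empty, one_mul, mul_one]
    exact le_rfl
  | insert j s hj ih =>
    have hf' : ∀ i ∈ s, Antitone (f i) := fun i hi => hf i (Finset.mem_insert_of_mem hi)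
    have hf0' : ∀ i ∈ s, ∀ h, 0 ≤ f i h := fun i hi => hf0 i (Finset.mem_insert_of_mem hi)
    have ih' := ih hf' hf0' (fun i hi => hα i (Finset.mem_insert_of_mem hi))
      (fun i hi => h1 i (Finset.mem_insert_of_mem hi))
    have hj' := Finset.mem_insert_self j s
    have h2 : 0 ≤ E c Q (fun ω => Cn N ω * ∏ i ∈ s, f i ω.1) := E_nonneg hc fun ω _ =>
      mul_nonneg (Cn_nonneg N ω) (Finset.prod_nonneg fun i hi => hf0' i hi _)
    have h3 := fkg_step hF hQ hN hZ (hf j hj') (anti_prod s hf' hf0') (hf0 j hj')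
      (fun h => Finset.prod_nonneg fun i hi => hf0' i hi h) (h1 j hj') h2
    rw [Finset.prod_insert hj, mul_assoc]
    calc α j * ((∏ i ∈ s, α i) * E c Q (Cn N))
        ≤ α j * E c Q (fun ω => Cn N ω * ∏ i ∈ s, f i ω.1) :=
          mul_le_mul_of_nonneg_left ih' (hα j hj')
      _ ≤ _ := h3
      _ = _ := by
          congr 1
          funext ω
          rw [Finset.prod_insert hj]

end fkg

/-! ### the events as functions of the heights -/

/-- configuration with all triangles closed -/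
def cf (h : P2 → ℤ) : Cfg := (h, fun _ => true)

theorem ind_Hs (a : P2) (n : ℕ) (ω : Cfg) : ind (Hs a n) ω = ind (Hs a n) (cf ω.1) :=
  ind_congr Iff.rfl

theorem ind_Arm0 (N : Set P2) (y : P2) (n : ℕ) (b : P2) (R : ℕ) (ω : Cfg) :
    ind (Arm0 N y n b R) ω = ind (Arm0 N y n b R) (cf ω.1) := ind_congr Iff.rfl

theorem anti_Hs (a : P2) (n : ℕ) : Antitone fun h => ind (Hs a n) (cf h) := by
  intro h h' hh
  refine ind_le_ind fun h1 => ?_
  refine Sepr.mono (fun v hv => ?_) h1
  exact (hh v).trans hv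

theorem anti_Arm0 (N : Set P2) (y : P2) (n : ℕ) (b : P2) (R : ℕ) :
    Antitone fun h => ind (Arm0 N y n b R) (cf h) := by
  intro h h' hh
  refine ind_le_ind fun h1 => ?_
  obtain ⟨u, hu, v, hv, hvN, p⟩ := h1
  refine ⟨u, hu, v, hv, hvN, path_mono ?_ p⟩
  intro w hw
  exact ⟨(hh w).trans hw.1, hw.2⟩

/-! ### the deterministic part -/

section det
variable {K A R n r1 r2 k : ℕ} {N : Set P2} {o : P2} {q : ℤ} {b y : Bool → P2} {a : ℕ → P2}

theorem mem_ball_self_mul {x : P2} {m : ℕ} : x ∈ ball x m := self_mem_ball x m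

/-- free balls avoid the columns of the strip -/
theorem strip_N (hF : Frame K A R n r1 r2 k N o q b y a) {v : P2} (h1 : v.1 = o.1 ∨ v.1 = o.1 + 1)
    (h2 : o.2 ≤ v.2) (h3 : v ∈ ball o r2) (h4 : v ∉ ball o r1) : v ∈ N := by
  refine hF.strip v ?_ h2 (fun h => h4 (ball_mono o (Nat.sub_le _ _) h))
    (ball_mono o (Nat.le_add_right _ _) h3)
  have : (0 : ℤ) ≤ wd K n := Int.natCast_nonneg _
  rw [abs_le]
  rcases h1 with h1 | h1 <;> rw [h1] <;> constructor <;> linarith

theorem ball_n_sub (hK : 4 ≤ K) {x : P2} : ball x n ⊆ ball x (K * n) :=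
  ball_mono x (Nat.le_mul_of_pos_left n (by omega))

/-- path inside the chain of balls -/
theorem chain_path (hF : Frame K A R n r1 r2 k N o q b y a) {j : ℕ} (hj : j ≤ k) :
    Relation.ReflTransGen (StepIn {w | ∃ i ≤ k, w ∈ ball (a i) n}) (a j) (a 0) := by
  induction j with
  | zero => exact Relation.ReflTransGen.refl
  | succ j ih =>
    have h1 := ih (by omega)
    have h2 := conn_ball (a j) n (a (j + 1)) (by simpa using hF.chain j (by omega)) (a j)
      (by simpa using self_mem_ball (a j) n)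
    refine Relation.ReflTransGen.trans ?_ h1
    refine path_mono ?_ h2
    intro w hw
    exact ⟨j, by omega, by simpa using hw⟩

theorem ends_mem {S : Set P2} {u v : P2} (huv : u ≠ v) (p : Relation.ReflTransGen (StepIn S) u v) :
    u ∈ S ∧ v ∈ S := by
  constructor
  · rcases Relation.ReflTransGen.cases_head p with h1 | ⟨w, h1, _⟩
    · exact absurd h1 huv
    · exact h1.1
  · rcases Relation.ReflTransGen.cases_tail p with h1 | ⟨w, _, h1⟩
    · exact absurd h1.symm huv
    · exact h1.2.1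

/-- **No crossing**: the two arms, the free balls without crossing of `{h ≥ 1}` and the exterior strip
form a closed circuit. -/
theorem no_cross (hK : 4 ≤ K) (hF : Frame K A R n r1 r2 k N o q b y a) {ω : Cfg}
    (hH : ∀ i ≤ k, ω ∈ Hs (a i) n) (hA : ∀ s, ω ∈ Arm0 N (y s) n (b s) (R * n)) :
    ω ∉ Cross N o r1 r2 := by
  intro hcr
  have hn := hF.n1
  -- the crossing path
  have hcr' : ¬ Sepr {v | v ∈ N ∨ ω.1 v ≤ 0} o r1 r2 := hcr
  unfold Sepr at hcr'
  push Not at hcr'
  obtain ⟨u, v, hu, hv, p⟩ := hcr'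
  set S : Set P2 := {v | v ∈ N ∨ ω.1 v ≤ 0}ᶜ with hS
  set Pi : Set P2 := {w | Relation.ReflTransGen (StepIn S) u w} with hPi
  have hp : Relation.ReflTransGen (StepIn Pi) u v := by
    have key : ∀ w, Relation.ReflTransGen (StepIn S) u w →
        Relation.ReflTransGen (StepIn Pi) u w := by
      intro w hw
      induction hw with
      | refl => exact Relation.ReflTransGen.refl
      | @tail x y h1 h2 ih => exact ih.tail ⟨h1, h1.tail h2, h2.2.2⟩
    exact key v p
  -- the free balls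
  have hfree : ∀ i ≤ k, ∀ w ∈ ball (a i) n, w ∉ N := fun i hi w hw =>
    hF.free i hi w (ball_n_sub hK hw)
  have hinA : ∀ i ≤ k, ∀ w ∈ ball (a i) n, w ∈ ball o r2 ∧ w ∉ ball o r1 := fun i hi w hw =>
    hF.inA i hi w (ball_n_sub hK hw)
  have hy : ∀ s, ∃ i ≤ k, y s = a i := by
    intro s
    cases s
    · exact ⟨0, Nat.zero_le _, hF.a0.symm⟩
    · exact ⟨k, le_rfl, hF.ak.symm⟩
  -- the pieces
  set Bs : Bool → Set P2 := fun s => {w | ω.1 w ≤ 0 ∧ w ∈ ball (b s) (R * n)} with hBs
  set Ch : Set P2 := {w | ∃ i ≤ k, w ∈ ball (a i) n} with hCh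
  set Nl : Set P2 := {w | w ∈ N ∧ w ∈ ball o r2 ∧ w ∉ ball o r1 ∧ (w.1 < o.1 ∨ w = (o.1, q))} with hNl
  set Nr : Set P2 := {w | w ∈ N ∧ w ∈ ball o r2 ∧ w ∉ ball o r1 ∧
    (o.1 + 1 < w.1 ∨ w = (o.1 + 1, q - 1))} with hNr
  set KK : Set P2 := {w | (∃ s, w ∈ Bs s) ∨ w ∈ Ch ∨ w ∈ Nl ∨ w ∈ Nr} with hKK
  have sB : ∀ s, Bs s ⊆ KK := fun s w hw => Or.inl ⟨s, hw⟩
  have sC : Ch ⊆ KK := fun w hw => Or.inr (Or.inl hw)
  have sNl : Nl ⊆ KK := fun w hw => Or.inr (Or.inr (Or.inl hw))
  have sNr : Nr ⊆ KK := fun w hw => Or.inr (Or.inr (Or.inr hw))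
  have hann : ∀ w ∈ KK, w ∈ ball o r2 ∧ w ∉ ball o r1 := by
    rintro w (⟨s, hw⟩ | ⟨i, hi, hw⟩ | hw | hw)
    · exact hF.ballb s w hw.2
    · exact hinA i hi w hw
    · exact ⟨hw.2.1, hw.2.2.1⟩
    · exact ⟨hw.2.1, hw.2.2.1⟩
  have hBcol : ∀ s, ∀ w ∈ Bs s, w.1 ≠ o.1 ∧ w.1 ≠ o.1 + 1 := by
    intro s w hw
    cases s
    · have := hF.left w hw.2
      constructor <;> omega
    · have := hF.right w hw.2
      constructor <;> omega
  have heN : (o.1, q) ∈ N := strip_N hF (Or.inl rfl) (by have := hF.q0; simp only; omega) hF.q1.1 hF.q1.2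
  have he'N : (o.1 + 1, q - 1) ∈ N :=
    strip_N hF (Or.inr rfl) (by have := hF.q0; simp only; omega) hF.q2.1 hF.q2.2
  have heNl : (o.1, q) ∈ Nl := ⟨heN, hF.q1.1, hF.q1.2, Or.inr rfl⟩
  have he'Nr : (o.1 + 1, q - 1) ∈ Nr := ⟨he'N, hF.q2.1, hF.q2.2, Or.inr rfl⟩
  have hcol : ∀ w ∈ KK, w.1 = o.1 ∨ w.1 = o.1 + 1 → o.2 ≤ w.2 →
      w = (o.1, q) ∨ w = (o.1 + 1, q - 1) := by
    rintro w (⟨s, hw⟩ | ⟨i, hi, hw⟩ | hw | hw) h1 h2
    · have := hBcol s w hw
      rcases h1 with h1 | h1
      · exact absurd h1 this.1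
      · exact absurd h1 this.2
    · have h3 := hinA i hi w hw
      exact absurd (strip_N hF h1 h2 h3.1 h3.2) (hfree i hi w hw)
    · rcases hw.2.2.2 with h3 | h3
      · omega
      · exact Or.inl h3
    · rcases hw.2.2.2 with h3 | h3
      · omega
      · exact Or.inr h3
  -- the arms
  have harm : ∀ s, ∃ u' ∈ ball (y s) n, ∃ v' ∈ ball (b s) (R * n), v' ∈ N ∧
      Relation.ReflTransGen (StepIn (Bs s)) u' v' := hA
  -- disjointness
  have hdis : Disjoint KK Pi := by
    rw [Set.disjoint_left]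
    intro w hw hwP
    have hwann := hann w hw
    have hwu : u ≠ w := fun e => hu (e ▸ hwann.1)
    have hwS : w ∈ S := (ends_mem hwu hwP).2
    have hwN : w ∉ N := fun h => hwS (Or.inl h)
    have hwh : ¬ ω.1 w ≤ 0 := fun h => hwS (Or.inr h)
    rcases hw with ⟨s, hw⟩ | ⟨i, hi, hw⟩ | hw | hw
    · exact hwh hw.1
    · have h1 : ω ∈ Hs (a i) n := hH i hi
      have h2 : u ∉ ball (a i) (2 * n + 2) := by
        intro h3
        refine hu (hF.inA i hi u (ball_mono _ ?_ h3)).1
        nlinarith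
      refine h1 u w h2 hw (path_mono ?_ hwP)
      intro x hx h3
      exact hx (Or.inr h3)
    · exact hwN hw.1
    · exact hwN hw.1
  -- the walk
  have hpath : Relation.ReflTransGen (StepEx KK (o.1, q) (o.1 + 1, q - 1)) (o.1 + 1, q - 1) (o.1, q) := by
    obtain ⟨ul, hul, vl, hvl, hvlN, pl⟩ := harm false
    obtain ⟨ur, hur, vr, hvr, hvrN, pr⟩ := harm true
    have w1 : Relation.ReflTransGen (StepIn Nr) (o.1 + 1, q - 1) vr := path_symm (hF.pr vr hvrN hvr)
    have w2 : Relation.ReflTransGen (StepIn (Bs true)) vr ur := path_symm pr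
    have w5 : Relation.ReflTransGen (StepIn (Bs false)) ul vl := pl
    have w6 : Relation.ReflTransGen (StepIn Nl) vl (o.1, q) := hF.pl vl hvlN hvl
    have w3 : Relation.ReflTransGen (StepIn Ch) ur (a k) := by
      rw [← hF.ak] at hur
      have := conn_ball (a k) n ur (by simpa using hur) (a k) (by simpa using self_mem_ball (a k) n)
      refine path_mono ?_ this
      intro w hw
      exact ⟨k, le_rfl, by simpa using hw⟩
    have w4 : Relation.ReflTransGen (StepIn Ch) (a k) ul := by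
      refine (chain_path hF le_rfl).trans ?_
      rw [← hF.a0] at hul
      have := conn_ball (a 0) n (a 0) (by simpa using self_mem_ball (a 0) n) ul (by simpa using hul)
      refine path_mono ?_ this
      intro w hw
      exact ⟨0, Nat.zero_le _, by simpa using hw⟩
    have n1 : (o.1, q) ∉ Nr := by
      rintro ⟨_, _, _, h | h⟩
      · simp only at h; omega
      · have := congrArg Prod.fst h
        simp only at this
        omega
    have n2 : ∀ s, (o.1, q) ∉ Bs s := fun s h => (hBcol s _ h).1 rfl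
    have n3 : (o.1, q) ∉ Ch := by
      rintro ⟨i, hi, h⟩
      exact hfree i hi _ h heN
    have n4 : (o.1 + 1, q - 1) ∉ Nl := by
      rintro ⟨_, _, _, h | h⟩
      · simp only at h; omega
      · have := congrArg Prod.fst h
        simp only at this
        omega
    exact (ex_of_left sNr n1 w1).trans ((ex_of_left (sB true) (n2 true) w2).trans
      ((ex_of_left sC n3 (w3.trans w4)).trans ((ex_of_left (sB false) (n2 false) w5).trans
        (ex_of_right sNl n4 w6))))
  exact parity' (fun w hw => (hann w hw).2) (fun w hw => (hann w hw).1)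
    (by have := hF.q0; omega) (sNl heNl) hcol hpath hdis hv hu (path_symm hp)

end det

/-! ### Lemma A -/

/-- **LEMMA A.** -/
theorem lemA {c : ℝ} (hc : 1 ≤ c) {K A R : ℕ} {p c1 : ℝ} (hR : RSW c K p) (hF : FKGh c)
    (hB : BulkH c K p) (hc1 : 0 ≤ c1) (hL : LemB c K A R c1) :
    LemA c K A R (fun k => (p / 2) ^ (k + 1) * c1 ^ 2) := by
  intro n r1 r2 k N o q b y a hFr Q hQ hN hQ1 hQ2
  have hK := hR.K4
  have hp0 := hR.p0
  have hZ0 : 0 ≤ E c Q (Cn N) := E_nonneg hc fun ω _ => Cn_nonneg N ω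
  have hcrle : E c Q (fun ω => Cn N ω * ind (Cross N o r1 r2) ω) ≤ E c Q (Cn N) :=
    E_mono hc fun ω _ => mul_le_of_le_one_right (Cn_nonneg N ω) (ind_le_one _ _)
  rcases hZ0.lt_or_eq with hZ | hZ
  swap
  · rw [← hZ] at hcrle ⊢
    rw [mul_zero]
    exact hcrle
  have hwdr : (wd K n : ℤ) ≤ r1 := by
    have := hFr.rin
    omega
  -- points of the annulus off `N` are in `Q`
  have hYs : ∀ v : P2, v ∈ ball o r2 → v ∉ ball o r1 → v ∉ N → v ∈ Q := by
    intro v h1 h2 h3
    refine hQ1 v (ball_mono o (Nat.le_succ _) h1) (fun h => h2 (ball_mono o (Nat.sub_le _ _) h)) ?_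
    have hm1 : v ∉ ball o (r1 - mg K n) := fun h => h2 (ball_mono o (Nat.sub_le _ _) h)
    have hm2 : v ∈ ball o (r2 + mg K n) := ball_mono o (Nat.le_add_right _ _) h1
    rintro ((h4 | h4) | h4)
    · exact h3 (hFr.strip v (by have := h4.1; omega) h4.2 hm1 hm2)
    · exact h3 (hFr.slit false v (by rw [h4.1]) (by rw [h4.1]; omega) h4.2 hm2)
    · exact h3 (hFr.slit true v (by rw [h4.1]) (by rw [h4.1]; omega) h4.2 hm2)
  -- bulk balls
  have h1 : ∀ i ≤ k, p / 2 * E c Q (Cn N) ≤ E c Q (fun ω => Cn N ω * ind (Hs (a i) n) (cf ω.1)) := by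
    intro i hi
    have := hB N Q (a i) n hQ hFr.n1 (fun v hv => hYs v (hFr.inA i hi v hv).1 (hFr.inA i hi v hv).2
      (hFr.free i hi v hv)) (hFr.free i hi)
    refine this.trans (le_of_eq (E_congr fun ω _ => ?_))
    rw [ind_Hs]
  -- arms
  have h2 : ∀ s, c1 * E c Q (Cn N) ≤
      E c Q (fun ω => Cn N ω * ind (Arm0 N (y s) n (b s) (R * n)) (cf ω.1)) := by
    intro s
    have hbs : b s ∈ ball (b s) (R * n) := self_mem_ball _ _
    have hside : ∀ t ∈ ball (b s) (R * n), ¬ (|t.1 - o.1| ≤ (r1 : ℤ) + 2) := by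
      intro t ht h
      rw [abs_le] at h
      cases s
      · have := hFr.left t ht
        omega
      · have := hFr.right t ht
        omega
    have hother : ∀ t ∈ ball (b s) (R * n), t ∈ ray (b (!s)) → False := by
      intro t ht h
      have h3 : b (!s) ∈ ball (b (!s)) (R * n) := self_mem_ball _ _
      cases s
      · have h4 := hFr.left t ht
        have h5 := hFr.right (b true) h3
        have h6 : t.1 = (b true).1 := h.1
        omega
      · have h4 := hFr.right t ht
        have h5 := hFr.left (b false) h3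
        have h6 : t.1 = (b false).1 := h.1
        omega
    have := hL N Q (b s) (y s) n hFr.n1 hQ hN ?_ ?_ (hFr.yb s) ?_
    · refine this.trans (le_of_eq (E_congr fun ω _ => ?_))
      rw [ind_Arm0]
    · intro t ht
      constructor
      · intro h h3
        refine hQ2 t h ?_
        cases s
        · exact Or.inl (Or.inr h3)
        · exact Or.inr h3
      · intro h
        have h3 := hFr.ballb s t ht
        refine hQ1 t (ball_mono o (Nat.le_succ _) h3.1)
          (fun h => h3.2 (ball_mono o (Nat.sub_le _ _) h)) ?_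
        rintro ((h4 | h4) | h4)
        · exact hside t ht (by have := h4.1; omega)
        · cases s
          · exact h h4
          · exact hother t ht h4
        · cases s
          · exact hother t ht h4
          · exact h h4
    · intro t ht h v hv
      have h3 := (hFr.ballb s t ht).1
      have h4 : v ∈ ball o (r2 + mg K n) := by
        have h5 : v ∈ ball o (r2 + 1) := by
          rw [mem_up] at hv
          rcases hv with rfl | rfl | rfl
          · exact ball_mono o (Nat.le_succ _) h3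
          · exact adj_ball h3 (adj_iff.2 (by simp))
          · exact adj_ball h3 (adj_iff.2 (by simp))
        refine ball_mono o ?_ h5
        unfold mg
        omega
      refine hFr.slit s v ?_ ?_ ?_ h4
      · rw [mem_up] at hv
        rcases hv with rfl | rfl | rfl <;> have h5 := h.1 <;> (try simp only) <;> omega
      · rw [mem_up] at hv
        rcases hv with rfl | rfl | rfl <;> have h5 := h.1 <;> (try simp only) <;> omega
      · rw [mem_up] at hv
        have := h.2
        rcases hv with rfl | rfl | rfl <;> (try simp only) <;> omega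
    · intro v hv
      cases s
      · rw [← hFr.a0] at hv
        exact hFr.free 0 (Nat.zero_le _) v hv
      · rw [← hFr.ak] at hv
        exact hFr.free k le_rfl v hv
  -- FKG
  have hα : 0 ≤ p / 2 := by linarith
  have g1 := fkg_prod hc hF hQ hN hZ (Finset.range (k + 1)) (f := fun i h => ind (Hs (a i) n) (cf h))
    (fun i _ => anti_Hs _ _) (fun i _ h => ind_nonneg _ _) (α := fun _ => p / 2) (fun _ _ => hα)
    (fun i hi => h1 i (by have := Finset.mem_range.1 hi; omega))
  have hG : Antitone fun h => ∏ i ∈ Finset.range (k + 1), ind (Hs (a i) n) (cf h) :=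
    anti_prod _ (fun i _ => anti_Hs _ _) fun i _ h => ind_nonneg _ _
  have hG0 : ∀ h, 0 ≤ ∏ i ∈ Finset.range (k + 1), ind (Hs (a i) n) (cf h) := fun h =>
    Finset.prod_nonneg fun i _ => ind_nonneg _ _
  have g2 := fkg_step hF hQ hN hZ (anti_Arm0 N (y true) n (b true) (R * n)) hG
    (fun h => ind_nonneg _ _) hG0 (h2 true)
    (E_nonneg hc fun ω _ => mul_nonneg (Cn_nonneg N ω) (hG0 _))
  have g3 := fkg_step hF hQ hN hZ (anti_Arm0 N (y false) n (b false) (R * n))
    (anti_mul (anti_Arm0 N (y true) n (b true) (R * n)) hG (fun h => ind_nonneg _ _) hG0)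
    (fun h => ind_nonneg _ _) (fun h => mul_nonneg (ind_nonneg _ _) (hG0 _)) (h2 false)
    (E_nonneg hc fun ω _ => mul_nonneg (Cn_nonneg N ω) (mul_nonneg (ind_nonneg _ _) (hG0 _)))
  -- total
  have g4 : (p / 2) ^ (k + 1) * c1 ^ 2 * E c Q (Cn N) ≤
      E c Q (fun ω => Cn N ω * (ind (Arm0 N (y false) n (b false) (R * n)) (cf ω.1) *
        (ind (Arm0 N (y true) n (b true) (R * n)) (cf ω.1) *
          ∏ i ∈ Finset.range (k + 1), ind (Hs (a i) n) (cf ω.1)))) := by
    refine le_trans ?_ g3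
    have e : (p / 2) ^ (k + 1) * c1 ^ 2 * E c Q (Cn N) =
        c1 * (c1 * ((p / 2) ^ (k + 1) * E c Q (Cn N))) := by ring
    rw [e]
    refine mul_le_mul_of_nonneg_left (le_trans ?_ g2) hc1
    refine mul_le_mul_of_nonneg_left ?_ hc1
    rw [Finset.prod_const, Finset.card_range] at g1
    exact g1
  -- pointwise
  have g5 : E c Q (fun ω => Cn N ω * ind (Cross N o r1 r2) ω) +
      E c Q (fun ω => Cn N ω * (ind (Arm0 N (y false) n (b false) (R * n)) (cf ω.1) *
        (ind (Arm0 N (y true) n (b true) (R * n)) (cf ω.1) *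
          ∏ i ∈ Finset.range (k + 1), ind (Hs (a i) n) (cf ω.1)))) ≤ E c Q (Cn N) := by
    rw [← E_add]
    refine E_mono hc fun ω _ => ?_
    rw [← mul_add]
    refine mul_le_of_le_one_right (Cn_nonneg N ω) ?_
    by_cases hall : (∀ i ≤ k, ω ∈ Hs (a i) n) ∧ ∀ s, ω ∈ Arm0 N (y s) n (b s) (R * n)
    · have h3 := no_cross hK hFr hall.1 hall.2
      rw [ind_of_not_mem h3, zero_add]
      refine mul_le_one₀ (ind_le_one _ _) (mul_nonneg (ind_nonneg _ _) (hG0 _)) ?_
      refine mul_le_one₀ (ind_le_one _ _) (hG0 _) ?_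
      exact Finset.prod_le_one (fun i _ => ind_nonneg _ _) fun i _ => ind_le_one _ _
    · have h3 : ind (Arm0 N (y false) n (b false) (R * n)) (cf ω.1) *
          (ind (Arm0 N (y true) n (b true) (R * n)) (cf ω.1) *
            ∏ i ∈ Finset.range (k + 1), ind (Hs (a i) n) (cf ω.1)) = 0 := by
        rw [not_and_or] at hall
        rcases hall with hall | hall
        · push Not at hall
          obtain ⟨i, hi, h4⟩ := hall
          have h5 : ∏ i ∈ Finset.range (k + 1), ind (Hs (a i) n) (cf ω.1) = 0 := by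
            refine Finset.prod_eq_zero (Finset.mem_range.2 (Nat.lt_succ_of_le hi)) ?_
            rw [← ind_Hs]
            exact ind_of_not_mem h4
          rw [h5, mul_zero, mul_zero]
        · push Not at hall
          obtain ⟨s, h4⟩ := hall
          cases s
          · rw [← ind_Arm0, ind_of_not_mem h4, zero_mul]
          · rw [← ind_Arm0 N (y true), ind_of_not_mem h4, zero_mul, mul_zero]
      rw [h3, add_zero]
      exact ind_le_one _ _
  simp only
  linarith

end Crest.Agent.R144.Bd7856
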