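import Crest.Agent.R144.Bx2_695
import Crest.Agent.R144.Bnd0_991

/-!
# R144, block B4 of BND (helper695), part 3: the statements in the notation of `Bnd0_991`

* `KI K h` = indicator of the set of heights `K`; `Bx I` = heights with `h v ∈ I v`; `Sle A B` = strong order of
  sets of integers; `D01 N` = the data "`{0, 1}` on `N`";
* `holley_set`, `fkg_set` : Holley and FKG for `E c F (Kn X ω * KI K ω.1 * f ω.1)`, arbitrary lattice sets `K`;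
* `holley_box`, `fkg_box` : for box data; `holley_cn` : `Cn N * KI (Bx I)` against `Cn N * KI (Bx J)`;
* `cn_eq` : on valid configurations `Cn N = KI (Bx (D01 N))` (`Anc N F`);
* **`fkgh : 1 ≤ c → FKGh c`**, `fkg_cn`, `fkg_cn_anti` (with `Kn X`, monotone or antitone, any sign);
* **`sandwich0`, `sandwich1`** : `ex x Λ 0 f * E c G (Cn N * Kn X) ≤ E c G (Cn N * Kn X * f) ≤ ex x Λ 1 f * ..`;
  `le_box`, `box_le` : the same for arbitrary box data and boundary data `τ`.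
-/

set_option autoImplicit false
set_option linter.unusedVariables false
set_option linter.unusedSectionVars false

noncomputable section

namespace Crest.Agent.R144.Bx695

open Finset
open Crest.Agent.R144.It844 (P2 Lip Cst tw upT mem_upT ex nbhd lip_const)
open Crest.Agent.R144.Zg349 Crest.Agent.R144.Zk349 Crest.Agent.R144.Zd349
open Crest.Agent.R144.Zm349 Crest.Agent.R144.Ze349
open Crest.Agent.R144.Bnd991
open Crest.ProbabilityR.HexHeights (Adj)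

/-! ### indicators of sets of heights -/

open Classical in
/-- indicator of a set of heights -/
def KI (K : Set (P2 → ℤ)) (h : P2 → ℤ) : ℝ := if h ∈ K then 1 else 0

theorem KI_of {K : Set (P2 → ℤ)} {h : P2 → ℤ} (hh : h ∈ K) : KI K h = 1 := if_pos hh
theorem KI_of_not {K : Set (P2 → ℤ)} {h : P2 → ℤ} (hh : h ∉ K) : KI K h = 0 := if_neg hh
theorem KI_nonneg (K : Set (P2 → ℤ)) (h : P2 → ℤ) : 0 ≤ KI K h := by
  unfold KI; split_ifs <;> norm_num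
theorem KI_le_one (K : Set (P2 → ℤ)) (h : P2 → ℤ) : KI K h ≤ 1 := by
  unfold KI; split_ifs <;> norm_num
theorem KI_univ (h : P2 → ℤ) : KI Set.univ h = 1 := KI_of (Set.mem_univ _)
theorem KI_inter (K L : Set (P2 → ℤ)) (h : P2 → ℤ) : KI (K ∩ L) h = KI K h * KI L h := by
  by_cases h1 : h ∈ K
  · by_cases h2 : h ∈ L
    · rw [KI_of (show h ∈ K ∩ L from ⟨h1, h2⟩), KI_of h1, KI_of h2, one_mul]
    · rw [KI_of_not fun h3 => h2 h3.2, KI_of_not h2, mul_zero]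
  · rw [KI_of_not fun h3 => h1 h3.1, KI_of_not h1, zero_mul]

/-- lattice condition for two sets of heights, on the admissible heights of `F` -/
def LeS (F : Finset P2) (K L : Set (P2 → ℤ)) : Prop :=
  ∀ a b, HV F a → HV F b → a ∈ K → b ∈ L → a ⊓ b ∈ K ∧ a ⊔ b ∈ L

theorem LeS.inter {F : Finset P2} {K L K' L' : Set (P2 → ℤ)} (h : LeS F K L) (h' : LeS F K' L') :
    LeS F (K ∩ K') (L ∩ L') := fun a b ha hb h1 h2 =>
  ⟨⟨(h a b ha hb h1.1 h2.1).1, (h' a b ha hb h1.2 h2.2).1⟩,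
    ⟨(h a b ha hb h1.1 h2.1).2, (h' a b ha hb h1.2 h2.2).2⟩⟩

/-- a decreasing set is below everything -/
theorem LeS.of_lower {F : Finset P2} {K : Set (P2 → ℤ)} (hK : ∀ a b : P2 → ℤ, a ≤ b → b ∈ K → a ∈ K) :
    LeS F K Set.univ := fun a b _ _ h1 _ => ⟨hK _ _ inf_le_left h1, trivial⟩

theorem LeS.of_upper {F : Finset P2} {K : Set (P2 → ℤ)} (hK : ∀ a b : P2 → ℤ, a ≤ b → a ∈ K → b ∈ K) :
    LeS F Set.univ K := fun a b _ _ _ h2 => ⟨trivial, hK _ _ le_sup_right h2⟩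

/-- the first colour is `+` on the triangles of `X` -/
def PX (F : Finset P2) (X : Set P2) (K : Set (P2 → ℤ)) : Prop :=
  ∀ a, HV F a → a ∈ K → ∀ t ∈ X, ∀ v ∈ up t, s1 (a v) = true

theorem PX.c1 {F : Finset P2} {X : Set P2} {K : Set (P2 → ℤ)} (h : PX F X K) {a : P2 → ℤ}
    (ha : HV F a) (haK : a ∈ K) {t : P2} (ht : t ∈ X) : C1 a t := by
  have k := fun i => h a ha haK t ht (cr t i) (cr_mem_up t i)
  exact ⟨by rw [k, k], by rw [k, k]⟩

open Classical in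
/-- finite part of `X` -/
def fX (F : Finset P2) (X : Set P2) : Finset P2 := F.filter fun t => t ∈ X

theorem kn_eq {F : Finset P2} {X : Set P2} {K : Set (P2 → ℤ)} (hX : PX F X K) {ω : Cfg}
    (hω : Valid F ω) : Kn X ω * KI K ω.1 = KcI (fX F X) ω * KI K ω.1 := by
  classical
  by_cases hK : ω.1 ∈ K
  · rw [KI_of hK, mul_one, mul_one]
    have e : (∀ t ∈ X, pC ω t) ↔ ∀ t ∈ fX F X, ω.2 t = true := by
      constructor
      · intro h t ht
        exact (h t (by unfold fX at ht; exact (Finset.mem_filter.1 ht).2)).1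
      · intro h t ht
        refine ⟨?_, hX ω.1 hω.ht hK t ht t (Zg349.mem_up.2 (Or.inl rfl))⟩
        by_cases hF : t ∈ F
        · exact h t (Finset.mem_filter.2 ⟨hF, ht⟩)
        · exact hω.cl t hF
    unfold Kn KcI
    simp only [e]
  · rw [KI_of_not hK, mul_zero, mul_zero]

theorem c1_eq {F : Finset P2} {X : Set P2} {K : Set (P2 → ℤ)} (hX : PX F X K) {a : P2 → ℤ}
    (ha : HV F a) : C1I (fX F X) a * KI K a = KI K a := by
  classical
  by_cases hK : a ∈ K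
  · have : C1I (fX F X) a = 1 := if_pos fun t ht =>
      hX.c1 ha hK (by unfold fX at ht; exact (Finset.mem_filter.1 ht).2)
    rw [this, one_mul]
  · rw [KI_of_not hK, mul_zero]

theorem ad_of {F : Finset P2} {X : Set P2} {K L : Set (P2 → ℤ)} (hXK : PX F X K) (hXL : PX F X L)
    (hKL : LeS F K L) : AD F (fun a => C1I (fX F X) a * KI K a) (fun a => C1I (fX F X) a * KI L a) := by
  intro a b ha hb
  simp only
  rw [c1_eq hXK ha, c1_eq hXL hb, c1_eq hXK (hv_inf ha hb), c1_eq hXL (hv_sup ha hb)]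
  by_cases h1 : a ∈ K
  · by_cases h2 : b ∈ L
    · obtain ⟨h3, h4⟩ := hKL a b ha hb h1 h2
      rw [KI_of h1, KI_of h2, KI_of h3, KI_of h4]
    · rw [KI_of_not h2, mul_zero]
      exact mul_nonneg (KI_nonneg _ _) (KI_nonneg _ _)
  · rw [KI_of_not h1, zero_mul]
    exact mul_nonneg (KI_nonneg _ _) (KI_nonneg _ _)

variable {c : ℝ} {F : Finset P2} {X : Set P2} {K L : Set (P2 → ℤ)} {f g : (P2 → ℤ) → ℝ}

/-- **Holley for sets of heights.** -/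
theorem holley_set (hc : 1 ≤ c) (hXK : PX F X K) (hXL : PX F X L) (hKL : LeS F K L) (hf : IncH F f) :
    E c F (fun ω => Kn X ω * KI K ω.1 * f ω.1) * E c F (fun ω => Kn X ω * KI L ω.1) ≤
      E c F (fun ω => Kn X ω * KI K ω.1) * E c F (fun ω => Kn X ω * KI L ω.1 * f ω.1) := by
  have key := E_holley hc (X := fX F X) (φ := KI K) (ψ := KI L) (f := f)
    (fun a _ => mul_nonneg (C1I_nonneg _ _) (KI_nonneg _ _))
    (fun a _ => mul_nonneg (C1I_nonneg _ _) (KI_nonneg _ _)) (ad_of hXK hXL hKL) hf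
  have e1 : ∀ {K : Set (P2 → ℤ)}, PX F X K → E c F (fun ω => Kn X ω * KI K ω.1 * f ω.1) =
      E c F (fun ω => KcI (fX F X) ω * KI K ω.1 * f ω.1) := fun h =>
    E_congr fun ω hω => by rw [kn_eq h hω]
  have e2 : ∀ {K : Set (P2 → ℤ)}, PX F X K → E c F (fun ω => Kn X ω * KI K ω.1) =
      E c F (fun ω => KcI (fX F X) ω * KI K ω.1) := fun h => E_congr fun ω hω => kn_eq h hω
  rw [e1 hXK, e1 hXL, e2 hXK, e2 hXL]
  exact key

/-- **FKG on a sublattice of heights.** -/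
theorem fkg_set (hc : 1 ≤ c) (hXK : PX F X K) (hK : LeS F K K) (hf : IncH F f) (hg : IncH F g) :
    E c F (fun ω => Kn X ω * KI K ω.1 * f ω.1) * E c F (fun ω => Kn X ω * KI K ω.1 * g ω.1) ≤
      E c F (fun ω => Kn X ω * KI K ω.1) *
        E c F (fun ω => Kn X ω * KI K ω.1 * (f ω.1 * g ω.1)) := by
  have key := E_fkg hc (X := fX F X) (φ := KI K) (f := f) (g := g)
    (fun a _ => mul_nonneg (C1I_nonneg _ _) (KI_nonneg _ _)) (ad_of hXK hXK hK) hf hg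
  have e1 : ∀ f : (P2 → ℤ) → ℝ, E c F (fun ω => Kn X ω * KI K ω.1 * f ω.1) =
      E c F (fun ω => KcI (fX F X) ω * KI K ω.1 * f ω.1) := fun f =>
    E_congr fun ω hω => by rw [kn_eq hXK hω]
  have e2 : E c F (fun ω => Kn X ω * KI K ω.1) =
      E c F (fun ω => KcI (fX F X) ω * KI K ω.1) := E_congr fun ω hω => kn_eq hXK hω
  rw [e1, e1, e2, e1 (fun h => f h * g h)]
  exact key

/-! ### boxes -/

/-- box data -/
def Bx (I : P2 → Set ℤ) : Set (P2 → ℤ) := {h | ∀ v, h v ∈ I v}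

/-- strong order of sets of integers -/
def Sle (A B : Set ℤ) : Prop := ∀ a ∈ A, ∀ b ∈ B, min a b ∈ A ∧ max a b ∈ B

theorem Sle.icc {l u l' u' : ℤ} (h1 : l ≤ l') (h2 : u ≤ u') : Sle (Set.Icc l u) (Set.Icc l' u') := by
  intro a ha b hb
  rw [Set.mem_Icc] at *
  refine ⟨⟨?_, ?_⟩, ?_, ?_⟩ <;> omega

theorem Sle.iic_univ (u : ℤ) : Sle (Set.Iic u) Set.univ := fun a ha b _ => by
  simp only [Set.mem_Iic] at *
  exact ⟨by omega, trivial⟩
theorem Sle.univ_ici (l : ℤ) : Sle Set.univ (Set.Ici l) := fun a _ b hb => by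
  simp only [Set.mem_Ici] at *
  exact ⟨trivial, by omega⟩
theorem Sle.univ : Sle Set.univ Set.univ := fun _ _ _ _ => ⟨trivial, trivial⟩
theorem Sle.iic {u u' : ℤ} (h : u ≤ u') : Sle (Set.Iic u) (Set.Iic u') := fun a ha b hb => by
  simp only [Set.mem_Iic] at *
  exact ⟨by omega, by omega⟩
theorem Sle.ici {l l' : ℤ} (h : l ≤ l') : Sle (Set.Ici l) (Set.Ici l') := fun a ha b hb => by
  simp only [Set.mem_Ici] at *
  exact ⟨by omega, by omega⟩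
theorem Sle.iic_ici {l u : ℤ} : Sle (Set.Iic u) (Set.Ici l) := fun a ha b hb => by
  simp only [Set.mem_Ici] at *
  simp only [Set.mem_Iic] at *
  exact ⟨by omega, by omega⟩
/-- every set of integers is below itself when it is a chain (always) -/
theorem Sle.refl (A : Set ℤ) : Sle A A := fun a ha b hb => by
  rcases le_total a b with h | h
  · rw [min_eq_left h, max_eq_right h]; exact ⟨ha, hb⟩
  · rw [min_eq_right h, max_eq_left h]; exact ⟨hb, ha⟩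
theorem Sle.icc_univ_of {l u : ℤ} {B : Set ℤ} (hB : ∀ b ∈ B, l ≤ b) (hB' : ∀ a ∈ Set.Icc l u, ∀ b ∈ B,
    max a b ∈ B) : Sle (Set.Icc l u) B := fun a ha b hb =>
  ⟨⟨le_min ha.1 (hB b hb), (min_le_left _ _).trans ha.2⟩, hB' a ha b hb⟩

theorem LeS.box {I J : P2 → Set ℤ} (h : ∀ v, Sle (I v) (J v)) : LeS F (Bx I) (Bx J) :=
  fun a b _ _ ha hb => ⟨fun v => (h v _ (ha v) _ (hb v)).1, fun v => (h v _ (ha v) _ (hb v)).2⟩

theorem PX.box {I : P2 → Set ℤ} (h : ∀ t ∈ X, ∀ v ∈ up t, ∀ k ∈ I v, s1 k = true) : PX F X (Bx I) :=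
  fun a _ ha t ht v hv => h t ht v hv _ (ha v)

/-- **Box monotonicity (Holley).** -/
theorem holley_box (hc : 1 ≤ c) {I J : P2 → Set ℤ} (hIJ : ∀ v, Sle (I v) (J v))
    (hXI : ∀ t ∈ X, ∀ v ∈ up t, ∀ k ∈ I v, s1 k = true)
    (hXJ : ∀ t ∈ X, ∀ v ∈ up t, ∀ k ∈ J v, s1 k = true) (hf : IncH F f) :
    E c F (fun ω => Kn X ω * KI (Bx I) ω.1 * f ω.1) * E c F (fun ω => Kn X ω * KI (Bx J) ω.1) ≤
      E c F (fun ω => Kn X ω * KI (Bx I) ω.1) * E c F (fun ω => Kn X ω * KI (Bx J) ω.1 * f ω.1) :=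
  holley_set hc (PX.box hXI) (PX.box hXJ) (LeS.box hIJ) hf

/-- **FKG for box data.** -/
theorem fkg_box (hc : 1 ≤ c) {I : P2 → Set ℤ} (hXI : ∀ t ∈ X, ∀ v ∈ up t, ∀ k ∈ I v, s1 k = true)
    (hf : IncH F f) (hg : IncH F g) :
    E c F (fun ω => Kn X ω * KI (Bx I) ω.1 * f ω.1) * E c F (fun ω => Kn X ω * KI (Bx I) ω.1 * g ω.1) ≤
      E c F (fun ω => Kn X ω * KI (Bx I) ω.1) *
        E c F (fun ω => Kn X ω * KI (Bx I) ω.1 * (f ω.1 * g ω.1)) :=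
  fkg_set hc (PX.box hXI) (LeS.box fun v => Sle.refl _) hf hg

/-! ### the constraint `Cn N` -/

open Classical in
/-- the data `{0, 1}` on `N` -/
def D01 (N : Set P2) (v : P2) : Set ℤ := if v ∈ N then Set.Icc 0 1 else Set.univ

theorem mem_D01 {N : Set P2} {v : P2} {k : ℤ} : k ∈ D01 N v ↔ (v ∈ N → k = 0 ∨ k = 1) := by
  unfold D01
  by_cases h : v ∈ N
  · rw [if_pos h, Set.mem_Icc]
    constructor
    · intro h1 _; omega
    · intro h1; have := h1 h; omega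
  · rw [if_neg h]
    exact ⟨fun _ h1 => absurd h1 h, fun _ => trivial⟩

theorem mem_bx_D01 {N : Set P2} {h : P2 → ℤ} : h ∈ Bx (D01 N) ↔ ∀ v ∈ N, h v = 0 ∨ h v = 1 :=
  ⟨fun a v hv => mem_D01.1 (a v) hv, fun a v => mem_D01.2 fun hv => a v hv⟩

theorem cn_eq {N : Set P2} (hN : Anc N F) {ω : Cfg} (hω : Valid F ω) :
    Cn N ω = KI (Bx (D01 N)) ω.1 := by
  by_cases h : ∀ v ∈ N, s1 (ω.1 v) = true
  · rw [Cn_of h, KI_of (mem_bx_D01.2 fun v hv => ht01 hN hω h hv)]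
  · rw [Cn_of_not h, KI_of_not]
    intro h1
    apply h
    intro v hv
    rcases mem_bx_D01.1 h1 v hv with h2 | h2 <;> rw [h2] <;> decide

theorem px_D01 {N : Set P2} (hX : ∀ t ∈ X, ∀ v ∈ up t, v ∈ N) (K : Set (P2 → ℤ)) :
    PX F X (Bx (D01 N) ∩ K) := fun a _ ha t ht v hv => by
  rcases mem_bx_D01.1 ha.1 v (hX t ht v hv) with h2 | h2 <;> rw [h2] <;> decide

/-- **Holley in presence of `Cn N * Kn X`** -/
theorem holley_cn (hc : 1 ≤ c) {N : Set P2} (hN : Anc N F) (hX : ∀ t ∈ X, ∀ v ∈ up t, v ∈ N)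
    (hKL : LeS F K L) (hf : IncH F f) :
    E c F (fun ω => Cn N ω * Kn X ω * KI K ω.1 * f ω.1) * E c F (fun ω => Cn N ω * Kn X ω * KI L ω.1) ≤
      E c F (fun ω => Cn N ω * Kn X ω * KI K ω.1) *
        E c F (fun ω => Cn N ω * Kn X ω * KI L ω.1 * f ω.1) := by
  have key := holley_set hc (px_D01 (F := F) hX K) (px_D01 hX L)
    ((LeS.box (F := F) (I := D01 N) (J := D01 N) fun v => Sle.refl _).inter hKL) hf
  have e1 : ∀ K : Set (P2 → ℤ), E c F (fun ω => Cn N ω * Kn X ω * KI K ω.1 * f ω.1) =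
      E c F (fun ω => Kn X ω * KI (Bx (D01 N) ∩ K) ω.1 * f ω.1) := fun K =>
    E_congr fun ω hω => by rw [cn_eq hN hω, KI_inter]; ring
  have e2 : ∀ K : Set (P2 → ℤ), E c F (fun ω => Cn N ω * Kn X ω * KI K ω.1) =
      E c F (fun ω => Kn X ω * KI (Bx (D01 N) ∩ K) ω.1) := fun K =>
    E_congr fun ω hω => by rw [cn_eq hN hω, KI_inter]; ring
  rw [e1, e1, e2, e2]
  exact key

/-- **FKG in presence of `Cn N * Kn X`, increasing functions of any sign** -/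
theorem fkg_cn (hc : 1 ≤ c) {N : Set P2} (hN : Anc N F) (hX : ∀ t ∈ X, ∀ v ∈ up t, v ∈ N)
    (hf : IncH F f) (hg : IncH F g) :
    E c F (fun ω => Cn N ω * Kn X ω * f ω.1) * E c F (fun ω => Cn N ω * Kn X ω * g ω.1) ≤
      E c F (fun ω => Cn N ω * Kn X ω) * E c F (fun ω => Cn N ω * Kn X ω * (f ω.1 * g ω.1)) := by
  have hX' : PX F X (Bx (D01 N)) := fun a ha h1 =>
    px_D01 (F := F) hX Set.univ a ha ⟨h1, trivial⟩
  have key := fkg_set hc hX' (LeS.box fun v => Sle.refl _) hf hg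
  have e1 : ∀ f : (P2 → ℤ) → ℝ, E c F (fun ω => Cn N ω * Kn X ω * f ω.1) =
      E c F (fun ω => Kn X ω * KI (Bx (D01 N)) ω.1 * f ω.1) := fun f =>
    E_congr fun ω hω => by rw [cn_eq hN hω]; ring
  have e2 : E c F (fun ω => Cn N ω * Kn X ω) = E c F (fun ω => Kn X ω * KI (Bx (D01 N)) ω.1) :=
    E_congr fun ω hω => by rw [cn_eq hN hω]; ring
  rw [e1, e1, e1 (fun h => f h * g h), e2]
  exact key

/-- decreasing on the admissible heights -/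
def DecH (F : Finset P2) (f : (P2 → ℤ) → ℝ) : Prop := ∀ a b, HV F a → HV F b → a ≤ b → f b ≤ f a

theorem fkg_cn_anti (hc : 1 ≤ c) {N : Set P2} (hN : Anc N F) (hX : ∀ t ∈ X, ∀ v ∈ up t, v ∈ N)
    (hf : DecH F f) (hg : DecH F g) :
    E c F (fun ω => Cn N ω * Kn X ω * f ω.1) * E c F (fun ω => Cn N ω * Kn X ω * g ω.1) ≤
      E c F (fun ω => Cn N ω * Kn X ω) * E c F (fun ω => Cn N ω * Kn X ω * (f ω.1 * g ω.1)) := by
  have key := fkg_cn hc hN hX (f := fun h => -f h) (g := fun h => -g h)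
    (fun a b ha hb h => neg_le_neg (hf a b ha hb h)) (fun a b ha hb h => neg_le_neg (hg a b ha hb h))
  have e1 : ∀ f : (P2 → ℤ) → ℝ, E c F (fun ω => Cn N ω * Kn X ω * -f ω.1) =
      -E c F (fun ω => Cn N ω * Kn X ω * f ω.1) := fun f => by
    have := E_smul c F (-1) (fun ω => Cn N ω * Kn X ω * f ω.1)
    rw [neg_one_mul] at this
    rw [← this]
    exact E_congr fun ω _ => by ring
  have e2 : E c F (fun ω => Cn N ω * Kn X ω * (-f ω.1 * -g ω.1)) =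
      E c F (fun ω => Cn N ω * Kn X ω * (f ω.1 * g ω.1)) := E_congr fun ω _ => by ring
  rw [e1, e1, e2, neg_mul_neg] at key
  exact key

/-- **block B4** -/
theorem fkgh (hc : 1 ≤ c) : FKGh c := by
  intro N Q _ hN f g hf hg _ _
  have key := fkg_cn_anti hc (X := ∅) hN (fun t ht => absurd ht (Set.notMem_empty t)) (f := f) (g := g)
    (fun a b _ _ h => hf h) (fun a b _ _ h => hg h)
  have e0 : ∀ ω : Cfg, Kn ∅ ω = 1 := fun ω => Kn_of fun t ht => absurd ht (Set.notMem_empty t)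
  simp only [e0, mul_one] at key
  exact key

/-! ### sandwiches -/

theorem off_KI {Λ : Finset P2} {K : Set (P2 → ℤ)}
    (hK : ∀ a b : P2 → ℤ, (∀ v, v ∉ Λ → a v = b v) → a ∈ K → b ∈ K) :
    Off Λ (fun ω => KI K ω.1) := by
  intro ω ω' h1 _
  show KI K ω.1 = KI K ω'.1
  by_cases h : ω.1 ∈ K
  · rw [KI_of h, KI_of (hK _ _ h1 h)]
  · rw [KI_of_not h, KI_of_not fun h2 => h (hK _ _ (fun v hv => (h1 v hv).symm) h2)]

theorem off_box {Λ : Finset P2} {I : P2 → Set ℤ} (hI : ∀ v ∈ Λ, I v = Set.univ) :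
    Off Λ (fun ω => KI (Bx I) ω.1) := by
  refine off_KI fun a b h ha v => ?_
  by_cases hv : v ∈ Λ
  · rw [hI v hv]; trivial
  · rw [← h v hv]; exact ha v

theorem off_Cn {Λ : Finset P2} {N : Set P2} (hN : ∀ v ∈ N, v ∉ Λ) : Off Λ (Cn N) := fun ω ω' h1 _ =>
  Cn_congr ⟨fun h v hv => by rw [← h1 v (hN v hv)]; exact h v hv,
    fun h v hv => by rw [h1 v (hN v hv)]; exact h v hv⟩

theorem off_Kn {Λ : Finset P2} {X : Set P2} (hX : ∀ t ∈ X, ∀ v ∈ up t, v ∉ Λ) : Off Λ (Kn X) := by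
  have k1 : ∀ t ∈ X, t ∉ upT Λ := by
    intro t ht h
    rw [mem_upT] at h
    rcases h with h | h | h
    · exact hX t ht t (Zg349.mem_up.2 (Or.inl rfl)) h
    · exact hX t ht _ (Zg349.mem_up.2 (Or.inr (Or.inl rfl))) h
    · exact hX t ht _ (Zg349.mem_up.2 (Or.inr (Or.inr rfl))) h
  have k2 : ∀ t ∈ X, t ∉ Λ := fun t ht h => hX t ht t (Zg349.mem_up.2 (Or.inl rfl)) h
  exact fun ω ω' h1 h2 => Kn_congr ⟨fun h t ht => ⟨by rw [← h2 t (k1 t ht)]; exact (h t ht).1,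
      by rw [← h1 t (k2 t ht)]; exact (h t ht).2⟩,
    fun h t ht => ⟨by rw [h2 t (k1 t ht)]; exact (h t ht).1,
      by rw [h1 t (k2 t ht)]; exact (h t ht).2⟩⟩

variable {x : ℝ} {Λ : Finset P2} {τ : P2 → ℤ}

/-- **lower comparison with box data** -/
theorem le_box (hx0 : 0 < x) (hx1 : x ≤ 1) (hΛ : upT Λ ⊆ F) {I : P2 → Set ℤ}
    (hI : ∀ v ∈ Λ, I v = Set.univ) (hX : ∀ t ∈ X, ∀ v ∈ up t, v ∉ Λ) (hτ : Lip τ)
    (hle : ∀ v, v ∉ Λ → v ∈ nbhd Λ → ∀ k ∈ I v, τ v ≤ k) (hf : Monotone f)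
    (hloc : ∀ a b : P2 → ℤ, (∀ v ∈ Λ, a v = b v) → f a = f b) :
    ex x Λ τ f * E ((x ^ 2)⁻¹) F (fun ω => Kn X ω * KI (Bx I) ω.1) ≤
      E ((x ^ 2)⁻¹) F (fun ω => Kn X ω * KI (Bx I) ω.1 * f ω.1) := by
  refine le_E_loc hx0 hx1 hΛ (fun ω _ => mul_nonneg (Kn_nonneg _ _) (KI_nonneg _ _))
    ((off_Kn hX).mul (off_box hI)) hτ (fun ω _ h0 v hv hn => ?_) hf hloc
  have h1 : ω.1 ∈ Bx I := by
    by_contra h1
    exact h0 (by rw [KI_of_not h1, mul_zero])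
  exact hle v hv hn _ (h1 v)

/-- **upper comparison with box data** -/
theorem box_le (hx0 : 0 < x) (hx1 : x ≤ 1) (hΛ : upT Λ ⊆ F) {I : P2 → Set ℤ}
    (hI : ∀ v ∈ Λ, I v = Set.univ) (hX : ∀ t ∈ X, ∀ v ∈ up t, v ∉ Λ) (hτ : Lip τ)
    (hle : ∀ v, v ∉ Λ → v ∈ nbhd Λ → ∀ k ∈ I v, k ≤ τ v) (hf : Monotone f)
    (hloc : ∀ a b : P2 → ℤ, (∀ v ∈ Λ, a v = b v) → f a = f b) :
    E ((x ^ 2)⁻¹) F (fun ω => Kn X ω * KI (Bx I) ω.1 * f ω.1) ≤
      ex x Λ τ f * E ((x ^ 2)⁻¹) F (fun ω => Kn X ω * KI (Bx I) ω.1) := by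
  refine E_le_loc hx0 hx1 hΛ (fun ω _ => mul_nonneg (Kn_nonneg _ _) (KI_nonneg _ _))
    ((off_Kn hX).mul (off_box hI)) hτ (fun ω _ h0 v hv hn => ?_) hf hloc
  have h1 : ω.1 ∈ Bx I := by
    by_contra h1
    exact h0 (by rw [KI_of_not h1, mul_zero])
  exact hle v hv hn _ (h1 v)

/-- general lower comparison in presence of `Cn N * Kn X`; `τ ≤ 0` on the outer boundary of `Λ` -/
theorem le_cn (hx0 : 0 < x) (hx1 : x ≤ 1) (hΛ : upT Λ ⊆ F) {N : Set P2} (hN : Anc N F)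
    (hNΛ : ∀ v, v ∈ N ↔ v ∉ Λ) (hX : ∀ t ∈ X, ∀ v ∈ up t, v ∈ N) (hτ : Lip τ)
    (hle : ∀ v, v ∉ Λ → τ v ≤ 0) (hf : Monotone f) :
    ex x Λ τ f * E ((x ^ 2)⁻¹) F (fun ω => Cn N ω * Kn X ω) ≤
      E ((x ^ 2)⁻¹) F (fun ω => Cn N ω * Kn X ω * f ω.1) := by
  refine le_E hx0 hx1 hΛ (fun ω _ => mul_nonneg (Cn_nonneg _ _) (Kn_nonneg _ _))
    ((off_Cn fun v hv => (hNΛ v).1 hv).mul (off_Kn fun t ht v hv => (hNΛ v).1 (hX t ht v hv))) hτ
    (fun ω hω h0 v hv => ?_) hf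
  have h1 : ∀ v ∈ N, s1 (ω.1 v) = true := Cn_ne.1 fun h => h0 (by rw [h, zero_mul])
  rcases ht01 hN hω h1 ((hNΛ v).2 hv) with h2 | h2 <;> rw [h2]
  · exact hle v hv
  · linarith [hle v hv]

theorem cn_le (hx0 : 0 < x) (hx1 : x ≤ 1) (hΛ : upT Λ ⊆ F) {N : Set P2} (hN : Anc N F)
    (hNΛ : ∀ v, v ∈ N ↔ v ∉ Λ) (hX : ∀ t ∈ X, ∀ v ∈ up t, v ∈ N) (hτ : Lip τ)
    (hle : ∀ v, v ∉ Λ → 1 ≤ τ v) (hf : Monotone f) :
    E ((x ^ 2)⁻¹) F (fun ω => Cn N ω * Kn X ω * f ω.1) ≤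
      ex x Λ τ f * E ((x ^ 2)⁻¹) F (fun ω => Cn N ω * Kn X ω) := by
  refine E_le hx0 hx1 hΛ (fun ω _ => mul_nonneg (Cn_nonneg _ _) (Kn_nonneg _ _))
    ((off_Cn fun v hv => (hNΛ v).1 hv).mul (off_Kn fun t ht v hv => (hNΛ v).1 (hX t ht v hv))) hτ
    (fun ω hω h0 v hv => ?_) hf
  have h1 : ∀ v ∈ N, s1 (ω.1 v) = true := Cn_ne.1 fun h => h0 (by rw [h, zero_mul])
  rcases ht01 hN hω h1 ((hNΛ v).2 hv) with h2 | h2 <;> rw [h2]
  · linarith [hle v hv]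
  · exact hle v hv

/-- **(S), lower half** -/
theorem sandwich0 (hx0 : 0 < x) (hx1 : x ≤ 1) (hΛ : upT Λ ⊆ F) {N : Set P2} (hN : Anc N F)
    (hNΛ : ∀ v, v ∈ N ↔ v ∉ Λ) (hX : ∀ t ∈ X, ∀ v ∈ up t, v ∈ N) (hf : Monotone f) :
    ex x Λ (fun _ => 0) f * E ((x ^ 2)⁻¹) F (fun ω => Cn N ω * Kn X ω) ≤
      E ((x ^ 2)⁻¹) F (fun ω => Cn N ω * Kn X ω * f ω.1) :=
  le_cn hx0 hx1 hΛ hN hNΛ hX (lip_const 0) (fun _ _ => le_rfl) hf

/-- **(S), upper half** -/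
theorem sandwich1 (hx0 : 0 < x) (hx1 : x ≤ 1) (hΛ : upT Λ ⊆ F) {N : Set P2} (hN : Anc N F)
    (hNΛ : ∀ v, v ∈ N ↔ v ∉ Λ) (hX : ∀ t ∈ X, ∀ v ∈ up t, v ∈ N) (hf : Monotone f) :
    E ((x ^ 2)⁻¹) F (fun ω => Cn N ω * Kn X ω * f ω.1) ≤
      ex x Λ (fun _ => 1) f * E ((x ^ 2)⁻¹) F (fun ω => Cn N ω * Kn X ω) :=
  cn_le hx0 hx1 hΛ hN hNΛ hX (lip_const 1) (fun _ _ => le_rfl) hf

end Crest.Agent.R144.Bx695
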