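import Crest.Agent.R144.Bd7_856
import Crest.Agent.R144.Bx3_695

/-!
# R144, block BND, B7 (helper856): LEMMA A, only Lemma B left as hypothesis
-/

set_option autoImplicit false

namespace Crest.Agent.R144.Bd7856

open Crest.Agent.R144.Rsw867
open Crest.Agent.R144.Bnd991

/-- **LEMMA A**, from RSW and Lemma B. -/
theorem lemA_of {c : ℝ} (hc : 1 ≤ c) {K A R : ℕ} {p c1 : ℝ} (hR : RSW c K p) (hc1 : 0 ≤ c1)
    (hL : LemB c K A R c1) : LemA c K A R (fun k => (p / 2) ^ (k + 1) * c1 ^ 2) :=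
  lemA hc hR (Crest.Agent.R144.Bx695.fkgh hc) (Crest.Agent.R144.Bd3856.bulkH hc hR) hc1 hL

end Crest.Agent.R144.Bd7856
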