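import Crest.Agent.R144.Zf_349
import Crest.Agent.R144.It2_844

/-!
# R144, integer models: REFLECTION IDENTITY (helper38)

`Cl adj Bd k h` = union of the `{h ≠ k}`-clusters touching `Bd`.  `R adj Bd k h` = `h` on `Cl`, `2k - h`
off `Cl`.  For Lipschitz heights and ARBITRARY data on `Bd` this is an involution which changes
neither the boundary values nor any `|h u - h v|` on an edge, and `Cl (R h) = Cl h`.

Consequences (no planar topology, no exploration, no monotonicity):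
* `ex_refl_zero`, `ex_refl_le` (844's `ex x Λ τ`): if `Φ (2k - h) = - Φ h` for a function of the heights
  on `B`, then `E[Φ ; no {h ≠ k} path B ↔ Λᶜ] = 0`, hence `|E Φ| ≤ P(B ↔ Λᶜ in {h ≠ k})`;
  `cl_lt` : if the data are `≤ k` the cluster is a `{h < k}`-cluster.
* `E_refl_zero`, `E_refl_le` : the same for 349's law `E c F` (with any nonnegative factor `G` depending on
  the boundary heights, e.g. the indicator of `h = 1` on a part of the boundary), `E_fst` : the height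
  marginal of `E c F`.
-/

set_option autoImplicit false

noncomputable section

namespace Crest.Agent.R144.Rfl38

open Finset
open Crest.ProbabilityR.HexHeights (Adj)
open Crest.Agent.R144.It844 (P2 Lip Cst adj_symm)

/-! ### abstract part -/

section abs
variable {V : Type*} (adj : V → V → Prop) (Bd : Set V) (k : ℤ)

/-- step inside `S` (any adjacency) -/
def Stp (S : Set V) (a b : V) : Prop := a ∈ S ∧ b ∈ S ∧ adj a b

/-- union of the `{h ≠ k}`-clusters touching `Bd` -/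
def Cl (h : V → ℤ) : Set V :=
  {v | ∃ b ∈ Bd, h b ≠ k ∧ Relation.ReflTransGen (Stp adj {u | h u ≠ k}) b v}

open Classical in
/-- reflection off the boundary clusters -/
def R (h : V → ℤ) (v : V) : ℤ := if v ∈ Cl adj Bd k h then h v else 2 * k - h v

variable {adj Bd k}

theorem cl_ne {h : V → ℤ} {v : V} (hv : v ∈ Cl adj Bd k h) : h v ≠ k := by
  obtain ⟨b, _, h1, h2⟩ := hv
  induction h2 with
  | refl => exact h1
  | tail _ h3 _ => exact h3.2.1

theorem bd_mem {h : V → ℤ} {b : V} (hb : b ∈ Bd) (h1 : h b ≠ k) : b ∈ Cl adj Bd k h :=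
  ⟨b, hb, h1, Relation.ReflTransGen.refl⟩

theorem cl_step {h : V → ℤ} {v w : V} (hv : v ∈ Cl adj Bd k h) (ha : adj v w) (hw : h w ≠ k) :
    w ∈ Cl adj Bd k h := by
  obtain ⟨b, h0, h1, h2⟩ := id hv
  exact ⟨b, h0, h1, h2.tail ⟨cl_ne hv, hw, ha⟩⟩

theorem cl_out {h : V → ℤ} {v w : V} (hv : v ∈ Cl adj Bd k h) (ha : adj v w)
    (hw : w ∉ Cl adj Bd k h) : h w = k := by
  by_contra hne
  exact hw (cl_step hv ha hne)

theorem R_mem {h : V → ℤ} {v : V} (hv : v ∈ Cl adj Bd k h) : R adj Bd k h v = h v := if_pos hv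

theorem R_not {h : V → ℤ} {v : V} (hv : v ∉ Cl adj Bd k h) : R adj Bd k h v = 2 * k - h v :=
  if_neg hv

/-- boundary values are unchanged -/
theorem R_bd {h : V → ℤ} {v : V} (hv : v ∈ Bd) : R adj Bd k h v = h v := by
  by_cases h1 : h v = k
  · have : v ∉ Cl adj Bd k h := fun h2 => cl_ne h2 h1
    rw [R_not this, h1]; ring
  · exact R_mem (bd_mem hv h1)

theorem cl_R_sub {h : V → ℤ} : Cl adj Bd k (R adj Bd k h) ⊆ Cl adj Bd k h := by
  rintro v ⟨b, hb, h1, h2⟩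
  have hb' : b ∈ Cl adj Bd k h := by
    refine bd_mem hb ?_
    rwa [R_bd hb] at h1
  induction h2 with
  | refl => exact hb'
  | tail _ h3 ih =>
    by_contra hw
    have e := cl_out ih h3.2.2 hw
    have h4 := h3.2.1
    rw [Set.mem_ofPred_eq, R_not hw, e] at h4
    exact h4 (by ring)

theorem cl_sub_R {h : V → ℤ} : Cl adj Bd k h ⊆ Cl adj Bd k (R adj Bd k h) := by
  rintro v ⟨b, hb, h1, h2⟩
  have hb' : b ∈ Cl adj Bd k h := bd_mem hb h1
  have key : v ∈ Cl adj Bd k h ∧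
      Relation.ReflTransGen (Stp adj {u | R adj Bd k h u ≠ k}) b v := by
    induction h2 with
    | refl => exact ⟨hb', Relation.ReflTransGen.refl⟩
    | tail _ h3 ih =>
      have h4 := cl_step ih.1 h3.2.2 h3.2.1
      refine ⟨h4, ih.2.tail ⟨?_, ?_, h3.2.2⟩⟩
      · rw [Set.mem_ofPred_eq, R_mem ih.1]; exact h3.1
      · rw [Set.mem_ofPred_eq, R_mem h4]; exact h3.2.1
  exact ⟨b, hb, by rw [R_bd hb]; exact h1, key.2⟩

theorem cl_R (h : V → ℤ) : Cl adj Bd k (R adj Bd k h) = Cl adj Bd k h :=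
  Set.Subset.antisymm cl_R_sub cl_sub_R

/-- involution -/
theorem R_R (h : V → ℤ) : R adj Bd k (R adj Bd k h) = h := by
  funext v
  by_cases hv : v ∈ Cl adj Bd k h
  · have hv' : v ∈ Cl adj Bd k (R adj Bd k h) := by rw [cl_R]; exact hv
    rw [R_mem hv', R_mem hv]
  · have hv' : v ∉ Cl adj Bd k (R adj Bd k h) := by rw [cl_R]; exact hv
    rw [R_not hv', R_not hv]; ring

/-- increments along edges change at most their sign -/
theorem R_edge (hs : ∀ u v, adj u v → adj v u) {h : V → ℤ} {u v : V} (ha : adj u v) :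
    R adj Bd k h u - R adj Bd k h v = h u - h v ∨
    R adj Bd k h u - R adj Bd k h v = -(h u - h v) := by
  by_cases hu : u ∈ Cl adj Bd k h
  · by_cases hv : v ∈ Cl adj Bd k h
    · left; rw [R_mem hu, R_mem hv]
    · left; rw [R_mem hu, R_not hv, cl_out hu ha hv]; ring
  · by_cases hv : v ∈ Cl adj Bd k h
    · left; rw [R_not hu, R_mem hv, cl_out hv (hs _ _ ha) hu]; ring
    · right; rw [R_not hu, R_not hv]; ring

theorem R_abs (hs : ∀ u v, adj u v → adj v u) {h : V → ℤ} {u v : V} (ha : adj u v) :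
    |R adj Bd k h u - R adj Bd k h v| = |h u - h v| := by
  rcases R_edge (Bd := Bd) (k := k) (h := h) hs ha with h1 | h1 <;> rw [h1]
  exact abs_neg _

theorem R_eq_iff (hs : ∀ u v, adj u v → adj v u) {h : V → ℤ} {u v : V} (ha : adj u v) :
    R adj Bd k h u = R adj Bd k h v ↔ h u = h v := by
  rcases R_edge (Bd := Bd) (k := k) (h := h) hs ha with h1 | h1 <;> omega

/-- if the boundary data are `≤ k` and `h` is Lipschitz then the clusters are `{h < k}`-clusters -/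
theorem cl_lt {h : V → ℤ} (hl : ∀ u v, adj u v → |h u - h v| ≤ 1) (hb : ∀ b ∈ Bd, h b ≤ k) {v : V}
    (hv : v ∈ Cl adj Bd k h) :
    ∃ b ∈ Bd, h b < k ∧ h v < k ∧ Relation.ReflTransGen (Stp adj {u | h u < k}) b v := by
  obtain ⟨b, h0, h1, h2⟩ := hv
  have hb' : h b < k := lt_of_le_of_ne (hb b h0) h1
  refine ⟨b, h0, hb', ?_⟩
  induction h2 with
  | refl => exact ⟨hb', Relation.ReflTransGen.refl⟩
  | @tail u w _ h3 ih =>
    have h4 : h w < k := by
      have h5 := abs_le.1 (hl _ _ h3.2.2)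
      have h6 : h w ≠ k := h3.2.1
      have h7 := ih.1
      omega
    exact ⟨h4, ih.2.tail ⟨ih.1, h4, h3.2.2⟩⟩

/-- if the boundary data are `≥ k` and `h` is Lipschitz then the clusters are `{k < h}`-clusters -/
theorem cl_gt {h : V → ℤ} (hl : ∀ u v, adj u v → |h u - h v| ≤ 1) (hb : ∀ b ∈ Bd, k ≤ h b) {v : V}
    (hv : v ∈ Cl adj Bd k h) :
    ∃ b ∈ Bd, k < h b ∧ k < h v ∧ Relation.ReflTransGen (Stp adj {u | k < h u}) b v := by
  obtain ⟨b, h0, h1, h2⟩ := hv
  have hb' : k < h b := lt_of_le_of_ne (hb b h0) (Ne.symm h1)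
  refine ⟨b, h0, hb', ?_⟩
  induction h2 with
  | refl => exact ⟨hb', Relation.ReflTransGen.refl⟩
  | @tail u w _ h3 ih =>
    have h4 : k < h w := by
      have h5 := abs_le.1 (hl _ _ h3.2.2)
      have h6 : h w ≠ k := h3.2.1
      have h7 := ih.1
      omega
    exact ⟨h4, ih.2.tail ⟨ih.1, h4, h3.2.2⟩⟩

open Classical in
/-- **abstract reflection identity** -/
theorem sum_zero {S : Finset (V → ℤ)} {W : (V → ℤ) → ℝ} (hS : ∀ h ∈ S, R adj Bd k h ∈ S)
    (hW : ∀ h ∈ S, W (R adj Bd k h) = W h) {B : Set V} {Φ : (V → ℤ) → ℝ}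
    (hΦ : ∀ h g : V → ℤ, (∀ v ∈ B, g v = 2 * k - h v) → Φ g = - Φ h) :
    ∑ h ∈ S, (if ∃ v ∈ B, v ∈ Cl adj Bd k h then 0 else W h * Φ h) = 0 := by
  set s := ∑ h ∈ S, (if ∃ v ∈ B, v ∈ Cl adj Bd k h then 0 else W h * Φ h) with hs
  have e : s = -s := by
    conv_lhs => rw [hs]
    rw [hs, ← Finset.sum_neg_distrib]
    refine Finset.sum_bij' (fun h _ => R adj Bd k h) (fun h _ => R adj Bd k h) hS hS
      (fun h _ => R_R h) (fun h _ => R_R h) ?_
    intro h hh
    rw [cl_R]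
    by_cases h1 : ∃ v ∈ B, v ∈ Cl adj Bd k h
    · rw [if_pos h1, if_pos h1, neg_zero]
    · rw [if_neg h1, if_neg h1, hW h hh]
      have h2 : Φ (R adj Bd k h) = - Φ h := hΦ _ _ fun v hv => R_not fun h3 => h1 ⟨v, hv, h3⟩
      rw [h2]; ring
  linarith

open Classical in
/-- **abstract reflection bound** -/
theorem sum_le {S : Finset (V → ℤ)} {W : (V → ℤ) → ℝ} (hS : ∀ h ∈ S, R adj Bd k h ∈ S)
    (hW : ∀ h ∈ S, W (R adj Bd k h) = W h) (hW0 : ∀ h ∈ S, 0 ≤ W h) {B : Set V}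
    {Φ : (V → ℤ) → ℝ} (hΦ : ∀ h g : V → ℤ, (∀ v ∈ B, g v = 2 * k - h v) → Φ g = - Φ h)
    (hb : ∀ h, |Φ h| ≤ 1) :
    |∑ h ∈ S, W h * Φ h| ≤ ∑ h ∈ S, W h * (if ∃ v ∈ B, v ∈ Cl adj Bd k h then 1 else 0) := by
  have h0 := sum_zero hS hW hΦ
  have h1 : ∑ h ∈ S, W h * Φ h =
      ∑ h ∈ S, (if ∃ v ∈ B, v ∈ Cl adj Bd k h then W h * Φ h else 0) := by
    rw [← sub_eq_zero, ← Finset.sum_sub_distrib]
    refine Eq.trans (Finset.sum_congr rfl fun h _ => ?_) h0
    split_ifs <;> ring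
  rw [h1]
  refine (Finset.abs_sum_le_sum_abs _ _).trans (Finset.sum_le_sum fun h hh => ?_)
  split_ifs
  · rw [abs_mul, abs_of_nonneg (hW0 h hh)]
    exact mul_le_mul_of_nonneg_left (hb h) (hW0 h hh)
  · simp

end abs

/-! ### the triangular lattice -/

theorem lip_R {Bd : Set P2} {k : ℤ} {h : P2 → ℤ} (hh : Lip h) : Lip (R Adj Bd k h) :=
  fun u v huv => by rw [R_abs (fun _ _ => adj_symm) huv]; exact hh u v huv

theorem cst_R {Bd : Set P2} {k : ℤ} {h : P2 → ℤ} (u : P2) : Cst (R Adj Bd k h) u ↔ Cst h u := by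
  unfold Cst
  rw [R_eq_iff (fun _ _ => adj_symm) (It844.adj_e1 u), R_eq_iff (fun _ _ => adj_symm) (It844.adj_e2 u)]

section exq
variable {x : ℝ} {Λ : Finset P2} {τ : P2 → ℤ} {k : ℤ}

/-- clusters of `{h ≠ k}` touching the complement of `Λ` -/
abbrev ClO (Λ : Finset P2) (k : ℤ) (h : P2 → ℤ) : Set P2 := Cl Adj {v | v ∉ Λ} k h

theorem R_conf {h : P2 → ℤ} (hh : h ∈ It844.conf Λ τ) :
    R Adj {v | v ∉ Λ} k h ∈ It844.conf Λ τ := by
  rw [It844.mem_conf] at *
  exact ⟨lip_R hh.1, fun v hv => by rw [R_bd (by exact hv)]; exact hh.2 v hv⟩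

theorem wt_R {Bd : Set P2} (h : P2 → ℤ) : It844.wt x Λ (R Adj Bd k h) = It844.wt x Λ h := by
  unfold It844.wt It844.tw
  exact Finset.prod_congr rfl fun u _ => by rw [if_congr (cst_R u) rfl rfl]

open Classical in
/-- **reflection identity for `ex`** -/
theorem ex_refl_zero (B : Set P2) {Φ : (P2 → ℤ) → ℝ}
    (hΦ : ∀ h g : P2 → ℤ, (∀ v ∈ B, g v = 2 * k - h v) → Φ g = - Φ h) :
    It844.ex x Λ τ (fun h => if ∃ v ∈ B, v ∈ ClO Λ k h then 0 else Φ h) = 0 := by
  have h0 := sum_zero (adj := Adj) (Bd := {v | v ∉ Λ}) (k := k) (S := It844.conf Λ τ)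
    (W := It844.wt x Λ) (B := B) (Φ := Φ) (fun h hh => R_conf hh) (fun h _ => wt_R h) hΦ
  unfold It844.ex
  rw [smul_eq_mul]
  have : ∑ h ∈ It844.conf Λ τ, It844.wt x Λ h • (if ∃ v ∈ B, v ∈ ClO Λ k h then 0 else Φ h) = 0 := by
    refine Eq.trans (Finset.sum_congr rfl fun h _ => ?_) h0
    rw [smul_eq_mul]
    split_ifs <;> ring
  rw [this, mul_zero]

open Classical in
/-- **reflection bound for `ex`** : `|E Φ| ≤ P(B ↔ Λᶜ in {h ≠ k})` -/
theorem ex_refl_le (B : Set P2) {Φ : (P2 → ℤ) → ℝ}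
    (hΦ : ∀ h g : P2 → ℤ, (∀ v ∈ B, g v = 2 * k - h v) → Φ g = - Φ h) (hb : ∀ h, |Φ h| ≤ 1) :
    |It844.ex x Λ τ Φ| ≤ It844.pr x Λ τ {h | ∃ v ∈ B, v ∈ ClO Λ k h} := by
  have h0 := sum_le (adj := Adj) (Bd := {v | v ∉ Λ}) (k := k) (S := It844.conf Λ τ)
    (W := It844.wt x Λ) (B := B) (Φ := Φ) (fun h hh => R_conf hh) (fun h _ => wt_R h)
    (fun h _ => It844.wt_nonneg _ _ _) hΦ hb
  have hZ : 0 ≤ (It844.Z x Λ τ)⁻¹ :=
    inv_nonneg.2 (Finset.sum_nonneg fun _ _ => It844.wt_nonneg _ _ _)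
  unfold It844.pr It844.ex
  simp only [smul_eq_mul]
  rw [abs_mul, abs_of_nonneg hZ]
  refine mul_le_mul_of_nonneg_left (h0.trans (le_of_eq ?_)) hZ
  exact Finset.sum_congr rfl fun h _ => rfl

end exq

/-! ### the law `E c F` -/

section EF
open Crest.Agent.R144.Zd349 Crest.Agent.R144.Zg349 Crest.Agent.R144.Zm349
variable {c : ℝ} {F : Finset P2} {k : ℤ}

/-- weight of an admissible height in the marginal of `E c F` -/
def hw (c : ℝ) (F : Finset P2) (h : P2 → ℤ) : ℝ := ∏ t ∈ F, if Cst h t then c else 1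

theorem hw_nonneg (hc : 0 ≤ c) (F : Finset P2) (h : P2 → ℤ) : 0 ≤ hw c F h :=
  Finset.prod_nonneg fun t _ => by split_ifs <;> positivity

/-- summing out the closed/open variables -/
theorem sum_z {h : P2 → ℤ} (hh : HV F h) : ∑ z ∈ zs F, wt c F (h, z) = hw c F h := by
  classical
  rw [sum_zs F fun z => wt c F (h, z)]
  have e : ∀ Z ∈ F.powerset, wt c F (h, zb F Z) =
      (∏ t ∈ Z, (if C1 h t then (1 : ℝ) else 0)) *
        ∏ t ∈ F \ Z, (if C2 h t then (if C1 h t then c - 1 else 1) else 0) := by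
    intro Z hZ
    rw [Finset.mem_powerset] at hZ
    unfold wt
    rw [← Finset.prod_sdiff hZ, mul_comm]
    congr 1
    · refine Finset.prod_congr rfl fun t ht => ?_
      unfold ew
      have : (zb F Z t = true) := by unfold zb; rw [decide_eq_true_eq]; exact Or.inr ht
      rw [if_pos this]
    · refine Finset.prod_congr rfl fun t ht => ?_
      rw [Finset.mem_sdiff] at ht
      unfold ew
      have : ¬ (zb F Z t = true) := by
        unfold zb; rw [decide_eq_true_eq]; rintro (h1 | h1)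
        · exact h1 ht.1
        · exact ht.2 h1
      rw [if_neg this]
  rw [Finset.sum_congr rfl e, ← Finset.prod_add]
  unfold hw
  refine Finset.prod_congr rfl fun t ht => ?_
  have h1 := cst_iff (h := h) (t := t) (hh.lip t ht)
  have h2 := c1_or_c2 (h := h) (t := t) (hh.lip t ht)
  by_cases a1 : C1 h t <;> by_cases a2 : C2 h t
  · rw [if_pos a1, if_pos a2, if_pos a1, if_pos (h1.2 ⟨a1, a2⟩)]; ring
  · rw [if_pos a1, if_neg a2, if_neg (fun h => a2 (h1.1 h).2)]; ring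
  · rw [if_neg a1, if_pos a2, if_neg a1, if_neg (fun h => a1 (h1.1 h).1)]; ring
  · exact absurd h2 (by tauto)

/-- **height marginal of `E c F`** -/
theorem E_fst (c : ℝ) (F : Finset P2) (f : (P2 → ℤ) → ℝ) :
    E c F (fun ω => f ω.1) = (∑ h ∈ hts F, hw c F h * f h) / Zm349.Z c F := by
  rw [E_eq_div]
  congr 1
  unfold Zm349.conf
  rw [Finset.sum_product]
  refine Finset.sum_congr rfl fun h hh => ?_
  rw [← sum_z (c := c) (mem_hts.1 hh), Finset.sum_mul]

/-- clusters of `{h ≠ k}` touching the non-interior sites -/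
abbrev ClF (F : Finset P2) (k : ℤ) (h : P2 → ℤ) : Set P2 := Cl Adj {v | v ∉ IV F} k h

theorem R_hts {h : P2 → ℤ} (hh : h ∈ hts F) : R Adj {v | v ∉ IV F} k h ∈ hts F := by
  rw [mem_hts] at *
  refine ⟨fun t _ i j => ?_, fun v hv => ?_, fun v hv => ?_⟩
  · have h1 : Lip (R Adj {v | v ∉ IV F} k h) := lip_R hh.toLip
    by_cases e : cr t i = cr t j
    · rw [e]; simp
    · exact h1 _ _ (by
        revert e
        fin_cases i <;> fin_cases j <;> simp [cr, Adj])
  · rw [R_bd (by exact hv)]; exact hh.bd v hv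
  · have hv' : v ∉ IV F := fun h1 => hv (IV_sub_VF F h1)
    rw [R_bd (by exact hv')]; exact hh.off v hv

theorem hw_R {Bd : Set P2} (h : P2 → ℤ) : hw c F (R Adj Bd k h) = hw c F h := by
  unfold hw
  exact Finset.prod_congr rfl fun u _ => by rw [if_congr (cst_R u) rfl rfl]

open Classical in
/-- **reflection identity for `E c F`**: `G` depends only on the boundary heights, `Φ` is odd under
`h ↦ 2k - h` on `B`; `E[G Φ ; no {h ≠ k} path from B to the boundary] = 0` -/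
theorem E_refl_zero (c : ℝ) (F : Finset P2) (k : ℤ) (B : Set P2) {Φ G : (P2 → ℤ) → ℝ}
    (hG : ∀ h g : P2 → ℤ, (∀ v, v ∉ IV F → g v = h v) → G g = G h)
    (hΦ : ∀ h g : P2 → ℤ, (∀ v ∈ B, g v = 2 * k - h v) → Φ g = - Φ h) :
    E c F (fun ω => if ∃ v ∈ B, v ∈ ClF F k ω.1 then 0 else G ω.1 * Φ ω.1) = 0 := by
  rw [E_fst c F fun h => if ∃ v ∈ B, v ∈ ClF F k h then 0 else G h * Φ h]
  have h0 := sum_zero (adj := Adj) (Bd := {v | v ∉ IV F}) (k := k) (S := hts F)
    (W := fun h => hw c F h * G h) (B := B) (Φ := Φ) (fun h hh => R_hts hh)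
    (fun h _ => by rw [hw_R, hG h _ fun v hv => R_bd (by exact hv)]) hΦ
  have : ∑ h ∈ hts F, hw c F h * (if ∃ v ∈ B, v ∈ ClF F k h then 0 else G h * Φ h) = 0 := by
    refine Eq.trans (Finset.sum_congr rfl fun h _ => ?_) h0
    split_ifs <;> ring
  rw [this, zero_div]

open Classical in
/-- **reflection bound for `E c F`** : `|E[G Φ]| ≤ E[G ; B ↔ boundary in {h ≠ k}]` -/
theorem E_refl_le (hc : 1 ≤ c) (F : Finset P2) (k : ℤ) (B : Set P2) {Φ G : (P2 → ℤ) → ℝ}
    (hG0 : ∀ h, 0 ≤ G h)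
    (hG : ∀ h g : P2 → ℤ, (∀ v, v ∉ IV F → g v = h v) → G g = G h)
    (hΦ : ∀ h g : P2 → ℤ, (∀ v ∈ B, g v = 2 * k - h v) → Φ g = - Φ h) (hb : ∀ h, |Φ h| ≤ 1) :
    |E c F (fun ω => G ω.1 * Φ ω.1)| ≤
      E c F (fun ω => G ω.1 * if ∃ v ∈ B, v ∈ ClF F k ω.1 then 1 else 0) := by
  have h0 := sum_le (adj := Adj) (Bd := {v | v ∉ IV F}) (k := k) (S := hts F)
    (W := fun h => hw c F h * G h) (B := B) (Φ := Φ) (fun h hh => R_hts hh)
    (fun h _ => by rw [hw_R, hG h _ fun v hv => R_bd (by exact hv)])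
    (fun h _ => mul_nonneg (hw_nonneg (by linarith) F h) (hG0 h)) hΦ hb
  rw [E_fst c F fun h => G h * Φ h,
    E_fst c F fun h => G h * if ∃ v ∈ B, v ∈ ClF F k h then 1 else 0, abs_div,
    abs_of_pos (Z_pos hc F)]
  refine div_le_div_of_nonneg_right ?_ (Z_pos hc F).le
  simp only [mul_assoc] at h0
  exact h0

end EF

end Crest.Agent.R144.Rfl38
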