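import Crest.Agent.R144.Fin2_268
import Crest.Agent.R144.Rfl_38

/-!
# R144, block BND (F1): the reflection covariance bound (helper856)

`f1_pow` : for `0 < x`, Lipschitz data `τ`, any level `k` and any weights `b`, `g`:
`Cv x L τ b g ^ 4 ≤ E[X' ^ 4] * (Vr x L τ g) ^ 2 * (pr Ep + pr Em)` where
`X' h = Σ_{v ∈ L} b v (h v - k)` and `Ep`, `Em` are the events that a site of the support of `b` is joined,
inside `L`, by a path of sites with `h ≥ k + 1` (resp. `h ≤ k - 1`) to a site `v` with `g v ≠ 0` or having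
a neighbour outside `L` where `τ ≠ k`.
`f1` : the same with fourth roots.

The only input is the reflection off the `{h ≠ k}`-clusters touching `{v ∉ L} ∪ {g ≠ 0}` (`Rfl38.sum_zero`).
-/

set_option autoImplicit false
set_option linter.unusedSimpArgs false

noncomputable section

namespace Crest.Agent.R144.Bf1856

open Finset
open Crest.ProbabilityR.HexHeights (Adj)
open Crest.Agent.R144.It844 (P2 Lip adj_symm ex pr conf wt Z Z_pos wt_nonneg mem_conf ex_add ex_smul ex_const ex_congr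
  ex_nonneg ex_mono)
open Crest.Agent.R144.Zg349 (StepIn)
open Crest.Agent.R144.Rfl38 (Cl R Stp R_bd R_not R_R lip_R wt_R cl_R)
open Crest.Agent.R144.Fin268 (LS cS Cv Vr)

variable {x : ℝ} {L : Finset P2} {τ : P2 → ℤ}

/-- Cauchy–Schwarz -/
theorem ex_cs (f g : (P2 → ℤ) → ℝ) :
    ex x L τ (fun h => f h * g h) ^ 2 ≤ ex x L τ (fun h => f h ^ 2) * ex x L τ (fun h => g h ^ 2) := by
  unfold It844.ex
  simp only [smul_eq_mul]
  have h0 := Finset.sum_sq_le_sum_mul_sum_of_sq_le_mul (conf L τ) (r := fun h => wt x L h * (f h * g h))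
    (f := fun h => wt x L h * f h ^ 2) (g := fun h => wt x L h * g h ^ 2)
    (fun h _ => mul_nonneg (wt_nonneg _ _ _) (sq_nonneg _))
    (fun h _ => mul_nonneg (wt_nonneg _ _ _) (sq_nonneg _)) (fun h _ => le_of_eq (by ring))
  have h1 := mul_le_mul_of_nonneg_left h0 (sq_nonneg (Z x L τ)⁻¹)
  nlinarith [h1]

/-- the far sites: `g ≠ 0`, or a neighbour outside `L` where the data are `≠ k` -/
def Far (L : Finset P2) (τ : P2 → ℤ) (g : P2 → ℝ) (k : ℤ) (v : P2) : Prop :=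
  g v ≠ 0 ∨ ∃ w, w ∉ L ∧ Adj v w ∧ τ w ≠ k

/-- a site of the support of `b` is joined inside `L` by a `{h ≥ k + 1}`-path to a far site -/
def Ep (L : Finset P2) (τ : P2 → ℤ) (b g : P2 → ℝ) (k : ℤ) : Set (P2 → ℤ) :=
  {h | ∃ u ∈ L, b u ≠ 0 ∧ 1 ≤ h u - k ∧ ∃ v ∈ L, Far L τ g k v ∧
    Relation.ReflTransGen (StepIn {w | w ∈ L ∧ 1 ≤ h w - k}) u v}

/-- a site of the support of `b` is joined inside `L` by a `{h ≤ k - 1}`-path to a far site -/
def Em (L : Finset P2) (τ : P2 → ℤ) (b g : P2 → ℝ) (k : ℤ) : Set (P2 → ℤ) :=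
  {h | ∃ u ∈ L, b u ≠ 0 ∧ 1 ≤ -(h u - k) ∧ ∃ v ∈ L, Far L τ g k v ∧
    Relation.ReflTransGen (StepIn {w | w ∈ L ∧ 1 ≤ -(h w - k)}) u v}

theorem stepIn_symm {S : Set P2} {u v : P2} (h : Relation.ReflTransGen (StepIn S) u v) :
    Relation.ReflTransGen (StepIn S) v u := by
  induction h with
  | refl => exact Relation.ReflTransGen.refl
  | tail _ hs ih => exact Relation.ReflTransGen.head ⟨hs.2.1, hs.1, adj_symm hs.2.2⟩ ih

/-- the sites whose heights are kept -/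
def Kp (L : Finset P2) (g : P2 → ℝ) : Set P2 := {v | v ∉ L ∨ g v ≠ 0}

/-- the cluster event -/
def EV (L : Finset P2) (b g : P2 → ℝ) (k : ℤ) : Set (P2 → ℤ) :=
  {h | ∃ u ∈ {v | v ∈ L ∧ b v ≠ 0}, u ∈ Cl Adj (Kp L g) k h}

theorem ev_sub {b g : P2 → ℝ} {k : ℤ} {h : P2 → ℤ} (hh : h ∈ conf L τ) (hE : h ∈ EV L b g k) :
    h ∈ Ep L τ b g k ∨ h ∈ Em L τ b g k := by
  obtain ⟨u, ⟨huL, hbu⟩, b0, hb0, hk0, hp⟩ := hE
  obtain ⟨hLip, hτ⟩ := mem_conf.1 hh
  have key : ∀ v, Relation.ReflTransGen (Stp Adj {u | h u ≠ k}) b0 v → h v ≠ k ∧ (v ∉ L ∨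
      (v ∈ L ∧ 1 ≤ h v - k ∧ ∃ f ∈ L, Far L τ g k f ∧
        Relation.ReflTransGen (StepIn {w | w ∈ L ∧ 1 ≤ h w - k}) f v) ∨
      (v ∈ L ∧ 1 ≤ -(h v - k) ∧ ∃ f ∈ L, Far L τ g k f ∧
        Relation.ReflTransGen (StepIn {w | w ∈ L ∧ 1 ≤ -(h w - k)}) f v)) := by
    intro v hv
    induction hv with
    | refl =>
      refine ⟨hk0, ?_⟩
      rcases hb0 with h1 | h1
      · exact Or.inl h1
      · by_cases hL : b0 ∈ L
        · rcases lt_or_gt_of_ne hk0 with h2 | h2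
          · exact Or.inr (Or.inr ⟨hL, by omega, b0, hL, Or.inl h1, Relation.ReflTransGen.refl⟩)
          · exact Or.inr (Or.inl ⟨hL, by omega, b0, hL, Or.inl h1, Relation.ReflTransGen.refl⟩)
        · exact Or.inl hL
    | @tail v w _ hs ih =>
      obtain ⟨hv1, hw1, ha⟩ := hs
      refine ⟨hw1, ?_⟩
      by_cases hwL : w ∈ L
      · right
        obtain ⟨_, h1 | ⟨hvL, h2, f, hfL, hf, hpf⟩ | ⟨hvL, h2, f, hfL, hf, hpf⟩⟩ := ih
        · have hF : Far L τ g k w := Or.inr ⟨v, h1, adj_symm ha, by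
            rw [← hτ v h1]; exact hv1⟩
          rcases lt_or_gt_of_ne hw1 with h2 | h2
          · exact Or.inr ⟨hwL, by omega, w, hwL, hF, Relation.ReflTransGen.refl⟩
          · exact Or.inl ⟨hwL, by omega, w, hwL, hF, Relation.ReflTransGen.refl⟩
        · have h3 := abs_le.1 (hLip _ _ ha)
          have h4 : h w ≠ k := hw1
          have h5 : 1 ≤ h w - k := by omega
          exact Or.inl ⟨hwL, h5, f, hfL, hf, hpf.tail ⟨⟨hvL, h2⟩, ⟨hwL, h5⟩, ha⟩⟩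
        · have h3 := abs_le.1 (hLip _ _ ha)
          have h4 : h w ≠ k := hw1
          have h5 : 1 ≤ -(h w - k) := by omega
          exact Or.inr ⟨hwL, h5, f, hfL, hf, hpf.tail ⟨⟨hvL, h2⟩, ⟨hwL, h5⟩, ha⟩⟩
      · exact Or.inl hwL
  obtain ⟨_, h1 | ⟨_, h2, f, hfL, hf, hpf⟩ | ⟨_, h2, f, hfL, hf, hpf⟩⟩ := key u hp
  · exact absurd huL h1
  · exact Or.inl ⟨u, huL, hbu, h2, f, hfL, hf, stepIn_symm hpf⟩
  · exact Or.inr ⟨u, huL, hbu, h2, f, hfL, hf, stepIn_symm hpf⟩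

/-- the recentred statistic -/
def X' (L : Finset P2) (b : P2 → ℝ) (k : ℤ) (h : P2 → ℤ) : ℝ := ∑ v ∈ L, b v * ((h v : ℝ) - k)

theorem X'_eq (b : P2 → ℝ) (k : ℤ) (h : P2 → ℤ) : X' L b k h = LS L b h + (-(∑ v ∈ L, b v) * k) := by
  unfold X' Fin268.LS
  rw [neg_mul, Finset.sum_mul, ← sub_eq_add_neg, ← Finset.sum_sub_distrib]
  exact Finset.sum_congr rfl fun v _ => by ring

theorem ex_X' (hx : 0 < x) (hτ : Lip τ) (b : P2 → ℝ) (k : ℤ) :
    ex x L τ (X' L b k) = ex x L τ (LS L b) + (-(∑ v ∈ L, b v) * k) := by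
  have e : X' L b k = fun h => LS L b h + (-(∑ v ∈ L, b v) * k) := funext fun h => X'_eq b k h
  rw [e, ex_add, ex_const hx hτ]

theorem cS_eq (hx : 0 < x) (hτ : Lip τ) (b : P2 → ℝ) (k : ℤ) (h : P2 → ℤ) :
    cS x L τ b h = X' L b k h - ex x L τ (X' L b k) := by
  rw [ex_X' hx hτ, X'_eq]
  unfold Fin268.cS
  ring

theorem ex_cS (hx : 0 < x) (hτ : Lip τ) (g : P2 → ℝ) : ex x L τ (cS x L τ g) = 0 := by
  have e : cS x L τ g = fun h => LS L g h + (-(ex x L τ (LS L g))) := funext fun h => by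
    unfold Fin268.cS; ring
  rw [e, ex_add, ex_const hx hτ]
  ring

theorem Cv_eq (hx : 0 < x) (hτ : Lip τ) (b g : P2 → ℝ) (k : ℤ) :
    Cv x L τ b g = ex x L τ (fun h => X' L b k h * cS x L τ g h) := by
  unfold Fin268.Cv
  have e : (fun h => cS x L τ b h * cS x L τ g h) = fun h =>
      X' L b k h * cS x L τ g h + (-(ex x L τ (X' L b k))) • cS x L τ g h := funext fun h => by
    rw [cS_eq hx hτ b k, smul_eq_mul]; ring
  rw [e, ex_add, ex_smul, show ex x L τ (fun h => cS x L τ g h) = 0 from ex_cS hx hτ g]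
  simp

open Classical in
/-- **the reflection identity** -/
theorem refl_zero (b g : P2 → ℝ) (k : ℤ) :
    ex x L τ (fun h => if h ∈ EV L b g k then 0 else X' L b k h * cS x L τ g h) = 0 := by
  have h0 := Rfl38.sum_zero (adj := Adj) (Bd := Kp L g) (k := k) (S := conf L τ)
    (W := fun h => wt x L h * cS x L τ g h) (B := {v | v ∈ L ∧ b v ≠ 0}) (Φ := X' L b k) ?_ ?_ ?_
  · unfold It844.ex
    rw [smul_eq_mul]
    have : ∑ h ∈ conf L τ, wt x L h • (if h ∈ EV L b g k then 0 else X' L b k h * cS x L τ g h) = 0 := by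
      refine Eq.trans (Finset.sum_congr rfl fun h _ => ?_) h0
      rw [smul_eq_mul]
      by_cases h1 : h ∈ EV L b g k
      · rw [if_pos h1, if_pos (show ∃ v ∈ {v | v ∈ L ∧ b v ≠ 0}, v ∈ Cl Adj (Kp L g) k h from h1), mul_zero]
      · rw [if_neg h1, if_neg (show ¬ ∃ v ∈ {v | v ∈ L ∧ b v ≠ 0}, v ∈ Cl Adj (Kp L g) k h from h1)]
        ring
    rw [this, mul_zero]
  · intro h hh
    rw [mem_conf] at *
    exact ⟨lip_R hh.1, fun v hv => by rw [R_bd (show v ∈ Kp L g from Or.inl hv)]; exact hh.2 v hv⟩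
  · intro h _
    rw [wt_R]
    congr 1
    unfold Fin268.cS Fin268.LS
    congr 1
    refine Finset.sum_congr rfl fun v _ => ?_
    by_cases hg : g v = 0
    · rw [hg, zero_mul, zero_mul]
    · rw [R_bd (show v ∈ Kp L g from Or.inr hg)]
  · intro h h' hB
    unfold X'
    rw [← Finset.sum_neg_distrib]
    refine Finset.sum_congr rfl fun v hv => ?_
    by_cases hb : b v = 0
    · rw [hb]; ring
    · rw [hB v ⟨hv, hb⟩]
      push_cast
      ring

open Classical in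
/-- indicator -/
def kI (A : Set (P2 → ℤ)) (h : P2 → ℤ) : ℝ := if h ∈ A then 1 else 0

theorem kI_sq (A : Set (P2 → ℤ)) (h : P2 → ℤ) : kI A h ^ 2 = kI A h := by
  unfold kI; split_ifs <;> norm_num

theorem kI_nonneg (A : Set (P2 → ℤ)) (h : P2 → ℤ) : 0 ≤ kI A h := by
  unfold kI; split_ifs <;> norm_num

theorem pr_eq (A : Set (P2 → ℤ)) : pr x L τ A = ex x L τ (kI A) := by
  classical
  unfold It844.pr
  refine ex_congr fun h _ => ?_
  unfold kI
  congr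

theorem Cv_ind (hx : 0 < x) (hτ : Lip τ) (b g : P2 → ℝ) (k : ℤ) :
    Cv x L τ b g = ex x L τ (fun h => (kI (EV L b g k) h * X' L b k h) * cS x L τ g h) := by
  classical
  rw [Cv_eq hx hτ b g k]
  have h0 := refl_zero (x := x) (L := L) (τ := τ) b g k
  have e : (fun h => X' L b k h * cS x L τ g h) = fun h =>
      (kI (EV L b g k) h * X' L b k h) * cS x L τ g h +
      (if h ∈ EV L b g k then 0 else X' L b k h * cS x L τ g h) := funext fun h => by
    unfold kI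
    split_ifs <;> ring
  rw [e, ex_add]
  have h1 : ex x L τ (fun h => if h ∈ EV L b g k then 0 else X' L b k h * cS x L τ g h) = 0 := by
    refine Eq.trans (ex_congr fun h _ => ?_) h0
    congr
  rw [h1, add_zero]

/-- **the reflection covariance bound, fourth powers** -/
theorem f1_pow (hx : 0 < x) (hτ : Lip τ) (b g : P2 → ℝ) (k : ℤ) :
    Cv x L τ b g ^ 4 ≤ ex x L τ (fun h => X' L b k h ^ 4) * Vr x L τ g ^ 2 *
      (pr x L τ (Ep L τ b g k) + pr x L τ (Em L τ b g k)) := by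
  have h1 := ex_cs (x := x) (L := L) (τ := τ) (fun h => kI (EV L b g k) h * X' L b k h) (cS x L τ g)
  rw [← Cv_ind hx hτ b g k] at h1
  have h2 := ex_cs (x := x) (L := L) (τ := τ) (kI (EV L b g k)) (fun h => X' L b k h ^ 2)
  have e1 : (fun h => kI (EV L b g k) h * X' L b k h ^ 2) = fun h => (kI (EV L b g k) h * X' L b k h) ^ 2 :=
    funext fun h => by rw [mul_pow, kI_sq]
  have e2 : (fun h => (X' L b k h ^ 2) ^ 2) = fun h => X' L b k h ^ 4 := funext fun h => by ring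
  have e3 : (fun h => kI (EV L b g k) h ^ 2) = kI (EV L b g k) := funext fun h => kI_sq _ _
  rw [e1, e2, e3] at h2
  have e4 : ex x L τ (fun h => cS x L τ g h ^ 2) = Vr x L τ g := by
    unfold Fin268.Vr Fin268.Cv
    exact ex_congr fun h _ => by ring
  rw [e4] at h1
  have h3 : ex x L τ (kI (EV L b g k)) ≤ pr x L τ (Ep L τ b g k) + pr x L τ (Em L τ b g k) := by
    rw [pr_eq, pr_eq, ← ex_add]
    refine ex_mono fun h hh => ?_
    by_cases hE : h ∈ EV L b g k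
    · have a1 : kI (EV L b g k) h = 1 := by unfold kI; rw [if_pos hE]
      rw [a1]
      rcases ev_sub hh hE with h4 | h4
      · have a2 : kI (Ep L τ b g k) h = 1 := by unfold kI; rw [if_pos h4]
        rw [a2]; linarith [kI_nonneg (Em L τ b g k) h]
      · have a2 : kI (Em L τ b g k) h = 1 := by unfold kI; rw [if_pos h4]
        rw [a2]; linarith [kI_nonneg (Ep L τ b g k) h]
    · have a1 : kI (EV L b g k) h = 0 := by unfold kI; rw [if_neg hE]
      rw [a1]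
      exact add_nonneg (kI_nonneg _ _) (kI_nonneg _ _)
  have hV : 0 ≤ Vr x L τ g := by rw [← e4]; exact ex_nonneg fun h _ => sq_nonneg _
  have hX : 0 ≤ ex x L τ (fun h => X' L b k h ^ 4) := ex_nonneg fun h _ => by positivity
  have hA : 0 ≤ ex x L τ (fun h => (kI (EV L b g k) h * X' L b k h) ^ 2) := ex_nonneg fun h _ => sq_nonneg _
  calc Cv x L τ b g ^ 4 = (Cv x L τ b g ^ 2) ^ 2 := by ring
    _ ≤ (ex x L τ (fun h => (kI (EV L b g k) h * X' L b k h) ^ 2) * Vr x L τ g) ^ 2 :=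
      pow_le_pow_left₀ (sq_nonneg _) h1 2
    _ = ex x L τ (fun h => (kI (EV L b g k) h * X' L b k h) ^ 2) ^ 2 * Vr x L τ g ^ 2 := by ring
    _ ≤ (ex x L τ (kI (EV L b g k)) * ex x L τ (fun h => X' L b k h ^ 4)) * Vr x L τ g ^ 2 :=
      mul_le_mul_of_nonneg_right h2 (sq_nonneg _)
    _ ≤ ((pr x L τ (Ep L τ b g k) + pr x L τ (Em L τ b g k)) * ex x L τ (fun h => X' L b k h ^ 4)) *
        Vr x L τ g ^ 2 := mul_le_mul_of_nonneg_right (mul_le_mul_of_nonneg_right h3 hX) (sq_nonneg _)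
    _ = _ := by ring

theorem pr_nonneg (A : Set (P2 → ℤ)) : 0 ≤ pr x L τ A := by
  rw [pr_eq]; exact ex_nonneg fun h _ => kI_nonneg _ _

theorem Vr_nonneg (g : P2 → ℝ) : 0 ≤ Vr x L τ g := by
  unfold Fin268.Vr Fin268.Cv
  exact ex_nonneg fun h _ => mul_self_nonneg _

/-- **the reflection covariance bound** -/
theorem f1' (hx : 0 < x) (hτ : Lip τ) (b g : P2 → ℝ) (k : ℤ) :
    |Cv x L τ b g| ≤ ex x L τ (fun h => X' L b k h ^ 4) ^ (1 / 4 : ℝ) * Vr x L τ g ^ (1 / 2 : ℝ) *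
      (pr x L τ (Ep L τ b g k) + pr x L τ (Em L τ b g k)) ^ (1 / 4 : ℝ) := by
  have h0 := f1_pow (L := L) hx hτ b g k
  set A := ex x L τ (fun h => X' L b k h ^ 4) with hA
  set P := pr x L τ (Ep L τ b g k) + pr x L τ (Em L τ b g k) with hP
  set V := Vr x L τ g with hV
  have hA0 : 0 ≤ A := ex_nonneg fun h _ => by positivity
  have hP0 : 0 ≤ P := add_nonneg (pr_nonneg _) (pr_nonneg _)
  have hV0 : 0 ≤ V := Vr_nonneg g
  refine le_of_pow_le_pow_left₀ (n := 4) (by norm_num) (by positivity) ?_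
  have e0 : |Cv x L τ b g| ^ 4 = Cv x L τ b g ^ 4 := by
    rw [show (4 : ℕ) = 2 * 2 from rfl, pow_mul, pow_mul, sq_abs]
  have e1 : (A ^ (1 / 4 : ℝ)) ^ 4 = A := by
    rw [← Real.rpow_natCast, ← Real.rpow_mul hA0]; norm_num
  have e2 : (P ^ (1 / 4 : ℝ)) ^ 4 = P := by
    rw [← Real.rpow_natCast, ← Real.rpow_mul hP0]; norm_num
  have e3 : (V ^ (1 / 2 : ℝ)) ^ 4 = V ^ 2 := by
    rw [← Real.rpow_natCast, ← Real.rpow_mul hV0, ← Real.rpow_natCast]; norm_num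
  rw [e0, mul_pow, mul_pow, e1, e2, e3]
  exact h0

/-- **the reflection covariance bound, 991's literal** -/
theorem f1 (hx : 0 < x) (_hx1 : x ≤ 1) (hτ : Lip τ) (k : ℤ) (b g : P2 → ℝ) :
    |Cv x L τ b g| ≤ (ex x L τ (fun h => (∑ v ∈ L, b v * ((h v : ℝ) - k)) ^ 4)) ^ (1 / 4 : ℝ) *
      (1 + (Vr x L τ g) ^ (1 / 2 : ℝ)) * 2 *
      (pr x L τ {h | ∃ u ∈ L, b u ≠ 0 ∧ ∃ v ∈ L, Far L τ g k v ∧
          Relation.ReflTransGen (StepIn {w | w ∈ L ∧ 1 ≤ h w - k}) u v} +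
       pr x L τ {h | ∃ u ∈ L, b u ≠ 0 ∧ ∃ v ∈ L, Far L τ g k v ∧
          Relation.ReflTransGen (StepIn {w | w ∈ L ∧ 1 ≤ -(h w - k)}) u v}) ^ (1 / 4 : ℝ) := by
  have h0 := f1' (L := L) hx hτ b g k
  have mono : ∀ {A B : Set (P2 → ℤ)}, A ⊆ B → pr x L τ A ≤ pr x L τ B := fun {A B} hAB => by
    rw [pr_eq, pr_eq]
    refine ex_mono fun h _ => ?_
    unfold kI
    by_cases h1 : h ∈ A
    · rw [if_pos h1, if_pos (hAB h1)]
    · rw [if_neg h1]; split_ifs <;> norm_num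
  have h1 : pr x L τ (Ep L τ b g k) + pr x L τ (Em L τ b g k) ≤
      pr x L τ {h | ∃ u ∈ L, b u ≠ 0 ∧ ∃ v ∈ L, Far L τ g k v ∧
          Relation.ReflTransGen (StepIn {w | w ∈ L ∧ 1 ≤ h w - k}) u v} +
       pr x L τ {h | ∃ u ∈ L, b u ≠ 0 ∧ ∃ v ∈ L, Far L τ g k v ∧
          Relation.ReflTransGen (StepIn {w | w ∈ L ∧ 1 ≤ -(h w - k)}) u v} :=
    add_le_add (mono fun h ⟨u, h1, h2, _, h3⟩ => ⟨u, h1, h2, h3⟩)
      (mono fun h ⟨u, h1, h2, _, h3⟩ => ⟨u, h1, h2, h3⟩)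
  have hP0 : 0 ≤ pr x L τ (Ep L τ b g k) + pr x L τ (Em L τ b g k) :=
    add_nonneg (pr_nonneg _) (pr_nonneg _)
  have h2 := Real.rpow_le_rpow hP0 h1 (show (0 : ℝ) ≤ 1 / 4 by norm_num)
  have hA0 : 0 ≤ ex x L τ (fun h => X' L b k h ^ 4) := ex_nonneg fun h _ => by positivity
  have hV0 : 0 ≤ Vr x L τ g := Vr_nonneg g
  refine h0.trans (mul_le_mul ?_ h2 (by positivity) (by positivity))
  have h3 : (0 : ℝ) ≤ Vr x L τ g ^ (1 / 2 : ℝ) := Real.rpow_nonneg hV0 _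
  have h4 : (0 : ℝ) ≤ ex x L τ (fun h => X' L b k h ^ 4) ^ (1 / 4 : ℝ) := Real.rpow_nonneg hA0 _
  rw [mul_assoc]
  refine mul_le_mul_of_nonneg_left ?_ h4
  linarith

end Crest.Agent.R144.Bf1856
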