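import Mathlib
import Crest.Agent.R144.Geo1_268

/-! R144 (helper268) GEO block, file 2: local structure of a `C¹` regular simple closed curve
(two sides, winding number jumps by `2π`). -/

set_option autoImplicit false

open Set Topology Filter Metric

namespace Crest.Agent.R144.Geo268

/-- regular simple closed `C¹` curve -/
structure Reg (γ : ℝ → ℂ) : Prop where
  cd : ContDiff ℝ 1 γ
  per : Function.Periodic γ (2 * Real.pi)
  reg : ∀ s, deriv γ s ≠ 0
  inj : InjOn γ (Ico 0 (2 * Real.pi))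

theorem Reg.cur {γ : ℝ → ℂ} (h : Reg γ) : Cur γ := ⟨h.cd.continuous, h.per⟩

theorem Reg.diff {γ : ℝ → ℂ} (h : Reg γ) : Differentiable ℝ γ :=
  h.cd.differentiable (by norm_num)

theorem Reg.contDeriv {γ : ℝ → ℂ} (h : Reg γ) : Continuous (deriv γ) :=
  h.cd.continuous_deriv (by norm_num)

theorem two_pi_pos' : (0 : ℝ) < 2 * Real.pi := by positivity

/-- injectivity modulo the period, for any simple closed curve -/
theorem inj_mod {c : ℝ → ℂ} (hp : Function.Periodic c (2 * Real.pi))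
    (hi : InjOn c (Ico 0 (2 * Real.pi))) {s t : ℝ} (h : c s = c t) :
    ∃ k : ℤ, s = t + k * (2 * Real.pi) := by
  have h1 : c (toIcoMod two_pi_pos' 0 s) = c s := by
    rw [toIcoMod]
    exact hp.sub_zsmul_eq _
  have h2 : c (toIcoMod two_pi_pos' 0 t) = c t := by
    rw [toIcoMod]
    exact hp.sub_zsmul_eq _
  have h3 : toIcoMod two_pi_pos' 0 s = toIcoMod two_pi_pos' 0 t := by
    apply hi
    · have := toIcoMod_mem_Ico two_pi_pos' 0 s
      rwa [zero_add] at this
    · have := toIcoMod_mem_Ico two_pi_pos' 0 t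
      rwa [zero_add] at this
    · rw [h1, h2, h]
  refine ⟨toIcoDiv two_pi_pos' 0 s - toIcoDiv two_pi_pos' 0 t, ?_⟩
  have e1 := toIcoMod_add_toIcoDiv_zsmul two_pi_pos' 0 s
  have e2 := toIcoMod_add_toIcoDiv_zsmul two_pi_pos' 0 t
  rw [zsmul_eq_mul] at e1 e2
  push_cast
  linarith

/-- points strictly inside a period interval are different from the end point -/
theorem ne_of_Ioo {c : ℝ → ℂ} (hp : Function.Periodic c (2 * Real.pi))
    (hi : InjOn c (Ico 0 (2 * Real.pi))) {s t : ℝ} (h1 : t < s) (h2 : s < t + 2 * Real.pi) :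
    c s ≠ c t := by
  intro h
  obtain ⟨k, hk⟩ := inj_mod hp hi h
  have hpi := two_pi_pos'
  have h3 : 0 < (k : ℝ) * (2 * Real.pi) := by linarith
  have h4 : (k : ℝ) * (2 * Real.pi) < 1 * (2 * Real.pi) := by linarith
  have h5 : (0 : ℝ) < k := pos_of_mul_pos_left h3 hpi.le
  have h6 : (k : ℝ) < 1 := lt_of_mul_lt_mul_right h4 hpi.le
  have h7 : (0 : ℤ) < k := by exact_mod_cast h5
  have h8 : k < (1 : ℤ) := by exact_mod_cast h6
  omega

/-- almost isometry near `s0` in the coordinate `(z - γ s0) / γ' s0` -/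
theorem Reg.almost {γ : ℝ → ℂ} (h : Reg γ) (s0 : ℝ) : ∃ ε > 0, ε < Real.pi ∧
    (∀ s ∈ Icc (s0 - ε) (s0 + ε), ‖deriv γ s / deriv γ s0 - 1‖ ≤ 1 / 4) ∧
    ∀ s ∈ Icc (s0 - ε) (s0 + ε), ∀ t ∈ Icc (s0 - ε) (s0 + ε),
      ‖(γ s - γ t) / deriv γ s0 - ((s - t : ℝ) : ℂ)‖ ≤ 1 / 4 * |s - t| := by
  have hτ := h.reg s0
  have hc : Continuous fun s => ‖deriv γ s / deriv γ s0 - 1‖ :=
    ((h.contDeriv.div_const _).sub continuous_const).norm
  have h0 : ‖deriv γ s0 / deriv γ s0 - 1‖ < 1 / 4 := by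
    rw [div_self hτ, sub_self, norm_zero]; norm_num
  obtain ⟨ε, hε, h1⟩ := Metric.eventually_nhds_iff.1 (hc.continuousAt.eventually (gt_mem_nhds h0))
  refine ⟨min (ε / 2) 1, by positivity, ?_, ?_, ?_⟩
  · have := Real.pi_gt_three
    have := min_le_right (ε / 2) 1
    linarith
  · intro s hs
    refine (h1 ?_).le
    rw [Real.dist_eq, abs_lt]
    have := min_le_left (ε / 2) 1
    constructor <;> linarith [hs.1, hs.2]
  · intro s hs t ht
    have hd : ∀ x : ℝ, HasDerivAt (fun s : ℝ => γ s / deriv γ s0 - (s : ℂ))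
        (deriv γ x / deriv γ s0 - 1) x := fun x =>
      (((h.diff x).hasDerivAt).div_const _).sub (Complex.ofRealCLM.hasDerivAt)
    have h2 := (convex_Icc (s0 - min (ε / 2) 1) (s0 + min (ε / 2) 1)).norm_image_sub_le_of_norm_hasDerivWithin_le
      (f := fun s : ℝ => γ s / deriv γ s0 - (s : ℂ)) (f' := fun x => deriv γ x / deriv γ s0 - 1)
      (C := 1 / 4) (fun x _ => (hd x).hasDerivWithinAt)
      (fun x hx => by
        refine (h1 ?_).le
        rw [Real.dist_eq, abs_lt]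
        have := min_le_left (ε / 2) 1
        constructor <;> linarith [hx.1, hx.2]) ht hs
    rw [Real.norm_eq_abs] at h2
    refine le_trans (le_of_eq ?_) h2
    congr 1
    push_cast
    ring

/-- the two-sided local structure of a regular simple closed curve -/
structure Loc (γ : ℝ → ℂ) (s0 e : ℝ) where
  B : Set ℂ
  L : Set ℂ
  R : Set ℂ
  δ : ℝ
  v : ℝ
  δpos : 0 < δ
  oB : IsOpen B
  memB : γ s0 ∈ B
  subB : B ⊆ ball (γ s0) e
  pL : IsPreconnected L
  pR : IsPreconnected R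
  LB : L ⊆ B
  RB : R ⊆ B
  cov : ∀ z ∈ B, z ∈ L ∨ z ∈ R ∨ z ∈ range γ
  dL : Disjoint L (range γ)
  dR : Disjoint R (range γ)
  left : ∀ s t : ℝ, |s - s0| < δ → 0 < t → t < δ → γ s + deriv γ s * (t * Complex.I) ∈ L
  right : ∀ s t : ℝ, |s - s0| < δ → 0 < t → t < δ → γ s - deriv γ s * (t * Complex.I) ∈ R
  coneL : ∀ ζ : ℂ, ‖ζ‖ < δ → |ζ.re| < 3 * ζ.im → γ s0 + deriv γ s0 * ζ ∈ L
  coneR : ∀ ζ : ℂ, ‖ζ‖ < δ → |ζ.re| < - (3 * ζ.im) → γ s0 + deriv γ s0 * ζ ∈ R
  wL : ∀ z ∈ L, wn γ z = v + 2 * Real.pi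
  wR : ∀ z ∈ R, wn γ z = v

set_option maxHeartbeats 1600000 in
theorem Reg.exists_loc {γ : ℝ → ℂ} (h : Reg γ) (s0 : ℝ) {e : ℝ} (he : 0 < e) :
    Nonempty (Loc γ s0 e) := by
  have hpi := Real.pi_pos
  have hτ := h.reg s0
  obtain ⟨ε, hε, hεπ, hd, hal⟩ := h.almost s0
  set τ := deriv γ s0 with hτdef
  set p := γ s0 with hp
  set ζ : ℝ → ℂ := fun s => (γ s - p) / τ with hζ
  have hζc : Continuous ζ := (h.cur.cont.sub continuous_const).div_const τ
  have hζp : Function.Periodic ζ (2 * Real.pi) := fun s => by simp only [hζ, h.per s]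
  have hζ0 : ζ s0 = 0 := by simp [hζ, hp]
  have hal' : ∀ s ∈ Icc (s0 - ε) (s0 + ε), ∀ t ∈ Icc (s0 - ε) (s0 + ε),
      ‖ζ s - ζ t - ((s - t : ℝ) : ℂ)‖ ≤ 1 / 4 * |s - t| := fun s hs t ht => by
    have e1 : ζ s - ζ t = (γ s - γ t) / τ := by simp only [hζ]; ring
    rw [e1]
    exact hal s hs t ht
  have hu : ∀ s ∈ Icc (s0 - ε) (s0 + ε), ∀ t ∈ Icc (s0 - ε) (s0 + ε),
      |(ζ s).re - (ζ t).re - (s - t)| ≤ 1 / 4 * |s - t| := fun s hs t ht => by
    have h1 := (Complex.abs_re_le_norm _).trans (hal' s hs t ht)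
    simpa using h1
  have hv : ∀ s ∈ Icc (s0 - ε) (s0 + ε), ∀ t ∈ Icc (s0 - ε) (s0 + ε),
      |(ζ s).im - (ζ t).im| ≤ 1 / 4 * |s - t| := fun s hs t ht => by
    have h1 := (Complex.abs_im_le_norm _).trans (hal' s hs t ht)
    simpa using h1
  have hs0 : s0 ∈ Icc (s0 - ε) (s0 + ε) := ⟨by linarith, by linarith⟩
  -- long arc
  obtain ⟨ρ, hρ, hlong⟩ : ∃ ρ > 0, ∀ s ∈ Icc (s0 + ε) (s0 + 2 * Real.pi - ε), ρ ≤ ‖ζ s‖ := by
    have h1 : ContinuousOn (fun s => ‖ζ s‖) (Icc (s0 + ε) (s0 + 2 * Real.pi - ε)) :=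
      hζc.norm.continuousOn
    obtain ⟨m, hm, hmin⟩ := isCompact_Icc.exists_isMinOn
      (nonempty_Icc.2 (by linarith : s0 + ε ≤ s0 + 2 * Real.pi - ε)) h1
    refine ⟨‖ζ m‖, norm_pos_iff.2 ?_, fun s hs => hmin hs⟩
    have := ne_of_Ioo h.per h.inj (s := m) (t := s0) (by linarith [hm.1]) (by linarith [hm.2])
    exact div_ne_zero (sub_ne_zero.2 this) hτ
  -- size of the box
  obtain ⟨r, hr, hrε, hrρ, hre⟩ : ∃ r > 0, r ≤ ε / 2 ∧ 2 * r ≤ ρ ∧ 2 * r * ‖τ‖ ≤ e := by
    have hn : 0 < ‖τ‖ := norm_pos_iff.2 hτ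
    refine ⟨min (ε / 2) (min (ρ / 2) (e / (2 * ‖τ‖))), by positivity, min_le_left _ _, ?_, ?_⟩
    · have := (min_le_right (ε / 2) (min (ρ / 2) (e / (2 * ‖τ‖)))).trans (min_le_left _ _)
      linarith
    · have := (min_le_right (ε / 2) (min (ρ / 2) (e / (2 * ‖τ‖)))).trans (min_le_right _ _)
      calc _ ≤ 2 * (e / (2 * ‖τ‖)) * ‖τ‖ := by gcongr
        _ = e := by field_simp
  -- the parameter as a function of the first coordinate
  have hex : ∀ u : ℝ, ∃ s : ℝ, u ∈ Icc (-r) r → s ∈ Icc (s0 - ε) (s0 + ε) ∧ (ζ s).re = u := by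
    intro u
    by_cases hur : u ∈ Icc (-r) r
    · have hc : ContinuousOn (fun s => (ζ s).re) (Icc (s0 - ε) (s0 + ε)) :=
        (Complex.continuous_re.comp hζc).continuousOn
      have h1 := hu (s0 - ε) ⟨le_rfl, by linarith⟩ s0 hs0
      have h2 := hu (s0 + ε) ⟨by linarith, le_rfl⟩ s0 hs0
      rw [hζ0, Complex.zero_re, sub_zero] at h1 h2
      have e1 : s0 - ε - s0 = -ε := by ring
      have e2 : s0 + ε - s0 = ε := by ring
      rw [e1, abs_neg, abs_of_pos hε, abs_le] at h1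
      rw [e2, abs_of_pos hε, abs_le] at h2
      obtain ⟨s, hs, hs2⟩ := intermediate_value_Icc (by linarith : s0 - ε ≤ s0 + ε) hc
        (⟨by dsimp only; linarith [hur.1, h1.2], by dsimp only; linarith [hur.2, h2.1]⟩ :
          u ∈ Icc ((fun s => (ζ s).re) (s0 - ε)) ((fun s => (ζ s).re) (s0 + ε)))
      exact ⟨s, fun _ => ⟨hs, hs2⟩⟩
    · exact ⟨0, fun h => absurd h hur⟩
  choose σ hσ using hex
  have hmono : ∀ s ∈ Icc (s0 - ε) (s0 + ε), ∀ t ∈ Icc (s0 - ε) (s0 + ε),
      |s - t| ≤ 4 / 3 * |(ζ s).re - (ζ t).re| := fun s hs t ht => by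
    have h1 := hu s hs t ht
    have h2 : |s - t| ≤ |(ζ s).re - (ζ t).re| + |(ζ s).re - (ζ t).re - (s - t)| := by
      have := abs_sub (( ζ s).re - (ζ t).re) ((ζ s).re - (ζ t).re - (s - t))
      refine le_trans (le_of_eq ?_) this
      congr 1
      ring
    linarith
  set g : ℝ → ℝ := fun u => (ζ (σ u)).im with hg
  have hg1 : ∀ u ∈ Icc (-r) r, ∀ w ∈ Icc (-r) r, |g u - g w| ≤ 1 / 3 * |u - w| := by
    intro u huu w hw
    obtain ⟨a1, a2⟩ := hσ u huu
    obtain ⟨b1, b2⟩ := hσ w hw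
    have h1 := hmono _ a1 _ b1
    have h2 := hv _ a1 _ b1
    rw [a2, b2] at h1
    linarith
  have hg2 : ∀ s ∈ Icc (s0 - ε) (s0 + ε), (ζ s).re ∈ Icc (-r) r → g (ζ s).re = (ζ s).im := by
    intro s hs hr'
    obtain ⟨a1, a2⟩ := hσ _ hr'
    have h1 := hmono _ a1 _ hs
    rw [a2, sub_self, abs_zero, mul_zero] at h1
    have h2 : σ (ζ s).re = s := by
      have := abs_nonpos_iff.1 h1
      linarith
    simp only [hg, h2]
  have h0r : (0 : ℝ) ∈ Icc (-r) r := ⟨by linarith, hr.le⟩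
  have hg0 : g 0 = 0 := by
    have := hg2 s0 hs0 (by rw [hζ0]; exact h0r)
    rwa [hζ0, Complex.zero_re, Complex.zero_im] at this
  have hg3 : ∀ u ∈ Icc (-r) r, |g u| ≤ 1 / 3 * |u| := fun u huu => by
    have := hg1 u huu 0 h0r
    rwa [hg0, sub_zero, sub_zero] at this
  have hgc : ContinuousOn g (Icc (-r) r) := by
    intro u huu
    rw [Metric.continuousWithinAt_iff]
    intro e' he'
    refine ⟨e', he', fun {w} hw hd' => ?_⟩
    rw [Real.dist_eq] at hd' ⊢
    have := hg1 w hw u huu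
    have := abs_nonneg (w - u)
    linarith
  -- the coordinate
  set Z : ℂ → ℂ := fun z => (z - p) / τ with hZ
  have hZc : Continuous Z := (continuous_id.sub continuous_const).div_const τ
  have hZi : ∀ w : ℂ, Z (p + τ * w) = w := fun w => by
    simp only [hZ]
    field_simp
    ring
  have hZi' : ∀ z : ℂ, p + τ * Z z = z := fun z => by
    simp only [hZ]
    field_simp
    ring
  set B : Set ℂ := {z | |(Z z).re| < r ∧ |(Z z).im| < r} with hB
  set L : Set ℂ := {z | z ∈ B ∧ g (Z z).re < (Z z).im} with hL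
  set R : Set ℂ := {z | z ∈ B ∧ (Z z).im < g (Z z).re} with hR
  have hIoo : ∀ {x : ℝ}, |x| < r → x ∈ Icc (-r) r := fun {x} hx => by
    rw [abs_lt] at hx
    exact ⟨hx.1.le, hx.2.le⟩
  have hnorm : ∀ z ∈ B, ‖Z z‖ < 2 * r := fun z hz => by
    have := Complex.norm_le_abs_re_add_abs_im (Z z)
    linarith [hz.1, hz.2]
  have hoff : ∀ z ∈ B, g (Z z).re ≠ (Z z).im → z ∉ range γ := by
    rintro z hz hne ⟨s, rfl⟩
    obtain ⟨y, hy, hxy⟩ := h.per.exists_mem_Ico two_pi_pos' s (s0 - ε)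
    rw [hxy] at hz hne
    have h3 : Z (γ y) = ζ y := rfl
    rcases le_total y (s0 + ε) with h4 | h4
    · apply hne
      rw [h3]
      refine hg2 y ⟨hy.1, h4⟩ ?_
      rw [← h3]
      exact hIoo hz.1
    · have h5 := hlong y ⟨h4, by linarith [hy.2]⟩
      have h6 := hnorm _ hz
      rw [h3] at h6
      linarith
  have hdL : Disjoint L (range γ) := disjoint_left.2 fun z hz => hoff z hz.1 hz.2.ne
  have hdR : Disjoint R (range γ) := disjoint_left.2 fun z hz => hoff z hz.1 hz.2.ne'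
  have hgr : ∀ u ∈ Ioo (-r) r, |g u| < r := fun u huu => by
    have h1 := hg3 u ⟨huu.1.le, huu.2.le⟩
    have h2 : |u| < r := abs_lt.2 ⟨huu.1, huu.2⟩
    have := abs_nonneg u
    linarith
  have hprod : IsPreconnected (Ioo (-r) r ×ˢ Ioo (0 : ℝ) 1) :=
    isPreconnected_Ioo.prod isPreconnected_Ioo
  have hpL : IsPreconnected L := by
    have hΦ : ContinuousOn (fun q : ℝ × ℝ => p + τ * ((q.1 : ℂ) +
        ((g q.1 + q.2 * (r - g q.1) : ℝ) : ℂ) * Complex.I)) (Ioo (-r) r ×ˢ Ioo (0 : ℝ) 1) := by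
      have hg' : ContinuousOn (fun q : ℝ × ℝ => g q.1) (Ioo (-r) r ×ˢ Ioo (0 : ℝ) 1) :=
        hgc.comp continuousOn_fst (fun q hq => Ioo_subset_Icc_self hq.1)
      refine continuousOn_const.add (continuousOn_const.mul (ContinuousOn.add ?_ ?_))
      · exact (Complex.continuous_ofReal.comp continuous_fst).continuousOn
      · refine ContinuousOn.mul ?_ continuousOn_const
        refine Complex.continuous_ofReal.comp_continuousOn ?_
        exact hg'.add (continuousOn_snd.mul (continuousOn_const.sub hg'))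
    have him : L = (fun q : ℝ × ℝ => p + τ * ((q.1 : ℂ) +
        ((g q.1 + q.2 * (r - g q.1) : ℝ) : ℂ) * Complex.I)) '' (Ioo (-r) r ×ˢ Ioo (0 : ℝ) 1) := by
      apply subset_antisymm
      · rintro z ⟨hz, hz2⟩
        have hz1 := abs_lt.1 hz.1
        have hz3 := abs_lt.1 hz.2
        have hgz := abs_lt.1 (hgr (Z z).re hz1)
        have hpos : 0 < r - g (Z z).re := by linarith [hgz.2]
        refine ⟨((Z z).re, ((Z z).im - g (Z z).re) / (r - g (Z z).re)), ⟨hz1, ?_, ?_⟩, ?_⟩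
        · exact div_pos (by linarith) hpos
        · dsimp only
          rw [div_lt_one hpos]
          linarith [hz3.2]
        · dsimp only
          rw [div_mul_cancel₀ _ hpos.ne', add_sub_cancel, Complex.re_add_im]
          exact hZi' z
      · rintro _ ⟨⟨u, θ⟩, ⟨hq1, hq2⟩, rfl⟩
        dsimp only at hq1 hq2 ⊢
        have hgz := abs_lt.1 (hgr u hq1)
        have hpos : 0 < r - g u := by linarith [hgz.2]
        have e1 : Z (p + τ * ((u : ℂ) + ((g u + θ * (r - g u) : ℝ) : ℂ) * Complex.I)) =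
          (u : ℂ) + ((g u + θ * (r - g u) : ℝ) : ℂ) * Complex.I := hZi _
        have e2 : (Z (p + τ * ((u : ℂ) + ((g u + θ * (r - g u) : ℝ) : ℂ) * Complex.I))).re = u := by
          rw [e1]; simp
        have e3 : (Z (p + τ * ((u : ℂ) + ((g u + θ * (r - g u) : ℝ) : ℂ) * Complex.I))).im =
          g u + θ * (r - g u) := by
          rw [e1]; simp
        have h4 : 0 < θ * (r - g u) := mul_pos hq2.1 hpos
        have h5 : θ * (r - g u) < 1 * (r - g u) := by
          apply mul_lt_mul_of_pos_right hq2.2 hpos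
        refine ⟨⟨?_, ?_⟩, ?_⟩
        · rw [e2]; exact abs_lt.2 ⟨hq1.1, hq1.2⟩
        · rw [e3, abs_lt]; constructor <;> linarith [hgz.1]
        · rw [e2, e3]; linarith
    rw [him]
    exact hprod.image _ hΦ
  have hpR : IsPreconnected R := by
    have hΦ : ContinuousOn (fun q : ℝ × ℝ => p + τ * ((q.1 : ℂ) +
        ((g q.1 - q.2 * (r + g q.1) : ℝ) : ℂ) * Complex.I)) (Ioo (-r) r ×ˢ Ioo (0 : ℝ) 1) := by
      have hg' : ContinuousOn (fun q : ℝ × ℝ => g q.1) (Ioo (-r) r ×ˢ Ioo (0 : ℝ) 1) :=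
        hgc.comp continuousOn_fst (fun q hq => Ioo_subset_Icc_self hq.1)
      refine continuousOn_const.add (continuousOn_const.mul (ContinuousOn.add ?_ ?_))
      · exact (Complex.continuous_ofReal.comp continuous_fst).continuousOn
      · refine ContinuousOn.mul ?_ continuousOn_const
        refine Complex.continuous_ofReal.comp_continuousOn ?_
        exact hg'.sub (continuousOn_snd.mul (continuousOn_const.add hg'))
    have him : R = (fun q : ℝ × ℝ => p + τ * ((q.1 : ℂ) +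
        ((g q.1 - q.2 * (r + g q.1) : ℝ) : ℂ) * Complex.I)) '' (Ioo (-r) r ×ˢ Ioo (0 : ℝ) 1) := by
      apply subset_antisymm
      · rintro z ⟨hz, hz2⟩
        have hz1 := abs_lt.1 hz.1
        have hz3 := abs_lt.1 hz.2
        have hgz := abs_lt.1 (hgr (Z z).re hz1)
        have hpos : 0 < r + g (Z z).re := by linarith [hgz.1]
        refine ⟨((Z z).re, (g (Z z).re - (Z z).im) / (r + g (Z z).re)), ⟨hz1, ?_, ?_⟩, ?_⟩
        · exact div_pos (by linarith) hpos
        · dsimp only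
          rw [div_lt_one hpos]
          linarith [hz3.1]
        · dsimp only
          rw [div_mul_cancel₀ _ hpos.ne', sub_sub_cancel, Complex.re_add_im]
          exact hZi' z
      · rintro _ ⟨⟨u, θ⟩, ⟨hq1, hq2⟩, rfl⟩
        dsimp only at hq1 hq2 ⊢
        have hgz := abs_lt.1 (hgr u hq1)
        have hpos : 0 < r + g u := by linarith [hgz.1]
        have e1 : Z (p + τ * ((u : ℂ) + ((g u - θ * (r + g u) : ℝ) : ℂ) * Complex.I)) =
          (u : ℂ) + ((g u - θ * (r + g u) : ℝ) : ℂ) * Complex.I := hZi _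
        have e2 : (Z (p + τ * ((u : ℂ) + ((g u - θ * (r + g u) : ℝ) : ℂ) * Complex.I))).re = u := by
          rw [e1]; simp
        have e3 : (Z (p + τ * ((u : ℂ) + ((g u - θ * (r + g u) : ℝ) : ℂ) * Complex.I))).im =
          g u - θ * (r + g u) := by
          rw [e1]; simp
        have h4 : 0 < θ * (r + g u) := mul_pos hq2.1 hpos
        have h5 : θ * (r + g u) < 1 * (r + g u) := by
          apply mul_lt_mul_of_pos_right hq2.2 hpos
        refine ⟨⟨?_, ?_⟩, ?_⟩
        · rw [e2]; exact abs_lt.2 ⟨hq1.1, hq1.2⟩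
        · rw [e3, abs_lt]; constructor <;> linarith [hgz.2]
        · rw [e2, e3]; linarith
    rw [him]
    exact hprod.image _ hΦ
  have hleft : ∀ s t : ℝ, |s - s0| < r / 4 → 0 < t → t < r / 4 →
      γ s + deriv γ s * (t * Complex.I) ∈ L ∧ γ s - deriv γ s * (t * Complex.I) ∈ R := by
    intro s t hs ht ht'
    have hsI : s ∈ Icc (s0 - ε) (s0 + ε) := by
      have := abs_lt.1 hs
      constructor <;> linarith
    have hη := hd s hsI
    set η := deriv γ s / τ with hηd
    have hη' : deriv γ s = τ * η := by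
      rw [hηd]; field_simp
    have hηre := abs_le.1 ((Complex.abs_re_le_norm _).trans hη)
    have hηim := abs_le.1 ((Complex.abs_im_le_norm _).trans hη)
    rw [Complex.sub_re, Complex.one_re] at hηre
    rw [Complex.sub_im, Complex.one_im, sub_zero] at hηim
    have h1 := hu s hsI s0 hs0
    have h2 := hv s hsI s0 hs0
    rw [hζ0, Complex.zero_re, sub_zero] at h1
    rw [hζ0, Complex.zero_im, sub_zero] at h2
    have h1' := abs_le.1 h1
    have h2' := abs_le.1 h2
    have hs' := abs_lt.1 hs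
    have hure : |(ζ s).re| < r := by
      rw [abs_lt]
      constructor <;> linarith
    have hgs := hg2 s hsI (hIoo hure)
    have e1 : Z (γ s + deriv γ s * (t * Complex.I)) = ζ s + η * (t * Complex.I) := by
      simp only [hZ, hζ, hη']
      field_simp
      ring
    have e2 : Z (γ s - deriv γ s * (t * Complex.I)) = ζ s - η * (t * Complex.I) := by
      simp only [hZ, hζ, hη']
      field_simp
      ring
    have e3 : (ζ s + η * (t * Complex.I)).re = (ζ s).re - t * η.im := by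
      simp [Complex.add_re, Complex.mul_re]; ring
    have e4 : (ζ s + η * (t * Complex.I)).im = (ζ s).im + t * η.re := by
      simp [Complex.add_im, Complex.mul_im]; ring
    have e5 : (ζ s - η * (t * Complex.I)).re = (ζ s).re + t * η.im := by
      simp [Complex.sub_re, Complex.mul_re]; ring
    have e6 : (ζ s - η * (t * Complex.I)).im = (ζ s).im - t * η.re := by
      simp [Complex.sub_im, Complex.mul_im]; ring
    have b1 : t * η.im ≤ 1 / 4 * t := by nlinarith [hηim.2]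
    have b2 : -(1 / 4 * t) ≤ t * η.im := by nlinarith [hηim.1]
    have b3 : t * η.re ≤ 5 / 4 * t := by nlinarith [hηre.2]
    have b4 : 3 / 4 * t ≤ t * η.re := by nlinarith [hηre.1]
    have c1 : |(ζ s).re - t * η.im| < r := by rw [abs_lt]; constructor <;> linarith
    have c2 : |(ζ s).im + t * η.re| < r := by rw [abs_lt]; constructor <;> linarith
    have c3 : |(ζ s).re + t * η.im| < r := by rw [abs_lt]; constructor <;> linarith
    have c4 : |(ζ s).im - t * η.re| < r := by rw [abs_lt]; constructor <;> linarith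
    have d1 := hg1 _ (hIoo c1) _ (hIoo hure)
    have d2 := hg1 _ (hIoo c3) _ (hIoo hure)
    have f1 : |(ζ s).re - t * η.im - (ζ s).re| ≤ 1 / 4 * t := by
      rw [abs_le]; constructor <;> linarith
    have f2 : |(ζ s).re + t * η.im - (ζ s).re| ≤ 1 / 4 * t := by
      rw [abs_le]; constructor <;> linarith
    rw [hgs] at d1 d2
    have g1 := abs_le.1 d1
    have g2 := abs_le.1 d2
    refine ⟨⟨⟨?_, ?_⟩, ?_⟩, ⟨⟨?_, ?_⟩, ?_⟩⟩
    · rw [e1, e3]; exact c1
    · rw [e1, e4]; exact c2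
    · rw [e1, e3, e4]; linarith [g1.2]
    · rw [e2, e5]; exact c3
    · rw [e2, e6]; exact c4
    · rw [e2, e5, e6]; linarith [g2.1]
  have hcone : ∀ w : ℂ, ‖w‖ < r / 4 → (|w.re| < 3 * w.im → p + τ * w ∈ L) ∧
      (|w.re| < - (3 * w.im) → p + τ * w ∈ R) := by
    intro w hw
    have h1 := (Complex.abs_re_le_norm w).trans_lt hw
    have h2 := (Complex.abs_im_le_norm w).trans_lt hw
    have h1' : |w.re| < r := by linarith
    have h2' : |w.im| < r := by linarith
    have h3 := abs_le.1 (hg3 _ (hIoo h1'))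
    refine ⟨fun h4 => ⟨⟨?_, ?_⟩, ?_⟩, fun h4 => ⟨⟨?_, ?_⟩, ?_⟩⟩
    · rw [hZi]; exact h1'
    · rw [hZi]; exact h2'
    · rw [hZi]; linarith [h3.2]
    · rw [hZi]; exact h1'
    · rw [hZi]; exact h2'
    · rw [hZi]; linarith [h3.1]
  -- the jump
  have hjump : wn γ (p + τ * ((r / 8 : ℝ) * Complex.I)) =
      wn γ (p - τ * ((r / 8 : ℝ) * Complex.I)) + 2 * Real.pi := by
    refine wn_jump h.cur hτ (t := r / 8) (a := s0 - r / 16) (b := s0 + r / 16) (by positivity)
      (by linarith) (by linarith) ?_ ?_ ?_ ?_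
    · intro s hs
      have hsI : s ∈ Icc (s0 - ε) (s0 + ε) := ⟨by linarith [hs.1], by linarith [hs.2]⟩
      have h1 := hal' s hsI s0 hs0
      rw [hζ0, sub_zero] at h1
      have h2 : |s - s0| ≤ r / 16 := by
        rw [abs_le]; constructor <;> linarith [hs.1, hs.2]
      have h3 : ‖ζ s‖ ≤ ‖ζ s - ((s - s0 : ℝ) : ℂ)‖ + ‖((s - s0 : ℝ) : ℂ)‖ := norm_le_norm_sub_add _ _
      rw [Complex.norm_real, Real.norm_eq_abs] at h3
      change ‖ζ s‖ < r / 8
      linarith
    · intro s hs v hvr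
      change ζ s ≠ _
      intro heq
      have hre0 : (ζ s).re = 0 := by rw [heq]; simp
      have hnm : ‖ζ s‖ ≤ r / 8 := by
        rw [heq, norm_mul, Complex.norm_I, mul_one, Complex.norm_real, Real.norm_eq_abs]
        exact hvr
      rcases le_total s (s0 + ε) with h4 | h4
      · have hsI : s ∈ Icc (s0 - ε) (s0 + ε) := ⟨by linarith [hs.1], h4⟩
        have h1 := hmono s hsI s0 hs0
        rw [hre0, hζ0, Complex.zero_re, sub_self, abs_zero, mul_zero] at h1
        have := abs_nonpos_iff.1 h1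
        linarith [hs.1]
      · rcases le_total s (s0 + 2 * Real.pi - ε) with h5 | h5
        · have := hlong s ⟨h4, h5⟩
          linarith
        · have hsI : s - 2 * Real.pi ∈ Icc (s0 - ε) (s0 + ε) :=
            ⟨by linarith, by linarith [hs.2]⟩
          have h1 := hmono _ hsI s0 hs0
          have h6 : ζ (s - 2 * Real.pi) = ζ s := hζp.sub_eq s
          rw [h6, hre0, hζ0, Complex.zero_re, sub_self, abs_zero, mul_zero] at h1
          have := abs_nonpos_iff.1 h1
          linarith [hs.2]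
    · have hsI : s0 - r / 16 ∈ Icc (s0 - ε) (s0 + ε) := ⟨by linarith, by linarith⟩
      have h1 := hu _ hsI s0 hs0
      have e1 : s0 - r / 16 - s0 = - (r / 16) := by ring
      rw [hζ0, Complex.zero_re, sub_zero, e1, abs_neg, abs_of_pos (by positivity : (0:ℝ) < r / 16), abs_le] at h1
      change (ζ (s0 - r / 16)).re < 0
      linarith [h1.2]
    · have hsI : s0 + r / 16 ∈ Icc (s0 - ε) (s0 + ε) := ⟨by linarith, by linarith⟩
      have h1 := hu _ hsI s0 hs0
      have e1 : s0 + r / 16 - s0 = r / 16 := by ring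
      rw [hζ0, Complex.zero_re, sub_zero, e1, abs_of_pos (by positivity : (0:ℝ) < r / 16), abs_le] at h1
      change 0 < (ζ (s0 + r / 16)).re
      linarith [h1.1]
  have hmem := hleft s0 (r / 8) (by simp; positivity) (by positivity) (by linarith)
  refine ⟨{
    B := B, L := L, R := R, δ := r / 4, v := wn γ (p - τ * ((r / 8 : ℝ) * Complex.I))
    δpos := by positivity
    oB := ?_, memB := ?_, subB := ?_, pL := hpL, pR := hpR, LB := fun z hz => hz.1
    RB := fun z hz => hz.1, cov := ?_, dL := hdL, dR := hdR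
    left := fun s t h1 h2 h3 => (hleft s t h1 h2 h3).1
    right := fun s t h1 h2 h3 => (hleft s t h1 h2 h3).2
    coneL := fun w h1 h2 => (hcone w h1).1 h2
    coneR := fun w h1 h2 => (hcone w h1).2 h2
    wL := ?_, wR := ?_ }⟩
  · exact (isOpen_lt (continuous_abs.comp (Complex.continuous_re.comp hZc)) continuous_const).inter
      (isOpen_lt (continuous_abs.comp (Complex.continuous_im.comp hZc)) continuous_const)
  · have : Z p = 0 := by simp [hZ]
    exact ⟨by rw [this]; simpa using hr, by rw [this]; simpa using hr⟩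
  · intro z hz
    rw [mem_ball, dist_eq_norm]
    have h1 := hnorm z hz
    have h2 : ‖z - p‖ = ‖Z z‖ * ‖τ‖ := by
      simp only [hZ]
      rw [norm_div, div_mul_cancel₀ _ (norm_ne_zero_iff.2 hτ)]
    rw [h2]
    calc ‖Z z‖ * ‖τ‖ < 2 * r * ‖τ‖ := by
          apply mul_lt_mul_of_pos_right h1 (norm_pos_iff.2 hτ)
      _ ≤ e := hre
  · intro z hz
    rcases lt_trichotomy (g (Z z).re) (Z z).im with h1 | h1 | h1
    · exact Or.inl ⟨hz, h1⟩
    · refine Or.inr (Or.inr ⟨σ (Z z).re, ?_⟩)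
      obtain ⟨a1, a2⟩ := hσ _ (hIoo hz.1)
      have h2 : ζ (σ (Z z).re) = Z z := Complex.ext a2 h1
      have h3 : γ (σ (Z z).re) = p + τ * ζ (σ (Z z).re) := by
        simp only [hζ]
        field_simp
        ring
      rw [h3, h2]
      exact hZi' z
    · exact Or.inr (Or.inl ⟨hz, h1⟩)
  · intro z hz
    rw [← hjump]
    exact wn_const h.cur hpL hdL hz hmem.1
  · intro z hz
    exact wn_const h.cur hpR hdR hz hmem.2

end Crest.Agent.R144.Geo268
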