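import Mathlib
import Crest.Prelude.Def_TriHeights
import Crest.Agent.R144.Geo2_268

/-! R144 (helper268) GEO block, file 3: winding numbers of the boundary curve of a `C¹` Jordan
domain: `± 2π` (one sign) inside, `0` outside the closure. -/

set_option autoImplicit false

open Set Topology Filter Metric

namespace Crest.Agent.R144.Geo268

/-- bounded connected open set whose frontier is a regular simple closed curve -/
structure Dom (D : Set ℂ) (γ : ℝ → ℂ) : Prop where
  reg : Reg γ
  op : IsOpen D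
  bdd : Bornology.IsBounded D
  conn : IsConnected D
  fr : range γ = frontier D

theorem dom_of_C2 {D : Set ℂ} {γ : ℝ → ℂ} (h : Crest.ProbabilityR.HexHeights.IsC2JordanDomain D γ) :
    Dom D γ :=
  ⟨⟨h.2.2.2.1.of_le (by norm_num), h.2.2.2.2.1, h.2.2.2.2.2.1, h.2.2.2.2.2.2.1⟩, h.1, h.2.1,
    h.2.2.1, h.2.2.2.2.2.2.2⟩

theorem dom_of_marked {D : Set ℂ} {γ : ℝ → ℂ} {θ : ℝ}
    (h : Crest.ProbabilityR.TriHeights.IsSmoothMarkedDomain D γ θ) : Dom D γ :=
  ⟨⟨h.2.2.2.1.of_le (by exact_mod_cast le_top), h.2.2.2.2.1, h.2.2.2.2.2.1, h.2.2.2.2.2.2.1⟩,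
    h.1, h.2.1, h.2.2.1, h.2.2.2.2.2.2.2.1⟩

/-- the right value is the same at all points of the curve -/
theorem Reg.exists_v {γ : ℝ → ℂ} (h : Reg γ) : ∃ v : ℝ, ∀ (s e : ℝ) (l : Loc γ s e), l.v = v := by
  have huniq : ∀ (s e s' e' : ℝ) (l : Loc γ s e) (l' : Loc γ s' e'), |s' - s| < l.δ →
      l'.v = l.v := by
    intro s e s' e' l l' hs
    set t := min l.δ l'.δ / 2 with ht
    have h0 : 0 < min l.δ l'.δ := lt_min l.δpos l'.δpos
    have h1 : t < l.δ := by
      have := min_le_left l.δ l'.δ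
      linarith
    have h2 : t < l'.δ := by
      have := min_le_right l.δ l'.δ
      linarith
    have h3 : 0 < t := by positivity
    have h4 := l.wR _ (l.right s' t hs h3 h1)
    have h5 := l'.wR _ (l'.right s' t (by rw [sub_self, abs_zero]; exact l'.δpos) h3 h2)
    rw [← h4, ← h5]
  choose l _ using fun s : ℝ => (nonempty_iff_univ_nonempty.1 (h.exists_loc s one_pos))
  have hc : ∀ s : ℝ, (l s).v = (l 0).v := by
    have hloc : IsLocallyConstant fun s : ℝ => (l s).v := by
      rw [IsLocallyConstant.iff_eventually_eq]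
      intro s
      filter_upwards [Metric.ball_mem_nhds s (l s).δpos] with s' hs'
      rw [mem_ball, Real.dist_eq] at hs'
      exact huniq _ _ _ _ (l s) (l s') hs'
    exact fun s => hloc.apply_eq_of_isPreconnected isPreconnected_univ (mem_univ _) (mem_univ _)
  refine ⟨(l 0).v, fun s e l' => ?_⟩
  rw [← hc s]
  exact huniq s 1 s e (l s) l' (by rw [sub_self, abs_zero]; exact (l s).δpos)

namespace Dom

variable {D : Set ℂ} {γ : ℝ → ℂ}

theorem disj (h : Dom D γ) : Disjoint D (range γ) := by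
  rw [h.fr, disjoint_iff_inter_eq_empty]
  exact h.op.inter_frontier_eq

theorem ext_disj (h : Dom D γ) : Disjoint (closure D)ᶜ (range γ) := by
  rw [h.fr, disjoint_left]
  intro z hz hz'
  exact hz (frontier_subset_closure hz')

/-- a preconnected set off the curve which meets `D` is inside `D` -/
theorem sub_of_meets (h : Dom D γ) {S : Set ℂ} (hS : IsPreconnected S) (hd : Disjoint S (range γ))
    {z : ℂ} (hz : z ∈ S) (hzD : z ∈ D) : S ⊆ D := by
  refine hS.subset_left_of_subset_union h.op isClosed_closure.isOpen_compl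
    (disjoint_left.2 fun w hw hw' => hw' (subset_closure hw)) (fun w hw => ?_) ⟨z, hz, hzD⟩
  by_cases h1 : w ∈ closure D
  · left
    by_contra h2
    have h3 : w ∈ frontier D := by
      rw [frontier, h.op.interior_eq]
      exact ⟨h1, h2⟩
    rw [← h.fr] at h3
    exact disjoint_left.1 hd hw h3
  · exact Or.inr h1

/-- `D` meets the box at every boundary point -/
theorem meets (h : Dom D γ) {s e : ℝ} (l : Loc γ s e) : ∃ z ∈ D, z ∈ l.B := by
  have h1 : γ s ∈ closure D := frontier_subset_closure (h.fr ▸ mem_range_self s)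
  obtain ⟨z, hz, hz'⟩ := mem_closure_iff.1 h1 l.B l.oB l.memB
  exact ⟨z, hz', hz⟩

/-- `D` contains one side at every boundary point -/
theorem side (h : Dom D γ) {s e : ℝ} (l : Loc γ s e) : l.L ⊆ D ∨ l.R ⊆ D := by
  obtain ⟨z, hz, hzB⟩ := h.meets l
  rcases l.cov z hzB with h1 | h1 | h1
  · exact Or.inl (h.sub_of_meets l.pL l.dL h1 hz)
  · exact Or.inr (h.sub_of_meets l.pR l.dR h1 hz)
  · exact absurd h1 (disjoint_left.1 h.disj hz)

theorem const_D (h : Dom D γ) {z z' : ℂ} (hz : z ∈ D) (hz' : z' ∈ D) : wn γ z = wn γ z' :=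
  wn_const h.reg.cur h.conn.isPreconnected h.disj hz hz'

theorem L_mem {s e : ℝ} (l : Loc γ s e) : γ s + deriv γ s * ((l.δ / 2 : ℝ) * Complex.I) ∈ l.L := by
  have := l.δpos
  exact l.left s (l.δ / 2) (by rw [sub_self, abs_zero]; exact this) (by positivity) (by linarith)

theorem R_mem {s e : ℝ} (l : Loc γ s e) : γ s - deriv γ s * ((l.δ / 2 : ℝ) * Complex.I) ∈ l.R := by
  have := l.δpos
  exact l.right s (l.δ / 2) (by rw [sub_self, abs_zero]; exact this) (by positivity) (by linarith)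

/-- not both sides are inside -/
theorem not_both (h : Dom D γ) {s e : ℝ} (l : Loc γ s e) : ¬ (l.L ⊆ D ∧ l.R ⊆ D) := by
  rintro ⟨h1, h2⟩
  have h3 := h.const_D (h1 (L_mem l)) (h2 (R_mem l))
  rw [l.wL _ (L_mem l), l.wR _ (R_mem l)] at h3
  have := Real.pi_pos
  linarith

/-- values next to the curve and the value inside -/
theorem main (h : Dom D γ) : ∃ v : ℝ, (∀ (s e : ℝ) (l : Loc γ s e), l.v = v) ∧
    ((v = 0 ∧ ∀ z ∈ D, wn γ z = 2 * Real.pi) ∨
      (v = - (2 * Real.pi) ∧ ∀ z ∈ D, wn γ z = - (2 * Real.pi))) := by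
  obtain ⟨v, hv⟩ := h.reg.exists_v
  refine ⟨v, hv, ?_⟩
  -- an extreme point
  obtain ⟨s1, -, hs1⟩ := (isCompact_Icc (a := (0 : ℝ)) (b := 2 * Real.pi)).exists_isMaxOn
    (nonempty_Icc.2 pi2) (Complex.continuous_re.comp h.reg.cur.cont).continuousOn
  have hmax : ∀ s, (γ s).re ≤ (γ s1).re := fun s => by
    obtain ⟨t, ht, hts⟩ := h.reg.cur.exists_Ico s
    rw [← hts]
    exact hs1 (Ico_subset_Icc_self ht)
  set H : Set ℂ := {z | (γ s1).re < z.re} with hH
  have hHc : IsPreconnected H := (convex_halfSpace_re_gt _).isPreconnected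
  have hHd : Disjoint H (range γ) := disjoint_left.2 (by
    rintro _ hz ⟨s, rfl⟩
    exact absurd (hmax s) (not_le.2 hz))
  have hHu : ¬ Bornology.IsBounded H := by
    intro hb
    obtain ⟨M, hM⟩ := hb.exists_norm_le
    have h1 := hM (((|(γ s1).re| + |M| + 1 : ℝ)) : ℂ) (by
      simp only [hH, mem_ofPred_eq, Complex.ofReal_re]
      have := le_abs_self (γ s1).re
      have := abs_nonneg M
      linarith)
    rw [Complex.norm_real, Real.norm_eq_abs, abs_of_pos (by positivity)] at h1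
    have := le_abs_self M
    have := abs_nonneg (γ s1).re
    linarith
  have hHD : ∀ z ∈ H, z ∉ D := fun z hz hzD =>
    hHu (h.bdd.subset (h.sub_of_meets hHc hHd hz hzD))
  obtain ⟨l⟩ := h.reg.exists_loc s1 one_pos
  -- a point of `H` in the box
  obtain ⟨w, hwH, hwB⟩ : ∃ w ∈ H, w ∈ l.B := by
    obtain ⟨r, hr, hr'⟩ := Metric.isOpen_iff.1 l.oB _ l.memB
    refine ⟨γ s1 + ((r / 2 : ℝ) : ℂ), ?_, hr' ?_⟩
    · simp only [hH, mem_ofPred_eq, Complex.add_re, Complex.ofReal_re]
      linarith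
    · rw [mem_ball, dist_eq_norm, add_sub_cancel_left, Complex.norm_real, Real.norm_eq_abs,
        abs_of_pos (by positivity)]
      linarith
  have hw0 : wn γ w = 0 := wn_unbounded h.reg.cur hHc hHd hHu hwH
  have hpi := Real.pi_pos
  rcases l.cov w hwB with h1 | h1 | h1
  · right
    have h2 := l.wL w h1
    rw [hw0, hv] at h2
    have h3 : v = - (2 * Real.pi) := by linarith
    refine ⟨h3, fun z hz => ?_⟩
    rcases h.side l with h4 | h4
    · exact absurd (h4 h1) (hHD w hwH)
    · rw [h.const_D hz (h4 (R_mem l)), l.wR _ (R_mem l), hv, h3]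
  · left
    have h2 := l.wR w h1
    rw [hw0, hv] at h2
    refine ⟨h2.symm, fun z hz => ?_⟩
    rcases h.side l with h4 | h4
    · rw [h.const_D hz (h4 (L_mem l)), l.wL _ (L_mem l), hv, ← h2, zero_add]
    · exact absurd (h4 h1) (hHD w hwH)
  · exact absurd h1 (disjoint_left.1 hHd hwH)

/-- (W1) -/
theorem wn_inside (h : Dom D γ) : ∃ v : ℝ, (v = 2 * Real.pi ∨ v = - (2 * Real.pi)) ∧
    ∀ z ∈ D, wn γ z = v := by
  obtain ⟨v, -, h1 | h1⟩ := h.main
  · exact ⟨_, Or.inl rfl, h1.2⟩
  · exact ⟨_, Or.inr rfl, h1.2⟩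

theorem wn_inside_ne (h : Dom D γ) {z : ℂ} (hz : z ∈ D) : wn γ z ≠ 0 := by
  have := Real.pi_pos
  obtain ⟨v, h1 | h1, h2⟩ := h.wn_inside
  · rw [h2 z hz, h1]; positivity
  · rw [h2 z hz, h1]; exact neg_ne_zero.2 (by positivity)

/-- (W2) winding number `0` outside the closure -/
theorem wn_outside (h : Dom D γ) {z : ℂ} (hz : z ∉ closure D) : wn γ z = 0 := by
  set E : Set ℂ := (closure D)ᶜ with hE
  have hEo : IsOpen E := isClosed_closure.isOpen_compl
  set Q := connectedComponentIn E z with hQ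
  have hzE : z ∈ E := hz
  have hQE : Q ⊆ E := connectedComponentIn_subset E z
  have hQo : IsOpen Q := hEo.connectedComponentIn
  have hQp : IsPreconnected Q := isPreconnected_connectedComponentIn
  have hzQ : z ∈ Q := mem_connectedComponentIn hzE
  have hQd : Disjoint Q (range γ) := h.ext_disj.mono_left hQE
  by_cases hb : Bornology.IsBounded Q
  swap
  · exact wn_unbounded h.reg.cur hQp hQd hb hzQ
  -- frontier point
  have hfr : (frontier Q).Nonempty := by
    by_contra hf
    rw [not_nonempty_iff_eq_empty, ← isClopen_iff_frontier_eq_empty, isClopen_iff] at hf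
    rcases hf with hf | hf
    · rw [hf] at hzQ; exact hzQ
    · rw [hf] at hb
      exact NormedSpace.unbounded_univ ℝ ℂ hb
  obtain ⟨q, hq⟩ := hfr
  have hqQ : q ∈ closure Q := frontier_subset_closure hq
  have hqn : q ∉ Q := fun hq' => by
    have := hQo.inter_frontier_eq
    rw [← mem_empty_iff_false q, ← this]
    exact ⟨hq', hq⟩
  have hqE : q ∉ E := fun hqE => by
    obtain ⟨w, hw1, hw2⟩ := mem_closure_iff.1 hqQ (connectedComponentIn E q)
      hEo.connectedComponentIn (mem_connectedComponentIn hqE)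
    have e1 := connectedComponentIn_eq hw1
    have e2 := connectedComponentIn_eq hw2
    apply hqn
    rw [hQ, e2, ← e1]
    exact mem_connectedComponentIn hqE
  have hqD : q ∈ closure D := by
    by_contra h1
    exact hqE h1
  have hqD' : q ∉ D := fun h1 => by
    obtain ⟨w, hw1, hw2⟩ := mem_closure_iff.1 hqQ D h.op h1
    exact hQE hw2 (subset_closure hw1)
  have hqf : q ∈ range γ := by
    rw [h.fr, frontier, h.op.interior_eq]
    exact ⟨hqD, hqD'⟩
  obtain ⟨s0, rfl⟩ := hqf
  obtain ⟨l⟩ := h.reg.exists_loc s0 one_pos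
  obtain ⟨w, hwB, hwQ⟩ := mem_closure_iff.1 hqQ l.B l.oB l.memB
  rw [wn_const h.reg.cur hQp hQd hzQ hwQ]
  have hwD : w ∉ D := fun h1 => hQE hwQ (subset_closure h1)
  obtain ⟨v, hv, hm⟩ := h.main
  have hpi := Real.pi_pos
  rcases l.cov w hwB with h1 | h1 | h1
  · rw [l.wL w h1, hv]
    rcases h.side l with h4 | h4
    · exact absurd (h4 h1) hwD
    · rcases hm with ⟨h5, h6⟩ | ⟨h5, h6⟩
      · have h7 := h6 _ (h4 (R_mem l))
        rw [l.wR _ (R_mem l), hv, h5] at h7
        linarith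
      · rw [h5]; ring
  · rw [l.wR w h1, hv]
    rcases h.side l with h4 | h4
    · rcases hm with ⟨h5, h6⟩ | ⟨h5, h6⟩
      · exact h5
      · have h7 := h6 _ (h4 (L_mem l))
        rw [l.wL _ (L_mem l), hv, h5] at h7
        linarith
    · exact absurd (h4 h1) hwD
  · exact absurd h1 (disjoint_left.1 hQd hwQ)

/-- (T1), abstract: if the points outside `P n` (and off `c n`) have winding number `0`, every
compact subset of `D` is eventually inside `P n`. -/
theorem eventually_subset (h : Dom D γ) {c : ℕ → ℝ → ℂ} (hc : ∀ n, Cur (c n))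
    (hu : TendstoUniformly c γ atTop) {P : ℕ → Set ℂ}
    (hP : ∀ n, ∀ z, z ∉ P n → z ∉ range (c n) → wn (c n) z = 0) {K : Set ℂ} (hK : IsCompact K)
    (hKD : K ⊆ D) : ∀ᶠ n in atTop, K ⊆ P n := by
  filter_upwards [wn_stable hc h.reg.cur hu hK (h.disj.mono_left hKD)] with n hn z hz
  by_contra h1
  obtain ⟨h2, h3⟩ := hn z hz
  rw [hP n z h1 h2] at h3
  exact h.wn_inside_ne (hKD hz) h3.symm

/-- (T2), abstract: preconnected sets `P n` off the curves which eventually contain a point of `D`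
are eventually in every neighbourhood of `D`. -/
theorem eventually_near (h : Dom D γ) {c : ℕ → ℝ → ℂ} (hc : ∀ n, Cur (c n))
    (hu : TendstoUniformly c γ atTop) {P : ℕ → Set ℂ} (hPc : ∀ n, IsPreconnected (P n))
    (hPd : ∀ n, Disjoint (P n) (range (c n))) {z0 : ℂ} (hz0 : z0 ∈ D)
    (hz0P : ∀ᶠ n in atTop, z0 ∈ P n) {ε : ℝ} (hε : 0 < ε) :
    ∀ᶠ n in atTop, ∀ z ∈ P n, infDist z D < ε := by
  obtain ⟨M, hM⟩ := h.reg.cur.exists_bound
  set K : Set ℂ := {z | ε ≤ infDist z D} ∩ closedBall 0 (M + 1) with hK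
  have hKc : IsCompact K :=
    (isCompact_closedBall (0 : ℂ) (M + 1)).inter_left
      (isClosed_le continuous_const (continuous_infDist_pt D))
  have hKo : ∀ z, ε ≤ infDist z D → z ∉ closure D := fun z hz h1 => by
    rw [← infDist_closure, infDist_zero_of_mem h1] at hz
    exact absurd hz (not_le.2 hε)
  have hKd : Disjoint K (range γ) := h.ext_disj.mono_left fun z hz => hKo z hz.1
  filter_upwards [wn_stable hc h.reg.cur hu hKc hKd, hz0P,
    wn_stable hc h.reg.cur hu (isCompact_singleton (x := z0))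
      (h.disj.mono_left (singleton_subset_iff.2 hz0)),
    Metric.tendstoUniformly_iff.1 hu 1 one_pos] with n h1 h2 h3 h4 z hz
  by_contra h5
  rw [not_lt] at h5
  have e1 : wn (c n) z = wn (c n) z0 := wn_const (hc n) (hPc n) (hPd n) hz h2
  rw [(h3 z0 rfl).2] at e1
  apply h.wn_inside_ne hz0
  rw [← e1]
  by_cases h6 : ‖z‖ ≤ M + 1
  · rw [(h1 z ⟨h5, by simpa using h6⟩).2]
    exact h.wn_outside (hKo z h5)
  · rw [not_le] at h6
    refine wn_far (hc n) fun s => ?_
    have h7 := h4 s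
    rw [dist_comm, dist_eq_norm] at h7
    have h8 : ‖c n s‖ ≤ ‖c n s - γ s‖ + ‖γ s‖ := norm_le_norm_sub_add _ _
    have := hM s
    linarith

end Dom

end Crest.Agent.R144.Geo268
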