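import Mathlib
import Crest.Agent.R144.Geo3_268
import Crest.Agent.R144.Geo4_268
import Crest.Agent.R144.It1b_844
import Crest.Agent.R144.Ham5_560

/-! R144 (helper268) GEO block, file 5: free vertices, boundary vertices and arcs of marked
lattice polygons: `FreeSet` (844), disjoint arcs and `Anch` (560). -/

set_option autoImplicit false

noncomputable section

open Set Topology Filter Metric MeasureTheory

namespace Crest.Agent.R144.Geo268

open Crest.ProbabilityR.HexHeights Crest.ProbabilityR.TriHeights Crest.Agent.R144.HexTil353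

theorem mem_corners_true (u v : ℤ × ℤ) :
    v ∈ corners (u, true) ↔ (v.1 = u.1 ∧ v.2 = u.2) ∨ (v.1 = u.1 + 1 ∧ v.2 = u.2) ∨
      (v.1 = u.1 ∧ v.2 = u.2 + 1) := by
  rw [corners_true]
  simp only [Finset.mem_insert, Finset.mem_singleton, Prod.ext_iff]

theorem mem_corners_false (u v : ℤ × ℤ) :
    v ∈ corners (u, false) ↔ (v.1 = u.1 + 1 ∧ v.2 = u.2) ∨ (v.1 = u.1 ∧ v.2 = u.2 + 1) ∨
      (v.1 = u.1 + 1 ∧ v.2 = u.2 + 1) := by
  rw [corners_false]
  simp only [Finset.mem_insert, Finset.mem_singleton, Prod.ext_iff]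

/-- the six triangles around a lattice point -/
theorem mem_corners_iff (t : Tri) (v : ℤ × ℤ) : v ∈ corners t ↔
    t = ((v.1, v.2), true) ∨ t = ((v.1 - 1, v.2), false) ∨ t = ((v.1 - 1, v.2), true) ∨
    t = ((v.1 - 1, v.2 - 1), false) ∨ t = ((v.1, v.2 - 1), true) ∨ t = ((v.1, v.2 - 1), false) := by
  obtain ⟨⟨u1, u2⟩, b⟩ := t
  obtain ⟨v1, v2⟩ := v
  cases b
  · rw [mem_corners_false]
    simp only [Prod.mk.injEq, Bool.false_eq_true, and_false, and_true, false_or]
    omega
  · rw [mem_corners_true]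
    simp only [Prod.mk.injEq, Bool.true_eq_false, and_false, and_true, false_or, or_false]
    omega

/-- an edge is in exactly two triangles -/
theorem edge_two {t : Tri} {x y : ℤ × ℤ} (hx : x ∈ corners t) (hy : y ∈ corners t) (hne : x ≠ y) :
    ∃ t', t' ≠ t ∧ x ∈ corners t' ∧ y ∈ corners t' ∧
      ∀ t'', x ∈ corners t'' → y ∈ corners t'' → t'' = t ∨ t'' = t' := by
  obtain ⟨⟨u1, u2⟩, b⟩ := t
  obtain ⟨x1, x2⟩ := x
  obtain ⟨y1, y2⟩ := y
  have hne' : ¬ (x1 = y1 ∧ x2 = y2) := fun h => hne (by rw [h.1, h.2])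
  have key : ∀ (w1 w2 : ℤ) (b' : Bool), ((w1, w2), b') ≠ ((u1, u2), b) →
      (x1, x2) ∈ corners ((w1, w2), b') → (y1, y2) ∈ corners ((w1, w2), b') →
      (∀ s1 s2, ∀ b'', (x1, x2) ∈ corners ((s1, s2), b'') → (y1, y2) ∈ corners ((s1, s2), b'') →
        (((s1, s2), b'') : Tri) = ((u1, u2), b) ∨ (((s1, s2), b'') : Tri) = ((w1, w2), b')) →
      ∃ t', t' ≠ (((u1, u2), b) : Tri) ∧ (x1, x2) ∈ corners t' ∧ (y1, y2) ∈ corners t' ∧
      ∀ t'', (x1, x2) ∈ corners t'' → (y1, y2) ∈ corners t'' → t'' = (((u1, u2), b) : Tri) ∨ t'' = t' := by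
    intro w1 w2 b' h1 h2 h3 h4
    refine ⟨((w1, w2), b'), h1, h2, h3, ?_⟩
    rintro ⟨⟨s1, s2⟩, b''⟩ h5 h6
    exact h4 s1 s2 b'' h5 h6
  cases b
  · rw [mem_corners_false] at hx hy
    simp only at hx hy
    by_cases hA : x1 + x2 = y1 + y2
    · apply key u1 u2 true (by simp)
      · rw [mem_corners_true]; simp only; omega
      · rw [mem_corners_true]; simp only; omega
      · intro s1 s2 b'' h5 h6
        cases b''
        · rw [mem_corners_false] at h5 h6
          simp only [Prod.mk.injEq, Bool.false_eq_true, and_false, and_true, or_false] at *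
          omega
        · rw [mem_corners_true] at h5 h6
          simp only [Prod.mk.injEq, Bool.true_eq_false, and_false, and_true, false_or] at *
          omega
    · by_cases hB : x1 = y1
      · apply key (u1 + 1) u2 true (by simp)
        · rw [mem_corners_true]; simp only; omega
        · rw [mem_corners_true]; simp only; omega
        · intro s1 s2 b'' h5 h6
          cases b''
          · rw [mem_corners_false] at h5 h6
            simp only [Prod.mk.injEq, Bool.false_eq_true, and_false, and_true, or_false] at *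
            omega
          · rw [mem_corners_true] at h5 h6
            simp only [Prod.mk.injEq, Bool.true_eq_false, and_false, and_true, false_or] at *
            omega
      · apply key u1 (u2 + 1) true (by simp)
        · rw [mem_corners_true]; simp only; omega
        · rw [mem_corners_true]; simp only; omega
        · intro s1 s2 b'' h5 h6
          cases b''
          · rw [mem_corners_false] at h5 h6
            simp only [Prod.mk.injEq, Bool.false_eq_true, and_false, and_true, or_false] at *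
            omega
          · rw [mem_corners_true] at h5 h6
            simp only [Prod.mk.injEq, Bool.true_eq_false, and_false, and_true, false_or] at *
            omega
  · rw [mem_corners_true] at hx hy
    simp only at hx hy
    by_cases hA : x1 + x2 = y1 + y2
    · apply key u1 u2 false (by simp)
      · rw [mem_corners_false]; simp only; omega
      · rw [mem_corners_false]; simp only; omega
      · intro s1 s2 b'' h5 h6
        cases b''
        · rw [mem_corners_false] at h5 h6
          simp only [Prod.mk.injEq, Bool.false_eq_true, and_false, and_true, false_or] at *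
          omega
        · rw [mem_corners_true] at h5 h6
          simp only [Prod.mk.injEq, Bool.true_eq_false, and_false, and_true, or_false] at *
          omega
    · by_cases hB : x1 = y1
      · apply key (u1 - 1) u2 false (by simp)
        · rw [mem_corners_false]; simp only; omega
        · rw [mem_corners_false]; simp only; omega
        · intro s1 s2 b'' h5 h6
          cases b''
          · rw [mem_corners_false] at h5 h6
            simp only [Prod.mk.injEq, Bool.false_eq_true, and_false, and_true, false_or] at *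
            omega
          · rw [mem_corners_true] at h5 h6
            simp only [Prod.mk.injEq, Bool.true_eq_false, and_false, and_true, or_false] at *
            omega
      · apply key u1 (u2 - 1) false (by simp)
        · rw [mem_corners_false]; simp only; omega
        · rw [mem_corners_false]; simp only; omega
        · intro s1 s2 b'' h5 h6
          cases b''
          · rw [mem_corners_false] at h5 h6
            simp only [Prod.mk.injEq, Bool.false_eq_true, and_false, and_true, false_or] at *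
            omega
          · rw [mem_corners_true] at h5 h6
            simp only [Prod.mk.injEq, Bool.true_eq_false, and_false, and_true, or_false] at *
            omega

/-- a triangle of `T` and a triangle outside `T` at a common edge: a boundary edge -/
theorem bdryEdge_of {T : Finset Tri} {x y : ℤ × ℤ} (hne : x ≠ y) {t t' : Tri}
    (ht : t ∈ T) (ht' : t' ∉ T) (h1 : x ∈ corners t) (h2 : y ∈ corners t)
    (h3 : x ∈ corners t') (h4 : y ∈ corners t') : IsBoundaryEdge T (x, y) := by
  refine ⟨hne, ?_⟩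
  obtain ⟨s, hs, _, _, hs4⟩ := edge_two h1 h2 hne
  have h5 : t' = s := (hs4 t' h3 h4).resolve_left (fun h => ht' (h ▸ ht))
  rw [Finset.card_eq_one]
  refine ⟨t, ?_⟩
  ext r
  rw [Finset.mem_filter, Finset.mem_singleton]
  constructor
  · rintro ⟨hr, hr1, hr2⟩
    rcases hs4 r hr1 hr2 with h | h
    · exact h
    · rw [h, ← h5] at hr
      exact absurd hr ht'
  · rintro rfl
    exact ⟨ht, h1, h2⟩

/-- a boundary edge is in a triangle of `T` and in a triangle outside `T` -/
theorem bdryEdge_sides {T : Finset Tri} {x y : ℤ × ℤ} (h : IsBoundaryEdge T (x, y)) :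
    x ≠ y ∧ ∃ t ∈ T, ∃ t' ∉ T, x ∈ corners t ∧ y ∈ corners t ∧ x ∈ corners t' ∧ y ∈ corners t' := by
  obtain ⟨hne, hc⟩ := h
  refine ⟨hne, ?_⟩
  rw [Finset.card_eq_one] at hc
  obtain ⟨t, ht⟩ := hc
  have h1 : t ∈ T.filter fun t => x ∈ corners t ∧ y ∈ corners t := by
    have : t ∈ ({t} : Finset Tri) := Finset.mem_singleton_self t
    rw [← ht] at this
    exact this
  rw [Finset.mem_filter] at h1
  obtain ⟨t', h2, h3, h4, -⟩ := edge_two h1.2.1 h1.2.2 hne
  refine ⟨t, h1.1, t', fun h5 => h2 ?_, h1.2.1, h1.2.2, h3, h4⟩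
  have : t' ∈ T.filter fun t => x ∈ corners t ∧ y ∈ corners t := Finset.mem_filter.2 ⟨h5, h3, h4⟩
  have h6 : t' ∈ ({t} : Finset Tri) := by
    rw [← ht]
    exact this
  exact Finset.mem_singleton.1 h6

theorem bdryVertex_sides {T : Finset Tri} {x : ℤ × ℤ} (h : IsBoundaryVertex T x) :
    ∃ t ∈ T, ∃ t' ∉ T, x ∈ corners t ∧ x ∈ corners t' := by
  obtain ⟨y, hy⟩ := h
  obtain ⟨-, t, ht, t', ht', h1, -, h2, -⟩ := bdryEdge_sides hy
  exact ⟨t, ht, t', ht', h1, h2⟩

/-- decides corner membership -/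
local macro "crn" : tactic => `(tactic| first
  | (simp only [mem_corners_true, mem_corners_false]; done)
  | (simp [mem_corners_true, mem_corners_false]; done)
  | (simp [mem_corners_true, mem_corners_false]; omega))

/-- STAR LEMMA: if some but not all triangles around `v` are in `T`, then `v` is a boundary
vertex -/
theorem bdryVertex_of {T : Finset Tri} {v : ℤ × ℤ} {t t' : Tri} (ht : t ∈ T) (ht' : t' ∉ T)
    (h1 : v ∈ corners t) (h2 : v ∈ corners t') : IsBoundaryVertex T v := by
  by_contra hcon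
  have step : ∀ (s s' : Tri) (w : ℤ × ℤ), w ≠ v → v ∈ corners s → v ∈ corners s' →
      w ∈ corners s → w ∈ corners s' → (s ∈ T ↔ s' ∈ T) := by
    intro s s' w hw a1 a2 a3 a4
    by_contra hne
    by_cases hs : s ∈ T
    · have hs' : s' ∉ T := fun h => hne ⟨fun _ => h, fun _ => hs⟩
      exact hcon ⟨w, bdryEdge_of hw.symm hs hs' a1 a3 a2 a4⟩
    · have hs' : s' ∈ T := by
        by_contra h
        exact hne ⟨fun h' => absurd h' hs, fun h' => absurd h' h⟩
      exact hcon ⟨w, bdryEdge_of hw.symm hs' hs a2 a4 a1 a3⟩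
  obtain ⟨v1, v2⟩ := v
  have ne1 : ∀ a b : ℤ, (a ≠ v1 ∨ b ≠ v2) → ((a, b) : ℤ × ℤ) ≠ (v1, v2) := by
    intro a b h h'
    rw [Prod.mk.injEq] at h'
    rcases h with h | h
    · exact h h'.1
    · exact h h'.2
  have e01 := step ((v1, v2), true) ((v1 - 1, v2), false) (v1, v2 + 1) (ne1 _ _ (by omega))
    (by crn) (by crn)
    (by crn) (by crn)
  have e12 := step ((v1 - 1, v2), false) ((v1 - 1, v2), true) (v1 - 1, v2 + 1)
    (ne1 _ _ (by omega))
    (by crn) (by crn)
    (by crn) (by crn)
  have e23 := step ((v1 - 1, v2), true) ((v1 - 1, v2 - 1), false) (v1 - 1, v2)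
    (ne1 _ _ (by omega))
    (by crn) (by crn)
    (by crn) (by crn)
  have e34 := step ((v1 - 1, v2 - 1), false) ((v1, v2 - 1), true) (v1, v2 - 1)
    (ne1 _ _ (by omega))
    (by crn) (by crn)
    (by crn) (by crn)
  have e45 := step ((v1, v2 - 1), true) ((v1, v2 - 1), false) (v1 + 1, v2 - 1)
    (ne1 _ _ (by omega))
    (by crn) (by crn)
    (by crn) (by crn)
  rw [mem_corners_iff] at h1 h2
  simp only at h1 h2
  have hall : ∀ s : Tri, s = ((v1, v2), true) ∨ s = ((v1 - 1, v2), false) ∨
      s = ((v1 - 1, v2), true) ∨ s = ((v1 - 1, v2 - 1), false) ∨ s = ((v1, v2 - 1), true) ∨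
      s = ((v1, v2 - 1), false) → (s ∈ T ↔ (((v1, v2), true) : Tri) ∈ T) := by
    rintro s (rfl | rfl | rfl | rfl | rfl | rfl)
    · exact Iff.rfl
    · exact e01.symm
    · exact (e01.trans e12).symm
    · exact ((e01.trans e12).trans e23).symm
    · exact (((e01.trans e12).trans e23).trans e34).symm
    · exact ((((e01.trans e12).trans e23).trans e34).trans e45).symm
  exact ht' ((hall t' h2).2 ((hall t h1).1 ht))

/-- positions -/
theorem centre_mem_tri {δ : ℝ} {t : Tri} {v : ℤ × ℤ} (hv : v ∈ corners t) :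
    centre δ v ∈ triRegion δ t :=
  subset_convexHull ℝ _ ⟨v, hv, rfl⟩

theorem openTri_subset_polygon {δ : ℝ} (hδ : 0 < δ) {T : Finset Tri} {t : Tri} (ht : t ∈ T) :
    openTri δ t ⊆ polygon δ T :=
  interior_maximal ((openTri_subset hδ t).trans (subset_biUnion_of_mem (u := fun t => triRegion δ t)
    (show t ∈ (T : Set Tri) from ht))) (isOpen_openTri δ t)

/-- an open triangle which meets the polygon is one of its triangles -/
theorem mem_of_meets {δ : ℝ} (hδ : 0 < δ) {T : Finset Tri} {t : Tri} {z : ℂ}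
    (hz : z ∈ triRegion δ t) (hz' : z ∈ polygon δ T) : t ∈ T := by
  obtain ⟨w, hw1, hw2⟩ := mem_closure_iff.1 (tri_subset_closure hδ t hz) _ isOpen_interior hz'
  obtain ⟨s, hs, hs'⟩ := mem_iUnion₂.1 (interior_subset hw1)
  rw [← open_unique hδ hw2 hs']
  exact hs

/-- the lattice point `v` is in the open polygon iff all triangles around it are in `T` -/
theorem centre_mem_polygon {δ : ℝ} (hδ : 0 < δ) (T : Finset Tri) (v : ℤ × ℤ) :
    centre δ v ∈ polygon δ T ↔ ∀ t, v ∈ corners t → t ∈ T := by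
  constructor
  · intro h t ht
    exact mem_of_meets hδ (centre_mem_tri ht) h
  · intro h
    have ha := continuous_ca δ
    have hb := continuous_cb δ
    set O : Set ℂ := {z | |ca δ z - v.1| < 1} ∩ ({z | |cb δ z - v.2| < 1} ∩
      {z | |ca δ z - v.1 + (cb δ z - v.2)| < 1}) with hO
    have hOo : IsOpen O :=
      (isOpen_lt (ha.sub continuous_const).abs continuous_const).inter
      ((isOpen_lt (hb.sub continuous_const).abs continuous_const).inter
        (isOpen_lt ((ha.sub continuous_const).add (hb.sub continuous_const)).abs continuous_const))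
    have hsub : O ⊆ ⋃ t ∈ T, triRegion δ t := by
      rintro z ⟨h1, h2, h3⟩
      obtain ⟨v1, v2⟩ := v
      simp only [mem_ofPred_eq, abs_lt] at h1 h2 h3
      have hin : ∀ t : Tri, (v1, v2) ∈ corners t → z ∈ triRegion δ t →
          z ∈ ⋃ t ∈ T, triRegion δ t := fun t ht hz => mem_iUnion₂.2 ⟨t, h t ht, hz⟩
      rcases le_total 0 (ca δ z - v1) with hx | hx <;>
      rcases le_total 0 (cb δ z - v2) with hy | hy <;>
      rcases le_total 0 (ca δ z - v1 + (cb δ z - v2)) with hxy | hxy
      · apply hin ((v1, v2), true) (by crn)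
        rw [mem_tri_true hδ]; push_cast; refine ⟨?_, ?_, ?_⟩ <;> linarith
      · apply hin ((v1, v2), true) (by crn)
        rw [mem_tri_true hδ]; push_cast; refine ⟨?_, ?_, ?_⟩ <;> linarith
      · apply hin ((v1, v2 - 1), false) (by crn)
        rw [mem_tri_false hδ]; push_cast; refine ⟨?_, ?_, ?_⟩ <;> linarith
      · apply hin ((v1, v2 - 1), true) (by crn)
        rw [mem_tri_true hδ]; push_cast; refine ⟨?_, ?_, ?_⟩ <;> linarith
      · apply hin ((v1 - 1, v2), false) (by crn)
        rw [mem_tri_false hδ]; push_cast; refine ⟨?_, ?_, ?_⟩ <;> linarith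
      · apply hin ((v1 - 1, v2), true) (by crn)
        rw [mem_tri_true hδ]; push_cast; refine ⟨?_, ?_, ?_⟩ <;> linarith
      · apply hin ((v1 - 1, v2 - 1), false) (by crn)
        rw [mem_tri_false hδ]; push_cast; refine ⟨?_, ?_, ?_⟩ <;> linarith
      · apply hin ((v1 - 1, v2 - 1), false) (by crn)
        rw [mem_tri_false hδ]; push_cast; refine ⟨?_, ?_, ?_⟩ <;> linarith
    refine interior_maximal hsub hOo ⟨?_, ?_, ?_⟩
    · simp only [mem_ofPred_eq, ca_centre hδ, sub_self, abs_zero]; norm_num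
    · simp only [mem_ofPred_eq, cb_centre hδ, sub_self, abs_zero]; norm_num
    · simp only [mem_ofPred_eq, ca_centre hδ, cb_centre hδ, sub_self, add_zero, abs_zero]; norm_num

theorem mem_verts_iff {T : Finset Tri} {v : ℤ × ℤ} : v ∈ verts T ↔ ∃ t ∈ T, v ∈ corners t := by
  rw [verts, Finset.mem_biUnion]

/-- the lattice points of the open polygon are vertices -/
theorem mem_verts_of_polygon {δ : ℝ} (hδ : 0 < δ) {T : Finset Tri} {v : ℤ × ℤ}
    (h : centre δ v ∈ polygon δ T) : v ∈ verts T := by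
  rw [centre_mem_polygon hδ] at h
  rw [mem_verts_iff]
  have h1 : v ∈ corners (v, true) := by rw [mem_corners_true]; simp
  exact ⟨_, h _ h1, h1⟩

/-- boundary vertices = vertices which are not in the open polygon -/
theorem isBoundaryVertex_iff {δ : ℝ} (hδ : 0 < δ) (T : Finset Tri) (v : ℤ × ℤ) :
    IsBoundaryVertex T v ↔ v ∈ verts T ∧ centre δ v ∉ polygon δ T := by
  constructor
  · intro h
    obtain ⟨t, ht, t', ht', h1, h2⟩ := bdryVertex_sides h
    refine ⟨mem_verts_iff.2 ⟨t, ht, h1⟩, fun h3 => ht' ?_⟩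
    exact (centre_mem_polygon hδ T v).1 h3 t' h2
  · rintro ⟨h1, h2⟩
    obtain ⟨t, ht, ht1⟩ := mem_verts_iff.1 h1
    rw [centre_mem_polygon hδ] at h2
    push Not at h2
    obtain ⟨t', ht', ht''⟩ := h2
    exact bdryVertex_of ht ht'' ht1 ht'

/-- boundary vertices sit on the frontier of the polygon -/
theorem centre_mem_frontier {δ : ℝ} (hδ : 0 < δ) {T : Finset Tri} {v : ℤ × ℤ}
    (h : IsBoundaryVertex T v) : centre δ v ∈ frontier (polygon δ T) := by
  obtain ⟨h1, h2⟩ := (isBoundaryVertex_iff hδ T v).1 h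
  obtain ⟨t, ht, ht1⟩ := mem_verts_iff.1 h1
  have hop : IsOpen (polygon δ T) := isOpen_interior
  rw [frontier, hop.interior_eq]
  exact ⟨closure_mono (openTri_subset_polygon hδ ht) (tri_subset_closure hδ t (centre_mem_tri ht1)),
    h2⟩

/-- the midpoint of a boundary edge is not a lattice point -/
theorem midpoint_ne_centre {δ : ℝ} (hδ : 0 < δ) {T : Finset Tri} {e : (ℤ × ℤ) × (ℤ × ℤ)}
    (h : IsBoundaryEdge T e) (v : ℤ × ℤ) : edgeMidpoint δ e ≠ centre δ v := by
  obtain ⟨x, y⟩ := e
  obtain ⟨hne, t, ht, -, -, h1, h2, -⟩ := bdryEdge_sides h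
  have hadj := Crest.Agent.R144.It844.corner_adj t h1 h2 hne
  intro heq
  have e1 : edgeMidpoint δ (x, y) = cen δ (((x.1 : ℝ) + y.1) / 2) (((x.2 : ℝ) + y.2) / 2) := by
    unfold edgeMidpoint
    rw [centre_eq, centre_eq]
    unfold cen
    push_cast
    ring
  rw [e1, centre_eq] at heq
  have a1 := congrArg (ca δ) heq
  have a2 := congrArg (cb δ) heq
  rw [ca_cen hδ, ca_cen hδ] at a1
  rw [cb_cen hδ, cb_cen hδ] at a2
  have b1 : (x.1 : ℝ) + y.1 = 2 * v.1 := by linarith
  have b2 : (x.2 : ℝ) + y.2 = 2 * v.2 := by linarith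
  have c1 : x.1 + y.1 = 2 * v.1 := by exact_mod_cast b1
  have c2 : x.2 + y.2 = 2 * v.2 := by exact_mod_cast b2
  unfold Adj at hadj
  omega

/-! ### marked approximations -/

section marked

variable {γ : ℝ → ℂ} {θ : ℝ} {δ : ℕ → ℝ} {T : ℕ → Finset Tri}
  {ea eb : ℕ → (ℤ × ℤ) × (ℤ × ℤ)} {c : ℕ → ℝ → ℂ}

theorem marked_cur (h : IsMarkedApprox γ θ δ T ea eb c) (n : ℕ) : Cur (c n) :=
  ⟨(h.2.2.2.1 n).1, (h.2.2.2.1 n).2.1⟩

theorem marked_range (h : IsMarkedApprox γ θ δ T ea eb c) (n : ℕ) :
    range (c n) = frontier (polygon (δ n) (T n)) := (h.2.2.2.1 n).2.2.2.1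

/-- every boundary vertex is on one of the two arcs -/
theorem arcs_cover (h : IsMarkedApprox γ θ δ T ea eb c) (n : ℕ) {v : ℤ × ℤ}
    (hv : IsBoundaryVertex (T n) v) :
    v ∈ arcPlus (δ n) (T n) (c n) θ ∨ v ∈ arcMinus (δ n) (T n) (c n) θ := by
  have hδ := h.1 n
  have h1 := centre_mem_frontier hδ hv
  rw [← marked_range h n] at h1
  obtain ⟨s, hs⟩ := h1
  obtain ⟨t, ht, hts⟩ := (marked_cur h n).exists_Ico s
  rw [hs] at hts
  obtain ⟨he1, he2, -⟩ := h.2.2.1 n
  have h0 : t ≠ 0 := by
    rintro rfl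
    rw [(h.2.2.2.1 n).2.2.2.2.1] at hts
    exact midpoint_ne_centre hδ he1 v hts
  have hθ : t ≠ θ := by
    rintro rfl
    rw [(h.2.2.2.1 n).2.2.2.2.2] at hts
    exact midpoint_ne_centre hδ he2 v hts
  have h2 : 0 < t := lt_of_le_of_ne ht.1 h0.symm
  rcases lt_or_gt_of_ne hθ with h3 | h3
  · exact Or.inl ⟨hv, t, h2, h3, hts⟩
  · exact Or.inr ⟨hv, t, h3, ht.2, hts⟩

/-- the two arcs are disjoint (`0 < θ < 2π`) -/
theorem arcs_disj (h : IsMarkedApprox γ θ δ T ea eb c) (h0 : 0 < θ) (h1 : θ < 2 * Real.pi) (n : ℕ)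
    {v : ℤ × ℤ} (hv : v ∈ arcPlus (δ n) (T n) (c n) θ) : v ∉ arcMinus (δ n) (T n) (c n) θ := by
  rintro ⟨-, s, hs1, hs2, hs3⟩
  obtain ⟨-, t, ht1, ht2, ht3⟩ := hv
  have := (h.2.2.2.1 n).2.2.1 (⟨by linarith, hs2⟩ : s ∈ Ico 0 (2 * Real.pi))
    (⟨ht1.le, by linarith⟩ : t ∈ Ico 0 (2 * Real.pi)) (hs3.trans ht3.symm)
  linarith

/-- the free vertices are the lattice points of the open polygon -/
theorem mem_free_iff (h : IsMarkedApprox γ θ δ T ea eb c) (n : ℕ) (v : ℤ × ℤ) :
    v ∈ freeVerts (T n) (arcPlus (δ n) (T n) (c n) θ) (arcMinus (δ n) (T n) (c n) θ) ↔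
      centre (δ n) v ∈ polygon (δ n) (T n) := by
  have hδ := h.1 n
  rw [Crest.Agent.R144.Ham560.mem_freeVerts']
  constructor
  · rintro ⟨h1, h2, h3⟩
    by_contra h4
    rcases arcs_cover h n ((isBoundaryVertex_iff hδ (T n) v).2 ⟨h1, h4⟩) with h5 | h5
    · exact h2 h5
    · exact h3 h5
  · intro h1
    refine ⟨mem_verts_of_polygon hδ h1, fun h2 => ?_, fun h2 => ?_⟩
    · exact ((isBoundaryVertex_iff hδ (T n) v).1 h2.1).2 h1
    · exact ((isBoundaryVertex_iff hδ (T n) v).1 h2.1).2 h1

/-- all neighbours of a lattice point of the open polygon are joined to it -/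
theorem isEdge_of_adj {δ : ℝ} (hδ : 0 < δ) {T : Finset Tri} {v w : ℤ × ℤ}
    (hv : centre δ v ∈ polygon δ T) (hw : Adj v w) : IsEdge T v w := by
  rw [centre_mem_polygon hδ] at hv
  obtain ⟨v1, v2⟩ := v
  obtain ⟨w1, w2⟩ := w
  unfold Adj at hw
  simp only at hw
  refine ⟨fun h => ?_, ?_⟩
  · rw [Prod.mk.injEq] at h
    omega
  · rcases hw with h | h | h | h | h | h
    · refine ⟨((v1, v2), true), hv _ (by crn), (by crn), ?_⟩
      rw [mem_corners_true]; simp only; omega
    · refine ⟨((v1 - 1, v2), true), hv _ (by crn), (by crn), ?_⟩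
      rw [mem_corners_true]; simp only; omega
    · refine ⟨((v1, v2), true), hv _ (by crn), (by crn), ?_⟩
      rw [mem_corners_true]; simp only; omega
    · refine ⟨((v1, v2 - 1), true), hv _ (by crn), (by crn), ?_⟩
      rw [mem_corners_true]; simp only; omega
    · refine ⟨((v1, v2 - 1), true), hv _ (by crn), (by crn), ?_⟩
      rw [mem_corners_true]; simp only; omega
    · refine ⟨((v1 - 1, v2), true), hv _ (by crn), (by crn), ?_⟩
      rw [mem_corners_true]; simp only; omega

/-- (T3) `FreeSet` for every marked approximation -/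
theorem freeSet (h : IsMarkedApprox γ θ δ T ea eb c) (h0 : 0 < θ) (h1 : θ < 2 * Real.pi) (n : ℕ) :
    Crest.Agent.R144.It844.FreeSet (T n) (arcPlus (δ n) (T n) (c n) θ)
      (arcMinus (δ n) (T n) (c n) θ)
      (freeVerts (T n) (arcPlus (δ n) (T n) (c n) θ) (arcMinus (δ n) (T n) (c n) θ)) where
  vert := fun v hv => (Crest.Agent.R144.Ham560.mem_freeVerts'.1 hv).1
  nAp := fun v hv => (Crest.Agent.R144.Ham560.mem_freeVerts'.1 hv).2.1
  nAm := fun v hv => (Crest.Agent.R144.Ham560.mem_freeVerts'.1 hv).2.2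
  cover := fun v hv hv' => by
    by_contra h2
    push Not at h2
    exact hv' (Crest.Agent.R144.Ham560.mem_freeVerts'.2 ⟨hv, h2.1, h2.2⟩)
  disj := fun v _ hv => arcs_disj h h0 h1 n hv
  nbr := fun v hv w hw => isEdge_of_adj (h.1 n) ((mem_free_iff h n v).1 hv) hw

/-- a finite set of lattice points, all of whose points are joined to their neighbours, is joined
to its outside -/
theorem anch_of {T : Finset Tri} {F : Finset (ℤ × ℤ)}
    (hF : ∀ v ∈ F, ∀ w, Adj v w → IsEdge T v w) :
    Crest.Agent.R144.Ham560.Anch F (Crest.Agent.R144.Ham560.triE T) := by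
  intro v hv
  obtain ⟨v1, v2⟩ := v
  -- the first exit to the right
  have hex : ∃ k : ℕ, ((v1 + k, v2) : ℤ × ℤ) ∉ F := by
    by_contra hcon
    push Not at hcon
    have hinj : Function.Injective fun k : ℕ => ((v1 + k, v2) : ℤ × ℤ) := by
      intro a b hab
      simp only [Prod.mk.injEq, and_true] at hab
      omega
    exact (Set.infinite_range_of_injective hinj)
      (F.finite_toSet.subset (by rintro _ ⟨k, rfl⟩; exact hcon k))
  classical
  obtain ⟨k, hk, hmin⟩ : ∃ k : ℕ, ((v1 + k, v2) : ℤ × ℤ) ∉ F ∧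
      ∀ j < k, ((v1 + j, v2) : ℤ × ℤ) ∈ F :=
    ⟨Nat.find hex, Nat.find_spec hex, fun j hj => by
      have := Nat.find_min hex hj
      rwa [not_not] at this⟩
  refine ⟨(v1 + k, v2), hk, ?_⟩
  have hpath : ∀ j ≤ k, Relation.ReflTransGen
      (fun a b => b ∈ Crest.Agent.R144.Ham560.nbr (Crest.Agent.R144.Ham560.triE T) a)
      (v1, v2) (v1 + j, v2) := by
    intro j
    induction j with
    | zero => intro _; simp only [Nat.cast_zero, add_zero]; exact Relation.ReflTransGen.refl
    | succ j ih =>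
      intro hj
      refine (ih (by omega)).tail ?_
      rw [Crest.Agent.R144.Ham560.mem_nbr_triE]
      apply hF _ (hmin j (by omega))
      unfold Adj
      left
      push_cast
      constructor <;> ring
  exact hpath k le_rfl

/-- (T3) `Anch` for every marked approximation -/
theorem anch (h : IsMarkedApprox γ θ δ T ea eb c) (n : ℕ) :
    Crest.Agent.R144.Ham560.Anch
      (freeVerts (T n) (arcPlus (δ n) (T n) (c n) θ) (arcMinus (δ n) (T n) (c n) θ))
      (Crest.Agent.R144.Ham560.triE (T n)) :=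
  anch_of fun v hv w hw => isEdge_of_adj (h.1 n) ((mem_free_iff h n v).1 hv) hw

end marked

end Crest.Agent.R144.Geo268
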