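import Mathlib
import Crest.Prelude.Def_TriHeights
import Crest.Agent.R144.Tilt5_714
import Crest.Agent.R144.Geo5_268

/-!
# R144 (S0197), top glue (helper144)

`Inst` = all the data of `Tilt714.VarAsymp` in one structure (amplitude, marked domain, chart,
approximation, test function), with `I.Fr n`, `I.Ed n`, `I.xi n`, `I.X n` (the affine pairing as a
function of the free coordinates), `I.P n s` (the tilted law) and `I.g` (the Green form).

`I.Good s`: the admissible sources (the hypotheses `hv`, `hs` of `Tilt3_714`).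

`UpperB u`, `LowerB l`: the one-sided variance bounds; `AprB`: the a-priori bound.

`s0197_of_blocks`: the literal statement S0197 from the block outputs POS, UP, LO, KAP, APR of the
chain table (doc "R144 S0197 CHAIN v1").
-/

set_option autoImplicit false

namespace Crest.Agent.R144.Skel144

open Filter Topology Metric MeasureTheory ProbabilityTheory
open Crest.ProbabilityR.TriHeights Crest.Agent.R144.Ham560 Crest.Agent.R144.Tilt714
open scoped NNReal ENNReal Real ContDiff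

/-- an admissible instance of S0197 -/
structure Inst where
  a : ℝ
  ha0 : 0 < a
  ha1 : a ≤ 1 / 2
  D : Set ℂ
  γ : ℝ → ℂ
  θ : ℝ
  φ : ℂ → ℂ
  hD : IsSmoothMarkedDomain D γ θ
  hφ : DifferentiableOn ℂ φ D
  hbij : Set.BijOn φ D (Metric.ball (0 : ℂ) 1)
  δ : ℕ → ℝ
  T : ℕ → Finset Tri
  ea : ℕ → (ℤ × ℤ) × (ℤ × ℤ)
  eb : ℕ → (ℤ × ℤ) × (ℤ × ℤ)
  c : ℕ → ℝ → ℂ
  hM : IsMarkedApprox γ θ δ T ea eb c
  f : ℂ → ℝ
  hf : ContDiff ℝ ∞ f
  hfc : HasCompactSupport f
  hfs : tsupport f ⊆ D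

namespace Inst

variable (I : Inst) (n : ℕ)

/-- the plus arc -/
abbrev Ap : Set (ℤ × ℤ) := arcPlus (I.δ n) (I.T n) (I.c n) I.θ

/-- the minus arc -/
abbrev Am : Set (ℤ × ℤ) := arcMinus (I.δ n) (I.T n) (I.c n) I.θ

/-- the free vertices -/
noncomputable abbrev Fr : Finset (ℤ × ℤ) := freeVerts (I.T n) (I.Ap n) (I.Am n)

/-- the edges -/
noncomputable abbrev Ed : Finset ((ℤ × ℤ) × (ℤ × ℤ)) := triE (I.T n)

/-- the boundary data -/
noncomputable abbrev xi : ℤ × ℤ → ℝ := triXi (I.Ap n) (I.Am n) I.a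

/-- the linear statistic -/
noncomputable abbrev X : (I.Fr n → ℝ) → ℝ := pairX (I.δ n) (I.T n) (I.Ap n) (I.Am n) I.a I.f

/-- the untilted law -/
noncomputable abbrev P0 : Measure (I.Fr n → ℝ) := hamP (I.Fr n) (I.Ed n) (I.xi n)

/-- the law tilted by `s * X` -/
noncomputable abbrev P (s : ℝ) : Measure (I.Fr n → ℝ) := (I.P0 n).tilted (s * I.X n ·)

/-- the Green form of the test function -/
noncomputable abbrev g : ℝ := Crest.ProbabilityR.HexHeights.domainGreenForm I.φ I.f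

/-- admissible sources -/
def Good (s : ℝ) : Prop :=
  ∃ A : ℝ, 0 < A ∧ (∀ᶠ n in atTop, 9 * Var[I.X n; I.P0 n] ≤ A ^ 2) ∧ |s| ≤ 1 / (4 * A)

lemma abs_xi_le (u : ℤ × ℤ) : |I.xi n u| ≤ 1 / 2 :=
  (abs_triXi_le I.ha0.le u).trans I.ha1

lemma arcs_disj (v : ℤ × ℤ) (hv : v ∈ I.Ap n) : v ∉ I.Am n :=
  Geo268.arcs_disj I.hM I.hD.2.2.2.2.2.2.2.2.1 I.hD.2.2.2.2.2.2.2.2.2 n hv

lemma anch : Anch (I.Fr n) (I.Ed n) := Geo268.anch I.hM n

instance isProb : IsProbabilityMeasure (I.P0 n) :=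
  isProbabilityMeasure_hamP (I.anch n) (I.abs_xi_le n)

lemma continuous_X : Continuous (I.X n) := pairX_continuous _ _ _ _ _ _

lemma isCompact_ham : IsCompact (ham (I.Fr n) (I.Ed n) (I.xi n)) := Ham560.isCompact_ham (I.anch n)

end Inst

/-- upper variance bound -/
def UpperB (u : ℝ) : Prop :=
  ∀ I : Inst, ∀ s : ℝ, I.Good s → ∀ ε : ℝ, 0 < ε →
    ∀ᶠ n in atTop, Var[I.X n; I.P n s] ≤ u * I.g + ε

/-- lower variance bound -/
def LowerB (l : ℝ) : Prop :=
  ∀ I : Inst, ∀ s : ℝ, I.Good s → ∀ ε : ℝ, 0 < ε →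
    ∀ᶠ n in atTop, l * I.g - ε ≤ Var[I.X n; I.P n s]

/-- a-priori variance bound -/
def AprB : Prop := ∀ I : Inst, ∃ A : ℝ, 0 < A ∧ ∀ᶠ n in atTop, 9 * Var[I.X n; I.P0 n] ≤ A ^ 2

lemma good_zero (hA : AprB) (I : Inst) : I.Good 0 := by
  obtain ⟨A, hA0, hA1⟩ := hA I
  exact ⟨A, hA0, hA1, by rw [abs_zero]; positivity⟩

/-- the Green form is nonnegative as soon as there is one upper bound -/
lemma g_nonneg {u : ℝ} (hu : 0 < u) (hU : UpperB u) (hA : AprB) (I : Inst) : 0 ≤ I.g := by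
  by_contra hg
  push Not at hg
  have h1 := hU I 0 (good_zero hA I) (-(u * I.g) / 2) (by nlinarith [mul_neg_of_pos_of_neg hu hg])
  obtain ⟨n, hn⟩ := h1.exists
  have h2 : 0 ≤ Var[I.X n; I.P n 0] := variance_nonneg _ _
  nlinarith [mul_neg_of_pos_of_neg hu hg]

/-- `VarAsymp` in terms of `Inst` -/
theorem varAsymp_of {κ : ℝ} (hA : AprB)
    (h : ∀ I : Inst, ∀ s : ℝ, I.Good s → Tendsto (fun n => Var[I.X n; I.P n s]) atTop
      (𝓝 (κ * I.g))) : VarAsymp κ := by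
  intro a ha0 ha1 D γ θ φ hD hφ hbij δ T ea eb c hM f hf hfc hfs
  set I : Inst := ⟨a, ha0, ha1, D, γ, θ, φ, hD, hφ, hbij, δ, T, ea, eb, c, hM, f, hf, hfc, hfs⟩
    with hI
  refine ⟨Eventually.of_forall fun n v hv => I.arcs_disj n v hv,
    Eventually.of_forall fun n => I.anch n, ?_⟩
  obtain ⟨A, hA0, hA1⟩ := hA I
  refine ⟨1 / (4 * A), by positivity, fun s hs => ?_⟩
  exact h I s ⟨A, hA0, hA1, hs.le⟩

/-- `LowerB l` and `UpperB u` at an instance with positive Green form -/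
lemma lower_le_upper {l u : ℝ} (hL : LowerB l) (hU : UpperB u) (hA : AprB) {I : Inst}
    (hg : 0 < I.g) : l ≤ u := by
  by_contra hlu
  push Not at hlu
  have hd : 0 < (l - u) * I.g := mul_pos (by linarith) hg
  have h1 := hL I 0 (good_zero hA I) ((l - u) * I.g / 3) (by linarith)
  have h2 := hU I 0 (good_zero hA I) ((l - u) * I.g / 3) (by linarith)
  obtain ⟨n, hn1, hn2⟩ := (h1.and h2).exists
  nlinarith

/-- **the constant** (and `VarAsymp`): from the one-sided bounds at every scale -/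
theorem exists_kappa (ab : ℕ → ℝ → ℝ) {c0 : ℝ} (hc0 : 0 < c0) (er : ℕ → ℝ) (r0 : ℕ)
    (her0 : ∀ r, r0 ≤ r → 0 < er r) (her : Tendsto er atTop (𝓝 0))
    {B : ℝ} (hPos : ∀ r, r0 ≤ r → ∀ L, ab r L ≤ B)
    (hUp : ∀ r, r0 ≤ r → ∀ L, 0 < ab r L → UpperB (c0 / ab r L))
    (hLo : ∀ r, r0 ≤ r → ∀ b, 0 ≤ b → (∀ L, ab r L ≤ b) → LowerB (c0 / (b + er r)))
    (hKap : ∀ r, r0 ≤ r → ∀ b, 0 ≤ b → (∀ L, ab r L ≤ b) → c0 / (b + er r) ≤ 2 / π)
    (hApr : AprB) : ∃ κ : ℝ, 0 < κ ∧ κ ≤ 2 / π ∧ VarAsymp κ := by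
  have hπ : 0 < π := Real.pi_pos
  -- the scalar at scale `r`
  set b : ℕ → ℝ := fun r => max 0 (⨆ L, ab r L) with hb
  have hbdd : ∀ r, r0 ≤ r → BddAbove (Set.range (ab r)) := fun r hr =>
    ⟨B, by rintro _ ⟨L, rfl⟩; exact hPos r hr L⟩
  have hb0 : ∀ r, 0 ≤ b r := fun r => le_max_left _ _
  have hbL : ∀ r, r0 ≤ r → ∀ L, ab r L ≤ b r := fun r hr L =>
    (le_ciSup (hbdd r hr) L).trans (le_max_right _ _)
  have hbe : ∀ r, r0 ≤ r → 0 < b r + er r := fun r hr => by linarith [hb0 r, her0 r hr]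
  have hlow : ∀ r, r0 ≤ r → c0 * π / 2 ≤ b r + er r := by
    intro r hr
    have h1 := hKap r hr (b r) (hb0 r) (hbL r hr)
    rw [div_le_div_iff₀ (hbe r hr) hπ] at h1
    linarith
  have hc1 : 0 < c0 * π / 2 := by positivity
  -- good values of the truncation parameter
  have hgood : ∀ η : ℝ, 0 < η → ∃ r1, r0 ≤ r1 ∧ ∀ r, r1 ≤ r → er r < η := by
    intro η hη
    have h1 : ∀ᶠ r in atTop, er r < η := (tendsto_order.mp her).2 η hη
    obtain ⟨r1, hr1⟩ := eventually_atTop.mp (h1.and (eventually_ge_atTop r0))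
    exact ⟨max r1 r0, le_max_right _ _, fun r hr => (hr1 r ((le_max_left _ _).trans hr)).1⟩
  have hsup : ∀ r, r0 ≤ r → ∀ η : ℝ, 0 < η → er r < c0 * π / 2 → ∃ L, b r - η < ab r L := by
    intro r hr η hη he
    have h1 : 0 < b r := by linarith [hlow r hr]
    have h2 : b r = ⨆ L, ab r L := by
      rcases max_choice (0 : ℝ) (⨆ L, ab r L) with h | h
      · exact absurd (show b r = 0 from h) h1.ne'
      · exact h
    have h3 : b r - η < ⨆ L, ab r L := by rw [← h2]; linarith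
    exact exists_lt_of_lt_ciSup h3
  obtain ⟨r1, hr1, hr1'⟩ := hgood (c0 * π / 4) (by positivity)
  -- one finite upper bound
  obtain ⟨L1, hL1⟩ := hsup r1 hr1 (c0 * π / 4) (by positivity) (by linarith [hr1' r1 le_rfl])
  have hab1 : 0 < ab r1 L1 := by linarith [hlow r1 hr1, hr1' r1 le_rfl]
  have hgn : ∀ I : Inst, 0 ≤ I.g := g_nonneg (by positivity) (hUp r1 hr1 L1 hab1) hApr
  by_cases hex : ∃ I : Inst, 0 < I.g
  · obtain ⟨I0, hI0⟩ := hex
    -- comparison of the scales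
    have hcmp : ∀ r, r0 ≤ r → ∀ r', r0 ≤ r' → ∀ L, ab r' L ≤ b r + er r := by
      intro r hr r' hr' L
      by_cases h : 0 < ab r' L
      · have h1 := lower_le_upper (hLo r hr (b r) (hb0 r) (hbL r hr)) (hUp r' hr' L h) hApr hI0
        rw [div_le_div_iff₀ (hbe r hr) h] at h1
        have h2 : c0 * ab r' L ≤ c0 * (b r + er r) := by linarith
        exact le_of_mul_le_mul_left h2 hc0
      · linarith [hbe r hr]
    have hcmp' : ∀ r, r0 ≤ r → ∀ r', r0 ≤ r' → b r' ≤ b r + er r := by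
      intro r hr r' hr'
      refine max_le (hbe r hr).le ?_
      exact ciSup_le fun L => hcmp r hr r' hr' L
    set β : ℝ := sInf {x | ∃ r, r0 ≤ r ∧ x = b r + er r} with hβ
    have hne : {x | ∃ r, r0 ≤ r ∧ x = b r + er r}.Nonempty := ⟨_, r0, le_rfl, rfl⟩
    have hbb : BddBelow {x | ∃ r, r0 ≤ r ∧ x = b r + er r} :=
      ⟨c0 * π / 2, by rintro _ ⟨r, hr, rfl⟩; exact hlow r hr⟩
    have hβ0 : c0 * π / 2 ≤ β := le_csInf hne (by rintro _ ⟨r, hr, rfl⟩; exact hlow r hr)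
    have hβ1 : ∀ r, r0 ≤ r → b r ≤ β := fun r hr =>
      le_csInf hne (by rintro _ ⟨r', hr', rfl⟩; exact hcmp' r' hr' r hr)
    have hβ2 : ∀ r, r0 ≤ r → β ≤ b r + er r := fun r hr => csInf_le hbb ⟨r, hr, rfl⟩
    have hβp : 0 < β := lt_of_lt_of_le hc1 hβ0
    refine ⟨c0 / β, by positivity, ?_, varAsymp_of hApr ?_⟩
    · rw [div_le_div_iff₀ hβp hπ]; linarith
    · intro I s hs
      rw [Metric.tendsto_atTop']
      intro ε hε
      -- choice of the scale
      set G : ℝ := I.g with hG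
      have hG0 : 0 ≤ G := hgn I
      -- continuity of `x ↦ c0 / x * G` at `β`
      have hcont : Tendsto (fun x : ℝ => c0 / x * G) (𝓝 β) (𝓝 (c0 / β * G)) :=
        ((tendsto_const_nhds.div tendsto_id hβp.ne').mul_const G)
      obtain ⟨η, hη, hη'⟩ := Metric.tendsto_nhds_nhds.mp hcont (ε / 2) (by positivity)
      set η1 : ℝ := min (η / 4) (min (β / 4) (c0 * π / 4)) with hη1
      have hη10 : 0 < η1 := lt_min (by positivity) (lt_min (by positivity) (by positivity))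
      have e1 : η1 ≤ η / 4 := min_le_left _ _
      have e2 : η1 ≤ β / 4 := (min_le_right _ _).trans (min_le_left _ _)
      have e3 : η1 ≤ c0 * π / 4 := (min_le_right _ _).trans (min_le_right _ _)
      obtain ⟨r, hr, hr'⟩ := hgood η1 hη10
      have her' := hr' r le_rfl
      obtain ⟨L, hL⟩ := hsup r hr η1 hη10 (by linarith)
      have f1 := hβ1 r hr
      have f2 := hβ2 r hr
      have f3 := hbL r hr L
      have habp : 0 < ab r L := by linarith
      have u1 := hUp r hr L habp I s hs (ε / 2) (by positivity)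
      have u2 := hLo r hr (b r) (hb0 r) (hbL r hr) I s hs (ε / 2) (by positivity)
      have k1 := hη' (x := ab r L) (by
        rw [Real.dist_eq, abs_lt]; constructor <;> linarith)
      have k2 := hη' (x := b r + er r) (by
        rw [Real.dist_eq, abs_lt]; constructor <;> linarith [her0 r hr])
      rw [Real.dist_eq, abs_lt] at k1 k2
      obtain ⟨N, hN⟩ := eventually_atTop.mp (u1.and u2)
      refine ⟨N, fun n hn => ?_⟩
      have := hN n hn.le
      rw [Real.dist_eq, abs_lt]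
      constructor <;> linarith [this.1, this.2, k1.2, k2.1]
  · push Not at hex
    refine ⟨2 / π, by positivity, le_rfl, varAsymp_of hApr ?_⟩
    intro I s hs
    have hg : I.g = 0 := le_antisymm (hex I) (hgn I)
    rw [hg, mul_zero, Metric.tendsto_atTop']
    intro ε hε
    have u1 := hUp r1 hr1 L1 hab1 I s hs (ε / 2) (by positivity)
    obtain ⟨N, hN⟩ := eventually_atTop.mp u1
    refine ⟨N, fun n hn => ?_⟩
    have h1 := hN n hn.le
    rw [hg, mul_zero, zero_add] at h1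
    have h2 : 0 ≤ Var[I.X n; I.P n s] := variance_nonneg _ _
    rw [Real.dist_eq, sub_zero, abs_of_nonneg h2]
    linarith

/-- **S0197 from the block outputs** -/
theorem s0197_of_blocks (ab : ℕ → ℝ → ℝ) {c0 : ℝ} (hc0 : 0 < c0) (er : ℕ → ℝ) (r0 : ℕ)
    (her0 : ∀ r, r0 ≤ r → 0 < er r) (her : Tendsto er atTop (𝓝 0))
    {B : ℝ} (hPos : ∀ r, r0 ≤ r → ∀ L, ab r L ≤ B)
    (hUp : ∀ r, r0 ≤ r → ∀ L, 0 < ab r L → UpperB (c0 / ab r L))
    (hLo : ∀ r, r0 ≤ r → ∀ b, 0 ≤ b → (∀ L, ab r L ≤ b) → LowerB (c0 / (b + er r)))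
    (hKap : ∀ r, r0 ≤ r → ∀ b, 0 ≤ b → (∀ L, ab r L ≤ b) → c0 / (b + er r) ≤ 2 / π)
    (hApr : AprB) :
    ∃ A σ lam : ℝ, 0 < A ∧ 0 < σ ∧ σ ^ 2 = 1 / ((2 / Real.sqrt 3) * A) ∧ 0 < lam ∧
      lam ^ 2 = Real.pi / (8 * (2 / Real.sqrt 3) * A) ∧ lam ≤ 1 / 2 ∧
      ∀ a : ℝ, 0 < a → a ≤ 1 / 2 → ∀ (D : Set ℂ) (γ : ℝ → ℂ) (θ : ℝ) (φ : ℂ → ℂ),
      Crest.ProbabilityR.TriHeights.IsSmoothMarkedDomain D γ θ → DifferentiableOn ℂ φ D →
      Set.BijOn φ D (Metric.ball (0 : ℂ) 1) →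
      ∀ (δ : ℕ → ℝ) (T : ℕ → Finset Crest.ProbabilityR.TriHeights.Tri)
        (ea eb : ℕ → (ℤ × ℤ) × (ℤ × ℤ)) (c : ℕ → ℝ → ℂ),
        Crest.ProbabilityR.TriHeights.IsMarkedApprox γ θ δ T ea eb c →
      ∀ f : ℂ → ℝ, ContDiff ℝ ∞ f → HasCompactSupport f → tsupport f ⊆ D →
        ∀ t : ℝ, Filter.Tendsto (fun n : ℕ => Crest.ProbabilityR.TriHeights.realExpect (T n)
            (Crest.ProbabilityR.TriHeights.arcPlus (δ n) (T n) (c n) θ)
            (Crest.ProbabilityR.TriHeights.arcMinus (δ n) (T n) (c n) θ) a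
            (fun h => Complex.exp (Complex.I *
              (t * (Crest.ProbabilityR.TriHeights.affinePairing (δ n) (T n) f h -
              (Crest.ProbabilityR.TriHeights.realExpect (T n)
                (Crest.ProbabilityR.TriHeights.arcPlus (δ n) (T n) (c n) θ)
                (Crest.ProbabilityR.TriHeights.arcMinus (δ n) (T n) (c n) θ) a
                (fun h' => (Crest.ProbabilityR.TriHeights.affinePairing (δ n) (T n) f h' :
                  ℂ))).re) / σ : ℝ))))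
          Filter.atTop
          (nhds (Complex.exp (-(Crest.ProbabilityR.HexHeights.domainGreenForm φ f * t ^ 2 / 2 : ℝ))))
      := by
  obtain ⟨κ, h1, h2, h3⟩ := exists_kappa ab hc0 er r0 her0 her hPos hUp hLo hKap hApr
  exact s0197_of_varAsymp h1 h2 h3

end Crest.Agent.R144.Skel144
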