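import Mathlib
import Crest.Agent.R144.LC6_121
import Crest.Agent.R144.Skel97_144

/-!
# R144 (helper121): LEMMA LC for the instances of S0197

* `lat_inst`, `card_nbr_le` : the lattice structure of a marked polygon;
* `height_bound` : heights are at most `C / δ`;
* `flat_inst` : away from the two marks the boundary data are constant in boxes of small diameter;
* `lcl`, `lcl_fresh` : joint tightness bound in boxes.
-/

set_option autoImplicit false

open MeasureTheory Set Filter Topology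
open scoped ENNReal

noncomputable section

namespace Crest.Agent.R144.LC121

open Crest.Agent.R144.Ham560 Crest.Agent.R144.LcB460 Crest.Agent.R144.Skel144
open Crest.ProbabilityR.TriHeights Crest.ProbabilityR.HexHeights

/-! ### lattice facts -/

theorem adj_of_isEdge {T : Finset Tri} {x y : ℤ × ℤ} (h : IsEdge T x y) : Adj x y := by
  obtain ⟨hne, t, -, hx, hy⟩ := h
  obtain ⟨⟨u1, u2⟩, b⟩ := t
  obtain ⟨x1, x2⟩ := x
  obtain ⟨y1, y2⟩ := y
  rw [Ne, Prod.mk.injEq] at hne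
  unfold Adj
  cases b
  · rw [Geo268.mem_corners_false] at hx hy
    simp only at hx hy ⊢
    omega
  · rw [Geo268.mem_corners_true] at hx hy
    simp only at hx hy ⊢
    omega

theorem card_nbr_triE (T : Finset Tri) (v : ℤ × ℤ) : (nbr (triE T) v).card ≤ 6 := by
  have hsub : nbr (triE T) v ⊆ {(v.1 + 1, v.2), (v.1 - 1, v.2), (v.1, v.2 + 1), (v.1, v.2 - 1),
      (v.1 + 1, v.2 - 1), (v.1 - 1, v.2 + 1)} := by
    intro w hw
    rw [mem_nbr_triE] at hw
    have h := adj_of_isEdge hw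
    obtain ⟨w1, w2⟩ := w
    unfold Adj at h
    simp only [Finset.mem_insert, Finset.mem_singleton, Prod.mk.injEq] at h ⊢
    omega
  exact (Finset.card_le_card hsub).trans Finset.card_le_six

theorem lat_of {T : Finset Tri} {F : Finset (ℤ × ℤ)}
    (hF : ∀ v ∈ F, ∀ w, Adj v w → IsEdge T v w) : Lat F (triE T) where
  short := by
    intro p hp
    have h := adj_of_isEdge (mem_triE.mp hp)
    unfold Adj at h
    rw [abs_le, abs_le]
    omega
  unit := by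
    intro a ha b hab
    rw [mem_nbr_triE]
    refine hF a ha b ?_
    unfold Adj
    rcases hab with rfl | rfl | rfl | rfl
    · left; constructor <;> simp
    · right; left; constructor <;> simp
    · right; right; left; constructor <;> simp
    · right; right; right; left; constructor <;> simp

theorem dist_centre_le {δ : ℝ} (hδ : 0 ≤ δ) (u v : ℤ × ℤ) :
    dist (centre δ u) (centre δ v) ≤ δ * (|(u.1 : ℝ) - v.1| + |(u.2 : ℝ) - v.2|) := by
  have hω : ‖(1 / 2 : ℂ) + (Real.sqrt 3 / 2 : ℝ) * Complex.I‖ = 1 := by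
    rw [← sq_eq_sq₀ (norm_nonneg _) zero_le_one, ← Complex.normSq_eq_norm_sq, Complex.normSq_apply]
    have h3 : Real.sqrt 3 * Real.sqrt 3 = 3 := Real.mul_self_sqrt (by norm_num)
    simp
    nlinarith
  rw [dist_eq_norm]
  have e : centre δ u - centre δ v = (δ : ℂ) * ((((u.1 : ℝ) - v.1 : ℝ) : ℂ) +
      (((u.2 : ℝ) - v.2 : ℝ) : ℂ) * (1 / 2 + (Real.sqrt 3 / 2 : ℝ) * Complex.I)) := by
    unfold centre
    push_cast
    ring
  rw [e, norm_mul, Complex.norm_real, Real.norm_eq_abs, abs_of_nonneg hδ]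
  refine mul_le_mul_of_nonneg_left ?_ hδ
  refine (norm_add_le _ _).trans ?_
  rw [norm_mul, hω, Complex.norm_real, Complex.norm_real, Real.norm_eq_abs, Real.norm_eq_abs,
    mul_one]

theorem dist_centre_box {δ : ℝ} (hδ : 0 ≤ δ) {z u : ℤ × ℤ} {r : ℕ} (hu : u ∈ box z r) :
    dist (centre δ u) (centre δ z) ≤ 2 * (δ * r) := by
  refine (dist_centre_le hδ u z).trans ?_
  obtain ⟨h1, h2⟩ := mem_box.mp hu
  have h1' : |(u.1 : ℝ) - z.1| ≤ r := by exact_mod_cast h1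
  have h2' : |(u.2 : ℝ) - z.2| ≤ r := by exact_mod_cast h2
  nlinarith

/-! ### boundedness -/

theorem isBounded_polygon (δ : ℝ) (T : Finset Tri) : Bornology.IsBounded (polygon δ T) := by
  refine Bornology.IsBounded.subset ?_ interior_subset
  have : IsCompact (⋃ t ∈ T, triRegion δ t) :=
    T.finite_toSet.isCompact_biUnion fun t _ =>
      (((corners t).finite_toSet.image _).isCompact_convexHull ℝ)
  exact this.isBounded

theorem polygon_bound {D : Set ℂ} {γ : ℝ → ℂ} {θ : ℝ} {δ : ℕ → ℝ} {T : ℕ → Finset Tri}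
    {ea eb : ℕ → (ℤ × ℤ) × (ℤ × ℤ)} {c : ℕ → ℝ → ℂ} (hD : IsSmoothMarkedDomain D γ θ)
    (h : IsMarkedApprox γ θ δ T ea eb c) :
    ∃ M : ℝ, 0 < M ∧ ∀ᶠ n in atTop, ∀ z ∈ polygon (δ n) (T n), ‖z‖ ≤ M := by
  have hγ : Geo268.Cur γ := (Geo268.dom_of_marked hD).reg.cur
  obtain ⟨M, hM⟩ := hγ.exists_bound
  have hM0 : 0 ≤ M := (norm_nonneg _).trans (hM 0).le
  refine ⟨M + 1, by linarith, ?_⟩
  filter_upwards [Metric.tendstoUniformly_iff.1 h.2.2.2.2 1 one_pos] with n hn z hz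
  have hb := isBounded_polygon (δ n) (T n)
  refine Complex.norm_le_of_forall_mem_frontier_norm_le (f := fun z => z) hb
    (differentiable_id (𝕜 := ℂ)).diffContOnCl (fun w hw => ?_) (subset_closure hz)
  rw [← Geo268.marked_range h n] at hw
  obtain ⟨s, rfl⟩ := hw
  have h1 := hn s
  rw [dist_comm, dist_eq_norm] at h1
  have h2 : ‖c n s‖ ≤ ‖c n s - γ s‖ + ‖γ s‖ := norm_le_norm_sub_add _ _
  have := hM s
  linarith

variable (I : Inst)

theorem lat_inst (n : ℕ) : Lat (I.Fr n) (I.Ed n) :=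
  lat_of fun v hv _ hw => Geo268.isEdge_of_adj (I.hM.1 n) ((Geo268.mem_free_iff I.hM n v).1 hv) hw

theorem height_bound : ∃ C : ℝ, 1 ≤ C ∧ ∀ᶠ n in atTop,
    ∀ x ∈ ham (I.Fr n) (I.Ed n) (I.xi n), ∀ u, |Ham560.ext (I.Fr n) (I.xi n) x u| ≤ C / I.δ n := by
  obtain ⟨M, hM0, hM⟩ := polygon_bound I.hD I.hM
  refine ⟨2 * M + 2, by linarith, ?_⟩
  have hδ1 : ∀ᶠ n in atTop, I.δ n < 1 := (tendsto_order.1 I.hM.2.1).2 1 one_pos
  filter_upwards [hM, hδ1] with n hn hδn x hx u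
  have hδ := I.hM.1 n
  have hC : 2 * M / I.δ n + 2 ≤ (2 * M + 2) / I.δ n := by
    rw [add_div]
    have : (2 : ℝ) ≤ 2 / I.δ n := by rw [le_div_iff₀ hδ]; linarith
    linarith
  refine le_trans ?_ hC
  have hpos : 0 ≤ 2 * M / I.δ n := by positivity
  by_cases hu : u ∈ I.Fr n
  swap
  · rw [ext_notMem hu]
    have := I.abs_xi_le n u
    linarith
  -- the first exit to the right
  have hin : ∀ w ∈ I.Fr n, ‖centre (I.δ n) w‖ ≤ M := fun w hw =>
    hn _ ((Geo268.mem_free_iff I.hM n w).1 hw)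
  have hshift : ∀ j : ℕ, centre (I.δ n) (u.1 + j, u.2) = centre (I.δ n) u + ((I.δ n * j : ℝ) : ℂ) := by
    intro j
    unfold centre
    push_cast
    ring
  have hj : ∀ j : ℕ, ((u.1 + j, u.2) : ℤ × ℤ) ∈ I.Fr n → (j : ℝ) ≤ 2 * M / I.δ n := by
    intro j hj
    have h1 := hin _ hj
    have h2 := hin _ hu
    rw [hshift] at h1
    have h3 : ‖((I.δ n * j : ℝ) : ℂ)‖ ≤ 2 * M := by
      calc ‖((I.δ n * j : ℝ) : ℂ)‖ = ‖(centre (I.δ n) u + ((I.δ n * j : ℝ) : ℂ)) - centre (I.δ n) u‖ := by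
            rw [add_sub_cancel_left]
        _ ≤ ‖centre (I.δ n) u + ((I.δ n * j : ℝ) : ℂ)‖ + ‖centre (I.δ n) u‖ := norm_sub_le _ _
        _ ≤ 2 * M := by linarith
    rw [Complex.norm_real, Real.norm_eq_abs, abs_of_nonneg (by positivity)] at h3
    rw [le_div_iff₀ hδ]
    linarith
  have hex : ∃ k : ℕ, ((u.1 + k, u.2) : ℤ × ℤ) ∉ I.Fr n := by
    obtain ⟨k, hk⟩ := exists_nat_gt (2 * M / I.δ n)
    exact ⟨k, fun h => absurd (hj k h) (not_le.2 hk)⟩
  obtain ⟨k, hk, hmin⟩ : ∃ k : ℕ, ((u.1 + k, u.2) : ℤ × ℤ) ∉ I.Fr n ∧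
      ∀ j < k, ((u.1 + j, u.2) : ℤ × ℤ) ∈ I.Fr n := by
    classical
    exact ⟨Nat.find hex, Nat.find_spec hex, fun j hj => by
      have := Nat.find_min hex hj
      rwa [not_not] at this⟩
  have hpath : ∀ j ≤ k, |Ham560.ext (I.Fr n) (I.xi n) x u -
      Ham560.ext (I.Fr n) (I.xi n) x (u.1 + j, u.2)| ≤ j := by
    intro j
    induction j with
    | zero => intro _; simp
    | succ j ih =>
      intro hjk
      have h1 := ih (by omega)
      have h2 : ((u.1 + (j + 1 : ℕ), u.2) : ℤ × ℤ) ∈ nbr (I.Ed n) (u.1 + j, u.2) := by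
        refine (lat_inst I n).unit _ (hmin j (by omega)) _ (Or.inl ?_)
        push_cast
        ext <;> simp; ring
      have h3 := ham_nbr hx h2
      rw [abs_le] at h1 h3 ⊢
      push_cast at h3 ⊢
      constructor <;> linarith
  have h1 := hpath k le_rfl
  rw [ext_notMem hk] at h1
  have h2 := I.abs_xi_le n (u.1 + k, u.2)
  have h3 : (k : ℝ) ≤ 2 * M / I.δ n + 1 := by
    rcases Nat.eq_zero_or_pos k with h | h
    · rw [h]; push_cast; linarith
    · have := hj (k - 1) (hmin (k - 1) (by omega))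
      rw [Nat.cast_sub h] at this
      push_cast at this
      linarith
  rw [abs_le] at h1 h2 ⊢
  constructor <;> linarith

/-! ### constant data away from the marks -/

theorem arcs_apart {D : Set ℂ} {γ : ℝ → ℂ} {θ : ℝ} (hD : IsSmoothMarkedDomain D γ θ) {ε : ℝ}
    (hε : 0 < ε) : ∃ d : ℝ, 0 < d ∧ ∀ s ∈ Icc 0 θ, ∀ t ∈ Icc θ (2 * Real.pi),
      ε ≤ dist (γ s) (γ 0) → ε ≤ dist (γ s) (γ θ) → ε ≤ dist (γ t) (γ 0) → ε ≤ dist (γ t) (γ θ) →
      d ≤ dist (γ s) (γ t) := by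
  obtain ⟨-, -, -, hcd, hper, -, hinj, -, h0, h1⟩ := hD
  have hcont : Continuous γ := hcd.continuous
  set K : Set ℂ := {z | ε ≤ dist z (γ 0) ∧ ε ≤ dist z (γ θ)} with hK
  have hKc : IsClosed K :=
    (isClosed_le continuous_const (continuous_id.dist continuous_const)).inter
      (isClosed_le continuous_const (continuous_id.dist continuous_const))
  set A : Set ℂ := γ '' Icc 0 θ ∩ K with hA
  set B : Set ℂ := γ '' Icc θ (2 * Real.pi) ∩ K with hB
  have hAc : IsCompact A := (isCompact_Icc.image hcont).inter_right hKc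
  have hBc : IsClosed B := ((isCompact_Icc.image hcont).inter_right hKc).isClosed
  have hdisj : Disjoint A B := by
    rw [disjoint_left]
    rintro z ⟨⟨s, hs, rfl⟩, hz1, hz2⟩ ⟨⟨t, ht, hts⟩, -, -⟩
    have hs0 : s ≠ 0 := by
      rintro rfl; rw [dist_self] at hz1; linarith
    have hsθ : s ≠ θ := by
      rintro rfl; rw [dist_self] at hz2; linarith
    have hs' : s ∈ Ico 0 (2 * Real.pi) := ⟨hs.1, lt_of_le_of_lt hs.2 h1⟩
    rcases lt_or_eq_of_le ht.2 with h | h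
    · have := hinj hs' (⟨h0.le.trans ht.1, h⟩ : t ∈ Ico 0 (2 * Real.pi)) hts.symm
      subst this
      exact hsθ (le_antisymm hs.2 ht.1)
    · rw [h] at hts
      have e : γ (2 * Real.pi) = γ 0 := by simpa using hper 0
      rw [e] at hts
      have := hinj hs' (⟨le_rfl, by positivity⟩ : (0 : ℝ) ∈ Ico 0 (2 * Real.pi)) hts.symm
      exact hs0 this
  obtain ⟨d, hd, hdd⟩ := Metric.exists_pos_forall_lt_edist hAc hBc hdisj
  refine ⟨d, by exact_mod_cast hd, fun s hs t ht a1 a2 a3 a4 => ?_⟩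
  have := hdd (γ s) ⟨mem_image_of_mem _ hs, a1, a2⟩ (γ t) ⟨mem_image_of_mem _ ht, a3, a4⟩
  rw [edist_dist] at this
  have h2 : ((d : NNReal) : ℝ) < dist (γ s) (γ t) := by
    rw [← ENNReal.ofReal_coe_nnreal] at this
    exact (ENNReal.ofReal_lt_ofReal_iff_of_nonneg (by positivity)).1 this
  exact h2.le

theorem flat_inst {ε : ℝ} (hε : 0 < ε) : ∃ ρ : ℝ, 0 < ρ ∧ ∀ᶠ n in atTop, ∀ (z : ℤ × ℤ) (r : ℕ),
    I.δ n * r ≤ ρ → ε ≤ dist (centre (I.δ n) z) (I.γ 0) → ε ≤ dist (centre (I.δ n) z) (I.γ I.θ) →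
    ∃ c0 : ℝ, |c0| ≤ 1 / 2 ∧ Flt (I.Fr n) (I.Ed n) (I.xi n) z r c0 := by
  obtain ⟨d, hd, hdd⟩ := arcs_apart I.hD (half_pos hε)
  set η : ℝ := min (ε / 8) (d / 8) with hη
  have hη0 : 0 < η := by positivity
  have hη1 : η ≤ ε / 8 := min_le_left _ _
  have hη2 : η ≤ d / 8 := min_le_right _ _
  refine ⟨η / 2, by positivity, ?_⟩
  filter_upwards [Metric.tendstoUniformly_iff.1 I.hM.2.2.2.2 η hη0] with n hn z r hr hz0 hzθ
  have hδ := I.hM.1 n
  -- a plus site and a minus site cannot both be in the box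
  have key : ∀ u ∈ I.Ap n, ∀ v ∈ I.Am n, u ∈ box z r → v ∈ box z r → False := by
    rintro u ⟨-, s, hs0, hs1, hs⟩ v ⟨-, t, ht0, ht1, ht⟩ hu hv
    have d1 : dist (I.γ s) (centre (I.δ n) z) ≤ 2 * η := by
      have h1 := hn s
      have h2 := dist_centre_box hδ.le hu
      rw [hs] at h1
      calc _ ≤ dist (I.γ s) (centre (I.δ n) u) + dist (centre (I.δ n) u) (centre (I.δ n) z) :=
            dist_triangle _ _ _
        _ ≤ _ := by linarith
    have d2 : dist (I.γ t) (centre (I.δ n) z) ≤ 2 * η := by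
      have h1 := hn t
      have h2 := dist_centre_box hδ.le hv
      rw [ht] at h1
      calc _ ≤ dist (I.γ t) (centre (I.δ n) v) + dist (centre (I.δ n) v) (centre (I.δ n) z) :=
            dist_triangle _ _ _
        _ ≤ _ := by linarith
    have far : ∀ p q : ℂ, dist p (centre (I.δ n) z) ≤ 2 * η → ε ≤ dist (centre (I.δ n) z) q →
        ε / 2 ≤ dist p q := by
      intro p q h1 h2
      have := dist_triangle (centre (I.δ n) z) p q
      rw [dist_comm (centre (I.δ n) z) p] at this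
      linarith
    have h3 := hdd s ⟨hs0.le, hs1.le⟩ t ⟨ht0.le, ht1.le⟩ (far _ _ d1 hz0) (far _ _ d1 hzθ)
      (far _ _ d2 hz0) (far _ _ d2 hzθ)
    have h4 : dist (I.γ s) (I.γ t) ≤ 4 * η := by
      have := dist_triangle (I.γ s) (centre (I.δ n) z) (I.γ t)
      rw [dist_comm (centre (I.δ n) z) (I.γ t)] at this
      have d1' : dist (I.γ s) (centre (I.δ n) z) ≤ 2 * η := d1
      have d2' : dist (I.γ t) (centre (I.δ n) z) ≤ 2 * η := d2
      linarith
    linarith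
  have hax : |I.a| ≤ 1 / 2 := by rw [abs_of_pos I.ha0]; exact I.ha1
  by_cases hp : ∃ u ∈ I.Ap n, u ∈ box z r
  · obtain ⟨u0, hu0, hu0b⟩ := hp
    refine ⟨I.a, hax, fun v hv _ u hu hub huF => ?_⟩
    have hve := (mem_nbr_triE.mp hu)
    have huv : u ∈ verts (I.T n) := by
      obtain ⟨-, t, ht, -, h2⟩ := hve
      exact Finset.mem_biUnion.mpr ⟨t, ht, h2⟩
    have : u ∈ I.Ap n := by
      by_contra h
      have h2 : u ∈ I.Am n := by
        by_contra h3
        exact huF (mem_freeVerts'.mpr ⟨huv, h, h3⟩)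
      exact key u0 hu0 u h2 hu0b hub
    simp only [Inst.xi, triXi, if_pos this]
  · push Not at hp
    refine ⟨-I.a, by rwa [abs_neg], fun v hv _ u hu hub huF => ?_⟩
    have hve := (mem_nbr_triE.mp hu)
    have huv : u ∈ verts (I.T n) := by
      obtain ⟨-, t, ht, -, h2⟩ := hve
      exact Finset.mem_biUnion.mpr ⟨t, ht, h2⟩
    have h1 : u ∉ I.Ap n := fun h => hp u h hub
    have h2 : u ∈ I.Am n := by
      by_contra h3
      exact huF (mem_freeVerts'.mpr ⟨huv, h1, h3⟩)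
    simp only [Inst.xi, triXi, if_neg h1, if_pos h2]

/-! ### the joint tightness bound -/

theorem box_mono {z : ℤ × ℤ} {r r' : ℕ} (h : r ≤ r') : box z r ⊆ box z r' := by
  intro u hu
  rw [mem_box] at hu ⊢
  have : (r : ℤ) ≤ r' := by exact_mod_cast h
  exact ⟨hu.1.trans this, hu.2.trans this⟩

theorem volume_ham_inst (n : ℕ) : volume (ham (I.Fr n) (I.Ed n) (I.xi n)) ≠ 0 :=
  volume_ham_ne_zero (I.abs_xi_le n)

/-- **LEMMA LC for the instances of S0197**, edge dependent radii. -/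
theorem lcl {ε : ℝ} (hε : 0 < ε) : ∃ ρ : ℝ, 0 < ρ ∧ ∃ C : ℝ, 1 ≤ C ∧ ∀ᶠ n in atTop,
    ∀ (z : ℤ × ℤ) (r : ℕ), I.δ n * r ≤ ρ → ε ≤ dist (centre (I.δ n) z) (I.γ 0) →
    ε ≤ dist (centre (I.δ n) z) (I.γ I.θ) →
    ∀ S : List (((ℤ × ℤ) × (ℤ × ℤ)) × ℝ), FreshR (I.Fr n) (I.Ed n) S →
      (∀ q ∈ S, q.1.1 ∈ box z r ∧ q.1.2 ∈ box z r) →
      I.P0 n (tightR (I.Fr n) (I.Ed n) (I.xi n) S) ≤
        ENNReal.ofReal (C / I.δ n) * ENNReal.ofReal C ^ r * wgt 6 S := by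
  obtain ⟨ρ, hρ, hρf⟩ := flat_inst I hε
  obtain ⟨C, hC, hCb⟩ := height_bound I
  have hK := one_le_KL
  refine ⟨ρ / 2, by positivity, KL ^ 25 * (2 * C), ?_, ?_⟩
  · have : (1 : ℝ) ≤ KL ^ 25 := one_le_pow₀ hK
    nlinarith
  have hδ1 : ∀ᶠ n in atTop, I.δ n < min 1 (ρ / 2) :=
    (tendsto_order.1 I.hM.2.1).2 _ (by positivity)
  filter_upwards [hρf, hCb, hδ1] with n hn hCn hδn z r hr hz0 hzθ S hS hSb
  have hδ := I.hM.1 n
  have hδn1 : I.δ n < 1 := hδn.trans_le (min_le_left _ _)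
  have hδn2 : I.δ n < ρ / 2 := hδn.trans_le (min_le_right _ _)
  obtain ⟨c0, hc0, hF⟩ := hn z (r + 1) (by push_cast; linarith) hz0 hzθ
  have hS' : ∀ q ∈ S, q.1.1 ∈ box z (r + 1) ∧ q.1.2 ∈ box z (r + 1) := fun q hq =>
    ⟨box_mono (Nat.le_succ r) (hSb q hq).1, box_mono (Nat.le_succ r) (hSb q hq).2⟩
  have hSo : ∀ q ∈ S, q.1.1 ≠ (z.1 + (r + 1 : ℕ), z.2 + (r + 1 : ℕ)) := by
    intro q hq h
    have h1 := (mem_box.mp (hSb q hq).1).1
    rw [h] at h1
    simp only [add_sub_cancel_left] at h1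
    rw [abs_of_nonneg (by positivity)] at h1
    push_cast at h1
    linarith
  have hmain := LC_box_prob (lat_inst I n) (I.anch n) (fun u _ => I.abs_xi_le n u) hc0 hF hCn
    (fun v _ => card_nbr_triE (I.T n) v) hS hS' hSo
  refine hmain.trans ?_
  have e1 : max 1 (2 * (C / I.δ n)) ≤ KL ^ 25 * (2 * C) / I.δ n / KL ^ 25 := by
    rw [mul_div_assoc (KL ^ 25), mul_div_cancel_left₀ _ (by positivity : KL ^ 25 ≠ 0)]
    refine max_le ?_ (le_of_eq (by ring))
    rw [one_le_div hδ]; linarith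
  have e2 : ENNReal.ofReal KL ^ (10 * (r + 1) + 5) ≤
      ENNReal.ofReal (KL ^ 25) * ENNReal.ofReal (KL ^ 25 * (2 * C)) ^ r := by
    have hK1 : (1 : ℝ≥0∞) ≤ ENNReal.ofReal KL := by
      rw [← ENNReal.ofReal_one]; exact ENNReal.ofReal_le_ofReal hK
    rw [ENNReal.ofReal_pow (by positivity)]
    calc ENNReal.ofReal KL ^ (10 * (r + 1) + 5) ≤ ENNReal.ofReal KL ^ (25 + 25 * r) :=
          pow_le_pow_right₀ hK1 (by omega)
      _ = ENNReal.ofReal KL ^ 25 * (ENNReal.ofReal KL ^ 25) ^ r := by rw [pow_add, pow_mul]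
      _ ≤ _ := by
          refine mul_le_mul' le_rfl (pow_le_pow_left' ?_ r)
          rw [← ENNReal.ofReal_pow (by positivity)]
          refine ENNReal.ofReal_le_ofReal ?_
          have : 0 < KL ^ 25 := by positivity
          nlinarith
  calc _ ≤ ENNReal.ofReal (KL ^ 25) * ENNReal.ofReal (KL ^ 25 * (2 * C)) ^ r *
        (ENNReal.ofReal (KL ^ 25 * (2 * C) / I.δ n / KL ^ 25) * wgt 6 S) :=
        mul_le_mul' e2 (mul_le_mul' (ENNReal.ofReal_le_ofReal e1) le_rfl)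
    _ = (ENNReal.ofReal (KL ^ 25) * ENNReal.ofReal (KL ^ 25 * (2 * C) / I.δ n / KL ^ 25)) *
        ENNReal.ofReal (KL ^ 25 * (2 * C)) ^ r * wgt 6 S := by ring
    _ = _ := by
        rw [← ENNReal.ofReal_mul (by positivity), mul_div_cancel₀ _ (by positivity : KL ^ 25 ≠ 0)]

/-- LEMMA LC for the instances of S0197, one radius. -/
theorem lcl_fresh {ε : ℝ} (hε : 0 < ε) : ∃ ρ : ℝ, 0 < ρ ∧ ∃ C : ℝ, 1 ≤ C ∧ ∀ᶠ n in atTop,
    ∀ (z : ℤ × ℤ) (r : ℕ), I.δ n * r ≤ ρ → ε ≤ dist (centre (I.δ n) z) (I.γ 0) →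
    ε ≤ dist (centre (I.δ n) z) (I.γ I.θ) →
    ∀ T : List ((ℤ × ℤ) × (ℤ × ℤ)), Fresh (I.Fr n) (I.Ed n) T →
      (∀ q ∈ T, q.1 ∈ box z r ∧ q.2 ∈ box z r) → ∀ ε' : ℝ, 0 < ε' →
      I.P0 n {h | h ∈ ham (I.Fr n) (I.Ed n) (I.xi n) ∧ ∀ q ∈ T,
          1 - ε' ≤ |Ham560.ext (I.Fr n) (I.xi n) h q.1 - Ham560.ext (I.Fr n) (I.xi n) h q.2|} ≤
        ENNReal.ofReal (C / I.δ n) * ENNReal.ofReal C ^ r *
          ENNReal.ofReal (2304 * ε') ^ T.length := by
  obtain ⟨ρ, hρ, C, hC, h⟩ := lcl I hε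
  refine ⟨ρ, hρ, C, hC, ?_⟩
  filter_upwards [h] with n hn z r hr hz0 hzθ T hT hTb ε' hε'
  have h1 := hn z r hr hz0 hzθ (T.map fun q => (q, ε')) (hT.toR hε') (by
    intro q hq
    obtain ⟨q', hq', rfl⟩ := List.mem_map.mp hq
    exact hTb q' hq')
  rw [wgt_const] at h1
  have e : (64 : ℝ) * ((6 : ℕ) : ℝ) ^ 2 * ε' = 2304 * ε' := by norm_num
  rw [e] at h1
  refine le_trans (measure_mono ?_) h1
  rintro x ⟨hx, hx2⟩
  refine ⟨hx, fun q hq => ?_⟩
  obtain ⟨q', hq', rfl⟩ := List.mem_map.mp hq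
  exact hx2 q' hq'

end Crest.Agent.R144.LC121
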