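import Crest.Agent.R144.Bl3_565
import Crest.Agent.R144.Fa1_812
import Crest.Agent.R144.Skel97_144
import Crest.Agent.R144.LCL_121
import Crest.Agent.R144.Lw7_425

/-!
R144 (S0197), helper565.  The shared block matrices, part 4: bridges.

* `shp r o ⊆ sq r`, `blk_shp : Fa812.blk (shp r o) a = (bk r o).image (a + ·)`;
* `bT_of_edges`, `bT_blk`: the energy of a block inside a larger system is the standard one;
* `Ein_inst`, `nbr_inst`, `bT_inst`: for the instances of `Skel144`;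
* `lobs_bbL`: local observables.
-/

set_option autoImplicit false
set_option linter.unusedSectionVars false

open MeasureTheory Set Filter Topology
open scoped ENNReal NNReal

noncomputable section

namespace Crest.Agent.R144.Bl565

open Crest.Agent.R144.Ham560
open Crest.Agent.R144.BQ565
open Crest.Agent.R144.Lc279 (lat mem_lat mem_nbr_lat P2 hd_eq_one_iff_adj)
open Crest.Agent.R144.Lw425 (hd hd_comm hd_le_iff mem_hball hball hd_self hd_triangle hd_pos
  hd_eq_zero hd_nonneg hd_adj Proper LObs)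
open Crest.Agent.R144.Flat296 (pt sq)
open Crest.Agent.R144.Skel144 (Inst)

/-! ### Shapes in `ℕ × ℕ` -/

/-- The block as a set of displacements. -/
def shp (r : ℕ) (o : Fin 3) : Finset (ℕ × ℕ) :=
  (bk r o).image fun v => (v.1.toNat, v.2.toNat)

theorem pt_toNat {v : P2} (h1 : 0 ≤ v.1) (h2 : 0 ≤ v.2) : pt (v.1.toNat, v.2.toNat) = v := by
  ext <;> simp [pt, h1, h2]

theorem mem_shp {r : ℕ} {o : Fin 3} {p : ℕ × ℕ} : p ∈ shp r o ↔ pt p ∈ bk r o := by
  rw [shp, Finset.mem_image]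
  constructor
  · rintro ⟨v, hv, rfl⟩
    have := bk_bound hv
    rw [pt_toNat this.1.1 this.2.1]; exact hv
  · intro h
    exact ⟨pt p, h, by ext <;> simp [pt]⟩

theorem shp_subset (r : ℕ) (o : Fin 3) : shp r o ⊆ sq r := by
  intro p hp
  have h := bk_bound (mem_shp.mp hp)
  obtain ⟨⟨_, h2⟩, _, h4⟩ := h
  simp only [pt] at h2 h4
  rw [Flat296.sq, Finset.mem_product, Finset.mem_range, Finset.mem_range]
  exact ⟨by exact_mod_cast h2, by exact_mod_cast h4⟩

theorem image_shp (r : ℕ) (o : Fin 3) : (shp r o).image pt = bk r o := by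
  ext v
  rw [Finset.mem_image]
  constructor
  · rintro ⟨p, hp, rfl⟩; exact mem_shp.mp hp
  · intro hv
    have h := bk_bound hv
    exact ⟨(v.1.toNat, v.2.toNat), mem_shp.mpr (by rw [pt_toNat h.1.1 h.2.1]; exact hv),
      pt_toNat h.1.1 h.2.1⟩

theorem blk_shp (r : ℕ) (o : Fin 3) (a : P2) :
    Fa812.blk (shp r o) a = (bk r o).image (a + ·) := by
  rw [Fa812.blk, ← image_shp, Finset.image_image]; rfl

theorem card_shp (r : ℕ) (o : Fin 3) : (shp r o).card = (r / 2) ^ 2 := by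
  rw [← card_bk r o, ← image_shp r o, Finset.card_image_of_injective _ Fa812.pt_injective]

/-! ### A block inside a larger system -/

section Edges

variable {P : Par} {m : ℕ}

theorem bT_of_edges {K : Finset P2} {E₁ E₂ : Finset (P2 × P2)} (h1 : E₁ = lat K)
    (h2 : ∀ a ∈ win m K, ∀ b ∈ win m K, b ∈ nbr E₂ a ↔ b ∈ nbr (lat (win m K)) a)
    (hA : Anch K E₁) (ζ : P2 → ℝ) (xi : Fin 2 → ℝ) :
    bT (cor m K) hA ζ (refL (refF_L2 P K (win m K) E₂) ζ) xi = bbB P m K ζ xi := by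
  subst h1
  change _ = bT (cor m K) (anch_lat K) ζ (refL (refF_L2 P K (win m K) (lat (win m K))) ζ) xi
  refine bT_congr_cmb (anch_lat K) ⟨0, fun x u => ?_⟩
  rw [coe_cmb, coe_cmb, add_zero]
  simp only [Finset.sum_apply, Pi.smul_apply, smul_eq_mul]
  refine Finset.sum_congr rfl fun i _ => ?_
  congr 1
  exact L2_congr_edges P h2 i _ _

theorem bTm_of_edges {K : Finset P2} {E₁ E₂ : Finset (P2 × P2)} (h1 : E₁ = lat K)
    (h2 : ∀ a ∈ win m K, ∀ b ∈ win m K, b ∈ nbr E₂ a ↔ b ∈ nbr (lat (win m K)) a)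
    (hA : Anch K E₁) (ζ : P2 → ℝ) :
    bTm (cor m K) hA ζ (refL (refF_L2 P K (win m K) E₂) ζ) = bbM P m K ζ := by
  ext i j
  rw [bTm_apply, bbM_apply, bT_of_edges h1 h2, bT_of_edges h1 h2, bT_of_edges h1 h2]

/-- The energy of the block of orientation `o` at `a` in a larger system. -/
theorem bT_blk {r : ℕ} (hr : 2 ≤ r) {o : Fin 3} {a : P2} {K : Finset P2}
    (hK : K = (bk r o).image (a + ·)) {E₁ E₂ : Finset (P2 × P2)} (h1 : E₁ = lat K)
    (h2 : ∀ a ∈ win (cw r) K, ∀ b ∈ win (cw r) K,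
      b ∈ nbr E₂ a ↔ b ∈ nbr (lat (win (cw r) K)) a)
    (hA : Anch K E₁) (ζ : P2 → ℝ) (xi : Fin 2 → ℝ) :
    bT (cor (cw r) K) hA ζ (refL (refF_L2 P K (win (cw r) K) E₂) ζ) xi =
      ((r / 2 : ℕ) : ℝ) ^ 2 * qd (bbO P r o (fun v => ζ (a + v))) xi := by
  have hs : (0 : ℝ) < ((r / 2 : ℕ) : ℝ) := by
    have : 0 < r / 2 := by omega
    exact_mod_cast this
  rw [bT_of_edges h1 h2, bbB_eq, hK, bbM_translate, qd, Finset.mul_sum]
  refine Finset.sum_congr rfl fun i _ => ?_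
  rw [Finset.mul_sum]
  refine Finset.sum_congr rfl fun j _ => ?_
  simp only [bbO, Matrix.smul_apply, smul_eq_mul]
  field_simp

end Edges

/-! ### The instances -/

section Insts

variable (I : Inst) (n : ℕ)

theorem hd_of_mem_Ed {p : P2 × P2} (hp : p ∈ I.Ed n) : hd p.1 p.2 = 1 :=
  hd_eq_one_iff_adj.mpr (LC121.adj_of_isEdge (mem_triE.mp hp))

theorem isEdge_of_free {v w : P2} (hv : v ∈ I.Fr n) (hw : hd v w = 1) :
    Crest.ProbabilityR.TriHeights.IsEdge (I.T n) v w :=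
  Geo268.isEdge_of_adj (I.hM.1 n) ((Geo268.mem_free_iff I.hM n v).1 hv)
    (hd_eq_one_iff_adj.mp hw)

theorem nbr_inst {v w : P2} (hv : v ∈ I.Fr n) : w ∈ nbr (I.Ed n) v ↔ hd v w = 1 := by
  rw [mem_nbr_triE]
  exact ⟨fun h => hd_eq_one_iff_adj.mpr (LC121.adj_of_isEdge h), isEdge_of_free I n hv⟩

theorem Ein_inst {K : Finset P2} (hK : K ⊆ I.Fr n) : Fib674.Ein K (I.Ed n) = lat K := by
  ext p
  rw [Fib674.mem_Ein, mem_lat]
  constructor
  · rintro ⟨h1, h2⟩; exact ⟨hd_of_mem_Ed I n h1, h2⟩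
  · rintro ⟨h1, h2⟩
    refine ⟨mem_triE.mpr ?_, h2⟩
    rcases h2 with h2 | h2
    · exact isEdge_of_free I n (hK h2) h1
    · have h3 := isEdge_of_free I n (hK h2) (by rwa [hd_comm] : hd p.2 p.1 = 1)
      exact ⟨h3.1.symm, by obtain ⟨t, ht, h4, h5⟩ := h3.2; exact ⟨t, ht, h5, h4⟩⟩

theorem nbr_win_inst {V : Finset P2} (hV : V ⊆ I.Fr n) :
    ∀ a ∈ V, ∀ b ∈ V, b ∈ nbr (I.Ed n) a ↔ b ∈ nbr (lat V) a := by
  intro a ha b _
  rw [nbr_inst I n (hV ha), mem_nbr_lat]
  exact ⟨fun h => ⟨h, Or.inl ha⟩, fun h => h.1⟩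

theorem anch_Ein {K : Finset P2} (hK : K ⊆ I.Fr n) : Anch K (Fib674.Ein K (I.Ed n)) := by
  rw [Ein_inst I n hK]; exact anch_lat K

/-- The energy of the block of orientation `o` at `a` inside the instance. -/
theorem bT_inst (P : Par) {r : ℕ} (hr : 2 ≤ r) (o : Fin 3) (a : P2) {K : Finset P2}
    (hK : K = (bk r o).image (a + ·)) (hW : win (cw r) K ⊆ I.Fr n)
    (hA : Anch K (Fib674.Ein K (I.Ed n))) (ζ : P2 → ℝ) (xi : Fin 2 → ℝ) :
    bT (cor (cw r) K) hA ζ (refL (refF_L2 P K (win (cw r) K) (I.Ed n)) ζ) xi =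
      ((r / 2 : ℕ) : ℝ) ^ 2 * qd (bbO P r o (fun v => ζ (a + v))) xi :=
  bT_blk hr hK (Ein_inst I n ((subset_win _ K).trans hW)) (nbr_win_inst I n hW) hA ζ xi

end Insts

/-! ### Local observables -/

section Loc

variable {P : Par}

theorem win_bk_subset (r : ℕ) (o : Fin 3) : win (cw r) (bk r o) ⊆ hball (4 * r) := by
  intro v hv
  obtain ⟨a, ha, h⟩ := mem_win.mp hv
  rw [mem_hball, hd_le_iff]
  have hb := bk_bound ha
  have hc : cw r ≤ r := Nat.sqrt_le_self r
  have hc' : ((cw r : ℕ) : ℤ) ≤ r := by exact_mod_cast hc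
  have h2 := hd_le_iff.mp h
  push_cast
  simp only [Prod.fst_zero, Prod.snd_zero, sub_zero]
  omega

/-- The entries of the truncated matrices, rescaled, are local observables. -/
theorem lobs_bbL {r : ℕ} (hr : 1 ≤ r) (o : Fin 3) {L : ℝ} (hL : 0 < L) (i j : Fin 2) :
    LObs (4 * r) fun h => (2 * L)⁻¹ * bbL P r o L h i j where
  meas := (measurable_bbL r o L i j).const_mul _
  bd h := by
    rw [abs_mul, abs_of_pos (by positivity : (0 : ℝ) < (2 * L)⁻¹)]
    calc (2 * L)⁻¹ * |bbL P r o L h i j| ≤ (2 * L)⁻¹ * (2 * L) := by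
          gcongr
          exact abs_bbL_le hL.le h i j
      _ = 1 := by field_simp
  loc h h' hh := by
    have : bbO P r o h = bbO P r o h' :=
      bbO_congr hr fun v hv _ => hh v (win_bk_subset r o hv)
    simp only [bbL, this]
  shift h c := by rw [bbL_shift]

end Loc

end Crest.Agent.R144.Bl565
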