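import Crest.Agent.R144.Bl6_565
import Crest.Agent.R144.Bl4_565

/-!
R144 (S0197), helper565.  **POS**: the shared scalar is bounded.

* `abT_le` : `abT P μ r L ≤ (63/4) (2Λ/ε)²` for every law with the tight-list bound and the DLR
  equations.
-/

set_option autoImplicit false
set_option linter.unusedSectionVars false

open MeasureTheory Set Filter Topology
open scoped ENNReal NNReal

noncomputable section

namespace Crest.Agent.R144.Bl565

open Crest.Agent.R144.Ham560 Crest.Agent.R144.Tri560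
open Crest.Agent.R144.BQ565
open Crest.Agent.R144.Lc279 (lat mem_lat mem_nbr_lat P2 card_nbr_lat_le)
open Crest.Agent.R144.Lw425 (hd hd_comm hd_le_iff mem_hball hball LObs)

variable {P : Par} {c0 : ℝ} {μ : Measure (P2 → ℝ)}

theorem hamP_univ_le (K : Finset P2) (E : Finset (P2 × P2)) (ζ : P2 → ℝ) :
    hamP K E ζ univ ≤ 1 := by
  rw [hamP, Measure.smul_apply, Measure.restrict_apply_univ, smul_eq_mul]
  exact ENNReal.inv_mul_le_one _

theorem abs_mean_le {K : Finset P2} {ζ : P2 → ℝ} {f : (K → ℝ) → ℝ} {C : ℝ} (hC : 0 ≤ C)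
    (hf : ∀ x, |f x| ≤ C) : |∫ x, f x ∂(hamP K (lat K) ζ)| ≤ C := by
  have hfin : IsFiniteMeasure (hamP K (lat K) ζ) :=
    ⟨(hamP_univ_le K (lat K) ζ).trans_lt ENNReal.one_lt_top⟩
  have h1 := norm_integral_le_of_norm_le_const (μ := hamP K (lat K) ζ) (f := f) (C := C)
    (Eventually.of_forall fun x => by rw [Real.norm_eq_abs]; exact hf x)
  rw [Real.norm_eq_abs] at h1
  refine h1.trans ?_
  have h2 : (hamP K (lat K) ζ).real univ ≤ 1 := by
    rw [Measure.real]
    exact ENNReal.toReal_le_of_le_ofReal zero_le_one (by simpa using hamP_univ_le K (lat K) ζ)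
  calc C * (hamP K (lat K) ζ).real univ ≤ C * 1 := mul_le_mul_of_nonneg_left h2 hC
    _ = C := mul_one C

theorem mcw_real_le (V : Finset P2) (h : P2 → ℝ) (w : P2) :
    |(mcw P c0 V h w : ℝ)| ≤ ((V.card + 1 : ℕ) : ℝ) := by
  rw [abs_of_nonneg (Nat.cast_nonneg _)]
  exact_mod_cast mcw_le V h w

theorem integrable_mean_mcw [IsProbabilityMeasure μ] (r : ℕ) (o : Fin 3) (u : P2) :
    Integrable (fun h : P2 → ℝ => ∫ x, (mcw P c0 (win (cw r) (bk r o)) (ext (bk r o) h x) u : ℝ)
        ∂(hamP (bk r o) (lat (bk r o)) h)) μ :=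
  Integrable.of_bound (C := (((win (cw r) (bk r o)).card + 1 : ℕ) : ℝ))
    (mean_mcw_meas r o u).aestronglyMeasurable
    (Eventually.of_forall fun h => by
      rw [Real.norm_eq_abs]
      exact abs_mean_le (Nat.cast_nonneg _) fun x => mcw_real_le _ _ _)

/-- The DLR equation for the lengths of the cheap paths. -/
theorem mean_dlr (hD : DLR μ) (K : Finset P2) {V : Finset P2} {r : ℕ} (hV : V ⊆ hball r) {u : P2}
    (hu : u ∈ V) :
    ∫ h, (∫ x, (mcw P c0 V (ext K h x) u : ℝ) ∂(hamP K (lat K) h)) ∂μ =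
      ∫ h, (mcw P c0 V h u : ℝ) ∂μ := by
  have h1 := hD K r _ (lobs_mcw (P := P) (c0 := c0) hV hu)
  have hne : ((V.card + 1 : ℕ) : ℝ)⁻¹ ≠ 0 := inv_ne_zero (by positivity)
  simp only [integral_const_mul] at h1
  exact (mul_left_cancel₀ hne h1).symm

/-- **POS.** -/
theorem abT_le [IsProbabilityMeasure μ] (hP : Small P) (hT : TightL μ) (hD : DLR μ) (r : ℕ)
    (L : ℝ) : abT P μ r L ≤ 63 / 4 * (2 * P.Lam / P.eps) ^ 2 := by
  have hkey : ∀ o : Fin 3, ∫ h, (if trE (bbO P r o h) ≤ L then trE (bbO P r o h) else 0) ∂μ ≤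
      63 / 2 * (2 * P.Lam / P.eps) ^ 2 := by
    intro o
    set C : ℝ := 9 / 2 * (2 * P.Lam / P.eps) ^ 2 * ((((r / 2 : ℕ) : ℝ)) ^ 2)⁻¹ with hC
    have hC0 : 0 ≤ C := by positivity
    set g : (bk r o) → (P2 → ℝ) → ℝ := fun u h =>
      ∫ x, (mcw P 1 (win (cw r) (bk r o)) (ext (bk r o) h x) u : ℝ)
        ∂(hamP (bk r o) (lat (bk r o)) h) with hg
    have hgi : ∀ u ∈ (Finset.univ : Finset (bk r o)), Integrable (g u) μ :=
      fun u _ => integrable_mean_mcw r o (u : P2)
    have h0 : ∀ h, 0 ≤ (if trE (bbO P r o h) ≤ L then trE (bbO P r o h) else 0) := by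
      intro h; split_ifs
      · exact trE_bbO_nonneg r o h
      · exact le_rfl
    have h1 : ∀ h, (if trE (bbO P r o h) ≤ L then trE (bbO P r o h) else 0) ≤
        C * ∑ u : bk r o, g u h := by
      intro h
      have h2 := trE_bbO_le (P := P) (c0 := 1) one_pos r o h
      split_ifs
      · exact h2
      · exact (trE_bbO_nonneg r o h).trans h2
    calc ∫ h, (if trE (bbO P r o h) ≤ L then trE (bbO P r o h) else 0) ∂μ
        ≤ ∫ h, C * ∑ u : bk r o, g u h ∂μ :=
          integral_mono_of_nonneg (Eventually.of_forall h0)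
            ((integrable_finsetSum _ hgi).const_mul _) (Eventually.of_forall h1)
      _ = C * ∑ u : bk r o, ∫ h, g u h ∂μ := by
          rw [integral_const_mul, integral_finsetSum _ hgi]
      _ ≤ C * ∑ _u : bk r o, (7 : ℝ) := by
          refine mul_le_mul_of_nonneg_left (Finset.sum_le_sum fun u _ => ?_) hC0
          have hu : (u : P2) ∈ win (cw r) (bk r o) := subset_win _ _ u.2
          rw [hg, mean_dlr hD (bk r o) (win_bk_subset r o) hu]
          exact mcw_mean hP hT le_rfl hu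
      _ ≤ 63 / 2 * (2 * P.Lam / P.eps) ^ 2 := by
          rw [Finset.sum_const, Finset.card_univ, Fintype.card_coe, card_bk, nsmul_eq_mul, hC]
          push_cast
          rcases Nat.eq_zero_or_pos (r / 2) with hr | hr
          · rw [hr]
            have : (0 : ℝ) ≤ 63 / 2 * (2 * P.Lam / P.eps) ^ 2 := by positivity
            simpa using this
          · have h3 : ((r / 2 : ℕ) : ℝ) ≠ 0 := by exact_mod_cast hr.ne'
            refine le_of_eq ?_
            field_simp
            ring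
  unfold abT
  have h4 : ∑ o : Fin 3, ∫ h, (if trE (bbO P r o h) ≤ L then trE (bbO P r o h) else 0) ∂μ ≤
      ∑ _o : Fin 3, 63 / 2 * (2 * P.Lam / P.eps) ^ 2 := Finset.sum_le_sum fun o _ => hkey o
  rw [Finset.sum_const, Finset.card_univ, Fintype.card_fin, nsmul_eq_mul] at h4
  push_cast at h4
  linarith

theorem abT_nonneg (r : ℕ) (L : ℝ) : 0 ≤ abT P μ r L := by
  unfold abT
  refine mul_nonneg (by norm_num) (Finset.sum_nonneg fun o _ => integral_nonneg fun h => ?_)
  simp only [Pi.zero_apply]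
  split_ifs
  · exact trE_bbO_nonneg r o h
  · exact le_rfl

end Crest.Agent.R144.Bl565
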