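import Crest.Agent.R144.Bl7_565
import Crest.Agent.R144.Lmu7_425

/-!
R144 (S0197), helper565.  The plane state: tight lists, DLR, POS.

* `tightL_mu0 : TightL mu0`, `dlr_mu0 : DLR mu0`;
* `abT_mu0_le` : POS; `mu0_tail`, `mu0_mean`.
-/

set_option autoImplicit false
set_option linter.unusedSectionVars false

open MeasureTheory Set Filter Topology
open scoped ENNReal NNReal

noncomputable section

namespace Crest.Agent.R144.Bl565

open Crest.Agent.R144.Ham560
open Crest.Agent.R144.Lc279 (lat mem_lat mem_nbr_lat P2 card_nbr_lat_le hd_add Ev bx mem_bx card_bx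
  anch_bx m0)
open Crest.Agent.R144.Lw425 (hd hd_comm hd_le_iff mem_hball hball LObs bav bav_tendsto mu0 isMu0
  core' mem_core' core'_subset core'_nonempty core_ratio avg_sub_le tendsto_mg abs_Ev_le mg
  exists_hball)

/-- Lists under an embedding. -/
theorem Fresh_map {F F' : Finset P2} {E E' : Finset (P2 × P2)} {σ : P2 → P2}
    (hσ : Function.Injective σ) (hF : ∀ v ∈ F, σ v ∈ F')
    (hE : ∀ v u, v ∈ F → u ∈ nbr E v → σ u ∈ nbr E' (σ v)) {S : List (P2 × P2)}
    (h : Fresh F E S) : Fresh F' E' (S.map fun q => (σ q.1, σ q.2)) := by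
  induction h with
  | nil => exact Fresh.nil
  | @cons v u S hS hv hu hf ih =>
    rw [List.map_cons]
    refine Fresh.cons ih (hF v hv) (hE v u hv hu) fun q hq => ?_
    obtain ⟨q', hq', rfl⟩ := List.mem_map.mp hq
    exact ⟨fun h => (hf q' hq').1 (hσ h), fun h => (hf q' hq').2 (hσ h)⟩

theorem hamP_tight_le {F : Finset P2} {S : List (P2 × P2)} (hS : Fresh F (lat F) S) {e : ℝ}
    (he : 0 < e) : hamP F (lat F) 0 {x | ∀ q ∈ S, 1 - e ≤ |ext F 0 x q.1 - ext F 0 x q.2|} ≤
      ENNReal.ofReal (2304 * e) ^ S.length := by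
  have h1 := vol_tight_le (ξ := 0) hS (n := 6) (fun v _ => card_nbr_lat_le F v) he
  rw [show (64 : ℝ) * ((6 : ℕ) : ℝ) ^ 2 * e = 2304 * e by norm_num] at h1
  rw [hamP, Measure.smul_apply, smul_eq_mul, Measure.restrict_apply' measurableSet_ham]
  have h2 : {x | ∀ q ∈ S, 1 - e ≤ |ext F 0 x q.1 - ext F 0 x q.2|} ∩ ham F (lat F) 0 =
      tight F (lat F) 0 S e := by
    ext x; exact and_comm
  rw [h2]
  calc (volume (ham F (lat F) 0))⁻¹ * volume (tight F (lat F) 0 S e)
      ≤ (volume (ham F (lat F) 0))⁻¹ * (ENNReal.ofReal (2304 * e) ^ S.length *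
          volume (ham F (lat F) 0)) := mul_le_mul' le_rfl h1
    _ = ENNReal.ofReal (2304 * e) ^ S.length *
          ((volume (ham F (lat F) 0))⁻¹ * volume (ham F (lat F) 0)) := by ring
    _ ≤ ENNReal.ofReal (2304 * e) ^ S.length * 1 :=
        mul_le_mul' le_rfl (ENNReal.inv_mul_le_one _)
    _ = _ := mul_one _

/-- The event of a tight list. -/
def tgt (S : List (P2 × P2)) (e : ℝ) : Set (P2 → ℝ) := {h | ∀ q ∈ S, 1 - e ≤ |h q.1 - h q.2|}

theorem measurableSet_tgt (S : List (P2 × P2)) (e : ℝ) : MeasurableSet (tgt S e) := by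
  have : tgt S e = ⋂ q ∈ {q | q ∈ S}, {h : P2 → ℝ | 1 - e ≤ |h q.1 - h q.2|} := by
    ext h; simp [tgt]
  rw [this]
  exact (isClosed_biInter fun q _ => isClosed_le continuous_const
    (((continuous_apply q.1).sub (continuous_apply q.2)).abs)).measurableSet

theorem exists_lobs_tgt (S : List (P2 × P2)) (e : ℝ) :
    ∃ r, LObs r ((tgt S e).indicator fun _ => (1 : ℝ)) := by
  classical
  obtain ⟨r, hr⟩ := exists_hball ((S.map Prod.fst).toFinset ∪ (S.map Prod.snd).toFinset)
  refine ⟨r, measurable_const.indicator (measurableSet_tgt S e), fun h => ?_, fun h h' hh => ?_,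
    fun h c => ?_⟩
  · by_cases hh : h ∈ tgt S e
    · rw [indicator_of_mem hh]; norm_num
    · rw [indicator_of_notMem hh]; norm_num
  · have key : h ∈ tgt S e ↔ h' ∈ tgt S e := by
      refine forall₂_congr fun q hq => ?_
      rw [hh q.1 (hr _ ?_), hh q.2 (hr _ ?_)]
      · exact Finset.mem_union_right _ (List.mem_toFinset.mpr (List.mem_map.mpr ⟨q, hq, rfl⟩))
      · exact Finset.mem_union_left _ (List.mem_toFinset.mpr (List.mem_map.mpr ⟨q, hq, rfl⟩))
    by_cases h1 : h ∈ tgt S e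
    · rw [indicator_of_mem h1, indicator_of_mem (key.mp h1)]
    · rw [indicator_of_notMem h1, indicator_of_notMem (fun h2 => h1 (key.mpr h2))]
  · have key : (fun a => h a + c) ∈ tgt S e ↔ h ∈ tgt S e := by
      refine forall₂_congr fun q hq => ?_
      rw [add_sub_add_right_eq_sub]
    by_cases h1 : h ∈ tgt S e
    · rw [indicator_of_mem h1, indicator_of_mem (key.mpr h1)]
    · rw [indicator_of_notMem h1, indicator_of_notMem (fun h2 => h1 (key.mp h2))]

/-- Tight lists deep in the box. -/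
theorem Ev_tgt_le {V : Finset P2} {S : List (P2 × P2)} (hS : Fresh V (lat V) S) {e : ℝ}
    (he : 0 < e) {L : ℕ} {y : P2} (hy : ∀ a ∈ V, y + a ∈ bx L) :
    Ev (bx L) (lat (bx L)) 0 (fun z => (tgt S e).indicator (fun _ => (1 : ℝ)) fun a => z (y + a)) ≤
      (2304 * e) ^ S.length := by
  have hS' : Fresh (bx L) (lat (bx L)) (S.map fun q => (y + q.1, y + q.2)) := by
    refine Fresh_map (add_right_injective y) hy (fun v u hv hu => ?_) hS
    rw [mem_nbr_lat] at hu ⊢
    exact ⟨by rw [hd_add]; exact hu.1, Or.inl (hy v hv)⟩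
  have h1 := hamP_tight_le hS' he
  rw [List.length_map] at h1
  have hset : ∀ x : bx L → ℝ, (tgt S e).indicator (fun _ => (1 : ℝ))
      (fun a => ext (bx L) 0 x (y + a)) = {x | ∀ q ∈ S.map fun q => (y + q.1, y + q.2),
        1 - e ≤ |ext (bx L) 0 x q.1 - ext (bx L) 0 x q.2|}.indicator (fun _ => (1 : ℝ)) x := by
    intro x
    have key : (fun a => ext (bx L) 0 x (y + a)) ∈ tgt S e ↔
        x ∈ {x | ∀ q ∈ S.map fun q => (y + q.1, y + q.2),
          1 - e ≤ |ext (bx L) 0 x q.1 - ext (bx L) 0 x q.2|} := by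
      constructor
      · intro h q hq
        obtain ⟨q', hq', rfl⟩ := List.mem_map.mp hq
        exact h q' hq'
      · intro h q hq
        exact h _ (List.mem_map.mpr ⟨q, hq, rfl⟩)
    by_cases hx : (fun a => ext (bx L) 0 x (y + a)) ∈ tgt S e
    · rw [indicator_of_mem hx, indicator_of_mem (key.mp hx)]
    · rw [indicator_of_notMem hx, indicator_of_notMem (fun h2 => hx (key.mpr h2))]
  have hm : MeasurableSet {x : bx L → ℝ | ∀ q ∈ S.map fun q => (y + q.1, y + q.2),
      1 - e ≤ |ext (bx L) 0 x q.1 - ext (bx L) 0 x q.2|} := by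
    have : {x : bx L → ℝ | ∀ q ∈ S.map fun q => (y + q.1, y + q.2),
        1 - e ≤ |ext (bx L) 0 x q.1 - ext (bx L) 0 x q.2|} =
        ⋂ q ∈ {q | q ∈ S.map fun q => (y + q.1, y + q.2)},
          {x | 1 - e ≤ |ext (bx L) 0 x q.1 - ext (bx L) 0 x q.2|} := by
      ext x; simp
    rw [this]
    exact (isClosed_biInter fun q _ => isClosed_le continuous_const
      (((continuous_ext q.1).sub (continuous_ext q.2)).abs)).measurableSet
  unfold Ev
  simp only [hset]
  rw [integral_indicator hm]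
  simp only [integral_const, MeasurableSet.univ, measureReal_restrict_apply, univ_inter,
    smul_eq_mul, mul_one]
  rw [Measure.real]
  refine ENNReal.toReal_le_of_le_ofReal (by positivity) (h1.trans (le_of_eq ?_))
  rw [ENNReal.ofReal_pow (by positivity)]

/-- **Tight lists under the plane state.** -/
theorem tightL_mu0 : TightL mu0 := by
  intro V S hS e he
  obtain ⟨r, hf⟩ := exists_lobs_tgt S e
  obtain ⟨r0, hr0⟩ := exists_hball V
  set f : (P2 → ℝ) → ℝ := (tgt S e).indicator fun _ => (1 : ℝ) with hfd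
  have h1 : ∫ h, f h ∂mu0 ≤ (2304 * e) ^ S.length := by
    rw [isMu0.eq r f hf]
    have h3 : Tendsto (fun L : ℕ => (2304 * e) ^ S.length +
        2 * (1 - ((core' L).card : ℝ) / (bx L).card)) atTop (𝓝 ((2304 * e) ^ S.length)) := by
      have := ((core_ratio.const_sub 1).const_mul 2).const_add ((2304 * e) ^ S.length)
      simpa using this
    refine le_of_tendsto_of_tendsto (bav_tendsto r f hf) h3 ?_
    filter_upwards [tendsto_mg.eventually_ge_atTop r0, eventually_gt_atTop 0] with L hL hL0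
    set g1 : P2 → ℝ := fun y => Ev (bx L) (lat (bx L)) 0 fun z => f fun a => z (y + a) with hg1
    have b1 : ∀ y, |g1 y| ≤ 1 := fun y => abs_Ev_le fun h => hf.bd _
    have e1 : bav L f = ((bx L).card : ℝ)⁻¹ * ∑ y ∈ bx L, g1 y := rfl
    have e3 : ((core' L).card : ℝ)⁻¹ * ∑ y ∈ core' L, g1 y ≤ (2304 * e) ^ S.length := by
      have hc : (0 : ℝ) < (core' L).card := by exact_mod_cast (core'_nonempty hL0).card_pos
      rw [inv_mul_le_iff₀ hc]
      have : ∑ y ∈ core' L, g1 y ≤ ∑ _y ∈ core' L, (2304 * e) ^ S.length := by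
        refine Finset.sum_le_sum fun y hy => Ev_tgt_le hS he fun a ha => ?_
        rw [mem_core'] at hy
        have h4 := mem_hball.mp (hr0 a ha)
        have h5 := hd_le_iff.mp h4
        simp only [Prod.fst_zero, Prod.snd_zero, sub_zero] at h5
        rw [mem_bx]
        simp only [Prod.fst_add, Prod.snd_add]
        omega
      rwa [Finset.sum_const, nsmul_eq_mul] at this
    have k1 := avg_sub_le (core'_subset L) (core'_nonempty hL0) b1
    rw [abs_sub_comm, abs_le] at k1
    rw [e1]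
    linarith [k1.2]
  have h2 : ∫ h, f h ∂mu0 = mu0.real (tgt S e) := by
    rw [hfd, integral_indicator (measurableSet_tgt S e)]
    simp
  rw [h2] at h1
  change mu0 (tgt S e) ≤ _
  rw [← ENNReal.ofReal_toReal (measure_ne_top mu0 (tgt S e)), ← ENNReal.ofReal_pow (by positivity)]
  exact ENNReal.ofReal_le_ofReal h1

/-- **DLR.** -/
theorem dlr_mu0 : DLR mu0 := fun K _ _ hf => Lw425.dlr hf K

/-- **POS for the plane state.** -/
theorem abT_mu0_le {P : Par} (hP : Small P) (r : ℕ) (L : ℝ) :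
    abT P mu0 r L ≤ 63 / 4 * (2 * P.Lam / P.eps) ^ 2 :=
  abT_le hP tightL_mu0 dlr_mu0 r L

theorem mu0_tail {P : Par} {c0 : ℝ} {V : Finset P2} (hP : Small P) (hc1 : c0 ≤ 1) {w : P2}
    (hw : w ∈ V) {j : ℕ} (hj : 1 ≤ j) :
    mu0.real {h | j < mcw P c0 V h w} ≤ 6 * (1 / 2) ^ j := mcw_tail hP tightL_mu0 hc1 hw hj

theorem mu0_mean {P : Par} {c0 : ℝ} {V : Finset P2} (hP : Small P) (hc1 : c0 ≤ 1) {w : P2}
    (hw : w ∈ V) : ∫ h, (mcw P c0 V h w : ℝ) ∂mu0 ≤ 7 := mcw_mean hP tightL_mu0 hc1 hw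

end Crest.Agent.R144.Bl565
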