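import Crest.Agent.R144.Rsw0_867

/-!
# R144, integer models: symmetries of the maximal laws `E c F` (helper146)

* `Aut σ τ` : `σ` (sites) and `τ` (bases of up triangles) form an automorphism of the lattice of up
  triangles; `actC σ τ ω` transports a configuration;
* `E_map` : `E c (F.map τ) (f ∘ actC σ τ) = E c F f`; `Pr_map`;
* `Aut.adj`, `Aut.sc` : adjacency and simple connectedness are preserved;
* `aut_tr a` (translations), `aut_sw` (reflection `(x, y) ↦ (y, x)`), `aut_ro` (rotation by 120 degrees);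
* `Pr_blk_tr`, `Pr_blkP_tr` : translation invariance of `Pr c (ball a N) (Blk a m M)`;
* `E_rfl` : invariance of `E c F` under `h ↦ 1 - h` inside (`rf` of 561) is in `Pos2_561`.
-/

set_option autoImplicit false

noncomputable section

namespace Crest.Agent.R144.Rw146

open Finset
open Crest.Agent.R144.It844 (P2 adj_iff)
open Crest.Agent.R144.Zg349 Crest.Agent.R144.Zd349 Crest.Agent.R144.Zm349 Crest.Agent.R144.Ze349
open Crest.Agent.R144.Zf349
open Crest.Agent.R144.Pst967 (hexB mem_hexB hexB_mono conn_hexB stepIn_symm path_symm)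
open Crest.Agent.R144.Rsw867
open Crest.ProbabilityR.HexHeights (Adj)

/-! ### automorphisms -/

/-- `σ` on sites and `τ` on bases of up triangles form an automorphism. -/
def Aut (σ τ : P2 ≃ P2) : Prop := ∀ t v, σ v ∈ up (τ t) ↔ v ∈ up t

theorem Aut.symm {σ τ : P2 ≃ P2} (h : Aut σ τ) : Aut σ.symm τ.symm := fun t v => by
  have := h (τ.symm t) (σ.symm v)
  rw [σ.apply_symm_apply, τ.apply_symm_apply] at this
  exact this.symm

theorem Aut.trans {σ τ σ' τ' : P2 ≃ P2} (h : Aut σ τ) (h' : Aut σ' τ') :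
    Aut (σ.trans σ') (τ.trans τ') := fun t v => by
  rw [Equiv.trans_apply, Equiv.trans_apply]
  exact (h' _ _).trans (h _ _)

/-- two distinct up triangles are adjacent iff they share a site -/
theorem adj_iff_share {s t : P2} : Adj s t ↔ s ≠ t ∧ ∃ v, v ∈ up s ∧ v ∈ up t := by
  rw [adj_iff]
  obtain ⟨s1, s2⟩ := s
  obtain ⟨t1, t2⟩ := t
  simp only [mem_up, ne_eq, Prod.mk.injEq, Prod.exists]
  constructor
  · intro h
    rcases h with h | h | h | h | h | h
    · exact ⟨by omega, s1 + 1, s2, by omega, by omega⟩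
    · exact ⟨by omega, s1, s2, by omega, by omega⟩
    · exact ⟨by omega, s1, s2 + 1, by omega, by omega⟩
    · exact ⟨by omega, s1, s2, by omega, by omega⟩
    · exact ⟨by omega, s1 + 1, s2, by omega, by omega⟩
    · exact ⟨by omega, s1, s2 + 1, by omega, by omega⟩
  · rintro ⟨h1, a, b, h2, h3⟩
    omega

theorem Aut.adj {σ τ : P2 ≃ P2} (h : Aut σ τ) (s t : P2) : Adj (τ s) (τ t) ↔ Adj s t := by
  rw [adj_iff_share, adj_iff_share]
  constructor
  · rintro ⟨h1, v, h2, h3⟩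
    refine ⟨fun e => h1 (by rw [e]), σ.symm v, ?_, ?_⟩
    · rw [← h, σ.apply_symm_apply]; exact h2
    · rw [← h, σ.apply_symm_apply]; exact h3
  · rintro ⟨h1, v, h2, h3⟩
    exact ⟨fun e => h1 (τ.injective e), σ v, (h _ _).2 h2, (h _ _).2 h3⟩

theorem Aut.step {σ τ : P2 ≃ P2} (h : Aut σ τ) {S : Set P2} {a b : P2} :
    Relation.ReflTransGen (StepIn (τ '' S)) (τ a) (τ b) ↔ Relation.ReflTransGen (StepIn S) a b := by
  constructor
  · intro p
    have key : ∀ u v : P2, Relation.ReflTransGen (StepIn (τ '' S)) u v →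
        Relation.ReflTransGen (StepIn S) (τ.symm u) (τ.symm v) := by
      intro u v q
      induction q with
      | refl => exact Relation.ReflTransGen.refl
      | tail _ h2 ih =>
        refine ih.tail ⟨?_, ?_, ?_⟩
        · obtain ⟨x, hx, e⟩ := h2.1; rw [← e, τ.symm_apply_apply]; exact hx
        · obtain ⟨x, hx, e⟩ := h2.2.1; rw [← e, τ.symm_apply_apply]; exact hx
        · exact (h.symm.adj _ _).2 h2.2.2
    simpa using key _ _ p
  · intro p
    induction p with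
    | refl => exact Relation.ReflTransGen.refl
    | tail _ h2 ih =>
      exact ih.tail ⟨⟨_, h2.1, rfl⟩, ⟨_, h2.2.1, rfl⟩, (h.adj _ _).2 h2.2.2⟩

theorem Aut.sc {σ τ : P2 ≃ P2} (h : Aut σ τ) {F : Finset P2} (hF : SC F) :
    SC (F.map τ.toEmbedding) := by
  intro u hu v hv
  have e : ((F.map τ.toEmbedding : Finset P2) : Set P2)ᶜ = τ '' ((F : Set P2)ᶜ) := by
    ext x
    simp only [Set.mem_compl_iff, Finset.mem_coe, Finset.mem_map, Set.mem_image,
      Equiv.coe_toEmbedding]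
    constructor
    · intro hx
      exact ⟨τ.symm x, fun h => hx ⟨_, h, by simp⟩, by simp⟩
    · rintro ⟨y, hy, rfl⟩ ⟨z, hz, e⟩
      exact hy (τ.injective e ▸ hz)
  rw [e] at hu hv ⊢
  obtain ⟨a, ha, rfl⟩ := hu
  obtain ⟨b, hb, rfl⟩ := hv
  exact h.step.2 (hF a ha b hb)

theorem mem_map_iff {τ : P2 ≃ P2} {F : Finset P2} {t : P2} : τ t ∈ F.map τ.toEmbedding ↔ t ∈ F := by
  rw [Finset.mem_map]
  exact ⟨fun ⟨a, ha, e⟩ => by rw [← τ.injective e]; exact ha, fun h => ⟨t, h, rfl⟩⟩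

theorem Aut.mem_IV {σ τ : P2 ≃ P2} (h : Aut σ τ) {F : Finset P2} {v : P2} :
    σ v ∈ IV (F.map τ.toEmbedding) ↔ v ∈ IV F := by
  rw [mem_IV', mem_IV']
  constructor
  · intro h1 t ht
    exact mem_map_iff.1 (h1 (τ t) ((h _ _).2 ht))
  · intro h1 t ht
    have h2 := h1 (τ.symm t) (by rw [← h, τ.apply_symm_apply]; exact ht)
    rw [← mem_map_iff (τ := τ), τ.apply_symm_apply] at h2
    exact h2

theorem Aut.mem_VF {σ τ : P2 ≃ P2} (h : Aut σ τ) {F : Finset P2} {v : P2} :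
    σ v ∈ VF (F.map τ.toEmbedding) ↔ v ∈ VF F := by
  rw [Zg349.mem_VF, Zg349.mem_VF]
  constructor
  · rintro ⟨t, ht, h1⟩
    refine ⟨τ.symm t, ?_, ?_⟩
    · rw [← mem_map_iff (τ := τ), τ.apply_symm_apply]; exact ht
    · rw [← h, τ.apply_symm_apply]; exact h1
  · rintro ⟨t, ht, h1⟩
    exact ⟨τ t, mem_map_iff.2 ht, (h _ _).2 h1⟩

/-- configurations transported by an automorphism -/
def actC (σ τ : P2 → P2) (ω : Cfg) : Cfg := (fun v => ω.1 (σ v), fun t => ω.2 (τ t))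

theorem actC_symm (σ τ : P2 ≃ P2) (ω : Cfg) : actC σ τ (actC σ.symm τ.symm ω) = ω := by
  unfold actC; simp

theorem actC_symm' (σ τ : P2 ≃ P2) (ω : Cfg) : actC σ.symm τ.symm (actC σ τ ω) = ω := by
  unfold actC; simp

theorem lip_iff_up {h : P2 → ℤ} {t : P2} : (∀ i j, |h (cr t i) - h (cr t j)| ≤ 1) ↔
    ∀ u ∈ up t, ∀ v ∈ up t, |h u - h v| ≤ 1 := by
  constructor
  · intro h1 u hu v hv
    obtain ⟨i, rfl⟩ := mem_up_iff.1 hu
    obtain ⟨j, rfl⟩ := mem_up_iff.1 hv
    exact h1 i j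
  · intro h1 i j
    exact h1 _ (cr_mem_up t i) _ (cr_mem_up t j)

theorem c1_iff_up {h : P2 → ℤ} {t : P2} : C1 h t ↔ ∀ u ∈ up t, ∀ v ∈ up t, s1 (h u) = s1 (h v) := by
  constructor
  · rintro ⟨h1, h2⟩
    have key : ∀ i, s1 (h (cr t i)) = s1 (h (cr t 0)) := by
      intro i
      fin_cases i
      · rfl
      · exact h1.symm
      · exact h2.symm
    intro u hu v hv
    obtain ⟨i, rfl⟩ := mem_up_iff.1 hu
    obtain ⟨j, rfl⟩ := mem_up_iff.1 hv
    rw [key i, key j]
  · intro h1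
    exact ⟨h1 _ (cr_mem_up t 0) _ (cr_mem_up t 1), h1 _ (cr_mem_up t 0) _ (cr_mem_up t 2)⟩

theorem c2_iff_up {h : P2 → ℤ} {t : P2} : C2 h t ↔ ∀ u ∈ up t, ∀ v ∈ up t, s2 (h u) = s2 (h v) := by
  constructor
  · rintro ⟨h1, h2⟩
    have key : ∀ i, s2 (h (cr t i)) = s2 (h (cr t 0)) := by
      intro i
      fin_cases i
      · rfl
      · exact h1.symm
      · exact h2.symm
    intro u hu v hv
    obtain ⟨i, rfl⟩ := mem_up_iff.1 hu
    obtain ⟨j, rfl⟩ := mem_up_iff.1 hv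
    rw [key i, key j]
  · intro h1
    exact ⟨h1 _ (cr_mem_up t 0) _ (cr_mem_up t 1), h1 _ (cr_mem_up t 0) _ (cr_mem_up t 2)⟩

theorem Aut.forall_up {σ τ : P2 ≃ P2} (h : Aut σ τ) {t : P2} {p : P2 → Prop} :
    (∀ u ∈ up (τ t), p u) ↔ ∀ u ∈ up t, p (σ u) := by
  constructor
  · intro h1 u hu
    exact h1 _ ((h _ _).2 hu)
  · intro h1 u hu
    have h2 := h1 (σ.symm u) (by rw [← h, σ.apply_symm_apply]; exact hu)
    rwa [σ.apply_symm_apply] at h2

theorem Aut.c1 {σ τ : P2 ≃ P2} (h : Aut σ τ) {k : P2 → ℤ} {t : P2} :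
    C1 (fun v => k (σ v)) t ↔ C1 k (τ t) := by
  rw [c1_iff_up, c1_iff_up, h.forall_up]
  exact forall_congr' fun u => forall_congr' fun _ => (h.forall_up (t := t)
    (p := fun v => s1 (k (σ u)) = s1 (k v))).symm

theorem Aut.c2 {σ τ : P2 ≃ P2} (h : Aut σ τ) {k : P2 → ℤ} {t : P2} :
    C2 (fun v => k (σ v)) t ↔ C2 k (τ t) := by
  rw [c2_iff_up, c2_iff_up, h.forall_up]
  exact forall_congr' fun u => forall_congr' fun _ => (h.forall_up (t := t)
    (p := fun v => s2 (k (σ u)) = s2 (k v))).symm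

theorem Aut.ew {σ τ : P2 ≃ P2} (h : Aut σ τ) (c : ℝ) (ω : Cfg) (t : P2) :
    ew c (actC σ τ ω) t = ew c ω (τ t) := by
  unfold Zm349.ew actC
  simp only [h.c1, h.c2]

theorem Aut.hv {σ τ : P2 ≃ P2} (h : Aut σ τ) {F : Finset P2} {k : P2 → ℤ} :
    HV F (fun v => k (σ v)) ↔ HV (F.map τ.toEmbedding) k := by
  constructor
  · intro h1
    refine ⟨fun t ht => ?_, fun v hv => ?_, fun v hv => ?_⟩
    · have ht' : τ.symm t ∈ F := by rw [← mem_map_iff (τ := τ), τ.apply_symm_apply]; exact ht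
      have h2 := (lip_iff_up (h := fun v => k (σ v))).1 (h1.lip _ ht')
      rw [lip_iff_up]
      have e : t = τ (τ.symm t) := by simp
      rw [e, h.forall_up]
      intro u hu
      rw [h.forall_up]
      intro v hv
      exact h2 u hu v hv
    · have := h1.bd (σ.symm v) (by rw [← h.mem_IV, σ.apply_symm_apply]; exact hv)
      simpa using this
    · have := h1.off (σ.symm v) (by rw [← h.mem_VF, σ.apply_symm_apply]; exact hv)
      simpa using this
  · intro h1
    refine ⟨fun t ht => ?_, fun v hv => ?_, fun v hv => ?_⟩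
    · have h2 := lip_iff_up.1 (h1.lip _ (mem_map_iff.2 ht))
      refine (lip_iff_up (h := fun v => k (σ v))).2 ?_
      intro u hu v hv
      exact h2 _ ((h _ _).2 hu) _ ((h _ _).2 hv)
    · exact h1.bd _ (by rw [h.mem_IV]; exact hv)
    · exact h1.off _ (by rw [h.mem_VF]; exact hv)

theorem Aut.valid {σ τ : P2 ≃ P2} (h : Aut σ τ) {F : Finset P2} {ω : Cfg} :
    Valid F (actC σ τ ω) ↔ Valid (F.map τ.toEmbedding) ω := by
  constructor
  · rintro ⟨h1, h2⟩
    refine ⟨h.hv.1 h1, fun t ht => ?_⟩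
    have := h2 (τ.symm t) (by rw [← mem_map_iff (τ := τ), τ.apply_symm_apply]; exact ht)
    simpa [actC] using this
  · rintro ⟨h1, h2⟩
    exact ⟨h.hv.2 h1, fun t ht => h2 _ fun h3 => ht (mem_map_iff.1 h3)⟩

theorem Aut.wt {σ τ : P2 ≃ P2} (h : Aut σ τ) (c : ℝ) (F : Finset P2) (ω : Cfg) :
    wt c F (actC σ τ ω) = wt c (F.map τ.toEmbedding) ω := by
  unfold Zm349.wt
  rw [Finset.prod_map]
  exact Finset.prod_congr rfl fun t _ => h.ew c ω t

theorem Aut.sum {σ τ : P2 ≃ P2} (h : Aut σ τ) (F : Finset P2) (g : Cfg → ℝ) :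
    ∑ ω ∈ conf (F.map τ.toEmbedding), g (actC σ τ ω) = ∑ ω ∈ conf F, g ω := by
  classical
  refine Finset.sum_bij (fun ω _ => actC σ τ ω) (fun ω hω => mem_conf.2 (h.valid.2 (mem_conf.1 hω)))
    ?_ ?_ (fun ω _ => rfl)
  · intro a _ b _ hab
    rw [← actC_symm' σ τ a, hab, actC_symm']
  · intro b hb
    refine ⟨actC σ.symm τ.symm b, ?_, actC_symm σ τ b⟩
    rw [mem_conf, ← h.valid, actC_symm]
    exact mem_conf.1 hb

theorem Aut.Z {σ τ : P2 ≃ P2} (h : Aut σ τ) (c : ℝ) (F : Finset P2) :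
    Z c (F.map τ.toEmbedding) = Z c F := by
  unfold Zm349.Z
  rw [← h.sum F]
  exact Finset.sum_congr rfl fun ω _ => (h.wt c F ω).symm

/-- **automorphism invariance** -/
theorem E_map {σ τ : P2 ≃ P2} (h : Aut σ τ) (c : ℝ) (F : Finset P2) (f : Cfg → ℝ) :
    E c (F.map τ.toEmbedding) (fun ω => f (actC σ τ ω)) = E c F f := by
  rw [E_eq_div, E_eq_div, h.Z, ← h.sum F]
  congr 1
  exact Finset.sum_congr rfl fun ω _ => by rw [h.wt]

theorem Pr_map {σ τ : P2 ≃ P2} (h : Aut σ τ) (c : ℝ) (F : Finset P2) (A : Set Cfg) :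
    Pr c (F.map τ.toEmbedding) {ω | actC σ τ ω ∈ A} = Pr c F A := by
  have := E_map h c F (ind A)
  rw [Pr_eq, Pr_eq, ← this]
  rfl

/-! ### the three generators -/

theorem aut_tr (a : P2) : Aut (Equiv.addRight a) (Equiv.addRight a) := by
  intro t v
  simp only [Equiv.coe_addRight, mem_up, Prod.fst_add, Prod.snd_add]
  obtain ⟨a1, a2⟩ := a
  obtain ⟨t1, t2⟩ := t
  obtain ⟨v1, v2⟩ := v
  simp only [Prod.mk_add_mk, Prod.mk.injEq]
  omega

/-- the reflection `(x, y) ↦ (y, x)` -/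
def swE : P2 ≃ P2 where
  toFun v := (v.2, v.1)
  invFun v := (v.2, v.1)
  left_inv _ := rfl
  right_inv _ := rfl

@[simp] theorem swE_apply (v : P2) : swE v = (v.2, v.1) := rfl
@[simp] theorem swE_symm : swE.symm = swE := rfl

theorem aut_sw : Aut swE swE := by
  intro t v
  simp only [swE_apply, mem_up]
  obtain ⟨t1, t2⟩ := t
  obtain ⟨v1, v2⟩ := v
  simp only [Prod.mk.injEq]
  omega

/-- rotation by 120 degrees (sites) -/
def roE : P2 ≃ P2 where
  toFun v := (-v.1 - v.2, v.1)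
  invFun v := (v.2, -v.1 - v.2)
  left_inv v := by ext <;> simp
  right_inv v := by
    ext
    · show -v.2 - (-v.1 - v.2) = v.1
      ring
    · rfl

/-- rotation by 120 degrees (bases of up triangles) -/
def roT : P2 ≃ P2 where
  toFun v := (-v.1 - v.2 - 1, v.1)
  invFun v := (v.2, -v.1 - v.2 - 1)
  left_inv v := by
    ext
    · rfl
    · show -(-v.1 - v.2 - 1) - v.1 - 1 = v.2
      ring
  right_inv v := by
    ext
    · show -v.2 - (-v.1 - v.2 - 1) - 1 = v.1
      ring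
    · rfl

@[simp] theorem roE_apply (v : P2) : roE v = (-v.1 - v.2, v.1) := rfl
@[simp] theorem roT_apply (v : P2) : roT v = (-v.1 - v.2 - 1, v.1) := rfl

theorem aut_ro : Aut roE roT := by
  intro t v
  simp only [roE_apply, roT_apply, mem_up]
  obtain ⟨t1, t2⟩ := t
  obtain ⟨v1, v2⟩ := v
  simp only [Prod.mk.injEq]
  omega

/-! ### translation invariance of blocking probabilities -/

theorem ball_map (a : P2) (n : ℕ) : (hexB n).map (Equiv.addRight a).toEmbedding = ball a n := by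
  ext v
  rw [Finset.mem_map, mem_ball']
  constructor
  · rintro ⟨w, hw, rfl⟩
    simpa using hw
  · intro h
    exact ⟨_, h, by simp⟩

theorem mem_ball_tr {a v : P2} {n : ℕ} : v + a ∈ ball a n ↔ v ∈ hexB n := by
  rw [mem_ball', add_sub_cancel_right]

theorem sepr_tr {S : Set P2} {a : P2} {m N : ℕ} :
    Sepr {t | t + a ∈ S} 0 m N ↔ Sepr S a m N := by
  have e : (Equiv.addRight a) '' {t | t + a ∈ S}ᶜ = Sᶜ := by
    ext x
    simp only [Equiv.coe_addRight, Set.mem_image, Set.mem_compl_iff, Set.mem_ofPred_eq]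
    constructor
    · rintro ⟨y, hy, rfl⟩; exact hy
    · intro hx; exact ⟨x - a, by simpa using hx, by simp⟩
  unfold Sepr
  constructor
  · intro h u v hu hv p
    refine h (u - a) (v - a) ?_ ?_ ?_
    · rw [ball_zero_eq, ← mem_ball_tr (a := a), sub_add_cancel]; exact hu
    · rw [ball_zero_eq, ← mem_ball_tr (a := a), sub_add_cancel]; exact hv
    · rw [← (aut_tr a).step, e]; simpa using p
  · intro h u v hu hv p
    refine h (u + a) (v + a) ?_ ?_ ?_
    · rw [mem_ball_tr, ← ball_zero_eq]; exact hu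
    · rw [mem_ball_tr, ← ball_zero_eq]; exact hv
    · rw [← (aut_tr a).step, e] at p; simpa using p

theorem mC_actC_tr {a : P2} {ω : Cfg} {t : P2} :
    mC (actC (Equiv.addRight a) (Equiv.addRight a) ω) t ↔ mC ω (t + a) := Iff.rfl

theorem pC_actC_tr {a : P2} {ω : Cfg} {t : P2} :
    pC (actC (Equiv.addRight a) (Equiv.addRight a) ω) t ↔ pC ω (t + a) := Iff.rfl

theorem Pr_blk_tr (c : ℝ) (F : Finset P2) (a : P2) (m M : ℕ) :
    Pr c (F.map (Equiv.addRight a).toEmbedding) (Blk a m M) = Pr c F (Blk 0 m M) := by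
  rw [← Pr_map (aut_tr a) c F (Blk 0 m M)]
  congr 1
  refine Set.ext fun ω => ?_
  exact (sepr_tr (S := {t | mC ω t})).symm

theorem Pr_blkP_tr (c : ℝ) (F : Finset P2) (a : P2) (m M : ℕ) :
    Pr c (F.map (Equiv.addRight a).toEmbedding) (BlkP a m M) = Pr c F (BlkP 0 m M) := by
  rw [← Pr_map (aut_tr a) c F (BlkP 0 m M)]
  congr 1
  refine Set.ext fun ω => ?_
  exact (sepr_tr (S := {t | pC ω t})).symm

theorem Pr_blk_ball (c : ℝ) (a : P2) (N m M : ℕ) :
    Pr c (ball a N) (Blk a m M) = Pr c (hexB N) (Blk 0 m M) := by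
  rw [← ball_map, Pr_blk_tr]

theorem Pr_blkP_ball (c : ℝ) (a : P2) (N m M : ℕ) :
    Pr c (ball a N) (BlkP a m M) = Pr c (hexB N) (BlkP 0 m M) := by
  rw [← ball_map, Pr_blkP_tr]

end Crest.Agent.R144.Rw146
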