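import Crest.Agent.R144.Bnd7_991
import Crest.Agent.R144.Bx3_695
import Crest.Agent.R144.Rw1_146

/-!
# R144, block BND, part 8 (helper991): zero boundary data, and transport by automorphisms

* `CrH N o r R` : heights with a crossing of free sites with `h ≥ 1`; `Scs.zero` : for data `τ ≤ 0` the
  probability of the crossing is `≤ (1 - q0 c0) ^ #S`;
* `ex_aut` : transport of `ex x Λ ξ` by the automorphisms of the lattice preserving the up triangles.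
-/

set_option autoImplicit false
set_option linter.unusedSectionVars false
set_option linter.unusedVariables false

noncomputable section

namespace Crest.Agent.R144.Bnd991

open Finset
open Crest.Agent.R144.It844 (P2 Lip adj_iff adj_symm lip_iff upT mem_upT ex conf mem_conf tw Cst)
open Crest.Agent.R144.Zg349 Crest.Agent.R144.Zd349 Crest.Agent.R144.Zm349 Crest.Agent.R144.Ze349
open Crest.Agent.R144.Rsw867 (ball mem_ball ball_mono adj_ball sc_ball Sepr Blk BlkP ind ind_nonneg ind_le_one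
  RSW ind_congr ind_le_ind ind_of_mem ind_of_not_mem)
open Crest.Agent.R144.Bx695 (KI KI_of KI_of_not KI_nonneg KI_le_one)
open Crest.Agent.R144.Rw146 (Aut)
open Crest.ProbabilityR.HexHeights (Adj)

/-! ### the crossing event on heights -/

/-- a path of free sites with `h ≥ 1` from outside `ball o R` to `ball o r` -/
def CrH (N : Set P2) (o : P2) (r R : ℕ) : Set (P2 → ℤ) := {h | ¬ Sepr {v | v ∈ N ∨ h v ≤ 0} o r R}

theorem ki_cross (N : Set P2) (o : P2) (r R : ℕ) (ω : Cfg) :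
    KI (CrH N o r R) ω.1 = ind (Cross N o r R) ω := by
  unfold Bx695.KI Rsw867.ind
  rfl

theorem mono_CrH (N : Set P2) (o : P2) (r R : ℕ) : Monotone (KI (CrH N o r R)) := by
  intro h h' hle
  by_cases h1 : h ∈ CrH N o r R
  · rw [KI_of h1, KI_of]
    intro h2
    refine h1 (Sepr.mono ?_ h2)
    rintro v (hv | hv)
    · exact Or.inl hv
    · exact Or.inr ((hle v).trans hv)
  · rw [KI_of_not h1]; exact KI_nonneg _ _

/-! ### positivity, big balls -/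

theorem E_pos {c : ℝ} (hc : 1 ≤ c) {F : Finset P2} {f : Cfg → ℝ} (h0 : ∀ ω, 0 ≤ f ω)
    (h1 : 0 < f flat) : 0 < E c F f := by
  unfold Zm349.E
  refine Finset.sum_pos' (fun ω _ => mul_nonneg (pr_nonneg hc F ω) (h0 ω))
    ⟨flat, mem_conf.2 (valid_flat F), mul_pos ?_ h1⟩
  rw [pr_of_valid c (valid_flat F), wt_flat]
  exact div_pos one_pos (Z_pos hc F)

theorem cnkn_flat (N X : Set P2) : Cn N flat * Kn X flat = 1 := by
  rw [Cn_of (fun v _ => by simp [flat, s1]), Kn_of (fun t _ => ⟨rfl, by simp [flat, s1]⟩)]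
  norm_num

theorem exists_ball_sup (T : Finset P2) (o : P2) : ∃ R : ℕ, T ⊆ ball o R := by
  classical
  induction T using Finset.induction_on with
  | empty => exact ⟨0, Finset.empty_subset _⟩
  | insert t T _ ih =>
    obtain ⟨R, hR⟩ := ih
    refine ⟨R + (t.1 - o.1).natAbs + (t.2 - o.2).natAbs, ?_⟩
    rw [Finset.insert_subset_iff]
    constructor
    · have h1 := le_abs_self (t.1 - o.1)
      have h2 := neg_abs_le (t.1 - o.1)
      have h3 := le_abs_self (t.2 - o.2)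
      have h4 := neg_abs_le (t.2 - o.2)
      rw [mem_ball]
      simp only [abs_le]
      push_cast
      omega
    · exact hR.trans (ball_mono o (by omega))

/-- a big ball for the domain `Λ` -/
theorem exists_big_ball (Λ : Finset P2) (o : P2) (d : ℕ)
    (hΛ : IsConn ((Λ : Set P2)ᶜ)) : ∃ R : ℕ, upT Λ ⊆ ball o R ∧ ball o d ⊆ ball o R ∧
      Anc {v | v ∉ Λ} (ball o R) := by
  classical
  obtain ⟨R, hR⟩ := exists_ball_sup (upT Λ) o
  refine ⟨max R d, hR.trans (ball_mono o (le_max_left _ _)), ball_mono o (le_max_right _ _), hΛ, ?_⟩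
  obtain ⟨v, hv⟩ := Infinite.exists_notMem_finset (Λ ∪ IV (ball o (max R d)))
  rw [Finset.mem_union, not_or] at hv
  exact ⟨v, hv.1, hv.2⟩

section
variable {K A R L km : ℕ} {N : Set P2} {o : P2} {s d : ℕ} {ι : Type*} {S : Finset ι}
  {n r1 r2 k : ι → ℕ} {h : ι → ℤ} {b y : ι → Bool → P2} {a : ι → ℕ → P2}

/-- **Data `≤ 0`.** -/
theorem Scs.zero [DecidableEq ι] {Λ : Finset P2}
    (H : Scs K A R L km {v | v ∉ Λ} o s d S n r1 r2 k h b y a)
    {x p : ℝ} (hx0 : 0 < x) (hx1 : x ≤ 1) (hR : RSW ((x ^ 2)⁻¹) K p) {q : ℕ → ℝ}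
    (hA : LemA ((x ^ 2)⁻¹) K A R q) {q0 : ℝ} (hq0 : 0 ≤ q0) (hq1 : q0 ≤ 1) (hq : ∀ i ≤ km, q0 ≤ q i)
    (hΛ : IsConn ((Λ : Set P2)ᶜ)) {τ : P2 → ℤ} (hτ : Lip τ) (hτ0 : ∀ v, v ∉ Λ → τ v ≤ 0) :
    ex x Λ τ (KI (CrH {v | v ∉ Λ} o s d)) ≤ (1 - q0 * p ^ ((2 * L + 1) ^ 2)) ^ S.card := by
  have hc : (1 : ℝ) ≤ (x ^ 2)⁻¹ := by
    rw [one_le_inv₀ (by positivity)]
    exact pow_le_one₀ hx0.le hx1
  obtain ⟨R', hR1, hR2, hAnc⟩ := exists_big_ball Λ o d hΛ
  have h1 := H.decay hc hR hA hq0 hq1 hq (sc_ball o R') hAnc hR2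
  have h2 := Bx695.le_cn hx0 hx1 hR1 hAnc (fun v => Iff.rfl) (H.corner hR.K4) hτ hτ0
    (mono_CrH {v | v ∉ Λ} o s d)
  have h3 : 0 < E ((x ^ 2)⁻¹) (ball o R')
      (fun ω => Cn {v | v ∉ Λ} ω * Kn (XS K o S n r1 r2 b) ω) :=
    E_pos hc (fun ω => mul_nonneg (Cn_nonneg _ _) (Kn_nonneg _ _)) (by rw [cnkn_flat]; norm_num)
  have e1 : E ((x ^ 2)⁻¹) (ball o R') (fun ω => Cn {v | v ∉ Λ} ω * Kn (XS K o S n r1 r2 b) ω *
      KI (CrH {v | v ∉ Λ} o s d) ω.1) = E ((x ^ 2)⁻¹) (ball o R') (fun ω =>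
      Kn (XS K o S n r1 r2 b) ω * Cn {v | v ∉ Λ} ω * ind (Cross {v | v ∉ Λ} o s d) ω) :=
    E_congr fun ω _ => by rw [ki_cross]; ring
  have e2 : E ((x ^ 2)⁻¹) (ball o R') (fun ω => Kn (XS K o S n r1 r2 b) ω * Cn {v | v ∉ Λ} ω) =
      E ((x ^ 2)⁻¹) (ball o R') (fun ω => Cn {v | v ∉ Λ} ω * Kn (XS K o S n r1 r2 b) ω) :=
    E_congr fun ω _ => by ring
  rw [e1] at h2
  rw [e2] at h1
  exact le_of_mul_le_mul_right (h2.trans h1) h3

end

/-! ### transport by automorphisms -/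

theorem cst_iff_up {h : P2 → ℤ} {t : P2} : Cst h t ↔ ∀ u ∈ up t, ∀ v ∈ up t, h u = h v := by
  unfold It844.Cst
  constructor
  · rintro ⟨h1, h2⟩ u hu v hv
    rw [mem_up] at hu hv
    rcases hu with rfl | rfl | rfl <;> rcases hv with rfl | rfl | rfl <;> first | rfl | omega
  · intro H
    exact ⟨H _ (by simp [mem_up]) _ (by simp [mem_up]), H _ (by simp [mem_up]) _ (by simp [mem_up])⟩

theorem Aut.tw {σ τ : P2 ≃ P2} (hA : Aut σ τ) (x : ℝ) (h : P2 → ℤ) (t : P2) :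
    tw x h (τ t) = tw x (h ∘ σ) t := by
  have : Cst h (τ t) ↔ Cst (h ∘ σ) t := by
    rw [cst_iff_up, cst_iff_up]
    rw [hA.forall_up (p := fun u => ∀ v ∈ up (τ t), h u = h v)]
    refine forall₂_congr fun u _ => ?_
    rw [hA.forall_up (p := fun v => h (σ u) = h v)]
    rfl
  unfold It844.tw
  simp only [this]

theorem lip_iff_up' {h : P2 → ℤ} : Lip h ↔ ∀ t, ∀ u ∈ up t, ∀ v ∈ up t, |h u - h v| ≤ 1 := by
  rw [lip_iff]
  refine forall_congr' fun t => ?_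
  constructor
  · rintro ⟨h1, h2, h3⟩ u hu v hv
    rw [mem_up] at hu hv
    rw [abs_le] at h1 h2 h3 ⊢
    rcases hu with rfl | rfl | rfl <;> rcases hv with rfl | rfl | rfl <;> omega
  · intro H
    exact ⟨H _ (by simp [mem_up]) _ (by simp [mem_up]), H _ (by simp [mem_up]) _ (by simp [mem_up]),
      H _ (by simp [mem_up]) _ (by simp [mem_up])⟩

theorem Aut.lip {σ τ : P2 ≃ P2} (hA : Aut σ τ) {h : P2 → ℤ} : Lip (h ∘ σ) ↔ Lip h := by
  rw [lip_iff_up', lip_iff_up']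
  constructor
  · intro H t
    have h1 := H (τ.symm t)
    have h2 := (hA.forall_up (t := τ.symm t) (p := fun u => ∀ v ∈ up (τ (τ.symm t)), |h u - h v| ≤ 1)).2
      (fun u hu => (hA.forall_up (t := τ.symm t) (p := fun v => |h (σ u) - h v| ≤ 1)).2 (h1 u hu))
    rwa [τ.apply_symm_apply] at h2
  · intro H t u hu v hv
    exact H (τ t) (σ u) ((hA t u).2 hu) (σ v) ((hA t v).2 hv)

theorem mem_upT_up {Λ : Finset P2} {t : P2} : t ∈ upT Λ ↔ ∃ v ∈ Λ, v ∈ up t := by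
  rw [mem_upT]
  constructor
  · rintro (h | h | h)
    · exact ⟨_, h, mem_up.2 (Or.inl rfl)⟩
    · exact ⟨_, h, mem_up.2 (Or.inr (Or.inl rfl))⟩
    · exact ⟨_, h, mem_up.2 (Or.inr (Or.inr rfl))⟩
  · rintro ⟨v, hv, h⟩
    rcases mem_up.1 h with rfl | rfl | rfl
    · exact Or.inl hv
    · exact Or.inr (Or.inl hv)
    · exact Or.inr (Or.inr hv)

theorem Aut.upT {σ τ : P2 ≃ P2} (hA : Aut σ τ) (Λ : Finset P2) :
    upT (Λ.map σ.toEmbedding) = (upT Λ).map τ.toEmbedding := by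
  ext t
  rw [mem_upT_up, Finset.mem_map]
  constructor
  · rintro ⟨v, hv, hvt⟩
    obtain ⟨w, hw, rfl⟩ := Finset.mem_map.1 hv
    refine ⟨τ.symm t, mem_upT_up.2 ⟨w, hw, ?_⟩, by simp⟩
    rw [← hA, τ.apply_symm_apply]
    exact hvt
  · rintro ⟨s, hs, rfl⟩
    obtain ⟨v, hv, hvs⟩ := mem_upT_up.1 hs
    exact ⟨σ v, Finset.mem_map.2 ⟨v, hv, rfl⟩, (hA s v).2 hvs⟩

theorem Aut.wt {σ τ : P2 ≃ P2} (hA : Aut σ τ) (x : ℝ) (Λ : Finset P2) (h : P2 → ℤ) :
    It844.wt x (Λ.map σ.toEmbedding) h = It844.wt x Λ (h ∘ σ) := by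
  unfold It844.wt
  rw [Aut.upT hA, Finset.prod_map]
  exact Finset.prod_congr rfl fun t _ => Aut.tw hA x h t

theorem Aut.mem_conf {σ τ : P2 ≃ P2} (hA : Aut σ τ) {Λ : Finset P2} {ξ h : P2 → ℤ} :
    h ∈ conf (Λ.map σ.toEmbedding) ξ ↔ h ∘ σ ∈ conf Λ (ξ ∘ σ) := by
  rw [It844.mem_conf, It844.mem_conf, Aut.lip hA]
  refine and_congr_right fun _ => ?_
  constructor
  · intro H v hv
    refine H (σ v) fun h1 => hv ?_
    obtain ⟨w, hw, hw'⟩ := Finset.mem_map.1 h1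
    rwa [← σ.injective hw']
  · intro H v hv
    have := H (σ.symm v) fun h1 => hv (Finset.mem_map.2 ⟨_, h1, by simp⟩)
    simpa using this

theorem Aut.sum_conf {σ τ : P2 ≃ P2} (hA : Aut σ τ) {V : Type*} [AddCommMonoid V] (Λ : Finset P2)
    (ξ : P2 → ℤ) (g : (P2 → ℤ) → V) :
    ∑ h ∈ conf (Λ.map σ.toEmbedding) ξ, g (h ∘ σ) = ∑ h ∈ conf Λ (ξ ∘ σ), g h := by
  refine Finset.sum_bij (fun h _ => h ∘ σ) (fun h hh => (Aut.mem_conf hA).1 hh) ?_ ?_ (fun h _ => rfl)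
  · intro a _ b _ hab
    funext v
    have := congrFun hab (σ.symm v)
    simpa using this
  · intro b hb
    refine ⟨b ∘ σ.symm, ?_, ?_⟩
    · rw [Aut.mem_conf hA]
      have : (b ∘ σ.symm) ∘ σ = b := by funext v; simp
      rwa [this]
    · funext v; simp

/-- **Transport of the law by an automorphism.** -/
theorem ex_aut {σ τ : P2 ≃ P2} (hA : Aut σ τ) {V : Type*} [AddCommGroup V] [Module ℝ V] (x : ℝ)
    (Λ : Finset P2) (ξ : P2 → ℤ) (f : (P2 → ℤ) → V) :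
    ex x (Λ.map σ.toEmbedding) ξ (fun h => f (h ∘ σ)) = ex x Λ (ξ ∘ σ) f := by
  unfold It844.ex It844.Z
  rw [← Aut.sum_conf hA Λ ξ, ← Aut.sum_conf hA Λ ξ]
  congr 1
  · congr 1
    exact Finset.sum_congr rfl fun h _ => Aut.wt hA x Λ h
  · exact Finset.sum_congr rfl fun h _ => by rw [Aut.wt hA x Λ h]

end Crest.Agent.R144.Bnd991
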