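import Crest.Agent.R144.Ef2_725
import Crest.Agent.R144.Bnd8_991

/-!
# R144, block BND, (F3), part 3 (helper725): the far arc

* `Nfar`, `Lnear` : far non-free sites, `Lnear` = the complement (free sites and near non-free sites);
* `far_arc`, `far_arcN` : **(F3)** for boundary data `τ ∈ {0, 1}` with `τ = 0` on the near non-free sites:
  `ex x Λ τ (KI (CrH N o s d)) ≤ C (m / M) ^ α + (1 - q0 p ^ ((2 L + 1) ^ 2)) ^ #S`.
-/

set_option autoImplicit false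
set_option linter.unusedVariables false
set_option linter.unusedSectionVars false
set_option linter.unusedSimpArgs false

noncomputable section

namespace Crest.Agent.R144.Ef725

open Finset
open Crest.Agent.R144.It844 (P2 Lip upT mem_upT ex adj_iff adj_symm lip_const)
open Crest.Agent.R144.Zg349 Crest.Agent.R144.Zk349 Crest.Agent.R144.Zd349
open Crest.Agent.R144.Zm349 Crest.Agent.R144.Ze349 Crest.Agent.R144.Zs349
open Crest.Agent.R144.Zo349
open Crest.Agent.R144.Bnd991 Crest.Agent.R144.Bnl991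
open Crest.Agent.R144.Ccn2311 (LowB)
open Crest.Agent.R144.Rsw867 (ball mem_ball ball_mono adj_ball sc_ball Sepr Blk BlkP ind ind_nonneg ind_le_one
  path_mono RSW ind_of_mem ind_of_not_mem ind_congr ind_compl ind_le_ind)
open Crest.Agent.R144.Hf702 (Xg Bg mem_Bg notMem_Bg layer_Bg Bg_sub sc_Bg PB PBI PBI_nonneg offTZ_PBI sum_PBI
  xg_of_notMem ball_sub_Bg pLay_of_PBI)
open Crest.Agent.R144.Bx695 (Off off_Cn off_Kn KI KI_le_one)
open Crest.Agent.R144.Pst967 (path_symm)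
open Crest.ProbabilityR.HexHeights (Adj)

/-! ### far and near non-free sites -/

/-- non-free sites joined to the outside of `ball o d2` off `ball o d1` -/
def Nfar (Λ : Finset P2) (o : P2) (d1 d2 : ℕ) : Set P2 :=
  {v | ∃ u, u ∉ Λ ∧ u ∉ ball o d2 ∧
    Relation.ReflTransGen (StepIn {w | w ∉ Λ ∧ w ∉ ball o d1}) u v}

open Classical in
/-- free sites and near non-free sites -/
def Lnear (Λ : Finset P2) (o : P2) (d1 d2 : ℕ) : Finset P2 :=
  (Λ ∪ ball o d2).filter fun v => v ∉ Nfar Λ o d1 d2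

section
variable {Λ : Finset P2} {o : P2} {d1 d2 : ℕ}

theorem nfar_sub (hd : d1 ≤ d2) {v : P2} (hv : v ∈ Nfar Λ o d1 d2) : v ∉ Λ ∧ v ∉ ball o d1 := by
  obtain ⟨u, h1, h2, hp⟩ := hv
  rcases Relation.ReflTransGen.cases_tail hp with h | ⟨w, _, h⟩
  · rw [h]
    exact ⟨h1, fun h3 => h2 (ball_mono o hd h3)⟩
  · exact h.2.1

theorem mem_Lnear {v : P2} : v ∈ Lnear Λ o d1 d2 ↔ v ∉ Nfar Λ o d1 d2 := by
  classical
  unfold Lnear
  rw [Finset.mem_filter, Finset.mem_union]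
  refine ⟨fun h => h.2, fun h => ⟨?_, h⟩⟩
  by_contra h1
  rw [not_or] at h1
  exact h ⟨v, h1.1, h1.2, Relation.ReflTransGen.refl⟩

theorem notMem_Lnear {v : P2} : v ∉ Lnear Λ o d1 d2 ↔ v ∈ Nfar Λ o d1 d2 := by
  rw [mem_Lnear, not_not]

theorem sub_Lnear (hd : d1 ≤ d2) : Λ ⊆ Lnear Λ o d1 d2 := fun v hv =>
  mem_Lnear.2 fun h => (nfar_sub hd h).1 hv

theorem ball_sub_Lnear (hd : d1 ≤ d2) : ball o d1 ⊆ Lnear Λ o d1 d2 := fun v hv =>
  mem_Lnear.2 fun h => (nfar_sub hd h).2 hv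

/-- far sites are joined to each other -/
theorem conn_Nfar (hd : d1 ≤ d2) (hfar : ∀ u v, u ∉ Λ → v ∉ Λ → u ∉ ball o d2 → v ∉ ball o d2 →
    Relation.ReflTransGen (StepIn {w | w ∉ Λ ∧ w ∉ ball o d1}) u v) :
    IsConn ((Lnear Λ o d1 d2 : Finset P2) : Set P2)ᶜ := by
  set T : Set P2 := ((Lnear Λ o d1 d2 : Finset P2) : Set P2)ᶜ with hT
  have hmem : ∀ v, v ∈ T ↔ v ∈ Nfar Λ o d1 d2 := fun v => by
    rw [hT, Set.mem_compl_iff, Finset.mem_coe, notMem_Lnear]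
  have key : ∀ u v, u ∉ Λ → u ∉ ball o d2 →
      Relation.ReflTransGen (StepIn {w | w ∉ Λ ∧ w ∉ ball o d1}) u v →
      Relation.ReflTransGen (StepIn T) u v := by
    intro u v h1 h2 hp
    induction hp with
    | refl => exact Relation.ReflTransGen.refl
    | @tail b e hb hbe ih =>
      exact ih.tail ⟨(hmem _).2 ⟨u, h1, h2, hb⟩, (hmem _).2 ⟨u, h1, h2, hb.tail hbe⟩, hbe.2.2⟩
  intro a ha b hb
  obtain ⟨u, h1, h2, hp⟩ := (hmem a).1 ha
  obtain ⟨v, h3, h4, hq⟩ := (hmem b).1 hb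
  exact (path_symm (key u a h1 h2 hp)).trans ((key u v h1 h2 (hfar u v h1 h3 h2 h4)).trans
    (key v b h3 h4 hq))

end

/-- the law with fixed boundary heights gives positive mass to `Kn X * Cn N` -/
theorem E0_pos_one {c : ℝ} (hc : 1 ≤ c) (Λ' : Finset P2) (X N : Set P2) :
    0 < E0 c Λ' (fun _ => 1) (fun ω => Kn X ω * Cn N ω) := by
  set ω0 : Cfg := (fun _ => 1, fun _ => true) with hω0
  have h1 : ω0 ∈ cf Λ' (fun _ => 1) := by
    rw [mem_cf]
    exact ⟨⟨lip_const 1, fun _ _ => rfl⟩, fun _ _ => rfl⟩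
  have h2 : Zm349.wt c (upT Λ') ω0 = 1 := by
    unfold Zm349.wt ew C1
    simp [hω0]
  have h5 : s1 (1 : ℤ) = true := by decide
  have h3 : Kn X ω0 = 1 := Kn_of fun t _ => ⟨rfl, h5⟩
  have h4 : Cn N ω0 = 1 := Cn_of fun v _ => h5
  unfold E0
  refine div_pos ?_ (Z0_pos hc (lip_const 1))
  unfold S0
  refine Finset.sum_pos' (fun ω _ => mul_nonneg (Zm349.wt_nonneg hc _ _)
    (mul_nonneg (Kn_nonneg _ _) (Cn_nonneg _ _))) ⟨ω0, h1, ?_⟩
  show 0 < Zm349.wt c (upT Λ') ω0 * (Kn X ω0 * Cn N ω0)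
  rw [h2, h3, h4]
  norm_num

/-- **(F3), core form**: `Λ'` = free sites and near non-free sites. -/
theorem far_core {x : ℝ} (hx0 : 0 < x) (hx1 : x ≤ 1) {K : ℕ} {p : ℝ} (hR : RSW ((x ^ 2)⁻¹) K p) :
    ∃ C α : ℝ, 1 ≤ C ∧ 0 < α ∧ ∀ {A R L km : ℕ} {q : ℕ → ℝ}, LemA ((x ^ 2)⁻¹) K A R q →
      ∀ {q0 : ℝ}, 0 ≤ q0 → q0 ≤ 1 → (∀ i ≤ km, q0 ≤ q i) →
      ∀ (Λ Λ' : Finset P2) (τ : P2 → ℤ) (o : P2) (s d m M : ℕ) {ι : Type} [DecidableEq ι]
        (S : Finset ι) {n r1 r2 k : ι → ℕ} {h : ι → ℤ} {b y : ι → Bool → P2} {a : ι → ℕ → P2},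
        Scs K A R L km {v | v ∉ Λ} o s d S n r1 r2 k h b y a →
        IsConn ((Λ : Set P2)ᶜ) → Lip τ → (∀ v, v ∉ Λ → τ v = 0 ∨ τ v = 1) →
        Λ ⊆ Λ' → IsConn ((Λ' : Set P2)ᶜ) → ball o (K * M) ⊆ Λ' →
        (∀ v, v ∉ Λ → v ∈ Λ' → τ v = 0) → d + 2 ≤ m → m ≤ M →
        ex x Λ τ (KI (CrH {v | v ∉ Λ} o s d)) ≤
          C * ((m : ℝ) / M) ^ α + (1 - q0 * p ^ ((2 * L + 1) ^ 2)) ^ S.card := by
  have hc : (1 : ℝ) ≤ (x ^ 2)⁻¹ := by
    rw [one_le_inv₀ (by positivity)]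
    exact pow_le_one₀ hx0.le hx1
  obtain ⟨C, α, hC, hα, hdec⟩ := decayF hc hR
  refine ⟨C, α, hC, hα, ?_⟩
  intro A R L km q hA q0 hq0 hq1 hq Λ Λ' τ o s d m M ι _ S n r1 r2 k h b y a H hΛ hτ h01 hΛΛ' hconn
    hbΛ' h0 hdm hmM
  have hp0 := hR.p0
  have hp1 : p ≤ 1 := by linarith [hR.p1]
  have hK := hR.K4
  have hpow : p ^ ((2 * L + 1) ^ 2) ≤ 1 := pow_le_one₀ hp0.le hp1
  have hpow0 : 0 ≤ p ^ ((2 * L + 1) ^ 2) := pow_nonneg hp0.le _
  set ρ : ℝ := (1 - q0 * p ^ ((2 * L + 1) ^ 2)) ^ S.card with hρ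
  have hρ0 : 0 ≤ ρ := pow_nonneg (by nlinarith) _
  have hMr : (0 : ℝ) ≤ (m : ℝ) / M := by positivity
  have hCa : 0 ≤ C * ((m : ℝ) / M) ^ α := mul_nonneg (by linarith) (Real.rpow_nonneg hMr _)
  set N : Set P2 := {v | v ∉ Λ} with hN
  have hNm : ∀ v, v ∈ N ↔ v ∉ Λ := fun v => Iff.rfl
  rcases S.eq_empty_or_nonempty with hS | ⟨j, hj⟩
  · have e1 : ρ = 1 := by rw [hρ, hS]; simp
    rw [e1]
    have h2 : ex x Λ τ (KI (CrH N o s d)) ≤ ex x Λ τ (fun _ => (1 : ℝ)) :=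
      It844.ex_mono fun g _ => KI_le_one _ _
    rw [It844.ex_const hx0 hτ] at h2
    linarith
  have hrs := H.hs j hj
  have hrd := H.hd j hj
  have hr12 := (H.fr j hj).r12
  have hrin := (H.fr j hj).rin
  have hsd : s ≤ d := by omega
  set X := XS K o S n r1 r2 b with hX
  set c : ℝ := (x ^ 2)⁻¹ with hcdef
  set χ : Cfg → ℝ := ind (Cross N o s d) with hχdef
  have hXc : ∀ t ∈ X, ∀ v ∈ up t, v ∉ Λ := fun t ht v hv => (hNm v).1 (H.corner hK t ht v hv)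
  obtain ⟨u0, hu0⟩ := Infinite.exists_notMem_finset Λ'
  have hu0N : u0 ∈ N := (hNm u0).2 fun h1 => hu0 (hΛΛ' h1)
  have hht : ∀ ω ∈ cf Λ' (fun _ => 1), (∀ v ∈ N, s1 (ω.1 v) = true) →
      ∀ v ∈ N, ω.1 v = 0 ∨ ω.1 v = 1 := fun ω hω hC =>
    ht01c hΛ hu0N hu0 (mem_cf.1 hω).1.1 (mem_cf.1 hω).1.2 hC
  set φ : Cfg → ℝ := fun ω => Kn X ω * Cn N ω with hφ
  have hφ0 : ∀ ω, 0 ≤ φ ω := fun ω => mul_nonneg (Kn_nonneg _ _) (Cn_nonneg _ _)
  set E' : (Cfg → ℝ) → ℝ := E0 c Λ' (fun _ => 1) with hE'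
  -- step 1 : comparison
  have hs1 : ex x Λ τ (KI (CrH N o s d)) * E' φ ≤ E' (fun ω => φ ω * χ ω) := by
    have h1 := le_E0 hx0 hx1 hΛΛ' (ξ := fun _ => 1) (τ := τ) (φ := φ)
      (f := KI (CrH N o s d)) (fun ω _ => hφ0 ω)
      ((off_Kn hXc).mul (off_Cn fun v hv => (hNm v).1 hv)) hτ (fun ω hω hne v hv => ?_)
      (mono_CrH N o s d)
    · refine h1.trans (le_of_eq ?_)
      rw [hE']
      congr 1
    · have hC1 : ∀ v ∈ N, s1 (ω.1 v) = true := Cn_ne.1 fun h2 => hne (by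
        simp only [hφ]; rw [h2, mul_zero])
      by_cases hv' : v ∈ Λ'
      · rw [h0 v hv hv']
        rcases hht ω hω hC1 v ((hNm v).2 hv) with h5 | h5 <;> rw [h5]
        norm_num
      · rw [(mem_cf.1 hω).1.2 v hv']
        rcases h01 v hv with h5 | h5 <;> rw [h5]
        norm_num
  -- positivity
  have hpos : 0 < E' φ := E0_pos_one hc Λ' X N
  -- step 2 : circuits
  have hs2 : E' (fun ω => φ ω * ind (BlkP o m M)ᶜ ω) ≤ C * ((m : ℝ) / M) ^ α * E' φ := by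
    refine hdec _ E' (lowB_E0 hc hconn (fun v _ => Or.inr rfl) (lip_const 1)) m M
      (by omega) (by omega) o φ hφ0 fun r hr1 hr2 => ⟨⟨sc_ball o r, fun t ht => ?_, ?_⟩, ?_⟩
    · have h1 : t ∈ Λ' := hbΛ' (ball_mono o (by omega) ht)
      exact mem_upT_iff.2 ⟨t, h1, base_mem_up t⟩
    · exact fun v hv => hbΛ' (ball_mono o (by omega) (IV_sub _ hv))
    · refine (fac_Kn fun t ht _ => ?_).mul (fac_Cn N _)
      have h1 : t ∈ ball o d := H.XS_sub hK t ht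
      rw [mem_IV']
      intro t' ht'
      have h2 : t' ∈ ball o (d + 1) := by
        rcases eq_or_ne t' t with h3 | h3
        · rw [h3]; exact ball_mono o (Nat.le_succ d) h1
        · exact adj_ball h1 (adj_of_site (Ne.symm h3) (base_mem_up t) ht')
      refine ball_mono o ?_ h2
      have : m ≤ K * m := Nat.le_mul_of_pos_left _ (by omega)
      omega
  -- step 3 : decoupling
  have hs3 : E' (fun ω => φ ω * (ind (BlkP o m M) ω * χ ω)) ≤ ρ * E' φ := by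
    set D := ball o (M + 1) with hD
    have hone : ∀ f : Cfg → ℝ, E' f = ∑ B0 ∈ D.powerset, E' (fun ω => PBI D B0 ω * f ω) := by
      intro f
      rw [hE', ← E0_sum]
      congr 1
      funext ω
      rw [← Finset.sum_mul, sum_PBI, one_mul]
    rw [hone, hone φ, Finset.mul_sum]
    refine Finset.sum_le_sum fun B0 hB0 => ?_
    rw [Finset.mem_powerset] at hB0
    have hnn : 0 ≤ E' (fun ω => PBI D B0 ω * φ ω) :=
      E0_nonneg hc fun ω _ => mul_nonneg (PBI_nonneg _ _ _) (hφ0 ω)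
    by_cases hB : ball o (d + 1) ⊆ B0 ∧ ∃ ω, PBI D B0 ω ≠ 0
    · obtain ⟨hB, ω1, hω1⟩ := hB
      have hPB : ∀ ω, PBI D B0 ω ≠ 0 → PB D ω = B0 := by
        intro ω h1
        by_contra h2
        apply h1
        unfold Hf702.PBI
        rw [if_neg h2]
      have hWsc : SC B0 := by
        rw [← hPB ω1 hω1]
        exact sc_Bg _ (sc_ball o (M + 1))
      have hVF : VF B0 ⊆ Λ' := by
        intro v hv
        obtain ⟨t, ht, hvt⟩ := mem_VF.1 hv
        have h1 : v ∈ ball o (M + 2) := ball_tri' (up_ball1 hvt) (hB0 ht) (by omega)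
        refine hbΛ' (ball_mono o ?_ h1)
        have : 4 * M ≤ K * M := Nat.mul_le_mul_right _ hK
        omega
      have hAnc : Anc N B0 := ⟨hΛ, u0, hu0N, fun h1 => hu0 (hVF (IV_sub_VF _ h1))⟩
      have hv0 : ((o.1, o.2 + (r1 j : ℤ)) : P2) ∈ N := by
        refine (H.fr j hj).strip _ ?_ ?_ ?_ ?_
        · simp
          positivity
        · simp
        · intro h1
          rw [mem_ball] at h1
          have h2 : 1 ≤ mg K (n j) := by unfold mg; omega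
          have h3 := h1.2.1
          simp only [add_sub_cancel_left, abs_le] at h3
          omega
        · rw [mem_ball]
          simp only [sub_self, add_sub_cancel_left, abs_le, zero_add]
          omega
      have hv0b : ((o.1, o.2 + (r1 j : ℤ)) : P2) ∈ ball o (d + 1) := by
        rw [mem_ball]
        simp only [sub_self, add_sub_cancel_left, abs_le, zero_add]
        push_cast
        omega
      have hdecay := H.decay hc hR hA hq0 hq1 hq hWsc hAnc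
        ((ball_mono o (Nat.le_succ d)).trans hB)
      have hst := stepW hc (ξ := fun _ => 1) hWsc hVF hAnc hht
        (fun t ht => hB (ball_mono o (Nat.le_succ d) (H.XS_sub hK t ht)))
        (conn_ball o (d + 1)) (fun t ht => hB (Finset.mem_coe.1 ht)) (Finset.mem_coe.2 hv0b)
        (base_mem_up _) hv0 (PBI_nonneg D B0) (offTZ_PBI D B0)
        (fun ω hω hw hg => by
          refine lay_of' hVF hw fun t ht hvt => ?_
          obtain ⟨v, hv, hvt⟩ := hvt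
          obtain ⟨t', ht', hvt'⟩ := mem_VF.1 hv
          have hne : t' ≠ t := fun h1 => ht (h1 ▸ ht')
          exact pLay_of_PBI hg t' ht' t ht (adj_of_site hne hvt' hvt))
        (χ := χ) (fun ω ω' hh => ind_congr (cross_loc hsd fun v hv =>
          hh v (Finset.mem_coe.2 hv) v (base_mem_up v))) hdecay
      refine le_trans ?_ hst
      refine E0_mono hc fun ω _ _ => ?_
      refine mul_le_mul_of_nonneg_left ?_ (PBI_nonneg _ _ _)
      exact mul_le_mul_of_nonneg_left (mul_le_of_le_one_left (ind_nonneg _ _) (ind_le_one _ _)) (hφ0 ω)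
    · have h1 : E' (fun ω => PBI D B0 ω * (φ ω * (ind (BlkP o m M) ω * χ ω))) = E' (fun _ => 0) := by
        rw [hE']
        congr 1
        funext ω
        by_cases hP : PBI D B0 ω = 0
        · rw [hP, zero_mul]
        · have h2 : ω ∉ BlkP o m M := by
            intro h2
            apply hB
            refine ⟨?_, ω, hP⟩
            have h3 : PB D ω = B0 := by
              by_contra h4
              apply hP
              unfold Hf702.PBI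
              rw [if_neg h4]
            rw [← h3]
            exact ball_sub_Bg (by omega) hmM h2
          rw [ind_of_not_mem h2]
          ring
      rw [h1, hE', E0_const hc (lip_const 1)]
      exact mul_nonneg hρ0 hnn
  -- conclusion
  have hfin : E' (fun ω => φ ω * χ ω) ≤ (C * ((m : ℝ) / M) ^ α + ρ) * E' φ := by
    have h1 : E' (fun ω => φ ω * χ ω) ≤ E' (fun ω => φ ω * ind (BlkP o m M)ᶜ ω +
        φ ω * (ind (BlkP o m M) ω * χ ω)) := by
      refine E0_mono hc fun ω _ _ => ?_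
      rw [← mul_add]
      refine mul_le_mul_of_nonneg_left ?_ (hφ0 ω)
      rw [ind_compl]
      by_cases h2 : ω ∈ BlkP o m M
      · rw [ind_of_mem h2]; linarith
      · rw [ind_of_not_mem h2]
        have := ind_le_one (Cross N o s d) ω
        simp only [hχdef]
        linarith
    rw [hE', E0_add] at h1
    rw [add_mul]
    exact h1.trans (add_le_add hs2 hs3)
  exact le_of_mul_le_mul_right (hs1.trans hfin) hpos

/-- **(F3), the far arc**, 991's form. -/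
theorem far_arcN {x : ℝ} (hx0 : 0 < x) (hx1 : x ≤ 1) {K : ℕ} {p : ℝ} (hR : RSW ((x ^ 2)⁻¹) K p) :
    ∃ C α : ℝ, 1 ≤ C ∧ 0 < α ∧ ∀ {A R L km : ℕ} {q : ℕ → ℝ}, LemA ((x ^ 2)⁻¹) K A R q →
      ∀ {q0 : ℝ}, 0 ≤ q0 → q0 ≤ 1 → (∀ i ≤ km, q0 ≤ q i) →
      ∀ (Λ : Finset P2) (Nf : Set P2) (τ : P2 → ℤ) (o : P2) (s d m M : ℕ) {ι : Type} [DecidableEq ι]
        (S : Finset ι) {n r1 r2 k : ι → ℕ} {h : ι → ℤ} {b y : ι → Bool → P2} {a : ι → ℕ → P2},
        Scs K A R L km {v | v ∉ Λ} o s d S n r1 r2 k h b y a →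
        IsConn ((Λ : Set P2)ᶜ) → Lip τ → (∀ v, v ∉ Λ → τ v = 0 ∨ τ v = 1) →
        (∀ v ∈ Nf, v ∉ Λ) → IsConn Nf → Nfᶜ.Finite → (∀ v ∈ Nf, v ∉ ball o (K * M)) →
        (∀ v, v ∉ Λ → v ∉ Nf → τ v = 0) → d + 2 ≤ m → m ≤ M →
        ex x Λ τ (KI (CrH {v | v ∉ Λ} o s d)) ≤
          C * ((m : ℝ) / M) ^ α + (1 - q0 * p ^ ((2 * L + 1) ^ 2)) ^ S.card := by
  obtain ⟨C, α, hC, hα, H⟩ := far_core hx0 hx1 hR
  refine ⟨C, α, hC, hα, ?_⟩
  intro A R L km q hA q0 hq0 hq1 hq Λ Nf τ o s d m M ι _ S n r1 r2 k h b y a hS hΛ hτ h01 hN1 hN2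
    hN3 hN4 h0 hdm hmM
  have hmem : ∀ v, v ∈ hN3.toFinset ↔ v ∉ Nf := fun v => by
    rw [Set.Finite.mem_toFinset, Set.mem_compl_iff]
  have he : ((hN3.toFinset : Finset P2) : Set P2)ᶜ = Nf := by
    ext v
    rw [Set.mem_compl_iff, Finset.mem_coe, hmem, not_not]
  refine H hA hq0 hq1 hq Λ hN3.toFinset τ o s d m M S hS hΛ hτ h01 (fun v hv => (hmem v).2 fun h1 =>
    hN1 v h1 hv) (by rw [he]; exact hN2) (fun v hv => (hmem v).2 fun h1 => hN4 v h1 hv)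
    (fun v hv hv' => h0 v hv ((hmem v).1 hv')) hdm hmM

/-- **(F3), the far arc**, with the joining condition `hfar`. -/
theorem far_arc {x : ℝ} (hx0 : 0 < x) (hx1 : x ≤ 1) {K : ℕ} {p : ℝ} (hR : RSW ((x ^ 2)⁻¹) K p) :
    ∃ C α : ℝ, 1 ≤ C ∧ 0 < α ∧ ∀ {A R L km : ℕ} {q : ℕ → ℝ}, LemA ((x ^ 2)⁻¹) K A R q →
      ∀ {q0 : ℝ}, 0 ≤ q0 → q0 ≤ 1 → (∀ i ≤ km, q0 ≤ q i) →
      ∀ (Λ : Finset P2) (τ : P2 → ℤ) (o : P2) (s d m M d1 d2 : ℕ) {ι : Type} [DecidableEq ι]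
        (S : Finset ι) {n r1 r2 k : ι → ℕ} {h : ι → ℤ} {b y : ι → Bool → P2} {a : ι → ℕ → P2},
        Scs K A R L km {v | v ∉ Λ} o s d S n r1 r2 k h b y a →
        IsConn ((Λ : Set P2)ᶜ) → Lip τ → (∀ v, v ∉ Λ → τ v = 0 ∨ τ v = 1) →
        (∀ v, v ∉ Λ → v ∈ ball o d2 → τ v = 0) →
        (∀ u v, u ∉ Λ → v ∉ Λ → u ∉ ball o d2 → v ∉ ball o d2 →
          Relation.ReflTransGen (StepIn {w | w ∉ Λ ∧ w ∉ ball o d1}) u v) →
        d + 2 ≤ m → m ≤ M → K * M ≤ d1 → d1 ≤ d2 →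
        ex x Λ τ (KI (CrH {v | v ∉ Λ} o s d)) ≤
          C * ((m : ℝ) / M) ^ α + (1 - q0 * p ^ ((2 * L + 1) ^ 2)) ^ S.card := by
  obtain ⟨C, α, hC, hα, H⟩ := far_core hx0 hx1 hR
  refine ⟨C, α, hC, hα, ?_⟩
  intro A R L km q hA q0 hq0 hq1 hq Λ τ o s d m M d1 d2 ι _ S n r1 r2 k h b y a hS hΛ hτ h01 h0 hfar
    hdm hmM hMd hd
  refine H hA hq0 hq1 hq Λ (Lnear Λ o d1 d2) τ o s d m M S hS hΛ hτ h01 (sub_Lnear hd)
    (conn_Nfar hd hfar) ((ball_mono o hMd).trans (ball_sub_Lnear hd)) (fun v hv hv' => ?_) hdm hmM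
  refine h0 v hv ?_
  by_contra h4
  exact (mem_Lnear.1 hv') ⟨v, hv, h4, Relation.ReflTransGen.refl⟩

end Crest.Agent.R144.Ef725
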