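import Crest.Agent.R144.Bnd9_991
import Crest.Agent.R144.Ef3_725

/-!
# R144, block BND, part 10 (helper991): crossing near a boundary point, discrete form

* `cross_zero` : data `≤ 0`, `cross_far` : data in `{0, 1}`, zero in `ball o d2`;
* `cross_sgn` : the law `ex x Λ τ` with `τ ∈ {-1, 0}` off `Λ`, `τ = k` near the point, in the coordinates
  given by an automorphism `σ`.
-/

set_option autoImplicit false
set_option linter.unusedSectionVars false
set_option linter.unusedVariables false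

noncomputable section

namespace Crest.Agent.R144.Bnd991

open Finset
open Crest.Agent.R144.It844 (P2 Lip adj_iff adj_symm lip_iff upT mem_upT ex conf mem_conf nbhd)
open Crest.Agent.R144.Zg349 Crest.Agent.R144.Zd349 Crest.Agent.R144.Zm349 Crest.Agent.R144.Ze349
open Crest.Agent.R144.Rsw867 (ball mem_ball ball_mono adj_ball sc_ball Sepr Blk BlkP ind ind_nonneg ind_le_one
  RSW ind_congr ind_le_ind ind_of_mem ind_of_not_mem)
open Crest.Agent.R144.Bx695 (KI KI_of KI_of_not KI_nonneg KI_le_one)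
open Crest.Agent.R144.Rw146 (Aut)
open Crest.ProbabilityR.HexHeights (Adj)

/-- a function with values in `{j, j+1}` is Lipschitz -/
theorem lip_of_two {ξ : P2 → ℤ} {j : ℤ} (h : ∀ v, ξ v = j ∨ ξ v = j + 1) : Lip ξ := by
  intro u v _
  rcases h u with h1 | h1 <;> rcases h v with h2 | h2 <;> rw [h1, h2] <;> simp

/-- paths to the inside and the values of free sites -/
theorem crH_iff {N : Set P2} {o : P2} {s d : ℕ} {h : P2 → ℤ} : h ∈ CrH N o s d ↔
    ∃ u v, u ∉ ball o d ∧ v ∈ ball o s ∧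
      Relation.ReflTransGen (StepIn {w | w ∉ N ∧ 1 ≤ h w}) u v := by
  have e : ({v | v ∈ N ∨ h v ≤ 0}ᶜ : Set P2) = {w | w ∉ N ∧ 1 ≤ h w} := by
    ext w
    simp only [Set.mem_compl_iff, Set.mem_ofPred_eq, not_or, not_le]
    exact and_congr_right fun _ => ⟨fun h => by omega, fun h => by omega⟩
  unfold CrH Sepr
  rw [Set.mem_ofPred_eq, e]
  constructor
  · intro H
    by_contra H2
    refine H fun u v hu hv hp => H2 ⟨u, v, hu, hv, hp⟩
  · rintro ⟨u, v, hu, hv, hp⟩ H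
    exact H u v hu hv hp

/-- the crossing event depends on the free sites only -/
theorem crH_congr {N : Set P2} {o : P2} {s d : ℕ} {h h' : P2 → ℤ} (e : ∀ v, v ∉ N → h v = h' v) :
    KI (CrH N o s d) h = KI (CrH N o s d) h' := by
  have : h ∈ CrH N o s d ↔ h' ∈ CrH N o s d := by
    rw [crH_iff, crH_iff]
    have e2 : ({w | w ∉ N ∧ 1 ≤ h w} : Set P2) = {w | w ∉ N ∧ 1 ≤ h' w} := by
      ext w
      simp only [Set.mem_ofPred_eq]
      exact and_congr_right fun hw => by rw [e w hw]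
    rw [e2]
  by_cases hh : h ∈ CrH N o s d
  · rw [KI_of hh, KI_of (this.1 hh)]
  · rw [KI_of_not hh, KI_of_not fun h2 => hh (this.2 h2)]

theorem compl_eq (Λ : Finset P2) : ((Λ : Set P2)ᶜ) = {v | v ∉ Λ} := by
  ext v; simp

/-- the constants of the boundary decay -/
structure Kst (x : ℝ) (K A R L km : ℕ) (q : ℕ → ℝ) (q0 p : ℝ) : Prop where
  hx0 : 0 < x
  hx1 : x ≤ 1
  hR : RSW ((x ^ 2)⁻¹) K p
  hA : LemA ((x ^ 2)⁻¹) K A R q
  hq0 : 0 ≤ q0
  hq1 : q0 ≤ 1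
  hq : ∀ i ≤ km, q0 ≤ q i

/-- the decay factor of one scale -/
def fac (q0 p : ℝ) (L : ℕ) : ℝ := 1 - q0 * p ^ ((2 * L + 1) ^ 2)

section
variable {x : ℝ} {K A R L km : ℕ} {q : ℕ → ℝ} {q0 p : ℝ}

theorem Kst.fac0 (H : Kst x K A R L km q q0 p) : 0 ≤ fac q0 p L := by
  have h1 : p ^ ((2 * L + 1) ^ 2) ≤ 1 := pow_le_one₀ H.hR.p0.le (by linarith [H.hR.p1])
  have h2 : 0 ≤ p ^ ((2 * L + 1) ^ 2) := pow_nonneg H.hR.p0.le _
  have := H.hq0
  have := H.hq1
  unfold fac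
  nlinarith

/-- the constants of the far arc -/
def FarC (x : ℝ) (K A R L km : ℕ) (q0 p C α : ℝ) : Prop :=
  ∀ (Λ : Finset P2) (τ : P2 → ℤ) (o : P2) (s d m M d1 d2 : ℕ)
    (S : Finset ℕ) {n r1 r2 k : ℕ → ℕ} {h : ℕ → ℤ} {b y : ℕ → Bool → P2} {a : ℕ → ℕ → P2},
    Scs K A R L km {v | v ∉ Λ} o s d S n r1 r2 k h b y a →
    IsConn ((Λ : Set P2)ᶜ) → (∀ v, τ v = 0 ∨ τ v = 1) →
    (∀ v, v ∉ Λ → v ∈ ball o d2 → τ v = 0) →
    (∀ u v, u ∉ Λ → v ∉ Λ → u ∉ ball o d2 → v ∉ ball o d2 →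
      Relation.ReflTransGen (StepIn {w | w ∉ Λ ∧ w ∉ ball o d1}) u v) →
    d + 2 ≤ m → m ≤ M → K * M + 2 ≤ d1 → d1 ≤ d2 →
    ex x Λ τ (KI (CrH {v | v ∉ Λ} o s d)) ≤ C * ((m : ℝ) / M) ^ α + fac q0 p L ^ S.card

theorem exists_far {x : ℝ} (hx0 : 0 < x) (hx1 : x ≤ 1) {K : ℕ} {p : ℝ} (hR : RSW ((x ^ 2)⁻¹) K p) :
    ∃ C α : ℝ, 1 ≤ C ∧ 0 < α ∧ ∀ {A R L km : ℕ} {q : ℕ → ℝ} {q0 : ℝ},
      Kst x K A R L km q q0 p → FarC x K A R L km q0 p C α := by
  obtain ⟨C, α, hC, hα, H⟩ := Ef725.far_arc hx0 hx1 hR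
  refine ⟨C, α, hC, hα, fun {A R L km q q0} hk Λ τ o s d m M d1 d2 S n r1 r2 k h b y a hS hΛ hτ h0 hfar
    hm hM hKM hd => ?_⟩
  rw [← compl_eq] at hS ⊢
  have h1 := H hk.hA hk.hq0 hk.hq1 hk.hq Λ τ o s d m M d1 d2 S hS hΛ
    (lip_of_two (j := 0) fun v => by simpa using hτ v) (fun v _ => hτ v) h0 hfar hm hM (by omega) hd
  refine le_trans (le_of_eq ?_) h1
  exact It844.ex_congr fun g _ => ki_cross _ o s d (g, fun _ => true)

/-- data on the free sites only -/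
theorem zero_le' (hk : Kst x K A R L km q q0 p) {Λ : Finset P2} {o : P2} {s d : ℕ} {S : Finset ℕ}
    {n r1 r2 k : ℕ → ℕ} {h : ℕ → ℤ} {b y : ℕ → Bool → P2} {a : ℕ → ℕ → P2}
    (H : Scs K A R L km {v | v ∉ Λ} o s d S n r1 r2 k h b y a) (hΛ : IsConn ((Λ : Set P2)ᶜ))
    {τ : P2 → ℤ} (hτ : ∀ v, τ v = -1 ∨ τ v = 0) :
    ex x Λ τ (KI (CrH {v | v ∉ Λ} o s d)) ≤ fac q0 p L ^ S.card :=
  H.zero hk.hx0 hk.hx1 hk.hR hk.hA hk.hq0 hk.hq1 hk.hq hΛ
    (lip_of_two (j := -1) fun v => by simpa using hτ v) fun v _ => by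
      rcases hτ v with h | h
      · rw [h]; norm_num
      · rw [h]

/-- the free set in the coordinates given by `σ` -/
def pull (σ : P2 ≃ P2) (Λ : Finset P2) : Finset P2 := Λ.map σ.symm.toEmbedding

theorem mem_pull {σ : P2 ≃ P2} {Λ : Finset P2} {v : P2} : v ∈ pull σ Λ ↔ σ v ∈ Λ := by
  unfold pull
  rw [Finset.mem_map]
  constructor
  · rintro ⟨w, hw, rfl⟩
    simpa using hw
  · intro h
    exact ⟨σ v, h, by simp⟩

theorem map_pull (σ : P2 ≃ P2) (Λ : Finset P2) : (pull σ Λ).map σ.toEmbedding = Λ := by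
  ext v
  rw [Finset.mem_map]
  constructor
  · rintro ⟨w, hw, rfl⟩
    exact mem_pull.1 hw
  · intro h
    exact ⟨σ.symm v, mem_pull.2 (by simpa using h), by simp⟩

theorem compl_pull (σ : P2 ≃ P2) (Λ : Finset P2) : ({v | v ∉ pull σ Λ} : Set P2) = {v | σ v ∉ Λ} := by
  ext v
  simp only [Set.mem_ofPred_eq, mem_pull]

theorem path_pull {σ : P2 ≃ P2} (hadj : ∀ v w, Adj (σ v) (σ w) ↔ Adj v w) {X : Set P2} {u v : P2}
    (h : Relation.ReflTransGen (StepIn X) (σ u) (σ v)) :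
    Relation.ReflTransGen (StepIn {w | σ w ∈ X}) u v := by
  have : ∀ a b, Relation.ReflTransGen (StepIn X) a b →
      Relation.ReflTransGen (StepIn {w | σ w ∈ X}) (σ.symm a) (σ.symm b) := by
    intro a b hab
    induction hab with
    | refl => exact Relation.ReflTransGen.refl
    | tail _ hcd ih =>
      refine ih.tail ⟨by simpa using hcd.1, by simpa using hcd.2.1, ?_⟩
      rw [← hadj]
      simpa using hcd.2.2
  simpa using this _ _ h

theorem isConn_pull {σ : P2 ≃ P2} (hadj : ∀ v w, Adj (σ v) (σ w) ↔ Adj v w) {X : Set P2}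
    (h : IsConn X) : IsConn {w | σ w ∈ X} := fun u hu v hv => path_pull hadj (h (σ u) hu (σ v) hv)

/-- **Crossing of `{e (h - k) ≥ 1}` near a boundary point where the data is `k`.** -/
theorem cross_sgn (hk : Kst x K A R L km q q0 p) {C α : ℝ} (hC : 0 ≤ C)
    (hF : FarC x K A R L km q0 p C α) {σ τ' : P2 ≃ P2} (hA : Aut σ τ')
    (hadj : ∀ v w, Adj (σ v) (σ w) ↔ Adj v w) {Λ : Finset P2} (hΛ : IsConn ((Λ : Set P2)ᶜ))
    {o : P2} {s d m M d1 d2 : ℕ} {S : Finset ℕ}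
    {n r1 r2 k : ℕ → ℕ} {h : ℕ → ℤ} {b y : ℕ → Bool → P2} {a : ℕ → ℕ → P2}
    (H : Scs K A R L km {v | σ v ∉ Λ} o s d S n r1 r2 k h b y a)
    {τ : P2 → ℤ} (hτ : ∀ v, τ v = -1 ∨ τ v = 0) {κ : ℤ} (hκ : κ = -1 ∨ κ = 0)
    (hnear : ∀ v, v ∈ ball o d2 → σ v ∉ Λ → σ v ∈ nbhd Λ → τ (σ v) = κ)
    (hfar : ∀ u v, σ u ∉ Λ → σ v ∉ Λ → u ∉ ball o d2 → v ∉ ball o d2 →
      Relation.ReflTransGen (StepIn {w | σ w ∉ Λ ∧ w ∉ ball o d1}) u v)
    (hm : d + 2 ≤ m) (hmM : m ≤ M) (hd1 : K * M + 2 ≤ d1) (hd : d1 ≤ d2) {e : ℤ}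
    (he : e = 1 ∨ e = -1) :
    ex x Λ τ (fun g => KI (CrH {v | σ v ∉ Λ} o s d) (fun v => e * (g (σ v) - κ))) ≤
      C * ((m : ℝ) / M) ^ α + fac q0 p L ^ S.card := by
  have hlip : Lip τ := lip_of_two (j := -1) fun v => by simpa using hτ v
  -- data in the coordinates
  set ξ : P2 → ℤ := fun v => if v ∈ ball o d2 then 0 else e * (τ (σ v) - κ) with hξ
  have hξl : Lip ξ := by
    intro u v _
    simp only [hξ]
    rcases he with rfl | rfl <;> rcases hκ with rfl | rfl <;> rcases hτ (σ u) with h1 | h1 <;>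
      rcases hτ (σ v) with h2 | h2 <;> rw [h1, h2] <;> split_ifs <;> simp
  have e1 : ex x Λ τ (fun g => KI (CrH {v | σ v ∉ Λ} o s d) (fun v => e * (g (σ v) - κ))) =
      ex x (pull σ Λ) ξ (KI (CrH {v | v ∉ pull σ Λ} o s d)) := by
    rw [compl_pull]
    have e2 : ex x Λ τ (fun g => KI (CrH {v | σ v ∉ Λ} o s d) (fun v => e * (g (σ v) - κ))) =
        ex x Λ (fun v => e * (τ v - κ)) (fun g => KI (CrH {v | σ v ∉ Λ} o s d) (g ∘ σ)) := by
      rcases he with rfl | rfl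
      · have h1 := It844.ex_add_const x Λ τ (-κ) (fun g => KI (CrH {v | σ v ∉ Λ} o s d) (g ∘ σ))
        simp only [one_mul, sub_eq_add_neg]
        exact h1.symm
      · have h1 := It844.ex_add_const x Λ τ (-κ)
          (fun g => KI (CrH {v | σ v ∉ Λ} o s d) ((fun v => - g v) ∘ σ))
        have h2 := It844.ex_neg x Λ (fun v => τ v + -κ)
          (fun g => KI (CrH {v | σ v ∉ Λ} o s d) (g ∘ σ))
        simp only [neg_one_mul, sub_eq_add_neg]
        exact (h2.trans h1).symm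
    rw [e2]
    have h3 := ex_aut hA x (pull σ Λ) (fun v => e * (τ v - κ)) (KI (CrH {v | σ v ∉ Λ} o s d))
    rw [map_pull] at h3
    rw [h3]
    refine It844.ex_local x ?_ hξl ?_ _ ?_
    · intro u v _
      simp only [Function.comp_apply]
      rcases he with rfl | rfl <;> rcases hκ with rfl | rfl <;> rcases hτ (σ u) with h1 | h1 <;>
        rcases hτ (σ v) with h2 | h2 <;> rw [h1, h2] <;> simp
    · intro v hv hvn
      simp only [Function.comp_apply, hξ]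
      split_ifs with h1
      · rw [mem_pull] at hv
        rw [hnear v h1 hv ?_]
        · simp
        · rcases hvn with hvn | ⟨w, hw, hwv⟩
          · exact absurd (mem_pull.1 hvn) hv
          · exact Or.inr ⟨σ w, mem_pull.1 hw, (hadj w v).2 hwv⟩
      · rfl
    · intro u v huv
      refine crH_congr fun w hw => huv w ?_
      rw [Set.mem_ofPred_eq, not_not] at hw
      exact mem_pull.2 hw
  rw [e1]
  have hΛ' : IsConn ((pull σ Λ : Set P2)ᶜ) := by
    have h1 := isConn_pull hadj hΛ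
    have e3 : ({w | σ w ∈ (Λ : Set P2)ᶜ} : Set P2) = ((pull σ Λ : Set P2)ᶜ) := by
      ext w
      simp only [Set.mem_ofPred_eq, Set.mem_compl_iff, Finset.mem_coe, mem_pull]
    rwa [e3] at h1
  rw [← compl_pull] at H
  have hfac : 0 ≤ fac q0 p L ^ S.card := pow_nonneg hk.fac0 _
  have hCa : 0 ≤ C * ((m : ℝ) / M) ^ α := mul_nonneg hC (Real.rpow_nonneg (by positivity) _)
  have hcase : (∀ v, ξ v = -1 ∨ ξ v = 0) ∨ (∀ v, ξ v = 0 ∨ ξ v = 1) := by
    rcases he with rfl | rfl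
    · rcases hκ with rfl | rfl
      · right
        intro v
        simp only [hξ]
        rcases hτ (σ v) with h1 | h1 <;> rw [h1] <;> split_ifs <;> simp
      · left
        intro v
        simp only [hξ]
        rcases hτ (σ v) with h1 | h1 <;> rw [h1] <;> split_ifs <;> simp
    · rcases hκ with rfl | rfl
      · left
        intro v
        simp only [hξ]
        rcases hτ (σ v) with h1 | h1 <;> rw [h1] <;> split_ifs <;> simp
      · right
        intro v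
        simp only [hξ]
        rcases hτ (σ v) with h1 | h1 <;> rw [h1] <;> split_ifs <;> simp
  rcases hcase with h0 | h0
  · exact (zero_le' hk H hΛ' h0).trans (by linarith)
  · refine hF (pull σ Λ) ξ o s d m M d1 d2 S H hΛ' h0 ?_ ?_ hm hmM hd1 hd
    · intro v _ hv
      simp only [hξ, if_pos hv]
    · intro u v hu hv hu2 hv2
      have h1 := hfar u v (fun h => hu (mem_pull.2 h)) (fun h => hv (mem_pull.2 h)) hu2 hv2
      have e4 : ({w | w ∉ pull σ Λ ∧ w ∉ ball o d1} : Set P2) = {w | σ w ∉ Λ ∧ w ∉ ball o d1} := by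
        ext w
        simp only [Set.mem_ofPred_eq, mem_pull]
      rwa [e4]

end

end Crest.Agent.R144.Bnd991
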