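import Crest.Agent.R144.Bnd0_991

/-!
# R144, block BND, part 1 (helper991): several scales, abstract form

* `Qs B D Y = (B ∩ D) \ Y` : the domain at one scale; `sc_Qs`, `lay_Qs`;
* `cn_glue`, `lev0`, `lev0_reg` : the level of the true heights is `0` next to `N`;
* `step` : one scale at a fixed domain;
* `Scale` : the data of one scale, `multi` : **product bound over scales**.
-/

set_option autoImplicit false
set_option linter.unusedSectionVars false
set_option linter.unusedSimpArgs false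

noncomputable section

namespace Crest.Agent.R144.Bnd991

open Finset
open Crest.Agent.R144.It844 (P2 Lip adj_iff adj_symm lip_iff)
open Crest.Agent.R144.Zg349 Crest.Agent.R144.Zd349 Crest.Agent.R144.Zm349 Crest.Agent.R144.Ze349
open Crest.Agent.R144.Zs349
open Crest.Agent.R144.Ccn2311 (incP_mul inTZ_mul inTZ_mono offTZ_anti inTZ_off inTZ_const offTZ_const Em lower2
  offTZ_comp)
open Crest.Agent.R144.Rsw867 (ball mem_ball ball_mono adj_ball sc_ball Sepr Blk BlkP ind ind_nonneg ind_le_one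
  offTZ_mul path_mono)
open Crest.Agent.R144.Hf702 (Xg Bg mem_Bg notMem_Bg layer_Bg Bg_sub sc_Bg PB PBI PBI_nonneg offTZ_PBI sum_PBI
  xg_of_notMem)
open Crest.Agent.R144.Pst967 (path_symm)
open Crest.ProbabilityR.HexHeights (Adj)

/-! ### the domain at one scale -/

/-- the domain at one scale -/
def Qs (B D Y : Finset P2) : Finset P2 := (B ∩ D) \ Y

theorem mem_Qs {B D Y : Finset P2} {t : P2} : t ∈ Qs B D Y ↔ t ∈ B ∧ t ∈ D ∧ t ∉ Y := by
  unfold Qs
  rw [Finset.mem_sdiff, Finset.mem_inter]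
  tauto

theorem sc_Qs (S : Set P2) {D D' Y : Finset P2} (hDY : SC (D' \ Y)) (hD : D' ⊆ D) :
    SC (Qs (Bg S D) D' Y) := by
  set T : Set P2 := ((Qs (Bg S D) D' Y : Finset P2) : Set P2)ᶜ with hT
  have hmem : ∀ t, t ∈ T ↔ t ∉ Qs (Bg S D) D' Y := fun t => by
    rw [hT, Set.mem_compl_iff, Finset.mem_coe]
  have h0 : ∀ t, t ∉ D' \ Y → t ∈ T := fun t ht => by
    rw [hmem, mem_Qs]
    intro h
    exact ht (Finset.mem_sdiff.2 ⟨h.2.1, h.2.2⟩)
  have hX : ∀ t, t ∈ Xg S D → t ∈ T := fun t ht => by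
    rw [hmem, mem_Qs]
    intro h
    exact (mem_Bg.1 h.1).1 ht
  have h1 : ∀ t0 t, t0 ∉ D → Relation.ReflTransGen (fun a b => Adj a b ∧ b ∉ S) t0 t →
      Relation.ReflTransGen (StepIn T) t0 t := by
    intro t0 t h0 h
    induction h with
    | refl => exact Relation.ReflTransGen.refl
    | @tail b d h2 h3 ih =>
      exact ih.tail ⟨hX _ ⟨t0, h0, h2⟩, hX _ ⟨t0, h0, h2.tail h3⟩, h3.1⟩
  have hno : ∀ t0, t0 ∉ D → t0 ∉ D' \ Y := fun t0 h h' => h (hD (Finset.mem_sdiff.1 h').1)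
  have h2 : ∀ t ∈ T, ∃ t0, t0 ∉ D' \ Y ∧ Relation.ReflTransGen (StepIn T) t0 t := by
    intro t ht
    by_cases h3 : t ∈ D' \ Y
    · have ht' := ht
      rw [hmem, mem_Qs] at ht
      have h4 : t ∉ Bg S D := fun h => ht ⟨h, (Finset.mem_sdiff.1 h3).1, (Finset.mem_sdiff.1 h3).2⟩
      rw [notMem_Bg] at h4
      rcases h4 with ⟨t0, h3, h4⟩ | ⟨u, hu, t0, h3, h4⟩
      · exact ⟨t0, hno t0 h3, h1 t0 t h3 h4⟩
      · exact ⟨t0, hno t0 h3, (h1 t0 u h3 h4).tail ⟨hX u ⟨t0, h3, h4⟩, ht', adj_symm hu⟩⟩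
    · exact ⟨t, h3, Relation.ReflTransGen.refl⟩
  have h3 : ∀ t0 t1, t0 ∉ D' \ Y → t1 ∉ D' \ Y → Relation.ReflTransGen (StepIn T) t0 t1 := by
    intro t0 t1 ht0 ht1
    have := hDY t0 (by simpa using ht0) t1 (by simpa using ht1)
    refine Relation.ReflTransGen.mono (fun a b hab => ?_) _ _ this
    exact ⟨h0 a (fun h => hab.1 (Finset.mem_coe.2 h)), h0 b (fun h => hab.2.1 (Finset.mem_coe.2 h)), hab.2.2⟩
  intro u hu v hv
  obtain ⟨t0, h4, h5⟩ := h2 u hu
  obtain ⟨t1, h6, h7⟩ := h2 v hv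
  exact ((path_symm h5).trans (h3 t0 t1 h4 h6)).trans h7

/-- the layer around the domain is plus closed -/
theorem lay_Qs {c : ℝ} {F : Finset P2} {ω : Cfg} (hω : Valid F ω) (hw : wt c F ω ≠ 0)
    {D D' Y : Finset P2} {X : Set P2} (hK : ∀ t ∈ X, pC ω t)
    (hsep : ∀ t ∈ D', ∀ t' ∈ D, Adj t t' → t' ∈ D')
    (hY : ∀ t ∈ D', t ∉ Y → ∀ t' ∈ Y, Adj t t' → t' ∈ X) :
    Lay true (Qs (PB D ω) D' Y) ω := by
  refine lay_of hω hw fun t ht h1 => ?_
  obtain ⟨v, hv, hvt⟩ := h1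
  obtain ⟨t', ht', hvt'⟩ := mem_VF.1 hv
  have hne : t' ≠ t := fun h => ht (h ▸ ht')
  have ha : Adj t' t := adj_of_site hne hvt' hvt
  rw [mem_Qs] at ht'
  by_cases hB : t ∈ PB D ω
  · have h2 : t ∈ D' := hsep t' ht'.2.1 t (Bg_sub _ _ hB) ha
    have h3 : t ∈ Y := by
      by_contra h3
      exact ht (mem_Qs.2 ⟨hB, h2, h3⟩)
    exact hK t (hY t' ht'.2.1 ht'.2.2 t h3 ha)
  · exact layer_Bg ht'.1 hB ha

/-! ### gluing and the constraints -/

section
variable {F W : Finset P2} {ω ω' : Cfg} {N : Set P2} (hW : SC W) (hWF : W ⊆ F) (hω : Valid F ω)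
  (hL : Lay true W ω) (hω' : Valid W ω')
include hW hWF hω hL hω'

theorem cn_glue : Cn N (glue true W ω ω') = Cn (N \ (IV W : Set P2)) ω * Cn N ω' := by
  have hl := hω.ht.toLip
  have e1 : Cn N ω' = Cn (N ∩ (IV W : Set P2)) ω' := by
    refine Cn_congr ⟨fun h v hv => h v hv.1, fun h v hv => ?_⟩
    by_cases h1 : v ∈ IV W
    · exact h v ⟨hv, h1⟩
    · exact hω'.ht.s1_bd h1
  rw [e1, Cn_split N W]
  congr 1
  · refine Cn_congr ⟨fun h v hv => ?_, fun h v hv => ?_⟩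
    · have := h v hv
      rwa [glue_s1_off hW hl hL hω' hv.2] at this
    · rw [glue_s1_off hW hl hL hω' hv.2]
      exact h v hv
  · refine Cn_congr ⟨fun h v hv => ?_, fun h v hv => ?_⟩
    · have h1 := h v hv
      have h2 := IV_sub_VF W hv.2
      rwa [glue_in h2, s1_lev (lev_mod hW hl hL h2)] at h1
    · have h2 := IV_sub_VF W hv.2
      rw [glue_in h2, s1_lev (lev_mod hW hl hL h2)]
      exact h v hv

theorem lev0 (hN : Anc N F) (hC : Cn N (glue true W ω ω') ≠ 0) {v : P2} (hv : v ∈ N)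
    (hvW : v ∈ VF W) : lev true W ω v = 0 := by
  have hl := hω.ht.toLip
  have hval := valid_glue hW hWF hω hL hω'
  rw [Cn_ne] at hC
  have h01 : ∀ v ∈ N, (glue true W ω ω').1 v = 0 ∨ (glue true W ω ω').1 v = 1 := fun v hv =>
    ht01 hN hval hC hv
  refine (hN.mono hWF).induct (P := fun v => v ∈ VF W → lev true W ω v = 0) ?_ ?_ v hv hvW
  · intro v hv hv1 hv2
    have h1 := h01 v hv
    rw [glue_in hv2] at h1
    have h2 := hω'.ht.bd v hv1
    have h3 : lev true W ω v % 4 = 0 := lev_mod hW hl hL hv2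
    omega
  · intro u hu v hv ha hP hvI hv2
    -- the triangle containing both sites
    obtain ⟨t, htu, htv⟩ : ∃ t, u ∈ up t ∧ v ∈ up t := by
      obtain ⟨a, b⟩ := u
      simp only [mem_up]
      rcases adj_iff.1 ha with rfl | rfl | rfl | rfl | rfl | rfl
      · exact ⟨(a, b), by simp⟩
      · exact ⟨(a - 1, b), by simp⟩
      · exact ⟨(a, b), by simp⟩
      · exact ⟨(a, b - 1), by simp⟩
      · exact ⟨(a, b - 1), by simp⟩
      · exact ⟨(a - 1, b), by simp⟩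
    have htW : t ∈ W := (mem_IV'.1 hvI) t htv
    have huW : u ∈ VF W := mem_VF.2 ⟨t, htW, htu⟩
    obtain ⟨i, rfl⟩ := mem_up_iff.1 htu
    obtain ⟨j, rfl⟩ := mem_up_iff.1 htv
    rw [← lev_tri hW hl hL htW i j]
    exact hP huW

/-- the level is `0` on a connected region touching `N` -/
theorem lev0_reg (hN : Anc N F) (hC : Cn N (glue true W ω ω') ≠ 0) {M : Set P2} (hM : IsConn M)
    (hMW : ∀ t ∈ M, t ∈ W) {t0 v0 : P2} (ht0 : t0 ∈ M) (hv0 : v0 ∈ up t0) (hv0N : v0 ∈ N)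
    {t v : P2} (ht : t ∈ M) (hv : v ∈ up t) : lev true W ω v = 0 := by
  have hl := hω.ht.toLip
  have h0 : lev true W ω v0 = 0 :=
    lev0 hW hWF hω hL hω' hN hC hv0N (mem_VF.2 ⟨t0, hMW t0 ht0, hv0⟩)
  have key : ∀ t, Relation.ReflTransGen (StepIn M) t0 t → ∀ v ∈ up t, lev true W ω v = 0 := by
    intro t hp
    induction hp with
    | refl =>
      intro v hv
      obtain ⟨i, rfl⟩ := mem_up_iff.1 hv0
      obtain ⟨j, rfl⟩ := mem_up_iff.1 hv
      rw [← lev_tri hW hl hL (hMW t0 ht0) i j]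
      exact h0
    | @tail b d _ hbd ih =>
      intro v hv
      obtain ⟨w, hw1, hw2⟩ := adj_site hbd.2.2
      obtain ⟨i, rfl⟩ := mem_up_iff.1 hw2
      obtain ⟨j, rfl⟩ := mem_up_iff.1 hv
      rw [← lev_tri hW hl hL (hMW d hbd.2.1) i j]
      exact ih _ hw1
  exact key t (hM t0 ht0 t ht) v hv

end

/-- **One scale at a fixed domain.** -/
theorem step {c : ℝ} (hc : 1 ≤ c) {F W : Finset P2} (hW : SC W) (hWF : W ⊆ F) {N : Set P2}
    (hN : Anc N F) {M : Set P2} (hM : IsConn M) (hMW : ∀ t ∈ M, t ∈ W) {t0 v0 : P2} (ht0 : t0 ∈ M)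
    (hv0 : v0 ∈ up t0) (hv0N : v0 ∈ N) {g χ : Cfg → ℝ} (hg0 : ∀ ω, 0 ≤ g ω)
    (hgl : ∀ ω ω', Valid F ω → Lay true W ω → Valid W ω' → g (glue true W ω ω') = g ω)
    (hgL : ∀ ω, Valid F ω → wt c F ω ≠ 0 → g ω ≠ 0 → Lay true W ω)
    (hχ : ∀ ω ω' : Cfg, (∀ t ∈ M, ∀ v ∈ up t, ω.1 v = ω'.1 v) → χ ω = χ ω')
    {q : ℝ} (hA : E c W (fun ω => Cn N ω * χ ω) ≤ q * E c W (Cn N)) :
    E c F (fun ω => g ω * Cn N ω * χ ω) ≤ q * E c F (fun ω => g ω * Cn N ω) := by
  have e1 : ∀ χ' : Cfg → ℝ, (∀ ω ω' : Cfg, (∀ t ∈ M, ∀ v ∈ up t, ω.1 v = ω'.1 v) → χ' ω = χ' ω') →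
      E c F (fun ω => g ω * Cn N ω * χ' ω) =
        E c F (fun ω => (g ω * Cn (N \ (IV W : Set P2)) ω) * E c W (fun ω' => Cn N ω' * χ' ω')) := by
    intro χ' hχ'
    refine E_dec (e := true) hc hW hWF (φ := fun _ ω' => Cn N ω' * χ' ω') ?_ ?_
    · intro ω hω hw hL
      have : g ω = 0 := by
        by_contra h
        exact hL (hgL ω hω hw h)
      rw [this]
      constructor <;> ring
    · intro ω ω' hω hw hL hω'
      rw [hgl ω ω' hω hL hω', cn_glue hW hWF hω hL hω']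
      by_cases hC : Cn N (glue true W ω ω') = 0
      · rw [cn_glue hW hWF hω hL hω'] at hC
        have : g ω * (Cn (N \ (IV W : Set P2)) ω * Cn N ω') * χ' (glue true W ω ω') = 0 := by
          rw [hC]; ring
        rw [this]
        calc (0 : ℝ) = g ω * (Cn (N \ (IV W : Set P2)) ω * Cn N ω') * χ' ω' := by rw [hC]; ring
          _ = _ := by ring
      · have h1 : χ' (glue true W ω ω') = χ' ω' := by
          refine hχ' _ _ fun t ht v hv => ?_
          rw [glue_in (mem_VF.2 ⟨t, hMW t ht, hv⟩),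
            lev0_reg hW hWF hω hL hω' hN hC hM hMW ht0 hv0 hv0N ht hv, zero_add]
        rw [h1]; ring
  have e2 := e1 χ hχ
  have e3 := e1 (fun _ => 1) (fun _ _ _ => rfl)
  simp only [mul_one] at e3
  rw [e2, e3, ← E_smul]
  refine E_mono hc fun ω _ => ?_
  have h0 : 0 ≤ g ω * Cn (N \ (IV W : Set P2)) ω := mul_nonneg (hg0 ω) (Cn_nonneg _ _)
  calc _ ≤ (g ω * Cn (N \ (IV W : Set P2)) ω) * (q * E c W (Cn N)) := mul_le_mul_of_nonneg_left hA h0
    _ = _ := by
      have : (fun ω' => Cn N ω') = Cn N := rfl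
      rw [this]; ring

/-! ### several scales -/

/-- data of one scale: `B` block for the rings, `D` exploration domain, `Y` excluded set, `M` middle region,
`χ` observable, `good` ring event; `X` plus closed set, `N` non-free sites. -/
structure Scale (c c0 q : ℝ) (F : Finset P2) (N X : Set P2) (B D Y M : Finset P2)
    (χ good : Cfg → ℝ) : Prop where
  scB : SC B
  scD : SC (D \ Y)
  DF : D ⊆ F
  XB : ∀ t ∈ X, t ∈ B → t ∈ IV B
  XY : ∀ t ∈ X, t ∈ D → t ∈ Y
  layY : ∀ t ∈ D, t ∉ Y → ∀ t' ∈ Y, Adj t t' → t' ∈ X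
  MD : ∀ t ∈ M, t ∈ D ∧ t ∉ Y
  Mc : IsConn (M : Set P2)
  MN : ∃ t ∈ M, ∃ v ∈ up t, v ∈ N
  χ0 : ∀ ω, 0 ≤ χ ω
  χ1 : ∀ ω, χ ω ≤ 1
  χloc : ∀ ω ω' : Cfg, (∀ t ∈ M, ∀ v ∈ up t, ω.1 v = ω'.1 v) → χ ω = χ ω'
  g0 : ∀ ω, 0 ≤ good ω
  g1 : ∀ ω, good ω ≤ 1
  ginc : IncP good
  gin : InTZ B good
  gEm : c0 ≤ Em c B good
  main : ∀ Q, SC Q → (∀ t ∈ M, t ∈ Q) → (∀ t ∈ Q, t ∈ D ∧ t ∉ Y) →
    E c Q (fun ω => Cn N ω * χ ω) ≤ (1 - q) * E c Q (Cn N)

section multi

variable {c c0 q : ℝ} {F : Finset P2} {N X : Set P2} {ι : Type*} [DecidableEq ι] {S : Finset ι}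
  {B D Y M : ι → Finset P2} {χ good : ι → Cfg → ℝ}

/-- fixed unexplored domain -/
theorem fixedB (hc : 1 ≤ c) (hq1 : q ≤ 1) (hN : Anc N F)
    (hS : ∀ k ∈ S, Scale c c0 q F N X (B k) (D k) (Y k) (M k) (χ k) (good k))
    (hsep : ∀ j ∈ S, ∀ k ∈ S, j ≠ k → ∀ t ∈ D j, ∀ t' ∈ D k, ¬ Adj t t')
    (hVF : ∀ j ∈ S, ∀ k ∈ S, j ≠ k → ∀ t ∈ D j, ∀ t' ∈ D k, ∀ v ∈ up t, v ∉ up t')
    {B0 : Finset P2} {T : Finset ι} (hTS : T ⊆ S) (hT : ∀ k ∈ T, ∀ t ∈ M k, t ∈ B0) :
    E c F (fun ω => PBI (S.biUnion D) B0 ω * Kn X ω * Cn N ω * ∏ k ∈ T, χ k ω) ≤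
      (1 - q) ^ T.card * E c F (fun ω => PBI (S.biUnion D) B0 ω * Kn X ω * Cn N ω) := by
  classical
  induction T using Finset.induction_on with
  | empty =>
    simp
  | insert k T hk ih =>
    have hkS : k ∈ S := hTS (Finset.mem_insert_self _ _)
    have ih' := ih (fun j hj => hTS (Finset.mem_insert_of_mem hj))
      (fun j hj => hT j (Finset.mem_insert_of_mem hj))
    have h := hS k hkS
    by_cases hne : ∃ ω, PBI (S.biUnion D) B0 ω ≠ 0
    · obtain ⟨ω0, hω0⟩ := hne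
      have hPB : ∀ ω, PBI (S.biUnion D) B0 ω ≠ 0 → PB (S.biUnion D) ω = B0 := by
        intro ω h1
        by_contra h2
        apply h1
        unfold Hf702.PBI
        rw [if_neg h2]
      have hDk : D k ⊆ S.biUnion D := Finset.subset_biUnion_of_mem D hkS
      set W := Qs B0 (D k) (Y k) with hWdef
      have hWsc : SC W := by
        rw [hWdef, ← hPB ω0 hω0]
        exact sc_Qs _ h.scD hDk
      have hWF : W ⊆ F := fun t ht => h.DF (mem_Qs.1 ht).2.1
      have hMW : ∀ t ∈ (M k : Set P2), t ∈ W := fun t ht =>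
        mem_Qs.2 ⟨hT k (Finset.mem_insert_self _ _) t ht, (h.MD t ht).1, (h.MD t ht).2⟩
      obtain ⟨t0, ht0, v0, hv0, hv0N⟩ := h.MN
      have hA := h.main W hWsc hMW (fun t ht => ⟨(mem_Qs.1 ht).2.1, (mem_Qs.1 ht).2.2⟩)
      have hst := step hc hWsc hWF hN h.Mc hMW ht0 hv0 hv0N
        (g := fun ω => PBI (S.biUnion D) B0 ω * Kn X ω * ∏ j ∈ T, χ j ω) (χ := χ k)
        (fun ω => mul_nonneg (mul_nonneg (PBI_nonneg _ _ _) (Kn_nonneg _ _))
          (Finset.prod_nonneg fun j hj => (hS j (hTS (Finset.mem_insert_of_mem hj))).χ0 ω))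
        (fun ω ω' hω hL hω' => by
          have hl := hω.ht.toLip
          have o1 : OffTZ W (PBI (S.biUnion D) B0) :=
            offTZ_anti (fun t ht => (mem_Qs.1 ht).1) (offTZ_PBI _ _)
          have o2 : OffTZ W (Kn X) := offTZ_Kn fun t ht htW =>
            (mem_Qs.1 htW).2.2 (h.XY t ht (mem_Qs.1 htW).2.1)
          rw [offTZ_glue hWsc hl hL hω' o1, offTZ_glue hWsc hl hL hω' o2]
          congr 1
          refine Finset.prod_congr rfl fun j hj => ?_
          have hjS : j ∈ S := hTS (Finset.mem_insert_of_mem hj)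
          have hjk : j ≠ k := fun e => hk (e ▸ hj)
          refine (hS j hjS).χloc _ _ fun t ht v hv => glue_out fun hvW => ?_
          obtain ⟨t', ht', hv'⟩ := mem_VF.1 hvW
          exact hVF j hjS k hkS hjk t ((hS j hjS).MD t ht).1 t' (mem_Qs.1 ht').2.1 v hv hv')
        (fun ω hω hw hg => by
          have h1 : PBI (S.biUnion D) B0 ω ≠ 0 := fun e => hg (by rw [e]; ring)
          have h2 : Kn X ω ≠ 0 := fun e => hg (by rw [e]; ring)
          rw [hWdef, ← hPB ω h1]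
          refine lay_Qs hω hw (Kn_ne.1 h2) (fun t ht t' ht' ha => ?_) (fun t ht1 ht2 => h.layY t ht1 ht2)
          obtain ⟨j, hj, htj⟩ := Finset.mem_biUnion.1 ht'
          by_cases hjk : j = k
          · rw [← hjk]; exact htj
          · exact absurd ha (hsep k hkS j hj (fun e => hjk e.symm) t ht t' htj))
        (fun ω ω' hh => h.χloc ω ω' hh) hA
      rw [Finset.card_insert_of_notMem hk, pow_succ]
      calc E c F (fun ω => PBI (S.biUnion D) B0 ω * Kn X ω * Cn N ω * ∏ k ∈ insert k T, χ k ω)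
          = E c F (fun ω => PBI (S.biUnion D) B0 ω * Kn X ω * (∏ j ∈ T, χ j ω) * Cn N ω * χ k ω) :=
            E_congr fun ω _ => by rw [Finset.prod_insert hk]; ring
        _ ≤ (1 - q) * E c F (fun ω => PBI (S.biUnion D) B0 ω * Kn X ω * (∏ j ∈ T, χ j ω) * Cn N ω) := hst
        _ = (1 - q) * E c F (fun ω => PBI (S.biUnion D) B0 ω * Kn X ω * Cn N ω * ∏ j ∈ T, χ j ω) := by
            congr 1
            exact E_congr fun ω _ => by ring
        _ ≤ (1 - q) * ((1 - q) ^ T.card *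
            E c F (fun ω => PBI (S.biUnion D) B0 ω * Kn X ω * Cn N ω)) :=
            mul_le_mul_of_nonneg_left ih' (by linarith)
        _ = _ := by ring
    · push Not at hne
      have z : ∀ f : Cfg → ℝ, E c F (fun ω => PBI (S.biUnion D) B0 ω * f ω) = 0 := by
        intro f
        have : E c F (fun ω => PBI (S.biUnion D) B0 ω * f ω) = E c F (fun _ => 0) :=
          E_congr fun ω _ => by rw [hne ω, zero_mul]
        rw [this, E_const hc]
      simp only [mul_assoc]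
      rw [z, z, mul_zero]

/-- product of the ring factors -/
theorem rings (hc : 1 ≤ c) (hF : SC F) (hq0 : 0 ≤ q) (hq1 : q ≤ 1) (hqc : q * c0 ≤ 1)
    (hS : ∀ k ∈ S, Scale c c0 q F N X (B k) (D k) (Y k) (M k) (χ k) (good k))
    (hdis : ∀ j ∈ S, ∀ k ∈ S, j ≠ k → Disjoint (B j) (B k)) {T : Finset ι} (hTS : T ⊆ S) :
    E c F (fun ω => Kn X ω * Cn N ω * ∏ k ∈ T, (1 - q * good k ω)) ≤
      (1 - q * c0) ^ T.card * E c F (fun ω => Kn X ω * Cn N ω) := by
  classical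
  induction T using Finset.induction_on with
  | empty => simp
  | insert k T hk ih =>
    have hkS : k ∈ S := hTS (Finset.mem_insert_self _ _)
    have ih' := ih (fun j hj => hTS (Finset.mem_insert_of_mem hj))
    have h := hS k hkS
    have hfac : ∀ j ∈ S, ∀ ω, 0 ≤ 1 - q * good j ω := fun j hj ω => by
      have h1 := (hS j hj).g0 ω
      have h2 := (hS j hj).g1 ω
      nlinarith
    set g : Cfg → ℝ := fun ω => Kn (X \ (B k : Set P2)) ω * Cn (N \ (IV (B k) : Set P2)) ω *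
      ∏ j ∈ T, (1 - q * good j ω) with hg
    set f1 : Cfg → ℝ := fun ω => Kn (X ∩ (B k : Set P2)) ω * Cn (N ∩ (IV (B k) : Set P2)) ω with hf1
    have hgoff : OffTZ (B k) g := by
      have o1 : OffTZ (B k) (fun ω => Kn (X \ (B k : Set P2)) ω * Cn (N \ (IV (B k) : Set P2)) ω) :=
        offTZ_mul (offTZ_Kn fun t ht => ht.2) (offTZ_Cn_diff _ _)
      have o2 : OffTZ (B k) (fun ω => ∏ j ∈ T, (1 - q * good j ω)) := by
        intro ω ω' h1 h2
        refine Finset.prod_congr rfl fun j hj => ?_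
        have hjS : j ∈ S := hTS (Finset.mem_insert_of_mem hj)
        have hjk : j ≠ k := fun e => hk (e ▸ hj)
        have := inTZ_off (hdis j hjS k hkS hjk) (hS j hjS).gin ω ω' h1 h2
        rw [this]
      exact offTZ_mul o1 o2
    have hg0 : ∀ ω, 0 ≤ g ω := fun ω => mul_nonneg (mul_nonneg (Kn_nonneg _ _) (Cn_nonneg _ _))
      (Finset.prod_nonneg fun j hj => hfac j (hTS (Finset.mem_insert_of_mem hj)) ω)
    have hl := lower2 hc hF h.scB (f1 := f1) (f2 := good k) (g := g)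
      (incP_mul (incP_Kn _) (incP_Cn _) (Kn_nonneg _) (Cn_nonneg _))
      (inTZ_mul (inTZ_Kn fun t ht => h.XB t ht.1 ht.2) (inTZ_Cn_inter _ _))
      (fun ω => mul_nonneg (Kn_nonneg _ _) (Cn_nonneg _ _)) h.ginc h.gin h.g0 hg0 hgoff
    have hsplit : ∀ ω, Kn X ω * Cn N ω * ∏ j ∈ T, (1 - q * good j ω) = g ω * f1 ω := by
      intro ω
      rw [Kn_split X (B k), Cn_split N (B k)]
      simp only [hg, hf1]
      ring
    have e1 : E c F (fun ω => Kn X ω * Cn N ω * ∏ j ∈ insert k T, (1 - q * good j ω)) =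
        E c F (fun ω => g ω * f1 ω) - q * E c F (fun ω => g ω * (f1 ω * good k ω)) := by
      rw [← E_smul, ← E_sub]
      refine E_congr fun ω _ => ?_
      rw [Finset.prod_insert hk]
      calc Kn X ω * Cn N ω * ((1 - q * good k ω) * ∏ j ∈ T, (1 - q * good j ω))
          = (Kn X ω * Cn N ω * ∏ j ∈ T, (1 - q * good j ω)) * (1 - q * good k ω) := by ring
        _ = g ω * f1 ω * (1 - q * good k ω) := by rw [hsplit]
        _ = _ := by ring
    have e2 : E c F (fun ω => g ω * f1 ω) =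
        E c F (fun ω => Kn X ω * Cn N ω * ∏ j ∈ T, (1 - q * good j ω)) :=
      E_congr fun ω _ => (hsplit ω).symm
    have h3 : 0 ≤ E c F (fun ω => g ω * f1 ω) :=
      E_nonneg hc fun ω _ => mul_nonneg (hg0 ω) (mul_nonneg (Kn_nonneg _ _) (Cn_nonneg _ _))
    have h4 : E c F (fun ω => g ω * f1 ω) * c0 ≤ E c F (fun ω => g ω * (f1 ω * good k ω)) :=
      (mul_le_mul_of_nonneg_left h.gEm h3).trans hl
    rw [Finset.card_insert_of_notMem hk, pow_succ, e1]
    calc E c F (fun ω => g ω * f1 ω) - q * E c F (fun ω => g ω * (f1 ω * good k ω))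
        ≤ E c F (fun ω => g ω * f1 ω) - q * (E c F (fun ω => g ω * f1 ω) * c0) := by
          have := mul_le_mul_of_nonneg_left h4 hq0
          linarith
      _ = (1 - q * c0) * E c F (fun ω => g ω * f1 ω) := by ring
      _ ≤ (1 - q * c0) * ((1 - q * c0) ^ T.card * E c F (fun ω => Kn X ω * Cn N ω)) := by
          rw [e2]
          exact mul_le_mul_of_nonneg_left ih' (by linarith)
      _ = _ := by ring

/-- **Several scales.** -/
theorem multi (hc : 1 ≤ c) (hF : SC F) (hq0 : 0 ≤ q) (hq1 : q ≤ 1) (hqc : q * c0 ≤ 1) (hN : Anc N F)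
    (hS : ∀ k ∈ S, Scale c c0 q F N X (B k) (D k) (Y k) (M k) (χ k) (good k))
    (hdis : ∀ j ∈ S, ∀ k ∈ S, j ≠ k → Disjoint (B j) (B k))
    (hsep : ∀ j ∈ S, ∀ k ∈ S, j ≠ k → ∀ t ∈ D j, ∀ t' ∈ D k, ¬ Adj t t')
    (hVF : ∀ j ∈ S, ∀ k ∈ S, j ≠ k → ∀ t ∈ D j, ∀ t' ∈ D k, ∀ v ∈ up t, v ∉ up t')
    (hgood : ∀ k ∈ S, ∀ ω, Valid F ω → Kn X ω ≠ 0 → good k ω ≠ 0 →
      ∀ t ∈ M k, t ∈ PB (S.biUnion D) ω) :
    E c F (fun ω => Kn X ω * Cn N ω * ∏ k ∈ S, χ k ω) ≤
      (1 - q * c0) ^ S.card * E c F (fun ω => Kn X ω * Cn N ω) := by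
  classical
  refine le_trans ?_ (rings hc hF hq0 hq1 hqc hS hdis (Finset.Subset.refl S))
  set DD := S.biUnion D with hDD
  have hone : ∀ f : Cfg → ℝ, E c F f = ∑ B0 ∈ DD.powerset, E c F (fun ω => PBI DD B0 ω * f ω) := by
    intro f
    rw [← E_sum]
    refine E_congr fun ω _ => ?_
    rw [← Finset.sum_mul, sum_PBI, one_mul]
  rw [hone, hone (fun ω => Kn X ω * Cn N ω * ∏ k ∈ S, (1 - q * good k ω))]
  refine Finset.sum_le_sum fun B0 _ => ?_
  set T : Finset ι := S.filter fun k => ∀ t ∈ M k, t ∈ B0 with hT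
  have h1 := fixedB hc hq1 hN hS hsep hVF (B0 := B0) (T := T) (Finset.filter_subset _ _)
    (fun k hk => (Finset.mem_filter.1 hk).2)
  have hχ01 : ∀ k ∈ S, ∀ ω, 0 ≤ χ k ω ∧ χ k ω ≤ 1 := fun k hk ω => ⟨(hS k hk).χ0 ω, (hS k hk).χ1 ω⟩
  calc E c F (fun ω => PBI DD B0 ω * (Kn X ω * Cn N ω * ∏ k ∈ S, χ k ω))
      ≤ E c F (fun ω => PBI DD B0 ω * Kn X ω * Cn N ω * ∏ k ∈ T, χ k ω) := by
        refine E_mono hc fun ω _ => ?_
        have h2 : ∏ k ∈ S, χ k ω ≤ ∏ k ∈ T, χ k ω := by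
          rw [← Finset.prod_sdiff (Finset.filter_subset (fun k => ∀ t ∈ M k, t ∈ B0) S)]
          refine mul_le_of_le_one_left (Finset.prod_nonneg fun k hk =>
            (hχ01 k (Finset.mem_filter.1 hk).1 ω).1) ?_
          exact Finset.prod_le_one (fun k hk => (hχ01 k (Finset.mem_sdiff.1 hk).1 ω).1)
            (fun k hk => (hχ01 k (Finset.mem_sdiff.1 hk).1 ω).2)
        calc PBI DD B0 ω * (Kn X ω * Cn N ω * ∏ k ∈ S, χ k ω)
            = (PBI DD B0 ω * Kn X ω * Cn N ω) * ∏ k ∈ S, χ k ω := by ring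
          _ ≤ _ := mul_le_mul_of_nonneg_left h2
            (mul_nonneg (mul_nonneg (PBI_nonneg _ _ _) (Kn_nonneg _ _)) (Cn_nonneg _ _))
    _ ≤ (1 - q) ^ T.card * E c F (fun ω => PBI DD B0 ω * Kn X ω * Cn N ω) := h1
    _ = E c F (fun ω => (1 - q) ^ T.card * (PBI DD B0 ω * Kn X ω * Cn N ω)) := (E_smul c F _ _).symm
    _ ≤ E c F (fun ω => PBI DD B0 ω * (Kn X ω * Cn N ω * ∏ k ∈ S, (1 - q * good k ω))) := by
        refine E_mono hc fun ω hω => ?_
        by_cases hP : PBI DD B0 ω = 0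
        · rw [hP]; simp
        by_cases hK : Kn X ω = 0
        · rw [hK]; simp
        have hPB : PB DD ω = B0 := by
          by_contra h2
          apply hP
          unfold Hf702.PBI
          rw [if_neg h2]
        have h3 : (1 - q) ^ T.card ≤ ∏ k ∈ S, (1 - q * good k ω) := by
          rw [← Finset.prod_sdiff (Finset.filter_subset (fun k => ∀ t ∈ M k, t ∈ B0) S)]
          have h4 : ∏ k ∈ S \ T, (1 - q * good k ω) = 1 := by
            refine Finset.prod_eq_one fun k hk => ?_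
            have hk1 := (Finset.mem_sdiff.1 hk).1
            have hk2 := (Finset.mem_sdiff.1 hk).2
            have : good k ω = 0 := by
              by_contra h5
              apply hk2
              rw [hT, Finset.mem_filter]
              refine ⟨hk1, fun t ht => ?_⟩
              rw [← hPB]
              exact hgood k hk1 ω hω hK h5 t ht
            rw [this]; ring
          rw [hT] at h4
          rw [h4, one_mul, ← Finset.prod_const]
          refine Finset.prod_le_prod (fun _ _ => by linarith) fun k hk => ?_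
          have := (hS k (Finset.mem_filter.1 hk).1).g1 ω
          nlinarith
        calc (1 - q) ^ T.card * (PBI DD B0 ω * Kn X ω * Cn N ω)
            ≤ (∏ k ∈ S, (1 - q * good k ω)) * (PBI DD B0 ω * Kn X ω * Cn N ω) :=
              mul_le_mul_of_nonneg_right h3
                (mul_nonneg (mul_nonneg (PBI_nonneg _ _ _) (Kn_nonneg _ _)) (Cn_nonneg _ _))
          _ = _ := by ring

end multi

end Crest.Agent.R144.Bnd991
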