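import Crest.Agent.R144.Bnd1_991

/-!
# R144, block BND, part 2 (helper991): rings of plus-closed layers

* `good I a n` : product of the indicators of `BlkP (a i) n (2 n)`; `incP_good`, `inTZ_good`, `em_good`;
* `ring` : when the balls `ball (a i) n` cover two circles around `o`, except a channel `C` surrounded by the
  plus-closed set `X`, the exploration from outside does not reach the middle region.
-/

set_option autoImplicit false
set_option linter.unusedSectionVars false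
set_option linter.unusedSimpArgs false

noncomputable section

namespace Crest.Agent.R144.Bnd991

open Finset
open Crest.Agent.R144.It844 (P2 Lip adj_iff adj_symm lip_iff)
open Crest.Agent.R144.Zg349 Crest.Agent.R144.Zd349 Crest.Agent.R144.Zm349 Crest.Agent.R144.Ze349
open Crest.Agent.R144.Zs349
open Crest.Agent.R144.Ccn2311 (incP_mul inTZ_mul inTZ_mono offTZ_anti inTZ_off inTZ_const offTZ_const Em lower2
  offTZ_comp Em_prod Em_mono_dom)
open Crest.Agent.R144.Rsw867 (ball mem_ball ball_mono adj_ball sc_ball Sepr Blk BlkP ind ind_nonneg ind_le_one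
  offTZ_mul path_mono RSW incP_blkP inTZ_blkP blkP_addH2 offTZ_one ind_of_mem ind_of_not_mem ind_congr)
open Crest.Agent.R144.Hf702 (Xg Bg mem_Bg notMem_Bg layer_Bg Bg_sub sc_Bg PB PBI PBI_nonneg offTZ_PBI sum_PBI
  xg_of_notMem)
open Crest.ProbabilityR.HexHeights (Adj)

/-- ring event -/
def good {ι : Type*} (I : Finset ι) (a : ι → P2) (n : ℕ) (ω : Cfg) : ℝ :=
  ∏ i ∈ I, ind (BlkP (a i) n (2 * n)) ω

section
variable {ι : Type*} {I : Finset ι} {a : ι → P2} {n : ℕ}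

theorem good_nonneg (ω : Cfg) : 0 ≤ good I a n ω := Finset.prod_nonneg fun _ _ => ind_nonneg _ _
theorem good_le_one (ω : Cfg) : good I a n ω ≤ 1 :=
  Finset.prod_le_one (fun _ _ => ind_nonneg _ _) fun _ _ => ind_le_one _ _

theorem mem_of_good {ω : Cfg} (h : good I a n ω ≠ 0) {i : ι} (hi : i ∈ I) :
    ω ∈ BlkP (a i) n (2 * n) := by
  by_contra h1
  exact h (Finset.prod_eq_zero hi (ind_of_not_mem h1))

theorem incP_prod {J : Finset ι} {f : ι → Cfg → ℝ} (hf : ∀ i ∈ J, IncP (f i))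
    (h0 : ∀ i ∈ J, ∀ ω, 0 ≤ f i ω) : IncP (fun ω => ∏ i ∈ J, f i ω) := fun ω ω' h =>
  Finset.prod_le_prod (fun i hi => h0 i hi ω) fun i hi => hf i hi ω ω' h

theorem incP_good : IncP (good I a n) :=
  incP_prod (fun i _ => incP_blkP (a i) n (2 * n)) fun _ _ _ => ind_nonneg _ _

theorem inTZ_good {B : Finset P2} (h : ∀ i ∈ I, ball (a i) (2 * n + 2) ⊆ B) : InTZ B (good I a n) :=
  fun ω ω' h1 h2 => Finset.prod_congr rfl fun i hi =>
    inTZ_blkP (a i) (m := n) (N := 2 * n) (by omega) (h i hi) ω ω' h1 h2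

theorem em_blkP {c : ℝ} (hc : 1 ≤ c) {K : ℕ} {p : ℝ} (hR : RSW c K p) (hn : 1 ≤ n) (b : P2)
    {B : Finset P2} (hB : SC B) (hKB : ball b (K * n) ⊆ B) :
    p ≤ Em c B (ind (BlkP b n (2 * n))) := by
  have h1 := hR.minus n hn b (ball b (K * n)) (sc_ball _ _) (Finset.Subset.refl _) (fun _ => 1)
    (fun _ => zero_le_one) (offTZ_one _)
  rw [E_const hc, mul_one] at h1
  simp only [one_mul] at h1
  have e : Em c (ball b (K * n)) (ind (BlkP b n (2 * n))) =
      E c (ball b (K * n)) (fun ω => ind (Blk b n (2 * n)) ω) :=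
    E_congr fun ω _ => ind_congr blkP_addH2
  have hin := inTZ_blkP b (m := n) (N := 2 * n) (by omega)
    (Rsw867.ball_sub_scale b hR.K4 hn)
  have h2 := Em_mono_dom hc hB (sc_ball b (K * n)) hKB (incP_blkP b n (2 * n)) hin
  rw [e] at h2
  exact h1.trans h2

theorem em_good {c : ℝ} (hc : 1 ≤ c) {K : ℕ} {p : ℝ} (hR : RSW c K p) (hn : 1 ≤ n)
    {B : Finset P2} (hB : SC B) (hKB : ∀ i ∈ I, ball (a i) (K * n) ⊆ B) :
    p ^ I.card ≤ Em c B (good I a n) := by
  have h1 := (Em_prod hc hB I (f := fun i => ind (BlkP (a i) n (2 * n)))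
    (fun i _ => incP_blkP (a i) n (2 * n)) (fun _ _ _ => ind_nonneg _ _)).2
  refine le_trans ?_ h1
  rw [← Finset.prod_const]
  exact Finset.prod_le_prod (fun _ _ => hR.p0.le) fun i hi => em_blkP hc hR hn (a i) hB (hKB i hi)

/-- **The ring.** -/
theorem ring {S : Set P2} {D D' : Finset P2} (hDD : D' ⊆ D) {X C : Set P2} (hX : ∀ t ∈ X, t ∈ S)
    {o : P2} {r R : ℕ}
    (h1 : ∀ t, t ∈ ball o (R + 1) → t ∉ ball o r → t ∈ D')
    (h2 : ∀ u ∈ C, u ∈ ball o (R + 1) → u ∉ ball o r → ∀ u', Adj u u' → u' ∈ C ∨ u' ∈ X)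
    (h3 : ∀ u, (u ∈ ball o (R + 1) ∧ u ∉ ball o R) ∨ (u ∈ ball o (r + 1) ∧ u ∉ ball o r) →
      u ∈ C ∨ u ∈ X ∨ ∃ i ∈ I, u ∈ ball (a i) n)
    (h4 : ∀ i ∈ I, ball (a i) (2 * n + 1) ⊆ D')
    (hb : ∀ i ∈ I, Sepr S (a i) n (2 * n))
    {t : P2} (ht : t ∈ Xg S D) (htA : t ∈ ball o R) (htA' : t ∉ ball o (r + 1)) : t ∈ C := by
  obtain ⟨t0, h0, hp⟩ := ht
  have key : ∀ t, Relation.ReflTransGen (fun a b => Adj a b ∧ b ∉ S) t0 t →
      (t ∈ ball o R → t ∉ ball o (r + 1) → t ∈ C) ∧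
      (t = t0 ∨ ∃ u, Adj t0 u ∧ t ∉ S ∧ Relation.ReflTransGen (StepIn Sᶜ) u t) := by
    intro t hp
    induction hp with
    | refl =>
      refine ⟨fun h5 h6 => ?_, Or.inl rfl⟩
      exact absurd (hDD (h1 _ (ball_mono o (Nat.le_succ R) h5)
        fun h => h6 (ball_mono o (Nat.le_succ r) h))) h0
    | @tail b d _ hbd ih =>
      obtain ⟨ih1, ih2⟩ := ih
      refine ⟨fun h5 h6 => ?_, ?_⟩
      · have hdX : d ∉ X := fun h => hbd.2 (hX d h)
        -- `b` is in the closed annulus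
        have hb1 : b ∈ ball o (R + 1) := adj_ball h5 (adj_symm hbd.1)
        have hb2 : b ∉ ball o r := fun h => h6 (adj_ball h hbd.1)
        have hcase : b ∈ C := by
          by_cases hbA : b ∈ ball o R ∧ b ∉ ball o (r + 1)
          · exact ih1 hbA.1 hbA.2
          · have hcirc : (b ∈ ball o (R + 1) ∧ b ∉ ball o R) ∨ (b ∈ ball o (r + 1) ∧ b ∉ ball o r) := by
              by_cases h7 : b ∈ ball o R
              · right
                refine ⟨?_, hb2⟩
                by_contra h8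
                exact hbA ⟨h7, h8⟩
              · exact Or.inl ⟨hb1, h7⟩
            have hbD : b ∈ D' := h1 b hb1 hb2
            rcases ih2 with rfl | ⟨u, hu, hbS, hpu⟩
            · exact absurd (hDD hbD) h0
            · rcases h3 b hcirc with h8 | h8 | ⟨i, hi, h8⟩
              · exact h8
              · exact absurd (hX b h8) hbS
              · refine absurd hpu (hb i hi u b (fun h9 => ?_) h8)
                exact h0 (hDD (h4 i hi (adj_ball h9 (adj_symm hu))))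
        rcases h2 b hcase hb1 hb2 d hbd.1 with h7 | h7
        · exact h7
        · exact absurd h7 hdX
      · right
        rcases ih2 with rfl | ⟨u, hu, hbS, hpu⟩
        · exact ⟨d, hbd.1, hbd.2, Relation.ReflTransGen.refl⟩
        · exact ⟨u, hu, hbd.2, hpu.tail ⟨hbS, hbd.2, hbd.1⟩⟩
  exact (key t hp).1 htA htA'

/-- the middle region is unexplored -/
theorem ring_PB {D D' M : Finset P2} (hDD : D' ⊆ D) {X C : Set P2} {o : P2} {r R : ℕ}
    (h1 : ∀ t, t ∈ ball o (R + 1) → t ∉ ball o r → t ∈ D')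
    (h2 : ∀ u ∈ C, u ∈ ball o (R + 1) → u ∉ ball o r → ∀ u', Adj u u' → u' ∈ C ∨ u' ∈ X)
    (h3 : ∀ u, (u ∈ ball o (R + 1) ∧ u ∉ ball o R) ∨ (u ∈ ball o (r + 1) ∧ u ∉ ball o r) →
      u ∈ C ∨ u ∈ X ∨ ∃ i ∈ I, u ∈ ball (a i) n)
    (h4 : ∀ i ∈ I, ball (a i) (2 * n + 1) ⊆ D')
    (h5 : ∀ t ∈ M, (t ∈ ball o R ∧ t ∉ ball o (r + 1) ∧ t ∉ C) ∧
      ∀ t', Adj t t' → t' ∈ ball o R ∧ t' ∉ ball o (r + 1) ∧ t' ∉ C)
    {ω : Cfg} (hK : Kn X ω ≠ 0) (hg : good I a n ω ≠ 0) :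
    ∀ t ∈ M, t ∈ PB D ω := by
  intro t ht
  have hno : ∀ s, s ∈ ball o R → s ∉ ball o (r + 1) → s ∉ C → s ∉ Xg {t | pC ω t} D := by
    intro s hs1 hs2 hs3 hs
    exact hs3 (ring hDD (S := {t | pC ω t}) (X := X) (fun t ht => Kn_ne.1 hK t ht) h1 h2 h3 h4
      (fun i hi => mem_of_good hg hi) hs hs1 hs2)
  have h6 := h5 t ht
  exact mem_Bg.2 ⟨hno t h6.1.1 h6.1.2.1 h6.1.2.2, fun t' ha =>
    hno t' (h6.2 t' ha).1 (h6.2 t' ha).2.1 (h6.2 t' ha).2.2⟩

end

end Crest.Agent.R144.Bnd991
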