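import Crest.Agent.R144.Bnd2_991

/-!
# R144, block BND, part 3 (helper991): the frame at a boundary point, literal form

`Frame` = everything that is needed from the geometry at one scale. `o` centre (site near the boundary
point), `n` radius of the small balls, `r1 < r2` the annulus of the crossing event, `wd = (K + 1) n + 4`
half width of the exterior strip above `o`, `mg = (K + 1) n + 12` margin.
-/

set_option autoImplicit false

noncomputable section

namespace Crest.Agent.R144.Bnd991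

open Crest.Agent.R144.It844 (P2)
open Crest.Agent.R144.Zg349
open Crest.Agent.R144.Rsw867 (ball)

/-- half width of the strip -/
def wd (K n : ℕ) : ℕ := (K + 1) * n + 4
/-- margin around the annulus -/
def mg (K n : ℕ) : ℕ := (K + 1) * n + 12

/-- **The frame at one scale.** `N` non-free sites; `b s`, `y s` (`s = false` left, `s = true` right)
exterior and interior points next to the boundary; `a i`, `i ≤ k` chain of free balls; the columns `o.1`,
`o.1 + 1` are crossed at the height `q`. -/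
structure Frame (K A R n r1 r2 k : ℕ) (N : Set P2) (o : P2) (q : ℤ) (b y : Bool → P2) (a : ℕ → P2) :
    Prop where
  n1 : 1 ≤ n
  /-- room inside -/
  rin : wd K n + mg K n ≤ r1
  r12 : r1 < r2
  /-- (g1) the strip above `o` is not free -/
  strip : ∀ v : P2, |v.1 - o.1| ≤ wd K n + 2 → o.2 ≤ v.2 → v ∉ ball o (r1 - mg K n) →
    v ∈ ball o (r2 + mg K n) → v ∈ N
  /-- (g2) slits above `b s` -/
  slit : ∀ s, ∀ v : P2, (b s).1 ≤ v.1 → v.1 ≤ (b s).1 + 1 → (b s).2 ≤ v.2 → v ∈ ball o (r2 + mg K n) →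
    v ∈ N
  /-- the balls around `b s` are in the annulus, -/
  ballb : ∀ s, ∀ v ∈ ball (b s) (R * n), v ∈ ball o r2 ∧ v ∉ ball o r1
  /-- on the left and on the right, -/
  left : ∀ v ∈ ball (b false) (R * n), v.1 < o.1 - (r1 + 2)
  right : ∀ v ∈ ball (b true) (R * n), o.1 + (r1 + 2) < v.1
  yb : ∀ s, y s ∈ ball (b s) (A * n)
  /-- (g3) chain of free balls -/
  a0 : a 0 = y false
  ak : a k = y true
  chain : ∀ i, i < k → a (i + 1) ∈ ball (a i) n
  free : ∀ i, i ≤ k → ∀ v ∈ ball (a i) (K * n), v ∉ N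
  inA : ∀ i, i ≤ k → ∀ v ∈ ball (a i) (K * n), v ∈ ball o r2 ∧ v ∉ ball o r1
  /-- the crossed height -/
  q0 : o.2 + 1 ≤ q
  q1 : (o.1, q) ∈ ball o r2 ∧ (o.1, q) ∉ ball o r1
  q2 : (o.1 + 1, q - 1) ∈ ball o r2 ∧ (o.1 + 1, q - 1) ∉ ball o r1
  /-- (g4) non-free sites next to `b s` are joined to the strip on their side -/
  pl : ∀ v ∈ N, v ∈ ball (b false) (R * n) → Relation.ReflTransGen
    (StepIn {w | w ∈ N ∧ w ∈ ball o r2 ∧ w ∉ ball o r1 ∧ (w.1 < o.1 ∨ w = (o.1, q))}) v (o.1, q)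
  pr : ∀ v ∈ N, v ∈ ball (b true) (R * n) → Relation.ReflTransGen
    (StepIn {w | w ∈ N ∧ w ∈ ball o r2 ∧ w ∉ ball o r1 ∧ (o.1 + 1 < w.1 ∨ w = (o.1 + 1, q - 1))}) v
      (o.1 + 1, q - 1)

end Crest.Agent.R144.Bnd991
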