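import Crest.Agent.R144.Bnd3_991

/-!
# R144, block BND, part 4 (helper991): LEMMA A, literal statement (B7)
-/

set_option autoImplicit false

noncomputable section

namespace Crest.Agent.R144.Bnd991

open Crest.Agent.R144.It844 (P2)
open Crest.Agent.R144.Zg349 Crest.Agent.R144.Zm349
open Crest.Agent.R144.Rsw867 (ball ind)

/-- excluded triangles of one scale: the strip above `o` and the two slits -/
def Ys (K n : ℕ) (o : P2) (b : Bool → P2) : Set P2 :=
  {t | |t.1 - o.1| ≤ wd K n ∧ o.2 ≤ t.2} ∪ ray (b false) ∪ ray (b true)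

/-- **LEMMA A** (B7), `q` = probability of blocking. -/
def LemA (c : ℝ) (K A R : ℕ) (q : ℕ → ℝ) : Prop :=
  ∀ (n r1 r2 k : ℕ) (N : Set P2) (o : P2) (h : ℤ) (b y : Bool → P2) (a : ℕ → P2),
    Frame K A R n r1 r2 k N o h b y a →
    ∀ Q : Finset P2, SC Q → Anc N Q →
      (∀ t, t ∈ ball o (r2 + 1) → t ∉ ball o (r1 - 1) → t ∉ Ys K n o b → t ∈ Q) →
      (∀ t ∈ Q, t ∉ Ys K n o b) →
        E c Q (fun ω => Cn N ω * ind (Cross N o r1 r2) ω) ≤ (1 - q k) * E c Q (Cn N)

end Crest.Agent.R144.Bnd991
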