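import Crest.Agent.R144.Bnd4_991

/-!
# R144, block BND, part 5 (helper991): from frames to scales

* `cen`, `Ir` : the ring of small balls; `cover`, `Ir_far`, `card_Ir`;
* `Dk`, `Bk`, `Yk`, `Mk`, `Xk` : the sets of one scale;
* `GM` : the planar facts on these sets (interface to 400);
* `scale_of` : frame + LEMMA A ⟹ `Scale`.
-/

set_option autoImplicit false
set_option linter.unusedSectionVars false
set_option linter.unusedVariables false

noncomputable section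

namespace Crest.Agent.R144.Bnd991

open Finset
open Crest.Agent.R144.It844 (P2 Lip adj_iff adj_symm lip_iff)
open Crest.Agent.R144.Zg349 Crest.Agent.R144.Zd349 Crest.Agent.R144.Zm349 Crest.Agent.R144.Ze349
open Crest.Agent.R144.Ccn2311 (Em)
open Crest.Agent.R144.Rsw867 (ball mem_ball ball_mono adj_ball sc_ball Sepr Blk BlkP ind ind_nonneg ind_le_one
  RSW)
open Crest.Agent.R144.Hf702 (PB)
open Crest.ProbabilityR.HexHeights (Adj)

/-! ### balls -/

theorem ball_symm {a b : P2} {n : ℕ} (h : a ∈ ball b n) : b ∈ ball a n := by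
  rw [mem_ball] at *
  simp only [abs_le] at *
  omega

theorem ball_tri {a b d : P2} {m n : ℕ} (h1 : a ∈ ball b m) (h2 : b ∈ ball d n) : a ∈ ball d (m + n) := by
  rw [mem_ball] at *
  simp only [abs_le] at *
  push_cast
  omega

theorem ball_tri' {a b d : P2} {m n k : ℕ} (h1 : a ∈ ball b m) (h2 : b ∈ ball d n) (hk : m + n ≤ k) :
    a ∈ ball d k := ball_mono d hk (ball_tri h1 h2)

theorem ball_far {a b d : P2} {m n k : ℕ} (h1 : a ∈ ball b m) (h2 : b ∉ ball d n) (hk : m + k ≤ n) :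
    a ∉ ball d k := fun h => h2 (ball_mono d hk (ball_tri (ball_symm h1) h))

theorem adj_ball1 {a b : P2} (h : Adj a b) : b ∈ ball a 1 := by
  rw [adj_iff] at h
  rw [mem_ball]
  simp only [abs_le]
  push_cast
  rcases h with h | h | h | h | h | h <;> subst h <;> simp only <;> omega

theorem up_ball1 {t v : P2} (h : v ∈ up t) : v ∈ ball t 1 := by
  rw [mem_up] at h
  rw [mem_ball]
  simp only [abs_le]
  push_cast
  obtain ⟨x, y⟩ := t
  rcases h with h | h | h <;> subst h <;> dsimp only <;> omega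

theorem ball_self (a : P2) (n : ℕ) : a ∈ ball a n := by
  rw [mem_ball]; simp

/-! ### the ring of small balls -/

/-- centres of the small balls -/
def cen (o : P2) (n : ℕ) (i : ℤ × ℤ) : P2 := (o.1 + n * i.1, o.2 + n * i.2)

theorem cover_pt (o u : P2) {n : ℕ} (hn : 1 ≤ n) : ∃ i : ℤ × ℤ, u ∈ ball (cen o n i) n := by
  have hn' : (0 : ℤ) < n := by exact_mod_cast hn
  have h1 := Int.emod_nonneg (u.1 - o.1) hn'.ne'
  have h2 := Int.emod_lt_of_pos (u.1 - o.1) hn'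
  have h3 := Int.emod_nonneg (u.2 - o.2) hn'.ne'
  have h4 := Int.emod_lt_of_pos (u.2 - o.2) hn'
  have h5 := Int.mul_ediv_add_emod (u.1 - o.1) n
  have h6 := Int.mul_ediv_add_emod (u.2 - o.2) n
  set α := (u.1 - o.1) % (n : ℤ)
  set β := (u.2 - o.2) % (n : ℤ)
  set x := (u.1 - o.1) / (n : ℤ)
  set y := (u.2 - o.2) / (n : ℤ)
  by_cases h : α + β ≤ n
  · refine ⟨(x, y), ?_⟩
    rw [mem_ball]
    simp only [cen, abs_le]
    omega
  · refine ⟨(x + 1, y), ?_⟩
    rw [mem_ball]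
    simp only [cen, abs_le, mul_add, mul_one]
    omega

/-- points of the two circles off the strip -/
def Cir (K n r1 r2 : ℕ) (o u : P2) : Prop :=
  ((u ∈ ball o (r2 + 3) ∧ u ∉ ball o (r2 + 2)) ∨ (u ∈ ball o (r1 - 2) ∧ u ∉ ball o (r1 - 3))) ∧
    ¬ (|u.1 - o.1| ≤ wd K n ∧ o.2 ≤ u.2)

open Classical in
/-- index set of the ring -/
def Ir (K n r1 r2 L : ℕ) (o : P2) : Finset (ℤ × ℤ) :=
  (Finset.Icc (-(L : ℤ)) L ×ˢ Finset.Icc (-(L : ℤ)) L).filter fun i =>
    ∃ u, u ∈ ball (cen o n i) n ∧ Cir K n r1 r2 o u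

theorem card_Ir (K n r1 r2 L : ℕ) (o : P2) : (Ir K n r1 r2 L o).card ≤ (2 * L + 1) ^ 2 := by
  classical
  unfold Ir
  refine (Finset.card_filter_le _ _).trans ?_
  rw [Finset.card_product, Int.card_Icc]
  have : ((L : ℤ) + 1 - -(L : ℤ)).toNat = 2 * L + 1 := by omega
  rw [this, sq]

theorem cover_Ir {K n r1 r2 L : ℕ} {o u : P2} (hn : 1 ≤ n) (hr : r1 ≤ r2) (hL : r2 + 3 + n ≤ L * n)
    (hu : Cir K n r1 r2 o u) : ∃ i ∈ Ir K n r1 r2 L o, u ∈ ball (cen o n i) n := by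
  classical
  obtain ⟨i, hi⟩ := cover_pt o u hn
  refine ⟨i, ?_, hi⟩
  unfold Ir
  rw [Finset.mem_filter, Finset.mem_product, Finset.mem_Icc, Finset.mem_Icc]
  refine ⟨?_, u, hi, hu⟩
  have hub : u ∈ ball o (r2 + 3) := by
    rcases hu.1 with h | h
    · exact h.1
    · exact ball_mono o (by omega) h.1
  have hn' : (0 : ℤ) < n := by exact_mod_cast hn
  rw [mem_ball] at hi hub
  simp only [cen, abs_le] at hi hub
  have hL' : ((r2 : ℤ) + 3 + n) ≤ L * n := by exact_mod_cast hL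
  push_cast at hub
  have key : ∀ z : ℤ, -((r2 : ℤ) + 3 + n) ≤ n * z → n * z ≤ (r2 : ℤ) + 3 + n → -(L : ℤ) ≤ z ∧ z ≤ L := by
    intro z h1 h2
    constructor
    · by_contra h
      push Not at h
      have : (n : ℤ) * z ≤ n * (-(L : ℤ) - 1) := mul_le_mul_of_nonneg_left (by omega) hn'.le
      nlinarith
    · by_contra h
      push Not at h
      have : (n : ℤ) * ((L : ℤ) + 1) ≤ n * z := mul_le_mul_of_nonneg_left (by omega) hn'.le
      nlinarith
  refine ⟨key i.1 ?_ ?_, key i.2 ?_ ?_⟩ <;> omega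

/-! ### the sets of one scale -/

/-- exploration domain -/
def Dk (n r1 r2 : ℕ) (o : P2) : Finset P2 := ball o (r2 + (3 * n + 4)) \ ball o (r1 - (3 * n + 4))

open Classical in
/-- block of the ring -/
def Bk (K n r1 r2 : ℕ) (o : P2) : Finset P2 :=
  (ball o (r2 + ((K + 1) * n + 10)) \ ball o (r1 - ((K + 1) * n + 10))).filter
    fun t => ¬ (t.1 = o.1 ∧ o.2 ≤ t.2)

open Classical in
/-- excluded set -/
def Yk (K n r1 r2 : ℕ) (o : P2) (b : Bool → P2) : Finset P2 := (Dk n r1 r2 o).filter (· ∈ Ys K n o b)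

open Classical in
/-- middle region -/
def Mk (K n r1 r2 : ℕ) (o : P2) (b : Bool → P2) : Finset P2 :=
  (ball o (r2 + 1) \ ball o (r1 - 1)).filter (· ∉ Ys K n o b)

/-- plus closed set -/
def Xk (K n r1 r2 : ℕ) (o : P2) (b : Bool → P2) : Set P2 :=
  {t | t ∈ ball o (r2 + (3 * n + 6)) ∧ t ∉ ball o (r1 - (3 * n + 6)) ∧
    ((2 ≤ |t.1 - o.1| ∧ |t.1 - o.1| ≤ wd K n ∧ o.2 ≤ t.2) ∨ t ∈ ray (b false) ∨ t ∈ ray (b true))}

theorem mem_Dk {n r1 r2 : ℕ} {o t : P2} :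
    t ∈ Dk n r1 r2 o ↔ t ∈ ball o (r2 + (3 * n + 4)) ∧ t ∉ ball o (r1 - (3 * n + 4)) := by
  unfold Dk; rw [Finset.mem_sdiff]

theorem mem_Bk {K n r1 r2 : ℕ} {o t : P2} :
    t ∈ Bk K n r1 r2 o ↔ (t ∈ ball o (r2 + ((K + 1) * n + 10)) ∧
      t ∉ ball o (r1 - ((K + 1) * n + 10))) ∧ ¬ (t.1 = o.1 ∧ o.2 ≤ t.2) := by
  classical
  unfold Bk; rw [Finset.mem_filter, Finset.mem_sdiff]

theorem mem_Yk {K n r1 r2 : ℕ} {o t : P2} {b : Bool → P2} :
    t ∈ Yk K n r1 r2 o b ↔ t ∈ Dk n r1 r2 o ∧ t ∈ Ys K n o b := by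
  classical
  unfold Yk; rw [Finset.mem_filter]

theorem mem_Mk {K n r1 r2 : ℕ} {o t : P2} {b : Bool → P2} :
    t ∈ Mk K n r1 r2 o b ↔ (t ∈ ball o (r2 + 1) ∧ t ∉ ball o (r1 - 1)) ∧ t ∉ Ys K n o b := by
  classical
  unfold Mk; rw [Finset.mem_filter, Finset.mem_sdiff]

theorem mem_Ys {K n : ℕ} {o t : P2} {b : Bool → P2} :
    t ∈ Ys K n o b ↔ (|t.1 - o.1| ≤ wd K n ∧ o.2 ≤ t.2) ∨ t ∈ ray (b false) ∨ t ∈ ray (b true) := by
  show (((|t.1 - o.1| ≤ wd K n ∧ o.2 ≤ t.2) ∨ t ∈ ray (b false)) ∨ t ∈ ray (b true)) ↔ _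
  tauto

theorem mem_ray {t b : P2} : t ∈ ray b ↔ t.1 = b.1 ∧ b.2 ≤ t.2 := Iff.rfl

/-- **planar facts of one scale** -/
structure GM (K n r1 r2 : ℕ) (o : P2) (b : Bool → P2) : Prop where
  scB : SC (Bk K n r1 r2 o)
  scD : SC (Dk n r1 r2 o \ Yk K n r1 r2 o b)
  Mc : IsConn (Mk K n r1 r2 o b : Set P2)

section
variable {K A R n r1 r2 k : ℕ} {N : Set P2} {o : P2} {h : ℤ} {b y : Bool → P2} {a : ℕ → P2}
  (hF : Frame K A R n r1 r2 k N o h b y a)
include hF

theorem Frame.rin' : 2 * ((K + 1) * n) + 16 ≤ r1 := by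
  have := hF.rin
  unfold wd mg at this
  omega

theorem Frame.colb : (b false).1 < o.1 - (r1 + 2) ∧ o.1 + (r1 + 2) < (b true).1 :=
  ⟨hF.left _ (ball_self _ _), hF.right _ (ball_self _ _)⟩

/-- a free site of the annulus is not in the excluded set -/
theorem Frame.free_notMem {v : P2} (h1 : v ∈ ball o (r2 + mg K n)) (h2 : v ∉ ball o (r1 - mg K n))
    (hv : v ∉ N) : v ∉ Ys K n o b := by
  intro h
  rw [mem_Ys] at h
  rcases h with h | h | h
  · exact hv (hF.strip v (by have := h.1; push_cast; linarith) h.2 h2 h1)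
  · rw [mem_ray] at h
    exact hv (hF.slit false v (by omega) (by omega) (by omega) h1)
  · rw [mem_ray] at h
    exact hv (hF.slit true v (by omega) (by omega) (by omega) h1)

/-- corners of the plus-closed triangles are not free -/
theorem Frame.Xk_corner (hK : 4 ≤ K) {t v : P2} (ht : t ∈ Xk K n r1 r2 o b) (hv : v ∈ up t) :
    v ∈ N := by
  have hn := hF.n1
  have hK' : 5 * n ≤ (K + 1) * n := Nat.mul_le_mul_right _ (by omega)
  have hrin := hF.rin'
  obtain ⟨h1, h2, h3⟩ := ht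
  have hv1 : v ∈ ball t 1 := up_ball1 hv
  have hv2 : v ∈ ball o (r2 + mg K n) := ball_tri' hv1 h1 (by unfold mg; omega)
  have hv3 : v ∉ ball o (r1 - mg K n) := ball_far hv1 h2 (by unfold mg; omega)
  have hv4 := mem_up.1 hv
  have hc : v.1 = t.1 ∨ v.1 = t.1 + 1 := by
    rcases hv4 with h | h | h <;> rw [h] <;> simp
  have hc2 : t.2 ≤ v.2 := by
    rcases hv4 with h | h | h <;> rw [h] <;> simp
  rcases h3 with h3 | h3 | h3
  · refine hF.strip v ?_ (h3.2.2.trans hc2) hv3 hv2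
    have := h3.2.1
    rw [abs_le] at this ⊢
    omega
  · rw [mem_ray] at h3
    exact hF.slit false v (by omega) (by omega) (by omega) hv2
  · rw [mem_ray] at h3
    exact hF.slit true v (by omega) (by omega) (by omega) hv2

end

/-! ### the ring -/

section
variable {K n r1 r2 L : ℕ} {o : P2}

/-- points near a ring ball -/
theorem Ir_near {i : ℤ × ℤ} (hi : i ∈ Ir K n r1 r2 L o) :
    ∃ u, cen o n i ∈ ball u n ∧ Cir K n r1 r2 o u := by
  classical
  unfold Ir at hi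
  obtain ⟨u, hu, hc⟩ := (Finset.mem_filter.1 hi).2
  exact ⟨u, ball_symm hu, hc⟩

theorem Cir.up {u : P2} (hu : Cir K n r1 r2 o u) (hr : r1 ≤ r2) : u ∈ ball o (r2 + 3) := by
  rcases hu.1 with h | h
  · exact h.1
  · exact ball_mono o (by omega) h.1

theorem Cir.low {u : P2} (hu : Cir K n r1 r2 o u) (hr : r1 ≤ r2) : u ∉ ball o (r1 - 3) := by
  rcases hu.1 with h | h
  · exact fun h' => h.2 (ball_mono o (by omega) h')
  · exact h.2

/-- the small balls of the ring are in the exploration domain -/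
theorem ring_Dk (hr : r1 ≤ r2) (h3n : 3 * n + 4 ≤ r1) {i : ℤ × ℤ} (hi : i ∈ Ir K n r1 r2 L o) :
    ball (cen o n i) (2 * n + 1) ⊆ Dk n r1 r2 o := by
  obtain ⟨u, hu, hc⟩ := Ir_near hi
  intro t ht
  have h1 : t ∈ ball u (3 * n + 1) := ball_tri' ht hu (by omega)
  rw [mem_Dk]
  exact ⟨ball_tri' h1 (hc.up hr) (by omega), ball_far h1 (hc.low hr) (by omega)⟩

/-- the large balls of the ring are in the block -/
theorem ring_Bk (hr : r1 ≤ r2) (hrin : 2 * ((K + 1) * n) + 16 ≤ r1) {i : ℤ × ℤ}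
    (hi : i ∈ Ir K n r1 r2 L o) : ball (cen o n i) (K * n) ⊆ Bk K n r1 r2 o := by
  obtain ⟨u, hu, hc⟩ := Ir_near hi
  have e : (K + 1) * n = K * n + n := by ring
  intro t ht
  have h1 : t ∈ ball u ((K + 1) * n) := ball_tri' ht hu (by omega)
  rw [mem_Bk]
  refine ⟨⟨ball_tri' h1 (hc.up hr) (by omega), ball_far h1 (hc.low hr) (by omega)⟩, ?_⟩
  rintro ⟨h2, h3⟩
  apply hc.2
  have h4 := hc.low hr
  rw [mem_ball] at h1 h4
  unfold wd
  set W := (K + 1) * n with hW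
  simp only [abs_le] at h1 h4 ⊢
  push_cast at h4 ⊢
  omega

end

end Crest.Agent.R144.Bnd991
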