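import Crest.Agent.R144.Bnd6_991

/-!
# R144, block BND, part 7 (helper991): several scales around a boundary point

* `Scs` : a finite family of frames with common `N`, `o`, separated annuli, `n, r1, r2, k` bounded;
* `Scs.decay` : `E c G (Kn X * Cn N * ind (Cross N o s d)) ≤ (1 - q c0) ^ #S * E c G (Kn X * Cn N)`.
-/

set_option autoImplicit false
set_option linter.unusedSectionVars false
set_option linter.unusedVariables false

noncomputable section

namespace Crest.Agent.R144.Bnd991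

open Finset
open Crest.Agent.R144.It844 (P2 Lip adj_iff adj_symm lip_iff)
open Crest.Agent.R144.Zg349 Crest.Agent.R144.Zd349 Crest.Agent.R144.Zm349 Crest.Agent.R144.Ze349
open Crest.Agent.R144.Ccn2311 (Em)
open Crest.Agent.R144.Rsw867 (ball mem_ball ball_mono adj_ball sc_ball Sepr Blk BlkP ind ind_nonneg ind_le_one
  RSW ind_congr ind_le_ind ind_of_mem ind_of_not_mem)
open Crest.Agent.R144.Hf702 (PB)
open Crest.ProbabilityR.HexHeights (Adj)

/-- a family of frames around `o` between the radii `s` and `d` -/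
structure Scs (K A R L km : ℕ) (N : Set P2) (o : P2) (s d : ℕ) {ι : Type*} (S : Finset ι)
    (n r1 r2 k : ι → ℕ) (h : ι → ℤ) (b y : ι → Bool → P2) (a : ι → ℕ → P2) : Prop where
  fr : ∀ j ∈ S, Frame K A R (n j) (r1 j) (r2 j) (k j) N o (h j) (b j) (y j) (a j)
  gm : ∀ j ∈ S, GM K (n j) (r1 j) (r2 j) o (b j)
  hL : ∀ j ∈ S, r2 j + 3 + n j ≤ L * n j
  hk : ∀ j ∈ S, k j ≤ km
  sep : ∀ i ∈ S, ∀ j ∈ S, i ≠ j → r2 i + mg K (n i) < r1 j - mg K (n j) ∨
    r2 j + mg K (n j) < r1 i - mg K (n i)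
  hs : ∀ j ∈ S, s ≤ r1 j
  hd : ∀ j ∈ S, r2 j + mg K (n j) ≤ d

theorem Scale.mono_q {c c0 q q' : ℝ} (hc : 1 ≤ c) (hq : q' ≤ q) {F : Finset P2} {N X : Set P2}
    {B D Y M : Finset P2} {χ good : Cfg → ℝ} (h : Scale c c0 q F N X B D Y M χ good) :
    Scale c c0 q' F N X B D Y M χ good :=
  { h with
    main := fun Q hQ h1 h2 => (h.main Q hQ h1 h2).trans
      (mul_le_mul_of_nonneg_right (by linarith) (E_nonneg hc fun ω _ => Cn_nonneg _ _)) }

section
variable {K A R L km : ℕ} {N : Set P2} {o : P2} {s d : ℕ} {ι : Type*} {S : Finset ι}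
  {n r1 r2 k : ι → ℕ} {h : ι → ℤ} {b y : ι → Bool → P2} {a : ι → ℕ → P2}

/-- plus closed set of the family -/
def XS (K : ℕ) (o : P2) (S : Finset ι) (n r1 r2 : ι → ℕ) (b : ι → Bool → P2) : Set P2 :=
  {t | ∃ j ∈ S, t ∈ Xk K (n j) (r1 j) (r2 j) o (b j)}

theorem annuli_disj {K : ℕ} {o t : P2} {n1 n2 a1 a2 b1 b2 : ℕ}
    (hsep : a2 + mg K n1 < b1 - mg K n2 ∨ b2 + mg K n2 < a1 - mg K n1)
    (h1 : t ∈ ball o (a2 + mg K n1) ∧ t ∉ ball o (a1 - mg K n1))
    (h2 : t ∈ ball o (b2 + mg K n2) ∧ t ∉ ball o (b1 - mg K n2)) : False := by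
  rcases hsep with h | h
  · exact h2.2 (ball_mono o h.le h1.1)
  · exact h1.2 (ball_mono o h.le h2.1)

/-- margins of the exploration domains -/
theorem Frame.Dk_ann' {n r1 r2 k : ℕ} {h : ℤ} {b y : Bool → P2} {a : ℕ → P2}
    (hF : Frame K A R n r1 r2 k N o h b y a) (hK : 4 ≤ K) {t u : P2} (ht : t ∈ Dk n r1 r2 o)
    (hu : u ∈ ball t 1) : u ∈ ball o (r2 + mg K n) ∧ u ∉ ball o (r1 - mg K n) := by
  have h5 := hF.W5 hK
  have hrin := hF.rin'
  rw [mem_Dk] at ht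
  exact ⟨ball_tri' hu ht.1 (by unfold mg; omega), ball_far hu ht.2 (by unfold mg; omega)⟩

variable [DecidableEq ι]

/-- **Decay of the crossing event over several scales.** -/
theorem Scs.decay (H : Scs K A R L km N o s d S n r1 r2 k h b y a) {c p : ℝ} (hc : 1 ≤ c)
    (hR : RSW c K p) {q : ℕ → ℝ} (hA : LemA c K A R q) {q0 : ℝ} (hq0 : 0 ≤ q0) (hq1 : q0 ≤ 1)
    (hq : ∀ i ≤ km, q0 ≤ q i) {G : Finset P2} (hG : SC G) (hN : Anc N G) (hGb : ball o d ⊆ G) :
    E c G (fun ω => Kn (XS K o S n r1 r2 b) ω * Cn N ω * ind (Cross N o s d) ω) ≤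
      (1 - q0 * p ^ ((2 * L + 1) ^ 2)) ^ S.card *
        E c G (fun ω => Kn (XS K o S n r1 r2 b) ω * Cn N ω) := by
  classical
  have hK := hR.K4
  have hp1 : p ≤ 1 := by linarith [hR.p1]
  have hpow : p ^ ((2 * L + 1) ^ 2) ≤ 1 := pow_le_one₀ hR.p0.le hp1
  have hpow0 : 0 ≤ p ^ ((2 * L + 1) ^ 2) := pow_nonneg hR.p0.le _
  set X := XS K o S n r1 r2 b with hX
  have hsc : ∀ j ∈ S, Scale c (p ^ ((2 * L + 1) ^ 2)) q0 G N X (Bk K (n j) (r1 j) (r2 j) o)
      (Dk (n j) (r1 j) (r2 j) o) (Yk K (n j) (r1 j) (r2 j) o (b j)) (Mk K (n j) (r1 j) (r2 j) o (b j))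
      (ind (Cross N o (r1 j) (r2 j))) (good (Ir K (n j) (r1 j) (r2 j) L o) (cen o (n j)) (n j)) := by
    intro j hj
    refine Scale.mono_q hc (hq _ (H.hk j hj)) ((H.fr j hj).scale hK hc hR (H.gm j hj) hA hN
      ((ball_mono o (H.hd j hj)).trans hGb) ?_ ?_ (H.hL j hj))
    · rintro t ⟨i, hi, ht⟩ h1 h2
      by_cases hij : i = j
      · rw [← hij]; exact ht
      · exact (annuli_disj (H.sep i hi j hj hij) ((H.fr i hi).Xk_ann hK ht) ⟨h1, h2⟩).elim
    · exact fun t ht => ⟨j, hj, ht⟩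
  have hm := multi (S := S) (B := fun j => Bk K (n j) (r1 j) (r2 j) o)
    (D := fun j => Dk (n j) (r1 j) (r2 j) o) (Y := fun j => Yk K (n j) (r1 j) (r2 j) o (b j))
    (M := fun j => Mk K (n j) (r1 j) (r2 j) o (b j)) (χ := fun j => ind (Cross N o (r1 j) (r2 j)))
    (good := fun j => good (Ir K (n j) (r1 j) (r2 j) L o) (cen o (n j)) (n j))
    hc hG hq0 hq1 (by nlinarith) hN hsc ?_ ?_ ?_ ?_
  · refine le_trans (E_mono hc fun ω _ => ?_) hm
    refine mul_le_mul_of_nonneg_left ?_ (mul_nonneg (Kn_nonneg _ _) (Cn_nonneg _ _))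
    by_cases hω : ω ∈ Cross N o s d
    · rw [Finset.prod_eq_one fun j hj => ?_]
      · exact ind_le_one _ _
      · refine ind_of_mem fun hsep => hω ?_
        have h1 := H.hs j hj
        have h2 := H.hd j hj
        exact Sepr.mono_ball hsep h1 (by omega)
    · rw [ind_of_not_mem hω]
      exact Finset.prod_nonneg fun _ _ => ind_nonneg _ _
  · intro i hi j hj hij
    rw [Finset.disjoint_left]
    intro t h1 h2
    exact annuli_disj (H.sep i hi j hj hij) ((H.fr i hi).Bk_ann hK h1) ((H.fr j hj).Bk_ann hK h2)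
  · intro i hi j hj hij t ht t' ht' ha
    exact annuli_disj (H.sep i hi j hj hij) ((H.fr i hi).Dk_ann' hK ht (adj_ball1 ha))
      ((H.fr j hj).Dk_ann' hK ht' (ball_self _ _))
  · intro i hi j hj hij t ht t' ht' v hv hv'
    exact annuli_disj (H.sep i hi j hj hij) ((H.fr i hi).Dk_ann' hK ht (up_ball1 hv))
      ((H.fr j hj).Dk_ann' hK ht' (up_ball1 hv'))
  · intro j hj ω _ hKn hg
    refine (H.fr j hj).hgood hK (X := X) ?_ (H.hL j hj) ?_ hKn hg
    · exact fun t ht => ⟨j, hj, ht⟩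
    · exact Finset.subset_biUnion_of_mem (fun j => Dk (n j) (r1 j) (r2 j) o) hj

/-- corners of the plus closed set are not free -/
theorem Scs.corner (H : Scs K A R L km N o s d S n r1 r2 k h b y a) (hK : 4 ≤ K) :
    ∀ t ∈ XS K o S n r1 r2 b, ∀ v ∈ up t, v ∈ N := by
  rintro t ⟨j, hj, ht⟩ v hv
  exact (H.fr j hj).Xk_corner hK ht hv

/-- the plus closed set is in the ball -/
theorem Scs.XS_sub (H : Scs K A R L km N o s d S n r1 r2 k h b y a) (hK : 4 ≤ K) :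
    ∀ t ∈ XS K o S n r1 r2 b, t ∈ ball o d := by
  rintro t ⟨j, hj, ht⟩
  exact ball_mono o (H.hd j hj) ((H.fr j hj).Xk_ann hK ht).1

end

end Crest.Agent.R144.Bnd991
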