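import Crest.Agent.R144.Pst9_967

/-!
# R144, plane state (helper967), part 10: gradient observables as functions of the heights modulo 4

* `exists_colour` : a local gradient observable is, on Lipschitz heights, a bounded local function of the
  two colours;
* `conv_grad` : under `BLOCK c` the F-type expectations of local gradient observables converge along
  `lC scs`.
-/

set_option autoImplicit false

noncomputable section

namespace Crest.Agent.R144.Pst967

open Finset Filter Topology
open Crest.Agent.R144.It844 (P2 Lip adj_symm adj_iff adj_comm)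
open Crest.ProbabilityR.HexHeights (Adj)
open Crest.Agent.R144.Zg349 Crest.Agent.R144.Zk349 Crest.Agent.R144.Zd349 Crest.Agent.R144.Zm349
open Crest.Agent.R144.Ze349

/-- hexagonal balls are connected -/
theorem conn_in_hexB (n : ℕ) {v : P2} (hv : v ∈ hexB n) :
    Relation.ReflTransGen (StepIn (hexB n : Set P2)) v 0 := by
  obtain ⟨x, y⟩ := v
  rw [mem_hexB] at hv
  simp only [abs_le] at hv
  have hmem : ∀ a b : ℤ, ((-(n : ℤ) ≤ a ∧ a ≤ n) ∧ (-(n : ℤ) ≤ b ∧ b ≤ n) ∧
      (-(n : ℤ) ≤ a + b ∧ a + b ≤ n)) → ((a, b) : P2) ∈ (hexB n : Set P2) := by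
    intro a b h
    rw [Finset.mem_coe, mem_hexB]
    simp only [abs_le]
    exact h
  refine (path_h y x 0 fun t h1 h2 => hmem t y ?_).trans (path_v 0 y 0 fun t h1 h2 => hmem 0 t ?_)
  · rcases le_total x 0 with h | h
    · rw [min_eq_left h] at h1
      rw [max_eq_right h] at h2
      omega
    · rw [min_eq_right h] at h1
      rw [max_eq_left h] at h2
      omega
  · rcases le_total y 0 with h | h
    · rw [min_eq_left h] at h1
      rw [max_eq_right h] at h2
      omega
    · rw [min_eq_right h] at h1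
      rw [max_eq_left h] at h2
      omega

/-- colours determine the gradient on hexagonal balls -/
theorem grad_of_colours {n : ℕ} {h h' : Hz} (hl : Lip h) (hl' : Lip h')
    (h1 : ∀ v ∈ hexB n, s1 (h v) = s1 (h' v)) (h2 : ∀ v ∈ hexB n, s2 (h v) = s2 (h' v)) {v : P2}
    (hv : v ∈ hexB n) : h v - h' v = h 0 - h' 0 := by
  have key : ∀ w, Relation.ReflTransGen (StepIn (hexB n : Set P2)) v w →
      h v - h' v = h w - h' w := by
    intro w hw
    induction hw with
    | refl => rfl
    | @tail a b _ h3 ih =>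
      rw [ih]
      have e1 := hl a b h3.2.2
      have e2 := hl' a b h3.2.2
      have m1 := mod4_of_s (h1 a h3.1) (h2 a h3.1)
      have m2 := mod4_of_s (h1 b h3.2.1) (h2 b h3.2.1)
      rw [abs_le] at e1 e2
      omega
  exact key 0 (conn_in_hexB n hv)

/-- **local gradient observables are local functions of the two colours** -/
theorem exists_colour {f : Hz → ℝ} (hf : GObs f) :
    ∃ (W : Finset P2) (g : (P2 → Bool) → (P2 → Bool) → (P2 → Bool) → ℝ) (C : ℝ), DepW W g ∧
      (∀ s a z, |g s a z| ≤ C) ∧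
      ∀ h : Hz, Lip h → ∀ z, g (fun v => s1 (h v)) (fun v => s2 (h v)) z = f h := by
  classical
  obtain ⟨C, hC⟩ := gobs_bounded hf
  have hC0 : 0 ≤ C := (abs_nonneg _).trans (hC (fun _ => 0) (Crest.Agent.R144.It844.lip_const 0))
  obtain ⟨⟨S, hS⟩, hN⟩ := hf
  obtain ⟨n, hn⟩ := subset_hexB S
  let Q : (P2 → Bool) → (P2 → Bool) → Hz → Prop := fun s a h =>
    Lip h ∧ (∀ v ∈ hexB n, s1 (h v) = s v) ∧ ∀ v ∈ hexB n, s2 (h v) = a v
  let g : (P2 → Bool) → (P2 → Bool) → (P2 → Bool) → ℝ := fun s a _ =>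
    if hh : ∃ h, Q s a h then f (Classical.choose hh) else 0
  have hval : ∀ s a z h, Q s a h → g s a z = f h := by
    intro s a z h hQ
    have hh : ∃ h, Q s a h := ⟨h, hQ⟩
    have h1 : g s a z = f (Classical.choose hh) := dif_pos hh
    rw [h1]
    have h2 := Classical.choose_spec hh
    set k := Classical.choose hh
    have h3 : ∀ v ∈ hexB n, k v - h v = k 0 - h 0 := fun v hv =>
      grad_of_colours h2.1 hQ.1 (fun v hv => (h2.2.1 v hv).trans (hQ.2.1 v hv).symm)
        (fun v hv => (h2.2.2 v hv).trans (hQ.2.2 v hv).symm) hv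
    rw [← hN h (k 0 - h 0)]
    refine hS _ _ fun v hv => ?_
    have := h3 v (hn hv)
    omega
  refine ⟨hexB n, g, C, ⟨fun s s' a a' z z' e1 e2 _ => ?_⟩, fun s a z => ?_, fun h hl z =>
    hval _ _ z h ⟨hl, fun _ _ => rfl, fun _ _ => rfl⟩⟩
  · by_cases hh : ∃ h, Q s a h
    · obtain ⟨h, hQ⟩ := hh
      have hQ' : Q s' a' h := ⟨hQ.1, fun v hv => (hQ.2.1 v hv).trans (e1 v hv),
        fun v hv => (hQ.2.2 v hv).trans (e2 v hv)⟩
      rw [hval s a z h hQ, hval s' a' z' h hQ']
    · have hh' : ¬ ∃ h, Q s' a' h := by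
        rintro ⟨h, hQ⟩
        exact hh ⟨h, hQ.1, fun v hv => (hQ.2.1 v hv).trans (e1 v hv).symm,
          fun v hv => (hQ.2.2 v hv).trans (e2 v hv).symm⟩
      simp only [g, dif_neg hh, dif_neg hh']
  · by_cases hh : ∃ h, Q s a h
    · have h1 : g s a z = f (Classical.choose hh) := dif_pos hh
      rw [h1]
      exact hC _ (Classical.choose_spec hh).1
    · have h1 : g s a z = 0 := dif_neg hh
      rw [h1, abs_zero]
      exact hC0

/-- **Convergence of the gradient** under the F-type laws -/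
theorem conv_grad {c : ℝ} (hc : 1 ≤ c) (hB : BLOCK c) {f : Hz → ℝ} (hf : GObs f) :
    ∃ a, Tendsto (fun F : Finset P2 => E c F (fun ω => f ω.1)) (lC scs) (𝓝 a) := by
  obtain ⟨W, g, C, h1, h2, h3⟩ := exists_colour hf
  obtain ⟨a, ha⟩ := conv_mod4 hc hB h1 h2
  refine ⟨a, ha.congr fun F => ?_⟩
  exact E_congr fun ω hω => h3 ω.1 hω.ht.toLip ω.2

end Crest.Agent.R144.Pst967
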