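import Crest.Agent.R144.Hf6_702
import Crest.Agent.R144.Pst10_967

/-!
# R144, block HALF (helper702), part 7: the two variance inequalities

* `inner_le` : `E_{ball a r}[Y²] P_F(BlkP a m N) ≤ E_F[X²]`, `X = ∑ w h - ∑ w' h` (equal masses), `Y = ∑ w (h - 1/2)`,
  `w ≥ 0` inside `ball a r`, `w'` outside `ball a (N + 1)`;
* `rec_step` : `E_F[Y²] ≤ M + E_F[Y²; no plus-closed layer]`, `b ∉ F`, `M` bounds `E_U[Y²]` for all simply
  connected `U ⊆ ball b (N + 1)`, `b ∉ U`.
-/

set_option autoImplicit false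
set_option linter.unusedVariables false

noncomputable section

namespace Crest.Agent.R144.Hf702

open Finset
open Crest.Agent.R144.It844 (P2 adj_symm adj_iff)
open Crest.Agent.R144.Zg349 Crest.Agent.R144.Zk349 Crest.Agent.R144.Zd349 Crest.Agent.R144.Zm349
open Crest.Agent.R144.Ze349
open Crest.Agent.R144.Pst967 (path_symm adj_of_share E_pos_congr wt_ne_zero hexB conn_in_hexB)
open Crest.Agent.R144.Rsw867
open Crest.ProbabilityR.HexHeights (Adj)

/-- linear statistic -/
def Ln (S : Finset P2) (w : P2 → ℝ) (h : P2 → ℤ) : ℝ := ∑ v ∈ S, w v * (h v : ℝ)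

/-- centred linear statistic -/
def Yn (S : Finset P2) (w : P2 → ℝ) (h : P2 → ℤ) : ℝ := ∑ v ∈ S, w v * ((h v : ℝ) - 1 / 2)

theorem Yn_eq (S : Finset P2) (w : P2 → ℝ) (h : P2 → ℤ) :
    Yn S w h = Ln S w h - (∑ v ∈ S, w v) / 2 := by
  unfold Yn Ln
  rw [Finset.sum_div, ← Finset.sum_sub_distrib]
  exact Finset.sum_congr rfl fun v _ => by ring

/-- all triangles at the sites of `S` are in `ball b r` -/
def InB (b : P2) (r : ℕ) (S : Finset P2) : Prop := ∀ v ∈ S, ∀ t, v ∈ up t → t ∈ ball b r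

theorem InB.vf {b : P2} {r : ℕ} {S : Finset P2} (h : InB b r S) : S ⊆ VF (ball b r) := fun v hv =>
  mem_VF.2 ⟨v, h v hv v (base_mem_up v), base_mem_up v⟩

theorem conn_hexB' (n : ℕ) : IsConn ((hexB n : Finset P2) : Set P2) := fun u hu v hv =>
  (conn_in_hexB n (by simpa using hu)).trans (path_symm (conn_in_hexB n (by simpa using hv)))

theorem conn_ball (a : P2) (n : ℕ) : IsConn ((ball a n : Finset P2) : Set P2) := by
  have h := conn_shift a (conn_hexB' n)
  have e : {v : P2 | v - a ∈ ((hexB n : Finset P2) : Set P2)} = ((ball a n : Finset P2) : Set P2) := by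
    ext v
    show (v - a ∈ ((hexB n : Finset P2) : Set P2)) ↔ v ∈ ((ball a n : Finset P2) : Set P2)
    simp only [Finset.mem_coe, mem_ball']
  rw [e] at h
  exact h

theorem self_mem_ball (a : P2) (n : ℕ) : a ∈ ball a n := by
  rw [mem_ball]; simp

/-- a set which is not simply connected is never the unexplored domain -/
theorem sc_of_PBI {D B : Finset P2} (hD : SC D) {ω : Cfg} (h : PBI D B ω ≠ 0) : SC B := by
  unfold PBI at h
  by_cases h1 : PB D ω = B
  · rw [← h1]; exact sc_Bg _ hD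
  · rw [if_neg h1] at h; exact absurd rfl h

theorem eq_of_PBI {D B : Finset P2} {ω : Cfg} (h : PBI D B ω ≠ 0) : PB D ω = B := by
  unfold PBI at h
  by_contra h1
  rw [if_neg h1] at h; exact absurd rfl h

open Classical in
/-- blocking gives a large unexplored domain -/
theorem ind_le_sum {a : P2} {r m N : ℕ} (hr : r + 1 ≤ m) (hmN : m ≤ N) (ω : Cfg) :
    ind (BlkP a m N) ω ≤ ∑ B ∈ (ball a (N + 1)).powerset with ball a r ⊆ B,
      PBI (ball a (N + 1)) B ω := by
  by_cases h : ω ∈ BlkP a m N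
  · rw [ind_of_mem h]
    have h1 : ball a r ⊆ PB (ball a (N + 1)) ω := ball_sub_Bg hr hmN h
    have h2 : PB (ball a (N + 1)) ω ∈ ((ball a (N + 1)).powerset.filter fun B => ball a r ⊆ B) :=
      Finset.mem_filter.2 ⟨Finset.mem_powerset.2 (Bg_sub _ _), h1⟩
    have h3 : PBI (ball a (N + 1)) (PB (ball a (N + 1)) ω) ω = 1 := by
      unfold PBI; rw [if_pos rfl]
    have h4 := Finset.single_le_sum (f := fun B => PBI (ball a (N + 1)) B ω)
      (fun B _ => PBI_nonneg _ B ω) h2
    rw [← h3]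
    exact h4
  · rw [ind_of_not_mem h]
    exact Finset.sum_nonneg fun B _ => PBI_nonneg _ B ω

theorem sum_filter_le_one (a : P2) (r N : ℕ) (ω : Cfg) [DecidablePred fun B => ball a r ⊆ B] :
    ∑ B ∈ (ball a (N + 1)).powerset with ball a r ⊆ B, PBI (ball a (N + 1)) B ω ≤ 1 := by
  rw [← sum_PBI (ball a (N + 1)) ω]
  exact Finset.sum_le_sum_of_subset_of_nonneg (Finset.filter_subset _ _)
    fun B _ _ => PBI_nonneg _ B ω

theorem Yn_sq_inc {S T : Finset P2} (hS : S ⊆ T) {w : P2 → ℝ} (hw : ∀ v, 0 ≤ w v) :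
    Inc T fun h => Yn S w h ^ 2 :=
  (Inc.sum S fun v hv => (Inc.height (hS hv)).smul (hw v)).pow 2

/-- **Inner domain against outer domain.** -/
theorem inner_le {x : ℝ} (hx0 : 0 < x) (hx1 : x ≤ 1) {F : Finset P2} (hF : SC F) {a : P2}
    {r m N : ℕ} (hr : r + 1 ≤ m) (hmN : m ≤ N) (hball : ball a (N + 1) ⊆ F)
    {S S' : Finset P2} {w w' : P2 → ℝ} (hw : ∀ v, 0 ≤ w v) (hS : S ⊆ VF (ball a r))
    (hS' : ∀ v ∈ S', v ∉ VF (ball a (N + 1))) :
    EH x (ball a r) (fun h => Yn S w h ^ 2) * Pr ((x ^ 2)⁻¹) F (BlkP a m N) ≤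
      E ((x ^ 2)⁻¹) F (fun ω => (Ln S w ω.1 - Ln S' w' ω.1) ^ 2) := by
  classical
  have hx2 : 0 < x ^ 2 := by positivity
  have hc : 1 ≤ (x ^ 2)⁻¹ := (one_le_inv₀ hx2).2 (pow_le_one₀ hx0.le hx1)
  set c := (x ^ 2)⁻¹ with hcdef
  set D := ball a (N + 1) with hD
  set X : (P2 → ℤ) → ℝ := fun h => Ln S w h - Ln S' w' h with hX
  set e := EH x (ball a r) (fun h => Yn S w h ^ 2) with he
  -- one domain
  have one : ∀ B ∈ D.powerset.filter (fun B => ball a r ⊆ B),
      e * E c F (PBI D B) ≤ E c F (fun ω => PBI D B ω * X ω.1 ^ 2) := by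
    intro B hB
    obtain ⟨hBD, hrB⟩ := Finset.mem_filter.1 hB
    rw [Finset.mem_powerset] at hBD
    by_cases hsc : SC B
    swap
    · have h0 : ∀ ω, PBI D B ω = 0 := fun ω => by
        by_contra h
        exact hsc (sc_of_PBI (sc_ball a (N + 1)) h)
      have e1 : E c F (PBI D B) = 0 := by
        rw [show PBI D B = fun _ => (0 : ℝ) from funext h0]; exact E_const hc F 0
      have e2 : E c F (fun ω => PBI D B ω * X ω.1 ^ 2) = 0 := by
        rw [show (fun ω => PBI D B ω * X ω.1 ^ 2) = fun _ => (0 : ℝ) from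
          funext fun ω => by rw [h0, zero_mul]]
        exact E_const hc F 0
      rw [e1, e2, mul_zero]
    have hBF : B ∩ F = B := Finset.inter_eq_left.2 (hBD.trans hball)
    have hSB : S ⊆ VF B := hS.trans (VF_mono hrB)
    have hS'B : ∀ v ∈ S', v ∉ VF B := fun v hv h => hS' v hv (VF_mono hBD h)
    have hPl : ∀ ω, PBI D B ω ≠ 0 → PLay B ω := fun ω h => pLay_of_PBI h
    -- reflection
    have k1 := refl_layer (c := c) hsc hF (offTZ_PBI D B) hPl (fun h => X h ^ 2)
    rw [hBF] at k1
    -- difference of the two values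
    have k2 : ∀ h : P2 → ℤ, X h - X (rf B h) = 2 * Yn S w (lft B h) := by
      intro h
      have e1 : Ln S' w' (rf B h) = Ln S' w' h := by
        unfold Ln
        refine Finset.sum_congr rfl fun v hv => ?_
        unfold rf
        rw [if_neg (hS'B v hv)]
      have e2 : Ln S w h - Ln S w (rf B h) = 2 * Yn S w (lft B h) := by
        unfold Ln Yn
        rw [← Finset.sum_sub_distrib, Finset.mul_sum]
        refine Finset.sum_congr rfl fun v hv => ?_
        unfold rf
        rw [if_pos (hSB hv)]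
        push_cast
        ring
      simp only [hX]
      rw [e1]
      linarith
    have k3 : E c F (fun ω => PBI D B ω * Yn S w (lft B ω.1) ^ 2) ≤
        E c F (fun ω => PBI D B ω * X ω.1 ^ 2) := by
      have k4 : E c F (fun ω => PBI D B ω * Yn S w (lft B ω.1) ^ 2) ≤
          E c F (fun ω => (1 / 2) * (PBI D B ω * X ω.1 ^ 2) +
            (1 / 2) * (PBI D B ω * X (rf B ω.1) ^ 2)) := by
        refine E_mono hc fun ω _ => ?_
        have hk := k2 ω.1
        have hp := PBI_nonneg D B ω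
        have : Yn S w (lft B ω.1) ^ 2 ≤ (1 / 2) * X ω.1 ^ 2 + (1 / 2) * X (rf B ω.1) ^ 2 := by
          have hy : Yn S w (lft B ω.1) = (X ω.1 - X (rf B ω.1)) / 2 := by linarith
          rw [hy]
          nlinarith [sq_nonneg (X ω.1 + X (rf B ω.1))]
        calc _ ≤ PBI D B ω * ((1 / 2) * X ω.1 ^ 2 + (1 / 2) * X (rf B ω.1) ^ 2) :=
              mul_le_mul_of_nonneg_left this hp
          _ = _ := by ring
      rw [E_add, E_smul, E_smul, k1] at k4
      linarith
    have k5 := dec hc hsc hF (offTZ_PBI D B) hPl (inC_lft (B ∩ F) (fun h => Yn S w h ^ 2))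
    rw [hBF] at k5
    have k6 : E c B (fun ω => Yn S w (lft B ω.1) ^ 2) = EH x B (fun h => Yn S w h ^ 2) := by
      rw [← E_eq_EH hx0.ne']
      exact E_congr fun ω hω => by rw [lft_self hω.ht]
    rw [k6] at k5
    have k7 : e ≤ EH x B (fun h => Yn S w h ^ 2) := EH_mono hx0.le hx1 hrB (Yn_sq_inc hS hw)
    have k8 : 0 ≤ E c F (PBI D B) := E_nonneg hc fun ω _ => PBI_nonneg D B ω
    calc e * E c F (PBI D B) ≤ EH x B (fun h => Yn S w h ^ 2) * E c F (PBI D B) :=
          mul_le_mul_of_nonneg_right k7 k8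
      _ = E c F (fun ω => PBI D B ω * Yn S w (lft B ω.1) ^ 2) := by rw [k5]; ring
      _ ≤ _ := k3
  have e0 : 0 ≤ e := EH_nonneg hx0.le hx1 (Yn_sq_inc hS hw)
  calc e * Pr c F (BlkP a m N)
      ≤ e * E c F (fun ω => ∑ B ∈ D.powerset with ball a r ⊆ B, PBI D B ω) := by
        refine mul_le_mul_of_nonneg_left ?_ e0
        rw [Pr_eq]
        exact E_mono hc fun ω _ => ind_le_sum hr hmN ω
    _ = ∑ B ∈ D.powerset with ball a r ⊆ B, e * E c F (PBI D B) := by
        rw [E_sum, Finset.mul_sum]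
    _ ≤ ∑ B ∈ D.powerset with ball a r ⊆ B, E c F (fun ω => PBI D B ω * X ω.1 ^ 2) :=
        Finset.sum_le_sum one
    _ = E c F (fun ω => ∑ B ∈ D.powerset with ball a r ⊆ B, PBI D B ω * X ω.1 ^ 2) := by
        rw [E_sum]
    _ ≤ E c F (fun ω => X ω.1 ^ 2) := by
        refine E_mono hc fun ω _ => ?_
        rw [← Finset.sum_mul]
        exact mul_le_of_le_one_left (sq_nonneg _) (sum_filter_le_one a r N ω)

/-- **Recursion step.** -/
theorem rec_step {c : ℝ} (hc : 1 ≤ c) {F : Finset P2} (hF : SC F) {b : P2} (hb : b ∉ F)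
    {r m N : ℕ} (hr : r + 1 ≤ m) (hmN : m ≤ N) {S : Finset P2} (hS : InB b r S) {w : P2 → ℝ}
    {M : ℝ} (hM0 : 0 ≤ M)
    (hM : ∀ U : Finset P2, SC U → U ⊆ ball b (N + 1) → b ∉ U →
      E c U (fun ω => Yn S w ω.1 ^ 2) ≤ M) :
    E c F (fun ω => Yn S w ω.1 ^ 2) ≤
      M + E c F (fun ω => Yn S w ω.1 ^ 2 * ind (BlkP b m N)ᶜ ω) := by
  classical
  set D := ball b (N + 1) with hD
  have one : ∀ B ∈ D.powerset.filter (fun B => ball b r ⊆ B),
      E c F (fun ω => PBI D B ω * Yn S w ω.1 ^ 2) ≤ M * E c F (PBI D B) := by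
    intro B hB
    obtain ⟨hBD, hrB⟩ := Finset.mem_filter.1 hB
    rw [Finset.mem_powerset] at hBD
    by_cases hsc : SC B
    swap
    · have h0 : ∀ ω, PBI D B ω = 0 := fun ω => by
        by_contra h
        exact hsc (sc_of_PBI (sc_ball b (N + 1)) h)
      have e1 : E c F (PBI D B) = 0 := by
        rw [show PBI D B = fun _ => (0 : ℝ) from funext h0]; exact E_const hc F 0
      have e2 : E c F (fun ω => PBI D B ω * Yn S w ω.1 ^ 2) = 0 := by
        rw [show (fun ω => PBI D B ω * Yn S w ω.1 ^ 2) = fun _ => (0 : ℝ) from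
          funext fun ω => by rw [h0, zero_mul]]
        exact E_const hc F 0
      rw [e1, e2, mul_zero]
    have hPl : ∀ ω, PBI D B ω ≠ 0 → PLay B ω := fun ω h => pLay_of_PBI h
    -- the window sees the lift
    have k1 : E c F (fun ω => PBI D B ω * Yn S w ω.1 ^ 2) =
        E c F (fun ω => PBI D B ω * Yn S w (lft (B ∩ F) ω.1) ^ 2) := by
      refine E_pos_congr fun ω hω hw => ?_
      by_cases hp : PBI D B ω = 0
      · rw [hp, zero_mul, zero_mul]
      have hok : Ok F ω := ⟨hω, hw⟩
      have hPL := hPl ω hp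
      have hY : Yn S w ω.1 = Yn S w (lft (B ∩ F) ω.1) := by
        unfold Yn
        refine Finset.sum_congr rfl fun v hv => ?_
        have hv' : lft (B ∩ F) ω.1 v = ω.1 v := by
          by_cases hvF : v ∈ VF F
          · obtain ⟨t, ht, htv⟩ := mem_VF.1 hvF
            have htr : t ∈ ball b r := hS v hv t htv
            have htU : t ∈ B ∩ F := Finset.mem_inter.2 ⟨hrB htr, ht⟩
            refine lft_eq hsc hF hok hPL htU ?_ htv
            -- path to `b` inside the ball
            have hpath := conn_ball b r t (by simpa using htr) b (by simpa using self_mem_ball b r)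
            rcases first_hit (fun s => s ∉ F) (u := t) (v := b) (by
              show ¬ (t ∉ F)
              exact not_not.2 ht) hpath with ⟨h1, _⟩ | ⟨s, hs, hp2⟩
            · exact absurd (show b ∉ F from hb) h1
            · -- last step of the path enters the complement of `F`
              have key : ∀ s, Relation.ReflTransGen (StepIn (((ball b r : Finset P2) : Set P2) ∩
                  {t | t ∉ {s | s ∉ F} ∨ ∃ t', t' ∉ {s | s ∉ F} ∧ Adj t' t})) t s →
                  (s ∈ B ∩ F ∧ Relation.ReflTransGen (StepIn ((B ∩ F : Finset P2) : Set P2)) t s) ∨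
                  ∃ t1 ∈ B ∩ F, ∃ t2, t2 ∉ F ∧ Adj t1 t2 ∧
                    Relation.ReflTransGen (StepIn ((B ∩ F : Finset P2) : Set P2)) t t1 := by
                intro s hs
                induction hs with
                | refl => exact Or.inl ⟨htU, Relation.ReflTransGen.refl⟩
                | @tail p q _ hpq ih =>
                  rcases ih with ⟨hpU, hpp⟩ | h
                  · by_cases hq : q ∈ F
                    · left
                      have hqB : q ∈ B := hrB (by simpa using hpq.2.1.1)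
                      have hqU : q ∈ B ∩ F := Finset.mem_inter.2 ⟨hqB, hq⟩
                      exact ⟨hqU, hpp.tail ⟨by simpa using hpU, by simpa using hqU, hpq.2.2⟩⟩
                    · right
                      exact ⟨p, hpU, q, hq, hpq.2.2, hpp⟩
                  · exact Or.inr h
              rcases key s hp2 with ⟨hsU, _⟩ | h
              · exact absurd (Finset.mem_inter.1 hsU).2 hs
              · exact h
          · have h1 : ω.1 v = 0 := hω.ht.off v hvF
            have h2 := (lft_spec (exists_lift hsc hF hok hPL)).1.off v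
              (fun h => hvF (VF_mono Finset.inter_subset_right h))
            rw [h1, h2]
        rw [hv']
      rw [hY]
    have k5 := dec hc hsc hF (offTZ_PBI D B) hPl (inC_lft (B ∩ F) (fun h => Yn S w h ^ 2))
    have k6 : E c (B ∩ F) (fun ω => Yn S w (lft (B ∩ F) ω.1) ^ 2) =
        E c (B ∩ F) (fun ω => Yn S w ω.1 ^ 2) :=
      E_congr fun ω hω => by rw [lft_self hω.ht]
    have k7 := hM (B ∩ F) (sc_inter hsc hF) (Finset.inter_subset_left.trans hBD)
      fun h => hb (Finset.mem_inter.1 h).2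
    have k8 : 0 ≤ E c F (PBI D B) := E_nonneg hc fun ω _ => PBI_nonneg D B ω
    rw [k1, k5, k6, mul_comm]
    exact mul_le_mul_of_nonneg_right k7 k8
  have split : E c F (fun ω => Yn S w ω.1 ^ 2) =
      E c F (fun ω => Yn S w ω.1 ^ 2 * ind (BlkP b m N) ω) +
        E c F (fun ω => Yn S w ω.1 ^ 2 * ind (BlkP b m N)ᶜ ω) := by
    rw [← E_add]
    exact E_congr fun ω _ => by rw [ind_compl]; ring
  rw [split]
  refine add_le_add ?_ le_rfl
  calc E c F (fun ω => Yn S w ω.1 ^ 2 * ind (BlkP b m N) ω)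
      ≤ E c F (fun ω => ∑ B ∈ D.powerset with ball b r ⊆ B, PBI D B ω * Yn S w ω.1 ^ 2) := by
        refine E_mono hc fun ω _ => ?_
        rw [← Finset.sum_mul, mul_comm]
        exact mul_le_mul_of_nonneg_right (ind_le_sum hr hmN ω) (sq_nonneg _)
    _ = ∑ B ∈ D.powerset with ball b r ⊆ B, E c F (fun ω => PBI D B ω * Yn S w ω.1 ^ 2) := by
        rw [E_sum]
    _ ≤ ∑ B ∈ D.powerset with ball b r ⊆ B, M * E c F (PBI D B) := Finset.sum_le_sum one
    _ = M * E c F (fun ω => ∑ B ∈ D.powerset with ball b r ⊆ B, PBI D B ω) := by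
        rw [E_sum, Finset.mul_sum]
    _ ≤ M * E c F (fun _ => 1) :=
        mul_le_mul_of_nonneg_left (E_mono hc fun ω _ => sum_filter_le_one b r N ω) hM0
    _ = M := by rw [E_const hc, mul_one]

end Crest.Agent.R144.Hf702
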