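import Crest.Agent.R144.Bnd4_991
import Crest.Agent.R144.Hf7_702

/-!
# R144, block BND, GM (helper400): planar geometry of one scale

`o` centre, `r < s` radii, `Y` a set of triangles closed under going up `(0, 1)`.

* `sc_annulus` : the annulus `ball o s \ ball o r` without `Y` is simply connected when `o ∈ Y`;
* `conn_annulus` : it is connected when `Y` is a strip `|x| ≤ w, y ≥ 0` and half lines upwards in the columns
  `|x| > r + 1` that start above the lower side of `ball o s`;
* instances for `Ys` of `Bnd4_991` at a `Frame`.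
-/

set_option autoImplicit false
set_option linter.unnecessarySeqFocus false

noncomputable section

namespace Crest.Agent.R144.Gm400

open Crest.Agent.R144.It844 (P2 adj_iff)
open Crest.Agent.R144.Zg349
open Crest.Agent.R144.Rsw867 (ball mem_ball sc_ball path_mono)
open Crest.Agent.R144.Pst967 (path_symm)
open Crest.Agent.R144.Bnd991
open Crest.ProbabilityR.HexHeights (Adj)

theorem adj_iff' {x y x' y' : ℤ} : Adj ((x, y) : P2) (x', y') ↔
    (x' - x = 1 ∧ y' - y = 0) ∨ (x' - x = -1 ∧ y' - y = 0) ∨ (x' - x = 0 ∧ y' - y = 1) ∨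
      (x' - x = 0 ∧ y' - y = -1) ∨ (x' - x = 1 ∧ y' - y = -1) ∨ (x' - x = -1 ∧ y' - y = 1) := Iff.rfl

theorem mem_ball_iff {o t : P2} {n : ℕ} : t ∈ ball o n ↔
    -(n : ℤ) ≤ t.1 - o.1 ∧ t.1 - o.1 ≤ n ∧ -(n : ℤ) ≤ t.2 - o.2 ∧ t.2 - o.2 ≤ n ∧
      -(n : ℤ) ≤ t.1 - o.1 + (t.2 - o.2) ∧ t.1 - o.1 + (t.2 - o.2) ≤ n := by
  rw [mem_ball, abs_le, abs_le, abs_le]
  tauto

/-- a path along a sequence -/
theorem line {S : Set P2} (f : ℕ → P2) (k : ℕ) (hadj : ∀ j, j < k → Adj (f j) (f (j + 1)))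
    (h : ∀ j, j ≤ k → f j ∈ S) : Relation.ReflTransGen (StepIn S) (f 0) (f k) := by
  induction k with
  | zero => exact Relation.ReflTransGen.refl
  | succ k ih =>
    exact (ih (fun j hj => hadj j (by omega)) fun j hj => h j (by omega)).tail
      ⟨h k (by omega), h (k + 1) le_rfl, hadj k (by omega)⟩

/-- a path along `(x + a j, y + b j)` -/
theorem seg {S : Set P2} (x y a b : ℤ) (hab : Adj ((0, 0) : P2) (a, b)) (k : ℕ)
    (h : ∀ j : ℕ, j ≤ k → ((x + a * j, y + b * j) : P2) ∈ S) :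
    Relation.ReflTransGen (StepIn S) (x, y) (x + a * k, y + b * k) := by
  have h1 := line (S := S) (fun j : ℕ => ((x + a * j, y + b * j) : P2)) k (fun j _ => by
    rw [adj_iff'] at hab ⊢
    push_cast
    have e1 : x + a * ((j : ℤ) + 1) - (x + a * j) = a := by ring
    have e2 : y + b * ((j : ℤ) + 1) - (y + b * j) = b := by ring
    rw [e1, e2]
    simpa using hab) h
  simpa using h1

/-! ### simply connected -/

theorem up_out {T Y : Set P2} {o : P2} {s : ℕ} (hYT : Y ⊆ T)
    (hup : ∀ t ∈ Y, ((t.1, t.2 + 1) : P2) ∈ Y) {t : P2} (ht : t ∈ Y) :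
    ∃ t', t' ∉ ball o s ∧ Relation.ReflTransGen (StepIn T) t t' := by
  have h1 : ∀ j : ℕ, ((t.1 + 0 * j, t.2 + 1 * j) : P2) ∈ Y := by
    intro j
    induction j with
    | zero => simpa using ht
    | succ j ih =>
      have := hup _ ih
      push_cast
      simp only [] at this
      have e : ((t.1 + 0 * ((j : ℤ) + 1), t.2 + 1 * ((j : ℤ) + 1)) : P2) =
          (t.1 + 0 * (j : ℤ), t.2 + 1 * (j : ℤ) + 1) := by
        ext <;> simp <;> ring
      rw [e]
      exact this
  refine ⟨(t.1 + 0 * ((s + 1 + (o.2 - t.2).toNat : ℕ) : ℤ),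
    t.2 + 1 * ((s + 1 + (o.2 - t.2).toNat : ℕ) : ℤ)), ?_, ?_⟩
  · rw [mem_ball_iff]
    push_cast
    have := Int.self_le_toNat (o.2 - t.2)
    omega
  · have h2 := seg (S := T) t.1 t.2 0 1 (by rw [adj_iff']; simp) (s + 1 + (o.2 - t.2).toNat)
      (fun j _ => hYT (h1 j))
    exact h2

/-- **Simple connectedness.** -/
theorem sc_annulus {o : P2} {r s : ℕ} {Y : Set P2} (hup : ∀ t ∈ Y, ((t.1, t.2 + 1) : P2) ∈ Y)
    (ho : o ∈ Y) {F : Finset P2} (hF : ∀ t, t ∈ F ↔ t ∈ ball o s ∧ t ∉ ball o r ∧ t ∉ Y) : SC F := by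
  set T : Set P2 := ((F : Set P2)ᶜ) with hT
  have hTm : ∀ t, t ∈ T ↔ ¬ (t ∈ ball o s ∧ t ∉ ball o r ∧ t ∉ Y) := fun t => by
    rw [hT, Set.mem_compl_iff, Finset.mem_coe, hF]
  have hout : ∀ t, t ∉ ball o s → t ∈ T := fun t ht => (hTm t).2 fun h => ht h.1
  have hin : ∀ t, t ∈ ball o r → t ∈ T := fun t ht => (hTm t).2 fun h => h.2.1 ht
  have hYT : Y ⊆ T := fun t ht => (hTm t).2 fun h => h.2.2 ht
  have key : ∀ t ∈ T, ∃ t', t' ∉ ball o s ∧ Relation.ReflTransGen (StepIn T) t t' := by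
    intro t ht
    by_cases h1 : t ∉ ball o s
    · exact ⟨t, h1, Relation.ReflTransGen.refl⟩
    · by_cases h2 : t ∈ Y
      · exact up_out hYT hup h2
      · have h3 : t ∈ ball o r := by
          by_contra h3
          exact (hTm t).1 ht ⟨not_not.1 h1, h3, h2⟩
        obtain ⟨t', h4, h5⟩ := up_out (o := o) (s := s) hYT hup ho
        refine ⟨t', h4, Relation.ReflTransGen.trans ?_ h5⟩
        exact path_mono (fun u hu => hin u hu) (Hf702.conn_ball o r t h3 o (Hf702.self_mem_ball o r))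
  intro u hu v hv
  obtain ⟨u', hu', hpu⟩ := key u hu
  obtain ⟨v', hv', hpv⟩ := key v hv
  refine hpu.trans (Relation.ReflTransGen.trans ?_ (path_symm hpv))
  refine path_mono ?_ (sc_ball o s u' (by simpa using hu') v' (by simpa using hv'))
  intro t ht
  exact hout t (by simpa using ht)

/-! ### connected -/

section conn

variable {o : P2} {r s w : ℕ} {Y : Set P2}

/-- **Connectedness.** -/
theorem conn_annulus (hrs : r < s) (hwr : w ≤ r) (hup : ∀ t ∈ Y, ((t.1, t.2 + 1) : P2) ∈ Y)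
    (h1 : ∀ t : P2, |t.1 - o.1| ≤ w → o.2 ≤ t.2 → t ∈ Y)
    (h2 : ∀ t ∈ Y, |t.1 - o.1| ≤ r + 1 → |t.1 - o.1| ≤ w ∧ o.2 ≤ t.2)
    (h3 : ∀ t ∈ Y, t ∈ ball o s → ((t.1, t.2 - 1) : P2) ∈ ball o s) :
    IsConn {t | t ∈ ball o s ∧ t ∉ ball o r ∧ t ∉ Y} := by
  set S : Set P2 := {t | t ∈ ball o s ∧ t ∉ ball o r ∧ t ∉ Y} with hS
  have hdn : ∀ x y : ℤ, ((x, y) : P2) ∉ Y → ∀ j : ℕ, ((x, y - j) : P2) ∉ Y := by
    intro x y h j
    induction j with
    | zero => simpa using h
    | succ j ih =>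
      intro h4
      apply ih
      have := hup _ h4
      push_cast at this
      have e : ((x, y - ((j : ℤ) + 1) + 1) : P2) = (x, y - j) := by
        ext
        · rfl
        · show y - ((j : ℤ) + 1) + 1 = y - j
          omega
      rw [e] at this
      exact this
  -- the lower arc
  have hlow : ∀ x y : ℤ, ((x, y) : P2) ∈ ball o s → ((x, y - 1) : P2) ∉ ball o s →
      ((x, y) : P2) ∈ S := by
    intro x y h4 h5
    refine ⟨h4, ?_, fun h6 => h5 (h3 _ h6 h4)⟩
    rw [mem_ball_iff] at h4 h5 ⊢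
    simp only [] at h4 h5 ⊢
    omega
  have hlowp : ∀ x y : ℤ, ((x, y) : P2) ∈ ball o s → ((x, y - 1) : P2) ∉ ball o s →
      Relation.ReflTransGen (StepIn S) (x, y) (o.1, o.2 - s) := by
    intro x y h4 h5
    rw [mem_ball_iff] at h4 h5
    simp only [] at h4 h5
    rcases le_total x o.1 with hx | hx
    · have h6 := seg (S := S) x y 1 (-1) (by rw [adj_iff']; simp) (o.1 - x).toNat (fun j hj => by
        have hj' : (j : ℤ) ≤ o.1 - x := by omega
        apply hlow
        · rw [mem_ball_iff]; simp only []; omega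
        · rw [mem_ball_iff]; simp only []; omega)
      have e : ((x + 1 * ((o.1 - x).toNat : ℤ), y + -1 * ((o.1 - x).toNat : ℤ)) : P2) =
          (o.1, o.2 - s) := by
        have : ((o.1 - x).toNat : ℤ) = o.1 - x := Int.toNat_of_nonneg (by omega)
        rw [this]
        ext
        · simp
        · simp only []
          omega
      rw [e] at h6
      exact h6
    · have h6 := seg (S := S) x y (-1) 0 (by rw [adj_iff']; simp) (x - o.1).toNat (fun j hj => by
        have hj' : (j : ℤ) ≤ x - o.1 := by omega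
        apply hlow
        · rw [mem_ball_iff]; simp only []; omega
        · rw [mem_ball_iff]; simp only []; omega)
      have e : ((x + -1 * ((x - o.1).toNat : ℤ), y + 0 * ((x - o.1).toNat : ℤ)) : P2) =
          (o.1, o.2 - s) := by
        have : ((x - o.1).toNat : ℤ) = x - o.1 := Int.toNat_of_nonneg (by omega)
        rw [this]
        ext
        · simp
        · simp only []
          omega
      rw [e] at h6
      exact h6
  -- straight down
  have hdown : ∀ x y : ℤ, ((x, y) : P2) ∈ S →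
      (∀ j : ℕ, ((x, y - j) : P2) ∈ ball o s → ((x, y - j) : P2) ∉ ball o r) →
      Relation.ReflTransGen (StepIn S) (x, y) (o.1, o.2 - s) := by
    intro x y h4 h5
    obtain ⟨h6, h7, h8⟩ := h4
    have h6' := h6
    rw [mem_ball_iff] at h6
    simp only [] at h6
    -- number of steps
    set k : ℕ := (min (y - o.2 + s) (x - o.1 + (y - o.2) + s)).toNat with hk
    have hk' : (k : ℤ) = min (y - o.2 + s) (x - o.1 + (y - o.2) + s) :=
      Int.toNat_of_nonneg (by omega)
    have hin : ∀ j : ℕ, j ≤ k → ((x, y - j) : P2) ∈ ball o s := by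
      intro j hj
      rw [mem_ball_iff]
      simp only []
      omega
    have h9 := seg (S := S) x y 0 (-1) (by rw [adj_iff']; simp) k (fun j hj => by
      have e : ((x + 0 * (j : ℤ), y + -1 * (j : ℤ)) : P2) = (x, y - j) := by
        ext <;> simp <;> ring
      rw [e]
      exact ⟨hin j hj, h5 j (hin j hj), hdn x y h8 j⟩)
    have e : ((x + 0 * (k : ℤ), y + -1 * (k : ℤ)) : P2) = (x, y - k) := by
      ext <;> simp <;> ring
    rw [e] at h9
    refine h9.trans (hlowp _ _ (hin k le_rfl) ?_)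
    rw [mem_ball_iff]
    simp only []
    omega
  -- every point goes to the bottom
  have key : ∀ t ∈ S, Relation.ReflTransGen (StepIn S) t (o.1, o.2 - s) := by
    rintro ⟨x, y⟩ ht
    obtain ⟨h6, h7, h8⟩ := id ht
    have h6' := h6
    have h7' := h7
    rw [mem_ball_iff] at h6' h7'
    simp only [] at h6' h7'
    by_cases hxr : x - o.1 < -(r : ℤ) ∨ (r : ℤ) < x - o.1
    · refine hdown x y ht fun j _ => ?_
      rw [mem_ball_iff]
      simp only []
      omega
    · by_cases hbelow : y - o.2 < -(r : ℤ) ∨ x - o.1 + (y - o.2) < -(r : ℤ)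
      · refine hdown x y ht fun j _ => ?_
        rw [mem_ball_iff]
        simp only []
        omega
      · have habove : (r : ℤ) < y - o.2 ∨ (r : ℤ) < x - o.1 + (y - o.2) := by omega
        have hxw : ¬ |x - o.1| ≤ (w : ℤ) := fun h => h8 (h1 _ h (by simp only []; omega))
        rw [abs_le] at hxw
        rcases le_total x o.1 with hx | hx
        · -- left
          set k : ℕ := (y - o.2 - (r + 1)).toNat with hk
          have hk' : (k : ℤ) = y - o.2 - (r + 1) := Int.toNat_of_nonneg (by omega)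
          have p1 := seg (S := S) x y 0 (-1) (by rw [adj_iff']; simp) k (fun j hj => by
            have e : ((x + 0 * (j : ℤ), y + -1 * (j : ℤ)) : P2) = (x, y - j) := by
              ext <;> simp <;> ring
            rw [e]
            refine ⟨?_, ?_, hdn x y h8 j⟩
            · rw [mem_ball_iff]; simp only []; omega
            · rw [mem_ball_iff]; simp only []; omega)
          have e1 : ((x + 0 * (k : ℤ), y + -1 * (k : ℤ)) : P2) = (x, o.2 + (r + 1)) := by
            ext
            · simp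
            · simp only []; omega
          rw [e1] at p1
          set l : ℕ := (x - o.1 + (r + 1)).toNat with hl
          have hl' : (l : ℤ) = x - o.1 + (r + 1) := Int.toNat_of_nonneg (by omega)
          have hmem : ∀ j : ℕ, j ≤ l → ((x + -1 * (j : ℤ), o.2 + ((r : ℤ) + 1) + 0 * (j : ℤ)) : P2) ∈ S := by
            intro j hj
            refine ⟨?_, ?_, fun h9 => ?_⟩
            · rw [mem_ball_iff]; simp only []; omega
            · rw [mem_ball_iff]; simp only []; omega
            · have h10 := (h2 _ h9 (by simp only []; rw [abs_le]; omega)).1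
              simp only [] at h10
              rw [abs_le] at h10
              omega
          have p2 := seg (S := S) x (o.2 + ((r : ℤ) + 1)) (-1) 0 (by rw [adj_iff']; simp) l hmem
          refine p1.trans (p2.trans (hdown _ _ (hmem l le_rfl) fun j _ => ?_))
          rw [mem_ball_iff]
          simp only []
          omega
        · -- right
          set k : ℕ := (x - o.1 + (y - o.2) - (r + 1)).toNat with hk
          have hk' : (k : ℤ) = x - o.1 + (y - o.2) - (r + 1) := Int.toNat_of_nonneg (by omega)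
          have p1 := seg (S := S) x y 0 (-1) (by rw [adj_iff']; simp) k (fun j hj => by
            have e : ((x + 0 * (j : ℤ), y + -1 * (j : ℤ)) : P2) = (x, y - j) := by
              ext <;> simp <;> ring
            rw [e]
            refine ⟨?_, ?_, hdn x y h8 j⟩
            · rw [mem_ball_iff]; simp only []; omega
            · rw [mem_ball_iff]; simp only []; omega)
          have e1 : ((x + 0 * (k : ℤ), y + -1 * (k : ℤ)) : P2) = (x, o.2 + (r + 1) - (x - o.1)) := by
            ext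
            · simp
            · simp only []; omega
          rw [e1] at p1
          set l : ℕ := ((r : ℤ) + 1 - (x - o.1)).toNat with hl
          have hl' : (l : ℤ) = (r : ℤ) + 1 - (x - o.1) := Int.toNat_of_nonneg (by omega)
          have hmem : ∀ j : ℕ, j ≤ l →
              ((x + 1 * (j : ℤ), o.2 + ((r : ℤ) + 1) - (x - o.1) + -1 * (j : ℤ)) : P2) ∈ S := by
            intro j hj
            refine ⟨?_, ?_, fun h9 => ?_⟩
            · rw [mem_ball_iff]; simp only []; omega
            · rw [mem_ball_iff]; simp only []; omega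
            · have h10 := (h2 _ h9 (by simp only []; rw [abs_le]; omega)).1
              simp only [] at h10
              rw [abs_le] at h10
              omega
          have p2 := seg (S := S) x (o.2 + ((r : ℤ) + 1) - (x - o.1)) 1 (-1)
            (by rw [adj_iff']; simp) l hmem
          refine p1.trans (p2.trans (hdown _ _ (hmem l le_rfl) fun j _ => ?_))
          rw [mem_ball_iff]
          simp only []
          omega
  intro u hu v hv
  exact (key u hu).trans (path_symm (key v hv))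

end conn

/-! ### instances at a frame -/

theorem Ys_up {K n : ℕ} {o : P2} {b : Bool → P2} : ∀ t ∈ Ys K n o b, ((t.1, t.2 + 1) : P2) ∈ Ys K n o b := by
  rintro t ((⟨h1, h2⟩ | ⟨h1, h2⟩) | ⟨h1, h2⟩)
  · exact Or.inl (Or.inl ⟨h1, by show o.2 ≤ t.2 + 1; omega⟩)
  · exact Or.inl (Or.inr ⟨h1, by show (b false).2 ≤ t.2 + 1; omega⟩)
  · exact Or.inr ⟨h1, by show (b true).2 ≤ t.2 + 1; omega⟩

theorem o_mem_Ys {K n : ℕ} {o : P2} {b : Bool → P2} : o ∈ Ys K n o b :=
  Or.inl (Or.inl ⟨by simp, le_rfl⟩)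

/-- (i) the annulus without `Ys` is simply connected -/
theorem sc_Ys (K n : ℕ) (o : P2) (b : Bool → P2) (r s : ℕ) {F : Finset P2}
    (hF : ∀ t, t ∈ F ↔ t ∈ ball o s ∧ t ∉ ball o r ∧ t ∉ Ys K n o b) : SC F :=
  sc_annulus Ys_up o_mem_Ys hF

/-- (ii) the annulus without the half column is simply connected -/
theorem sc_col (o : P2) (r s : ℕ) {F : Finset P2}
    (hF : ∀ t, t ∈ F ↔ t ∈ ball o s ∧ t ∉ ball o r ∧ ¬ (t.1 = o.1 ∧ o.2 ≤ t.2)) : SC F :=
  sc_annulus (Y := {t : P2 | t.1 = o.1 ∧ o.2 ≤ t.2})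
    (fun t ht => ⟨ht.1, by show o.2 ≤ t.2 + 1; have := ht.2; omega⟩) ⟨rfl, le_rfl⟩ hF

/-- (ii) with a half column of width `2 w + 1` -/
theorem sc_strip (o : P2) (r s w : ℕ) {F : Finset P2}
    (hF : ∀ t, t ∈ F ↔ t ∈ ball o s ∧ t ∉ ball o r ∧ ¬ (|t.1 - o.1| ≤ w ∧ o.2 ≤ t.2)) : SC F :=
  sc_annulus (Y := {t : P2 | |t.1 - o.1| ≤ w ∧ o.2 ≤ t.2})
    (fun t ht => ⟨ht.1, by show o.2 ≤ t.2 + 1; have := ht.2; omega⟩) ⟨by simp, le_rfl⟩ hF

/-- (iii) connectedness with explicit conditions on `b` -/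
theorem conn_Ys {K n : ℕ} {o : P2} {b : Bool → P2} {r s : ℕ} (hrs : r < s) (hwr : wd K n ≤ r)
    (hb : ∀ e, (r : ℤ) + 1 < |(b e).1 - o.1| ∧ ((b e).1, (b e).2 - 1) ∈ ball o s) :
    IsConn {t | t ∈ ball o s ∧ t ∉ ball o r ∧ t ∉ Ys K n o b} := by
  have hray : ∀ e, ∀ t : P2, t.1 = (b e).1 → (b e).2 ≤ t.2 → t ∈ ball o s →
      ((t.1, t.2 - 1) : P2) ∈ ball o s := by
    intro e t h1 h2 h3
    have h4 := (hb e).2
    rw [mem_ball_iff] at h3 h4 ⊢
    simp only [] at h3 h4 ⊢
    omega
  refine conn_annulus (w := wd K n) hrs hwr Ys_up (fun t h1 h2 => Or.inl (Or.inl ⟨h1, h2⟩)) ?_ ?_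
  · rintro t ((⟨h1, h2⟩ | ⟨h1, h2⟩) | ⟨h1, h2⟩) h3
    · exact ⟨h1, h2⟩
    · have := (hb false).1
      rw [h1] at h3
      exact absurd h3 (by omega)
    · have := (hb true).1
      rw [h1] at h3
      exact absurd h3 (by omega)
  · rintro t ((⟨h1, h2⟩ | ⟨h1, h2⟩) | ⟨h1, h2⟩) h3
    · rw [abs_le] at h1
      rw [mem_ball_iff] at h3 ⊢
      simp only [] at h3 ⊢
      omega
    · exact hray false t h1 h2 h3
    · exact hray true t h1 h2 h3

section frame

variable {K A R n r1 r2 k : ℕ} {N : Set P2} {o : P2} {q : ℤ} {b y : Bool → P2} {a : ℕ → P2}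

/-- the centres `b e` of a frame -/
theorem frame_b (hF : Frame K A R n r1 r2 k N o q b y a) (hR : 1 ≤ R) {r s : ℕ} (hr : r ≤ r1)
    (hs : r2 ≤ s) (e : Bool) :
    (r : ℤ) + 1 < |(b e).1 - o.1| ∧ ((b e).1, (b e).2 - 1) ∈ ball o s := by
  have h1 : b e ∈ ball (b e) (R * n) := Hf702.self_mem_ball _ _
  have hRn : 1 ≤ R * n := Nat.mul_pos hR hF.n1
  have h2 : ((b e).1, (b e).2 - 1) ∈ ball (b e) (R * n) := by
    rw [mem_ball_iff]
    simp only []
    omega
  refine ⟨?_, Rsw867.ball_mono o hs (hF.ballb e _ h2).1⟩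
  rw [lt_abs]
  cases e with
  | false =>
    have := hF.left _ h1
    right
    omega
  | true =>
    have := hF.right _ h1
    left
    omega

/-- **(iii)** -/
theorem frame_conn (hF : Frame K A R n r1 r2 k N o q b y a) (hR : 1 ≤ R) {r s : ℕ} (hr : r ≤ r1)
    (hwr : wd K n ≤ r) (hs : r2 ≤ s) (hrs : r < s) :
    IsConn {t | t ∈ ball o s ∧ t ∉ ball o r ∧ t ∉ Ys K n o b} :=
  conn_Ys hrs hwr (frame_b hF hR hr hs)

/-- **(iii)** for a finite set -/
theorem frame_connF (hF : Frame K A R n r1 r2 k N o q b y a) (hR : 1 ≤ R) {r s : ℕ} (hr : r ≤ r1)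
    (hwr : wd K n ≤ r) (hs : r2 ≤ s) (hrs : r < s) {M : Finset P2}
    (hM : ∀ t, t ∈ M ↔ t ∈ ball o s ∧ t ∉ ball o r ∧ t ∉ Ys K n o b) : IsConn (M : Set P2) := by
  have h := frame_conn hF hR hr hwr hs hrs
  have e : (M : Set P2) = {t | t ∈ ball o s ∧ t ∉ ball o r ∧ t ∉ Ys K n o b} := by
    ext t
    simp only [Finset.mem_coe, hM, Set.mem_setOf_eq]
  rw [e]
  exact h

/-- a point of the annulus off `Ys`, non free -/
theorem frame_MN (hF : Frame K A R n r1 r2 k N o q b y a) (hR : 1 ≤ R) {r s : ℕ} (hr : r ≤ r1)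
    (hr' : r1 ≤ r + mg K n) (hwr : wd K n ≤ r) (hrs : r < s) (hs' : s ≤ r2 + mg K n) :
    ∃ t, t ∈ ball o s ∧ t ∉ ball o r ∧ t ∉ Ys K n o b ∧ t ∈ N ∧ t ∈ up t := by
  have hl := hF.left _ (Hf702.self_mem_ball _ _)
  have hri := hF.right _ (Hf702.self_mem_ball _ _)
  have h1 : ((o.1 - (wd K n + 1), o.2 + (r + 1)) : P2) ∈ ball o s := by
    rw [mem_ball_iff]; simp only []; omega
  refine ⟨(o.1 - (wd K n + 1), o.2 + (r + 1)), h1, ?_, ?_, ?_, by rw [mem_up]; simp⟩
  · rw [mem_ball_iff]; simp only []; omega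
  · rintro ((⟨h2, h3⟩ | ⟨h2, h3⟩) | ⟨h2, h3⟩)
    · simp only [] at h2
      rw [abs_le] at h2
      omega
    · simp only [] at h2
      omega
    · simp only [] at h2
      omega
  · refine hF.strip _ ?_ ?_ ?_ (Rsw867.ball_mono o hs' h1)
    · simp only []
      rw [abs_le]
      omega
    · simp only []
      omega
    · rw [mem_ball_iff]
      simp only []
      omega

end frame

end Crest.Agent.R144.Gm400
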