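import Crest.Agent.R144.Bnd8_991
import Crest.Agent.R144.Gm_400
import Crest.Agent.R144.Bd7b_856

/-!
# R144, block BND, part 9 (helper991): the planar facts `GM` of a frame, from 400's `Gm_400`
-/

set_option autoImplicit false

noncomputable section

namespace Crest.Agent.R144.Bnd991

open Crest.Agent.R144.It844 (P2)
open Crest.Agent.R144.Zg349
open Crest.Agent.R144.Rsw867 (ball)

theorem Frame.gm {K A R n r1 r2 k : ℕ} {N : Set P2} {o : P2} {h : ℤ} {b y : Bool → P2} {a : ℕ → P2}
    (hF : Frame K A R n r1 r2 k N o h b y a) (hR : 1 ≤ R) : GM K n r1 r2 o b where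
  scB := Gm400.sc_col o (r1 - ((K + 1) * n + 10)) (r2 + ((K + 1) * n + 10)) fun t => by
    rw [mem_Bk, and_assoc]
  scD := Gm400.sc_Ys K n o b (r1 - (3 * n + 4)) (r2 + (3 * n + 4)) fun t => by
    rw [Finset.mem_sdiff, mem_Yk, mem_Dk]
    tauto
  Mc := Gm400.frame_connF hF hR (r := r1 - 1) (s := r2 + 1) (by omega)
    (by have := hF.rin; unfold mg at this; omega) (by omega) (by have := hF.r12; omega) fun t => by
    rw [mem_Mk, and_assoc]

end Crest.Agent.R144.Bnd991
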