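import Crest.Agent.R144.Zo5_349
import Crest.Agent.R144.Ccn2_311
import Crest.Agent.R144.Bnd2_991

/-!
# R144, block BND (helper991): lower comparison for the law with fixed boundary heights, conditional form

* `lower02` : `E0 [g f1] * Em_B [f2] ≤ E0 [g f1 f2]`, boundary heights `ξ ∈ {0, 1}` arbitrary, `f1, f2 ≥ 0`
  increasing in `B`, `g ≥ 0` off `B` (349's `lower0` + 311's `lower2`);
* `lowB_E0` : 311's interface `LowB` for `E0 c Λ ξ`, allowed blocks `SC B`, `B ⊆ upT Λ`, `IV B ⊆ Λ`;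
* `Fac B f` : `f = g1 * f1`, `g1 ≥ 0` off `B`, `f1 ≥ 0` increasing in `B`; `fac_Cn`, `fac_Kn`, `fac_off`;
* `plusF`, `iterF`, `decayF` : plus-closed layers in presence of `f`, for every law with `LowB`.
-/

set_option autoImplicit false
set_option linter.unusedSectionVars false
set_option linter.unusedSimpArgs false

noncomputable section

namespace Crest.Agent.R144.Bnl991

open Finset
open Crest.Agent.R144.It844 (P2 Lip Cst adj_iff adj_symm lip_iff upT mem_upT tw adj_up exists_exit)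
open Crest.Agent.R144.Zg349 Crest.Agent.R144.Zk349 Crest.Agent.R144.Zd349 Crest.Agent.R144.Zm349
open Crest.Agent.R144.HyA349 Crest.Agent.R144.HyB349 Crest.Agent.R144.HyC349
open Crest.Agent.R144.Ze349 Crest.Agent.R144.Zs349 Crest.Agent.R144.Zf349 Crest.Agent.R144.Zo349
open Crest.Agent.R144.Ccn2311 (Em incP_mul inTZ_mul inTZ_mono offTZ_anti LowB inTZ_const)
open Crest.Agent.R144.Ccnt311 (alg_top)
open Crest.Agent.R144.Bnd991
open Crest.Agent.R144.Rsw867 (ball mem_ball ball_mono adj_ball sc_ball Sepr Blk BlkP ind ind_nonneg ind_le_one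
  offTZ_mul path_mono RSW incP_blkP inTZ_blkP blkP_addH2 offTZ_one ind_of_mem ind_of_not_mem ind_congr
  ind_compl ind_le_ind blkP_anti offTZ_mono offTZ_compl offTZ_blkP exists_scale scale_step)
open Crest.ProbabilityR.HexHeights (Adj)

/-- **Conditional association + lower comparison**, fixed boundary heights in `{0, 1}`. -/
theorem lower02 {c : ℝ} (hc : 1 ≤ c) {Λ B : Finset P2} {ξ : P2 → ℤ} (hΛ : IsConn ((Λ : Set P2)ᶜ))
    (hξ : Bv Λ ξ) (hB : SC B) (hBK : B ⊆ upT Λ) (hIV : IV B ⊆ Λ) (hLip : Lip ξ)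
    {f1 f2 g : Cfg → ℝ} (hf1 : IncP f1) (hin1 : InTZ B f1) (h10 : ∀ ω, 0 ≤ f1 ω)
    (hf2 : IncP f2) (hin2 : InTZ B f2) (h20 : ∀ ω, 0 ≤ f2 ω)
    (hg0 : ∀ ω, 0 ≤ g ω) (hg : OffTZ B g) :
    E0 c Λ ξ (fun ω => g ω * f1 ω) * Em c B f2 ≤ E0 c Λ ξ (fun ω => g ω * (f1 ω * f2 ω)) := by
  set fB : Finset P2 → Finset P2 → Finset P2 → ℝ := fun T P M => f2 (mk B T P M) with hfB
  have hincB : Inc fB := mkG_inc B hf2
  set mf := EBL c Λ B (minL Λ B) fB with hmf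
  set m1 := EBL c Λ B (minL Λ B) (fun _ _ _ => 1) with hm1
  have hm1pos : 0 < m1 := EBL_one_pos hc (minL_ok Λ B)
  have hloc : ∀ T1 ⊆ Λ \ IV B, ∀ Z1 ⊆ upT Λ \ B, (∀ t ∈ Z1, Cs up T1 t) →
      EBL c Λ B (etaL T1 Z1) (fun T P M => cJ Λ ξ T1 Z1 P * f1 (mk B T P M)) * mf ≤
        EBL c Λ B (etaL T1 Z1)
          (fun T P M => cJ Λ ξ T1 Z1 P * (f1 (mk B T P M) * f2 (mk B T P M))) * m1 := by
    intro T1 hT1 Z1 hZ1 hs
    have hA1 : Inc (fun T P M => cJ Λ ξ T1 Z1 P * f1 (mk B T P M)) := by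
      intro T T' P P' M M' hT hP hM
      exact mul_le_mul (cJ_inc Λ ξ T1 Z1 T T' P P' M M' hT hP hM)
        (mkG_inc B hf1 _ _ _ _ _ _ hT hP hM) (h10 _) (cJ_nonneg _ _ _ _ _)
    have hle : (minL Λ B).Le (etaL T1 Z1) := by
      refine ⟨?_, Finset.empty_subset _, ?_⟩
      · intro v hv
        have h := Finset.mem_sdiff.1 (hT1 hv)
        exact Finset.mem_sdiff.2 ⟨Finset.mem_union_left _ h.1, h.2⟩
      · intro e he
        obtain ⟨t, ht, rfl⟩ := mem_emb.1 he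
        rw [Finset.mem_filter] at ht
        refine Finset.mem_union_left _ (t_mem_emb.2 (Finset.mem_filter.2 ⟨hZ1 ht.1, fun v hv => ?_⟩))
        have h := Finset.mem_sdiff.1 (hT1 (cs_minus (hs t ht.1) ht.2 v hv))
        exact Finset.mem_sdiff.2 ⟨Finset.mem_union_left _ h.1, h.2⟩
    have hok := etaL_ok (B := B) hT1 hZ1
    have h1 := EBL_mono hc (Λ := Λ) (minL_ok Λ B) hok hle hincB
    have h2 := EBL_fkg hc (Λ := Λ) hok hA1 hincB
    have o1 : 0 < EBL c Λ B (etaL T1 Z1) (fun _ _ _ => 1) := EBL_one_pos hc hok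
    have hA : 0 ≤ EBL c Λ B (etaL T1 Z1) (fun T P M => cJ Λ ξ T1 Z1 P * f1 (mk B T P M)) :=
      EBL_nonneg hc fun _ P _ => mul_nonneg (cJ_nonneg Λ ξ T1 Z1 P) (h10 _)
    have e3 : EBL c Λ B (etaL T1 Z1) (fun T P M => cJ Λ ξ T1 Z1 P * f1 (mk B T P M) * fB T P M) =
        EBL c Λ B (etaL T1 Z1)
          (fun T P M => cJ Λ ξ T1 Z1 P * (f1 (mk B T P M) * f2 (mk B T P M))) := by
      congr 1
      funext T P M
      rw [hfB]; ring
    rw [e3] at h2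
    set o := EBL c Λ B (etaL T1 Z1) (fun _ _ _ => 1)
    set a := EBL c Λ B (etaL T1 Z1) (fun T P M => cJ Λ ξ T1 Z1 P * f1 (mk B T P M))
    set b := EBL c Λ B (etaL T1 Z1) fB
    set d := EBL c Λ B (etaL T1 Z1)
      (fun T P M => cJ Λ ξ T1 Z1 P * (f1 (mk B T P M) * f2 (mk B T P M)))
    have h3 : a * (mf * o) ≤ a * (m1 * b) := mul_le_mul_of_nonneg_left h1 hA
    have h4 : m1 * (a * b) ≤ m1 * (o * d) := mul_le_mul_of_nonneg_left h2 hm1pos.le
    have h5 : o * (a * mf) ≤ o * (d * m1) := by linarith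
    exact le_of_mul_le_mul_left h5 o1
  have s1 := envL c hΛ hξ hBK hIV (incP_mul hf1 hf2 h10 h20) (inTZ_mul hin1 hin2) hg
  have s2 := envL c hΛ hξ hBK hIV hf1 hin1 hg
  have p2 := nL_pos Λ ∅
  have hmain : S0 c Λ ξ (fun ω => g ω * f1 ω) * mf ≤
      S0 c Λ ξ (fun ω => g ω * (f1 ω * f2 ω)) * m1 := by
    have h7 := sum_envL_le hc (Λ := Λ) (B := B) (K := upT Λ) hg0
      (a := fun T1 Z1 => EBL c Λ B (etaL T1 Z1)
        (fun T P M => cJ Λ ξ T1 Z1 P * f1 (mk B T P M)) * mf)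
      (b := fun T1 Z1 => EBL c Λ B (etaL T1 Z1)
        (fun T P M => cJ Λ ξ T1 Z1 P * (f1 (mk B T P M) * f2 (mk B T P M))) * m1) hloc
    refine le_of_mul_le_mul_left ?_ p2
    rw [← mul_assoc, ← mul_assoc, s1, s2, mul_assoc, mul_assoc, Finset.sum_mul, Finset.sum_mul]
    simp only [Finset.sum_mul, mul_assoc] at h7 ⊢
    exact h7
  have e1 := EBL_min c (Λ := Λ) hB hBK hIV hf2 hin2
  have e2 := EBL_min c (Λ := Λ) hB hBK hIV incP_one (inTZ_one B)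
  rw [S_one] at e2
  have hZ0 := Z0_pos hc (Λ := Λ) hLip
  have hZB := Z_pos hc B
  have hn := Nm_pos B
  have hratio : Em c B f2 = mf / m1 := by
    unfold Ccn2311.Em
    rw [E_eq_S, div_eq_div_iff hZB.ne' hm1pos.ne']
    have h8 : nL Λ ∅ * Nm B * (S c B (fun ω => f2 (addH 2 ω)) * m1) =
        nL Λ ∅ * Nm B * (mf * Z c B) := by
      calc _ = (nL Λ ∅ * S c B (fun ω => f2 (addH 2 ω))) * (m1 * Nm B) := by ring
        _ = (mf * Nm B) * (nL Λ ∅ * Z c B) := by rw [← e1, e2]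
        _ = _ := by ring
    exact mul_left_cancel₀ (by positivity) h8
  unfold E0
  rw [hratio, div_mul_div_comm, div_le_div_iff₀ (mul_pos hZ0 hm1pos) hZ0]
  nlinarith [mul_le_mul_of_nonneg_left hmain hZ0.le]


/-- 311's interface for the law with fixed boundary heights -/
theorem lowB_E0 {c : ℝ} (hc : 1 ≤ c) {Λ : Finset P2} {ξ : P2 → ℤ} (hΛ : IsConn ((Λ : Set P2)ᶜ))
    (hξ : Bv Λ ξ) (hLip : Lip ξ) :
    LowB c (fun B => SC B ∧ B ⊆ upT Λ ∧ IV B ⊆ Λ) (fun _ => True) (E0 c Λ ξ) where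
  alg := alg_top
  law := ⟨fun _ _ _ _ => E0_add _ _, fun a _ _ => E0_smul a _, fun _ _ _ _ h => E0_mono hc fun _ _ _ => h _,
    E0_const hc hLip 1⟩
  loc := fun _ _ _ => trivial
  lb := fun _ hB _ _ _ h1 h2 h3 h4 h5 h6 _ h7 h8 =>
    lower02 hc hΛ hξ hB.1 hB.2.1 hB.2.2 hLip h1 h2 h3 h4 h5 h6 h7 h8

/-! ### observables that factor over a block -/

/-- `f = g1 * f1`, `g1 ≥ 0` off `B`, `f1 ≥ 0` increasing in `B` -/
def Fac (B : Finset P2) (f : Cfg → ℝ) : Prop :=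
  ∃ g1 f1 : Cfg → ℝ, (∀ ω, f ω = g1 ω * f1 ω) ∧ (∀ ω, 0 ≤ g1 ω) ∧ OffTZ B g1 ∧ (∀ ω, 0 ≤ f1 ω) ∧
    IncP f1 ∧ InTZ B f1

theorem Fac.nonneg {B : Finset P2} {f : Cfg → ℝ} (h : Fac B f) (ω : Cfg) : 0 ≤ f ω := by
  obtain ⟨g1, f1, e, h1, _, h3, _, _⟩ := h
  rw [e]; exact mul_nonneg (h1 ω) (h3 ω)

theorem Fac.mul {B : Finset P2} {f f' : Cfg → ℝ} (h : Fac B f) (h' : Fac B f') :
    Fac B (fun ω => f ω * f' ω) := by
  obtain ⟨g1, f1, e, h1, h2, h3, h4, h5⟩ := h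
  obtain ⟨g1', f1', e', h1', h2', h3', h4', h5'⟩ := h'
  refine ⟨fun ω => g1 ω * g1' ω, fun ω => f1 ω * f1' ω, fun ω => ?_, fun ω => mul_nonneg (h1 ω) (h1' ω),
    offTZ_mul h2 h2', fun ω => mul_nonneg (h3 ω) (h3' ω), incP_mul h4 h4' h3 h3', inTZ_mul h5 h5'⟩
  show f ω * f' ω = g1 ω * g1' ω * (f1 ω * f1' ω)
  rw [e, e']; ring

theorem fac_off {B : Finset P2} {g : Cfg → ℝ} (h0 : ∀ ω, 0 ≤ g ω) (h : OffTZ B g) : Fac B g :=
  ⟨g, fun _ => 1, fun ω => (mul_one _).symm, h0, h, fun _ => zero_le_one, incP_one, inTZ_const B 1⟩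

theorem fac_in {B : Finset P2} {f : Cfg → ℝ} (h0 : ∀ ω, 0 ≤ f ω) (h1 : IncP f) (h2 : InTZ B f) : Fac B f :=
  ⟨fun _ => 1, f, fun ω => (one_mul _).symm, fun _ => zero_le_one, fun _ _ _ _ => rfl, h0, h1, h2⟩

theorem fac_Cn (N : Set P2) (B : Finset P2) : Fac B (Cn N) :=
  ⟨Cn (N \ (IV B : Set P2)), Cn (N ∩ (IV B : Set P2)), Cn_split N B, Cn_nonneg _, offTZ_Cn_diff N B,
    Cn_nonneg _, incP_Cn _, inTZ_Cn_inter N B⟩

theorem fac_Kn {X : Set P2} {B : Finset P2} (h : ∀ t ∈ X, t ∈ B → t ∈ IV B) : Fac B (Kn X) :=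
  ⟨Kn (X \ (B : Set P2)), Kn (X ∩ (B : Set P2)), Kn_split X B, Kn_nonneg _, offTZ_Kn fun _ ht => ht.2,
    Kn_nonneg _, incP_Kn _, inTZ_Kn fun t ht => h t ht.1 ht.2⟩

/-! ### plus-closed layers for every law with the interface `LowB` -/

section
variable {c : ℝ} {K : ℕ} {p : ℝ} {Bl : Finset P2 → Prop} {E' : (Cfg → ℝ) → ℝ}

theorem lowB_fac (h : LowB c Bl (fun _ => True) E') {B : Finset P2} (hB : Bl B) {f f2 : Cfg → ℝ}
    (hf : Fac B f) (h1 : IncP f2) (h2 : InTZ B f2) (h0 : ∀ ω, 0 ≤ f2 ω) :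
    E' f * Em c B f2 ≤ E' (fun ω => f ω * f2 ω) := by
  obtain ⟨g1, f1, e, a1, a2, a3, a4, a5⟩ := hf
  have := h.lb B hB f1 f2 g1 a4 a5 a3 h1 h2 h0 trivial a1 a2
  have e1 : f = fun ω => g1 ω * f1 ω := funext e
  have e2 : (fun ω => f ω * f2 ω) = fun ω => g1 ω * (f1 ω * f2 ω) := by
    funext ω; rw [e]; ring
  rw [e2, e1]
  exact this

theorem law_nonneg (h : LowB c Bl (fun _ => True) E') {f : Cfg → ℝ} (hf : ∀ ω, 0 ≤ f ω) : 0 ≤ E' f := by
  have h1 := h.law.mono (fun _ => 0 * 1) f trivial trivial (fun ω => by simpa using hf ω)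
  rw [h.law.smul 0 (fun _ => 1) trivial, zero_mul] at h1
  exact h1

theorem plusF (hc : 1 ≤ c) (hR : RSW c K p) (h : LowB c Bl (fun _ => True) E') {n : ℕ} (hn : 1 ≤ n)
    {a : P2} (hB : Bl (ball a (K * n))) {f : Cfg → ℝ} (hf : Fac (ball a (K * n)) f) :
    p * E' f ≤ E' (fun ω => f ω * ind (BlkP a n (2 * n)) ω) := by
  have h1 := lowB_fac h hB hf (incP_blkP a n (2 * n))
    (inTZ_blkP a (m := n) (N := 2 * n) (by omega) (Rsw867.ball_sub_scale a hR.K4 hn)) (ind_nonneg _)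
  have h2 := em_blkP hc hR hn a (sc_ball a (K * n)) (Finset.Subset.refl _)
  have h3 : 0 ≤ E' f := law_nonneg h hf.nonneg
  nlinarith [mul_le_mul_of_nonneg_left h2 h3]

theorem plusF' (hc : 1 ≤ c) (hR : RSW c K p) (h : LowB c Bl (fun _ => True) E') {n : ℕ} (hn : 1 ≤ n)
    {a : P2} (hB : Bl (ball a (K * n))) {f : Cfg → ℝ} (hf : Fac (ball a (K * n)) f) :
    E' (fun ω => f ω * ind (BlkP a n (2 * n))ᶜ ω) ≤ (1 - p) * E' f := by
  have h1 := plusF hc hR h hn hB hf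
  have e : (fun ω => f ω * ind (BlkP a n (2 * n))ᶜ ω) =
      fun ω => f ω + (-1) * (f ω * ind (BlkP a n (2 * n)) ω) := by
    funext ω; rw [ind_compl]; ring
  rw [e, h.law.add _ _ trivial trivial, h.law.smul _ _ trivial]
  linarith

theorem iterF (hc : 1 ≤ c) (hR : RSW c K p) (h : LowB c Bl (fun _ => True) E') {a : P2} (k : ℕ) {n : ℕ}
    (hn : 1 ≤ n) {f : Cfg → ℝ}
    (hf : ∀ j ≤ k, Bl (ball a (K * ((K + 1) ^ j * n))) ∧ Fac (ball a (K * ((K + 1) ^ j * n))) f) :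
    E' (fun ω => f ω * ind (BlkP a n (2 * ((K + 1) ^ k * n)))ᶜ ω) ≤ (1 - p) ^ (k + 1) * E' f := by
  induction k generalizing f with
  | zero =>
    have := hf 0 le_rfl
    simp only [pow_zero, one_mul, zero_add, pow_one] at this ⊢
    exact plusF' hc hR h hn this.1 this.2
  | succ k ih =>
    set n' := (K + 1) ^ (k + 1) * n with hn'
    have h1n : 1 ≤ n' := Nat.mul_pos (by positivity) hn
    have h2n : n ≤ n' := by
      rw [hn']; exact Nat.le_mul_of_pos_left _ (by positivity)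
    have hK4 := hR.K4
    set g' : Cfg → ℝ := fun ω => f ω * ind (BlkP a n' (2 * n'))ᶜ ω with hg'
    have hg'f : ∀ j ≤ k, Bl (ball a (K * ((K + 1) ^ j * n))) ∧ Fac (ball a (K * ((K + 1) ^ j * n))) g' := by
      intro j hj
      obtain ⟨b1, b2⟩ := hf j (by omega)
      refine ⟨b1, b2.mul (fac_off (ind_nonneg _) (offTZ_compl (offTZ_blkP a (by omega) ?_
        (Finset.Subset.refl _))))⟩
      have h5 : K * ((K + 1) ^ k * n) + 1 ≤ n' := scale_step hn hn'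
      have h6 : (K + 1) ^ j * n ≤ (K + 1) ^ k * n :=
        Nat.mul_le_mul_right _ (Nat.pow_le_pow_right (by omega) hj)
      have h7 := Nat.mul_le_mul_left K h6
      omega
    have e1 := ih hg'f
    obtain ⟨b1, b2⟩ := hf (k + 1) le_rfl
    have e2 := plusF' hc hR h h1n b1 b2
    have e3 : E' (fun ω => f ω * ind (BlkP a n (2 * n'))ᶜ ω) ≤
        E' (fun ω => g' ω * ind (BlkP a n (2 * ((K + 1) ^ k * n)))ᶜ ω) := by
      refine h.law.mono _ _ trivial trivial fun ω => ?_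
      have i1 : ind (BlkP a n (2 * n'))ᶜ ω ≤ ind (BlkP a n' (2 * n'))ᶜ ω :=
        ind_le_ind fun hω hω' => hω (blkP_anti h2n le_rfl hω')
      have i2 : ind (BlkP a n (2 * n'))ᶜ ω ≤ ind (BlkP a n (2 * ((K + 1) ^ k * n)))ᶜ ω := by
        refine ind_le_ind fun hω hω' => hω (blkP_anti le_rfl ?_ hω')
        have h5 : K * ((K + 1) ^ k * n) + 1 ≤ n' := scale_step hn hn'
        have : (K + 1) ^ k * n ≤ K * ((K + 1) ^ k * n) := Nat.le_mul_of_pos_left _ (by omega)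
        omega
      have i3 : ind (BlkP a n (2 * n'))ᶜ ω ≤
          ind (BlkP a n' (2 * n'))ᶜ ω * ind (BlkP a n (2 * ((K + 1) ^ k * n)))ᶜ ω := by
        have : ind (BlkP a n (2 * n'))ᶜ ω =
            ind (BlkP a n (2 * n'))ᶜ ω * ind (BlkP a n (2 * n'))ᶜ ω := by
          by_cases hω : ω ∈ (BlkP a n (2 * n'))ᶜ
          · rw [ind_of_mem hω]; norm_num
          · rw [ind_of_not_mem hω]; norm_num
        rw [this]
        exact mul_le_mul i1 i2 (ind_nonneg _ _) (ind_nonneg _ _)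
      calc f ω * ind (BlkP a n (2 * n'))ᶜ ω ≤ f ω * (ind (BlkP a n' (2 * n'))ᶜ ω *
            ind (BlkP a n (2 * ((K + 1) ^ k * n)))ᶜ ω) := mul_le_mul_of_nonneg_left i3 (b2.nonneg ω)
        _ = _ := by rw [hg']; ring
    have hp : (0 : ℝ) ≤ (1 - p) ^ (k + 1) := by
      have := hR.p1
      have : (0 : ℝ) ≤ 1 - p := by linarith
      positivity
    calc _ ≤ _ := e3
      _ ≤ (1 - p) ^ (k + 1) * E' g' := e1
      _ ≤ (1 - p) ^ (k + 1) * ((1 - p) * E' f) := mul_le_mul_of_nonneg_left e2 hp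
      _ = (1 - p) ^ (k + 1 + 1) * E' f := by ring

/-- **Power decay of "no plus-closed layer" in presence of a factorised observable.** -/
theorem decayF (hc : 1 ≤ c) (hR : RSW c K p) : ∃ (C α : ℝ), 1 ≤ C ∧ 0 < α ∧
    ∀ (Bl : Finset P2 → Prop) (E' : (Cfg → ℝ) → ℝ), LowB c Bl (fun _ => True) E' →
      ∀ m N : ℕ, 1 ≤ m → 1 ≤ N → ∀ (a : P2) (f : Cfg → ℝ), (∀ ω, 0 ≤ f ω) →
        (∀ r, K * m ≤ r → r ≤ K * N → Bl (ball a r) ∧ Fac (ball a r) f) →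
          E' (fun ω => f ω * ind (BlkP a m N)ᶜ ω) ≤ C * ((m : ℝ) / N) ^ α * E' f := by
  obtain ⟨C, α, hC, hα, hs⟩ := exists_scale hR.K4 hR.p0 hR.p1
  refine ⟨C, α, hC, hα, fun Bl E' h m N hm hN a f hf0 hf => ?_⟩
  have hf1 : 0 ≤ E' f := law_nonneg h hf0
  rcases hs m N hm hN with ⟨_, h1⟩ | ⟨k, hk, h1⟩
  · refine le_trans ?_ (le_mul_of_one_le_left hf1 h1)
    exact h.law.mono _ _ trivial trivial fun ω => mul_le_of_le_one_right (hf0 ω) (ind_le_one _ _)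
  · have hj : ∀ j ≤ k, m ≤ (K + 1) ^ j * m ∧ (K + 1) ^ j * m ≤ N := by
      intro j hj
      have h6 : (K + 1) ^ j * m ≤ (K + 1) ^ k * m :=
        Nat.mul_le_mul_right _ (Nat.pow_le_pow_right (by omega) hj)
      exact ⟨Nat.le_mul_of_pos_left _ (by positivity), by omega⟩
    have h2 := iterF hc hR h k hm (a := a) (f := f) fun j hjk =>
      hf _ (Nat.mul_le_mul_left K (hj j hjk).1) (Nat.mul_le_mul_left K (hj j hjk).2)
    refine le_trans ?_ (h2.trans (mul_le_mul_of_nonneg_right h1 hf1))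
    exact h.law.mono _ _ trivial trivial fun ω => mul_le_mul_of_nonneg_left
      (ind_le_ind fun hω hω' => hω (blkP_anti le_rfl hk hω')) (hf0 ω)

end

end Crest.Agent.R144.Bnl991
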