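import Crest.Agent.R144.It2_844

/-!
# R144, integer models: domain Markov property (helper844)

* `ex_tower_random` : random volumes: if `D h ⊆ Λ` and `D g = D h` whenever `g` agrees with `h` off
  `D h`, then `ex x Λ τ f = ex x Λ τ (fun h => ex x (D h) h f)`;
* `ex_tower` : fixed volume `Λ' ⊆ Λ`;
* `ex_tower_mul` : with a factor depending only on the heights off `D h`;
* `ex_congr_bc` : `ex x Λ τ f` depends only on `τ` off `Λ`, and only on `τ` on the outer boundary of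
  `Λ` when `f` depends only on the heights in `Λ` (`ex_local`);
* `pos_cov` etc. for conditional laws follow from `fkg` applied to `ex x (D h) h`.
-/

set_option autoImplicit false

noncomputable section

namespace Crest.Agent.R144.It844

open Finset MeasureTheory
open Crest.ProbabilityR.HexHeights (Adj)
open Crest.Agent.R161.Lsm375

theorem upT_mono {Λ' Λ : Finset P2} (h : Λ' ⊆ Λ) : upT Λ' ⊆ upT Λ := by
  intro u hu
  rw [mem_upT] at *
  rcases hu with hu | hu | hu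
  · exact Or.inl (h hu)
  · exact Or.inr (Or.inl (h hu))
  · exact Or.inr (Or.inr (h hu))

theorem mem_conf_symm {Λ : Finset P2} {h g : P2 → ℤ} (hh : Lip h) :
    g ∈ conf Λ h ↔ Lip g ∧ h ∈ conf Λ g := by
  simp only [mem_conf]
  constructor
  · rintro ⟨h1, h2⟩
    exact ⟨h1, hh, fun v hv => (h2 v hv).symm⟩
  · rintro ⟨h1, -, h2⟩
    exact ⟨h1, fun v hv => (h2 v hv).symm⟩

theorem conf_sub {Λ' Λ : Finset P2} (hs : Λ' ⊆ Λ) {τ h g : P2 → ℤ} (hh : h ∈ conf Λ τ)
    (hg : g ∈ conf Λ' h) : g ∈ conf Λ τ := by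
  rw [mem_conf] at *
  exact ⟨hg.1, fun v hv => (hg.2 v fun h' => hv (hs h')).trans (hh.2 v hv)⟩

/-- the weight of the up triangles touching `Λ` but not `Λ'` -/
def outW (x : ℝ) (Λ' Λ : Finset P2) (h : P2 → ℤ) : ℝ := ∏ u ∈ upT Λ \ upT Λ', tw x h u

theorem wt_split (x : ℝ) {Λ' Λ : Finset P2} (hs : Λ' ⊆ Λ) (h : P2 → ℤ) :
    wt x Λ h = wt x Λ' h * outW x Λ' Λ h := by
  unfold wt outW
  rw [mul_comm, Finset.prod_sdiff (upT_mono hs)]

theorem tw_congr (x : ℝ) {h g : P2 → ℤ} {u : P2} (h0 : h u = g u)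
    (h1 : h (u.1 + 1, u.2) = g (u.1 + 1, u.2)) (h2 : h (u.1, u.2 + 1) = g (u.1, u.2 + 1)) :
    tw x h u = tw x g u := by
  have : Cst h u ↔ Cst g u := by unfold Cst; rw [h0, h1, h2]
  simp only [tw, this]

theorem outW_congr (x : ℝ) {Λ' Λ : Finset P2} {h g : P2 → ℤ} (hg : ∀ v, v ∉ Λ' → g v = h v) :
    outW x Λ' Λ g = outW x Λ' Λ h := by
  unfold outW
  refine Finset.prod_congr rfl fun u hu => ?_
  rw [Finset.mem_sdiff, mem_upT, mem_upT] at hu
  push Not at hu
  exact tw_congr x (hg _ hu.2.1) (hg _ hu.2.2.1) (hg _ hu.2.2.2)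

theorem Z_congr (x : ℝ) {Λ : Finset P2} {τ τ' : P2 → ℤ} (h : ∀ v, v ∉ Λ → τ v = τ' v) :
    Z x Λ τ = Z x Λ τ' := by
  unfold Z
  rw [conf_congr h]

theorem ex_congr_bc {V : Type*} [AddCommGroup V] [Module ℝ V] (x : ℝ) {Λ : Finset P2}
    {τ τ' : P2 → ℤ} (h : ∀ v, v ∉ Λ → τ v = τ' v) (f : (P2 → ℤ) → V) :
    ex x Λ τ f = ex x Λ τ' f := by
  unfold ex Z
  rw [conf_congr h]

/-- **domain Markov property, random volume** -/
theorem ex_tower_random {V : Type*} [AddCommGroup V] [Module ℝ V] {x : ℝ} (hx : 0 < x)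
    {Λ : Finset P2} {τ : P2 → ℤ} (D : (P2 → ℤ) → Finset P2)
    (hsub : ∀ h ∈ conf Λ τ, D h ⊆ Λ)
    (hD : ∀ h ∈ conf Λ τ, ∀ g ∈ conf (D h) h, D g = D h) (f : (P2 → ℤ) → V) :
    ex x Λ τ f = ex x Λ τ (fun h => ex x (D h) h f) := by
  classical
  have key : ∑ h ∈ conf Λ τ, wt x Λ h • ex x (D h) h f = ∑ g ∈ conf Λ τ, wt x Λ g • f g := by
    have e1 : ∀ h ∈ conf Λ τ, wt x Λ h • ex x (D h) h f =
        ∑ g ∈ conf Λ τ, (if g ∈ conf (D h) h then
          (wt x Λ h * (Z x (D h) h)⁻¹ * wt x (D h) g) • f g else 0) := by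
      intro h hh
      rw [← Finset.sum_filter]
      have e2 : (conf Λ τ).filter (fun g => g ∈ conf (D h) h) = conf (D h) h := by
        ext g
        simp only [Finset.mem_filter]
        exact ⟨fun hg => hg.2, fun hg => ⟨conf_sub (hsub h hh) hh hg, hg⟩⟩
      rw [e2]
      unfold ex
      rw [Finset.smul_sum, Finset.smul_sum]
      refine Finset.sum_congr rfl fun g _ => ?_
      rw [smul_smul, smul_smul]
    rw [Finset.sum_congr rfl e1, Finset.sum_comm]
    refine Finset.sum_congr rfl fun g hg => ?_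
    have hgL := (mem_conf.1 hg).1
    have e3 : ∀ h ∈ conf Λ τ, (if g ∈ conf (D h) h then
          (wt x Λ h * (Z x (D h) h)⁻¹ * wt x (D h) g) • f g else 0) =
        (if h ∈ conf (D g) g then (wt x (D g) h * ((Z x (D g) g)⁻¹ * wt x Λ g)) • f g else 0) := by
      intro h hh
      have hhL := (mem_conf.1 hh).1
      by_cases h1 : g ∈ conf (D h) h
      · have hDg := hD h hh g h1
        have h2 : h ∈ conf (D g) g := by
          rw [hDg]; exact ((mem_conf_symm hhL).1 h1).2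
        rw [if_pos h1, if_pos h2]
        congr 1
        have hoff : ∀ v, v ∉ D g → h v = g v := (mem_conf.1 h2).2
        rw [← hDg, Z_congr x hoff, wt_split x (hsub g hg) h, wt_split x (hsub g hg) g,
          outW_congr x hoff]
        ring
      · have h2 : h ∉ conf (D g) g := by
          intro h2
          apply h1
          have hDh := hD g hg h h2
          rw [hDh]
          exact ((mem_conf_symm hgL).1 h2).2
        rw [if_neg h1, if_neg h2]
    rw [Finset.sum_congr rfl e3, ← Finset.sum_filter]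
    have e4 : (conf Λ τ).filter (fun h => h ∈ conf (D g) g) = conf (D g) g := by
      ext h
      simp only [Finset.mem_filter]
      exact ⟨fun hg' => hg'.2, fun hg' => ⟨conf_sub (hsub g hg) hg hg', hg'⟩⟩
    rw [e4, ← Finset.sum_smul, ← Finset.sum_mul]
    congr 1
    have hZ := Z_pos hx hgL (Λ := D g)
    show Z x (D g) g * ((Z x (D g) g)⁻¹ * wt x Λ g) = wt x Λ g
    rw [← mul_assoc, mul_inv_cancel₀ hZ.ne', one_mul]
  unfold ex
  unfold ex at key
  rw [key]

/-- **domain Markov property, fixed volume** -/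
theorem ex_tower {V : Type*} [AddCommGroup V] [Module ℝ V] {x : ℝ} (hx : 0 < x)
    {Λ' Λ : Finset P2} (hs : Λ' ⊆ Λ) (τ : P2 → ℤ) (f : (P2 → ℤ) → V) :
    ex x Λ τ f = ex x Λ τ (fun h => ex x Λ' h f) :=
  ex_tower_random hx (fun _ => Λ') (fun _ _ => hs) (fun _ _ _ _ => rfl) f

/-- with a scalar factor which is a function of the heights off the random volume -/
theorem ex_tower_smul {V : Type*} [AddCommGroup V] [Module ℝ V] {x : ℝ} (hx : 0 < x)
    {Λ : Finset P2} {τ : P2 → ℤ} (D : (P2 → ℤ) → Finset P2)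
    (hsub : ∀ h ∈ conf Λ τ, D h ⊆ Λ)
    (hD : ∀ h ∈ conf Λ τ, ∀ g ∈ conf (D h) h, D g = D h)
    (φ : (P2 → ℤ) → ℝ) (hφ : ∀ h ∈ conf Λ τ, ∀ g ∈ conf (D h) h, φ g = φ h) (f : (P2 → ℤ) → V) :
    ex x Λ τ (fun h => φ h • f h) = ex x Λ τ (fun h => φ h • ex x (D h) h f) := by
  rw [ex_tower_random hx D hsub hD]
  refine ex_congr fun h hh => ?_
  rw [← ex_smul]
  exact ex_congr fun g hg => by rw [hφ h hh g hg]

/-! ### locality -/

/-- sites of `Λ` and their neighbours -/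
def nbhd (Λ : Finset P2) : Set P2 := {v | v ∈ Λ ∨ ∃ w ∈ Λ, Adj w v}

/-- change the boundary values far away -/
theorem ex_local {V : Type*} [AddCommGroup V] [Module ℝ V] (x : ℝ) {Λ : Finset P2} {τ τ' : P2 → ℤ}
    (hτ : Lip τ) (hτ' : Lip τ') (h : ∀ v, v ∉ Λ → v ∈ nbhd Λ → τ v = τ' v) (f : (P2 → ℤ) → V)
    (hf : ∀ a b : P2 → ℤ, (∀ v ∈ Λ, a v = b v) → f a = f b) :
    ex x Λ τ f = ex x Λ τ' f := by
  classical
  -- replace the outside
  set R : (P2 → ℤ) → (P2 → ℤ) → P2 → ℤ := fun σ a v => if v ∈ Λ then a v else σ v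
  have hR : ∀ {σ σ' : P2 → ℤ}, Lip σ' → (∀ v, v ∉ Λ → v ∈ nbhd Λ → σ v = σ' v) →
      ∀ a ∈ conf Λ σ, R σ' a ∈ conf Λ σ' := by
    intro σ σ' hσ' hn a ha
    rw [mem_conf] at *
    have val : ∀ v, v ∈ nbhd Λ → R σ' a v = a v := by
      intro v hv
      by_cases hvΛ : v ∈ Λ
      · simp [R, hvΛ]
      · simp only [R, if_neg hvΛ]
        rw [ha.2 v hvΛ, hn v hvΛ hv]
    refine ⟨fun u v huv => ?_, fun v hv => by simp [R, hv]⟩
    by_cases hu : u ∈ Λ
    · rw [val u (Or.inl hu), val v (Or.inr ⟨u, hu, huv⟩)]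
      exact ha.1 u v huv
    · by_cases hv : v ∈ Λ
      · rw [val v (Or.inl hv), val u (Or.inr ⟨v, hv, adj_symm huv⟩)]
        exact ha.1 u v huv
      · simp only [R, if_neg hu, if_neg hv]
        exact hσ' u v huv
  have hRR : ∀ {σ σ' : P2 → ℤ}, ∀ a ∈ conf Λ σ, R σ (R σ' a) = a := by
    intro σ σ' a ha
    funext v
    by_cases hv : v ∈ Λ
    · simp [R, hv]
    · simp only [R, if_neg hv]
      exact ((mem_conf.1 ha).2 v hv).symm
  -- ratio of weights is constant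
  have hCst : ∀ (a : P2 → ℤ) (u : P2), Cst a u ↔ a u = a (u.1 + 1, u.2) ∧ a u = a (u.1, u.2 + 1) :=
    fun _ _ => Iff.rfl
  have hwt : ∀ a ∈ conf Λ τ, wt x Λ (R τ' a) = wt x Λ a := by
    intro a ha
    have val : ∀ v, v ∈ nbhd Λ → R τ' a v = a v := by
      intro v hv
      by_cases hvΛ : v ∈ Λ
      · simp [R, hvΛ]
      · simp only [R, if_neg hvΛ]
        rw [(mem_conf.1 ha).2 v hvΛ, h v hvΛ hv]
    unfold wt
    refine Finset.prod_congr rfl fun u hu => ?_
    rw [mem_upT] at hu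
    have a1 := adj_e1 u
    have a2 := adj_e2 u
    have a3 := adj_e3 u
    refine tw_congr x (val _ ?_) (val _ ?_) (val _ ?_)
    · rcases hu with hu | hu | hu
      · exact Or.inl hu
      · exact Or.inr ⟨_, hu, adj_symm a1⟩
      · exact Or.inr ⟨_, hu, adj_symm a2⟩
    · rcases hu with hu | hu | hu
      · exact Or.inr ⟨_, hu, a1⟩
      · exact Or.inl hu
      · exact Or.inr ⟨_, hu, a3⟩
    · rcases hu with hu | hu | hu
      · exact Or.inr ⟨_, hu, a2⟩
      · exact Or.inr ⟨_, hu, adj_symm a3⟩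
      · exact Or.inl hu
  have m1 : ∀ a ∈ conf Λ τ, R τ' a ∈ conf Λ τ' := fun a ha => hR hτ' h a ha
  have m2 : ∀ a ∈ conf Λ τ', R τ a ∈ conf Λ τ := fun a ha =>
    hR hτ (fun v hv hn => (h v hv hn).symm) a ha
  unfold ex Z
  rw [Finset.sum_nbij' (s := conf Λ τ) (t := conf Λ τ') (f := fun a => wt x Λ a)
    (g := fun a => wt x Λ a) (R τ') (R τ) m1 m2 (fun a ha => hRR a ha) (fun a ha => hRR a ha)
    (fun a ha => (hwt a ha).symm)]
  congr 1
  refine Finset.sum_nbij' (s := conf Λ τ) (t := conf Λ τ') (f := fun a => wt x Λ a • f a)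
    (g := fun a => wt x Λ a • f a) (R τ') (R τ) m1 m2 (fun a ha => hRR a ha) (fun a ha => hRR a ha)
    fun a ha => ?_
  rw [hwt a ha, hf (R τ' a) a fun v hv => by simp [R, hv]]

end Crest.Agent.R144.It844
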