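import Crest.Agent.R144.Pst2_967
import Crest.Agent.R144.Psr1_712

/-!
# R144, plane state of the integer models (helper967), part 3: from convergence to `PlaneState`

* `lC 𝓒 = atTop ⊓ 𝓟 𝓒` for a class `𝓒` of finite volumes; `Cls 𝓒` : invariant under the automorphisms
  and with arbitrarily large members symmetric under `th`;
* `GradConv x 𝓒` : the zero boundary expectations of local gradient observables converge along `lC 𝓒`;
* `planeState_of_gradConv` : then there is `P` on `P2 → ℤ`, pinned at `0`, Lipschitz, which computes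
  all these limits, and `PlaneState (P.map toR)`.
-/

set_option autoImplicit false

noncomputable section

namespace Crest.Agent.R144.Pst967

open MeasureTheory Filter Topology
open Crest.ProbabilityR.HexHeights (Adj)
open Crest.Agent.R144.It844
open Crest.Agent.R144.Ps643 hiding P2
open scoped ComplexConjugate

/-- real heights -/
def toR (h : Hz) : Ht := fun v => (h v : ℝ)

theorem measurable_toR : Measurable toR :=
  measurable_pi_lambda _ fun v => (measurable_of_countable (fun n : ℤ => (n : ℝ))).comp (measurable_pi_apply v)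

theorem act_toR (σ : P2 → P2) (h : Hz) : act σ (toR h) = toR (actZ σ h) := rfl

/-- large volumes of the class `𝓒` -/
def lC (𝓒 : Set (Finset P2)) : Filter (Finset P2) := atTop ⊓ 𝓟 𝓒

/-- admissible classes of volumes -/
structure Cls (𝓒 : Set (Finset P2)) : Prop where
  map : ∀ σ : P2 ≃ P2, Sym σ → ∀ Λ ∈ 𝓒, Λ.map σ.toEmbedding ∈ 𝓒
  refl : ∀ S : Finset P2, ∃ Λ ∈ 𝓒, S ⊆ Λ ∧ ∀ v, Tp952.th v ∈ Λ ↔ v ∈ Λ

theorem mem_lC {𝓒 : Set (Finset P2)} {p : Set (Finset P2)} :
    p ∈ lC 𝓒 ↔ ∃ S : Finset P2, ∀ Λ ∈ 𝓒, S ⊆ Λ → Λ ∈ p := by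
  unfold lC
  rw [mem_inf_principal, mem_atTop_sets]
  constructor
  · rintro ⟨S, hS⟩
    exact ⟨S, fun Λ h1 h2 => hS Λ h2 h1⟩
  · rintro ⟨S, hS⟩
    exact ⟨S, fun Λ h2 h1 => hS Λ h1 h2⟩

variable {𝓒 : Set (Finset P2)}

theorem Cls.neBot (h : Cls 𝓒) : (lC 𝓒).NeBot := by
  rw [neBot_iff]
  intro hbot
  have h1 : (∅ : Set (Finset P2)) ∈ lC 𝓒 := by rw [hbot]; exact mem_bot
  obtain ⟨S, hS⟩ := mem_lC.1 h1
  obtain ⟨Λ, h2, h3, -⟩ := h.refl S
  exact hS Λ h2 h3

theorem Cls.tendsto_map (h : Cls 𝓒) {σ : P2 ≃ P2} (hσ : Sym σ) :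
    Tendsto (fun Λ : Finset P2 => Λ.map σ.toEmbedding) (lC 𝓒) (lC 𝓒) := by
  intro p hp
  obtain ⟨S, hS⟩ := mem_lC.1 hp
  refine mem_lC.2 ⟨S.map σ.symm.toEmbedding, fun Λ h1 h2 => hS _ (h.map σ hσ Λ h1) fun v hv => ?_⟩
  refine Finset.mem_map.2 ⟨σ.symm v, h2 (Finset.mem_map.2 ⟨v, hv, rfl⟩), by simp⟩

theorem Cls.frequently_refl (h : Cls 𝓒) : ∃ᶠ Λ in lC 𝓒, ∀ v, Tp952.th v ∈ Λ ↔ v ∈ Λ := by
  intro hc
  obtain ⟨S, hS⟩ := mem_lC.1 hc
  obtain ⟨Λ, h2, h3, h4⟩ := h.refl S
  exact hS Λ h2 h3 h4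

/-- convergence of the zero boundary laws of the gradient along the class `𝓒` -/
def GradConv (x : ℝ) (𝓒 : Set (Finset P2)) : Prop :=
  ∀ F : Hz → ℝ, GObs F → ∃ a, Tendsto (fun Λ => ex x Λ (fun _ => 0) F) (lC 𝓒) (𝓝 a)

/-- `P` is the limit of the zero boundary laws -/
def ZeroLim (x : ℝ) (𝓒 : Set (Finset P2)) (P : Measure Hz) : Prop :=
  ∀ F : Hz → ℝ, GObs F → Tendsto (fun Λ => ex x Λ (fun _ => 0) F) (lC 𝓒) (𝓝 (∫ h, F h ∂P))

theorem lip_zero : Lip (fun _ : P2 => (0 : ℤ)) := lip_const 0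

/-- **existence of the limit measure** -/
theorem exists_zeroLim {x : ℝ} (hx : 0 < x) (h𝓒 : Cls 𝓒) (h : GradConv x 𝓒) :
    ∃ P : Measure Hz, PinnedZ P ∧ ZeroLim x 𝓒 P := by
  have hne := h𝓒.neBot
  obtain ⟨P, h1, h2⟩ := exists_limit (lC 𝓒) (fun Λ => mu x Λ (fun _ => 0))
    (fun Λ => isProb_mu hx lip_zero) (fun Λ => lip_mu x Λ _) (fun F hF => by
      obtain ⟨a, ha⟩ := h F hF
      exact ⟨a, by simpa only [integral_mu hx lip_zero] using ha⟩)
  refine ⟨P, h1, fun F hF => ?_⟩
  have := h2 F hF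
  simpa only [integral_mu hx lip_zero] using this

/-! ### invariance of the limit -/

theorem GObs.actZ {β : Type*} {F : Hz → β} (hF : GObs F) (σ : P2 ≃ P2) :
    GObs (fun h => F (actZ σ h)) := by
  classical
  obtain ⟨⟨S, hS⟩, hN⟩ := hF
  refine ⟨⟨S.map σ.toEmbedding, fun h g hg => hS _ _ fun v hv => ?_⟩, fun h c => ?_⟩
  · refine hg _ ?_
    rw [Finset.coe_map]
    exact ⟨v, hv, rfl⟩
  · exact hN (Pst967.actZ σ h) c

theorem GObs.neg {β : Type*} {F : Hz → β} (hF : GObs F) : GObs (fun h => F (fun v => - h v)) := by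
  obtain ⟨⟨S, hS⟩, hN⟩ := hF
  refine ⟨⟨S, fun h g hg => hS _ _ fun v hv => ?_⟩, fun h c => ?_⟩
  · rw [hg v hv]
  · have := hN (fun v => - h v) (-c)
    rw [← this]
    congr 1
    funext v
    ring

theorem ZeroLim.map {x : ℝ} (h𝓒 : Cls 𝓒) {P : Measure Hz} (hP : ZeroLim x 𝓒 P) {σ : P2 ≃ P2}
    (hσ : Sym σ) {F : Hz → ℝ} (hF : GObs F) : ∫ h, F (actZ σ h) ∂P = ∫ h, F h ∂P := by
  have hne := h𝓒.neBot
  have h1 := (hP _ (hF.actZ σ)).comp (h𝓒.tendsto_map hσ)
  have h2 := hP F hF
  refine tendsto_nhds_unique h1 ?_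
  refine h2.congr fun Λ => ?_
  exact (ex_map x hσ Λ F).symm

theorem ZeroLim.neg {x : ℝ} (h𝓒 : Cls 𝓒) {P : Measure Hz} (hP : ZeroLim x 𝓒 P)
    {F : Hz → ℝ} (hF : GObs F) : ∫ h, F (fun v => - h v) ∂P = ∫ h, F h ∂P := by
  have hne := h𝓒.neBot
  refine tendsto_nhds_unique (hP _ hF.neg) ?_
  refine (hP F hF).congr fun Λ => ?_
  exact (ex_neg0 x Λ F).symm

theorem ZeroLim.unique {x : ℝ} (h𝓒 : Cls 𝓒) {P Q : Measure Hz} (hP : ZeroLim x 𝓒 P)
    (hQ : ZeroLim x 𝓒 Q) {F : Hz → ℝ} (hF : GObs F) : ∫ h, F h ∂P = ∫ h, F h ∂Q := by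
  have hne := h𝓒.neBot
  exact tendsto_nhds_unique (hP F hF) (hQ F hF)

theorem gobs_of_obs {F : Ht → ℝ} (hF : Obs F) : GObs (fun h : Hz => F (toR h)) := by
  obtain ⟨S, hS⟩ := hF.loc
  refine ⟨⟨S, fun h g hg => hS _ _ fun v hv => ?_⟩, fun h c => ?_⟩
  · unfold toR
    rw [hg v hv]
  · have := hF.neut (toR h) (c : ℝ)
    rw [← this]
    congr 1
    funext v
    unfold toR
    push_cast
    ring

theorem re_ex (x : ℝ) (Λ : Finset P2) (τ : Hz) (f : Hz → ℂ) :
    (ex x Λ τ f).re = ex x Λ τ (fun h => (f h).re) := by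
  unfold ex
  rw [Complex.real_smul, Complex.re_ofReal_mul, smul_eq_mul, Complex.re_sum]
  congr 1
  refine Finset.sum_congr rfl fun h _ => ?_
  rw [Complex.real_smul, Complex.re_ofReal_mul, smul_eq_mul]

/-- **the plane state of the integer model** -/
theorem ZeroLim.planeState {x : ℝ} (hx : 0 < x) (h𝓒 : Cls 𝓒) {P : Measure Hz} (hZ : PinnedZ P)
    (hP : ZeroLim x 𝓒 P) : PlaneState (P.map toR) := by
  have hne := h𝓒.neBot
  have hpr := hZ.prob
  have hint : ∀ F : Ht → ℝ, Measurable F → ∫ h, F h ∂(P.map toR) = ∫ h, F (toR h) ∂P := fun F hF =>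
    integral_map measurable_toR.aemeasurable hF.aestronglyMeasurable
  have hm : ∀ σ : P2 → P2, Measurable (act σ : Ht → Ht) := fun σ =>
    measurable_pi_lambda _ fun v => measurable_pi_apply _
  have hobs : ∀ (σ : P2 ≃ P2), Sym σ → ∀ F : Ht → ℝ, Obs F →
      ∫ h, F (act σ h) ∂(P.map toR) = ∫ h, F h ∂(P.map toR) := by
    intro σ hσ F hF
    rw [hint _ hF.meas, hint (fun h => F (act σ h)) (hF.meas.comp (hm σ))]
    exact hP.map h𝓒 hσ (gobs_of_obs hF)
  refine { prob := Measure.isProbabilityMeasure_map measurable_toR.aemeasurable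
           zero := ?_, lip := ?_, tr := ?_, swap := ?_, theta := ?_, neg := ?_, rp := ?_ }
  · have h1 : MeasurableSet {h : Ht | h 0 = 0} := (measurable_pi_apply 0) (measurableSet_singleton 0)
    refine (ae_map_iff measurable_toR.aemeasurable h1).2 ?_
    filter_upwards [hZ.zero] with h hh
    simp only [toR, hh, Int.cast_zero]
  · have h1 : MeasurableSet {h : Ht | ∀ u v, Adj u v → |h u - h v| ≤ 1} := by
      have : {h : Ht | ∀ u v, Adj u v → |h u - h v| ≤ 1} =
          ⋂ u : P2, ⋂ v : P2, {h : Ht | Adj u v → |h u - h v| ≤ 1} := by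
        ext h; simp
      rw [this]
      refine MeasurableSet.iInter fun u => MeasurableSet.iInter fun v => ?_
      by_cases huv : Adj u v
      · have e : {h : Ht | Adj u v → |h u - h v| ≤ 1} = {h : Ht | |h u - h v| ≤ 1} := by
          ext h; simp [huv]
        rw [e]
        exact measurableSet_le (((measurable_pi_apply u).sub (measurable_pi_apply v)).abs) measurable_const
      · have e : {h : Ht | Adj u v → |h u - h v| ≤ 1} = Set.univ := by
          ext h; simp [huv]
        rw [e]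
        exact MeasurableSet.univ
    refine (ae_map_iff measurable_toR.aemeasurable h1).2 ?_
    filter_upwards [hZ.lip] with h hh u v huv
    have := hh u v huv
    have e : |toR h u - toR h v| = ((|h u - h v| : ℤ) : ℝ) := by
      unfold toR; push_cast; rfl
    rw [e]
    exact_mod_cast this
  · intro a F hF
    exact hobs (trE a) (sym_trE a) F hF
  · intro F hF
    exact hobs swE sym_swE F hF
  · intro F hF
    exact hobs thE sym_thE F hF
  · intro F hF
    have h1 : Measurable fun h : Ht => (fun v => - h v : Ht) :=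
      measurable_pi_lambda _ fun v => (measurable_pi_apply v).neg
    rw [hint _ hF.meas, hint (fun h => F (fun v => - h v)) (hF.meas.comp h1)]
    rw [← hP.neg h𝓒 (gobs_of_obs hF)]
    refine integral_congr_ae (Eventually.of_forall fun h => ?_)
    simp only
    congr 1
    funext v
    simp only [toR, Int.cast_neg]
  · intro α F hFm hFb hFc hFl
    obtain ⟨C, hC⟩ := hFb
    obtain ⟨S, hS0, hS⟩ := hFl
    -- the integrand
    set G : Ht → ℂ := fun h => conj (F (act Tp952.th h)) * F h with hG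
    have hGm : Measurable G := by
      refine Measurable.mul ?_ hFm
      exact (Complex.continuous_conj.measurable).comp (hFm.comp (hm _))
    have hGb : ∀ h, ‖G h‖ ≤ C * C := by
      intro h
      rw [hG]
      simp only [norm_mul, RCLike.norm_conj]
      exact mul_le_mul (hC _) (hC _) (norm_nonneg _) ((norm_nonneg _).trans (hC 0))
    have hGn : ∀ (h : Ht) (c : ℝ), G (fun v => h v + c) = G h := by
      intro h c
      have h1 := hFc h c
      have h2 := hFc (act Tp952.th h) c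
      simp only [hG]
      have e : act Tp952.th (fun v => h v + c) = fun v => act Tp952.th h v + c := rfl
      rw [e, h1, h2, map_mul, ← Complex.exp_conj, map_mul, Complex.conj_I, Complex.conj_ofReal]
      have : Complex.exp (-Complex.I * (α * c : ℝ)) * conj (F (act Tp952.th h)) *
          (Complex.exp (Complex.I * (α * c : ℝ)) * F h) =
          (Complex.exp (-Complex.I * (α * c : ℝ)) * Complex.exp (Complex.I * (α * c : ℝ))) *
            (conj (F (act Tp952.th h)) * F h) := by ring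
      rw [this, ← Complex.exp_add]
      have e2 : -Complex.I * ((α * c : ℝ) : ℂ) + Complex.I * ((α * c : ℝ) : ℂ) = 0 := by ring
      rw [e2, Complex.exp_zero, one_mul]
    have hGl : ∃ T : Finset P2, Loc (T : Set P2) G := by
      classical
      refine ⟨S ∪ S.image Tp952.th, fun h g hg => ?_⟩
      have h1 : F h = F g := hS h g fun v hv => hg v (by
        rw [Finset.coe_union]; exact Or.inl hv)
      have h2 : F (act Tp952.th h) = F (act Tp952.th g) := hS _ _ fun v hv => hg _ (by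
        rw [Finset.coe_union, Finset.coe_image]; exact Or.inr ⟨v, hv, rfl⟩)
      simp only [hG, h1, h2]
    have hobsG : Obs (fun h => (G h).re) :=
      { meas := Complex.measurable_re.comp hGm
        bdd := ⟨C * C, fun h => (Complex.abs_re_le_norm _).trans (hGb h)⟩
        loc := by
          obtain ⟨T, hT⟩ := hGl
          exact ⟨T, fun h g hg => by simp only [hT h g hg]⟩
        neut := fun h c => by simp only [hGn h c] }
    have hI : Integrable G (P.map toR) := by
      have : IsProbabilityMeasure (P.map toR) :=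
        Measure.isProbabilityMeasure_map measurable_toR.aemeasurable
      exact Integrable.of_bound hGm.aestronglyMeasurable (C * C) (Eventually.of_forall hGb)
    have hre : (∫ h, G h ∂(P.map toR)).re = ∫ h, (G h).re ∂(P.map toR) := by
      have := integral_re hI (𝕜 := ℂ)
      simpa using this.symm
    rw [hre, hint _ hobsG.meas]
    refine ge_of_tendsto_of_frequently (hP _ (gobs_of_obs hobsG)) ?_
    refine h𝓒.frequently_refl.mono fun Λ hΛ => ?_
    have h3 := Psr712.rp_ex hx.le hΛ (fun h : Hz => F (toR h)) (fun h g hg => hS _ _ fun v hv => by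
      unfold toR
      rw [hg v (hS0 v hv)])
    rw [re_ex] at h3
    exact h3

/-- **main statement of part 3** -/
theorem planeState_of_gradConv {x : ℝ} (hx : 0 < x) (h𝓒 : Cls 𝓒) (h : GradConv x 𝓒) :
    ∃ P : Measure Hz, PinnedZ P ∧ ZeroLim x 𝓒 P ∧ PlaneState (P.map toR) := by
  obtain ⟨P, h1, h2⟩ := exists_zeroLim hx h𝓒 h
  exact ⟨P, h1, h2, h2.planeState hx h𝓒 h1⟩

end Crest.Agent.R144.Pst967
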