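import Crest.Agent.R144.Ccw4_435
import Crest.Agent.R144.Pst3_967
import Crest.Agent.R144.Ga2a_617

/-!
# R144, closed-contour Ward identity (doc 1620), step (A2): interfaces

* `lift` : an integer charged functional is the restriction of an admissible real functional;
* `a1_of_real` : the product estimate for real admissible functionals gives the one for integer ones;
* `dens` : the density ratio `P(pattern | contour) / P(pattern)`; `sum_hi_le`;
* `dens_of_ui` : `P(B) ≤ η + C (P ⊗ P)(B)` gives `P(2C < density ratio) ≤ 2 η`;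
* `joint_seq` : step (A2) for sequences.
-/

set_option autoImplicit false

noncomputable section

namespace Crest.Agent.R144.Ccw435

open MeasureTheory Filter Topology Finset
open Crest.ProbabilityR.HexHeights (Adj)
open Crest.Agent.R144.It844 Crest.Agent.R144.Pst967
open Crest.Agent.R144.Ps643 (Ht Loc Chg)
open Crest.Agent.R144.Ga2617 (Fn)

/-! ### integer functionals are restrictions of real functionals -/

/-- nearest integer heights relative to the base point -/
def rd (s0 : P2) (h : Ht) : Hz := fun v => round (h v - h s0)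

theorem rd_toR (s0 : P2) (h : Hz) : rd s0 (toR h) = fun v => h v + -h s0 := by
  funext v
  unfold rd toR
  rw [← Int.cast_sub, round_intCast, sub_eq_add_neg]

/-- real extension of an integer functional of charge `α` -/
def lift (α : ℝ) (s0 : P2) (Z : Hz → ℂ) (h : Ht) : ℂ :=
  Complex.exp (Complex.I * (α * h s0 : ℝ)) * Z (rd s0 h)

theorem lift_toR {α : ℝ} {s0 : P2} {Z : Hz → ℂ} (hZ : ChgZ α Z) (h : Hz) :
    lift α s0 Z (toR h) = Z h := by
  unfold lift
  rw [rd_toR, hZ h (-h s0), ← mul_assoc, ← Complex.exp_add]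
  have : Complex.I * ((α * toR h s0 : ℝ) : ℂ) + Complex.I * ((α * ((-h s0 : ℤ) : ℝ) : ℝ) : ℂ) = 0 := by
    unfold toR
    push_cast
    ring
  rw [this, Complex.exp_zero, one_mul]

theorem norm_lift_le {α : ℝ} {s0 : P2} {Z : Hz → ℂ} (hZ : ∀ h, ‖Z h‖ ≤ 1) (h : Ht) :
    ‖lift α s0 Z h‖ ≤ 1 := by
  unfold lift
  rw [norm_mul, mul_comm Complex.I, Complex.norm_exp_ofReal_mul_I, one_mul]
  exact hZ _

theorem measurable_rd (s0 : P2) : Measurable (rd s0) := by
  refine measurable_pi_lambda _ fun v => ?_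
  have h1 : Measurable fun h : Ht => h v - h s0 :=
    (measurable_pi_apply v).sub (measurable_pi_apply s0)
  have h2 : (fun h : Ht => rd s0 h v) = fun h => ⌊(h v - h s0) + 1 / 2⌋ := by
    funext h; unfold rd; rw [round_eq]
  rw [h2]
  exact Int.measurable_floor.comp (h1.add_const _)

theorem fn_lift {α : ℝ} {S : Finset P2} {s0 : P2} (hs : s0 ∈ S) {Z : Hz → ℂ}
    (hl : LocZ (S : Set P2) Z) (hZ : ∀ h, ‖Z h‖ ≤ 1) :
    Fn (S : Set P2) α (lift α s0 Z) where
  meas := by
    unfold lift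
    have h1 : Measurable fun h : Ht => Complex.exp (Complex.I * (α * h s0 : ℝ)) := by
      have h0 : Measurable fun h : Ht => h s0 := measurable_pi_apply s0
      have : Measurable fun h : Ht => ((α * h s0 : ℝ) : ℂ) :=
        Complex.measurable_ofReal.comp (h0.const_mul α)
      exact (this.const_mul Complex.I).cexp
    exact h1.mul ((measurable_of_loc ⟨S, hl⟩).comp (measurable_rd s0))
  loc := by
    intro h g hg
    unfold lift
    have e0 := hg s0 (by exact hs)
    rw [e0]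
    congr 1
    refine hl _ _ fun v hv => ?_
    unfold rd
    rw [hg v hv, e0]
  chg := by
    intro h c
    unfold lift
    have e1 : rd s0 (fun v => h v + c) = rd s0 h := by
      funext v
      unfold rd
      congr 1; ring
    rw [e1, ← mul_assoc, ← Complex.exp_add]
    congr 2
    push_cast
    ring
  bdd := ⟨1, fun h _ => norm_lift_le hZ h⟩

/-- the product estimate for integer functionals from the one for real admissible functionals -/
theorem a1_of_real {P : Measure Hz} {L S2 : Finset P2} (hL : L.Nonempty) (hS2 : S2.Nonempty)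
    {X : Hz → ℝ} {XR : Ht → ℝ} (hXR : Measurable XR) (hX : ∀ h, XR (toR h) = X h) {ε : ℝ}
    (hR : ∀ (α : ℝ) (Z1 Z2 : Ht → ℂ), Fn (L : Set P2) (-α) Z1 → Fn (S2 : Set P2) α Z2 →
      (∀ h, ‖Z1 h‖ ≤ 1) → (∀ h, ‖Z2 h‖ ≤ 1) →
      ‖∫ h, (XR h : ℂ) * Z1 h * Z2 h ∂(P.map toR)‖ ≤ ε) :
    ∀ (α : ℝ) (Z1 Z2 : Hz → ℂ), LocZ (L : Set P2) Z1 → LocZ (S2 : Set P2) Z2 →
      ChgZ (-α) Z1 → ChgZ α Z2 → (∀ h, ‖Z1 h‖ ≤ 1) → (∀ h, ‖Z2 h‖ ≤ 1) →
      ‖∫ h, (X h : ℂ) * Z1 h * Z2 h ∂P‖ ≤ ε := by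
  intro α Z1 Z2 l1 l2 c1 c2 n1 n2
  obtain ⟨s1, hs1⟩ := hL
  obtain ⟨s2, hs2⟩ := hS2
  have f1 : Fn (L : Set P2) (-α) (lift (-α) s1 Z1) := fn_lift hs1 l1 n1
  have f2 : Fn (S2 : Set P2) α (lift α s2 Z2) := fn_lift hs2 l2 n2
  have h := hR α _ _ f1 f2 (norm_lift_le n1) (norm_lift_le n2)
  rw [integral_map measurable_toR.aemeasurable] at h
  · simp only [lift_toR c1, lift_toR c2, hX] at h
    exact h
  · exact (((Complex.measurable_ofReal.comp hXR).mul f1.meas).mul f2.meas).aestronglyMeasurable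

/-! ### the density of the pattern with respect to the contour -/

section Dens

variable {x : ℝ} {P : Measure Hz} {Λ S1 L S2 T : Finset P2} {o b : P2}

/-- mass of a pattern -/
theorem integral_qq (hP : PinnedZ P) (hD : DLR x P) (a : S1 → ℤ) :
    ∫ h, qq x Λ o S1 a h ∂P = P.real {g | pat o S1 g = a} := by
  classical
  have := hP.prob
  have hg : GObs (ind o S1 a) :=
    ⟨⟨S1 ∪ {o}, by push_cast; exact ind_loc o S1 a⟩, ind_neut o S1 a⟩
  have h1 : ∫ h, qq x Λ o S1 a h ∂P = ∫ h, ex x Λ h (ind o S1 a) ∂P := by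
    refine integral_congr_ae ?_
    filter_upwards [hP.lip] with h hh using qq_eq hh
  rw [h1, ← hD Λ _ hg]
  have hm : MeasurableSet {g : Hz | pat o S1 g = a} := by
    have : Measurable (pat o S1) := by
      refine measurable_pi_lambda _ fun v => ?_
      exact (measurable_pi_apply _).sub (measurable_pi_apply _)
    exact this (measurableSet_singleton a)
  have h2 : ind o S1 a = Set.indicator {g : Hz | pat o S1 g = a} 1 := by
    funext g
    unfold ind
    simp only [Set.indicator_apply, Set.mem_ofPred_eq, Pi.one_apply]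
  rw [h2, integral_indicator_one hm]

open Classical in
/-- the event that the density ratio is larger than `C` -/
def big (x : ℝ) (P : Measure Hz) (Λ : Finset P2) (o : P2) (S1 : Finset P2) (C : ℝ) : Set Hz :=
  {h | C * P.real {g | pat o S1 g = pat o S1 h} < ex x Λ h (ind o S1 (pat o S1 h))}

/-- a sum over patterns is an integral at the true pattern -/
theorem sum_pat (hP : PinnedZ P) (hD : DLR x P) (hS1 : S1 ⊆ Λ) (hL : nbhd Λ ⊆ Λ ∪ L)
    (ho : o ∈ L) (hLΛ : Disjoint L Λ) (B : (S1 → ℤ) → Hz → Prop)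
    (hB : ∀ a, LocZ (L : Set P2) (B a)) (hBn : ∀ a, NeutZ (B a)) :
    haveI : ∀ a h, Decidable (B a h) := fun _ _ => Classical.dec _
    ∑ a ∈ pats o S1, ∫ h, (if B a h then qq x Λ o S1 a h else 0) ∂P
      = P.real {h | B (pat o S1 h) h} := by
  classical
  have := hP.prob
  have hoΛ : o ∉ Λ := fun h => (Finset.disjoint_left.1 hLΛ ho) h
  -- the functional
  set F : Hz → ℝ := fun h => if B (pat o S1 h) h then 1 else 0 with hF
  have hFl : LocZ ((S1 : Set P2) ∪ L) F := by
    intro h g hg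
    have e1 : pat o S1 h = pat o S1 g := pat_loc o S1 h g fun v hv => by
      rcases hv with hv | hv
      · exact hg v (Or.inl hv)
      · rw [Set.mem_singleton_iff.1 hv]; exact hg o (Or.inr ho)
    have e2 : B (pat o S1 g) h = B (pat o S1 g) g := hB _ h g fun v hv => hg v (Or.inr hv)
    simp only [hF, e1, e2]
  have hFn : NeutZ F := by
    intro h c
    have e1 := pat_neut o S1 h c
    have e2 := hBn (pat o S1 h) h c
    simp only [hF, e1, e2]
  have hFg : GObs F := ⟨⟨S1 ∪ L, by push_cast; exact hFl⟩, hFn⟩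
  have hpm : Measurable (pat o S1) := by
    refine measurable_pi_lambda _ fun v => ?_
    exact (measurable_pi_apply _).sub (measurable_pi_apply _)
  have hFm : Measurable F := measurable_of_loc hFg.loc
  have hm : MeasurableSet {h : Hz | B (pat o S1 h) h} := by
    have : {h : Hz | B (pat o S1 h) h} = F ⁻¹' {1} := by
      ext h
      simp only [Set.mem_ofPred_eq, Set.mem_preimage, Set.mem_singleton_iff, hF]
      split_ifs with h1
      · simp [h1]
      · simp [h1]
    rw [this]; exact hFm (measurableSet_singleton 1)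
  have h2 : F = Set.indicator {h : Hz | B (pat o S1 h) h} 1 := by
    funext g
    simp only [hF, Set.indicator_apply, Set.mem_ofPred_eq, Pi.one_apply]
  have h3 : P.real {h | B (pat o S1 h) h} = ∫ h, F h ∂P := by
    rw [h2, integral_indicator_one hm]
  have hqi : ∀ a ∈ pats o S1, Integrable (fun h => if B a h then qq x Λ o S1 a h else 0) P := by
    intro a _
    refine integrable_gobs ⟨⟨L, ?_⟩, ?_⟩ hP.lip
    · intro h g hg
      have e2 : B a h = B a g := hB _ h g hg
      have e3 := qq_loc x hL hS1 ho a h g hg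
      simp only [e2, e3]
    · intro h c
      have e2 := hBn a h c
      have e3 := qq_neut x (Λ := Λ) (o := o) a h c
      simp only [e2, e3]
  rw [h3, hD Λ F hFg, ← integral_finsetSum _ hqi]
  refine integral_congr_ae ?_
  filter_upwards [hP.lip] with h hh
  have e1 : ex x Λ h F = ex x Λ h (fun g => ∑ a ∈ pats o S1, ind o S1 a g * (if B a h then 1 else 0)) := by
    refine ex_congr fun g hg => ?_
    obtain ⟨hgl, hgo⟩ := mem_conf.1 hg
    unfold ind
    simp only [ite_mul, one_mul, zero_mul]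
    rw [Finset.sum_ite_eq, if_pos (pat_mem hgl)]
    have e2 : B (pat o S1 g) g = B (pat o S1 g) h := hB _ g h fun v hv =>
      hgo v fun hv' => (Finset.disjoint_left.1 hLΛ hv) hv'
    simp only [hF, e2]
  rw [e1, ex_sum_mul]
  refine Finset.sum_congr rfl fun a _ => ?_
  rw [qq_eq hh]
  split_ifs <;> simp

/-- the input of `joint` from the density ratio -/
theorem sum_hi_le (hP : PinnedZ P) (hD : DLR x P) (hS1 : S1 ⊆ Λ) (hL : nbhd Λ ⊆ Λ ∪ L)
    (ho : o ∈ L) (hLΛ : Disjoint L Λ) (C : ℝ) :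
    ∑ a ∈ pats o S1, ∫ h, (if C * (∫ h', qq x Λ o S1 a h' ∂P) < qq x Λ o S1 a h then
      qq x Λ o S1 a h else 0) ∂P = P.real (big x P Λ o S1 C) := by
  classical
  have h := sum_pat (x := x) hP hD hS1 hL ho hLΛ
    (fun a h => C * (∫ h', qq x Λ o S1 a h' ∂P) < qq x Λ o S1 a h)
    (fun a h g hg => by
      have e3 := qq_loc x hL hS1 ho a h g hg
      simp only [e3])
    (fun a h c => by
      have e3 := qq_neut x (Λ := Λ) (o := o) a h c
      simp only [e3])
  have h' : P.real {h | C * (∫ h', qq x Λ o S1 (pat o S1 h) h' ∂P) < qq x Λ o S1 (pat o S1 h) h}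
      = P.real (big x P Λ o S1 C) := by
    refine measureReal_congr ?_
    filter_upwards [hP.lip] with g hg
    refine propext ?_
    show (C * (∫ h', qq x Λ o S1 (pat o S1 g) h' ∂P) < qq x Λ o S1 (pat o S1 g) g) ↔ g ∈ big x P Λ o S1 C
    unfold big
    rw [Set.mem_ofPred_eq, qq_eq hg, integral_qq hP hD]
  rw [← h']
  refine Eq.trans ?_ h
  refine Finset.sum_congr rfl fun a _ => integral_congr_ae (ae_of_all _ fun g => ?_)
  simp only

theorem ui_aux (hP : PinnedZ P) (hD : DLR x P) (hS1 : S1 ⊆ Λ) (hL : nbhd Λ ⊆ Λ ∪ L)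
    (ho : o ∈ L) (hLΛ : Disjoint L Λ) {C : ℝ} (hC : 0 < C)
    (B : (S1 → ℤ) → Hz → Prop) (hBl : ∀ a, LocZ (L : Set P2) (B a)) (hBn : ∀ a, NeutZ (B a))
    (hBq : ∀ a h, B a h → C * (∫ h', qq x Λ o S1 a h' ∂P) ≤ qq x Λ o S1 a h) :
    ∑ a ∈ pats o S1, P.real {g | pat o S1 g = a} * P.real {h | B a h}
      ≤ C⁻¹ * P.real {h | B (pat o S1 h) h} := by
  classical
  have := hP.prob
  have h1 := sum_pat (x := x) hP hD hS1 hL ho hLΛ B hBl hBn
  rw [← h1, Finset.mul_sum]
  refine Finset.sum_le_sum fun a _ => ?_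
  rw [← integral_qq hP hD a]
  have hg1 : GObs (fun h => if B a h then (1 : ℝ) else 0) := by
    refine ⟨⟨L, ?_⟩, ?_⟩
    · intro h g hg
      have e2 := hBl a h g hg
      simp only [e2]
    · intro h c
      have e2 := hBn a h c
      simp only [e2]
  have hm : MeasurableSet {h : Hz | B a h} := by
    have : {h : Hz | B a h} = (fun h => if B a h then (1 : ℝ) else 0) ⁻¹' {1} := by
      ext h
      simp only [Set.mem_ofPred_eq, Set.mem_preimage, Set.mem_singleton_iff]
      split_ifs with h1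
      · simp [h1]
      · simp [h1]
    rw [this]; exact (measurable_of_loc hg1.loc) (measurableSet_singleton 1)
  have h6 : P.real {h | B a h} = ∫ h, (if B a h then (1 : ℝ) else 0) ∂P := by
    rw [← integral_indicator_one hm]
    refine integral_congr_ae (ae_of_all _ fun g => ?_)
    simp only [Set.indicator_apply, Set.mem_ofPred_eq, Pi.one_apply]
  rw [h6, ← integral_const_mul, ← integral_const_mul]
  have hi2 : Integrable (fun h => (if B a h then qq x Λ o S1 a h else 0)) P := by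
    refine integrable_gobs ⟨⟨L, ?_⟩, ?_⟩ hP.lip
    · intro h g hg
      have e2 := hBl a h g hg
      have e3 := qq_loc x hL hS1 ho a h g hg
      simp only [e2, e3]
    · intro h c
      have e2 := hBn a h c
      have e3 := qq_neut x (Λ := Λ) (o := o) a h c
      simp only [e2, e3]
  refine integral_mono ((integrable_gobs hg1 hP.lip).const_mul _) (hi2.const_mul _) fun h => ?_
  simp only
  split_ifs with hb
  · have hb' := hBq a h hb
    rw [mul_one, ← div_eq_inv_mul, le_div_iff₀ (by positivity)]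
    linarith
  · simp

/-- the density ratio is controlled by the `UI` form `P(B) ≤ η + C (P ⊗ P)(B)` -/
theorem big_of_ui (hP : PinnedZ P) (hD : DLR x P) (hS1 : S1 ⊆ Λ) (hL : nbhd Λ ⊆ Λ ∪ L)
    (ho : o ∈ L) (hLΛ : Disjoint L Λ) {C η : ℝ} (hC : 0 < C)
    (hUI : ∀ B : (S1 → ℤ) → Hz → Prop, (∀ a, LocZ (L : Set P2) (B a)) → (∀ a, NeutZ (B a)) →
      P.real {h | B (pat o S1 h) h} ≤ η + C * ∑ a ∈ pats o S1,
        P.real {g | pat o S1 g = a} * P.real {h | B a h}) :
    P.real (big x P Λ o S1 (2 * C)) ≤ 2 * η := by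
  classical
  have := hP.prob
  set B : (S1 → ℤ) → Hz → Prop := fun a h => 2 * C * (∫ h', qq x Λ o S1 a h' ∂P) < qq x Λ o S1 a h
    with hB
  have hBl : ∀ a, LocZ (L : Set P2) (B a) := fun a h g hg => by
    have e3 := qq_loc x hL hS1 ho a h g hg
    simp only [hB, e3]
  have hBn : ∀ a, NeutZ (B a) := fun a h c => by
    have e3 := qq_neut x (Λ := Λ) (o := o) a h c
    simp only [hB, e3]
  have h2 : P.real {h | B (pat o S1 h) h} = P.real (big x P Λ o S1 (2 * C)) := by
    refine measureReal_congr ?_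
    filter_upwards [hP.lip] with g hg
    refine propext ?_
    show (2 * C * (∫ h', qq x Λ o S1 (pat o S1 g) h' ∂P) < qq x Λ o S1 (pat o S1 g) g)
      ↔ g ∈ big x P Λ o S1 (2 * C)
    unfold big
    rw [Set.mem_ofPred_eq, qq_eq hg, integral_qq hP hD]
  have h3 := hUI B hBl hBn
  have h4 := ui_aux hP hD hS1 hL ho hLΛ (C := 2 * C) (by positivity) B hBl hBn
    (fun a h hb => le_of_lt hb)
  rw [h2] at h3 h4
  have h5 : C * ∑ a ∈ pats o S1, P.real {g | pat o S1 g = a} * P.real {h | B a h}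
      ≤ P.real (big x P Λ o S1 (2 * C)) / 2 := by
    refine (mul_le_mul_of_nonneg_left h4 hC.le).trans (le_of_eq ?_)
    field_simp
  linarith

end Dens

/-! ### sequences -/

/-- **Step (A2) for sequences**: if the product functionals of (contour `L n`, patch `S2 n`) are killed
by `X n`, the density ratio of the patch `S1 n` with respect to the contour is tight and the relative
heights are tight, then the joint functionals of `S1 n ∪ S2 n` are killed, uniformly. -/
theorem joint_seq {x : ℝ} (hx : 0 < x) {P : Measure Hz} (hP : PinnedZ P) (hD : DLR x P)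
    {Λ S1 L S2 T : ℕ → Finset P2} {o b : ℕ → P2} (ho : ∀ n, o n ∈ L n)
    (hLΛ : ∀ n, Disjoint (L n) (Λ n)) (hb : ∀ n, b n ∈ S2 n) (hS1 : ∀ n, S1 n ⊆ Λ n)
    (hL : ∀ n, nbhd (Λ n) ⊆ Λ n ∪ L n) (hS2 : ∀ n, Disjoint (S2 n) (Λ n))
    (hT : ∀ n, Disjoint (T n) (Λ n)) {X : ℕ → Hz → ℝ} (hX : ∀ n, LocZ (T n : Set P2) (X n))
    (hXn : ∀ n, NeutZ (X n)) {V : ℝ} (hV : ∀ n, ∫ h, X n h ^ 2 ∂P ≤ V)
    (hDens : ∀ η > 0, ∃ C : ℝ, 0 < C ∧ ∀ᶠ n in atTop,
      P.real (big x P (Λ n) (o n) (S1 n) C) ≤ η)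
    (hTight : ∀ η > 0, ∃ M : ℕ, ∀ᶠ n in atTop, P.real {h | (M : ℤ) < |h (b n) - h (o n)|} ≤ η)
    (hA1 : ∀ ε > 0, ∀ᶠ n in atTop, ∀ (α : ℝ) (Z1 Z2 : Hz → ℂ), LocZ (L n : Set P2) Z1 →
      LocZ (S2 n : Set P2) Z2 → ChgZ (-α) Z1 → ChgZ α Z2 → (∀ h, ‖Z1 h‖ ≤ 1) →
      (∀ h, ‖Z2 h‖ ≤ 1) → ‖∫ h, (X n h : ℂ) * Z1 h * Z2 h ∂P‖ ≤ ε) :
    ∀ ε > 0, ∀ᶠ n in atTop, ∀ Y : Hz → ℝ, LocZ ((S1 n : Set P2) ∪ S2 n) Y → NeutZ Y →
      (∀ h, |Y h| ≤ 1) → |∫ h, X n h * Y h ∂P| ≤ ε := by
  intro ε hε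
  have hV0 : 0 ≤ V := (integral_nonneg fun h => sq_nonneg _).trans (hV 0)
  -- choose η
  obtain ⟨η, hη, hηε⟩ : ∃ η : ℝ, 0 < η ∧ √V * (√η + √η) ≤ ε / 2 := by
    refine ⟨(ε / (4 * (√V + 1))) ^ 2, by positivity, ?_⟩
    have h1 : 0 ≤ √V := Real.sqrt_nonneg V
    rw [Real.sqrt_sq (by positivity)]
    have h2 : √V * (ε / (4 * (√V + 1)) + ε / (4 * (√V + 1))) = (√V / (√V + 1)) * (ε / 2) := by
      field_simp; ring
    rw [h2]
    have h3 : √V / (√V + 1) ≤ 1 := by rw [div_le_one (by positivity)]; linarith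
    nlinarith
  obtain ⟨C, hC, hCn⟩ := hDens η hη
  obtain ⟨M, hMn⟩ := hTight η hη
  have hε' : 0 < ε / (2 * (C * (2 * M + 1))) := by positivity
  filter_upwards [hCn, hMn, hA1 _ hε'] with n h1 h2 h3 Y hY hYn hY1
  have main := joint (η := η) hx hP hD (ho n) (hLΛ n) (hb n) (hS1 n) (hL n) (hS2 n) (hT n) (hX n)
    (hXn n) hY hYn hY1 M hC hε'.le
    (by rw [sum_hi_le hP hD (hS1 n) (hL n) (ho n) (hLΛ n)]; exact h1) h3
  refine main.trans ?_
  have e1 : C * ((2 * M + 1) * (ε / (2 * (C * (2 * M + 1))))) = ε / 2 := by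
    field_simp
  rw [e1]
  have e2 : √(∫ h, X n h ^ 2 ∂P) ≤ √V := Real.sqrt_le_sqrt (hV n)
  have e3 : √(P.real {h | (M : ℤ) < |h (b n) - h (o n)|}) ≤ √η := Real.sqrt_le_sqrt h2
  have e4 : √(∫ h, X n h ^ 2 ∂P) * (√η + √(P.real {h | (M : ℤ) < |h (b n) - h (o n)|}))
      ≤ √V * (√η + √η) := by
    refine mul_le_mul e2 (by linarith) (by positivity) (Real.sqrt_nonneg _)
  linarith

end Crest.Agent.R144.Ccw435
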