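import Crest.Agent.R144.Ga3b_572

/-!
# R144, closed-contour Ward identity (doc 1620), step (A1) (helper867)

`a1` : for an observable `O n` located in a box, small in the half-plane sense, and two bounded charged
functionals, one below the box and one above it (any shape, any charge), the correlation tends to `0`,
uniformly over the two functionals.  (Two-group peeling: an instance of `PIn.uniform` of helper572.)
-/

set_option autoImplicit false

noncomputable section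

open Filter Topology MeasureTheory
open scoped ComplexConjugate

namespace Crest.Agent.R144.CcwA1867

open Crest.Agent.R144.Ps643 (P2 Ht Loc FinLoc Neut Chg act tr Obs PlaneState lin)
open Crest.Agent.R144.Ga2617 (trans Lp Fn rfl6 RPHyp6 rpHyp6 stp)
open Crest.Agent.R144.Ga3572

/-- geometry: the observable in `x₀ + γ ≤ x ≤ L`, `y₀ + γ ≤ y ≤ y₁ - γ`; everything in `[-L, L]²` -/
def geo {x₀ y₀ y₁ γ L : ℝ} (hγ : 0 < γ) (hx : x₀ + γ ≤ L) (hx₀ : -L ≤ x₀ - γ)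
    (hy : y₀ + γ ≤ y₁ - γ) (hy₀ : -L ≤ y₀ - γ) (hy₁ : y₁ + γ ≤ L) : PGeo where
  x₀ := x₀
  x₁ := L + γ
  y₀ := y₀
  y₁ := y₁
  γ := γ
  L := L + 2 * γ
  γpos := hγ
  hx := by linarith
  hy := hy
  hx₀ := by linarith
  hx₁ := by linarith
  hy₀ := by linarith
  hy₁ := by linarith

/-- **(A1) of the closed-contour Ward identity.** -/
theorem a1 {P : Measure Ht} (hP : PlaneState P) {δ : ℕ → ℝ} (δpos : ∀ n, 0 < δ n)
    (δlim : Tendsto δ atTop (𝓝 0)) {x₀ y₀ y₁ γ L : ℝ} (hγ : 0 < γ) (hx : x₀ + γ ≤ L)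
    (hx₀ : -L ≤ x₀ - γ) (hy : y₀ + γ ≤ y₁ - γ) (hy₀ : -L ≤ y₀ - γ) (hy₁ : y₁ + γ ≤ L)
    {O : ℕ → Ht → ℂ} {M : ℝ} (hM : 0 ≤ M) (hO : ∀ n, ∫ h, ‖O n h‖ ^ 2 ∂P ≤ M ^ 2)
    {T : ℕ → Finset P2} (fnO : ∀ n, Fn (T n : Set P2) 0 (O n))
    (suppO : ∀ n, ∀ v ∈ T n, x₀ + γ ≤ δ n * v.1 ∧ δ n * v.1 ≤ L ∧
      y₀ + γ ≤ δ n * v.2 ∧ δ n * v.2 ≤ y₁ - γ)
    (ℓ : ℕ → ℤ) (hℓ : Tendsto (fun n => δ n * (ℓ n : ℝ)) atTop (𝓝 x₀))
    (hℓL : ∀ n, x₀ ≤ δ n * (ℓ n : ℝ))
    (small : Tendsto (fun n => (∫ h, conj (O n (act (rfl6 (1, 0) (ℓ n)) h)) * O n h ∂P).re)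
      atTop (𝓝 0)) {ε : ℝ} (hε : 0 < ε) :
    ∃ N : ℕ, ∀ n, N ≤ n → ∀ (S1 S2 : Finset P2),
      (∀ v ∈ S1, -L ≤ δ n * v.1 ∧ δ n * v.1 ≤ L ∧ -L ≤ δ n * v.2 ∧ δ n * v.2 ≤ y₀ - γ) →
      (∀ v ∈ S2, -L ≤ δ n * v.1 ∧ δ n * v.1 ≤ L ∧ y₁ + γ ≤ δ n * v.2 ∧ δ n * v.2 ≤ L) →
      ∀ (α : ℝ) (Z1 Z2 : Ht → ℂ), Fn (S1 : Set P2) (-α) Z1 → Fn (S2 : Set P2) α Z2 →
        (∀ h, Lp h → ‖Z1 h‖ ≤ 1) → (∀ h, Lp h → ‖Z2 h‖ ≤ 1) →
        ‖∫ h, O n h * Z1 h * Z2 h ∂P‖ ≤ ε := by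
  let E : PIn P :=
    { G := geo hγ hx hx₀ hy hy₀ hy₁
      prob := hP.prob
      lip := hP.lip
      rp := rpHyp6 hP
      δ := δ
      δpos := δpos
      δlim := δlim
      O := O
      M := M
      M0 := hM
      hO := hO
      T := T
      β := fun _ => 0
      fnO := fnO
      suppO := fun n v hv => by
        obtain ⟨h1, h2, h3, h4⟩ := suppO n v hv
        refine ⟨h1, ?_, h3, h4⟩
        show δ n * v.1 ≤ L + γ - γ
        linarith
      ℓ := ℓ
      hℓ := hℓ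
      hℓL := hℓL
      small := small }
  obtain ⟨N, hN⟩ := E.uniform hε
  refine ⟨N, fun n hn S1 S2 h1 h2 α Z1 Z2 f1 f2 n1 n2 => ?_⟩
  let A : Fin 4 → Ht → ℂ := ![fun _ => 1, Z2, Z1, fun _ => 1]
  let S : Fin 4 → Finset P2 := ![∅, S2, S1, ∅]
  let a : Fin 4 → ℝ := ![0, α, -α, 0]
  have hadm : E.Adm n A S a :=
    { hA := by
        intro i h hh
        fin_cases i
        · show ‖(1 : ℂ)‖ ≤ 1
          simp
        · exact n2 h hh
        · exact n1 h hh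
        · show ‖(1 : ℂ)‖ ≤ 1
          simp
      fnA := by
        intro i
        fin_cases i
        · exact Fn.const _ 1
        · exact f2
        · exact f1
        · exact Fn.const _ 1
      suppA := by
        intro i v hv
        fin_cases i
        · exact absurd hv (Finset.notMem_empty v)
        · obtain ⟨a1, a2, a3, a4⟩ := h2 v hv
          refine ⟨?_, ?_, a3, ?_⟩
          · show -(L + 2 * γ) ≤ δ n * v.1
            linarith
          · show δ n * v.1 ≤ L + γ - γ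
            linarith
          · show δ n * v.2 ≤ L + 2 * γ
            linarith
        · obtain ⟨a1, a2, a3, a4⟩ := h1 v hv
          refine ⟨?_, ?_, ?_, a4⟩
          · show -(L + 2 * γ) ≤ δ n * v.1
            linarith
          · show δ n * v.1 ≤ L + γ - γ
            linarith
          · show -(L + 2 * γ) ≤ δ n * v.2
            linarith
        · exact absurd hv (Finset.notMem_empty v)
      neutral := by
        show ∑ i, a i + 0 = 0
        simp [a, Fin.sum_univ_four] }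
  refine le_trans (le_of_eq ?_) (hN n hn A S a hadm)
  congr 1
  refine integral_congr_ae (Eventually.of_forall fun h => ?_)
  show O n h * Z1 h * Z2 h = (∏ i, A i h) * O n h
  rw [Fin.prod_univ_four]
  simp only [A, Matrix.cons_val_zero, Matrix.cons_val_one, Matrix.cons_val, one_mul, mul_one]
  ring

end Crest.Agent.R144.CcwA1867
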