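import Crest.Agent.R144.Gi1_643
import Crest.Agent.R144.CcwA1_867
import Crest.Agent.R144.Ccw5_435

/-!
# R144 (helper643): step (A1) of the closed contour Ward identity for the functionals `XX`

`a1_inst`: `XX (δ n) u`, `u` supported in a cell, against two charged functionals below and above the cell.
-/

set_option autoImplicit false

noncomputable section

namespace Crest.Agent.R144.Ca1643

open Finset Filter Topology MeasureTheory
open Crest.Agent.R144.It844 (Lip ex)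
open Crest.ProbabilityR.HexHeights (Adj centre)
open Crest.Agent.R144.HexTil353 Crest.Agent.R144.Geo268
open Crest.Agent.R144.Tp952
open Crest.Agent.R144.Ps643 Crest.Agent.R144.Ps643.PlaneState
open Crest.Agent.R144.Cw643
open Crest.Agent.R144.Gi643
open Crest.Agent.R144.Ga5885 (Tst)
open Crest.Agent.R144.Ga2617 (rfl6 Dir6 dot stp mem_dir6 Fn Lp)
open Crest.Agent.R144.Pst967 (Hz LocZ PinnedZ toR measurable_toR)
open Crest.Agent.R144.Ccw435 (ChgZ)
open scoped Real ContDiff Laplacian ComplexConjugate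

theorem lin_bdd {s : Finset P2} {f : P2 → ℝ} (h0 : ∑ v ∈ s, f v = 0) {h : Ht} (hl : Lp h) :
    |lin s f h| ≤ bd s f := by
  have e : lin s f h = lin s f (fun v => h v - h 0) := by
    have := lin_neut h0 (fun v => h v - h 0) (h 0)
    rw [← this]
    congr 1
    funext v
    ring
  rw [e]
  unfold lin bd
  refine (Finset.abs_sum_le_sum_abs _ _).trans (Finset.sum_le_sum fun v _ => ?_)
  rw [abs_mul]
  refine mul_le_mul_of_nonneg_left (abs_le_nrm (h := fun v => h v - h 0) (sub_self _) ?_ v)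
    (abs_nonneg _)
  intro u w huw
  have := hl u w huw
  have e : h u - h 0 - (h w - h 0) = h u - h w := by ring
  rw [e]
  exact this

theorem fn_lin {s : Finset P2} {f : P2 → ℝ} (h0 : ∑ v ∈ s, f v = 0) :
    Fn (s : Set P2) 0 (fun h => ((lin s f h : ℝ) : ℂ)) where
  meas := Complex.measurable_ofReal.comp (measurable_lin s f)
  loc := fun h g hg => by
    beta_reduce
    rw [lin_loc s f h g hg]
  chg := fun h c => by
    beta_reduce
    rw [lin_neut h0 h c]
    simp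
  bdd := ⟨bd s f, fun h hl => by
    rw [Complex.norm_real, Real.norm_eq_abs]
    exact lin_bdd h0 hl⟩

/-- index coordinates of the support of the lattice Laplacian -/
theorem coord_near {d : ℝ} (hd : 0 < d) {u : ℂ → ℝ} {s0 t0 ρ : ℝ}
    (supp : ∀ z, u z ≠ 0 → |ca 1 z - s0| ≤ ρ ∧ |cb 1 z - t0| ≤ ρ) {v : P2}
    (hv : Dop (fun v => u (centre d v)) v ≠ 0) :
    |d * v.1 - s0| ≤ ρ + 4 * d ∧ |d * v.2 - t0| ≤ ρ + 4 * d := by
  obtain ⟨w, hw, hw'⟩ := Dop_ne_zero hd.le hv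
  obtain ⟨h1, h2⟩ := supp w hw
  have a1 := abs_Xn_le (n := (1, 0)) (mem_dir6.2 (by simp)) (centre d v - w)
  have a2 := abs_Xn_le (n := (0, 1)) (mem_dir6.2 (by simp)) (centre d v - w)
  have e1 : Xn (1, 0) (centre d v - w) = d * v.1 - ca 1 w := by
    have := Xn_add (1, 0) (centre d v - w) w
    rw [sub_add_cancel, Xn_centre hd] at this
    have e2 : Xn (1, 0) w = ca 1 w := by unfold Xn; push_cast; ring
    rw [e2] at this
    have e3 : ((dot (1, 0) v : ℤ) : ℝ) = v.1 := by unfold dot; push_cast; ring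
    rw [e3] at this
    linarith
  have e1' : Xn (0, 1) (centre d v - w) = d * v.2 - cb 1 w := by
    have := Xn_add (0, 1) (centre d v - w) w
    rw [sub_add_cancel, Xn_centre hd] at this
    have e2 : Xn (0, 1) w = cb 1 w := by unfold Xn; push_cast; ring
    rw [e2] at this
    have e3 : ((dot (0, 1) v : ℤ) : ℝ) = v.2 := by unfold dot; push_cast; ring
    rw [e3] at this
    linarith
  rw [e1] at a1
  rw [e1'] at a2
  constructor
  · have e : d * v.1 - s0 = (d * v.1 - ca 1 w) + (ca 1 w - s0) := by ring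
    rw [e]
    refine (abs_add_le _ _).trans ?_
    linarith
  · have e : d * v.2 - t0 = (d * v.2 - cb 1 w) + (cb 1 w - t0) := by ring
    rw [e]
    refine (abs_add_le _ _).trans ?_
    linarith

set_option maxHeartbeats 1600000 in
/-- **step (A1) of the closed contour Ward identity** -/
theorem a1_inst {P : Measure Hz} (_hP : PinnedZ P) (hS : PlaneState (P.map toR)) {κ : ℝ}
    (hκ : Lim2 (vg (P.map toR)) κ) {δ : ℕ → ℝ} (hδ : ∀ n, 0 < δ n) (hδ0 : Tendsto δ atTop (𝓝 0))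
    {u : ℂ → ℝ} (hu : Tst u) {s0 t0 ρ L : ℝ} (hρ : 0 < ρ)
    (supp : ∀ z, u z ≠ 0 → |ca 1 z - s0| ≤ ρ ∧ |cb 1 z - t0| ≤ ρ)
    (hL : |s0| + |t0| + 8 * ρ ≤ L) :
    ∀ ε > 0, ∀ᶠ n in atTop, ∀ A B : Finset P2, A.Nonempty → B.Nonempty →
      (∀ v ∈ A, |δ n * v.1| ≤ L ∧ |δ n * v.2| ≤ L ∧ δ n * v.2 ≤ t0 - 2 * ρ) →
      (∀ v ∈ B, |δ n * v.1| ≤ L ∧ |δ n * v.2| ≤ L ∧ t0 + 2 * ρ ≤ δ n * v.2) →
      ∀ (α : ℝ) (Z1 Z2 : Hz → ℂ), LocZ (A : Set P2) Z1 → LocZ (B : Set P2) Z2 →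
        ChgZ (-α) Z1 → ChgZ α Z2 → (∀ h, ‖Z1 h‖ ≤ 1) → (∀ h, ‖Z2 h‖ ≤ 1) →
        ‖∫ h, (XX (δ n) u (toR h) : ℂ) * Z1 h * Z2 h ∂P‖ ≤ ε := by
  classical
  intro ε hε
  obtain ⟨R, hR0, hR⟩ := exists_R hu
  let b : ℕ → P2 → ℝ := fun n => Dop (fun v => u (centre (δ n) v))
  let T : ℕ → Finset P2 := fun n => (BX (mm R (δ n))).filter fun v => b n v ≠ 0
  have hT : ∀ n, Wt (T n) (b n) := by
    intro n
    refine (wt_Dop (hδ n) hR).sum_eq fun p hp => ?_
    by_contra h1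
    apply hp
    refine Finset.mem_filter.2 ⟨?_, h1⟩
    by_contra h2
    exact h1 ((wt_Dop (hδ n) hR).1 p h2)
  have hXT : ∀ n h, XX (δ n) u h = lin (T n) (b n) h := fun n h => XX_eq (hT n).1 h
  have hTne : ∀ n, ∀ v ∈ T n, Dop (fun v => u (centre (δ n) v)) v ≠ 0 :=
    fun n v hv => (Finset.mem_filter.1 hv).2
  -- second moments are bounded
  have hvar := cov_tendsto hS hκ hδ hδ0 hu.1 hu.2 (f := fun z => -(Δ u) z)
      (continuous_lap hu.1).neg (hasCompactSupport_lap hu.2).neg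
      (near_Dop hδ hδ0 hu.1 hu.2) (near_Dop hδ hδ0 hu.1 hu.2) (s := T) (t := T)
      (Eventually.of_forall hT) (Eventually.of_forall hT)
  obtain ⟨B0, hB0⟩ := hvar.bddAbove_range
  have hB0' : ∀ n, ∫ h, lin (T n) (b n) h * lin (T n) (b n) h ∂(P.map toR) ≤ B0 :=
    fun n => hB0 ⟨n, rfl⟩
  -- the reflection line
  let ℓ : ℕ → ℤ := fun n => ⌈(s0 - 2 * ρ) / δ n⌉
  have hℓ1 : ∀ n, s0 - 2 * ρ ≤ δ n * (ℓ n : ℝ) := by
    intro n
    have h1 := Int.le_ceil ((s0 - 2 * ρ) / δ n)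
    rw [div_le_iff₀ (hδ n)] at h1
    rw [mul_comm (δ n)]
    exact h1
  have hℓ2 : ∀ n, δ n * (ℓ n : ℝ) ≤ s0 - 2 * ρ + δ n := by
    intro n
    have h1 := (Int.ceil_lt_add_one ((s0 - 2 * ρ) / δ n)).le
    have h2 := mul_le_mul_of_nonneg_left h1 (hδ n).le
    refine h2.trans (le_of_eq ?_)
    have := (hδ n).ne'
    field_simp
  have hℓ : Tendsto (fun n => δ n * (ℓ n : ℝ)) atTop (𝓝 (s0 - 2 * ρ)) := by
    have h1 : Tendsto (fun n => s0 - 2 * ρ + δ n) atTop (𝓝 (s0 - 2 * ρ)) := by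
      simpa using hδ0.const_add (s0 - 2 * ρ)
    exact tendsto_of_tendsto_of_tendsto_of_le_of_le tendsto_const_nhds h1 hℓ1 hℓ2
  -- smallness of the reflected covariance
  have hw := ward_rfl hS hκ hδ hδ0 hu.1 hu.2 (near_Dop hδ hδ0 hu.1 hu.2) (s := T)
    (Eventually.of_forall hT) (n := (1, 0)) (mem_dir6.2 (by simp)) (m := ℓ) hℓ (fun z hz => by
      have e2 : Xn (1, 0) z = ca 1 z := by unfold Xn; push_cast; ring
      rw [e2]
      have := (abs_le.1 (supp z hz).1).1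
      linarith)
  obtain ⟨N0, hN0⟩ := eventually_atTop.1
    (hδ0.eventually (gt_mem_nhds (show (0 : ℝ) < ρ / 16 by positivity)))
  have hs0 := abs_nonneg s0
  have ht0 := abs_nonneg t0
  have hs1 := neg_abs_le s0
  have hs2 := le_abs_self s0
  have ht1 := neg_abs_le t0
  have ht2 := le_abs_self t0
  obtain ⟨N, hN⟩ := CcwA1867.a1 hS (δ := fun n => δ (n + N0)) (fun n => hδ _)
    (hδ0.comp (tendsto_add_atTop_nat N0)) (x₀ := s0 - 2 * ρ) (y₀ := t0 - 3 / 2 * ρ)
    (y₁ := t0 + 3 / 2 * ρ) (γ := ρ / 4) (L := L) (by positivity) (by linarith) (by linarith)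
    (by linarith) (by linarith) (by linarith)
    (O := fun n h => ((lin (T (n + N0)) (b (n + N0)) h : ℝ) : ℂ)) (M := |B0| + 1) (by positivity)
    (fun n => by
      have e : ∀ h : Ht, ‖((lin (T (n + N0)) (b (n + N0)) h : ℝ) : ℂ)‖ ^ 2 =
          lin (T (n + N0)) (b (n + N0)) h * lin (T (n + N0)) (b (n + N0)) h := by
        intro h
        rw [Complex.norm_real, Real.norm_eq_abs, sq_abs, sq]
      simp only [e]
      have h1 := hB0' (n + N0)
      have h2 := le_abs_self B0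
      have h3 := abs_nonneg B0
      nlinarith)
    (T := fun n => T (n + N0)) (fun n => fn_lin (hT _).2)
    (fun n v hv => by
      obtain ⟨h1, h2⟩ := coord_near (hδ (n + N0)) supp (hTne _ v hv)
      have h3 := hN0 (n + N0) (by omega)
      obtain ⟨h4, h5⟩ := abs_le.1 h1
      obtain ⟨h6, h7⟩ := abs_le.1 h2
      refine ⟨by linarith, by linarith, by linarith, by linarith⟩)
    (fun n => ℓ (n + N0)) (hℓ.comp (tendsto_add_atTop_nat N0)) (fun n => hℓ1 _)
    (by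
      refine (hw.comp (tendsto_add_atTop_nat N0)).congr fun n => ?_
      show ∫ h, lin (T (n + N0)) (b (n + N0)) (act (rfl6 (1, 0) (ℓ (n + N0))) h) *
        lin (T (n + N0)) (b (n + N0)) h ∂(P.map toR) = _
      have e : ∀ h : Ht, conj ((lin (T (n + N0)) (b (n + N0))
          (act (rfl6 (1, 0) (ℓ (n + N0))) h) : ℝ) : ℂ) *
          ((lin (T (n + N0)) (b (n + N0)) h : ℝ) : ℂ) =
          ((lin (T (n + N0)) (b (n + N0)) (act (rfl6 (1, 0) (ℓ (n + N0))) h) *
            lin (T (n + N0)) (b (n + N0)) h : ℝ) : ℂ) := by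
        intro h
        rw [Complex.conj_ofReal]
        push_cast
        rfl
      simp only [e]
      rw [integral_complex_ofReal, Complex.ofReal_re])
    hε
  filter_upwards [eventually_ge_atTop (N + N0)] with n hn A B hA hB hA' hB' α Z1 Z2 l1 l2 c1 c2 n1 n2
  obtain ⟨k, rfl⟩ : ∃ k, n = k + N0 := ⟨n - N0, by omega⟩
  have hkey := hN k (by omega) A B
    (fun v hv => by
      obtain ⟨h1, h2, h3⟩ := hA' v hv
      obtain ⟨h4, h5⟩ := abs_le.1 h1
      obtain ⟨h6, h7⟩ := abs_le.1 h2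
      exact ⟨h4, h5, h6, by linarith⟩)
    (fun v hv => by
      obtain ⟨h1, h2, h3⟩ := hB' v hv
      obtain ⟨h4, h5⟩ := abs_le.1 h1
      obtain ⟨h6, h7⟩ := abs_le.1 h2
      exact ⟨h4, h5, by linarith, h7⟩)
  refine Ccw435.a1_of_real hA hB (XR := fun h => lin (T (k + N0)) (b (k + N0)) h)
    (X := fun h => XX (δ (k + N0)) u (toR h)) (measurable_lin _ _)
    (fun h => (hXT _ _).symm) (ε := ε)
    (fun α Z1 Z2 f1 f2 m1 m2 => hkey α Z1 Z2 f1 f2 (fun h _ => m1 h) (fun h _ => m2 h))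
    α Z1 Z2 l1 l2 c1 c2 n1 n2

end Crest.Agent.R144.Ca1643
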