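import Crest.Agent.R144.Dpl4_702

/-!
# R144: uniform moment bounds from the midpoint property (helper702)

A finite weighted family `(S, w)` of total mass one and an observable `X` whose upper tail function
`tl S w X t = ∑_{t ≤ X a} w a` satisfies `tl s * tl t ≤ tl ((s + t - L) / 2) ^ 2` has
`∑ w (max X 0) ^ n ≤ Cm n * (2 M + L) ^ n` as soon as `tl M ≤ 1/4` and `3/4 ≤ tl (-M)`
(`upper_moment`); in particular with `M = 2 σ`, `∑ w X ^ 2 ≤ σ ^ 2`.
`abs_moment_tl`, `abs_moment` : the two-sided version for a `Nat2` family.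
`ex_abs_moment` : the integer models: for `0 < x ≤ 1`, `X` linear with `∑ |f| = L`
`E |X - m| ^ n ≤ 2 * Cm n * (4 σ + L) ^ n` whenever `E (X - m) ^ 2 ≤ σ ^ 2`.
-/

set_option autoImplicit false

noncomputable section

namespace Crest.Agent.R144.Dpl702

open Finset

/-- absolute constants -/
def Cm (n : ℕ) : ℝ := 1 + ∑' k : ℕ, (2 * (k : ℝ)) ^ n * (1 / 3 : ℝ) ^ k

theorem summable_cm (n : ℕ) : Summable fun k : ℕ => (2 * (k : ℝ)) ^ n * (1 / 3 : ℝ) ^ k := by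
  have h := summable_pow_mul_geometric_of_norm_lt_one n (r := (1 / 3 : ℝ))
    (by rw [Real.norm_of_nonneg (by norm_num)]; norm_num)
  refine (h.mul_left ((2 : ℝ) ^ n)).congr fun k => ?_
  rw [mul_pow, mul_assoc]

theorem cm_nonneg (n : ℕ) : 0 ≤ Cm n := by
  unfold Cm
  have : 0 ≤ ∑' k : ℕ, (2 * (k : ℝ)) ^ n * (1 / 3 : ℝ) ^ k := tsum_nonneg fun k => by positivity
  linarith

theorem sum_le_cm (n J : ℕ) :
    1 + ∑ j ∈ Finset.range J, (2 * (2 : ℝ) ^ j) ^ n * (1 / 3 : ℝ) ^ (2 ^ j) ≤ Cm n := by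
  unfold Cm
  have h1 : ∑ j ∈ Finset.range J, (2 * (2 : ℝ) ^ j) ^ n * (1 / 3 : ℝ) ^ (2 ^ j) =
      ∑ k ∈ (Finset.range J).image (fun j : ℕ => (2 : ℕ) ^ j),
        (2 * ((k : ℕ) : ℝ)) ^ n * (1 / 3 : ℝ) ^ k := by
    rw [Finset.sum_image (fun a _ b _ h => Nat.pow_right_injective (le_refl 2) h)]
    refine Finset.sum_congr rfl fun j _ => ?_
    push_cast
    rfl
  rw [h1]
  have := (summable_cm n).sum_le_tsum ((Finset.range J).image (fun j : ℕ => (2 : ℕ) ^ j))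
    (fun k _ => by positivity)
  linarith

section abstract

variable {ι : Type*}

open Classical in
/-- upper tail -/
def tl (S : Finset ι) (w X : ι → ℝ) (t : ℝ) : ℝ := ∑ a ∈ S with t ≤ X a, w a

theorem tl_nonneg {S : Finset ι} {w X : ι → ℝ} (hw : ∀ a ∈ S, 0 ≤ w a) (t : ℝ) :
    0 ≤ tl S w X t :=
  Finset.sum_nonneg fun a ha => hw a (Finset.mem_filter.1 ha).1

theorem tl_le_one {S : Finset ι} {w X : ι → ℝ} (hw : ∀ a ∈ S, 0 ≤ w a) (h1 : ∑ a ∈ S, w a = 1)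
    (t : ℝ) : tl S w X t ≤ 1 := by
  rw [← h1]
  exact Finset.sum_le_sum_of_subset_of_nonneg (Finset.filter_subset _ _) fun a ha _ => hw a ha

theorem tl_eq (S : Finset ι) (w X : ι → ℝ) (t : ℝ) :
    tl S w X t = ∑ a ∈ S, w a * (if t ≤ X a then 1 else 0) := by
  classical
  unfold tl
  rw [Finset.sum_filter]
  exact Finset.sum_congr rfl fun a _ => by split_ifs <;> simp

/-- **one-sided moment bound** -/
theorem upper_moment {S : Finset ι} {w X : ι → ℝ} (hw : ∀ a ∈ S, 0 ≤ w a)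
    (h1 : ∑ a ∈ S, w a = 1) {L M : ℝ} (hL : 0 ≤ L) (hM : 0 < M) (hu : tl S w X M ≤ 1 / 4)
    (hl : 3 / 4 ≤ tl S w X (-M))
    (hmp : ∀ s t, tl S w X s * tl S w X t ≤ tl S w X ((s + t - L) / 2) ^ 2) (n : ℕ) :
    ∑ a ∈ S, w a * (max (X a) 0) ^ n ≤ Cm n * (2 * M + L) ^ n := by
  classical
  set u : ℝ := 2 * M + L with hu'
  have hupos : 0 < u := by linarith
  set c : ℝ := M + L with hc
  set q : ℝ := tl S w X (-M) with hq
  have hq1 : q ≤ 1 := tl_le_one hw h1 _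
  have hq0 : 0 < q := by linarith
  let a : ℕ → ℝ := fun j => 2 ^ j * u - c
  have a0 : a 0 = M := by simp only [a, pow_zero, one_mul, hu', hc]; ring
  have as : ∀ j, a (j + 1) = 2 * a j + c := by intro j; simp only [a]; ring
  have tail : ∀ j, tl S w X (a j) ≤ q * (1 / 3 : ℝ) ^ (2 ^ j) := by
    intro j
    induction j with
    | zero =>
      rw [a0, pow_zero, pow_one]
      linarith
    | succ j ih =>
      have h2 := hmp (a (j + 1)) (-M)
      have e : (a (j + 1) + -M - L) / 2 = a j := by rw [as, hc]; ring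
      rw [e, ← hq] at h2
      have h3 : tl S w X (a j) ^ 2 ≤ (q * (1 / 3 : ℝ) ^ (2 ^ j)) ^ 2 :=
        pow_le_pow_left₀ (tl_nonneg hw _) ih 2
      have h4 : tl S w X (a (j + 1)) * q ≤ (q * (1 / 3 : ℝ) ^ (2 ^ (j + 1))) * q := by
        refine (h2.trans h3).trans (le_of_eq ?_)
        rw [mul_pow, ← pow_mul, pow_succ 2 j]
        ring
      exact le_of_mul_le_mul_right h4 hq0
  -- a level above all values
  obtain ⟨J, hJ⟩ : ∃ J : ℕ, ∀ b ∈ S, X b < a J := by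
    have h2 : Filter.Tendsto a Filter.atTop Filter.atTop := by
      refine Filter.tendsto_atTop_add_const_right _ _ ?_
      exact (tendsto_pow_atTop_atTop_of_one_lt (by norm_num : (1 : ℝ) < 2)).atTop_mul_const hupos
    have h3 : ∀ b ∈ S, ∀ᶠ J in Filter.atTop, X b < a J := fun b _ => h2.eventually_gt_atTop (X b)
    exact ((Filter.eventually_all_finset S).2 h3).exists
  have mono : Monotone a := by
    refine monotone_nat_of_le_succ fun j => ?_
    simp only [a]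
    have : (2 : ℝ) ^ j * u ≤ 2 ^ (j + 1) * u := by
      refine mul_le_mul_of_nonneg_right ?_ hupos.le
      exact pow_le_pow_right₀ (by norm_num) (Nat.le_succ j)
    linarith
  have point : ∀ b ∈ S, (max (X b) 0) ^ n ≤ u ^ n *
      (1 + ∑ j ∈ Finset.range J, (2 * (2 : ℝ) ^ j) ^ n * (if a j ≤ X b then 1 else 0)) := by
    intro b hb
    have hex : ∃ j, X b < a j := ⟨J, hJ b hb⟩
    have hfin : Nat.find hex ≤ J := Nat.find_min' hex (hJ b hb)
    have hspec := Nat.find_spec hex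
    have hnn : ∀ j ∈ Finset.range J,
        0 ≤ (2 * (2 : ℝ) ^ j) ^ n * (if a j ≤ X b then (1 : ℝ) else 0) := by
      intro j _
      split_ifs <;> positivity
    rcases Nat.eq_zero_or_pos (Nat.find hex) with h0 | h0
    · rw [h0, a0] at hspec
      have h2 : (max (X b) 0) ^ n ≤ u ^ n := by
        refine pow_le_pow_left₀ (le_max_right _ _) (max_le ?_ hupos.le) n
        linarith
      have h3 := Finset.sum_nonneg hnn
      calc (max (X b) 0) ^ n ≤ u ^ n * 1 := by rw [mul_one]; exact h2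
        _ ≤ _ := mul_le_mul_of_nonneg_left (by linarith) (by positivity)
    · obtain ⟨j, hj⟩ : ∃ j, Nat.find hex = j + 1 := ⟨Nat.find hex - 1, by omega⟩
      have hjJ : j < J := by omega
      have hge : a j ≤ X b := by
        by_contra hlt
        exact Nat.find_min hex (m := j) (by omega) (not_le.1 hlt)
      rw [hj] at hspec
      have h2 : (max (X b) 0) ^ n ≤ (2 * 2 ^ j * u) ^ n := by
        refine pow_le_pow_left₀ (le_max_right _ _) (max_le ?_ (by positivity)) n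
        refine hspec.le.trans ?_
        simp only [a, pow_succ]
        have : 0 ≤ c := by rw [hc]; linarith
        nlinarith
      have h3 := Finset.single_le_sum hnn (Finset.mem_range.2 hjJ)
      rw [if_pos hge, mul_one] at h3
      calc (max (X b) 0) ^ n ≤ (2 * 2 ^ j * u) ^ n := h2
        _ = u ^ n * (2 * 2 ^ j) ^ n := by rw [mul_pow, mul_comm]
        _ ≤ _ := mul_le_mul_of_nonneg_left (by linarith) (by positivity)
  calc ∑ b ∈ S, w b * (max (X b) 0) ^ n ≤ ∑ b ∈ S, w b * (u ^ n *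
        (1 + ∑ j ∈ Finset.range J, (2 * (2 : ℝ) ^ j) ^ n * (if a j ≤ X b then 1 else 0))) :=
        Finset.sum_le_sum fun b hb => mul_le_mul_of_nonneg_left (point b hb) (hw b hb)
    _ = u ^ n * (∑ b ∈ S, w b + ∑ j ∈ Finset.range J, (2 * (2 : ℝ) ^ j) ^ n *
        ∑ b ∈ S, w b * (if a j ≤ X b then 1 else 0)) := by
        simp only [mul_add, mul_one, Finset.sum_add_distrib, Finset.mul_sum]
        congr 1
        · exact Finset.sum_congr rfl fun b _ => by ring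
        · rw [Finset.sum_comm]
          refine Finset.sum_congr rfl fun j _ => Finset.sum_congr rfl fun b _ => by ring
    _ = u ^ n * (1 + ∑ j ∈ Finset.range J, (2 * (2 : ℝ) ^ j) ^ n * tl S w X (a j)) := by
        rw [h1]
        congr 2
        exact Finset.sum_congr rfl fun j _ => by rw [tl_eq]
    _ ≤ u ^ n * (1 + ∑ j ∈ Finset.range J, (2 * (2 : ℝ) ^ j) ^ n * (1 / 3 : ℝ) ^ (2 ^ j)) := by
        refine mul_le_mul_of_nonneg_left ?_ (by positivity)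
        refine add_le_add le_rfl (Finset.sum_le_sum fun j _ => ?_)
        refine mul_le_mul_of_nonneg_left ((tail j).trans ?_) (by positivity)
        have : (0 : ℝ) ≤ (1 / 3 : ℝ) ^ (2 ^ j) := by positivity
        nlinarith
    _ ≤ u ^ n * Cm n := mul_le_mul_of_nonneg_left (sum_le_cm n J) (by positivity)
    _ = Cm n * u ^ n := mul_comm _ _

/-- Chebyshev -/
theorem tl_cheb {S : Finset ι} {w X : ι → ℝ} (hw : ∀ a ∈ S, 0 ≤ w a) {σ : ℝ} (hσ : 0 < σ)
    (hv : ∑ a ∈ S, w a * X a ^ 2 ≤ σ ^ 2) : tl S w X (2 * σ) ≤ 1 / 4 := by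
  have h2 : (2 * σ) ^ 2 * tl S w X (2 * σ) ≤ ∑ a ∈ S, w a * X a ^ 2 := by
    rw [tl_eq, Finset.mul_sum]
    refine Finset.sum_le_sum fun a ha => ?_
    split_ifs with h
    · have h3 : (2 * σ) ^ 2 ≤ X a ^ 2 := pow_le_pow_left₀ (by linarith) h 2
      nlinarith [hw a ha]
    · have := mul_nonneg (hw a ha) (sq_nonneg (X a))
      linarith
  have h3 : (2 * σ) ^ 2 * tl S w X (2 * σ) ≤ σ ^ 2 := h2.trans hv
  have h4 : 0 < σ ^ 2 := by positivity
  nlinarith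

theorem tl_neg {S : Finset ι} {w X : ι → ℝ} (hw : ∀ a ∈ S, 0 ≤ w a) (h1 : ∑ a ∈ S, w a = 1)
    (t : ℝ) : 1 - tl S w (fun a => - X a) t ≤ tl S w X (-t) := by
  rw [tl_eq, tl_eq, sub_le_iff_le_add]
  refine h1.symm.le.trans ?_
  rw [← Finset.sum_add_distrib]
  refine Finset.sum_le_sum fun a ha => ?_
  have h0 := hw a ha
  by_cases h : t ≤ - X a
  · rw [if_pos h, mul_one]
    have : 0 ≤ w a * (if -t ≤ X a then (1 : ℝ) else 0) := mul_nonneg h0 (by split_ifs <;> norm_num)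
    linarith
  · rw [if_neg h, if_pos (by linarith)]
    simp

/-- two-sided bound, tail form -/
theorem two_sided {S : Finset ι} {w X : ι → ℝ} (hw : ∀ a ∈ S, 0 ≤ w a)
    (h1 : ∑ a ∈ S, w a = 1) {L M : ℝ} (hL : 0 ≤ L) (hM : 0 < M) (hu : tl S w X M ≤ 1 / 4)
    (hl : tl S w (fun a => - X a) M ≤ 1 / 4)
    (hmp : ∀ s t, tl S w X s * tl S w X t ≤ tl S w X ((s + t - L) / 2) ^ 2)
    (hmp' : ∀ s t, tl S w (fun a => - X a) s * tl S w (fun a => - X a) t ≤
      tl S w (fun a => - X a) ((s + t - L) / 2) ^ 2) (n : ℕ) :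
    ∑ a ∈ S, w a * |X a| ^ n ≤ 2 * Cm n * (2 * M + L) ^ n := by
  have e1 : 3 / 4 ≤ tl S w X (-M) := by
    have := tl_neg hw h1 (X := X) M
    linarith
  have e2 : 3 / 4 ≤ tl S w (fun a => - X a) (-M) := by
    have := tl_neg hw h1 (X := fun a => - X a) M
    simp only [neg_neg] at this
    linarith
  have k1 := upper_moment hw h1 hL hM hu e1 hmp n
  have k2 := upper_moment hw h1 hL hM hl e2 hmp' n
  calc ∑ a ∈ S, w a * |X a| ^ n ≤ ∑ a ∈ S, (w a * (max (X a) 0) ^ n + w a * (max (- X a) 0) ^ n) := by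
        refine Finset.sum_le_sum fun a ha => ?_
        rw [← mul_add]
        refine mul_le_mul_of_nonneg_left ?_ (hw a ha)
        rcases le_total 0 (X a) with h | h
        · rw [abs_of_nonneg h, max_eq_left h]
          have : 0 ≤ (max (- X a) 0) ^ n := pow_nonneg (le_max_right _ _) n
          linarith
        · rw [abs_of_nonpos h, max_eq_left (neg_nonneg.2 h)]
          have : 0 ≤ (max (X a) 0) ^ n := pow_nonneg (le_max_right _ _) n
          linarith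
    _ ≤ _ := by rw [Finset.sum_add_distrib]; linarith

end abstract

variable {V : Type*}

theorem tl_div (S : Finset (V → ℤ)) (W X : (V → ℤ) → ℝ) (Z t : ℝ) :
    tl S (fun a => W a / Z) X t = tl S W X t / Z := by
  unfold tl
  rw [Finset.sum_div]

theorem tl_mp {S : Finset (V → ℤ)} {W : (V → ℤ) → ℝ} (hSW : Nat2 S W)
    {X : (V → ℤ) → ℝ} {L : ℝ} (hX : MidLin S X L) (Z : ℝ) (s t : ℝ) :
    tl S (fun a => W a / Z) X s * tl S (fun a => W a / Z) X t ≤
      tl S (fun a => W a / Z) X ((s + t - L) / 2) ^ 2 := by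
  rw [tl_div, tl_div, tl_div, div_mul_div_comm, div_pow, sq Z]
  have := mp_fin hSW hX s t
  exact div_le_div_of_nonneg_right this (mul_self_nonneg Z)

/-- **moment bound for a `Nat2` family**, tail form: if `X ≥ M` and `X ≤ -M` both have probability
at most `1/4`, then `E |X| ^ n ≤ 2 Cm n (2 M + L) ^ n`. -/
theorem abs_moment_tl {S : Finset (V → ℤ)} {W : (V → ℤ) → ℝ} (hSW : Nat2 S W)
    (hZ : 0 < ∑ a ∈ S, W a) {X : (V → ℤ) → ℝ} {L M : ℝ} (hX : MidLin S X L) (hL : 0 ≤ L)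
    (hM : 0 < M) (hu : tl S W X M / (∑ a ∈ S, W a) ≤ 1 / 4)
    (hl : tl S W (fun a => - X a) M / (∑ a ∈ S, W a) ≤ 1 / 4) (n : ℕ) :
    (∑ a ∈ S, W a * |X a| ^ n) / (∑ a ∈ S, W a) ≤ 2 * Cm n * (2 * M + L) ^ n := by
  have hw : ∀ a ∈ S, 0 ≤ W a / (∑ a ∈ S, W a) := fun a ha => div_nonneg (hSW.nonneg a ha) hZ.le
  have h1 : ∑ a ∈ S, W a / (∑ a ∈ S, W a) = 1 := by
    rw [← Finset.sum_div]; exact div_self hZ.ne'
  rw [← tl_div] at hu hl
  have := two_sided hw h1 hL hM hu hl (tl_mp hSW hX _) (tl_mp hSW hX.neg _) n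
  refine le_trans (le_of_eq ?_) this
  rw [Finset.sum_div]
  exact Finset.sum_congr rfl fun a _ => by ring

/-- **moment bound for a `Nat2` family** -/
theorem abs_moment {S : Finset (V → ℤ)} {W : (V → ℤ) → ℝ} (hSW : Nat2 S W)
    (hZ : 0 < ∑ a ∈ S, W a) {X : (V → ℤ) → ℝ} {L σ : ℝ} (hX : MidLin S X L) (hL : 0 ≤ L)
    (hσ : 0 ≤ σ) (hv : (∑ a ∈ S, W a * X a ^ 2) / (∑ a ∈ S, W a) ≤ σ ^ 2) (n : ℕ) :
    (∑ a ∈ S, W a * |X a| ^ n) / (∑ a ∈ S, W a) ≤ 2 * Cm n * (4 * σ + L) ^ n := by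
  have key : ∀ ε : ℝ, 0 < ε →
      (∑ a ∈ S, W a * |X a| ^ n) / (∑ a ∈ S, W a) ≤ 2 * Cm n * (4 * (σ + ε) + L) ^ n := by
    intro ε hε
    have hw : ∀ a ∈ S, 0 ≤ W a / (∑ a ∈ S, W a) := fun a ha => div_nonneg (hSW.nonneg a ha) hZ.le
    have hv1 : ∑ a ∈ S, (W a / (∑ a ∈ S, W a)) * X a ^ 2 ≤ (σ + ε) ^ 2 := by
      refine le_trans (le_of_eq ?_) (hv.trans (pow_le_pow_left₀ hσ (by linarith) 2))
      rw [Finset.sum_div]
      exact Finset.sum_congr rfl fun a _ => by ring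
    have c1 := tl_cheb hw (by linarith : 0 < σ + ε) hv1
    have c2 := tl_cheb (X := fun a => - X a) hw (by linarith : 0 < σ + ε) (by
      simpa only [neg_sq] using hv1)
    rw [tl_div] at c1 c2
    have := abs_moment_tl hSW hZ hX hL (by linarith : 0 < 2 * (σ + ε)) c1 c2 n
    refine this.trans (le_of_eq ?_)
    ring
  have hlim : Filter.Tendsto (fun ε : ℝ => 2 * Cm n * (4 * (σ + ε) + L) ^ n)
      (nhdsWithin 0 (Set.Ioi 0)) (nhds (2 * Cm n * (4 * (σ + 0) + L) ^ n)) := by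
    refine Filter.Tendsto.mono_left ?_ nhdsWithin_le_nhds
    have : Continuous fun ε : ℝ => 2 * Cm n * (4 * (σ + ε) + L) ^ n := by fun_prop
    exact this.tendsto 0
  rw [add_zero] at hlim
  exact ge_of_tendsto hlim (Filter.eventually_of_mem self_mem_nhdsWithin fun ε hε => key ε hε)

/-! ### the integer models -/

open Crest.Agent.R144.It844

/-- **moments of compatible observables in the integer models** (`0 < x ≤ 1`, any Lipschitz `τ`) -/
theorem ex_abs_moment {x : ℝ} (hx0 : 0 < x) (hx1 : x ≤ 1) {Λ : Finset P2} {τ : P2 → ℤ}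
    (hτ : Lip τ) {X : (P2 → ℤ) → ℝ} {L σ : ℝ} (hX : MidLin (conf Λ τ) X L) (hL : 0 ≤ L)
    (hσ : 0 ≤ σ) (hv : ex x Λ τ (fun h => X h ^ 2) ≤ σ ^ 2) (n : ℕ) :
    ex x Λ τ (fun h => |X h| ^ n) ≤ 2 * Cm n * (4 * σ + L) ^ n := by
  have hx2 : x ^ 2 ≤ 1 := pow_le_one₀ hx0.le hx1
  have e : ∀ F : (P2 → ℤ) → ℝ, ex x Λ τ F =
      (∑ a ∈ conf Λ τ, wt x Λ a * F a) / ∑ a ∈ conf Λ τ, wt x Λ a := by
    intro F
    unfold ex Z
    rw [smul_eq_mul, inv_mul_eq_div]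
    rfl
  rw [e] at hv ⊢
  exact abs_moment (nat2_conf hx2 Λ τ) (Z_pos hx0 hτ) hX hL hσ hv n

/-- central moments of linear observables: `E |X - m| ^ n ≤ 2 Cm n (4 σ + ∑ |f|) ^ n`,
`E (X - m) ^ 2 ≤ σ ^ 2` -/
theorem ex_abs_moment_linear {x : ℝ} (hx0 : 0 < x) (hx1 : x ≤ 1) {Λ : Finset P2} {τ : P2 → ℤ}
    (hτ : Lip τ) (s : Finset P2) (f : P2 → ℝ) (m : ℝ) {σ : ℝ} (hσ : 0 ≤ σ)
    (hv : ex x Λ τ (fun h => (∑ v ∈ s, f v * (h v : ℝ) - m) ^ 2) ≤ σ ^ 2) (n : ℕ) :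
    ex x Λ τ (fun h => |∑ v ∈ s, f v * (h v : ℝ) - m| ^ n) ≤
      2 * Cm n * (4 * σ + ∑ v ∈ s, |f v|) ^ n :=
  ex_abs_moment hx0 hx1 hτ ((midLin_sum (conf Λ τ) s f).sub_const m)
    (Finset.sum_nonneg fun _ _ => abs_nonneg _) hσ hv n

/-- one height: `E |h v - m| ^ n ≤ 2 Cm n (4 σ + 1) ^ n`, `E (h v - m) ^ 2 ≤ σ ^ 2` -/
theorem ex_abs_moment_eval {x : ℝ} (hx0 : 0 < x) (hx1 : x ≤ 1) {Λ : Finset P2} {τ : P2 → ℤ}
    (hτ : Lip τ) (v : P2) (m : ℝ) {σ : ℝ} (hσ : 0 ≤ σ)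
    (hv : ex x Λ τ (fun h => ((h v : ℝ) - m) ^ 2) ≤ σ ^ 2) (n : ℕ) :
    ex x Λ τ (fun h => |(h v : ℝ) - m| ^ n) ≤ 2 * Cm n * (4 * σ + 1) ^ n :=
  ex_abs_moment hx0 hx1 hτ ((midLin_eval (conf Λ τ) v).sub_const m) zero_le_one hσ hv n

end Crest.Agent.R144.Dpl702
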