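import Crest.Agent.R144.Mix6_880
import Crest.Agent.R144.Ga5c_885
import Crest.Agent.R144.HexTil_353

/-!
# R144, mixing (helper880), part 7: sigma-algebra form

* `gσ U` : sigma-algebra of the height differences over `U`, on `Ht = P2 → ℝ`;
* `cov_of_filtration` : covariance bounds extend to `⨆ 𝒢 n`;
* `mix_sigma` : `|cov F G| ≤ C (m/N)^α` for `F` measurable for `gσ U`, `U ⊆ ball a m`, and `G` measurable for
  `gσ V`, `V` (infinite) disjoint from `ball a N`, under `P.map toR`;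
* `mix_field` : the field `mix` of helper885's `Mdl`.
-/

set_option autoImplicit false

noncomputable section

namespace Crest.Agent.R144.Mix880

open Finset Filter Topology MeasureTheory
open Crest.Agent.R144.It844 (P2 Lip)
open Crest.ProbabilityR.HexHeights (Adj centre)
open Crest.Agent.R144.Ps643 (Ht)
open Crest.Agent.R144.Ga5885 (cov)
open Crest.Agent.R144.Pst967 (Hz hexB mem_hexB hexB_mono LocZ NeutZ GObs FLim scs PinnedZ ZeroLim toR
  measurable_toR)

/-! ### abstract part -/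

/-- clipping to `[-1, 1]` -/
def clip1 (x : ℝ) : ℝ := max (-1) (min 1 x)

theorem abs_clip1_le (x : ℝ) : |clip1 x| ≤ 1 := by
  unfold clip1
  rw [abs_le]
  exact ⟨le_max_left _ _, max_le (by norm_num) (min_le_left _ _)⟩

theorem abs_clip1_sub {x y : ℝ} (hy : |y| ≤ 1) : |clip1 x - y| ≤ |x - y| := by
  obtain ⟨h1, h2⟩ := abs_le.1 hy
  unfold clip1
  rcases le_total x 1 with hx | hx
  · rw [min_eq_right hx]
    rcases le_total (-1) x with hx' | hx'
    · rw [max_eq_right hx']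
    · rw [max_eq_left hx', abs_of_nonpos (by linarith), abs_of_nonpos (by linarith)]
      linarith
  · rw [min_eq_left hx, max_eq_right (by norm_num), abs_of_nonneg (by linarith),
      abs_of_nonneg (by linarith)]
    linarith

theorem continuous_clip1 : Continuous clip1 :=
  continuous_const.max (continuous_const.min continuous_id)

theorem cov_of_filtration {Ω : Type*} [m0 : MeasurableSpace Ω] {Q : Measure Ω}
    [IsProbabilityMeasure Q] (𝒢 : Filtration ℕ m0) {F G : Ω → ℝ} (hF : Measurable F) {A : ℝ}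
    (hA : ∀ ω, |F ω| ≤ A) (hG : Measurable[⨆ n, 𝒢 n] G) (hG1 : ∀ ω, |G ω| ≤ 1) {ε : ℝ}
    (h : ∀ n, ∀ G' : Ω → ℝ, Measurable[𝒢 n] G' → (∀ ω, |G' ω| ≤ 1) → |cov Q F G'| ≤ ε) :
    |cov Q F G| ≤ ε := by
  have hne : Nonempty Ω := by
    by_contra hc
    rw [not_nonempty_iff] at hc
    have h1 : Q Set.univ = 1 := measure_univ
    rw [Set.eq_empty_of_isEmpty (Set.univ : Set Ω), measure_empty] at h1
    exact zero_ne_one h1
  have hA0 : 0 ≤ A := (abs_nonneg _).trans (hA (Classical.choice hne))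
  have hGm : Measurable G := hG.mono (iSup_le 𝒢.le) le_rfl
  have hGi : Integrable G Q := Integrable.of_bound hGm.aestronglyMeasurable 1
    (Eventually.of_forall fun ω => by rw [Real.norm_eq_abs]; exact hG1 ω)
  have hFi : Integrable F Q := Integrable.of_bound hF.aestronglyMeasurable A
    (Eventually.of_forall fun ω => by rw [Real.norm_eq_abs]; exact hA ω)
  have ht := hGi.tendsto_eLpNorm_condExp (ℱ := 𝒢) hG.stronglyMeasurable
  let g : ℕ → Ω → ℝ := fun n ω => clip1 ((Q[G | 𝒢 n]) ω)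
  have hgm : ∀ n, Measurable[𝒢 n] (g n) := fun n =>
    continuous_clip1.measurable.comp stronglyMeasurable_condExp.measurable
  have hgm' : ∀ n, Measurable (g n) := fun n => (hgm n).mono (𝒢.le n) le_rfl
  have hg1 : ∀ n ω, |g n ω| ≤ 1 := fun n ω => abs_clip1_le _
  have hgi : ∀ n, Integrable (g n) Q := fun n => Integrable.of_bound
    (hgm' n).aestronglyMeasurable 1 (Eventually.of_forall fun ω => by
      rw [Real.norm_eq_abs]; exact hg1 n ω)
  -- L1 convergence
  have hL1 : Tendsto (fun n => ∫ ω, |g n ω - G ω| ∂Q) atTop (𝓝 0) := by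
    have e1 : ∀ n, ∫ ω, |(Q[G | 𝒢 n]) ω - G ω| ∂Q = (eLpNorm (Q[G | 𝒢 n] - G) 1 Q).toReal := by
      intro n
      rw [eLpNorm_one_eq_lintegral_enorm, ← integral_norm_eq_lintegral_enorm
        (integrable_condExp.sub hGi).aestronglyMeasurable]
      rfl
    have h2 : Tendsto (fun n => (eLpNorm (Q[G | 𝒢 n] - G) 1 Q).toReal) atTop (𝓝 0) := by
      have := (ENNReal.tendsto_toReal ENNReal.zero_ne_top).comp ht
      simpa [Function.comp_def] using this
    refine squeeze_zero (fun n => integral_nonneg fun ω => abs_nonneg _) (fun n => ?_) h2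
    rw [← e1]
    exact integral_mono ((hgi n).sub hGi).abs (integrable_condExp.sub hGi).abs
      fun ω => abs_clip1_sub (hG1 ω)
  have hprod : ∀ n, Integrable (fun ω => F ω * g n ω) Q := fun n =>
    Integrable.of_bound (hF.mul (hgm' n)).aestronglyMeasurable (A * 1)
      (Eventually.of_forall fun ω => by
        rw [Real.norm_eq_abs, abs_mul]
        exact mul_le_mul (hA ω) (hg1 n ω) (abs_nonneg _) hA0)
  have hprodG : Integrable (fun ω => F ω * G ω) Q :=
    Integrable.of_bound (hF.mul hGm).aestronglyMeasurable (A * 1)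
      (Eventually.of_forall fun ω => by
        rw [Real.norm_eq_abs, abs_mul]
        exact mul_le_mul (hA ω) (hG1 ω) (abs_nonneg _) hA0)
  have t1 : Tendsto (fun n => ∫ ω, F ω * g n ω ∂Q) atTop (𝓝 (∫ ω, F ω * G ω ∂Q)) := by
    rw [tendsto_iff_norm_sub_tendsto_zero]
    have hlim : Tendsto (fun n => A * ∫ ω, |g n ω - G ω| ∂Q) atTop (𝓝 0) := by
      simpa using hL1.const_mul A
    refine squeeze_zero (fun n => norm_nonneg _) (fun n => ?_) hlim
    rw [← integral_sub (hprod n) hprodG, ← integral_const_mul]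
    refine (norm_integral_le_integral_norm _).trans ?_
    refine integral_mono ((hprod n).sub hprodG).norm (((hgi n).sub hGi).abs.const_mul A) fun ω => ?_
    show ‖F ω * g n ω - F ω * G ω‖ ≤ A * |g n ω - G ω|
    rw [← mul_sub, Real.norm_eq_abs, abs_mul]
    exact mul_le_mul_of_nonneg_right (hA ω) (abs_nonneg _)
  have t2 : Tendsto (fun n => ∫ ω, g n ω ∂Q) atTop (𝓝 (∫ ω, G ω ∂Q)) := by
    rw [tendsto_iff_norm_sub_tendsto_zero]
    refine squeeze_zero (fun n => norm_nonneg _) (fun n => ?_) hL1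
    rw [← integral_sub (hgi n) hGi]
    exact norm_integral_le_integral_norm _
  have t3 : Tendsto (fun n => |cov Q F (g n)|) atTop (𝓝 |cov Q F G|) :=
    (t1.sub (t2.const_mul (∫ ω, F ω ∂Q))).abs
  exact le_of_tendsto t3 (Eventually.of_forall fun n => h n (g n) (hgm n) (hg1 n))

/-! ### gradient sigma-algebras -/

/-- sigma-algebra of the height differences over `U` -/
@[instance_reducible]
def gσ (U : Set P2) : MeasurableSpace Ht :=
  MeasurableSpace.comap (fun (h : Ht) (p : U × U) => h p.1 - h p.2) inferInstance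

theorem meas_grad {U : Set P2} {u v : P2} (hu : u ∈ U) (hv : v ∈ U) :
    Measurable[gσ U] (fun h : Ht => h u - h v) := by
  have h1 : Measurable[gσ U] (fun (h : Ht) (p : U × U) => h p.1 - h p.2) := comap_measurable _
  exact (measurable_pi_apply ((⟨u, hu⟩, ⟨v, hv⟩) : U × U)).comp h1

theorem gσ_le_of {U : Set P2} {m : MeasurableSpace Ht}
    (h : ∀ u ∈ U, ∀ v ∈ U, Measurable[m] (fun h : Ht => h u - h v)) : gσ U ≤ m := by
  have : Measurable[m] (fun (h : Ht) (p : U × U) => h p.1 - h p.2) :=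
    measurable_pi_iff.2 fun p => h _ p.1.2 _ p.2.2
  exact this.comap_le

theorem gσ_mono {U V : Set P2} (h : U ⊆ V) : gσ U ≤ gσ V :=
  gσ_le_of fun _ hu _ hv => meas_grad (h hu) (h hv)

theorem gσ_le (U : Set P2) : gσ U ≤ (inferInstance : MeasurableSpace Ht) :=
  gσ_le_of fun _ _ _ _ => (measurable_pi_apply _).sub (measurable_pi_apply _)

/-- a `gσ U` measurable function sees only the differences over `U` -/
theorem eq_of_grad {U : Set P2} {F : Ht → ℝ} (hF : Measurable[gσ U] F) {h k : Ht}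
    (hhk : ∀ u ∈ U, ∀ v ∈ U, h u - h v = k u - k v) : F h = F k := by
  refine hF.factorsThrough (f := fun (h : Ht) (p : U × U) => h p.1 - h p.2) ?_
  funext p
  exact hhk _ p.1.2 _ p.2.2

theorem locZ_toR {U : Set P2} {F : Ht → ℝ} (hF : Measurable[gσ U] F) :
    LocZ U (fun h : Hz => F (toR h)) := fun h k hk => eq_of_grad hF fun u hu v hv => by
  show ((h u : ℝ)) - h v = k u - k v
  rw [hk u hu, hk v hv]

theorem neutZ_toR {U : Set P2} {F : Ht → ℝ} (hF : Measurable[gσ U] F) :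
    NeutZ (fun h : Hz => F (toR h)) := fun h k => eq_of_grad hF fun u _ v _ => by
  show (((h u + k : ℤ) : ℝ)) - ((h v + k : ℤ) : ℝ) = h u - h v
  push_cast
  ring

/-- exhaustion -/
def filt (V : Set P2) : Filtration ℕ (inferInstance : MeasurableSpace Ht) where
  seq n := gσ (V ∩ (hexB n : Set P2))
  mono' := fun _ _ hij => gσ_mono (Set.inter_subset_inter_right _
    (Finset.coe_subset.2 (hexB_mono hij)))
  le' := fun _ => gσ_le _

theorem mem_some (v : P2) : ∃ n : ℕ, v ∈ hexB n := by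
  obtain ⟨n, hn⟩ := Pst967.subset_hexB {v}
  exact ⟨n, hn (Finset.mem_singleton_self _)⟩

theorem gσ_le_iSup (V : Set P2) : gσ V ≤ ⨆ n, filt V n := by
  refine gσ_le_of fun u hu v hv => ?_
  obtain ⟨n, hn⟩ := mem_some u
  obtain ⟨k, hk⟩ := mem_some v
  have h1 : Measurable[filt V (max n k)] (fun h : Ht => h u - h v) :=
    meas_grad ⟨hu, hexB_mono (le_max_left _ _) hn⟩ ⟨hv, hexB_mono (le_max_right _ _) hk⟩
  exact h1.mono (le_iSup (fun n => (filt V n : MeasurableSpace Ht)) (max n k)) le_rfl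

/-- **Mixing, sigma-algebra form.** -/
theorem mix_sigma {c x : ℝ} (hc : 1 ≤ c) {K : ℕ} {p : ℝ} (hR : Rsw867.RSW c K p)
    {P : Measure Hz} (hZ : PinnedZ P) (hL : ZeroLim x scs P)
    (hP : ∀ f : Hz → ℝ, GObs f → FLim c f (∫ h, f h ∂P)) :
    ∃ C α : ℝ, 1 ≤ C ∧ 0 < α ∧ ∀ (a : P2) (m N : ℕ), 1 ≤ m → 1 ≤ N → ∀ U V : Set P2,
      U ⊆ (Rsw867.ball a m : Set P2) → (∀ v ∈ V, v ∉ Rsw867.ball a N) → ∀ F G : Ht → ℝ,
      Measurable[gσ U] F → Measurable[gσ V] G → (∀ h, |F h| ≤ 1) → (∀ h, |G h| ≤ 1) →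
      |cov (P.map toR) F G| ≤ C * ((m : ℝ) / N) ^ α := by
  classical
  obtain ⟨C, α, hC, hα, key⟩ := mix hc hR hZ hL hP
  refine ⟨C, α, hC, hα, fun a m N hm hN U V hU hV F G hF hG hF1 hG1 => ?_⟩
  have hpr := hZ.prob
  have hprQ : IsProbabilityMeasure (P.map toR) :=
    Measure.isProbabilityMeasure_map measurable_toR.aemeasurable
  have hFm : Measurable F := hF.mono (gσ_le U) le_rfl
  refine cov_of_filtration (filt V) hFm hF1 (hG.mono (gσ_le_iSup V) le_rfl) hG1
    fun n G' hG' hG1' => ?_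
  have hGm' : Measurable G' := hG'.mono (gσ_le _) le_rfl
  let S : Finset P2 := (hexB n).filter fun v => v ∈ V
  have h1 := key a m N hm hN S (fun v hv => hV v (Finset.mem_filter.1 hv).2)
    (fun h => F (toR h)) (fun h => G' (toR h)) ((locZ_toR hF).mono hU) (neutZ_toR hF)
    ((locZ_toR hG').mono fun v hv => Finset.mem_coe.2 (Finset.mem_filter.2
      ⟨Finset.mem_coe.1 hv.2, hv.1⟩)) (neutZ_toR hG') 1 1 (fun h _ => hF1 _) (fun h _ => hG1' _)
  rw [mul_one, mul_one] at h1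
  have e1 : ∫ h, F h * G' h ∂(P.map toR) = ∫ h, F (toR h) * G' (toR h) ∂P :=
    integral_map measurable_toR.aemeasurable (hFm.mul hGm').aestronglyMeasurable
  have e2 : ∫ h, F h ∂(P.map toR) = ∫ h, F (toR h) ∂P :=
    integral_map measurable_toR.aemeasurable hFm.aestronglyMeasurable
  have e3 : ∫ h, G' h ∂(P.map toR) = ∫ h, G' (toR h) ∂P :=
    integral_map measurable_toR.aemeasurable hGm'.aestronglyMeasurable
  unfold cov
  rw [e1, e2, e3]
  exact h1

/-! ### continuum regions -/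

section continuum

open Crest.Agent.R144.HexTil353 (cen centre_eq cen_ca_cb ca cb cen_sub norm_cen_sq N_ge)

theorem norm_cen_le' {δ : ℝ} (hδ : 0 ≤ δ) (s t : ℝ) : ‖cen δ s t‖ ≤ δ * (|s| + |t|) := by
  refine (abs_le_of_sq_le_sq' ?_ (by positivity)).2
  rw [norm_cen_sq, mul_pow]
  refine mul_le_mul_of_nonneg_left ?_ (sq_nonneg δ)
  unfold Crest.Agent.R144.HexTil353.N
  have h1 : s * t ≤ |s| * |t| := by rw [← abs_mul]; exact le_abs_self _
  have h2 : 0 ≤ |s| * |t| := by positivity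
  nlinarith [sq_abs s, sq_abs t]

theorem centre_sub' (δ : ℝ) (p q : P2) : centre δ (p - q) = centre δ p - centre δ q := by
  rw [centre_eq, centre_eq, centre_eq, cen_sub]
  push_cast [Prod.fst_sub, Prod.snd_sub]
  rfl

theorem exists_near {δ : ℝ} (hδ : 0 < δ) (z : ℂ) : ∃ a : P2, ‖centre δ a - z‖ ≤ δ := by
  obtain ⟨x, y, hz⟩ : ∃ x y : ℝ, z = cen δ x y := ⟨_, _, (cen_ca_cb hδ z).symm⟩
  refine ⟨(round x, round y), ?_⟩
  rw [hz, centre_eq, cen_sub]
  refine (norm_cen_le' hδ.le _ _).trans ?_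
  have h1 := abs_sub_round x
  have h2 := abs_sub_round y
  rw [abs_sub_comm] at h1 h2
  have h3 : |(round x : ℝ) - x| + |(round y : ℝ) - y| ≤ 1 := by linarith
  calc δ * (|(round x : ℝ) - x| + |(round y : ℝ) - y|) ≤ δ * 1 :=
        mul_le_mul_of_nonneg_left h3 hδ.le
    _ = δ := mul_one _

theorem coord_le' {δ R : ℝ} (hδ : 0 < δ) {p : P2} (h : ‖centre δ p‖ ≤ R) :
    |(p.1 : ℝ)| ≤ 2 * R / δ ∧ |(p.2 : ℝ)| ≤ 2 * R / δ := by
  have hR : 0 ≤ R := (norm_nonneg _).trans h
  have h1 : ‖centre δ p‖ ^ 2 ≤ R ^ 2 := pow_le_pow_left₀ (norm_nonneg _) h 2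
  rw [centre_eq, norm_cen_sq] at h1
  have h2 := N_ge (p.1 : ℝ) (p.2 : ℝ)
  have h3 : δ ^ 2 * ((1 / 2) * ((p.1 : ℝ) ^ 2 + (p.2 : ℝ) ^ 2)) ≤ R ^ 2 :=
    (mul_le_mul_of_nonneg_left h2 (sq_nonneg _)).trans h1
  have key : ∀ x : ℝ, δ ^ 2 * (1 / 2 * x ^ 2) ≤ R ^ 2 → |x| ≤ 2 * R / δ := by
    intro x hx
    rw [le_div_iff₀ hδ]
    refine (abs_le_of_sq_le_sq' ?_ (by positivity)).2
    rw [mul_pow, sq_abs]
    nlinarith
  constructor
  · apply key
    nlinarith [mul_nonneg (sq_nonneg δ) (sq_nonneg (p.2 : ℝ))]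
  · apply key
    nlinarith [mul_nonneg (sq_nonneg δ) (sq_nonneg (p.1 : ℝ))]

/-- sites near `a` -/
theorem mem_ball_of_norm {δ R : ℝ} (hδ : 0 < δ) {a v : P2} (h : ‖centre δ v - centre δ a‖ ≤ R) {m : ℕ}
    (hm : 4 * R / δ ≤ m) : v ∈ Rsw867.ball a m := by
  rw [← centre_sub'] at h
  obtain ⟨h1, h2⟩ := coord_le' hδ h
  have hR : 0 ≤ R := (norm_nonneg _).trans h
  have e : 4 * R / δ = 2 * R / δ + 2 * R / δ := by ring
  have h0 : 0 ≤ 2 * R / δ := by positivity
  rw [Rsw867.mem_ball', mem_hexB]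
  have h3 : |(((v - a).1 + (v - a).2 : ℤ) : ℝ)| ≤ m := by
    push_cast
    exact (abs_add_le _ _).trans (by linarith)
  refine ⟨?_, ?_, ?_⟩
  · have : |(((v - a).1 : ℤ) : ℝ)| ≤ m := by linarith
    exact_mod_cast this
  · have : |(((v - a).2 : ℤ) : ℝ)| ≤ m := by linarith
    exact_mod_cast this
  · exact_mod_cast h3

theorem norm_of_mem_ball {δ : ℝ} (hδ : 0 < δ) {a v : P2} {N : ℕ} (h : v ∈ Rsw867.ball a N) :
    ‖centre δ v - centre δ a‖ ≤ 2 * N * δ := by
  rw [← centre_sub', centre_eq]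
  refine (norm_cen_le' hδ.le _ _).trans ?_
  rw [Rsw867.mem_ball', mem_hexB] at h
  have h1 : |(((v - a).1 : ℤ) : ℝ)| ≤ N := by exact_mod_cast h.1
  have h2 : |(((v - a).2 : ℤ) : ℝ)| ≤ N := by exact_mod_cast h.2.1
  nlinarith

/-- **The field `mix` of helper885's `Mdl`.** -/
theorem mix_field {c x : ℝ} (hc : 1 ≤ c) {K : ℕ} {p : ℝ} (hR : Rsw867.RSW c K p)
    {P : Measure Hz} (hZ : PinnedZ P) (hL : ZeroLim x scs P)
    (hP : ∀ f : Hz → ℝ, GObs f → FLim c f (∫ h, f h ∂P)) {ι : Type*} {l : Filter ι} {δ : ι → ℝ}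
    (hδ : ∀ n, 0 < δ n) (hδ0 : Tendsto δ l (𝓝 0)) :
    ∀ ε : ℝ, 0 < ε → ∃ R : ℝ, 1 ≤ R ∧ ∀ (z : ℂ) (r : ℝ), 0 < r → ∀ᶠ n in l,
      ∀ F G : Ht → ℝ, Measurable[gσ {v | centre (δ n) v ∈ Metric.ball z r}] F →
        Measurable[gσ {v | centre (δ n) v ∈ (Metric.ball z (R * r))ᶜ}] G →
        (∀ ω, |F ω| ≤ 1) → (∀ ω, |G ω| ≤ 1) → |cov (P.map toR) F G| ≤ ε := by
  obtain ⟨C, α, hC, hα, key⟩ := mix_sigma hc hR hZ hL hP
  intro ε hε
  have hC0 : 0 < C := by linarith
  set t : ℝ := min 1 ((ε / C) ^ (1 / α)) with ht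
  have ht0 : 0 < t := lt_min one_pos (Real.rpow_pos_of_pos (by positivity) _)
  have ht1 : t ≤ 1 := min_le_left _ _
  have htα : C * t ^ α ≤ ε := by
    have h1 : t ^ α ≤ ε / C := by
      refine (Real.rpow_le_rpow ht0.le (min_le_right _ _) hα.le).trans ?_
      rw [← Real.rpow_mul (by positivity), one_div, inv_mul_cancel₀ hα.ne', Real.rpow_one]
    calc C * t ^ α ≤ C * (ε / C) := mul_le_mul_of_nonneg_left h1 hC0.le
      _ = ε := by field_simp
  have hR72 : 72 ≤ 72 / t := by rw [le_div_iff₀ ht0]; linarith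
  refine ⟨72 / t, by linarith, fun z r hr => ?_⟩
  have hev : ∀ᶠ n in l, δ n < r / 8 := hδ0.eventually (gt_mem_nhds (by positivity))
  filter_upwards [hev] with n hn F G hF hG hF1 hG1
  have hd := hδ n
  obtain ⟨a, ha⟩ := exists_near hd z
  set m := ⌈8 * r / δ n⌉₊ with hm
  set N := ⌊72 / t * r / (4 * δ n)⌋₊ with hN
  have hm1 : 1 ≤ m := Nat.one_le_iff_ne_zero.2 (Nat.ceil_pos.2 (by positivity)).ne'
  have hbig : (1 : ℝ) ≤ 72 / t * r / (8 * δ n) := by
    rw [one_le_div (by positivity)]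
    nlinarith
  have hNlow : 72 / t * r / (8 * δ n) ≤ N := by
    have h1 := Nat.lt_floor_add_one (72 / t * r / (4 * δ n))
    have h2 : 72 / t * r / (4 * δ n) = 72 / t * r / (8 * δ n) + 72 / t * r / (8 * δ n) := by
      field_simp
      norm_num
    rw [h2] at h1
    have h3 : (N : ℝ) = ⌊72 / t * r / (8 * δ n) + 72 / t * r / (8 * δ n)⌋₊ := by rw [hN, h2]
    rw [h3]
    linarith
  have hN1 : 1 ≤ N := by
    have : (1 : ℝ) ≤ N := hbig.trans hNlow
    exact_mod_cast this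
  have hNup : (N : ℝ) ≤ 72 / t * r / (4 * δ n) := Nat.floor_le (by positivity)
  refine (key a m N hm1 hN1 _ _ (fun v hv => ?_) (fun v hv hv' => ?_) F G hF hG hF1 hG1).trans ?_
  · rw [Set.mem_ofPred_eq, Metric.mem_ball, dist_eq_norm] at hv
    have h1 : ‖centre (δ n) v - centre (δ n) a‖ ≤ 2 * r := by
      have : centre (δ n) v - centre (δ n) a = (centre (δ n) v - z) - (centre (δ n) a - z) := by ring
      rw [this]
      exact (norm_sub_le _ _).trans (by linarith)
    refine Finset.mem_coe.2 (mem_ball_of_norm hd h1 ?_)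
    have : 4 * (2 * r) / δ n = 8 * r / δ n := by ring
    rw [this]
    exact Nat.le_ceil _
  · rw [Set.mem_ofPred_eq, Set.mem_compl_iff, Metric.mem_ball, dist_eq_norm] at hv
    apply hv
    have h1 := norm_of_mem_ball hd hv'
    have h2 : 2 * (N : ℝ) * δ n ≤ 72 / t * r / 2 := by
      calc 2 * (N : ℝ) * δ n ≤ 2 * (72 / t * r / (4 * δ n)) * δ n := by
            have := mul_le_mul_of_nonneg_right hNup hd.le
            linarith
        _ = 72 / t * r / 2 := by field_simp; norm_num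
    have h3 : centre (δ n) v - z = (centre (δ n) v - centre (δ n) a) + (centre (δ n) a - z) := by ring
    rw [h3]
    refine lt_of_le_of_lt (norm_add_le _ _) ?_
    have h4 : 72 * r ≤ 72 / t * r := mul_le_mul_of_nonneg_right hR72 hr.le
    linarith
  · refine le_trans (mul_le_mul_of_nonneg_left (Real.rpow_le_rpow (by positivity) ?_ hα.le)
      hC0.le) htα
    have hN0 : (0 : ℝ) < N := by linarith
    rw [div_le_iff₀ hN0]
    have h1 : (m : ℝ) ≤ 9 * r / δ n := by
      have h2 := (Nat.ceil_lt_add_one (a := 8 * r / δ n) (by positivity)).le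
      have h3 : (1 : ℝ) ≤ r / δ n := by rw [one_le_div hd]; linarith
      have h4 : 9 * r / δ n = 8 * r / δ n + r / δ n := by ring
      rw [h4]
      linarith
    refine h1.trans ?_
    have h5 : t * (72 / t * r / (8 * δ n)) ≤ t * N := mul_le_mul_of_nonneg_left hNlow ht0.le
    refine le_trans (le_of_eq ?_) h5
    field_simp
    norm_num

end continuum

end Crest.Agent.R144.Mix880
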