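import Crest.Agent.R144.Pst10_967

/-!
# R144, plane state (helper967), part 11: from the F-type laws to the zero boundary laws

* `ZL c x Λ E0` : what is used of the joint law `E0` of (heights, closed triangles) with zero boundary values
  off `Λ`: positivity, height marginal `ex x Λ 0`, upper comparison with F-type laws for increasing functions,
  decoupling across a minus closed layer;
* `gradConv_of` : `BLOCK c` and `ZL` for all large simply connected `Λ` imply `GradConv x scs`, with the same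
  limits as the F-type laws (`FLim`).
-/

set_option autoImplicit false

noncomputable section

namespace Crest.Agent.R144.Pst967

open Finset Filter Topology MeasureTheory
open Crest.Agent.R144.It844 (P2 Lip adj_symm adj_iff adj_comm ex)
open Crest.ProbabilityR.HexHeights (Adj)
open Crest.Agent.R144.Zg349 Crest.Agent.R144.Zk349 Crest.Agent.R144.Zd349 Crest.Agent.R144.Zm349
open Crest.Agent.R144.Ze349

/-- the neighbours of `B` are minus closed -/
def MLay (B : Finset P2) (ω : Cfg) : Prop := ∀ t ∈ B, ∀ t', t' ∉ B → Adj t t' → mC ω t'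

theorem mLay_Bs (N : ℕ) (ω : Cfg) : MLay (Bs N ω) ω := fun _ ht _ ht' ha => layer_Bs ht ht' ha

/-- interface of the joint law with zero boundary values off `Λ` -/
structure ZL (c x : ℝ) (Λ : Finset P2) (E0 : (Cfg → ℝ) → ℝ) : Prop where
  add : ∀ f g : Cfg → ℝ, E0 (fun ω => f ω + g ω) = E0 f + E0 g
  smul : ∀ (a : ℝ) (f : Cfg → ℝ), E0 (fun ω => a * f ω) = a * E0 f
  nonneg : ∀ f : Cfg → ℝ, (∀ ω : Cfg, Lip ω.1 → 0 ≤ f ω) → 0 ≤ E0 f
  one : E0 (fun _ => 1) = 1
  ht : ∀ f : Hz → ℝ, E0 (fun ω => f ω.1) = ex x Λ (fun _ => 0) f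
  upper : ∀ B : Finset P2, B ∈ scs → B ⊆ Λ → ∀ f : Cfg → ℝ, IncP f → InTZ B f → E0 f ≤ E c B f
  dec : ∀ B : Finset P2, B ∈ scs → (∀ t ∈ B, ∀ t', Adj t t' → t' ∈ Λ) → ∀ g : Cfg → ℝ, OffTZ B g →
    (∀ ω, 0 ≤ g ω) → (∀ ω, g ω ≠ 0 → MLay B ω) → ∀ (W : Finset P2), W ⊆ IV B →
    ∀ φ : (P2 → Bool) → (P2 → Bool) → (P2 → Bool) → ℝ, DepW W φ →
    E0 (fun ω => g ω * φ (c1 ω) (c2 ω) ω.2) =
      E0 g * E c B (fun ω => φ (c1 (addH 2 ω)) (c2 (addH 2 ω)) ω.2)

namespace ZL

variable {c x : ℝ} {Λ : Finset P2} {E0 : (Cfg → ℝ) → ℝ}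

theorem sub (h : ZL c x Λ E0) (f g : Cfg → ℝ) : E0 (fun ω => f ω - g ω) = E0 f - E0 g := by
  have h1 := h.add f (fun ω => (-1) * g ω)
  have h2 := h.smul (-1) g
  rw [h2] at h1
  have e : (fun ω => f ω - g ω) = fun ω => f ω + -1 * g ω := by
    funext ω; ring
  rw [e, h1]
  ring

theorem mono (h : ZL c x Λ E0) {f g : Cfg → ℝ} (hfg : ∀ ω : Cfg, Lip ω.1 → f ω ≤ g ω) : E0 f ≤ E0 g := by
  have h1 := h.nonneg (fun ω => g ω - f ω) fun ω hω => sub_nonneg.2 (hfg ω hω)
  rw [h.sub] at h1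
  linarith

theorem congr (h : ZL c x Λ E0) {f g : Cfg → ℝ} (hfg : ∀ ω : Cfg, Lip ω.1 → f ω = g ω) : E0 f = E0 g :=
  le_antisymm (h.mono fun ω hω => (hfg ω hω).le) (h.mono fun ω hω => (hfg ω hω).ge)

theorem sum (h : ZL c x Λ E0) {ι : Type*} (s : Finset ι) (f : ι → Cfg → ℝ) :
    E0 (fun ω => ∑ i ∈ s, f i ω) = ∑ i ∈ s, E0 (f i) := by
  classical
  induction s using Finset.induction_on with
  | empty =>
    have := h.smul 0 (fun _ => 1)
    simpa using this
  | insert a s ha ih =>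
    simp only [Finset.sum_insert ha]
    rw [h.add, ih]

end ZL

/-- `a` is the limit of the F-type expectations of the gradient observable `f` -/
def FLim (c : ℝ) (f : Hz → ℝ) (a : ℝ) : Prop :=
  Tendsto (fun F : Finset P2 => E c F (fun ω => f ω.1)) (lC scs) (𝓝 a)

/-- the failure of blocking seen inside a large ball -/
theorem inTZ_nBlk {M N : ℕ} {B : Finset P2} (hB : hexB N ⊆ IV B) : InTZ B (nBlk M N) := by
  have hsub : hexB N ⊆ B := hB.trans (IV_sub B)
  have key : ∀ ω ω' : Cfg, (∀ v ∈ IV B, s1 (ω.1 v) = s1 (ω'.1 v)) → (∀ t ∈ B, ω.2 t = ω'.2 t) →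
      Blk M N ω' → Blk M N ω := by
    intro ω ω' h1 h2 hb t ht hX
    obtain ⟨t0, h3, h4⟩ := hX
    -- the last part of the path inside `hexB N`
    have h5 : ∀ t, Relation.ReflTransGen (XStep ω) t0 t → t ∈ Xs N ω' := by
      intro t h
      induction h with
      | refl => exact xs_of_notMem ω' h3
      | @tail b d _ h6 ih =>
        by_cases hd : d ∈ hexB N
        · refine xs_step ih h6.1 fun h7 => h6.2 ?_
          unfold mC at *
          rwa [h1 d (hB hd), h2 d (hsub hd)]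
        · exact xs_of_notMem ω' hd
    exact hb t ht (h5 t h4)
  intro ω ω' h1 h2
  unfold nBlk
  by_cases h : Blk M N ω
  · rw [if_pos h, if_pos (key ω' ω (fun v hv => (h1 v hv).symm) (fun t ht => (h2 t ht).symm) h)]
  · rw [if_neg h, if_neg fun h' => h (key ω ω' h1 h2 h')]

/-- when blocking holds the unexplored domain contains the inner ball -/
theorem hexB_sub_Bs {M N : ℕ} {ω : Cfg} (h : Blk (M + 2) N ω) : hexB M ⊆ Bs N ω := by
  intro t ht
  rw [mem_Bs]
  have hM : (M : ℤ) ≤ ((M + 2 : ℕ) : ℤ) := by push_cast; omega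
  refine ⟨fun hX => h t (hexB_mono (by omega) ht) hX, fun t' ha hX => h t' ?_ hX⟩
  rw [mem_hexB] at ht ⊢
  simp only [abs_le] at *
  unfold Adj at ha
  push_cast
  omega

/-- **Passage to the zero boundary laws.** -/
theorem conv_zero {c x : ℝ} (hc : 1 ≤ c) (hB : BLOCK c)
    (hZ : ∀ᶠ Λ in lC scs, ∃ E0 : (Cfg → ℝ) → ℝ, ZL c x Λ E0) {f : Hz → ℝ} (hf : GObs f) {a : ℝ}
    (ha : FLim c f a) : Tendsto (fun Λ : Finset P2 => ex x Λ (fun _ => 0) f) (lC scs) (𝓝 a) := by
  classical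
  obtain ⟨W, φ, C, hφ, hC, hfφ⟩ := exists_colour hf
  have hC0 : 0 ≤ C := (abs_nonneg _).trans (hC (fun _ => true) (fun _ => true) (fun _ => true))
  -- the limit is bounded by `C`
  have hEb : ∀ F : Finset P2, |E c F (fun ω => f ω.1)| ≤ C := by
    intro F
    have h1 : ∀ ω : Cfg, Valid F ω → |f ω.1| ≤ C := fun ω hω => by
      rw [← hfφ ω.1 hω.ht.toLip ω.2]; exact hC _ _ _
    rw [abs_le]
    constructor
    · rw [← E_const hc F (-C)]
      exact E_mono hc fun ω hω => (abs_le.1 (h1 ω hω)).1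
    · rw [← E_const hc F C]
      exact E_mono hc fun ω hω => (abs_le.1 (h1 ω hω)).2
  rw [Metric.tendsto_nhds]
  intro ε hε
  -- all large domains are good for the F-type laws
  have ha' := (Metric.tendsto_nhds.1 ha) (ε / 4) (by positivity)
  obtain ⟨S, hS⟩ := mem_lC.1 ha'
  obtain ⟨M, hM⟩ := subset_hexB (S ∪ W ∪ (S ∪ W).biUnion fun v => {v, (v.1 - 1, v.2), (v.1, v.2 - 1)})
  have hWIV : ∀ B : Finset P2, hexB M ⊆ B → W ⊆ IV B := by
    intro B hMB v hv
    rw [mem_IV']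
    intro t ht
    refine hMB (hM (Finset.mem_union_right _ (Finset.mem_biUnion.2
      ⟨v, Finset.mem_union_right _ hv, ?_⟩)))
    rw [mem_up'] at ht
    simp only [Finset.mem_insert, Finset.mem_singleton]
    exact ht
  have hSB : ∀ B : Finset P2, hexB M ⊆ B → S ⊆ B := fun B hMB v hv =>
    hMB (hM (Finset.mem_union_left _ (Finset.mem_union_left _ hv)))
  obtain ⟨N, hMN, hN⟩ := hB (M + 2) (ε / (8 * (C + |a| + 1))) (by positivity)
  obtain ⟨S', hS'⟩ := mem_lC.1 hN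
  obtain ⟨K, hK⟩ := subset_hexB (S' ∪ hexB (N + 2))
  have hK1 : S' ⊆ hexB K := fun v hv => hK (Finset.mem_union_left _ hv)
  have hK2 : hexB (N + 2) ⊆ hexB K := fun v hv => hK (Finset.mem_union_right _ hv)
  have hNIV : hexB N ⊆ IV (hexB K) := by
    intro v hv
    rw [mem_IV']
    intro t ht
    refine hK2 ?_
    rw [mem_up'] at ht
    rw [mem_hexB] at hv ⊢
    simp only [abs_le] at *
    push_cast
    rcases ht with rfl | rfl | rfl
    · omega
    · simp only at *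
      omega
    · simp only at *
      omega
  filter_upwards [hZ, mem_lC_of_subset (hexB (K + 2))] with Λ ⟨E0, h0⟩ hΛ
  have hKΛ : hexB K ⊆ Λ := (hexB_mono (by omega)).trans hΛ
  -- blocking under the zero law
  have hblk : E0 (nBlk (M + 2) N) ≤ ε / (8 * (C + |a| + 1)) :=
    (h0.upper (hexB K) (hexB_mem_scs K) hKΛ _ (incP_nBlk _ _) (inTZ_nBlk hNIV)).trans
      (hS' (hexB K) (hexB_mem_scs K) hK1)
  -- decomposition
  have hdec : ∀ B ∈ (hexB N).powerset, hexB M ⊆ B → B ∈ scs →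
      |E0 (fun ω => BsI N B ω * (φ (c1 ω) (c2 ω) ω.2 - a))| ≤ ε / 4 * E0 (BsI N B) := by
    intro B hBN hMB hBs
    rw [Finset.mem_powerset] at hBN
    have h1 : E0 (fun ω => BsI N B ω * (φ (c1 ω) (c2 ω) ω.2 - a)) =
        E0 (BsI N B) * (E c B (fun ω => f ω.1) - a) := by
      have e1 : (fun ω => BsI N B ω * (φ (c1 ω) (c2 ω) ω.2 - a)) =
          fun ω => BsI N B ω * φ (c1 ω) (c2 ω) ω.2 - a * BsI N B ω := by
        funext ω; ring
      rw [e1, h0.sub, h0.smul]
      rw [h0.dec B hBs (fun t ht t' ha => by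
        have h2 := hBN ht
        have h3 : t' ∈ hexB (N + 2) := by
          rw [mem_hexB] at h2 ⊢
          simp only [abs_le] at *
          unfold Adj at ha
          push_cast
          omega
        exact hKΛ (hK2 h3)) (BsI N B) (offTZ_BsI N B) (BsI_nonneg N B) (fun ω hω => by
          have : Bs N ω = B := by
            by_contra h4
            exact hω (if_neg h4)
          rw [← this]
          exact mLay_Bs N ω) W (hWIV B hMB) φ hφ]
      have e2 : E c B (fun ω => φ (c1 (addH 2 ω)) (c2 (addH 2 ω)) ω.2) = E c B (fun ω => f ω.1) := by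
        refine E_congr fun ω hω => ?_
        have h5 : φ (c1 (addH 2 ω)) (c2 (addH 2 ω)) ω.2 = f (addH 2 ω).1 :=
          hfφ (addH 2 ω).1 (hω.ht.toLip.add_const 2) ω.2
        rw [h5]
        exact hf.neut ω.1 2
      rw [e2]
      ring
    have h2 : dist (E c B (fun ω => f ω.1)) a < ε / 4 := hS B hBs (hSB B hMB)
    rw [Real.dist_eq] at h2
    have h3 : 0 ≤ E0 (BsI N B) := h0.nonneg _ fun ω _ => BsI_nonneg N B ω
    rw [h1, abs_mul, abs_of_nonneg h3, mul_comm]
    exact mul_le_mul_of_nonneg_right h2.le h3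
  -- the total
  have htot : ex x Λ (fun _ => 0) f - a = E0 (fun ω => φ (c1 ω) (c2 ω) ω.2 - a) := by
    rw [← h0.ht f]
    have e3 : E0 (fun ω => φ (c1 ω) (c2 ω) ω.2 - a) = E0 (fun ω => f ω.1 - a * 1) :=
      h0.congr fun ω hω => by rw [mul_one, ← hfφ ω.1 hω ω.2]; rfl
    rw [e3, h0.sub, h0.smul, h0.one, mul_one]
  have hsplit : E0 (fun ω => φ (c1 ω) (c2 ω) ω.2 - a) =
      ∑ B ∈ (hexB N).powerset, E0 (fun ω => BsI N B ω * (φ (c1 ω) (c2 ω) ω.2 - a)) := by
    rw [← h0.sum]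
    refine h0.congr fun ω _ => ?_
    rw [← Finset.sum_mul, sum_BsI, one_mul]
  -- bad domains
  have hbad : ∀ B ∈ (hexB N).powerset, ¬ (hexB M ⊆ B ∧ B ∈ scs) →
      |E0 (fun ω => BsI N B ω * (φ (c1 ω) (c2 ω) ω.2 - a))| ≤
        (C + |a|) * E0 (fun ω => BsI N B ω * nBlk (M + 2) N ω) := by
    intro B _ hnot
    have h1 : ∀ ω : Cfg, |BsI N B ω * (φ (c1 ω) (c2 ω) ω.2 - a)| ≤
        (C + |a|) * (BsI N B ω * nBlk (M + 2) N ω) := by
      intro ω
      unfold BsI
      split_ifs with h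
      · have h2 : ¬ Blk (M + 2) N ω := by
          intro hb
          refine hnot ⟨?_, ?_⟩
          · rw [← h]; exact hexB_sub_Bs hb
          · rw [← h]; exact sc_Bs N ω
        unfold nBlk
        rw [if_neg h2, one_mul, one_mul, mul_one]
        refine (abs_sub _ _).trans (add_le_add (hC _ _ _) le_rfl)
      · rw [zero_mul, abs_zero, zero_mul, mul_zero]
    rw [abs_le]
    constructor
    · rw [← h0.smul, neg_le_iff_add_nonneg, ← h0.add]
      exact h0.nonneg _ fun ω _ => by have := (abs_le.1 (h1 ω)).1; linarith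
    · rw [← h0.smul]
      exact h0.mono fun ω _ => (abs_le.1 (h1 ω)).2
  have hfin : |∑ B ∈ (hexB N).powerset, E0 (fun ω => BsI N B ω * (φ (c1 ω) (c2 ω) ω.2 - a))| ≤
      ∑ B ∈ (hexB N).powerset, (ε / 4 * E0 (BsI N B) +
        (C + |a|) * E0 (fun ω => BsI N B ω * nBlk (M + 2) N ω)) := by
    refine (Finset.abs_sum_le_sum_abs _ _).trans (Finset.sum_le_sum fun B hBN => ?_)
    have p1 : 0 ≤ ε / 4 * E0 (BsI N B) :=
      mul_nonneg (by positivity) (h0.nonneg _ fun ω _ => BsI_nonneg N B ω)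
    have p2 : 0 ≤ (C + |a|) * E0 (fun ω => BsI N B ω * nBlk (M + 2) N ω) :=
      mul_nonneg (by positivity) (h0.nonneg _ fun ω _ => mul_nonneg (BsI_nonneg N B ω) (nBlk_nonneg _ _ _))
    by_cases hgood : hexB M ⊆ B ∧ B ∈ scs
    · exact (hdec B hBN hgood.1 hgood.2).trans (by linarith)
    · exact (hbad B hBN hgood).trans (by linarith)
  have hsum : ∑ B ∈ (hexB N).powerset, (ε / 4 * E0 (BsI N B) +
        (C + |a|) * E0 (fun ω => BsI N B ω * nBlk (M + 2) N ω)) =
      ε / 4 + (C + |a|) * E0 (nBlk (M + 2) N) := by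
    rw [Finset.sum_add_distrib, ← Finset.mul_sum, ← Finset.mul_sum, ← h0.sum, ← h0.sum]
    have e4 : (fun ω => ∑ i ∈ (hexB N).powerset, BsI N i ω) = fun _ => (1 : ℝ) := by
      funext ω; exact sum_BsI N ω
    have e5 : (fun ω => ∑ i ∈ (hexB N).powerset, BsI N i ω * nBlk (M + 2) N ω) = nBlk (M + 2) N := by
      funext ω
      rw [← Finset.sum_mul, sum_BsI, one_mul]
    rw [e4, e5, h0.one, mul_one]
  rw [Real.dist_eq, htot, hsplit]
  refine lt_of_le_of_lt (hfin.trans hsum.le) ?_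
  have h9 : 0 ≤ E0 (nBlk (M + 2) N) := h0.nonneg _ fun ω _ => nBlk_nonneg _ _ _
  have h10 : (C + |a|) * E0 (nBlk (M + 2) N) ≤ ε / 8 := by
    have hp : 0 < C + |a| + 1 := by positivity
    calc (C + |a|) * E0 (nBlk (M + 2) N) ≤ (C + |a| + 1) * E0 (nBlk (M + 2) N) := by nlinarith
      _ ≤ (C + |a| + 1) * (ε / (8 * (C + |a| + 1))) := mul_le_mul_of_nonneg_left hblk hp.le
      _ = ε / 8 := by field_simp
  linarith

/-- **GradConv** -/
theorem gradConv_of {c x : ℝ} (hc : 1 ≤ c) (hB : BLOCK c)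
    (hZ : ∀ᶠ Λ in lC scs, ∃ E0 : (Cfg → ℝ) → ℝ, ZL c x Λ E0) : GradConv x scs := by
  intro f hf
  obtain ⟨a, ha⟩ := conv_grad hc hB hf
  exact ⟨a, conv_zero hc hB hZ hf ha⟩

/-- **The plane state from blocking.** -/
theorem exists_plane {c x : ℝ} (hx : 0 < x) (hc : 1 ≤ c) (hB : BLOCK c)
    (hZ : ∀ᶠ Λ in lC scs, ∃ E0 : (Cfg → ℝ) → ℝ, ZL c x Λ E0) :
    ∃ P : Measure Hz, PinnedZ P ∧ ZeroLim x scs P ∧ Ps643.PlaneState (P.map toR) ∧
      ∀ f : Hz → ℝ, GObs f → FLim c f (∫ h, f h ∂P) := by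
  obtain ⟨P, h1, h2, h3⟩ := planeState_of_gradConv hx cls_scs (gradConv_of hc hB hZ)
  refine ⟨P, h1, h2, h3, fun f hf => ?_⟩
  obtain ⟨a, ha⟩ := conv_grad hc hB hf
  have hne := cls_scs.neBot
  have := tendsto_nhds_unique (conv_zero hc hB hZ hf ha) (h2 f hf)
  rwa [← this]

end Crest.Agent.R144.Pst967
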