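import Crest.Agent.R144.Zo5_349
import Crest.Agent.R144.Pst11_967

/-!
# R144: the zero boundary law satisfies helper967's interface `ZL` (helper349)
-/

set_option autoImplicit false

noncomputable section

namespace Crest.Agent.R144.Zo349

open Finset
open Crest.Agent.R144.It844 (P2 Lip Cst adj_iff adj_symm lip_iff upT mem_upT lip_const)
open Crest.Agent.R144.Zg349 Crest.Agent.R144.Zk349 Crest.Agent.R144.Zd349 Crest.Agent.R144.Zm349
open Crest.Agent.R144.Ze349 Crest.Agent.R144.Zs349 Crest.Agent.R144.Zf349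
open Crest.Agent.R144.Pst967 (ZL scs mem_scs MLay c1 c2 DepW)
open Crest.ProbabilityR.HexHeights (Adj)

/-- if all neighbours of the triangles of `B` are in `Λ`, all sites of `B` are in `Λ` -/
theorem vf_sub_of_adj {Λ B : Finset P2} (hΛ : Λ ∈ scs) (h : ∀ t ∈ B, ∀ t', Adj t t' → t' ∈ Λ) :
    VF B ⊆ Λ := by
  intro v hv
  obtain ⟨t, ht, hvt⟩ := mem_VF.1 hv
  have hb : t ∈ Λ := by
    by_contra hb
    obtain ⟨w, hw⟩ := Infinite.exists_notMem_finset (insert t Λ)
    rw [Finset.mem_insert, not_or] at hw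
    have hp := (mem_scs.1 hΛ) t (by simpa using hb) w (by simpa using hw.2)
    rcases Relation.ReflTransGen.cases_head hp with h1 | ⟨c, h1, _⟩
    · exact hw.1 h1.symm
    · have h2 : c ∉ Λ := by simpa using h1.2.1
      exact h2 (h t ht c h1.2.2)
  by_cases hvt' : v = t
  · rw [hvt']; exact hb
  · exact h t ht v (by
      obtain ⟨a, b⟩ := t
      rcases mem_up.1 hvt with rfl | rfl | rfl
      · exact absurd rfl hvt'
      · exact It844.adj_e1 _
      · exact It844.adj_e2 _)

/-- **The zero boundary law satisfies `ZL`.** -/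
theorem zl {c x : ℝ} (hc : 1 ≤ c) (hcx : c * x ^ 2 = 1) {Λ : Finset P2} (hΛ : Λ ∈ scs) :
    ZL c x Λ (E0 c Λ fun _ => 0) := by
  have hl : Lip (fun _ : P2 => (0 : ℤ)) := lip_const 0
  have hΛ' : IsConn ((Λ : Set P2)ᶜ) := mem_scs.1 hΛ
  refine ⟨fun f g => E0_add f g, fun a f => E0_smul a f, fun f hf => ?_, E0_const hc hl 1,
    fun f => E0_height hcx Λ _ f, ?_, ?_⟩
  · exact E0_nonneg hc fun ω hω => hf ω (mem_cf.1 hω).1.1
  · intro B hB hBΛ f hf hin
    have h := upper0 hc (ξ := fun _ => 0) hΛ' (fun _ _ => rfl) (mem_scs.1 hB)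
      (fun t ht => mem_upT.2 (Or.inl (hBΛ ht))) ((IV_sub B).trans hBΛ) hl hf hin
      (g := fun _ => 1) (fun _ => zero_le_one) (fun _ _ _ _ => rfl)
    rw [E0_const hc hl, one_mul] at h
    simpa only [one_mul] using h
  · intro B hB hBΛ g hg hg0 hg1 W hW φ hφ
    refine E0_dec_col (e := false) hc (mem_scs.1 hB) (vf_sub_of_adj hΛ hBΛ)
      (f := fun ω => φ (c1 ω) (c2 ω) ω.2) hg ?_ ?_
    · intro ω h t' ht' h1
      obtain ⟨v, hv, hv'⟩ := h1
      obtain ⟨t, ht, h2⟩ := mem_VF.1 hv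
      exact hg1 ω h t ht t' ht' (adj_of_site (fun h3 => ht' (h3 ▸ ht)) h2 hv')
    · intro ω ω' h1 h2
      have hWV : ∀ v ∈ W, v ∈ VF B := fun v hv => IV_sub_VF B (hW hv)
      refine hφ.dep _ _ _ _ _ _ ?_ ?_ ?_
      · intro v hv
        have h3 : (ω.1 v - ω'.1 v) % 4 = 2 := h1 v (hWV v hv)
        simp only [c1, addH]
        unfold s1
        rw [decide_eq_decide]
        omega
      · intro v hv
        have h3 : (ω.1 v - ω'.1 v) % 4 = 2 := h1 v (hWV v hv)
        simp only [c2, addH]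
        unfold s2
        rw [decide_eq_decide]
        omega
      · intro t ht
        exact h2 t (IV_sub B (hW ht))

end Crest.Agent.R144.Zo349
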