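import Crest.Agent.R144.Pst11_967
import Crest.Agent.R144.Zo6_349
import Crest.Agent.R144.Pos3_561

/-!
# R144, plane state (helper967), part 12: the plane state of the weights `0 < x ≤ 1` from `RSWZ`

`plane_of_block`, `plane_of_rswz`: with `c = x⁻²`, the input `BLOCK c` (resp. `RSWZ c`) gives the plane state `P`:
the limit of the zero boundary laws along simply connected volumes, a `PlaneState` after the cast to the reals, and
the limit of the F-type laws (`FLim`).  The interface `ZL` is helper349's `zl`, `BLOCK` is helper561's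
`block_of_rswz`.
-/

set_option autoImplicit false

noncomputable section

namespace Crest.Agent.R144.Pst967

open Finset Filter MeasureTheory Topology
open Crest.Agent.R144.It844 (P2)
open Crest.Agent.R144.Zg349 Crest.Agent.R144.Zd349
open Crest.Agent.R144.Ze349
open Crest.Agent.R144.Rsw867 (RSWZ)

/-- all simply connected volumes satisfy the interface `ZL` -/
theorem eventually_zl {c x : ℝ} (hc : 1 ≤ c) (hcx : c * x ^ 2 = 1) :
    ∀ᶠ Λ in lC scs, ∃ E0 : (Cfg → ℝ) → ℝ, ZL c x Λ E0 :=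
  mem_lC.2 ⟨∅, fun _ hΛ _ => ⟨_, Zo349.zl hc hcx hΛ⟩⟩

/-- `c = x⁻²` for `0 < x ≤ 1` -/
theorem one_le_c {x : ℝ} (hx : 0 < x) (hx1 : x ≤ 1) : 1 ≤ (x ^ 2)⁻¹ := by
  rw [one_le_inv₀ (by positivity)]
  nlinarith

theorem c_mul {x : ℝ} (hx : 0 < x) : (x ^ 2)⁻¹ * x ^ 2 = 1 := inv_mul_cancel₀ (by positivity)

/-- **the plane state from `BLOCK c`** -/
theorem plane_of_block {c x : ℝ} (hx : 0 < x) (hc : 1 ≤ c) (hcx : c * x ^ 2 = 1) (hB : BLOCK c) :
    ∃ P : Measure Hz, PinnedZ P ∧ ZeroLim x scs P ∧ Ps643.PlaneState (P.map toR) ∧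
      ∀ f : Hz → ℝ, GObs f → FLim c f (∫ h, f h ∂P) :=
  exists_plane hx hc hB (eventually_zl hc hcx)

/-- **the plane state from `RSWZ c`** -/
theorem plane_of_rswz {c x : ℝ} (hx : 0 < x) (hc : 1 ≤ c) (hcx : c * x ^ 2 = 1) (hR : RSWZ c) :
    ∃ P : Measure Hz, PinnedZ P ∧ ZeroLim x scs P ∧ Ps643.PlaneState (P.map toR) ∧
      ∀ f : Hz → ℝ, GObs f → FLim c f (∫ h, f h ∂P) :=
  plane_of_block hx hc hcx (Pos561.block_of_rswz hc hR)

/-- the same for `0 < x ≤ 1` and `c = x⁻²` -/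
theorem plane_of_rswz' {x : ℝ} (hx : 0 < x) (hx1 : x ≤ 1) (hR : RSWZ (x ^ 2)⁻¹) :
    ∃ P : Measure Hz, PinnedZ P ∧ ZeroLim x scs P ∧ Ps643.PlaneState (P.map toR) ∧
      ∀ f : Hz → ℝ, GObs f → FLim (x ^ 2)⁻¹ f (∫ h, f h ∂P) :=
  plane_of_rswz hx (one_le_c hx hx1) (c_mul hx) hR

end Crest.Agent.R144.Pst967
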