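import Crest.Agent.R144.Cw11_643
import Crest.Agent.R144.Mix7_880
import Crest.Agent.R144.Dpl5_702
import Crest.Agent.R144.Pst12_967

/-!
# R144 (helper643): the plane state of the integer model is an instance of helper885's `Mdl`

`XX d φ h = ∑ᶠ v, Dop (φ ∘ centre d) v * h v`; `mdl`: `Mdl` for the plane state, the gradient sigma-algebras
`gσ {v | centre (δ n) v ∈ U}` and the stiffness `κ` of `Lim2`.
-/

set_option autoImplicit false

noncomputable section

namespace Crest.Agent.R144.Gi643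

open Finset Filter Topology MeasureTheory
open Crest.Agent.R144.It844 (Lip ex)
open Crest.ProbabilityR.HexHeights (Adj centre)
open Crest.Agent.R144.HexTil353 Crest.Agent.R144.Geo268
open Crest.Agent.R144.Tp952
open Crest.Agent.R144.Ps643 Crest.Agent.R144.Ps643.PlaneState
open Crest.Agent.R144.Cw643
open Crest.Agent.R144.Ga5885 (cov Mdl Tst en)
open Crest.Agent.R144.Mix880 (gσ meas_grad gσ_le gσ_mono mix_field)
open Crest.Agent.R144.Pst967 (Hz hexB LocZ NeutZ GObs FLim scs PinnedZ ZeroLim toR measurable_toR)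
open scoped Real ContDiff Laplacian

/-- the lattice functional `h (-Δ φ)` at scale `d` -/
def XX (d : ℝ) (φ : ℂ → ℝ) (h : Ht) : ℝ := ∑ᶠ v : P2, Dop (fun v => φ (centre d v)) v * h v

theorem XX_eq {d : ℝ} {φ : ℂ → ℝ} {s : Finset P2}
    (hs : ∀ p, p ∉ s → Dop (fun v => φ (centre d v)) p = 0) (h : Ht) :
    XX d φ h = lin s (Dop fun v => φ (centre d v)) h := by
  unfold XX lin
  refine finsum_eq_sum_of_support_subset _ fun v hv => ?_
  by_contra h1
  apply hv
  rw [Finset.mem_coe] at h1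
  show Dop (fun v => φ (centre d v)) v * h v = 0
  rw [hs v h1, zero_mul]

theorem exists_R {φ : ℂ → ℝ} (hφ : Tst φ) : ∃ R : ℝ, 0 ≤ R ∧ ∀ z, φ z ≠ 0 → ‖z‖ ≤ R := by
  obtain ⟨R, hR⟩ := hφ.2.isBounded.exists_norm_le
  exact ⟨|R|, abs_nonneg _, fun z hz => (hR z (subset_tsupport _ hz)).trans (le_abs_self R)⟩

theorem wt_Dop {d : ℝ} (hd : 0 < d) {φ : ℂ → ℝ} {R : ℝ} (hR : ∀ z, φ z ≠ 0 → ‖z‖ ≤ R) :
    Wt (BX (mm R d)) (Dop fun v => φ (centre d v)) := by
  have h7 : Sup7 (BX (mm R d)) (fun v => φ (centre d v)) := sup7_of_norm hd fun p hp => hR _ hp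
  exact ⟨fun p hp => Dop_zero h7 hp, sum_Dop h7⟩

theorem XX_box {d : ℝ} (hd : 0 < d) {φ : ℂ → ℝ} {R : ℝ} (hR : ∀ z, φ z ≠ 0 → ‖z‖ ≤ R) (h : Ht) :
    XX d φ h = lin (BX (mm R d)) (Dop fun v => φ (centre d v)) h :=
  XX_eq (wt_Dop hd hR).1 h

theorem Dop_add (f g : P2 → ℝ) (p : P2) : Dop (fun v => f v + g v) p = Dop f p + Dop g p := by
  unfold Dop; ring

/-- support of the lattice Laplacian -/
theorem Dop_ne_zero {d : ℝ} (hd : 0 ≤ d) {φ : ℂ → ℝ} {v : P2}
    (hv : Dop (fun v => φ (centre d v)) v ≠ 0) : ∃ w : ℂ, φ w ≠ 0 ∧ ‖centre d v - w‖ ≤ d := by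
  by_contra hcon
  push Not at hcon
  apply hv
  have z0 : ∀ e ∈ six, φ (centre d (v - e)) = 0 := by
    intro e he
    by_contra h1
    have h2 := hcon _ h1
    rw [centre_sub, sub_sub_cancel] at h2
    exact absurd (norm_centre_six hd he) (not_le.2 h2)
  have z1 : φ (centre d v) = 0 := by
    by_contra h1
    have h2 := hcon _ h1
    rw [sub_self, norm_zero] at h2
    linarith
  unfold Dop
  beta_reduce
  rw [z1, z0 _ (by decide), z0 _ (by decide), z0 _ (by decide), z0 _ (by decide),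
    z0 _ (by decide), z0 _ (by decide)]
  ring

/-- the lattice Laplacian kills affine functions -/
theorem Dop_affine {d : ℝ} (hd : 0 ≤ d) {φ : ℂ → ℝ} {a : ℝ} {L : ℂ →L[ℝ] ℝ} {v : P2}
    (hv : ∀ w : ℂ, ‖w - centre d v‖ ≤ d → φ w = a + L w) :
    Dop (fun v => φ (centre d v)) v = 0 := by
  have z0 : ∀ e ∈ six, φ (centre d (v - e)) = a + (L (centre d v) - L (centre d e)) := by
    intro e he
    rw [hv _ (by rw [centre_sub, sub_sub_cancel_left, norm_neg]; exact norm_centre_six hd he),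
      centre_sub, map_sub]
  have z1 : φ (centre d v) = a + L (centre d v) := hv _ (by rw [sub_self, norm_zero]; exact hd)
  have n1 : ∀ e : P2, centre d (-e) = - centre d e := by
    intro e
    have := centre_sub d 0 e
    have h0 : centre d (0 : P2) = 0 := by
      have := centre_sub d 0 0
      rwa [sub_self, sub_self] at this
    rw [zero_sub, h0, zero_sub] at this
    exact this
  have f1 : (((-1 : ℤ), (0 : ℤ)) : P2) = - ((1 : ℤ), (0 : ℤ)) := by decide
  have f2 : (((0 : ℤ), (-1 : ℤ)) : P2) = - ((0 : ℤ), (1 : ℤ)) := by decide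
  have f3 : (((-1 : ℤ), (1 : ℤ)) : P2) = - ((1 : ℤ), (-1 : ℤ)) := by decide
  have e1 : L (centre d ((-1 : ℤ), (0 : ℤ))) = - L (centre d ((1 : ℤ), (0 : ℤ))) := by
    rw [f1, n1, map_neg]
  have e2 : L (centre d ((0 : ℤ), (-1 : ℤ))) = - L (centre d ((0 : ℤ), (1 : ℤ))) := by
    rw [f2, n1, map_neg]
  have e3 : L (centre d ((-1 : ℤ), (1 : ℤ))) = - L (centre d ((1 : ℤ), (-1 : ℤ))) := by
    rw [f3, n1, map_neg]
  unfold Dop
  beta_reduce
  rw [z1, z0 (1, 0) (by decide), z0 (-1, 0) (by decide), z0 (0, 1) (by decide),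
    z0 (0, -1) (by decide), z0 (1, -1) (by decide), z0 (-1, 1) (by decide), e1, e2, e3]
  generalize L (centre d ((1 : ℤ), (0 : ℤ))) = a1
  generalize L (centre d ((0 : ℤ), (1 : ℤ))) = a2
  generalize L (centre d ((1 : ℤ), (-1 : ℤ))) = a3
  generalize L (centre d v) = a4
  ring

/-- a mass-zero linear functional of the heights over `U` is a function of the gradients over `U` -/
theorem meas_lin {U : Set P2} {s : Finset P2} {f : P2 → ℝ} (h0 : ∑ v ∈ s, f v = 0)
    (hU : ∀ v ∈ s, f v ≠ 0 → v ∈ U) : Measurable[gσ U] (lin s f) := by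
  by_cases hz : ∃ v0 ∈ s, f v0 ≠ 0
  · obtain ⟨v0, hv0, hf0⟩ := hz
    have e : lin s f = fun h => ∑ v ∈ s, f v * (h v - h v0) := by
      funext h
      unfold lin
      have : ∀ v ∈ s, f v * (h v - h v0) = f v * h v - f v * h v0 := fun v _ => by ring
      rw [Finset.sum_congr rfl this, Finset.sum_sub_distrib, ← Finset.sum_mul, h0, zero_mul, sub_zero]
    rw [e]
    refine Finset.measurable_sum _ fun v hv => ?_
    by_cases hf : f v = 0
    · simp only [hf, zero_mul]
      exact measurable_const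
    · exact (meas_grad (hU v hv hf) (hU v0 hv0 hf0)).const_mul _
  · push Not at hz
    have e : lin s f = fun _ => 0 := by
      funext h
      unfold lin
      exact Finset.sum_eq_zero fun v hv => by rw [hz v hv, zero_mul]
    rw [e]
    exact measurable_const

/-- total mass of the lattice Laplacian -/
theorem sum_abs_tendsto {δ : ℕ → ℝ} (hδ : ∀ n, 0 < δ n) (hδ0 : Tendsto δ atTop (𝓝 0)) {φ : ℂ → ℝ}
    (hφ : Tst φ) {R : ℝ} (hR0 : 0 ≤ R) (hR : ∀ z, φ z ≠ 0 → ‖z‖ ≤ R) :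
    Tendsto (fun n => ∑ p ∈ BX (mm R (δ n)), |Dop (fun v => φ (centre (δ n) v)) p|) atTop
      (𝓝 (∫ z, |(Δ φ) z|)) := by
  have hN := near_Dop hδ hδ0 hφ.1 hφ.2
  have hc : Continuous (fun z => |(Δ φ) z|) := (continuous_lap hφ.1).abs
  have hs : HasCompactSupport (fun z => |(Δ φ) z|) := (hasCompactSupport_lap hφ.2).abs
  have hR' : ∀ z, |(Δ φ) z| ≠ 0 → ‖z‖ ≤ R := by
    intro z hz
    by_contra h1
    push Not at h1
    apply hz
    rw [abs_eq_zero]
    refine lap_eq_zero_of (U := {w | R < ‖w‖}) (isOpen_lt continuous_const continuous_norm)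
      (fun w hw => ?_) h1
    by_contra h2
    exact absurd (hR w h2) (not_le.2 hw)
  have h1 := riemann_tendsto hc hs hδ hδ0 hR' hR0
  have h2 : Tendsto (fun n => (∑ p ∈ BX (mm R (δ n)), |Dop (fun v => φ (centre (δ n) v)) p|) -
      Real.sqrt 3 / 2 * δ n ^ 2 * ∑ p ∈ BX (mm R (δ n)), |(Δ φ) (centre (δ n) p)|) atTop (𝓝 0) := by
    rw [Metric.tendsto_nhds]
    intro ε hε
    set K := (4 * R + 5) ^ 2 with hK
    have hKp : 0 < K := by positivity
    filter_upwards [hN.near (ε / (2 * K)) (by positivity),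
      hδ0.eventually (gt_mem_nhds (show (0 : ℝ) < 1 by norm_num))] with n h3 h4
    rw [Real.dist_eq, sub_zero, Finset.mul_sum, ← Finset.sum_sub_distrib]
    have h5 : ∀ p ∈ BX (mm R (δ n)), |(|Dop (fun v => φ (centre (δ n) v)) p| -
        Real.sqrt 3 / 2 * δ n ^ 2 * |(Δ φ) (centre (δ n) p)|)| ≤ ε / (2 * K) * δ n ^ 2 := by
      intro p _
      have e : Real.sqrt 3 / 2 * δ n ^ 2 * |(Δ φ) (centre (δ n) p)| =
          |Real.sqrt 3 / 2 * δ n ^ 2 * -(Δ φ) (centre (δ n) p)| := by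
        rw [abs_mul, abs_neg, abs_of_nonneg (by positivity : 0 ≤ Real.sqrt 3 / 2 * δ n ^ 2)]
      rw [e]
      exact (abs_abs_sub_abs_le_abs_sub _ _).trans (h3 p)
    refine lt_of_le_of_lt ((Finset.abs_sum_le_sum_abs _ _).trans (Finset.sum_le_sum h5)) ?_
    rw [Finset.sum_const, nsmul_eq_mul]
    have h6 := card_mul_le hR0 (hδ n) h4.le
    calc ((BX (mm R (δ n))).card : ℝ) * (ε / (2 * K) * δ n ^ 2)
        = (((BX (mm R (δ n))).card : ℝ) * δ n ^ 2) * (ε / (2 * K)) := by ring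
      _ ≤ K * (ε / (2 * K)) := mul_le_mul_of_nonneg_right h6 (by positivity)
      _ = ε / 2 := by field_simp
      _ < ε := by linarith
  have := h2.add h1
  rw [zero_add] at this
  refine this.congr fun n => by ring

/-- linear functionals of mass zero are gradient observables of the integer model -/
theorem gobs_lin {s : Finset P2} {f : P2 → ℝ} (h0 : ∑ v ∈ s, f v = 0) :
    GObs (fun h : Hz => lin s f (toR h)) where
  loc := ⟨s, fun h g hg => lin_loc s f _ _ fun v hv => by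
    show ((h v : ℤ) : ℝ) = g v
    rw [hg v hv]⟩
  neut := fun h c => by
    have e : toR (fun v => h v + c) = fun v => toR h v + (c : ℝ) := by
      funext v
      show (((h v + c : ℤ)) : ℝ) = (h v : ℝ) + c
      push_cast; rfl
    beta_reduce
    rw [e, lin_neut h0]

/-- 8th moments of linear functionals of the plane state -/
theorem plane_eight {x : ℝ} (hx0 : 0 < x) (hx1 : x ≤ 1) {P : Measure Hz} (hL : ZeroLim x scs P)
    {s : Finset P2} {f : P2 → ℝ} (h0 : ∑ v ∈ s, f v = 0) {σ : ℝ} (hσ : 0 ≤ σ)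
    (hv : ∫ h, lin s f h ^ 2 ∂(P.map toR) < σ ^ 2) :
    ∫ h, lin s f h ^ 8 ∂(P.map toR) ≤ 2 * Dpl702.Cm 8 * (4 * σ + ∑ v ∈ s, |f v|) ^ 8 := by
  have hne := Pst967.cls_scs.neBot
  have m2 : ∫ h, lin s f h ^ 2 ∂(P.map toR) = ∫ h, lin s f (toR h) ^ 2 ∂P :=
    integral_map measurable_toR.aemeasurable ((measurable_lin s f).pow_const 2).aestronglyMeasurable
  have m8 : ∫ h, lin s f h ^ 8 ∂(P.map toR) = ∫ h, lin s f (toR h) ^ 8 ∂P :=
    integral_map measurable_toR.aemeasurable ((measurable_lin s f).pow_const 8).aestronglyMeasurable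
  rw [m2] at hv
  rw [m8]
  have g := gobs_lin h0
  have t2 := hL _ (g.comp fun y => y ^ 2)
  have t8 := hL _ (g.comp fun y => y ^ 8)
  refine le_of_tendsto t8 ?_
  filter_upwards [t2.eventually (gt_mem_nhds hv)] with Λ hΛ
  have e2 : ∀ h : Hz, lin s f (toR h) = ∑ v ∈ s, f v * (h v : ℝ) - 0 := fun h => by
    rw [sub_zero]; rfl
  have := Dpl702.ex_abs_moment_linear hx0 hx1 (Λ := Λ) Pst967.lip_zero s f 0 hσ (by
    simp only [e2] at hΛ
    exact hΛ.le) 8
  refine le_trans (le_of_eq ?_) this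
  congr 1
  funext h
  rw [e2, ← abs_pow, abs_of_nonneg (by positivity)]

set_option maxHeartbeats 1600000 in
/-- **the plane state of the integer model is an instance of `Mdl`** -/
theorem mdl {x : ℝ} (hx0 : 0 < x) (hx1 : x ≤ 1) {K : ℕ} {p : ℝ} (hR : Rsw867.RSW ((x ^ 2)⁻¹) K p)
    {P : Measure Hz} (hZ : PinnedZ P) (hL : ZeroLim x scs P) (hS : PlaneState (P.map toR))
    (hP : ∀ f : Hz → ℝ, GObs f → FLim ((x ^ 2)⁻¹) f (∫ h, f h ∂P)) {κ : ℝ} (hκ : 0 ≤ κ)
    (hLim : Lim2 (vg (P.map toR)) κ) {δ : ℕ → ℝ} (hδ : ∀ n, 0 < δ n)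
    (hδ0 : Tendsto δ atTop (𝓝 0)) :
    Mdl atTop (fun _ => P.map toR) (fun n φ h => XX (δ n) φ h)
      (fun n U => gσ {v | centre (δ n) v ∈ U}) κ where
  kpos := hκ
  prob := fun _ => hS.prob
  le := fun _ _ => gσ_le _
  mono := fun n U V hUV => gσ_mono fun v hv => hUV hv
  add := fun n u v hu hv h => by
    obtain ⟨R1, h10, h1⟩ := exists_R hu
    obtain ⟨R2, h20, h2⟩ := exists_R hv
    have a1 : ∀ z, u z ≠ 0 → ‖z‖ ≤ R1 + R2 := fun z hz => (h1 z hz).trans (by linarith)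
    have a2 : ∀ z, v z ≠ 0 → ‖z‖ ≤ R1 + R2 := fun z hz => (h2 z hz).trans (by linarith)
    have a3 : ∀ z, (fun z => u z + v z) z ≠ 0 → ‖z‖ ≤ R1 + R2 := by
      intro z hz
      by_cases hu0 : u z = 0
      · by_cases hv0 : v z = 0
        · exact absurd (by beta_reduce; rw [hu0, hv0, add_zero]) hz
        · exact a2 z hv0
      · exact a1 z hu0
    rw [XX_box (hδ n) a1, XX_box (hδ n) a2, XX_box (hδ n) a3]
    unfold lin
    rw [← Finset.sum_add_distrib]
    refine Finset.sum_congr rfl fun p _ => ?_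
    rw [Dop_add (fun p => u (centre (δ n) p)) (fun p => v (centre (δ n) p)), add_mul]
  meas := fun n u hu => by
    obtain ⟨R, h0, h1⟩ := exists_R hu
    rw [funext (XX_box (hδ n) h1)]
    exact measurable_lin _ _
  bdd := fun n u hu => by
    obtain ⟨R, h0, h1⟩ := exists_R hu
    refine ⟨bd (BX (mm R (δ n))) (Dop fun v => u (centre (δ n) v)), ?_⟩
    filter_upwards [hS.abs_lin_le (BX (mm R (δ n))) (Dop fun v => u (centre (δ n) v))] with h hh
    rw [XX_box (hδ n) h1]
    exact hh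
  loc := fun u c r r' hu hr hs => by
    obtain ⟨R, h0, h1⟩ := exists_R hu
    filter_upwards [hδ0.eventually (gt_mem_nhds (show (0 : ℝ) < r' - r by linarith))] with n hn
    rw [funext (XX_box (hδ n) h1)]
    refine meas_lin (wt_Dop (hδ n) h1).2 fun v _ hv => ?_
    obtain ⟨w, hw, hw'⟩ := Dop_ne_zero (hδ n).le hv
    have h2 := hs (subset_tsupport _ hw)
    rw [Metric.mem_closedBall, dist_eq_norm] at h2
    show centre (δ n) v ∈ Metric.ball c r'
    rw [Metric.mem_ball, dist_eq_norm]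
    have e : centre (δ n) v - c = (centre (δ n) v - w) + (w - c) := by ring
    rw [e]
    exact lt_of_le_of_lt (norm_add_le _ _) (by linarith)
  coloc := fun u c r r' hu hr hs => by
    obtain ⟨R, h0, h1⟩ := exists_R hu
    obtain ⟨a, L, haL⟩ := hs
    filter_upwards [hδ0.eventually (gt_mem_nhds (show (0 : ℝ) < r' - r by linarith))] with n hn
    rw [funext (XX_box (hδ n) h1)]
    refine meas_lin (wt_Dop (hδ n) h1).2 fun v _ hv => ?_
    show centre (δ n) v ∈ (Metric.ball c r)ᶜ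
    intro hc
    apply hv
    refine Dop_affine (hδ n).le fun w hw => haL w ?_
    rw [Metric.mem_ball, dist_eq_norm] at hc ⊢
    have e : w - c = (w - centre (δ n) v) + (centre (δ n) v - c) := by ring
    rw [e]
    exact lt_of_le_of_lt (norm_add_le _ _) (by linarith)
  var := fun u v hu hv => by
    obtain ⟨R1, h10, h1⟩ := exists_R hu
    obtain ⟨R2, h20, h2⟩ := exists_R hv
    have := cov_tendsto hS hLim hδ hδ0 hu.1 hu.2 (f := fun z => -(Δ v) z)
      (continuous_lap hv.1).neg (hasCompactSupport_lap hv.2).neg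
      (near_Dop hδ hδ0 hu.1 hu.2) (near_Dop hδ hδ0 hv.1 hv.2)
      (s := fun n => BX (mm R1 (δ n))) (t := fun n => BX (mm R2 (δ n)))
      (Eventually.of_forall fun n => wt_Dop (hδ n) h1)
      (Eventually.of_forall fun n => wt_Dop (hδ n) h2)
    refine this.congr fun n => ?_
    refine integral_congr_ae (Eventually.of_forall fun h => ?_)
    show _ = XX (δ n) u h * XX (δ n) v h
    rw [XX_box (hδ n) h1, XX_box (hδ n) h2]
  mom := by
    refine ⟨2 * Dpl702.Cm 8 * 5 ^ 8, by have := Dpl702.cm_nonneg 8; positivity,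
      fun u hu m hm hκm hum => ?_⟩
    obtain ⟨R, h0, h1⟩ := exists_R hu
    have hv := cov_tendsto hS hLim hδ hδ0 hu.1 hu.2 (f := fun z => -(Δ u) z)
      (continuous_lap hu.1).neg (hasCompactSupport_lap hu.2).neg
      (near_Dop hδ hδ0 hu.1 hu.2) (near_Dop hδ hδ0 hu.1 hu.2)
      (s := fun n => BX (mm R (δ n))) (t := fun n => BX (mm R (δ n)))
      (Eventually.of_forall fun n => wt_Dop (hδ n) h1)
      (Eventually.of_forall fun n => wt_Dop (hδ n) h1)
    have hs := sum_abs_tendsto hδ hδ0 hu h0 h1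
    filter_upwards [hv.eventually (gt_mem_nhds hκm), hs.eventually (gt_mem_nhds hum)] with n e1 e2
    have e3 : ∫ h, lin (BX (mm R (δ n))) (Dop fun v => u (centre (δ n) v)) h ^ 2 ∂(P.map toR) <
        m ^ 2 := by
      refine lt_of_eq_of_lt ?_ e1
      refine integral_congr_ae (Eventually.of_forall fun h => ?_)
      exact sq _
    have e4 := plane_eight hx0 hx1 hL (wt_Dop (hδ n) h1).2 hm.le e3
    have e5 : ∫ h, XX (δ n) u h ^ 8 ∂(P.map toR) =
        ∫ h, lin (BX (mm R (δ n))) (Dop fun v => u (centre (δ n) v)) h ^ 8 ∂(P.map toR) :=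
      integral_congr_ae (Eventually.of_forall fun h => by
        show XX (δ n) u h ^ 8 = _
        rw [XX_box (hδ n) h1])
    show ∫ h, XX (δ n) u h ^ 8 ∂(P.map toR) ≤ _
    rw [e5]
    refine e4.trans ?_
    have hC := Dpl702.cm_nonneg 8
    have e6 : 0 ≤ ∑ v ∈ BX (mm R (δ n)), |Dop (fun v => u (centre (δ n) v)) v| :=
      Finset.sum_nonneg fun _ _ => abs_nonneg _
    have e7 : (4 * m + ∑ v ∈ BX (mm R (δ n)), |Dop (fun v => u (centre (δ n) v)) v|) ^ 8 ≤
        (5 * m) ^ 8 := pow_le_pow_left₀ (by positivity) (by linarith) 8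
    calc 2 * Dpl702.Cm 8 * (4 * m + ∑ v ∈ BX (mm R (δ n)),
          |Dop (fun v => u (centre (δ n) v)) v|) ^ 8 ≤ 2 * Dpl702.Cm 8 * (5 * m) ^ 8 :=
          mul_le_mul_of_nonneg_left e7 (by positivity)
      _ = 2 * Dpl702.Cm 8 * 5 ^ 8 * m ^ 8 := by rw [mul_pow]; ring
  mix := mix_field (Pst967.one_le_c hx0 hx1) hR hZ hL hP hδ hδ0

end Crest.Agent.R144.Gi643
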