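import Crest.Agent.R144.CcwA1_867
import Crest.Agent.R144.Ccw5_435
import Crest.Agent.R144.Gi1_643

/-!
# R144 (helper867): step (A1) of the closed-contour Ward identity for the plane state of the integer
model and helper643's lattice functionals `XX`
-/

set_option autoImplicit false

noncomputable section

namespace Crest.Agent.R144.Ca1867

open Filter Topology MeasureTheory
open scoped ComplexConjugate Real ContDiff Laplacian
open Crest.ProbabilityR.HexHeights (Adj centre)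
open Crest.Agent.R144.HexTil353 Crest.Agent.R144.Geo268
open Crest.Agent.R144.Ps643 Crest.Agent.R144.Ps643.PlaneState
open Crest.Agent.R144.Cw643
open Crest.Agent.R144.Ga5885 (Tst)
open Crest.Agent.R144.Gi643
open Crest.Agent.R144.Ga2617 (Fn Lp rfl6 Dir6 dot fn_lin)
open Crest.Agent.R144.Pst967 (Hz LocZ PinnedZ toR measurable_toR)
open Crest.Agent.R144.Ccw435 (ChgZ a1_of_real)

theorem ca_one_centre {d : ℝ} (hd : 0 < d) (v : P2) : ca 1 (centre d v) = d * v.1 := by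
  have h := Xn_centre hd (1, 0) v
  unfold Xn dot at h
  push_cast at h
  linarith

theorem cb_one_centre {d : ℝ} (hd : 0 < d) (v : P2) : cb 1 (centre d v) = d * v.2 := by
  have h := Xn_centre hd (0, 1) v
  unfold Xn dot at h
  push_cast at h
  linarith

theorem abs_ca_le (z : ℂ) : |ca 1 z| ≤ 4 * ‖z‖ := by
  have h := abs_Xn_le (n := (1, 0)) (by simp [Dir6]) z
  have e : Xn (1, 0) z = ca 1 z := by unfold Xn; push_cast; ring
  rwa [e] at h

theorem abs_cb_le (z : ℂ) : |cb 1 z| ≤ 4 * ‖z‖ := by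
  have h := abs_Xn_le (n := (0, 1)) (by simp [Dir6]) z
  have e : Xn (0, 1) z = cb 1 z := by unfold Xn; push_cast; ring
  rwa [e] at h

theorem ca_one_sub (z w : ℂ) : ca 1 (z - w) = ca 1 z - ca 1 w := by
  have h := ca_add (δ := 1) (z - w) w
  rw [sub_add_cancel] at h
  linarith

theorem cb_one_sub (z w : ℂ) : cb 1 (z - w) = cb 1 z - cb 1 w := by
  have h := cb_add (δ := 1) (z - w) w
  rw [sub_add_cancel] at h
  linarith

/-- second moments of `XX` are bounded along a vanishing scale -/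
theorem sq_bdd {P : Measure Ht} (hP : PlaneState P) {κ : ℝ} (hκ : Lim2 (vg P) κ) {δ : ℕ → ℝ}
    (hδ : ∀ n, 0 < δ n) (hδ0 : Tendsto δ atTop (𝓝 0)) {u : ℂ → ℝ} (hu : Tst u) :
    ∃ V : ℝ, 0 ≤ V ∧ ∀ᶠ n in atTop, ∫ h, XX (δ n) u h ^ 2 ∂P ≤ V := by
  obtain ⟨R, hR0, hR⟩ := exists_R hu
  have hN := near_Dop hδ hδ0 hu.1 hu.2
  have hw : ∀ᶠ n in atTop, Wt (BX (mm R (δ n))) (Dop fun v => u (centre (δ n) v)) :=
    Eventually.of_forall fun n => wt_Dop (hδ n) hR
  have h := cov_tendsto hP hκ hδ hδ0 hu.1 hu.2 (continuous_lap hu.1).neg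
    (hasCompactSupport_lap hu.2).neg hN hN hw hw
  refine ⟨|κ * ∫ z, u z * (-(Δ u) z)| + 1, by positivity, ?_⟩
  filter_upwards [h.eventually (gt_mem_nhds (lt_of_le_of_lt (le_abs_self _) (lt_add_one _)))] with n hn
  refine le_trans (le_of_eq ?_) hn.le
  refine integral_congr_ae (ae_of_all _ fun g => ?_)
  beta_reduce
  rw [XX_box (hδ n) hR, sq]

/-- **step (A1) of the closed-contour Ward identity** -/
theorem a1_inst {P : Measure Hz} (hP : PinnedZ P) (hS : PlaneState (P.map toR)) {κ : ℝ}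
    (hκ : Lim2 (vg (P.map toR)) κ) {δ : ℕ → ℝ} (hδ : ∀ n, 0 < δ n) (hδ0 : Tendsto δ atTop (𝓝 0))
    {u : ℂ → ℝ} (hu : Tst u) {s0 t0 ρ L : ℝ} (hρ : 0 < ρ)
    (supp : ∀ z, u z ≠ 0 → |ca 1 z - s0| ≤ ρ ∧ |cb 1 z - t0| ≤ ρ) (hL : |s0| + |t0| + 8 * ρ ≤ L) :
    ∀ ε > 0, ∀ᶠ n in atTop, ∀ A B : Finset P2, A.Nonempty → B.Nonempty →
      (∀ v ∈ A, |δ n * v.1| ≤ L ∧ |δ n * v.2| ≤ L ∧ δ n * v.2 ≤ t0 - 2 * ρ) →
      (∀ v ∈ B, |δ n * v.1| ≤ L ∧ |δ n * v.2| ≤ L ∧ t0 + 2 * ρ ≤ δ n * v.2) →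
      ∀ (α : ℝ) (Z1 Z2 : Hz → ℂ), LocZ (A : Set P2) Z1 → LocZ (B : Set P2) Z2 →
        ChgZ (-α) Z1 → ChgZ α Z2 → (∀ h, ‖Z1 h‖ ≤ 1) → (∀ h, ‖Z2 h‖ ≤ 1) →
        ‖∫ h, (XX (δ n) u (toR h) : ℂ) * Z1 h * Z2 h ∂P‖ ≤ ε := by
  classical
  intro ε hε
  obtain ⟨R, hR0, hR⟩ := exists_R hu
  obtain ⟨V, hV0, hV⟩ := sq_bdd hS hκ hδ hδ0 hu
  have hsm := hδ0.eventually (gt_mem_nhds (show (0 : ℝ) < ρ / 16 by positivity))
  obtain ⟨N0, hN0⟩ := eventually_atTop.1 (hV.and hsm)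
  have hs0 := abs_le.1 (le_refl |s0|)
  have ht0 := abs_le.1 (le_refl |t0|)
  have hs1 := abs_nonneg s0
  have ht1 := abs_nonneg t0
  set δ' : ℕ → ℝ := fun n => δ (n + N0) with hδ'
  have hδ'p : ∀ n, 0 < δ' n := fun n => hδ _
  have hδ'0 : Tendsto δ' atTop (𝓝 0) := hδ0.comp (tendsto_add_atTop_nat N0)
  have hδ's : ∀ n, δ' n < ρ / 16 := fun n => (hN0 (n + N0) (Nat.le_add_left _ _)).2
  have hδ'V : ∀ n, ∫ h, XX (δ' n) u h ^ 2 ∂(P.map toR) ≤ V :=
    fun n => (hN0 (n + N0) (Nat.le_add_left _ _)).1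
  -- the weights
  set b : ℕ → P2 → ℝ := fun n => Dop fun v => u (centre (δ' n) v) with hb
  set T : ℕ → Finset P2 := fun n => (BX (mm R (δ' n))).filter fun v => b n v ≠ 0 with hT
  have hTout : ∀ n p, p ∉ T n → b n p = 0 := by
    intro n p hp
    by_contra h1
    apply hp
    refine Finset.mem_filter.2 ⟨?_, h1⟩
    by_contra h2
    exact h1 ((wt_Dop (hδ'p n) hR).1 p h2)
  have hXT : ∀ n h, XX (δ' n) u h = lin (T n) (b n) h := fun n h => XX_eq (hTout n) h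
  have hmass : ∀ n, ∑ v ∈ T n, b n v = 0 := by
    intro n
    rw [hT, Finset.sum_filter_ne_zero]
    exact (wt_Dop (hδ'p n) hR).2
  have hwt : ∀ n, Wt (T n) (b n) := fun n => ⟨hTout n, hmass n⟩
  have hsupp : ∀ n, ∀ v ∈ T n, |δ' n * v.1 - s0| ≤ ρ + ρ / 4 ∧ |δ' n * v.2 - t0| ≤ ρ + ρ / 4 := by
    intro n v hv
    obtain ⟨w, hw, hd⟩ := Dop_ne_zero (hδ'p n).le (Finset.mem_filter.1 hv).2
    obtain ⟨h1, h2⟩ := supp w hw
    have h3 := abs_ca_le (centre (δ' n) v - w)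
    have h4 := abs_cb_le (centre (δ' n) v - w)
    rw [ca_one_sub, ca_one_centre (hδ'p n)] at h3
    rw [cb_one_sub, cb_one_centre (hδ'p n)] at h4
    have h5 := hδ's n
    have h6 : 4 * ‖centre (δ' n) v - w‖ ≤ ρ / 4 := by linarith
    constructor
    · have : δ' n * v.1 - s0 = (δ' n * v.1 - ca 1 w) + (ca 1 w - s0) := by ring
      rw [this]
      refine (abs_add_le _ _).trans ?_
      linarith
    · have : δ' n * v.2 - t0 = (δ' n * v.2 - cb 1 w) + (cb 1 w - t0) := by ring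
      rw [this]
      refine (abs_add_le _ _).trans ?_
      linarith
  -- the reflection lines
  set ℓ : ℕ → ℤ := fun n => ⌈(s0 - 2 * ρ) / δ' n⌉ with hℓ
  have hℓ1 : ∀ n, s0 - 2 * ρ ≤ δ' n * (ℓ n : ℝ) := by
    intro n
    have h1 := Int.le_ceil ((s0 - 2 * ρ) / δ' n)
    rw [div_le_iff₀ (hδ'p n)] at h1
    linarith [mul_comm (δ' n) (ℓ n : ℝ)]
  have hℓ2 : ∀ n, δ' n * (ℓ n : ℝ) ≤ s0 - 2 * ρ + δ' n := by
    intro n
    have h1 := (Int.ceil_lt_add_one ((s0 - 2 * ρ) / δ' n)).le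
    have h2 := mul_le_mul_of_nonneg_left h1 (hδ'p n).le
    have h3 : δ' n * ((s0 - 2 * ρ) / δ' n + 1) = s0 - 2 * ρ + δ' n := by
      have := (hδ'p n).ne'
      field_simp
    linarith
  have hℓlim : Tendsto (fun n => δ' n * (ℓ n : ℝ)) atTop (𝓝 (s0 - 2 * ρ)) := by
    refine tendsto_of_tendsto_of_tendsto_of_le_of_le tendsto_const_nhds ?_ hℓ1 hℓ2
    simpa using hδ'0.const_add (s0 - 2 * ρ)
  -- `small`
  have hward := ward_rfl hS hκ hδ'p hδ'0 hu.1 hu.2 (near_Dop hδ'p hδ'0 hu.1 hu.2)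
    (s := T) (Eventually.of_forall hwt) (n := (1, 0)) (by simp [Dir6]) hℓlim (fun z hz => by
      have h1 := abs_le.1 (supp z hz).1
      have e : Xn (1, 0) z = ca 1 z := by unfold Xn; push_cast; ring
      rw [e]
      linarith)
  obtain ⟨N, hN⟩ := CcwA1867.a1 hS hδ'p hδ'0 (x₀ := s0 - 2 * ρ) (y₀ := t0 - 3 * ρ / 2)
    (y₁ := t0 + 3 * ρ / 2) (γ := ρ / 4) (L := L) (by positivity) (by linarith) (by linarith)
    (by linarith) (by linarith) (by linarith)
    (O := fun n h => ((lin (T n) (b n) h : ℝ) : ℂ)) (M := √V) (Real.sqrt_nonneg V)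
    (fun n => by
      rw [Real.sq_sqrt hV0]
      refine le_trans (le_of_eq ?_) (hδ'V n)
      refine integral_congr_ae (ae_of_all _ fun g => ?_)
      beta_reduce
      rw [Complex.norm_real, Real.norm_eq_abs, sq_abs, hXT])
    (T := T) (fun n => fn_lin (T n) (b n) (hmass n))
    (fun n v hv => by
      obtain ⟨h1, h2⟩ := hsupp n v hv
      have h3 := abs_le.1 h1
      have h4 := abs_le.1 h2
      refine ⟨by linarith, by linarith, by linarith, by linarith⟩)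
    ℓ hℓlim hℓ1
    (by
      refine hward.congr fun n => ?_
      have e : ∀ h : Ht, conj (((lin (T n) (b n) (act (rfl6 (1, 0) (ℓ n)) h) : ℝ) : ℂ)) *
          ((lin (T n) (b n) h : ℝ) : ℂ) =
          ((lin (T n) (b n) (act (rfl6 (1, 0) (ℓ n)) h) * lin (T n) (b n) h : ℝ) : ℂ) := by
        intro h
        rw [Complex.conj_ofReal]
        push_cast
        rfl
      simp only [e]
      have e2 : ∫ h, ((lin (T n) (b n) (act (rfl6 (1, 0) (ℓ n)) h) * lin (T n) (b n) h : ℝ) : ℂ)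
          ∂(P.map toR) = ((∫ h, lin (T n) (b n) (act (rfl6 (1, 0) (ℓ n)) h) * lin (T n) (b n) h
          ∂(P.map toR) : ℝ) : ℂ) := integral_complex_ofReal
      rw [e2, Complex.ofReal_re]) hε
  rw [eventually_atTop]
  refine ⟨N + N0, fun n hn A B hA hB hA1 hB1 => ?_⟩
  have hm : N ≤ n - N0 := by omega
  have hme : δ' (n - N0) = δ n := by
    show δ (n - N0 + N0) = δ n
    congr 1
    omega
  have key := hN (n - N0) hm A B (fun v hv => by
      obtain ⟨h1, h2, h3⟩ := hA1 v hv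
      rw [hme]
      have h1' := abs_le.1 h1
      have h2' := abs_le.1 h2
      exact ⟨h1'.1, h1'.2, h2'.1, by linarith⟩) (fun v hv => by
      obtain ⟨h1, h2, h3⟩ := hB1 v hv
      rw [hme]
      have h1' := abs_le.1 h1
      have h2' := abs_le.1 h2
      exact ⟨h1'.1, h1'.2, by linarith, h2'.2⟩)
  refine a1_of_real hA hB (XR := XX (δ n) u) ?_ (fun _ => rfl) (fun α Z1 Z2 f1 f2 n1 n2 => ?_)
  · have : XX (δ n) u = lin (T (n - N0)) (b (n - N0)) := by
      funext h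
      rw [← hXT, hme]
    rw [this]
    exact measurable_lin _ _
  · have h1 := key α Z1 Z2 f1 f2 (fun h _ => n1 h) (fun h _ => n2 h)
    refine le_trans (le_of_eq ?_) h1
    congr 1
    refine integral_congr_ae (ae_of_all _ fun g => ?_)
    beta_reduce
    rw [← hXT, hme]

end Crest.Agent.R144.Ca1867
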