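import Crest.Agent.R161.UTurn_374
import Crest.Agent.R144.Zg_349

/-!
# R144, RSW (doc 1954), planar facts on the triangular lattice, part 1 (helper706)

* `Con S u v` : `u` and `v` are connected by an `Adj`-path in `S`;
* bricks: reduction of `Adj`-paths to nearest neighbour walks of `ℤ²` (helper374's `cross`);
* `mouth` : a path of `R` between two bottom points and a path from a bottom point in between to a point
  outside `R` share a site;
* `bc a n i` barycentric coordinates, `Tr a n` triangle, `Y S a n v` : `v` belongs to a cluster of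
  `S ∩ Tr a n` touching the three sides;
* `Y.con` : uniqueness of the 3-side cluster;
* `mouthY` : the mouth lemma along any side.
-/

set_option autoImplicit false

namespace Crest.Agent.R144.Cas706

open Crest.Agent.R161.Topo374 (V Nbr PW InS Walk cross)
open Crest.Agent.R144.It844 (P2 adj_iff adj_symm)
open Crest.Agent.R144.Zg349 (StepIn)
open Crest.ProbabilityR.HexHeights (Adj)

/-! ### connections -/

/-- connected inside `S` -/
def Con (S : Set P2) (u v : P2) : Prop := u ∈ S ∧ Relation.ReflTransGen (StepIn S) u v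

theorem Con.left {S : Set P2} {u v : P2} (h : Con S u v) : u ∈ S := h.1

theorem Con.right {S : Set P2} {u v : P2} (h : Con S u v) : v ∈ S := by
  obtain ⟨hu, h⟩ := h
  cases h with
  | refl => exact hu
  | tail _ h => exact h.2.1

theorem Con.refl {S : Set P2} {u : P2} (h : u ∈ S) : Con S u u := ⟨h, .refl⟩

theorem Con.trans {S : Set P2} {u v w : P2} (h : Con S u v) (h' : Con S v w) : Con S u w :=
  ⟨h.1, h.2.trans h'.2⟩

theorem stepIn_mono {S T : Set P2} (h : S ⊆ T) {a b : P2} (hab : StepIn S a b) : StepIn T a b :=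
  ⟨h hab.1, h hab.2.1, hab.2.2⟩

theorem rtg_mono {S T : Set P2} (h : S ⊆ T) {a b : P2} (p : Relation.ReflTransGen (StepIn S) a b) :
    Relation.ReflTransGen (StepIn T) a b :=
  Relation.ReflTransGen.mono (fun _ _ hab => stepIn_mono h hab) _ _ p

theorem Con.mono {S T : Set P2} (h : S ⊆ T) {u v : P2} (hc : Con S u v) : Con T u v :=
  ⟨h hc.1, rtg_mono h hc.2⟩

theorem rtg_symm {S : Set P2} {a b : P2} (p : Relation.ReflTransGen (StepIn S) a b) :
    Relation.ReflTransGen (StepIn S) b a := by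
  induction p with
  | refl => exact .refl
  | tail _ h ih => exact Relation.ReflTransGen.head ⟨h.2.1, h.1, adj_symm h.2.2⟩ ih

theorem Con.symm {S : Set P2} {u v : P2} (h : Con S u v) : Con S v u := ⟨h.right, rtg_symm h.2⟩

theorem Con.step {S : Set P2} {u v : P2} (hu : u ∈ S) (hv : v ∈ S) (h : Adj u v) : Con S u v :=
  ⟨hu, .single ⟨hu, hv, h⟩⟩

theorem Con.tail {S : Set P2} {u v w : P2} (h : Con S u v) (hw : w ∈ S) (hvw : Adj v w) : Con S u w :=
  h.trans (Con.step h.right hw hvw)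

/-- image of a path under an `Adj`-preserving map -/
theorem Con.map {S T : Set P2} {f : P2 → P2} (hf : ∀ u v, Adj u v → Adj (f u) (f v))
    (hS : ∀ u ∈ S, f u ∈ T) {u v : P2} (h : Con S u v) : Con T (f u) (f v) := by
  obtain ⟨hu, h⟩ := h
  refine ⟨hS u hu, ?_⟩
  induction h with
  | refl => exact .refl
  | tail _ h ih => exact ih.tail ⟨hS _ h.1, hS _ h.2.1, hf _ _ h.2.2⟩

/-- the cluster of `u` in `S` -/
def Cl (S : Set P2) (u : P2) : Set P2 := {w | Con S u w}

theorem cl_sub {S : Set P2} {u : P2} : Cl S u ⊆ S := fun _ h => Con.right h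

/-- the cluster of `u` is connected in itself -/
theorem Con.cl {S : Set P2} {u v : P2} (h : Con S u v) : Con (Cl S u) u v := by
  obtain ⟨hu, h⟩ := h
  refine ⟨Con.refl hu, ?_⟩
  induction h with
  | refl => exact .refl
  | @tail b c hb h ih =>
    refine ih.tail ⟨⟨hu, hb⟩, ⟨hu, hb.tail h⟩, h.2.2⟩

theorem con_row {S : Set P2} (i y : ℤ) (n : ℕ) (h : ∀ k : ℕ, k ≤ n → ((i + k, y) : P2) ∈ S) :
    Con S (i, y) (i + n, y) := by
  induction n with
  | zero => simpa using Con.refl (by simpa using h 0 le_rfl)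
  | succ n ih =>
    refine (ih fun k hk => h k (by omega)).tail (h (n + 1) le_rfl) ?_
    rw [adj_iff]; left
    push_cast
    ext <;> simp
    ring

theorem con_col {S : Set P2} (x j : ℤ) (n : ℕ) (h : ∀ k : ℕ, k ≤ n → ((x, j + k) : P2) ∈ S) :
    Con S (x, j) (x, j + n) := by
  induction n with
  | zero => simpa using Con.refl (by simpa using h 0 le_rfl)
  | succ n ih =>
    refine (ih fun k hk => h k (by omega)).tail (h (n + 1) le_rfl) ?_
    rw [adj_iff]; right; right; left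
    push_cast
    ext <;> simp
    ring

theorem con_row' {S : Set P2} {i i' y : ℤ} (hi : i ≤ i')
    (h : ∀ k : ℤ, i ≤ k → k ≤ i' → ((k, y) : P2) ∈ S) : Con S (i, y) (i', y) := by
  have := con_row (S := S) i y (i' - i).toNat fun k hk => h _ (by omega) (by omega)
  rwa [show i + ((i' - i).toNat : ℤ) = i' by omega] at this

theorem con_col' {S : Set P2} {x j j' : ℤ} (hj : j ≤ j')
    (h : ∀ k : ℤ, j ≤ k → k ≤ j' → ((x, k) : P2) ∈ S) : Con S (x, j) (x, j') := by
  have := con_col (S := S) x j (j' - j).toNat fun k hk => h _ (by omega) (by omega)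
  rwa [show j + ((j' - j).toNat : ℤ) = j' by omega] at this

/-! ### bricks -/

/-- the site of a brick vertex -/
def ub (w : V) : P2 := ((w.1 - w.2) / 2, w.2)
/-- the left vertex of a brick -/
def bl (v : P2) : V := (2 * v.1 + v.2, v.2)

theorem ub_bl (v : P2) : ub (bl v) = v := by
  obtain ⟨i, j⟩ := v
  simp only [ub, bl, Prod.mk.injEq, and_true]
  omega

theorem ub_bl' (v : P2) : ub (2 * v.1 + v.2 + 1, v.2) = v := by
  obtain ⟨i, j⟩ := v
  simp only [ub, Prod.mk.injEq, and_true]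
  omega

theorem walk2 {T : Set V} {a m b : V} (ha : a ∈ T) (hm : m ∈ T) (hb : b ∈ T) (h1 : Nbr a m)
    (h2 : Nbr m b) : Walk T a b := (Walk.step ha hm h1).trans (Walk.step hm hb h2)

theorem walk_adj {S : Set P2} {u v : P2} (hu : u ∈ S) (hv : v ∈ S) (h : Adj u v) :
    Walk (ub ⁻¹' S) (bl u) (bl v) := by
  have hu' : bl u ∈ ub ⁻¹' S := by rw [Set.mem_preimage, ub_bl]; exact hu
  have hv' : bl v ∈ ub ⁻¹' S := by rw [Set.mem_preimage, ub_bl]; exact hv
  have hu1 : ((2 * u.1 + u.2 + 1, u.2) : V) ∈ ub ⁻¹' S := by rw [Set.mem_preimage, ub_bl']; exact hu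
  have hv1 : ((2 * v.1 + v.2 + 1, v.2) : V) ∈ ub ⁻¹' S := by rw [Set.mem_preimage, ub_bl']; exact hv
  obtain ⟨i, j⟩ := u
  rcases adj_iff.1 h with rfl | rfl | rfl | rfl | rfl | rfl
  · exact walk2 hu' hu1 hv' (by unfold Nbr bl; dsimp only; omega) (by unfold Nbr bl; dsimp only; omega)
  · exact walk2 hu' hv1 hv' (by unfold Nbr bl; dsimp only; omega) (by unfold Nbr bl; dsimp only; omega)
  · exact walk2 hu' hu1 hv' (by unfold Nbr bl; dsimp only; omega) (by unfold Nbr bl; dsimp only; omega)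
  · exact walk2 hu' hv1 hv' (by unfold Nbr bl; dsimp only; omega) (by unfold Nbr bl; dsimp only; omega)
  · exact walk2 hu' hu1 hv' (by unfold Nbr bl; dsimp only; omega) (by unfold Nbr bl; dsimp only; omega)
  · exact walk2 hu' hv1 hv' (by unfold Nbr bl; dsimp only; omega) (by unfold Nbr bl; dsimp only; omega)

theorem Con.walk {S : Set P2} {u v : P2} (h : Con S u v) : Walk (ub ⁻¹' S) (bl u) (bl v) := by
  obtain ⟨hu, h⟩ := h
  induction h with
  | refl => exact Walk.refl (by rw [Set.mem_preimage, ub_bl]; exact hu)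
  | tail _ h ih => exact ih.trans (walk_adj h.1 h.2.1 h.2.2)

/-! ### the mouth lemma along a horizontal line -/

theorem mouth {R S1 S2 : Set P2} {y a b c B : ℤ} {p : P2} (hR : ∀ v ∈ R, y ≤ v.2)
    (hup : ∀ v : P2, y ≤ v.2 → v ∉ R → ((v.1, v.2 + 1) : P2) ∉ R) (hS1 : S1 ⊆ R)
    (hB1 : ∀ v ∈ S1, v.2 ≤ B) (hS2 : ∀ v ∈ S2, y ≤ v.2)
    (hB2 : ∀ v ∈ S2, -B ≤ v.1 ∧ v.1 ≤ B ∧ v.2 ≤ B) (h1 : Con S1 (a, y) (b, y))
    (h2 : Con S2 (c, y) p) (hac : a ≤ c) (hcb : c ≤ b) (hp : p ∉ R) : (S1 ∩ S2).Nonempty := by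
  by_cases hca : c = a
  · subst hca; exact ⟨_, h1.left, h2.left⟩
  by_cases hcb' : c = b
  · subst hcb'; exact ⟨_, h1.right, h2.left⟩
  have hpy : y ≤ p.2 := hS2 p h2.right
  have hpB := hB2 p h2.right
  have hyB : y ≤ B := by have := hB1 _ h1.left; exact this
  have hcB := hB2 _ h2.left
  simp only at hcB
  have hpR : ∀ n : ℕ, ((p.1, p.2 + n) : P2) ∉ R := by
    intro n
    induction n with
    | zero => simpa using hp
    | succ n ih =>
      have := hup _ (by simp only; omega) ih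
      simp only at this
      rwa [add_assoc] at this
  set L : ℤ := |a| + |b| + 4 * |B| + 4 * |y| + 4 with hL
  have hLa := le_abs_self a
  have hLa' := neg_abs_le a
  have hLb := le_abs_self b
  have hLb' := neg_abs_le b
  have hLB := le_abs_self B
  have hLB' := neg_abs_le B
  have hLy := le_abs_self y
  have hLy' := neg_abs_le y
  set E1 : Set P2 := S1 ∪ {v | v.2 = y - 1 ∧ (v.1 ≤ a ∨ b ≤ v.1)} with hE1
  set E2 : Set P2 := S2 ∪ {v | (v.1 = c ∧ v.2 = y - 1) ∨ (v.1 = p.1 ∧ p.2 ≤ v.2 ∧ v.2 ≤ B + 1)} with hE2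
  have w1 : Con E1 (-L, y - 1) (L, y - 1) := by
    have c1 : Con E1 (-L, y - 1) (a, y - 1) :=
      con_row' (by omega) fun k _ hk => Or.inr ⟨rfl, Or.inl hk⟩
    have c2 : Con E1 (b, y - 1) (L, y - 1) :=
      con_row' (by omega) fun k hk _ => Or.inr ⟨rfl, Or.inr hk⟩
    have c3 : Con E1 (a, y) (b, y) := h1.mono Set.subset_union_left
    have c4 : Con E1 (a, y - 1) (a, y) := Con.step c1.right c3.left (by
      rw [adj_iff]; right; right; left; simp)
    have c5 : Con E1 (b, y) (b, y - 1) := Con.step c3.right c2.left (by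
      rw [adj_iff]; right; right; right; left; simp)
    exact c1.trans (c4.trans (c3.trans (c5.trans c2)))
  have w2 : Con E2 (c, y - 1) (p.1, B + 1) := by
    have c3 : Con E2 (c, y) p := h2.mono Set.subset_union_left
    have c4 : Con E2 (c, y - 1) (c, y) := Con.step (Or.inr (Or.inl ⟨rfl, rfl⟩)) c3.left (by
      rw [adj_iff]; right; right; left; simp)
    have c5 : Con E2 (p.1, p.2) (p.1, B + 1) :=
      con_col' (by omega) fun k hk hk' => Or.inr (Or.inr ⟨rfl, hk, hk'⟩)
    exact c4.trans (c3.trans c5)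
  obtain ⟨w, hw1, hw2⟩ := cross w1.walk w2.walk (by
    intro w hw
    simp only [Set.mem_preimage] at hw
    have e : (ub w).2 = w.2 := rfl
    rcases hw with hw | hw
    · have h3 := hR _ (hS1 hw)
      have h4 := hB1 _ hw
      simp only [bl]
      omega
    · have h3 := hw.1
      simp only [bl]
      omega) (by
    intro w hw
    simp only [Set.mem_preimage] at hw
    have e : (ub w).2 = w.2 := rfl
    have e1 : (ub w).1 = (w.1 - w.2) / 2 := rfl
    simp only [bl]
    rcases hw with hw | hw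
    · have h3 := hS2 _ hw
      have h4 := hB2 _ hw
      rw [e1, e] at h4
      rw [e] at h3
      omega
    · rcases hw with ⟨h3, h4⟩ | ⟨h3, h4, h5⟩
      · rw [e1] at h3
        rw [e] at h4
        omega
      · rw [e1] at h3
        rw [e] at h4 h5
        omega)
  simp only [Set.mem_preimage] at hw1 hw2
  refine ⟨ub w, ?_⟩
  rcases hw1 with hw1 | hw1
  · rcases hw2 with hw2 | hw2
    · exact ⟨hw1, hw2⟩
    · exfalso
      rcases hw2 with ⟨h3, h4⟩ | ⟨h3, h4, h5⟩
      · have := hR _ (hS1 hw1)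
        omega
      · apply hpR ((ub w).2 - p.2).toNat
        have : ((p.1, p.2 + (((ub w).2 - p.2).toNat : ℤ)) : P2) = ub w := by
          rw [← h3]
          ext
          · rfl
          · simp only; omega
        rw [this]
        exact hS1 hw1
  · exfalso
    have h3 := hw1.1
    have h4 := hw1.2
    rcases hw2 with hw2 | hw2
    · have := hS2 _ hw2
      omega
    · rcases hw2 with ⟨h5, h6⟩ | ⟨h5, h6, h7⟩
      · omega
      · omega

/-! ### triangles -/

/-- barycentric coordinates of `v` with respect to the triangle `a + {i, j ≥ 0, i + j ≤ n}` -/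
def bc (a : P2) (n : ℕ) : Fin 3 → P2 → ℤ
  | 0, v => v.1 - a.1
  | 1, v => v.2 - a.2
  | 2, v => a.1 + a.2 + n - v.1 - v.2

theorem bc0 (a : P2) (n : ℕ) (v : P2) : bc a n 0 v = v.1 - a.1 := rfl
theorem bc1 (a : P2) (n : ℕ) (v : P2) : bc a n 1 v = v.2 - a.2 := rfl
theorem bc2 (a : P2) (n : ℕ) (v : P2) : bc a n 2 v = a.1 + a.2 + n - v.1 - v.2 := rfl

theorem bc_sum (a : P2) (n : ℕ) (v : P2) : bc a n 0 v + bc a n 1 v + bc a n 2 v = n := by
  rw [bc0, bc1, bc2]; ring

/-- triangle -/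
def Tr (a : P2) (n : ℕ) : Set P2 := {v | ∀ i, 0 ≤ bc a n i v}

theorem mem_Tr {a : P2} {n : ℕ} {v : P2} :
    v ∈ Tr a n ↔ a.1 ≤ v.1 ∧ a.2 ≤ v.2 ∧ v.1 + v.2 ≤ a.1 + a.2 + n := by
  constructor
  · intro h
    have h0 := h 0
    have h1 := h 1
    have h2 := h 2
    rw [bc0] at h0
    rw [bc1] at h1
    rw [bc2] at h2
    omega
  · rintro ⟨h0, h1, h2⟩ i
    fin_cases i
    · show 0 ≤ bc a n 0 v
      rw [bc0]; omega
    · show 0 ≤ bc a n 1 v
      rw [bc1]; omega
    · show 0 ≤ bc a n 2 v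
      rw [bc2]; omega

/-- `v` belongs to a cluster of `S ∩ Tr a n` touching the three sides -/
def Y (S : Set P2) (a : P2) (n : ℕ) (v : P2) : Prop :=
  ∀ i, ∃ w, bc a n i w = 0 ∧ Con (S ∩ Tr a n) v w

theorem Y.mem {S : Set P2} {a : P2} {n : ℕ} {v : P2} (h : Y S a n v) : v ∈ S ∩ Tr a n := by
  obtain ⟨w, _, hw⟩ := h 0
  exact hw.left

theorem Y.mono {S T : Set P2} (hST : S ⊆ T) {a : P2} {n : ℕ} {v : P2} (h : Y S a n v) : Y T a n v := by
  intro i
  obtain ⟨w, h1, h2⟩ := h i
  exact ⟨w, h1, h2.mono (Set.inter_subset_inter_left _ hST)⟩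

theorem Y.of_con {S : Set P2} {a : P2} {n : ℕ} {u v : P2} (h : Y S a n u)
    (huv : Con (S ∩ Tr a n) u v) : Y S a n v := by
  intro i
  obtain ⟨w, h1, h2⟩ := h i
  exact ⟨w, h1, huv.symm.trans h2⟩

theorem tri_meet_aux {C1 C2 : Set P2} {a : P2} {n : ℕ} (hC1 : C1 ⊆ Tr a n) (hC2 : C2 ⊆ Tr a n)
    {u r v l : P2} (h1 : Con C1 u r) (h2 : Con C2 v l) (hu : bc a n 1 u = 0) (hr : bc a n 2 r = 0)
    (hv : bc a n 1 v = 0) (hl : bc a n 0 l = 0) (huv : u.1 ≤ v.1) : (C1 ∩ C2).Nonempty := by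
  rw [bc1] at hu hv
  rw [bc2] at hr
  rw [bc0] at hl
  have ku := mem_Tr.1 (hC1 h1.left)
  have kr := mem_Tr.1 (hC1 h1.right)
  have kv := mem_Tr.1 (hC2 h2.left)
  have kl := mem_Tr.1 (hC2 h2.right)
  set L : ℤ := a.1 + n + 1 with hL
  set E : Set P2 := {w | a.1 + a.2 + n < w.1 + w.2 ∧ a.2 ≤ w.2 ∧ w.2 ≤ a.2 + n ∧ w.1 ≤ L} with hE
  have hu' : u = (u.1, a.2) := by ext <;> simp; omega
  have hv' : v = (v.1, a.2) := by ext <;> simp; omega
  have hr' : r = (r.1, r.2) := rfl
  have c1 : Con (C1 ∪ E) (u.1, a.2) (L, a.2) := by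
    have d1 : Con (C1 ∪ E) u r := h1.mono Set.subset_union_left
    rw [hu'] at d1
    have d2 : Con (C1 ∪ E) (r.1 + 1, r.2) (L, r.2) :=
      con_row' (by omega) fun k hk hk' => Or.inr ⟨by simp only; omega, by simp only; omega,
        by simp only; omega, hk'⟩
    have d3 : Con (C1 ∪ E) (L, a.2) (L, r.2) :=
      con_col' (by omega) fun k hk hk' => Or.inr ⟨by simp only; omega, by simp only; omega,
        by simp only; omega, le_rfl⟩
    have d4 : Con (C1 ∪ E) r (r.1 + 1, r.2) := Con.step d1.right d2.left (by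
      rw [adj_iff]; left; rfl)
    exact d1.trans (d4.trans (d2.trans d3.symm))
  have c2 : Con (C2 ∪ {((a.1 - 1, l.2) : P2)}) (v.1, a.2) (a.1 - 1, l.2) := by
    have d1 : Con (C2 ∪ {((a.1 - 1, l.2) : P2)}) v l := h2.mono Set.subset_union_left
    rw [hv'] at d1
    refine d1.tail (Or.inr rfl) ?_
    rw [adj_iff]; right; left
    ext <;> simp; omega
  obtain ⟨w, hw1, hw2⟩ := mouth (R := {w | a.1 ≤ w.1 ∧ a.2 ≤ w.2}) (y := a.2)
    (B := |a.1| + |a.2| + n + 1) (fun w hw => hw.2)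
    (fun w hw hw' hc => hw' ⟨hc.1, hw⟩) (by
      rintro w (hw | hw)
      · have := mem_Tr.1 (hC1 hw)
        exact ⟨this.1, this.2.1⟩
      · exact ⟨by have := hw.1; have := hw.2.2.1; omega, hw.2.1⟩) (by
      have := le_abs_self a.2
      have := abs_nonneg a.1
      rintro w (hw | hw)
      · have := mem_Tr.1 (hC1 hw)
        omega
      · have := hw.2.2.1
        omega) (by
      rintro w (hw | hw)
      · exact (mem_Tr.1 (hC2 hw)).2.1
      · rw [Set.mem_singleton_iff] at hw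
        rw [hw]; exact kl.2.1) (by
      have := le_abs_self a.2
      have := le_abs_self a.1
      have := neg_abs_le a.2
      have := neg_abs_le a.1
      have := abs_nonneg a.1
      have := abs_nonneg a.2
      rintro w (hw | hw)
      · have := mem_Tr.1 (hC2 hw)
        omega
      · rw [Set.mem_singleton_iff] at hw
        subst hw
        simp only
        omega) c1 c2 huv (by omega) (by
      rintro ⟨h3, _⟩
      simp only at h3
      omega)
  refine ⟨w, ?_⟩
  rcases hw1 with hw1 | hw1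
  · rcases hw2 with hw2 | hw2
    · exact ⟨hw1, hw2⟩
    · exfalso
      rw [Set.mem_singleton_iff] at hw2
      have := mem_Tr.1 (hC1 hw1)
      rw [hw2] at this
      simp only at this
      omega
  · exfalso
    rcases hw2 with hw2 | hw2
    · have := mem_Tr.1 (hC2 hw2)
      have := hw1.1
      omega
    · rw [Set.mem_singleton_iff] at hw2
      subst hw2
      have := hw1.1
      simp only at this
      omega

/-- two clusters touching the three sides meet -/
theorem Y.con {S : Set P2} {a : P2} {n : ℕ} {u v : P2} (hu : Y S a n u) (hv : Y S a n v) :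
    Con (S ∩ Tr a n) u v := by
  have key : ∀ u v : P2, Y S a n u → Y S a n v →
      (∃ p q : P2, Con (S ∩ Tr a n) u p ∧ Con (S ∩ Tr a n) v q ∧ bc a n 1 p = 0 ∧ bc a n 1 q = 0 ∧
        p.1 ≤ q.1) → Con (S ∩ Tr a n) u v := by
    rintro u v hu hv ⟨p, q, hp, hq, hp1, hq1, hpq⟩
    obtain ⟨r, hr, cr⟩ := hu 2
    obtain ⟨l, hl, cl'⟩ := hv 0
    have h1 : Con (Cl (S ∩ Tr a n) u) p r := hp.cl.symm.trans cr.cl
    have h2 : Con (Cl (S ∩ Tr a n) v) q l := hq.cl.symm.trans cl'.cl
    obtain ⟨w, hw1, hw2⟩ := tri_meet_aux (a := a) (n := n)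
      (fun w hw => (cl_sub hw).2) (fun w hw => (cl_sub hw).2) h1 h2 hp1 hr hq1 hl hpq
    exact Con.trans hw1 (Con.symm hw2)
  obtain ⟨p, hp1, hp⟩ := hu 1
  obtain ⟨q, hq1, hq⟩ := hv 1
  rcases le_total p.1 q.1 with h | h
  · exact key u v hu hv ⟨p, q, hp, hq, hp1, hq1, h⟩
  · exact (key v u hv hu ⟨q, p, hq, hp, hq1, hp1, h⟩).symm

/-! ### rotation -/

/-- rotation by 120 degrees -/
def rot (v : P2) : P2 := (-v.1 - v.2, v.1)
/-- the corner of the rotated triangle -/
def ra (a : P2) (n : ℕ) : P2 := (-a.1 - a.2 - n, a.1)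

theorem rot_adj {u v : P2} (h : Adj u v) : Adj (rot u) (rot v) := by
  unfold Adj at *
  simp only [rot]
  omega

theorem rot_inj : Function.Injective rot := by
  intro u v h
  simp only [rot, Prod.mk.injEq] at h
  ext <;> omega

theorem bc_rot (a : P2) (n : ℕ) (i : Fin 3) (v : P2) :
    bc (ra a n) n (i + 1) (rot v) = bc a n i v := by
  fin_cases i
  · show bc (ra a n) n 1 (rot v) = bc a n 0 v
    rw [bc1, bc0]; rfl
  · show bc (ra a n) n 2 (rot v) = bc a n 1 v
    rw [bc2, bc1]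
    simp only [ra, rot]; ring
  · show bc (ra a n) n 0 (rot v) = bc a n 2 v
    rw [bc0, bc2]
    simp only [ra, rot]; ring

theorem mem_Tr_rot {a : P2} {n : ℕ} {v : P2} : rot v ∈ Tr (ra a n) n ↔ v ∈ Tr a n := by
  constructor
  · intro h i
    have := h (i + 1)
    rwa [bc_rot] at this
  · intro h i
    have := h (i - 1)
    rw [← bc_rot] at this
    simpa using this

/-- the mouth lemma along side `i`, as a proposition -/
def MouthP (n : ℕ) (i : Fin 3) : Prop := ∀ (j : Fin 3) (a : P2) (S1 S2 : Set P2) (u v w p : P2),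
  j ≠ i → S1 ⊆ Tr a n → (∀ x ∈ S2, 0 ≤ bc a n i x) → S2.Finite → Con S1 u v → Con S2 w p →
  bc a n i u = 0 → bc a n i v = 0 → bc a n i w = 0 → bc a n j u ≤ bc a n j w →
  bc a n j w ≤ bc a n j v → p ∉ Tr a n → (S1 ∩ S2).Nonempty

theorem mouthP_one (n : ℕ) : MouthP n 1 := by
  have aux : ∀ {a : P2} {S1 S2 : Set P2} {u v w p : P2},
      S1 ⊆ Tr a n → (∀ x ∈ S2, 0 ≤ bc a n 1 x) → S2.Finite → Con S1 u v → Con S2 w p →
      bc a n 1 u = 0 → bc a n 1 v = 0 → bc a n 1 w = 0 → u.1 ≤ w.1 →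
      w.1 ≤ v.1 → p ∉ Tr a n → (S1 ∩ S2).Nonempty := by
    intro a S1 S2 u v w p hS1 hS2 hB h1 h2 hu hv hw huw hwv hp
    rw [bc1] at hu hv hw
    obtain ⟨B, hB⟩ : ∃ B : ℤ, ∀ x ∈ S2, -B ≤ x.1 ∧ x.1 ≤ B ∧ x.2 ≤ B := by
      obtain ⟨B, hB⟩ := (hB.image fun x : P2 => |x.1| + |x.2|).bddAbove
      refine ⟨B, fun x hx => ?_⟩
      have h3 : |x.1| + |x.2| ≤ B := hB ⟨x, hx, rfl⟩
      have := le_abs_self x.1
      have := neg_abs_le x.1
      have := le_abs_self x.2
      have := abs_nonneg x.1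
      have := abs_nonneg x.2
      omega
    have hu' : u = (u.1, a.2) := by ext <;> simp; omega
    have hv' : v = (v.1, a.2) := by ext <;> simp; omega
    have hw' : w = (w.1, a.2) := by ext <;> simp; omega
    rw [hu', hv'] at h1
    rw [hw'] at h2
    refine mouth (R := Tr a n) (y := a.2) (B := |B| + |a.2| + n) (fun x hx => (mem_Tr.1 hx).2.1)
      ?_ hS1 ?_ ?_ ?_ h1 h2 huw hwv hp
    · intro x hx hx' hc
      apply hx'
      have := mem_Tr.1 hc
      simp only at this
      rw [mem_Tr]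
      omega
    · intro x hx
      have := mem_Tr.1 (hS1 hx)
      have := le_abs_self a.2
      have := abs_nonneg B
      omega
    · intro x hx
      have := hS2 x hx
      rw [bc1] at this
      omega
    · intro x hx
      have := hB x hx
      have := le_abs_self B
      have := abs_nonneg a.2
      omega
  intro j a S1 S2 u v w p hj hS1 hS2 hB h1 h2 hu hv hw huw hwv hp
  have hj' : ∀ k : Fin 3, k ≠ 1 → k = 0 ∨ k = 2 := by decide
  rcases hj' j hj with rfl | rfl
  · rw [bc0, bc0] at huw hwv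
    exact aux hS1 hS2 hB h1 h2 hu hv hw (by omega) (by omega) hp
  · have e1 := bc1 a n u
    have e2 := bc1 a n v
    have e3 := bc1 a n w
    rw [bc2, bc2] at huw hwv
    exact aux hS1 hS2 hB h1.symm h2 hv hu hw (by omega) (by omega) hp

theorem mouthP_rot {n : ℕ} {i : Fin 3} (H : MouthP n (i + 1)) : MouthP n i := by
  intro j a S1 S2 u v w p hj hS1 hS2 hB h1 h2 hu hv hw huw hwv hp
  have h1' : Con (rot '' S1) (rot u) (rot v) := 
    h1.map (fun _ _ => rot_adj) (fun x hx => Set.mem_image_of_mem rot hx)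
  have h2' : Con (rot '' S2) (rot w) (rot p) := 
    h2.map (fun _ _ => rot_adj) (fun x hx => Set.mem_image_of_mem rot hx)
  have := H (j + 1) (ra a n) (rot '' S1) (rot '' S2) (rot u) (rot v) (rot w) (rot p)
    (fun h => hj (add_right_cancel h))
    (by rintro _ ⟨x, hx, rfl⟩; exact mem_Tr_rot.2 (hS1 hx))
    (by rintro _ ⟨x, hx, rfl⟩; rw [bc_rot]; exact hS2 x hx) (hB.image _) h1' h2'
    (by rw [bc_rot]; exact hu) (by rw [bc_rot]; exact hv) (by rw [bc_rot]; exact hw)
    (by rw [bc_rot, bc_rot]; exact huw) (by rw [bc_rot, bc_rot]; exact hwv)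
    (fun h => hp (mem_Tr_rot.1 h))
  obtain ⟨_, ⟨x, hx, rfl⟩, ⟨x', hx', e⟩⟩ := this
  rw [rot_inj e] at hx'
  exact ⟨x, hx, hx'⟩

theorem mouthP (n : ℕ) (i : Fin 3) : MouthP n i := by
  have m1 := mouthP_one n
  have m0 : MouthP n 0 := mouthP_rot (i := 0) m1
  have m2 : MouthP n 2 := mouthP_rot (i := 2) m0
  fin_cases i
  · exact m0
  · exact m1
  · exact m2

/-- **Mouth lemma** along side `i`. -/
theorem mouthY {i j : Fin 3} (hij : j ≠ i) {a : P2} {n : ℕ} {S1 S2 : Set P2} {u v w p : P2}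
    (hS1 : S1 ⊆ Tr a n) (hS2 : ∀ x ∈ S2, 0 ≤ bc a n i x) (hB : S2.Finite)
    (h1 : Con S1 u v) (h2 : Con S2 w p) (hu : bc a n i u = 0) (hv : bc a n i v = 0)
    (hw : bc a n i w = 0) (huw : bc a n j u ≤ bc a n j w) (hwv : bc a n j w ≤ bc a n j v)
    (hp : p ∉ Tr a n) : (S1 ∩ S2).Nonempty :=
  mouthP n i j a S1 S2 u v w p hij hS1 hS2 hB h1 h2 hu hv hw huw hwv hp

end Crest.Agent.R144.Cas706
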