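import Crest.Agent.R144.Zf_349

/-!
# R144 (CCW, step B2): cross ratio of partition functions across a middle barrier (helper169)

* `S_allP` : `S c G 1{all triangles of G \ F closed plus} * 2^|VF F| = 2^|VF G| * Z c F` (`F ⊆ G`, both `SC`);
* `Z_fkg` : `Z (D \ A) * Z (D \ B) ≤ Z D * Z (D \ (A ∪ B))` (no site has triangles in both `A` and `B`);
* `Ex D R ω`, `Cl D R ω` : exploration of `D` from `R` through non-(closed plus) triangles, with its closed layer;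
* `Dec c` : exact decoupling (F3) of helper349, as a hypothesis;
* `Z_upper` : `Pr (exploration from R stays off L) * Z D * Z (D \ (A ∪ B)) ≤ Z (D \ A) * Z (D \ B)`
  for all `A ⊆ R`, `B ⊆ L`;
* `cross` : **cross ratio**
  `p ^ 2 * Z (D \ (A ∪ B)) * Z (D \ (A' ∪ B')) ≤ Z (D \ (A ∪ B')) * Z (D \ (A' ∪ B))`.
-/

set_option autoImplicit false
set_option linter.unusedSectionVars false
set_option linter.unusedSimpArgs false

noncomputable section

namespace Crest.Agent.R144.Cb2169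

open Finset
open Crest.Agent.R144.It844 (P2 adj_iff)
open Crest.ProbabilityR.HexHeights (Adj)
open Crest.Agent.R144.Zg349 Crest.Agent.R144.Zk349 Crest.Agent.R144.Zd349 Crest.Agent.R144.Zm349
open Crest.Agent.R144.HyA349 Crest.Agent.R144.HyB349 Crest.Agent.R144.HyC349
open Crest.Agent.R144.Ze349 Crest.Agent.R144.Zf349

open Classical in
/-- indicator: all triangles of `A` are closed plus -/
def allP (A : Finset P2) (ω : Cfg) : ℝ := if ∀ t ∈ A, pC ω t then 1 else 0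

theorem allP_nonneg (A : Finset P2) (ω : Cfg) : 0 ≤ allP A ω := by
  unfold allP; split_ifs <;> norm_num

theorem allP_le_one (A : Finset P2) (ω : Cfg) : allP A ω ≤ 1 := by
  unfold allP; split_ifs <;> norm_num

theorem allP_inc (A : Finset P2) : IncP (allP A) := by
  intro ω ω' h
  unfold allP
  by_cases h1 : ∀ t ∈ A, pC ω t
  · rw [if_pos h1, if_pos fun t ht => h.p t (h1 t ht)]
  · rw [if_neg h1]; split_ifs <;> norm_num

theorem allP_mul (A B : Finset P2) (ω : Cfg) : allP A ω * allP B ω = allP (A ∪ B) ω := by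
  unfold allP
  by_cases h1 : ∀ t ∈ A, pC ω t <;> by_cases h2 : ∀ t ∈ B, pC ω t
  · rw [if_pos h1, if_pos h2, if_pos, one_mul]
    intro t ht
    rcases Finset.mem_union.1 ht with h | h
    · exact h1 t h
    · exact h2 t h
  · rw [if_pos h1, if_neg h2, if_neg fun h => h2 fun t ht => h t (Finset.mem_union_right _ ht), mul_zero]
  · have h3 : ¬ ∀ t ∈ A ∪ B, pC ω t := fun h => h1 fun t ht => h t (Finset.mem_union_left _ ht)
    rw [if_neg h1, if_neg h3, zero_mul]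
  · have h3 : ¬ ∀ t ∈ A ∪ B, pC ω t := fun h => h1 fun t ht => h t (Finset.mem_union_left _ ht)
    rw [if_neg h1, if_neg h3, zero_mul]

/-- **All triangles of `G \ F` closed plus.** -/
theorem S_allP (c : ℝ) {F G : Finset P2} (hF : SC F) (hG : SC G) (hFG : F ⊆ G) :
    S c G (allP (G \ F)) * 2 ^ (VF F).card = 2 ^ (VF G).card * Z c F := by
  classical
  have h1 : S c G (allP (G \ F)) = Kc G G * EB c (ID G) G (eta ∅ ∅) (Ain F G) := by
    rw [rep_self c hG (allP_inc _).tz]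
    congr 1
    apply EB_congr
    intro T hT P hP M hM
    have hT0 : (eta ∅ ∅).T0 = (∅ : Finset P2) := rfl
    rw [hT0, Finset.union_empty] at hP hM
    unfold allP Ain
    have key : (∀ t ∈ G \ F, pC (mk G T P M) t) ↔ (T ⊆ IV F ∧ G \ F ⊆ P) := by
      constructor
      · intro h
        have hP' : G \ F ⊆ P := by
          intro t ht
          obtain ⟨a, b⟩ := h t ht
          rw [mk_z] at a
          rw [mk_s] at b
          rcases a with a | a | a
          · exact absurd (Finset.mem_sdiff.1 ht).1 a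
          · exact a.1
          · exact absurd a.2 b
        refine ⟨fun v hv => ?_, hP'⟩
        rw [mem_IV']
        intro t htv
        by_contra htF
        have htG : t ∈ G := (mem_IV'.1 (hT hv)) t htv
        have h2 := hP (hP' (Finset.mem_sdiff.2 ⟨htG, htF⟩))
        exact (Finset.mem_filter.1 h2).2 v htv hv
      · rintro ⟨h2, h3⟩ t ht
        have htT : t ∉ T := fun h => (Finset.mem_sdiff.1 ht).2 (IV_sub F (h2 h))
        refine ⟨?_, ?_⟩
        · rw [mk_z]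
          exact Or.inr (Or.inl ⟨h3 ht, htT⟩)
        · rw [mk_s]
          exact htT
    by_cases h : ∀ t ∈ G \ F, pC (mk G T P M) t
    · rw [if_pos h, if_pos (key.1 h)]
    · rw [if_neg h, if_neg fun h' => h (key.2 h')]
  have h2 : Z c F = Kc F G * EB c (ID G) G (eta ∅ ∅) (Ain F G) := by
    rw [← S_one, rep c hF hFG incP_one.tz]
    simp only [mul_one]
  rw [h1, h2]
  unfold Kc Nm
  have e1 : (4 : ℝ) ^ (G \ F).card * 4 ^ F.card = 4 ^ G.card := by
    rw [← pow_add, Finset.card_sdiff_add_card_eq_card hFG]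
  have e2 := (ncl_pos G ∅).ne'
  have e3 : (4 : ℝ) ^ F.card ≠ 0 := by positivity
  have e4 : (4 : ℝ) ^ (G \ F).card ≠ 0 := by positivity
  rw [← e1]
  simp only [Finset.sdiff_self, Finset.card_empty, pow_zero]
  field_simp

/-- no site has triangles in both `A` and `B` -/
def Apart (A B : Finset P2) : Prop := ∀ t ∈ A, ∀ t' ∈ B, ∀ v, v ∈ up t → v ∉ up t'

theorem Apart.symm {A B : Finset P2} (h : Apart A B) : Apart B A :=
  fun t ht t' ht' v hv hv' => h t' ht' t ht v hv' hv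

theorem Apart.mono {A A' B B' : Finset P2} (h : Apart A B) (hA : A' ⊆ A) (hB : B' ⊆ B) : Apart A' B' :=
  fun t ht t' ht' => h t (hA ht) t' (hB ht')

/-- additivity of the number of lost sites -/
theorem card_VF {D A B : Finset P2} (hAB : Apart A B) :
    (VF D).card + (VF (D \ (A ∪ B))).card = (VF (D \ A)).card + (VF (D \ B)).card := by
  classical
  have h1 : VF (D \ A) ∪ VF (D \ B) = VF D := by
    ext v
    simp only [Finset.mem_union, mem_VF, Finset.mem_sdiff]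
    constructor
    · rintro (⟨t, ⟨h, _⟩, h'⟩ | ⟨t, ⟨h, _⟩, h'⟩) <;> exact ⟨t, h, h'⟩
    · rintro ⟨t, ht, htv⟩
      by_cases hA : t ∈ A
      · right
        refine ⟨t, ⟨ht, fun hB => hAB t hA t hB v htv htv⟩, htv⟩
      · exact Or.inl ⟨t, ⟨ht, hA⟩, htv⟩
  have h2 : VF (D \ A) ∩ VF (D \ B) = VF (D \ (A ∪ B)) := by
    ext v
    simp only [Finset.mem_inter, mem_VF, Finset.mem_sdiff, Finset.mem_union, not_or]
    constructor
    · rintro ⟨⟨t, ⟨ht, htA⟩, htv⟩, t', ⟨ht', htB'⟩, htv'⟩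
      by_cases hB : t ∈ B
      · refine ⟨t', ⟨ht', fun hA' => ?_, htB'⟩, htv'⟩
        exact hAB t' hA' t hB v htv' htv
      · exact ⟨t, ⟨ht, htA, hB⟩, htv⟩
    · rintro ⟨t, ⟨ht, htA, htB⟩, htv⟩
      exact ⟨⟨t, ⟨ht, htA⟩, htv⟩, t, ⟨ht, htB⟩, htv⟩
  rw [← h1, ← h2]
  exact Finset.card_union_add_card_inter _ _

theorem E_allP {c : ℝ} (hc : 1 ≤ c) {F G : Finset P2} (hF : SC F) (hG : SC G) (hFG : F ⊆ G) :
    E c G (allP (G \ F)) * 2 ^ (VF F).card * Z c G = 2 ^ (VF G).card * Z c F := by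
  have h := (Z_pos hc G).ne'
  rw [← S_allP c hF hG hFG, E_eq_S]
  field_simp

theorem sdiff_sdiff_self' {D A : Finset P2} (hA : A ⊆ D) : D \ (D \ A) = A := by
  ext x
  have := fun h : x ∈ A => hA h
  simp only [Finset.mem_sdiff]
  tauto

/-- `Pr (A closed plus) * 2^|VF (D \ A)| * Z D = 2^|VF D| * Z (D \ A)` -/
theorem E_allP' {c : ℝ} (hc : 1 ≤ c) {D A : Finset P2} (hD : SC D) (hDA : SC (D \ A)) (hA : A ⊆ D) :
    E c D (allP A) * 2 ^ (VF (D \ A)).card * Z c D = 2 ^ (VF D).card * Z c (D \ A) := by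
  have h := E_allP hc hDA hD Finset.sdiff_subset
  rwa [sdiff_sdiff_self' hA] at h

/-- **FKG for partition functions.** -/
theorem Z_fkg {c : ℝ} (hc : 1 ≤ c) {D A B : Finset P2} (hD : SC D) (hA : A ⊆ D) (hB : B ⊆ D)
    (hDA : SC (D \ A)) (hDB : SC (D \ B)) (hDAB : SC (D \ (A ∪ B))) (hAB : Apart A B) :
    Z c (D \ A) * Z c (D \ B) ≤ Z c D * Z c (D \ (A ∪ B)) := by
  have h1 := assoc hc hD (allP_inc A) (allP_inc B)
  simp only [allP_mul] at h1
  have a1 := E_allP' hc hD hDA hA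
  have a2 := E_allP' hc hD hDB hB
  have a3 := E_allP' hc hD hDAB (Finset.union_subset hA hB)
  have hv := card_VF (D := D) hAB
  have hZ := Z_pos hc D
  set x := E c D (allP A)
  set y := E c D (allP B)
  set z := E c D (allP (A ∪ B))
  have p1 : (0 : ℝ) < 2 ^ (VF (D \ A)).card := by positivity
  have p2 : (0 : ℝ) < 2 ^ (VF (D \ B)).card := by positivity
  have p3 : (0 : ℝ) < 2 ^ (VF (D \ (A ∪ B))).card := by positivity
  have p0 : (0 : ℝ) < 2 ^ (VF D).card := by positivity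
  have e : (2 : ℝ) ^ (VF D).card * 2 ^ (VF (D \ (A ∪ B))).card =
      2 ^ (VF (D \ A)).card * 2 ^ (VF (D \ B)).card := by
    rw [← pow_add, ← pow_add, hv]
  set u0 := (2 : ℝ) ^ (VF D).card
  set u1 := (2 : ℝ) ^ (VF (D \ A)).card
  set u2 := (2 : ℝ) ^ (VF (D \ B)).card
  set u3 := (2 : ℝ) ^ (VF (D \ (A ∪ B))).card
  have h2 : (x * u1 * Z c D) * (y * u2 * Z c D) ≤ (z * u3 * Z c D) * (u0 * Z c D) := by
    have : (x * u1 * Z c D) * (y * u2 * Z c D) = (x * y) * (u1 * u2 * (Z c D * Z c D)) := by ring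
    rw [this]
    have : (z * u3 * Z c D) * (u0 * Z c D) = z * (u1 * u2 * (Z c D * Z c D)) := by
      rw [← e]; ring
    rw [this]
    exact mul_le_mul_of_nonneg_right h1 (by positivity)
  rw [a1, a2, a3] at h2
  have h3 : (u0 * u0) * (Z c (D \ A) * Z c (D \ B)) ≤ (u0 * u0) * (Z c D * Z c (D \ (A ∪ B))) := by
    linarith
  exact le_of_mul_le_mul_left h3 (by positivity)

/-! ### exploration -/

/-- one exploration step: to a triangle of `D` that is not closed plus -/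
def Stp (D : Finset P2) (ω : Cfg) (a b : P2) : Prop := Adj a b ∧ b ∈ D ∧ ¬ pC ω b

/-- explored by paths from `R` through triangles that are not closed plus -/
def InE (D R : Finset P2) (ω : Cfg) (t : P2) : Prop :=
  ∃ r ∈ R, Relation.ReflTransGen (Stp D ω) r t

open Classical in
/-- explored set -/
def Ex (D R : Finset P2) (ω : Cfg) : Finset P2 := D.filter fun t => InE D R ω t

open Classical in
/-- closure of a set in `D` : the set and its neighbours in `D` -/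
def Cl (D E0 : Finset P2) : Finset P2 := D.filter fun t => t ∈ E0 ∨ ∃ s ∈ E0, Adj s t

theorem mem_Ex {D R : Finset P2} {ω : Cfg} {t : P2} : t ∈ Ex D R ω ↔ t ∈ D ∧ InE D R ω t := by
  simp [Ex]

theorem mem_Cl {D E0 : Finset P2} {t : P2} : t ∈ Cl D E0 ↔ t ∈ D ∧ (t ∈ E0 ∨ ∃ s ∈ E0, Adj s t) := by
  simp [Cl]

theorem Ex_sub (D R : Finset P2) (ω : Cfg) : Ex D R ω ⊆ D := fun _ h => (mem_Ex.1 h).1
theorem Cl_sub (D E0 : Finset P2) : Cl D E0 ⊆ D := fun _ h => (mem_Cl.1 h).1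

theorem R_sub_Ex {D R : Finset P2} (hR : R ⊆ D) (ω : Cfg) : R ⊆ Ex D R ω := fun r hr =>
  mem_Ex.2 ⟨hR hr, r, hr, .refl⟩

theorem Ex_sub_Cl {D R : Finset P2} (ω : Cfg) : Ex D R ω ⊆ Cl D (Ex D R ω) := fun _ ht =>
  mem_Cl.2 ⟨Ex_sub _ _ _ ht, Or.inl ht⟩

theorem Ex_step {D R : Finset P2} {ω : Cfg} {a b : P2} (ha : a ∈ Ex D R ω) (hab : Adj a b) (hb : b ∈ D)
    (hz : ¬ pC ω b) : b ∈ Ex D R ω := by
  obtain ⟨_, r, hr, h⟩ := mem_Ex.1 ha
  exact mem_Ex.2 ⟨hb, r, hr, h.tail ⟨hab, hb, hz⟩⟩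

/-- the layer is closed plus -/
theorem layer_pC {D R : Finset P2} {ω : Cfg} {t : P2} (ht : t ∈ Cl D (Ex D R ω))
    (ht' : t ∉ Ex D R ω) : pC ω t := by
  by_contra h
  obtain ⟨h1, h2 | ⟨s, hs, hst⟩⟩ := mem_Cl.1 ht
  · exact ht' h2
  · exact ht' (Ex_step hs hst h1 h)

theorem mem_D_of_path {D R : Finset P2} (hR : R ⊆ D) {ω : Cfg} {r b : P2} (hr : r ∈ R)
    (h : Relation.ReflTransGen (Stp D ω) r b) : b ∈ D := by
  rcases Relation.ReflTransGen.cases_tail h with h4 | ⟨x, _, h4⟩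
  · rw [h4]; exact hR hr
  · exact h4.2.1

/-- the explored set is determined on its closure -/
theorem Ex_congr {D R : Finset P2} (hR : R ⊆ D) {ω ω' : Cfg}
    (h : ∀ t ∈ Cl D (Ex D R ω), (pC ω t ↔ pC ω' t)) : Ex D R ω' = Ex D R ω := by
  apply Finset.Subset.antisymm
  · intro t ht
    obtain ⟨htD, r, hr, hp⟩ := mem_Ex.1 ht
    clear htD ht
    induction hp with
    | refl => exact R_sub_Ex hR ω hr
    | @tail b e _ h2 ih =>
      obtain ⟨hbe, he, hz⟩ := h2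
      refine Ex_step ih hbe he fun h' => hz ?_
      exact (h e (mem_Cl.2 ⟨he, Or.inr ⟨b, ih, hbe⟩⟩)).1 h'
  · intro t ht
    obtain ⟨htD, r, hr, hp⟩ := mem_Ex.1 ht
    clear htD ht
    induction hp with
    | refl => exact R_sub_Ex hR ω' hr
    | @tail b e h1 h2 ih =>
      obtain ⟨hbe, he, hz⟩ := h2
      have hb' : b ∈ Ex D R ω := mem_Ex.2 ⟨mem_D_of_path hR hr h1, r, hr, h1⟩
      have he' : e ∈ Ex D R ω := Ex_step hb' hbe he hz
      refine Ex_step ih hbe he fun h' => hz ?_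
      exact (h e (Ex_sub_Cl ω he')).2 h'

/-- unexplored part -/
def Wd (D E0 : Finset P2) : Finset P2 := D \ Cl D E0

theorem Wd_sub (D E0 : Finset P2) : Wd D E0 ⊆ D := Finset.sdiff_subset

theorem mem_Wd {D E0 : Finset P2} {t : P2} : t ∈ Wd D E0 ↔ t ∈ D ∧ t ∉ E0 ∧ ∀ s ∈ E0, ¬ Adj s t := by
  unfold Wd
  rw [Finset.mem_sdiff, mem_Cl]
  constructor
  · rintro ⟨h1, h2⟩
    refine ⟨h1, fun h => h2 ⟨h1, Or.inl h⟩, fun s hs h => h2 ⟨h1, Or.inr ⟨s, hs, h⟩⟩⟩
  · rintro ⟨h1, h2, h3⟩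
    refine ⟨h1, ?_⟩
    rintro ⟨_, h | ⟨s, hs, h⟩⟩
    · exact h2 h
    · exact h3 s hs h

theorem stepIn_symm {S : Set P2} {a b : P2} (h : StepIn S a b) : StepIn S b a :=
  ⟨h.2.1, h.1, Crest.Agent.R144.It844.adj_symm h.2.2⟩

theorem rtg_symm {S : Set P2} {a b : P2} (h : Relation.ReflTransGen (StepIn S) a b) :
    Relation.ReflTransGen (StepIn S) b a := by
  induction h with
  | refl => exact .refl
  | tail _ h2 ih => exact Relation.ReflTransGen.head (stepIn_symm h2) ih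

theorem rtg_mono {S S' : Set P2} (hS : S ⊆ S') {a b : P2} (h : Relation.ReflTransGen (StepIn S) a b) :
    Relation.ReflTransGen (StepIn S') a b := by
  induction h with
  | refl => exact .refl
  | tail _ h2 ih => exact ih.tail ⟨hS h2.1, hS h2.2.1, h2.2.2⟩

/-- the unexplored part has connected complement -/
theorem SC_Wd {D R : Finset P2} (hR : R ⊆ D) (hDR : SC (D \ R)) (ω : Cfg) : SC (Wd D (Ex D R ω)) := by
  -- every point of the complement is connected to a point of `(D \ R)ᶜ`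
  set S : Set P2 := ((Wd D (Ex D R ω) : Finset P2) : Set P2)ᶜ with hS
  have hsub : (((D \ R : Finset P2) : Set P2)ᶜ) ⊆ S := by
    intro t ht h
    apply ht
    have h' : t ∈ Wd D (Ex D R ω) := h
    rw [mem_Wd] at h'
    exact Finset.mem_coe.2 (Finset.mem_sdiff.2 ⟨h'.1, fun h'' => h'.2.1 (R_sub_Ex hR ω h'')⟩)
  have hE : ∀ t ∈ Ex D R ω, t ∈ S := by
    intro t ht h
    have h' : t ∈ Wd D (Ex D R ω) := h
    exact (mem_Wd.1 h').2.1 ht
  have hEr : ∀ t ∈ Ex D R ω, ∃ r ∈ R, Relation.ReflTransGen (StepIn S) r t := by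
    intro t ht
    obtain ⟨_, r, hr, hp⟩ := mem_Ex.1 ht
    clear ht
    refine ⟨r, hr, ?_⟩
    induction hp with
    | refl => exact .refl
    | @tail b e h1 h2 ih =>
      have hb' : b ∈ Ex D R ω := mem_Ex.2 ⟨mem_D_of_path hR hr h1, r, hr, h1⟩
      have he' : e ∈ Ex D R ω := Ex_step hb' h2.1 h2.2.1 h2.2.2
      exact (ih (Ex_sub _ _ _ hb')).tail ⟨hE b hb', hE e he', h2.1⟩
  have key : ∀ t ∈ S, ∃ r ∈ (((D \ R : Finset P2) : Set P2)ᶜ), Relation.ReflTransGen (StepIn S) r t := by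
    intro t ht
    by_cases htD : t ∈ D
    · have h1 : t ∈ Cl D (Ex D R ω) := by
        by_contra h
        exact ht (Finset.mem_coe.2 (Finset.mem_sdiff.2 ⟨htD, h⟩))
      obtain ⟨_, h2 | ⟨s, hs, hst⟩⟩ := mem_Cl.1 h1
      · obtain ⟨r, hr, h3⟩ := hEr t h2
        exact ⟨r, fun h => (Finset.mem_sdiff.1 (Finset.mem_coe.1 h)).2 hr, h3⟩
      · obtain ⟨r, hr, h3⟩ := hEr s hs
        exact ⟨r, fun h => (Finset.mem_sdiff.1 (Finset.mem_coe.1 h)).2 hr, h3.tail ⟨hE s hs, ht, hst⟩⟩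
    · exact ⟨t, fun h => htD (Finset.mem_sdiff.1 (Finset.mem_coe.1 h)).1, .refl⟩
  intro u hu v hv
  obtain ⟨r, hr, h1⟩ := key u hu
  obtain ⟨r', hr', h2⟩ := key v hv
  exact (rtg_symm h1).trans ((rtg_mono hsub (hDR r hr r' hr')).trans h2)

/-! ### the upper bound -/

/-- `f` sees `(s1, s2, z)` on the closed side of `W` -/
def InC (W : Finset P2) (f : Cfg → ℝ) : Prop :=
  ∀ ω ω' : Cfg, (∀ v ∈ VF W, s1 (ω.1 v) = s1 (ω'.1 v) ∧ s2 (ω.1 v) = s2 (ω'.1 v)) →
    (∀ t ∈ W, ω.2 t = ω'.2 t) → f ω = f ω'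

/-- every triangle of `F \ W` which shares a site with `W` is closed plus -/
def LayC (F W : Finset P2) (ω : Cfg) : Prop :=
  ∀ t ∈ F \ W, (∃ t' ∈ W, ∃ v, v ∈ up t ∧ v ∈ up t') → pC ω t

/-- exact decoupling (F3) of helper349 -/
def Dec (c : ℝ) : Prop :=
  ∀ F W : Finset P2, SC F → SC W → W ⊆ F → ∀ g f : Cfg → ℝ, OffTZ W g →
    (∀ ω, g ω ≠ 0 → LayC F W ω) → InC W f →
      E c F (fun ω => g ω * f ω) = E c F g * E c W f

theorem adj_of_share {t t' : P2} (hne : t ≠ t') {v : P2} (h1 : v ∈ up t) (h2 : v ∈ up t') : Adj t t' := by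
  rw [mem_up'] at h1 h2
  obtain ⟨a, b⟩ := t
  obtain ⟨a', b'⟩ := t'
  obtain ⟨x, y⟩ := v
  rw [adj_iff]
  simp only [Prod.mk.injEq, ne_eq] at *
  omega

theorem allP_inC {A W : Finset P2} (h : A ⊆ W) : InC W (allP A) := by
  intro ω ω' h1 h2
  unfold allP
  have key : (∀ t ∈ A, pC ω t) ↔ (∀ t ∈ A, pC ω' t) := by
    refine forall₂_congr fun t ht => ?_
    unfold pC
    rw [h2 t (h ht), (h1 t (mem_VF.2 ⟨t, h ht, base_mem_up t⟩)).1]
  by_cases h3 : ∀ t ∈ A, pC ω t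
  · rw [if_pos h3, if_pos (key.1 h3)]
  · rw [if_neg h3, if_neg fun h' => h3 (key.2 h')]

open Classical in
/-- indicator of an explored set -/
def gE (D R E0 : Finset P2) (ω : Cfg) : ℝ := if Ex D R ω = E0 then 1 else 0

theorem gE_nonneg (D R E0 : Finset P2) (ω : Cfg) : 0 ≤ gE D R E0 ω := by
  unfold gE; split_ifs <;> norm_num

theorem pC_congr_off {D E0 : Finset P2} {ω ω' : Cfg}
    (h1 : ∀ v, v ∉ IV (Wd D E0) → s1 (ω.1 v) = s1 (ω'.1 v))
    (h2 : ∀ t, t ∉ Wd D E0 → ω.2 t = ω'.2 t) {t : P2} (ht : t ∈ Cl D E0) : (pC ω t ↔ pC ω' t) := by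
  have ht' : t ∉ Wd D E0 := fun h => (Finset.mem_sdiff.1 h).2 ht
  unfold pC
  rw [h2 t ht', h1 t fun h => ht' (IV_sub _ h)]

theorem gE_off {D R : Finset P2} (hR : R ⊆ D) (E0 : Finset P2) : OffTZ (Wd D E0) (gE D R E0) := by
  intro ω ω' h1 h2
  unfold gE
  by_cases h : Ex D R ω = E0
  · have h' : Ex D R ω' = E0 := by
      rw [← h]
      refine Ex_congr hR fun t ht => ?_
      rw [h] at ht
      exact pC_congr_off h1 h2 ht
    rw [if_pos h, if_pos h']
  · have h' : ¬ Ex D R ω' = E0 := by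
      intro h'
      apply h
      rw [← h']
      refine Ex_congr hR fun t ht => ?_
      rw [h'] at ht
      exact (pC_congr_off h1 h2 ht).symm
    rw [if_neg h, if_neg h']

theorem gE_lay {D R E0 : Finset P2} {ω : Cfg} (h : gE D R E0 ω ≠ 0) : LayC D (Wd D E0) ω := by
  have h0 : Ex D R ω = E0 := by
    by_contra h1
    apply h
    unfold gE
    rw [if_neg h1]
  subst h0
  rintro t ht ⟨t', ht', v, hv, hv'⟩
  rw [Finset.mem_sdiff] at ht
  obtain ⟨htD, htW⟩ := ht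
  have htC : t ∈ Cl D (Ex D R ω) := by
    by_contra h1
    exact htW (Finset.mem_sdiff.2 ⟨htD, h1⟩)
  refine layer_pC htC fun htE => ?_
  have hne : t ≠ t' := fun h => htW (h ▸ ht')
  exact (mem_Wd.1 ht').2.2 t htE (adj_of_share hne hv hv')

/-- the exploration from `R` (with its closed layer) stays off `L` -/
def Bar (D R L : Finset P2) : Set Cfg := {ω | Disjoint (Cl D (Ex D R ω)) L}

open Classical in
/-- the possible explored sets for a barrier -/
def Fam (D R L : Finset P2) : Finset (Finset P2) :=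
  D.powerset.filter fun E0 => Disjoint (Cl D E0) L ∧ ∃ ω, Ex D R ω = E0

theorem mem_Fam {D R L E0 : Finset P2} : E0 ∈ Fam D R L ↔
    E0 ⊆ D ∧ Disjoint (Cl D E0) L ∧ ∃ ω, Ex D R ω = E0 := by simp [Fam]

open Classical in
theorem sum_gE (D R L : Finset P2) (ω : Cfg) :
    ∑ E0 ∈ Fam D R L, gE D R E0 ω = if ω ∈ Bar D R L then 1 else 0 := by
  by_cases h : ω ∈ Bar D R L
  · rw [if_pos h, Finset.sum_eq_single (Ex D R ω)]
    · unfold gE; rw [if_pos rfl]
    · intro E0 _ hne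
      unfold gE; rw [if_neg fun h' => hne h'.symm]
    · intro h'
      exact absurd (mem_Fam.2 ⟨Ex_sub _ _ _, h, ω, rfl⟩) h'
  · rw [if_neg h]
    refine Finset.sum_eq_zero fun E0 hE0 => ?_
    unfold gE
    rw [if_neg]
    rintro rfl
    exact h (mem_Fam.1 hE0).2.1

/-- **The barrier decouples**: `Pr(Bar) * Pr_{D \ A}(B closed plus) ≤ Pr_D(B closed plus)`. -/
theorem bar_le {c : ℝ} (hc : 1 ≤ c) (hdec : Dec c) {D R L A B : Finset P2} (hD : SC D)
    (hR : R ⊆ D) (hL : L ⊆ D) (hDR : SC (D \ R)) (hA : A ⊆ R) (hB : B ⊆ L) (hDA : SC (D \ A)) :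
    Pr c D (Bar D R L) * E c (D \ A) (allP B) ≤ E c D (allP B) := by
  classical
  have h1 : Pr c D (Bar D R L) = ∑ E0 ∈ Fam D R L, E c D (gE D R E0) := by
    unfold Pr
    rw [← E_sum]
    congr 1
    funext ω
    rw [sum_gE]
  have h2 : ∀ E0 ∈ Fam D R L, E c D (gE D R E0) * E c (D \ A) (allP B) ≤
      E c D (fun ω => gE D R E0 ω * allP B ω) := by
    intro E0 hE0
    obtain ⟨_, hE2, ω0, hω0⟩ := mem_Fam.1 hE0
    have hSC : SC (Wd D E0) := by rw [← hω0]; exact SC_Wd hR hDR ω0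
    have hBW : B ⊆ Wd D E0 := by
      intro t ht
      exact Finset.mem_sdiff.2 ⟨hL (hB ht), fun h => Finset.disjoint_left.1 hE2 h (hB ht)⟩
    have hWA : Wd D E0 ⊆ D \ A := by
      intro t ht
      rw [mem_Wd] at ht
      refine Finset.mem_sdiff.2 ⟨ht.1, fun h => ht.2.1 ?_⟩
      rw [← hω0]
      exact R_sub_Ex hR ω0 (hA h)
    rw [hdec D (Wd D E0) hD hSC (Wd_sub _ _) (gE D R E0) (allP B) (gE_off hR E0)
      (fun ω h => gE_lay h) (allP_inC hBW)]
    exact mul_le_mul_of_nonneg_left (dom_mono hc hSC hDA hWA (allP_inc B))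
      (E_nonneg hc fun ω _ => gE_nonneg _ _ _ _)
  rw [h1, Finset.sum_mul]
  refine (Finset.sum_le_sum h2).trans ?_
  rw [← E_sum]
  refine E_mono hc fun ω _ => ?_
  rw [← Finset.sum_mul, sum_gE]
  have := allP_nonneg B ω
  split_ifs <;> simp [this]

/-- **Upper bound for partition functions.** -/
theorem Z_upper {c : ℝ} (hc : 1 ≤ c) (hdec : Dec c) {D R L A B : Finset P2} (hD : SC D)
    (hR : R ⊆ D) (hL : L ⊆ D) (hDR : SC (D \ R)) (hRL : Apart R L) (hA : A ⊆ R) (hB : B ⊆ L)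
    (hDA : SC (D \ A)) (hDB : SC (D \ B)) (hDAB : SC (D \ (A ∪ B))) :
    Pr c D (Bar D R L) * (Z c D * Z c (D \ (A ∪ B))) ≤ Z c (D \ A) * Z c (D \ B) := by
  have hAD := hA.trans hR
  have hBD := hB.trans hL
  have h1 := bar_le hc hdec hD hR hL hDR hA hB hDA
  have hBA : B ⊆ D \ A := by
    intro t ht
    refine Finset.mem_sdiff.2 ⟨hBD ht, fun h => ?_⟩
    exact hRL t (hA h) t (hB ht) t (base_mem_up t) (base_mem_up t)
  have hAB : (D \ A) \ B = D \ (A ∪ B) := by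
    ext x
    simp only [Finset.mem_sdiff, Finset.mem_union]
    tauto
  have a1 := E_allP' hc hD hDB hBD
  have a2 := E_allP' hc hDA (by rw [hAB]; exact hDAB) hBA
  rw [hAB] at a2
  have hv := card_VF (D := D) (hRL.mono hA hB)
  have hZ := Z_pos hc D
  have hZA := Z_pos hc (D \ A)
  set p := Pr c D (Bar D R L)
  set x := E c D (allP B)
  set y := E c (D \ A) (allP B)
  have e : (2 : ℝ) ^ (VF D).card * 2 ^ (VF (D \ (A ∪ B))).card =
      2 ^ (VF (D \ A)).card * 2 ^ (VF (D \ B)).card := by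
    rw [← pow_add, ← pow_add, hv]
  have q0 : (0 : ℝ) < 2 ^ (VF D).card := by positivity
  have q1 : (0 : ℝ) < 2 ^ (VF (D \ A)).card := by positivity
  have q2 : (0 : ℝ) < 2 ^ (VF (D \ B)).card := by positivity
  have q3 : (0 : ℝ) < 2 ^ (VF (D \ (A ∪ B))).card := by positivity
  set u0 := (2 : ℝ) ^ (VF D).card
  set u1 := (2 : ℝ) ^ (VF (D \ A)).card
  set u2 := (2 : ℝ) ^ (VF (D \ B)).card
  set u3 := (2 : ℝ) ^ (VF (D \ (A ∪ B))).card
  -- `p * y ≤ x`
  have h2 : (p * y) * (u2 * Z c D * (u3 * Z c (D \ A))) ≤ x * (u2 * Z c D * (u3 * Z c (D \ A))) :=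
    mul_le_mul_of_nonneg_right h1 (by positivity)
  have h3 : p * (u1 * Z c (D \ (A ∪ B))) * (u2 * Z c D) ≤ (u0 * Z c (D \ B)) * (u3 * Z c (D \ A)) := by
    rw [← a1, ← a2]
    linarith
  have h4 : (u0 * u3) * (p * (Z c D * Z c (D \ (A ∪ B)))) ≤
      (u0 * u3) * (Z c (D \ A) * Z c (D \ B)) := by
    calc (u0 * u3) * (p * (Z c D * Z c (D \ (A ∪ B))))
        = p * (u1 * Z c (D \ (A ∪ B))) * (u2 * Z c D) := by rw [e]; ring
      _ ≤ (u0 * Z c (D \ B)) * (u3 * Z c (D \ A)) := h3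
      _ = _ := by ring
  exact le_of_mul_le_mul_left h4 (by positivity)

/-- **Cross ratio.** -/
theorem cross {c : ℝ} (hc : 1 ≤ c) (hdec : Dec c) {D R L : Finset P2} (hD : SC D)
    (hR : R ⊆ D) (hL : L ⊆ D) (hDR : SC (D \ R)) (hRL : Apart R L) {p : ℝ} (hp0 : 0 ≤ p)
    (hp : p ≤ Pr c D (Bar D R L)) {A A' B B' : Finset P2} (hA : A ⊆ R) (hA' : A' ⊆ R) (hB : B ⊆ L)
    (hB' : B' ⊆ L) (sA : SC (D \ A)) (sA' : SC (D \ A')) (sB : SC (D \ B)) (sB' : SC (D \ B'))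
    (sAB : SC (D \ (A ∪ B))) (sAB' : SC (D \ (A' ∪ B'))) (tAB : SC (D \ (A ∪ B')))
    (tAB' : SC (D \ (A' ∪ B))) :
    p ^ 2 * (Z c (D \ (A ∪ B)) * Z c (D \ (A' ∪ B'))) ≤
      Z c (D \ (A ∪ B')) * Z c (D \ (A' ∪ B)) := by
  have u1 := Z_upper hc hdec hD hR hL hDR hRL hA hB sA sB sAB
  have u2 := Z_upper hc hdec hD hR hL hDR hRL hA' hB' sA' sB' sAB'
  have l1 := Z_fkg hc hD (hA.trans hR) (hB'.trans hL) sA sB' tAB (hRL.mono hA hB')
  have l2 := Z_fkg hc hD (hA'.trans hR) (hB.trans hL) sA' sB tAB' (hRL.mono hA' hB)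
  have z0 := Z_pos hc D
  have z1 := Z_pos hc (D \ A)
  have z2 := Z_pos hc (D \ A')
  have z3 := Z_pos hc (D \ B)
  have z4 := Z_pos hc (D \ B')
  have z5 := Z_pos hc (D \ (A ∪ B))
  have z6 := Z_pos hc (D \ (A' ∪ B'))
  have z7 := Z_pos hc (D \ (A ∪ B'))
  have z8 := Z_pos hc (D \ (A' ∪ B))
  set P := Pr c D (Bar D R L)
  have v1 : p * (Z c D * Z c (D \ (A ∪ B))) ≤ Z c (D \ A) * Z c (D \ B) :=
    (mul_le_mul_of_nonneg_right hp (by positivity)).trans u1
  have v2 : p * (Z c D * Z c (D \ (A' ∪ B'))) ≤ Z c (D \ A') * Z c (D \ B') :=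
    (mul_le_mul_of_nonneg_right hp (by positivity)).trans u2
  have w1 : (p * (Z c D * Z c (D \ (A ∪ B)))) * (p * (Z c D * Z c (D \ (A' ∪ B')))) ≤
      (Z c (D \ A) * Z c (D \ B)) * (Z c (D \ A') * Z c (D \ B')) :=
    mul_le_mul v1 v2 (by positivity) (by positivity)
  have w2 : (Z c (D \ A) * Z c (D \ B')) * (Z c (D \ A') * Z c (D \ B)) ≤
      (Z c D * Z c (D \ (A ∪ B'))) * (Z c D * Z c (D \ (A' ∪ B))) :=
    mul_le_mul l1 l2 (by positivity) (by positivity)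
  have w3 : (Z c D * Z c D) * (p ^ 2 * (Z c (D \ (A ∪ B)) * Z c (D \ (A' ∪ B')))) ≤
      (Z c D * Z c D) * (Z c (D \ (A ∪ B')) * Z c (D \ (A' ∪ B))) := by
    calc (Z c D * Z c D) * (p ^ 2 * (Z c (D \ (A ∪ B)) * Z c (D \ (A' ∪ B'))))
        = (p * (Z c D * Z c (D \ (A ∪ B)))) * (p * (Z c D * Z c (D \ (A' ∪ B')))) := by ring
      _ ≤ (Z c (D \ A) * Z c (D \ B)) * (Z c (D \ A') * Z c (D \ B')) := w1
      _ = (Z c (D \ A) * Z c (D \ B')) * (Z c (D \ A') * Z c (D \ B)) := by ring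
      _ ≤ _ := w2
      _ = _ := by ring
  exact le_of_mul_le_mul_left w3 (by positivity)

end Crest.Agent.R144.Cb2169
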