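import Crest.Agent.R144.Cc9_169
import Crest.Agent.R144.Pst12_967

/-!
# R144 (CCW, step B), limit of the F-type laws (helper169)

* `PHz c P` : uniform phase: local functions of the heights of period `4` converge, to the plane average over the
  four phases;
* `sh4 Y` : average over the four phases; `ph_unif` : the convergence of `E (f Y)`, uniformly over `Y` of period `4`
  seen on a fixed finite set;
* `planeB` : step B for the plane state.
-/

set_option autoImplicit false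
set_option linter.unusedSectionVars false
set_option linter.unusedSimpArgs false

noncomputable section

namespace Crest.Agent.R144.Cc169

open Finset Filter Topology MeasureTheory
open Crest.Agent.R144.It844 (P2 Lip adj_iff adj_symm lip_iff)
open Crest.ProbabilityR.HexHeights (Adj)
open Crest.Agent.R144.Zg349 Crest.Agent.R144.Zk349 Crest.Agent.R144.Zd349 Crest.Agent.R144.Zm349
open Crest.Agent.R144.Ze349
open Crest.Agent.R144.Pst967 (Hz LocZ NeutZ GObs FLim lC scs hexB cls_scs PinnedZ subset_hexB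
  grad_of_colours gobs_bounded integrable_gobs measurable_of_loc mem_lC mem_lC_of_subset)

/-- average over the four phases -/
def sh4 (Y : Hz → ℝ) (h : Hz) : ℝ := 1 / 4 * ∑ j ∈ Finset.range 4, Y (fun v => h v + (j : ℤ))

/-- uniform phase -/
def PHz (c : ℝ) (P : Measure Hz) : Prop := ∀ f : Hz → ℝ, (∃ S : Finset P2, LocZ (S : Set P2) f) →
  (∀ h : Hz, f (fun v => h v + 4) = f h) → (∃ C : ℝ, ∀ h, |f h| ≤ C) →
  Tendsto (fun F => E c F (fun ω => f ω.1)) (lC scs) (𝓝 (∫ h, sh4 f h ∂P))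

theorem per_nat {Y : Hz → ℝ} (h4 : ∀ h : Hz, Y (fun v => h v + 4) = Y h) (k : ℕ) (h : Hz) :
    Y (fun v => h v + 4 * (k : ℤ)) = Y h := by
  induction k with
  | zero => simp
  | succ k ih =>
    rw [← ih, ← h4 (fun v => h v + 4 * (k : ℤ))]
    congr 1
    funext v
    push_cast
    ring

theorem per_int {Y : Hz → ℝ} (h4 : ∀ h : Hz, Y (fun v => h v + 4) = Y h) (k : ℤ) (h : Hz) :
    Y (fun v => h v + 4 * k) = Y h := by
  rcases Int.eq_nat_or_neg k with ⟨n, rfl | rfl⟩
  · exact per_nat h4 n h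
  · have h1 := per_nat h4 n (fun v => h v + 4 * (-(n : ℤ)))
    rw [← h1]
    congr 1
    funext v
    ring

theorem sh4_loc {S : Set P2} {Y : Hz → ℝ} (hY : LocZ S Y) : LocZ S (sh4 Y) := by
  intro h g hg
  unfold sh4
  congr 1
  exact Finset.sum_congr rfl fun j _ => hY _ _ fun v hv => by rw [hg v hv]

theorem sh4_abs {Y : Hz → ℝ} {B : ℝ} (hY : ∀ h, |Y h| ≤ B) (h : Hz) : |sh4 Y h| ≤ B := by
  unfold sh4
  rw [abs_mul, abs_of_pos (by norm_num : (0 : ℝ) < 1 / 4)]
  have h1 : |∑ j ∈ Finset.range 4, Y (fun v => h v + (j : ℤ))| ≤ ∑ _j ∈ Finset.range 4, B :=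
    (Finset.abs_sum_le_sum_abs _ _).trans (Finset.sum_le_sum fun j _ => hY _)
  rw [Finset.sum_const, Finset.card_range, nsmul_eq_mul] at h1
  push_cast at h1
  linarith

theorem sh4_neut {Y : Hz → ℝ} (h4 : ∀ h : Hz, Y (fun v => h v + 4) = Y h) : NeutZ (sh4 Y) := by
  have h1 : ∀ h : Hz, sh4 Y (fun v => h v + 1) = sh4 Y h := by
    intro h
    unfold sh4
    congr 1
    have e1 : Y (fun v => h v + 1 + ((3 : ℕ) : ℤ)) = Y (fun v => h v + ((0 : ℕ) : ℤ)) := by
      have : (fun v => h v + 1 + ((3 : ℕ) : ℤ)) = fun v => (fun v => h v + ((0 : ℕ) : ℤ)) v + 4 := by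
        funext v
        push_cast
        ring
      rw [this, h4]
    have e2 : ∀ j : ℕ, Y (fun v => h v + 1 + (j : ℤ)) = Y (fun v => h v + ((j + 1 : ℕ) : ℤ)) := by
      intro j
      congr 1
      funext v
      push_cast
      ring
    rw [Finset.sum_range_succ, Finset.sum_range_succ, Finset.sum_range_succ, Finset.sum_range_one,
      Finset.sum_range_succ, Finset.sum_range_succ, Finset.sum_range_succ, Finset.sum_range_one,
      e1, e2, e2, e2]
    ring
  have h2 : ∀ (n : ℕ) (h : Hz), sh4 Y (fun v => h v + (n : ℤ)) = sh4 Y h := by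
    intro n
    induction n with
    | zero => intro h; simp
    | succ n ih =>
      intro h
      rw [← ih h, ← h1 (fun v => h v + (n : ℤ))]
      congr 1
      funext v
      push_cast
      ring
  intro h c
  rcases Int.eq_nat_or_neg c with ⟨n, rfl | rfl⟩
  · exact h2 n h
  · rw [← h2 n (fun v => h v + -(n : ℤ))]
    congr 1
    funext v
    ring

theorem s1_mod {a b : ℤ} (h : a % 4 = b % 4) : s1 a = s1 b := by
  unfold s1
  rw [decide_eq_decide]
  omega

theorem s2_mod {a b : ℤ} (h : a % 4 = b % 4) : s2 a = s2 b := by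
  unfold s2
  rw [decide_eq_decide]
  omega

/-- sites of the box -/
abbrev HB (n : ℕ) : Type := {v : P2 // v ∈ hexB n}

open Classical in
/-- indicator of a pattern modulo `4` -/
def pind (n : ℕ) (a : HB n → Fin 4) (h : Hz) : ℝ :=
  if ∀ v : HB n, h v % 4 = ((a v : ℕ) : ℤ) then 1 else 0

theorem pind_loc (n : ℕ) (a : HB n → Fin 4) : LocZ (hexB n : Set P2) (pind n a) := by
  intro h g hg
  unfold pind
  have : (∀ v : HB n, h v % 4 = ((a v : ℕ) : ℤ)) ↔
      ∀ v : HB n, g v % 4 = ((a v : ℕ) : ℤ) :=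
    forall_congr' fun v => by rw [hg v v.2]
  simp only [this]

theorem pind_per (n : ℕ) (a : HB n → Fin 4) (h : Hz) :
    pind n a (fun v => h v + 4) = pind n a h := by
  unfold pind
  have : (∀ v : HB n, (h v + 4) % 4 = ((a v : ℕ) : ℤ)) ↔
      ∀ v : HB n, h v % 4 = ((a v : ℕ) : ℤ) :=
    forall_congr' fun v => by rw [Int.add_emod_right]
  simp only [this]

theorem pind_abs (n : ℕ) (a : HB n → Fin 4) (h : Hz) : |pind n a h| ≤ 1 := by
  unfold pind
  split_ifs <;> simp

/-- pattern of a height function -/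
def pt4 (n : ℕ) (h : Hz) : HB n → Fin 4 := fun v =>
  ⟨(h v % 4).toNat, by
    have h1 := Int.emod_nonneg (h v) (by norm_num : (4 : ℤ) ≠ 0)
    have h2 := Int.emod_lt_of_pos (h v) (by norm_num : (0 : ℤ) < 4)
    omega⟩

theorem pt4_spec (n : ℕ) (h : Hz) (v : HB n) : h v % 4 = ((pt4 n h v : ℕ) : ℤ) := by
  have h1 := Int.emod_nonneg (h v) (by norm_num : (4 : ℤ) ≠ 0)
  show h v % 4 = (((h v % 4).toNat : ℕ) : ℤ)
  omega

theorem pind_iff (n : ℕ) (a : HB n → Fin 4) (h : Hz) :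
    pind n a h = if a = pt4 n h then 1 else 0 := by
  classical
  unfold pind
  have : (∀ v : HB n, h v % 4 = ((a v : ℕ) : ℤ)) ↔ a = pt4 n h := by
    constructor
    · intro H
      funext v
      apply Fin.ext
      have h1 := H v
      rw [pt4_spec n h v] at h1
      exact_mod_cast h1.symm
    · rintro rfl v
      exact pt4_spec n h v
  by_cases h1 : a = pt4 n h
  · rw [if_pos (this.2 h1), if_pos h1]
  · rw [if_neg fun h2 => h1 (this.1 h2), if_neg h1]

/-- Lipschitz heights with the same pattern modulo `4` -/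
theorem eq_of_pt4 {n : ℕ} {f Y : Hz → ℝ} (hfW : LocZ (hexB n : Set P2) f) (hfn : NeutZ f)
    (hYW : LocZ (hexB n : Set P2) Y) (h4 : ∀ h : Hz, Y (fun v => h v + 4) = Y h) {h g : Hz} (hl : Lip h)
    (gl : Lip g) (hp : pt4 n h = pt4 n g) : f h * Y h = f g * Y g := by
  have hm : ∀ v ∈ hexB n, h v % 4 = g v % 4 := fun v hv => by
    rw [pt4_spec n h ⟨v, hv⟩, pt4_spec n g ⟨v, hv⟩, hp]
  have h0 : (0 : P2) ∈ hexB n := by
    rw [Pst967.mem_hexB]
    simp
  have hd := fun v hv => grad_of_colours hl gl (fun v hv => s1_mod (hm v hv)) (fun v hv => s2_mod (hm v hv))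
    (v := v) hv
  have hm0 := hm 0 h0
  obtain ⟨k, hk⟩ : ∃ k : ℤ, h 0 - g 0 = 4 * k := ⟨(h 0 - g 0) / 4, by omega⟩
  have e : ∀ v ∈ (hexB n : Set P2), h v = g v + 4 * k := fun v hv => by
    have := hd v hv
    omega
  rw [hfW h (fun v => g v + 4 * k) e, hYW h (fun v => g v + 4 * k) e, hfn g (4 * k), per_int h4]

/-- **Uniform convergence** over the functions of period `4` seen on a finite set. -/
theorem ph_unif {c : ℝ} {P : Measure Hz} (hP : PinnedZ P) (hPH : PHz c P) (W : Finset P2)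
    {f : Hz → ℝ} (hf : GObs f) {ε : ℝ} (hε : 0 < ε) :
    ∀ᶠ F in lC scs, ∀ Y : Hz → ℝ, LocZ (W : Set P2) Y → (∀ h, |Y h| ≤ 1) →
      (∀ h : Hz, Y (fun v => h v + 4) = Y h) →
      |E c F (fun ω => f ω.1 * Y ω.1) - ∫ h, f h * sh4 Y h ∂P| ≤ ε := by
  classical
  have hprob := hP.prob
  obtain ⟨C, hC⟩ := gobs_bounded hf
  have hC0 : 0 ≤ C := (abs_nonneg _).trans (hC (fun _ => 0) (It844.lip_const 0))
  obtain ⟨⟨S, hS⟩, hN⟩ := hf
  obtain ⟨n, hn⟩ := subset_hexB (S ∪ W)
  have hSn : (S : Set P2) ⊆ hexB n := fun v hv => hn (Finset.mem_union_left _ hv)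
  have hWn : (W : Set P2) ⊆ hexB n := fun v hv => hn (Finset.mem_union_right _ hv)
  set A := (HB n → Fin 4) with hA
  have hcard : (0 : ℝ) < Fintype.card A + 1 := by positivity
  have hev : ∀ a : A, ∀ᶠ F in lC scs, |E c F (fun ω => pind n a ω.1) - ∫ h, sh4 (pind n a) h ∂P| ≤
      ε / ((C + 1) * (Fintype.card A + 1)) := by
    intro a
    have h1 := hPH (pind n a) ⟨hexB n, pind_loc n a⟩ (pind_per n a) ⟨1, pind_abs n a⟩
    have h2 := Metric.tendsto_nhds.1 h1 (ε / ((C + 1) * (Fintype.card A + 1))) (by positivity)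
    filter_upwards [h2] with F hF
    rw [Real.dist_eq] at hF
    exact hF.le
  filter_upwards [eventually_all.2 hev] with F hF Y hYW hY1 hY4
  -- values on patterns
  let val : A → ℝ := fun a => if hh : ∃ g : Hz, Lip g ∧ pt4 n g = a then
    f hh.choose * Y hh.choose else 0
  have hval : ∀ h : Hz, Lip h → val (pt4 n h) = f h * Y h := by
    intro h hl
    have hh : ∃ g : Hz, Lip g ∧ pt4 n g = pt4 n h := ⟨h, hl, rfl⟩
    have e : val (pt4 n h) = f hh.choose * Y hh.choose := dif_pos hh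
    rw [e]
    exact eq_of_pt4 (hS.mono hSn) hN (hYW.mono hWn) hY4 hh.choose_spec.1 hl hh.choose_spec.2
  have hvb : ∀ a, |val a| ≤ C := by
    intro a
    by_cases hh : ∃ g : Hz, Lip g ∧ pt4 n g = a
    · have e : val a = f hh.choose * Y hh.choose := dif_pos hh
      rw [e, abs_mul]
      calc |f hh.choose| * |Y hh.choose| ≤ C * 1 :=
            mul_le_mul (hC _ hh.choose_spec.1) (hY1 _) (abs_nonneg _) hC0
        _ = C := mul_one C
    · have e : val a = 0 := dif_neg hh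
      rw [e, abs_zero]
      exact hC0
  have hdec : ∀ h : Hz, Lip h → f h * Y h = ∑ a : A, val a * pind n a h := by
    intro h hl
    rw [← hval h hl, Finset.sum_eq_single (pt4 n h)]
    · rw [pind_iff, if_pos rfl, mul_one]
    · intro a _ ha
      rw [pind_iff, if_neg ha, mul_zero]
    · intro h1
      exact absurd (Finset.mem_univ _) h1
  have e1 : E c F (fun ω => f ω.1 * Y ω.1) = ∑ a : A, val a * E c F (fun ω => pind n a ω.1) := by
    rw [E_congr (g := fun ω => ∑ a : A, val a * pind n a ω.1) fun ω hω => hdec ω.1 hω.ht.toLip, E_sum]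
    exact Finset.sum_congr rfl fun a _ => E_smul c F (val a) _
  have hint : ∀ a : A, Integrable (sh4 (pind n a)) P := fun a =>
    Integrable.of_bound (measurable_of_loc ⟨hexB n, sh4_loc (pind_loc n a)⟩).aestronglyMeasurable 1
      (ae_of_all _ fun h => by rw [Real.norm_eq_abs]; exact sh4_abs (pind_abs n a) h)
  have e2 : ∫ h, f h * sh4 Y h ∂P = ∑ a : A, val a * ∫ h, sh4 (pind n a) h ∂P := by
    have h1 : ∀ h : Hz, Lip h → f h * sh4 Y h = ∑ a : A, val a * sh4 (pind n a) h := by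
      intro h hl
      unfold sh4
      have h2 : ∀ j : ℕ, f h * Y (fun v => h v + (j : ℤ)) =
          ∑ a : A, val a * pind n a (fun v => h v + (j : ℤ)) := by
        intro j
        rw [← hdec (fun v => h v + (j : ℤ)) (hl.add_const _), hN h (j : ℤ)]
      rw [mul_left_comm, Finset.mul_sum, Finset.sum_congr rfl fun j _ => h2 j, Finset.sum_comm,
        Finset.mul_sum]
      refine Finset.sum_congr rfl fun a _ => ?_
      rw [← Finset.mul_sum]
      ring
    rw [integral_congr_ae (g := fun h => ∑ a : A, val a * sh4 (pind n a) h)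
      (by filter_upwards [hP.lip] with h hl using h1 h hl),
      integral_finsetSum _ fun a _ => (hint a).const_mul _]
    exact Finset.sum_congr rfl fun a _ => integral_const_mul _ _
  rw [e1, e2, ← Finset.sum_sub_distrib]
  refine (Finset.abs_sum_le_sum_abs _ _).trans ?_
  have h3 : ∀ a ∈ (Finset.univ : Finset A), |val a * E c F (fun ω => pind n a ω.1) -
      val a * ∫ h, sh4 (pind n a) h ∂P| ≤ C * (ε / ((C + 1) * (Fintype.card A + 1))) := by
    intro a _
    rw [← mul_sub, abs_mul]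
    exact mul_le_mul (hvb a) (hF a) (abs_nonneg _) hC0
  refine (Finset.sum_le_sum h3).trans ?_
  rw [Finset.sum_const, Finset.card_univ, nsmul_eq_mul]
  have h4 : (Fintype.card A : ℝ) * (C * (ε / ((C + 1) * (Fintype.card A + 1)))) =
      ε * ((Fintype.card A / (Fintype.card A + 1)) * (C / (C + 1))) := by
    field_simp
  rw [h4]
  have h5 : (Fintype.card A : ℝ) / (Fintype.card A + 1) ≤ 1 := by
    rw [div_le_one hcard]; linarith
  have h6 : C / (C + 1) ≤ 1 := by
    rw [div_le_one (by linarith)]; linarith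
  have h7 : (0 : ℝ) ≤ C / (C + 1) := by positivity
  calc ε * ((Fintype.card A : ℝ) / (Fintype.card A + 1) * (C / (C + 1))) ≤ ε * 1 := by
        refine mul_le_mul_of_nonneg_left ?_ hε.le
        exact mul_le_one₀ h5 h7 h6
    _ = ε := mul_one ε

/-- F-level estimate of step B, for one pair `f, Y` -/
def StepF (c : ℝ) (F : Finset P2) (Lay : Finset P2) (f Y : Hz → ℝ) (B2 : ℝ) : Prop :=
  ∃ Yb : Hz → ℝ, LocZ (VF Lay : Set P2) Yb ∧ (∀ h, |Yb h| ≤ 1) ∧
    (∀ h : Hz, Yb (fun v => h v + 4) = Yb h) ∧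
    ∀ t : ℝ, 0 < t → |E c F (fun ω => f ω.1 * Y ω.1) - E c F (fun ω => f ω.1 * Yb ω.1)| ≤
      t * B2 + t⁻¹ * E c F (fun ω => f ω.1 ^ 2)

/-- **Step B for the plane state.** -/
theorem planeB {c : ℝ} {P : Measure Hz} (hP : PinnedZ P) (hPH : PHz c P)
    (hF : ∀ f : Hz → ℝ, GObs f → FLim c f (∫ h, f h ∂P)) {Lay : Finset P2} {f Y : Hz → ℝ} (hf : GObs f)
    (hY : GObs Y) {B2 : ℝ} (hst : ∀ᶠ F in lC scs, StepF c F Lay f Y B2) {t : ℝ} (ht : 0 < t) {ε : ℝ}
    (hε : 0 < ε) :
    ∃ Yb : Hz → ℝ, LocZ (VF Lay : Set P2) Yb ∧ NeutZ Yb ∧ (∀ h, |Yb h| ≤ 1) ∧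
      |∫ h, f h * Y h ∂P - ∫ h, f h * Yb h ∂P| ≤ t * B2 + t⁻¹ * ∫ h, f h ^ 2 ∂P + ε := by
  have hne := cls_scs.neBot
  have h1 := Metric.tendsto_nhds.1 (hF _ (hf.map₂ hY fun a b => a * b)) (ε / 3) (by positivity)
  have h2 := Metric.tendsto_nhds.1 (hF _ (hf.comp fun a => a ^ 2)) (t * (ε / 3)) (by positivity)
  have h3 := ph_unif hP hPH (VF Lay) hf (ε := ε / 3) (by positivity)
  obtain ⟨F, k1, k2, k3, Yb, y1, y2, y3, y4⟩ := (((h1.and h2).and h3).and hst).exists.imp
    fun F h => (⟨h.1.1.1, h.1.1.2, h.1.2, h.2⟩ : _ ∧ _ ∧ _ ∧ _)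
  refine ⟨sh4 Yb, sh4_loc y1, sh4_neut y3, sh4_abs y2, ?_⟩
  have k4 := k3 Yb y1 y2 y3
  have k5 := y4 t ht
  rw [Real.dist_eq, abs_lt] at k1 k2
  rw [abs_le] at k4 k5
  have k6 : t⁻¹ * E c F (fun ω => f ω.1 ^ 2) ≤ t⁻¹ * ∫ h, f h ^ 2 ∂P + ε / 3 := by
    have h6 : E c F (fun ω => f ω.1 ^ 2) ≤ ∫ h, f h ^ 2 ∂P + t * (ε / 3) := by linarith [k2.2]
    calc t⁻¹ * E c F (fun ω => f ω.1 ^ 2) ≤ t⁻¹ * (∫ h, f h ^ 2 ∂P + t * (ε / 3)) :=
          mul_le_mul_of_nonneg_left h6 (by positivity)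
      _ = _ := by field_simp
  rw [abs_le]
  constructor <;> linarith [k1.1, k1.2, k4.1, k4.2, k5.1, k5.2]

end Crest.Agent.R144.Cc169
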