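import Crest.Agent.R144.Cc1_169

/-!
# R144 (CCW, step B), gluing of admissible configurations (helper169)

* `gl_mem` : the glued configuration is in the kernel of the outer one;
* `gl_gl` : gluing back;
* `wt_gl` : weights are exchanged; `wt_gl_in` : inner weights.
-/

set_option autoImplicit false
set_option linter.unusedSectionVars false
set_option linter.unusedSimpArgs false

noncomputable section

namespace Crest.Agent.R144.Cc169

open Finset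
open Crest.Agent.R144.It844 (P2 Lip adj_iff adj_symm lip_iff)
open Crest.ProbabilityR.HexHeights (Adj)
open Crest.Agent.R144.Zg349 Crest.Agent.R144.Zk349 Crest.Agent.R144.Zd349 Crest.Agent.R144.Zm349
open Crest.Agent.R144.Ze349
open Crest.Agent.R144.Cb2169 (Ex Cl Wd mem_Ex mem_Cl mem_Wd Ex_sub Cl_sub R_sub_Ex Ex_sub_Cl Ex_step
  layer_pC Ex_congr adj_of_share mem_D_of_path Stp)

theorem C1_congr {h g : P2 → ℤ} {t : P2} (H : ∀ v ∈ up t, h v = g v) : C1 h t ↔ C1 g t := by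
  unfold C1
  rw [H _ (cr_mem_up t 0), H _ (cr_mem_up t 1), H _ (cr_mem_up t 2)]

theorem C2_congr {h g : P2 → ℤ} {t : P2} (H : ∀ v ∈ up t, h v = g v) : C2 h t ↔ C2 g t := by
  unfold C2
  rw [H _ (cr_mem_up t 0), H _ (cr_mem_up t 1), H _ (cr_mem_up t 2)]

theorem ew_congr (c : ℝ) {ω η : Cfg} {t : P2} (H : ∀ v ∈ up t, ω.1 v = η.1 v) (hz : ω.2 t = η.2 t) :
    ew c ω t = ew c η t := by
  unfold ew
  simp only [hz, C1_congr H, C2_congr H]

theorem c1_of_s1 {h : P2 → ℤ} {t : P2} (H : ∀ v ∈ up t, s1 (h v) = true) : C1 h t :=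
  ⟨by rw [H _ (cr_mem_up t 0), H _ (cr_mem_up t 1)], by rw [H _ (cr_mem_up t 0), H _ (cr_mem_up t 2)]⟩

theorem ew_plus (c : ℝ) {ω : Cfg} {t : P2} (hz : ω.2 t = true) (H : ∀ v ∈ up t, s1 (ω.1 v) = true) :
    ew c ω t = 1 := by
  unfold ew
  rw [if_pos hz, if_pos (c1_of_s1 H)]

namespace St
variable {s : St}

/-- the four types of triangles of `F` -/
theorem cases_F (ω : Cfg) (V : Finset P2) {t : P2} (ht : t ∈ s.F) :
    t ∈ s.N ω ∩ V ∨ t ∈ s.N ω \ V ∨ t ∈ s.X ω ∨ (t ∈ s.Rv ω ∧ t ∉ s.X ω) := by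
  by_cases h1 : t ∈ s.Rv ω
  · by_cases h2 : t ∈ s.X ω
    · exact Or.inr (Or.inr (Or.inl h2))
    · exact Or.inr (Or.inr (Or.inr ⟨h1, h2⟩))
  · have h3 : t ∈ s.N ω := s.mem_N.2 ⟨ht, h1⟩
    by_cases h2 : t ∈ V
    · exact Or.inl (Finset.mem_inter.2 ⟨h3, h2⟩)
    · exact Or.inr (Or.inl (Finset.mem_sdiff.2 ⟨h3, h2⟩))

theorem up_not_G {t : P2} (ht : t ∉ s.F) {v : P2} (hv : v ∈ up t) : v ∉ VF s.G := by
  intro h
  obtain ⟨g, hg, hvg⟩ := mem_VF.1 h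
  by_cases hne : g = t
  · exact ht (s.hGF (hne ▸ hg))
  · exact ht (s.hnb g hg t (adj_of_share hne hvg hv))

section
variable {V : Finset P2} (hV : V ⊆ s.G) {ξ η : Cfg} (h0 : s.Eq0 η ξ) (hc : s.Cpt V ξ η)
  (aξ : s.Adm ξ) (aη : s.Adm η)

omit hV h0 hc aξ aη in
theorem not_inN_of_Rv {ω : Cfg} {V : Finset P2} {t : P2} (h : t ∈ s.Rv ω) : t ∉ s.N ω ∩ V := fun h' =>
  (s.mem_N.1 (Finset.mem_inter.1 h').1).2 h

include h0 aξ aη

/-- on a layer triangle the glued configuration is plus closed, in the same block as `η` -/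
theorem gl_layer {t v w : P2} (ht : t ∈ s.Rv η) (ht' : t ∉ s.X η) (hv : v ∈ up t) (hw : w ∈ up t) :
    s1 ((s.gl V ξ η).1 v) = true ∧ (s.gl V ξ η).1 v / 4 = η.1 w / 4 := by
  by_cases h : v ∈ s.Fr V η
  · rw [gl_fr h]
    obtain ⟨_, b, c⟩ := layer_blk aη aξ.lip (aξ.cmp.mono (s.Rv_sub_F η)) h0 ht ht' hw hv
    exact ⟨b, c.symm⟩
  · rw [gl_nfr h]
    obtain ⟨a, _, c⟩ := layer_blk aη aη.lip (aη.cmp.mono (s.Rv_sub_F η)) (Eq0.refl s η) ht ht' hv hw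
    exact ⟨a, c⟩

theorem gl_layer_z {t : P2} (ht : t ∈ s.Rv η) (ht' : t ∉ s.X η) : (s.gl V ξ η).2 t = true := by
  rw [gl_z' (not_inN_of_Rv ht)]
  exact (s.layer ht ht').1

include hV hc

theorem gl_lip : Lip (s.gl V ξ η).1 := by
  apply Zs349.lip_of_cr
  intro t i j
  by_cases htF : t ∈ s.F
  · rcases cases_F η V htF with h | h | h | ⟨h, h'⟩
    · rw [gl_in hV h0 hc (mem_VF_of h (cr_mem_up t i)), gl_in hV h0 hc (mem_VF_of h (cr_mem_up t j))]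
      exact Zs349.lip_cr aξ.lip t i j
    · rw [gl_out (mem_VF_of h (cr_mem_up t i)), gl_out (mem_VF_of h (cr_mem_up t j))]
      exact Zs349.lip_cr aη.lip t i j
    · rw [gl_X (mem_VF_of h (cr_mem_up t i)), gl_X (mem_VF_of h (cr_mem_up t j))]
      exact Zs349.lip_cr aη.lip t i j
    · obtain ⟨a1, a2⟩ := gl_layer (V := V) h0 aξ aη h h' (cr_mem_up t i) (cr_mem_up t 0)
      obtain ⟨b1, b2⟩ := gl_layer (V := V) h0 aξ aη h h' (cr_mem_up t j) (cr_mem_up t 0)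
      exact close_of_blk a1 b1 (a2.trans b2.symm)
  · have h1 : ∀ k, cr t k ∉ s.Fr V η := fun k hk => up_not_G htF (cr_mem_up t k) ((s.mem_Fr).1 hk).1
    rw [gl_nfr (h1 i), gl_nfr (h1 j)]
    exact Zs349.lip_cr aη.lip t i j

theorem gl_cmp : Cmp s.F (s.gl V ξ η) := by
  intro t htF
  rcases cases_F η V htF with h | h | h | ⟨h, h'⟩
  · rw [gl_z h, C1_congr fun v hv => gl_in hV h0 hc (mem_VF_of h hv),
      C2_congr fun v hv => gl_in hV h0 hc (mem_VF_of h hv)]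
    exact aξ.cmp t htF
  · rw [gl_z' (fun h' => (Finset.mem_sdiff.1 h).2 (Finset.mem_inter.1 h').2),
      C1_congr fun v hv => gl_out (mem_VF_of h hv), C2_congr fun v hv => gl_out (mem_VF_of h hv)]
    exact aη.cmp t htF
  · rw [gl_z' (not_inN_of_Rv (s.X_sub_Rv η h)),
      C1_congr fun v hv => gl_X (mem_VF_of h hv), C2_congr fun v hv => gl_X (mem_VF_of h hv)]
    exact aη.cmp t htF
  · rw [gl_layer_z (V := V) h0 aξ aη h h']
    refine ⟨fun _ => c1_of_s1 fun v hv => (gl_layer (V := V) h0 aξ aη h h' hv hv).1, fun h'' => ?_⟩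
    exact absurd h'' (by decide)

omit hV hc in
theorem gl_pC {t : P2} (ht : t ∈ s.Rv η) : pC η t ↔ pC (s.gl V ξ η) t := by
  by_cases ht' : t ∈ s.X η
  · unfold pC
    rw [gl_z' (not_inN_of_Rv ht), gl_X (mem_VF_of ht' (base_mem_up t))]
  · exact ⟨fun _ => ⟨gl_layer_z (V := V) h0 aξ aη ht ht',
      (gl_layer (V := V) h0 aξ aη ht ht' (base_mem_up t) (base_mem_up t)).1⟩, fun _ => s.layer ht ht'⟩

omit hV hc in
theorem X_gl : s.X (s.gl V ξ η) = s.X η :=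
  Ex_congr s.hRW fun _ ht => gl_pC (V := V) h0 aξ aη ht

theorem gl_mem0 : s.gl V ξ η ∈ s.K0 V η :=
  s.mem_K0.2 ⟨gl_lip hV h0 hc aξ aη, fun _ hv => gl_nfr hv, fun _ ht => gl_z' ht,
    X_gl h0 aξ aη⟩

/-- **the glued configuration is in the kernel of the outer one** -/
theorem gl_mem : s.gl V ξ η ∈ s.K V η := s.mem_K.2 ⟨gl_mem0 hV h0 hc aξ aη, gl_cmp hV h0 hc aξ aη⟩

theorem gl_adm : s.Adm (s.gl V ξ η) := ⟨gl_lip hV h0 hc aξ aη, gl_cmp hV h0 hc aξ aη⟩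

/-- gluing back -/
theorem gl_gl : s.gl V (s.gl V ξ η) (s.gl V η ξ) = ξ := by
  have hX1 := X_gl (V := V) h0 aξ aη
  have hX2 := X_gl (V := V) h0.symm aη aξ
  have hF2 : s.Fr V (s.gl V η ξ) = s.Fr V ξ := s.Fr_congr hX2 V
  have hF3 : s.Fr V ξ = s.Fr V η := h0.Fr V
  have hN2 : s.N (s.gl V η ξ) = s.N ξ := s.N_congr hX2
  have hN3 : s.N ξ = s.N η := h0.N
  refine Prod.ext ?_ ?_
  · funext v
    by_cases hv : v ∈ s.Fr V ξ
    · rw [gl_fr (hF2.symm ▸ hv), gl_fr (hF3 ▸ hv)]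
    · rw [gl_nfr (hF2.symm ▸ hv), gl_nfr hv]
  · funext t
    by_cases ht : t ∈ s.N ξ ∩ V
    · rw [gl_z (by rw [hN2]; exact ht), gl_z (by rw [← hN3]; exact ht)]
    · rw [gl_z' (by rw [hN2]; exact ht), gl_z' ht]

/-- `ew` of the glued configuration -/
theorem ew_gl_in (c : ℝ) {t : P2} (h : t ∈ s.N η ∩ V) : ew c (s.gl V ξ η) t = ew c ξ t :=
  ew_congr c (fun _ hv => gl_in hV h0 hc (mem_VF_of h hv)) (gl_z h)

omit hV h0 hc aξ aη in
theorem ew_gl_out (c : ℝ) {V : Finset P2} {ξ η : Cfg} {t : P2} (h : t ∈ s.N η \ V) :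
    ew c (s.gl V ξ η) t = ew c η t :=
  ew_congr c (fun _ hv => gl_out (mem_VF_of h hv))
    (gl_z' fun h' => (Finset.mem_sdiff.1 h).2 (Finset.mem_inter.1 h').2)

/-- inner weights -/
theorem wt_gl_in (c : ℝ) : wt c (s.N η ∩ V) (s.gl V ξ η) = wt c (s.N η ∩ V) ξ :=
  Finset.prod_congr rfl fun _ ht => ew_gl_in hV h0 hc aξ aη c ht

end

theorem Cpt.symm {V : Finset P2} {ξ η : Cfg} (h0 : s.Eq0 η ξ) (h : s.Cpt V ξ η) : s.Cpt V η ξ := by
  intro v h1 h2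
  rw [h0.N] at h1 h2
  exact (h v h1 h2).symm

/-- **weights are exchanged** -/
theorem wt_gl (c : ℝ) {V V' : Finset P2} (hV : V ⊆ s.G) (hVV : V ⊆ V') {ξ η : Cfg} (h0 : s.Eq0 η ξ)
    (hc : s.Cpt V ξ η) (aξ : s.Adm ξ) (aη : s.Adm η) :
    wt c (s.N η ∩ V') (s.gl V ξ η) * wt c (s.N η ∩ V') (s.gl V η ξ) =
      wt c (s.N η ∩ V') ξ * wt c (s.N η ∩ V') η := by
  have hN : s.N ξ = s.N η := h0.N
  have hsub : s.N η ∩ V ⊆ s.N η ∩ V' := Finset.inter_subset_inter_left hVV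
  unfold wt
  rw [← Finset.prod_mul_distrib, ← Finset.prod_mul_distrib]
  refine Finset.prod_congr rfl fun t ht => ?_
  by_cases h : t ∈ V
  · have h1 : t ∈ s.N η ∩ V := Finset.mem_inter.2 ⟨(Finset.mem_inter.1 ht).1, h⟩
    have h2 : t ∈ s.N ξ ∩ V := by rw [hN]; exact h1
    rw [ew_gl_in hV h0 hc aξ aη c h1, ew_gl_in hV h0.symm (hc.symm h0) aη aξ c h2]
  · have h1 : t ∈ s.N η \ V := Finset.mem_sdiff.2 ⟨(Finset.mem_inter.1 ht).1, h⟩
    have h2 : t ∈ s.N ξ \ V := by rw [hN]; exact h1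
    rw [ew_gl_out c h1, ew_gl_out c h2, mul_comm]

end St
end Crest.Agent.R144.Cc169
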