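import Crest.Agent.R144.Cc2_169

/-!
# R144 (CCW, step B), normalised kernels (helper169)

* `s.W c V ω`, `s.R c V f ω` : total weight and conditional expectation given the revealed information and the
  outside of `V`; `R_tower`, `R_loc`, `R_comm`; `s.R2` : two replicas.
-/

set_option autoImplicit false
set_option linter.unusedSectionVars false
set_option linter.unusedSimpArgs false

noncomputable section

namespace Crest.Agent.R144.Cc169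

open Finset
open Crest.Agent.R144.It844 (P2 Lip adj_iff adj_symm lip_iff)
open Crest.ProbabilityR.HexHeights (Adj)
open Crest.Agent.R144.Zg349 Crest.Agent.R144.Zk349 Crest.Agent.R144.Zd349 Crest.Agent.R144.Zm349
open Crest.Agent.R144.Ze349
open Crest.Agent.R144.Cb2169 (Ex Cl Wd mem_Ex mem_Cl mem_Wd Ex_sub Cl_sub R_sub_Ex Ex_sub_Cl Ex_step
  layer_pC Ex_congr adj_of_share mem_D_of_path Stp)

/-- averaging over the classes of a partition -/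
theorem part_avg {α : Type*} (C : Finset α) (cls : α → Finset α) (hsub : ∀ a ∈ C, cls a ⊆ C)
    (hself : ∀ a ∈ C, a ∈ cls a) (heq : ∀ a ∈ C, ∀ b ∈ cls a, cls b = cls a) (o u f : α → ℝ)
    (ho : ∀ a ∈ C, ∀ b ∈ cls a, o b = o a) (hU : ∀ a ∈ C, ∑ b ∈ cls a, u b ≠ 0) :
    ∑ a ∈ C, o a * u a * f a = ∑ a ∈ C, o a * u a * ((∑ b ∈ cls a, u b * f b) / ∑ b ∈ cls a, u b) := by
  have h1 : ∑ a ∈ C, o a * u a * ((∑ b ∈ cls a, u b * f b) / ∑ b ∈ cls a, u b) =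
      ∑ a ∈ C, ∑ b ∈ cls a, o a * u a * (u b * f b) / ∑ d ∈ cls a, u d := by
    refine Finset.sum_congr rfl fun a _ => ?_
    rw [Finset.sum_div, Finset.mul_sum]
    exact Finset.sum_congr rfl fun b _ => by ring
  rw [h1, Finset.sum_comm' (s' := fun b => cls b) (t' := C)]
  · refine Finset.sum_congr rfl fun b hb => ?_
    have h2 : ∑ a ∈ cls b, o a * u a * (u b * f b) / ∑ d ∈ cls a, u d =
        ∑ a ∈ cls b, u a * (o b * u b * f b / ∑ d ∈ cls b, u d) := by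
      refine Finset.sum_congr rfl fun a ha => ?_
      rw [heq b hb a ha, ho b hb a ha]
      ring
    rw [h2, ← Finset.sum_mul]
    have := hU b hb
    field_simp
  · intro a b
    constructor
    · rintro ⟨ha, hb⟩
      refine ⟨?_, hsub a ha hb⟩
      rw [heq a ha b hb]
      exact hself a ha
    · rintro ⟨ha, hb⟩
      refine ⟨hsub b hb ha, ?_⟩
      rw [heq b hb a ha]
      exact hself b hb

theorem wt_sub (c : ℝ) {A B : Finset P2} (h : A ⊆ B) (ω : Cfg) : wt c B ω = wt c (B \ A) ω * wt c A ω :=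
  (Finset.prod_sdiff h).symm

namespace St
variable (s : St)

/-- total weight of the kernel -/
def W (c : ℝ) (V : Finset P2) (ω : Cfg) : ℝ := ∑ ξ ∈ s.K V ω, wt c (s.N ω ∩ V) ξ

/-- conditional expectation given the revealed information and the outside of `V` -/
def R (c : ℝ) (V : Finset P2) (f : Cfg → ℝ) (ω : Cfg) : ℝ :=
  (∑ ξ ∈ s.K V ω, wt c (s.N ω ∩ V) ξ * f ξ) / s.W c V ω

variable {s}

open Classical in
/-- closing everything possible inside `V` -/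
def clo (s : St) (V : Finset P2) (ω : Cfg) : Cfg :=
  (ω.1, fun t => if t ∈ s.N ω ∩ V then decide (C1 ω.1 t) else ω.2 t)

theorem clo_mem {V : Finset P2} {ω : Cfg} (h : s.Adm ω) : s.clo V ω ∈ s.K V ω := by
  classical
  have hz : ∀ t, t ∉ s.N ω ∩ V → (s.clo V ω).2 t = ω.2 t := fun t ht => if_neg ht
  refine s.mem_K.2 ⟨s.mem_K0.2 ⟨h.lip, fun _ _ => rfl, hz, ?_⟩, ?_⟩
  · refine Ex_congr s.hRW fun t ht => ?_
    have ht' : t ∈ s.Rv ω := ht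
    unfold pC
    rw [hz t (not_inN_of_Rv ht')]
    exact Iff.rfl
  · intro t ht
    by_cases h1 : t ∈ s.N ω ∩ V
    · have e : (s.clo V ω).2 t = decide (C1 ω.1 t) := if_pos h1
      have e1 : (s.clo V ω).1 = ω.1 := rfl
      rw [e, e1]
      refine ⟨fun h2 => of_decide_eq_true h2, fun h2 => ?_⟩
      exact (c1_or_c2 (h := ω.1) (t := t) (fun i j => Zs349.lip_cr h.lip t i j)).resolve_left
        (of_decide_eq_false h2)
    · rw [hz t h1]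
      exact h.cmp t ht

theorem clo_wt (c : ℝ) {V : Finset P2} {ω : Cfg} (h : s.Adm ω) : wt c (s.N ω ∩ V) (s.clo V ω) = 1 := by
  classical
  refine Finset.prod_eq_one fun t ht => ?_
  have e : (s.clo V ω).2 t = decide (C1 ω.1 t) := if_pos ht
  have e1 : (s.clo V ω).1 = ω.1 := rfl
  unfold ew
  rw [e, e1]
  by_cases h1 : C1 ω.1 t
  · simp [h1]
  · have h2 : C2 ω.1 t := (c1_or_c2 (h := ω.1) (t := t)
      (fun i j => Zs349.lip_cr h.lip t i j)).resolve_left h1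
    simp [h1, h2]

theorem W_pos {c : ℝ} (hc : 1 ≤ c) {V : Finset P2} {ω : Cfg} (h : s.Adm ω) : 0 < s.W c V ω := by
  refine Finset.sum_pos' (fun ξ _ => wt_nonneg hc _ ξ) ⟨s.clo V ω, clo_mem h, ?_⟩
  rw [clo_wt c h]
  exact one_pos

theorem R_add (c : ℝ) (V : Finset P2) (f g : Cfg → ℝ) (ω : Cfg) :
    s.R c V (fun ξ => f ξ + g ξ) ω = s.R c V f ω + s.R c V g ω := by
  unfold R
  rw [← add_div, ← Finset.sum_add_distrib]
  congr 1
  exact Finset.sum_congr rfl fun _ _ => by ring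

theorem R_smul (c : ℝ) (V : Finset P2) (a : ℝ) (f : Cfg → ℝ) (ω : Cfg) :
    s.R c V (fun ξ => a * f ξ) ω = a * s.R c V f ω := by
  unfold R
  rw [mul_div_assoc', Finset.mul_sum]
  congr 1
  exact Finset.sum_congr rfl fun _ _ => by ring

theorem R_sub (c : ℝ) (V : Finset P2) (f g : Cfg → ℝ) (ω : Cfg) :
    s.R c V (fun ξ => f ξ - g ξ) ω = s.R c V f ω - s.R c V g ω := by
  unfold R
  rw [← sub_div, ← Finset.sum_sub_distrib]
  congr 1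
  exact Finset.sum_congr rfl fun _ _ => by ring

theorem R_const {c : ℝ} (hc : 1 ≤ c) (V : Finset P2) (a : ℝ) {ω : Cfg} (h : s.Adm ω) :
    s.R c V (fun _ => a) ω = a := by
  unfold R
  rw [← Finset.sum_mul]
  have := (W_pos hc (V := V) h).ne'
  unfold W at *
  field_simp

theorem R_congr (c : ℝ) {V : Finset P2} {f g : Cfg → ℝ} {ω : Cfg} (h : ∀ ξ ∈ s.K V ω, f ξ = g ξ) :
    s.R c V f ω = s.R c V g ω := by
  unfold R
  congr 1
  exact Finset.sum_congr rfl fun ξ hξ => by rw [h ξ hξ]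

theorem R_mono {c : ℝ} (hc : 1 ≤ c) {V : Finset P2} {f g : Cfg → ℝ} {ω : Cfg} (ha : s.Adm ω)
    (h : ∀ ξ ∈ s.K V ω, f ξ ≤ g ξ) : s.R c V f ω ≤ s.R c V g ω := by
  unfold R
  refine div_le_div_of_nonneg_right ?_ (W_pos hc ha).le
  exact Finset.sum_le_sum fun ξ hξ => mul_le_mul_of_nonneg_left (h ξ hξ) (wt_nonneg hc _ ξ)

theorem R_nonneg {c : ℝ} (hc : 1 ≤ c) {V : Finset P2} {f : Cfg → ℝ} {ω : Cfg} (ha : s.Adm ω)
    (h : ∀ ξ ∈ s.K V ω, 0 ≤ f ξ) : 0 ≤ s.R c V f ω := by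
  have := R_mono hc ha (f := fun _ => 0) (g := f) h
  rwa [R_const hc V 0 ha] at this

theorem R_abs {c : ℝ} (hc : 1 ≤ c) {V : Finset P2} {f : Cfg → ℝ} {ω : Cfg} (ha : s.Adm ω) :
    |s.R c V f ω| ≤ s.R c V (fun ξ => |f ξ|) ω := by
  rw [abs_le]
  constructor
  · have h1 := R_mono hc ha (V := V) (f := fun ξ => (-1) * |f ξ|) (g := f) fun ξ _ => by
      rw [neg_one_mul]; exact neg_abs_le _
    rw [R_smul, neg_one_mul] at h1
    exact h1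
  · exact R_mono hc ha fun ξ _ => le_abs_self _

/-- weights off `V` are constant on the kernels -/
theorem wt_out {c : ℝ} {V V' : Finset P2} {ω η : Cfg} (h : η ∈ s.K V ω) :
    wt c ((s.N ω ∩ V') \ (s.N ω ∩ V)) η = wt c ((s.N ω ∩ V') \ (s.N ω ∩ V)) ω := by
  obtain ⟨_, a2, a3, _⟩ := s.mem_K0.1 (s.mem_K.1 h).1
  refine Finset.prod_congr rfl fun t ht => ?_
  rw [Finset.mem_sdiff, Finset.mem_inter] at ht
  have h1 : t ∈ s.N ω \ V :=
    Finset.mem_sdiff.2 ⟨ht.1.1, fun h' => ht.2 (Finset.mem_inter.2 ⟨ht.1.1, h'⟩)⟩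
  exact ew_congr c (fun v hv => a2 v fun h' => ((s.mem_Fr).1 h').2.2 (mem_VF_of h1 hv)) (a3 t ht.2)

theorem sum_tower {c : ℝ} (hc : 1 ≤ c) {V V' : Finset P2} (hV : V ⊆ V') (f : Cfg → ℝ) {ω : Cfg}
    (h : s.Adm ω) :
    ∑ η ∈ s.K V' ω, wt c (s.N ω ∩ V') η * f η = ∑ η ∈ s.K V' ω, wt c (s.N ω ∩ V') η * s.R c V f η := by
  have hsub : s.N ω ∩ V ⊆ s.N ω ∩ V' := Finset.inter_subset_inter_left hV
  have e : ∀ η, wt c (s.N ω ∩ V') η =
      wt c ((s.N ω ∩ V') \ (s.N ω ∩ V)) η * wt c (s.N ω ∩ V) η := fun η => wt_sub c hsub η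
  have hN : ∀ η ∈ s.K V' ω, s.N η = s.N ω := fun η hη => s.N_congr (s.X_of_K hη)
  have key := part_avg (s.K V' ω) (fun η => s.K V η) (fun η hη ξ hξ => s.K_trans hV hη hξ)
    (fun η hη => s.self_mem_K (s.adm_of_K hη))
    (fun η hη ξ hξ => s.K_eq (s.adm_of_K hη) hξ)
    (fun η => wt c ((s.N ω ∩ V') \ (s.N ω ∩ V)) η) (fun η => wt c (s.N ω ∩ V) η) f
    (fun η hη ξ hξ => by
      have h1 := wt_out (c := c) (V' := V') hξ
      rw [hN η hη] at h1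
      exact h1)
    (fun η hη => by
      have h1 := (W_pos hc (V := V) (s.adm_of_K hη)).ne'
      unfold W at h1
      rw [hN η hη] at h1
      exact h1)
  have l : ∑ η ∈ s.K V' ω, wt c (s.N ω ∩ V') η * f η =
      ∑ η ∈ s.K V' ω, wt c ((s.N ω ∩ V') \ (s.N ω ∩ V)) η * wt c (s.N ω ∩ V) η * f η :=
    Finset.sum_congr rfl fun η _ => by rw [e]
  rw [l, key]
  refine Finset.sum_congr rfl fun η hη => ?_
  rw [e]
  unfold R W
  rw [hN η hη]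

/-- **tower** -/
theorem R_tower {c : ℝ} (hc : 1 ≤ c) {V V' : Finset P2} (hV : V ⊆ V') (f : Cfg → ℝ) {ω : Cfg}
    (h : s.Adm ω) : s.R c V' (s.R c V f) ω = s.R c V' f ω := by
  unfold R
  rw [sum_tower hc hV f h]
  rfl

/-- factors constant on the kernel come out -/
theorem R_mul_of_const (c : ℝ) {V : Finset P2} {f g : Cfg → ℝ} {ω : Cfg} (h : ∀ ξ ∈ s.K V ω, g ξ = g ω) :
    s.R c V (fun ξ => g ξ * f ξ) ω = g ω * s.R c V f ω := by
  rw [← R_smul]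
  exact R_congr c fun ξ hξ => by rw [h ξ hξ]

/-- observables seen inside `V` -/
def LocV (s : St) (V : Finset P2) (f : Cfg → ℝ) : Prop :=
  ∀ ξ η, s.Adm ξ → s.Adm η → s.Eq0 η ξ → s.Cpt V ξ η → f (s.gl V ξ η) = f ξ

theorem cpt_of_K {V : Finset P2} {η η2 ξ : Cfg} (h0 : s.Eq0 η η2) (hc : s.Cpt V η η2)
    (hξ : ξ ∈ s.K V η) : s.Eq0 η2 ξ ∧ s.Cpt V ξ η2 := by
  refine ⟨h0.symm.trans (eq0_of_K hξ), fun v h1 h2 => ?_⟩
  rw [← hc v h1 h2]
  refine (s.mem_K0.1 (s.mem_K.1 hξ).1).2.1 v fun h' => ((s.mem_Fr).1 h').2.2 ?_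
  rw [← h0.N]
  exact h2

theorem gl_back {V : Finset P2} {η η2 ξ : Cfg}
    (h0 : s.Eq0 η η2) (hξ : ξ ∈ s.K V η) : s.gl V (s.gl V ξ η2) η = ξ := by
  obtain ⟨_, b2, b3, _⟩ := s.mem_K0.1 (s.mem_K.1 hξ).1
  refine Prod.ext ?_ ?_
  · funext v
    by_cases hv : v ∈ s.Fr V η
    · rw [gl_fr hv, gl_fr (by rw [h0.Fr]; exact hv)]
    · rw [gl_nfr hv, b2 v hv]
  · funext t
    by_cases ht : t ∈ s.N η ∩ V
    · rw [gl_z ht, gl_z (by rw [h0.N]; exact ht)]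
    · rw [gl_z' ht, b3 t ht]

/-- **locality** -/
theorem R_loc {c : ℝ} {V : Finset P2} (hV : V ⊆ s.G) {η η2 : Cfg} (a : s.Adm η) (a2 : s.Adm η2)
    (h0 : s.Eq0 η η2) (hc : s.Cpt V η η2) {f : Cfg → ℝ} (hf : s.LocV V f) :
    s.R c V f η = s.R c V f η2 := by
  have key : ∀ g : Cfg → ℝ, s.LocV V g → ∑ ξ ∈ s.K V η, wt c (s.N η ∩ V) ξ * g ξ =
      ∑ ξ ∈ s.K V η2, wt c (s.N η2 ∩ V) ξ * g ξ := by
    intro g hg
    have hc' : s.Cpt V η2 η := Cpt.symm h0.symm hc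
    refine Finset.sum_bij' (fun ξ _ => s.gl V ξ η2) (fun ζ _ => s.gl V ζ η) ?_ ?_ ?_ ?_ ?_
    · intro ξ hξ
      obtain ⟨e1, e2⟩ := cpt_of_K h0 hc hξ
      exact gl_mem hV e1 e2 (s.adm_of_K hξ) a2
    · intro ζ hζ
      obtain ⟨e1, e2⟩ := cpt_of_K h0.symm hc' hζ
      exact gl_mem hV e1 e2 (s.adm_of_K hζ) a
    · intro ξ hξ
      exact gl_back h0 hξ
    · intro ζ hζ
      exact gl_back h0.symm hζ
    · intro ξ hξ
      obtain ⟨e1, e2⟩ := cpt_of_K h0 hc hξ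
      rw [hg ξ η2 (s.adm_of_K hξ) a2 e1 e2, wt_gl_in hV e1 e2 (s.adm_of_K hξ) a2 c, h0.N]
  have hone : s.LocV V (fun _ => (1 : ℝ)) := fun _ _ _ _ _ _ => rfl
  unfold R W
  rw [key f hf]
  have h1 := key _ hone
  simp only [mul_one] at h1
  rw [h1]

/-- two different kernels commute -/
theorem R_comm (c : ℝ) (V V' : Finset P2) (H : Cfg → Cfg → ℝ) (ω ω' : Cfg) :
    s.R c V (fun ξ => s.R c V' (fun ξ' => H ξ ξ') ω') ω =
      s.R c V' (fun ξ' => s.R c V (fun ξ => H ξ ξ') ω) ω' := by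
  unfold R
  have l : ∀ (A B : Finset Cfg) (u v : Cfg → ℝ) (P Q : ℝ) (H : Cfg → Cfg → ℝ),
      (∑ ξ ∈ A, u ξ * ((∑ ξ' ∈ B, v ξ' * H ξ ξ') / Q)) / P =
        (∑ ξ ∈ A, ∑ ξ' ∈ B, u ξ * v ξ' * H ξ ξ') / (P * Q) := by
    intro A B u v P Q H
    have : ∀ ξ ∈ A, u ξ * ((∑ ξ' ∈ B, v ξ' * H ξ ξ') / Q) = (∑ ξ' ∈ B, u ξ * v ξ' * H ξ ξ') / Q := by
      intro ξ _
      rw [mul_div_assoc', Finset.mul_sum]
      congr 1
      exact Finset.sum_congr rfl fun _ _ => by ring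
    rw [Finset.sum_congr rfl this, ← Finset.sum_div, div_div, mul_comm Q P]
  rw [l, l _ _ _ _ _ _ (fun ξ' ξ => H ξ ξ'), Finset.sum_comm, mul_comm]
  congr 1
  exact Finset.sum_congr rfl fun _ _ => Finset.sum_congr rfl fun _ _ => by ring

variable (s) in
/-- two replicas -/
def R2 (c : ℝ) (V : Finset P2) (H : Cfg → Cfg → ℝ) (ω ω' : Cfg) : ℝ :=
  s.R c V (fun ξ => s.R c V (fun ξ' => H ξ ξ') ω') ω

theorem R2_congr (c : ℝ) {V : Finset P2} {H H' : Cfg → Cfg → ℝ} {ω ω' : Cfg}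
    (h : ∀ ξ ∈ s.K V ω, ∀ ξ' ∈ s.K V ω', H ξ ξ' = H' ξ ξ') : s.R2 c V H ω ω' = s.R2 c V H' ω ω' :=
  R_congr c fun ξ hξ => R_congr c fun ξ' hξ' => h ξ hξ ξ' hξ'

theorem R2_mono {c : ℝ} (hc : 1 ≤ c) {V : Finset P2} {H H' : Cfg → Cfg → ℝ} {ω ω' : Cfg}
    (a : s.Adm ω) (a' : s.Adm ω') (h : ∀ ξ ∈ s.K V ω, ∀ ξ' ∈ s.K V ω', H ξ ξ' ≤ H' ξ ξ') :
    s.R2 c V H ω ω' ≤ s.R2 c V H' ω ω' :=
  R_mono hc a fun ξ hξ => R_mono hc a' fun ξ' hξ' => h ξ hξ ξ' hξ'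

theorem R2_sub_eq {c : ℝ} (hc : 1 ≤ c) {V : Finset P2} (f : Cfg → ℝ) {ω ω' : Cfg}
    (a : s.Adm ω) (a' : s.Adm ω') :
    s.R2 c V (fun ξ ξ' => f ξ - f ξ') ω ω' = s.R c V f ω - s.R c V f ω' := by
  unfold R2
  have h1 : ∀ ξ ∈ s.K V ω, s.R c V (fun ξ' => f ξ - f ξ') ω' = f ξ - s.R c V f ω' := by
    intro ξ _
    rw [R_sub c V (fun _ => f ξ) f ω', R_const hc V _ a']
  rw [R_congr c h1, R_sub c V f (fun _ => s.R c V f ω') ω, R_const hc V _ a]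

theorem R2_abs {c : ℝ} (hc : 1 ≤ c) {V : Finset P2} {H : Cfg → Cfg → ℝ} {ω ω' : Cfg}
    (a : s.Adm ω) (a' : s.Adm ω') : |s.R2 c V H ω ω'| ≤ s.R2 c V (fun ξ ξ' => |H ξ ξ'|) ω ω' :=
  (R_abs hc a).trans (R_mono hc a fun _ _ => R_abs hc a')

theorem R2_add (c : ℝ) (V : Finset P2) (H H' : Cfg → Cfg → ℝ) (ω ω' : Cfg) :
    s.R2 c V (fun ξ ξ' => H ξ ξ' + H' ξ ξ') ω ω' = s.R2 c V H ω ω' + s.R2 c V H' ω ω' := by
  unfold R2
  rw [← R_add]
  exact R_congr c fun ξ _ => R_add c V _ _ _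

theorem R2_smul (c : ℝ) (V : Finset P2) (a : ℝ) (H : Cfg → Cfg → ℝ) (ω ω' : Cfg) :
    s.R2 c V (fun ξ ξ' => a * H ξ ξ') ω ω' = a * s.R2 c V H ω ω' := by
  unfold R2
  rw [← R_smul]
  exact R_congr c fun ξ _ => R_smul c V _ _ _

/-- **tower for two replicas** -/
theorem R2_tower {c : ℝ} (hc : 1 ≤ c) {V V' : Finset P2} (hV : V ⊆ V') (H : Cfg → Cfg → ℝ) {ω ω' : Cfg}
    (a : s.Adm ω) (a' : s.Adm ω') : s.R2 c V' (s.R2 c V H) ω ω' = s.R2 c V' H ω ω' := by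
  unfold R2
  have h1 : ∀ ξ ∈ s.K V' ω, s.R c V' (fun ξ' => s.R c V (fun ζ => s.R c V (fun ζ' => H ζ ζ') ξ') ξ) ω' =
      s.R c V (fun ζ => s.R c V' (fun ζ' => H ζ ζ') ω') ξ := by
    intro ξ _
    rw [R_comm c V' V (fun ξ' ζ => s.R c V (fun ζ' => H ζ ζ') ξ') ω' ξ]
    refine R_congr c fun ζ _ => ?_
    exact R_tower hc hV (fun ζ' => H ζ ζ') a'
  rw [R_congr c h1]
  exact R_tower hc hV (fun ζ => s.R c V' (fun ζ' => H ζ ζ') ω') a

end St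
end Crest.Agent.R144.Cc169
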