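import Crest.Agent.R144.Cc3_169

/-!
# R144 (CCW, step B), one block: cross ratio of the fibre sums (helper169)

* `Bk` : nested sets `V ⊆ Vi ⊆ Vm ⊆ Vo ⊆ V'`; `s.Gd b ω` good block (seen in the revealed information);
* `s.Bar b η` : the outer exploration (from `N \ V'`) with its layer stays off `Vo`, the inner one (from
  `N ∩ V`) with its layer stays in `Vi`;
* `s.Sf c b ω r l` : weight of the configurations of the kernel `K V' ω` with a barrier, outer part `r` and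
  inner part `l`;
* `sf_cross` : `p ^ 2 * (Sf ω r l * Sf ω' r' l') ≤ Sf ω r l' * Sf ω' r' l`.
-/

set_option autoImplicit false
set_option linter.unusedSectionVars false
set_option linter.unusedSimpArgs false

noncomputable section

namespace Crest.Agent.R144.Cc169

open Finset
open Crest.Agent.R144.It844 (P2 Lip adj_iff adj_symm lip_iff)
open Crest.ProbabilityR.HexHeights (Adj)
open Crest.Agent.R144.Zg349 Crest.Agent.R144.Zk349 Crest.Agent.R144.Zd349 Crest.Agent.R144.Zm349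
open Crest.Agent.R144.Ze349
open Crest.Agent.R144.Cb2169 (Ex Cl Wd mem_Ex mem_Cl mem_Wd Ex_sub Cl_sub R_sub_Ex Ex_sub_Cl Ex_step
  layer_pC Ex_congr adj_of_share mem_D_of_path Stp Apart Bar stepIn_symm rtg_symm rtg_mono)
open Crest.Agent.R144.Zs349 (Lay glue lev ins inH)

/-! ### simply connected sets -/

/-- every triangle of `T` is joined to the outside of `D0` inside `T ∪ D0ᶜ` -/
def Anch (D0 T : Finset P2) : Prop :=
  ∀ t ∈ T, ∃ r, r ∉ D0 ∧ Relation.ReflTransGen (StepIn ((T : Set P2) ∪ (D0 : Set P2)ᶜ)) r t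

theorem Anch.union {D0 T T' : Finset P2} (h : Anch D0 T) (h' : Anch D0 T') : Anch D0 (T ∪ T') := by
  intro t ht
  rcases Finset.mem_union.1 ht with h1 | h1
  · obtain ⟨r, hr, p⟩ := h t h1
    refine ⟨r, hr, rtg_mono ?_ p⟩
    rw [Finset.coe_union]
    exact Set.union_subset_union_left _ Set.subset_union_left
  · obtain ⟨r, hr, p⟩ := h' t h1
    refine ⟨r, hr, rtg_mono ?_ p⟩
    rw [Finset.coe_union]
    exact Set.union_subset_union_left _ Set.subset_union_right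

theorem Anch.empty (D0 : Finset P2) : Anch D0 ∅ := fun t ht => absurd ht (Finset.notMem_empty t)

theorem sc_sdiff {D0 T : Finset P2} (h0 : SC D0) (h : Anch D0 T) : SC (D0 \ T) := by
  set S : Set P2 := ((D0 \ T : Finset P2) : Set P2)ᶜ with hS
  have hsub : ((D0 : Set P2)ᶜ) ⊆ S := by
    intro t ht h'
    exact ht (Finset.mem_coe.2 (Finset.mem_sdiff.1 (Finset.mem_coe.1 h')).1)
  have hsub2 : ((T : Set P2) ∪ (D0 : Set P2)ᶜ) ⊆ S := by
    intro t ht h'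
    have h'' := Finset.mem_sdiff.1 (Finset.mem_coe.1 h')
    rcases ht with h1 | h1
    · exact h''.2 (Finset.mem_coe.1 h1)
    · exact h1 (Finset.mem_coe.2 h''.1)
  have key : ∀ t ∈ S, ∃ r ∈ ((D0 : Set P2)ᶜ), Relation.ReflTransGen (StepIn S) r t := by
    intro t ht
    by_cases h1 : t ∈ D0
    · have h2 : t ∈ T := by
        by_contra h3
        exact ht (Finset.mem_coe.2 (Finset.mem_sdiff.2 ⟨h1, h3⟩))
      obtain ⟨r, hr, p⟩ := h t h2
      exact ⟨r, fun h' => hr (Finset.mem_coe.1 h'), rtg_mono hsub2 p⟩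
    · exact ⟨t, fun h' => h1 (Finset.mem_coe.1 h'), .refl⟩
  intro u hu v hv
  obtain ⟨r, hr, h1⟩ := key u hu
  obtain ⟨r', hr', h2⟩ := key v hv
  exact (rtg_symm h1).trans ((rtg_mono hsub (h0 r hr r' hr')).trans h2)

/-- a closed exploration is anchored at its start -/
theorem anch_cl {D0 D R : Finset P2} (hR : R ⊆ D) (hR0 : ∀ r ∈ R, r ∉ D0) (ω : Cfg) :
    Anch D0 (Cl D (Ex D R ω)) := by
  have h1 : ∀ t ∈ Ex D R ω, ∃ r, r ∉ D0 ∧
      Relation.ReflTransGen (StepIn ((Cl D (Ex D R ω) : Set P2) ∪ (D0 : Set P2)ᶜ)) r t := by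
    intro t ht
    obtain ⟨_, r, hr, hp⟩ := mem_Ex.1 ht
    clear ht
    refine ⟨r, hR0 r hr, ?_⟩
    induction hp with
    | refl => exact .refl
    | @tail b e h1 h2 ih =>
      have hb' : b ∈ Ex D R ω := mem_Ex.2 ⟨mem_D_of_path hR hr h1, r, hr, h1⟩
      have he' : e ∈ Ex D R ω := Ex_step hb' h2.1 h2.2.1 h2.2.2
      exact (ih (Ex_sub _ _ _ hb')).tail
        ⟨Or.inl (Finset.mem_coe.2 (Ex_sub_Cl ω hb')), Or.inl (Finset.mem_coe.2 (Ex_sub_Cl ω he')), h2.1⟩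
  intro t ht
  obtain ⟨_, h2 | ⟨x, hx, hxt⟩⟩ := mem_Cl.1 ht
  · exact h1 t h2
  · obtain ⟨r, hr, p⟩ := h1 x hx
    exact ⟨r, hr, p.tail ⟨Or.inl (Finset.mem_coe.2 (Ex_sub_Cl ω hx)), Or.inl (Finset.mem_coe.2 ht), hxt⟩⟩

/-- explored sets do not depend on the configuration on the start set -/
theorem Ex_congr' {D R : Finset P2} {ω ω' : Cfg} (hR : R ⊆ D)
    (h : ∀ t ∈ Cl D (Ex D R ω), t ∉ R → (pC ω t ↔ pC ω' t)) : Ex D R ω' = Ex D R ω := by
  apply Finset.Subset.antisymm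
  · intro t ht
    obtain ⟨htD, r, hr, hp⟩ := mem_Ex.1 ht
    clear htD ht
    induction hp with
    | refl => exact R_sub_Ex hR ω hr
    | @tail b e _ h2 ih =>
      obtain ⟨hbe, he, hz⟩ := h2
      by_cases heR : e ∈ R
      · exact R_sub_Ex hR ω heR
      · refine Ex_step ih hbe he fun h' => hz ?_
        exact (h e (mem_Cl.2 ⟨he, Or.inr ⟨b, ih, hbe⟩⟩) heR).1 h'
  · intro t ht
    obtain ⟨htD, r, hr, hp⟩ := mem_Ex.1 ht
    clear htD ht
    induction hp with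
    | refl => exact R_sub_Ex hR ω' hr
    | @tail b e h1 h2 ih =>
      obtain ⟨hbe, he, hz⟩ := h2
      by_cases heR : e ∈ R
      · exact R_sub_Ex hR ω' heR
      · have hb' : b ∈ Ex D R ω := mem_Ex.2 ⟨mem_D_of_path hR hr h1, r, hr, h1⟩
        have he' : e ∈ Ex D R ω := Ex_step hb' hbe he hz
        refine Ex_step ih hbe he fun h' => hz ?_
        exact (h e (Ex_sub_Cl ω he') heR).2 h'

/-! ### restrictions -/

/-- partial configurations -/
abbrev Pt : Type := Finset P2 × (P2 → ℤ) × (P2 → Bool)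

open Classical in
/-- restriction of a configuration to a set of triangles -/
def res (E : Finset P2) (η : Cfg) : Pt :=
  (E, fun v => if v ∈ VF E then η.1 v else 0, fun t => if t ∈ E then η.2 t else true)

theorem res_fst (E : Finset P2) (η : Cfg) : (res E η).1 = E := rfl

theorem res_eq {E : Finset P2} {η η' : Cfg} (h1 : ∀ v ∈ VF E, η.1 v = η'.1 v)
    (h2 : ∀ t ∈ E, η.2 t = η'.2 t) : res E η = res E η' := by
  unfold res
  refine Prod.ext rfl (Prod.ext ?_ ?_)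
  · funext v
    simp only
    by_cases h : v ∈ VF E
    · rw [if_pos h, if_pos h, h1 v h]
    · rw [if_neg h, if_neg h]
  · funext t
    simp only
    by_cases h : t ∈ E
    · rw [if_pos h, if_pos h, h2 t h]
    · rw [if_neg h, if_neg h]

theorem of_res_eq {E E' : Finset P2} {η η' : Cfg} (h : res E η = res E' η') :
    E = E' ∧ (∀ v ∈ VF E, η.1 v = η'.1 v) ∧ (∀ t ∈ E, η.2 t = η'.2 t) := by
  have h1 : E = E' := congrArg Prod.fst h
  subst h1
  have h2 := congrArg (fun p : Pt => p.2.1) h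
  have h3 := congrArg (fun p : Pt => p.2.2) h
  refine ⟨rfl, fun v hv => ?_, fun t ht => ?_⟩
  · have := congrFun h2 v
    simp only [res, if_pos hv] at this
    exact this
  · have := congrFun h3 t
    simp only [res, if_pos ht] at this
    exact this

/-! ### blocks -/

/-- a block -/
structure Bk where
  V : Finset P2
  Vi : Finset P2
  Vm : Finset P2
  Vo : Finset P2
  V' : Finset P2

/-- sites linked through triangles of `Z` -/
def Lk (Z : Finset P2) : P2 → P2 → Prop :=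
  Relation.ReflTransGen fun a b => ∃ t ∈ Z, a ∈ up t ∧ b ∈ up t

namespace St
variable (s : St)

/-- good block: the explored set is not adjacent to the strip inside the block -/
def Gd (b : Bk) (ω : Cfg) : Prop := ∀ t ∈ b.V' \ b.V, t ∉ s.Lay → ∀ r ∈ s.X ω, ¬ Adj r t

/-- outer exploration -/
def Eo (b : Bk) (η : Cfg) : Finset P2 := Ex (s.N η) (s.N η \ b.V') η
/-- inner exploration -/
def Ei (b : Bk) (η : Cfg) : Finset P2 := Ex (s.N η) (s.N η ∩ b.V) η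

/-- barrier event -/
def Bar (b : Bk) (η : Cfg) : Prop :=
  Disjoint (Cl (s.N η) (s.Eo b η)) b.Vo ∧ Cl (s.N η) (s.Ei b η) ⊆ b.Vi

/-- geometric hypotheses on a block -/
structure BkOK (b : Bk) : Prop where
  i1 : b.V ⊆ b.Vi
  i2 : b.Vi ⊆ b.Vm
  i3 : b.Vm ⊆ b.Vo
  i4 : b.Vo ⊆ b.V'
  i5 : b.V' ⊆ s.G
  ap : Apart (b.V' \ b.Vo) b.Vi
  sc0 : SC (b.V' \ b.V)
  sco : SC b.Vo
  row : ∀ t ∈ s.RW, t ∈ b.V' \ b.V → ∃ r, r ∉ b.V' \ b.V ∧ Adj r t
  col : ∀ ω, s.Adm ω → s.Gd b ω → ∀ v, v ∈ VF (s.N ω ∩ b.Vm) → v ∈ VF (s.N ω \ b.Vm) →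
    ∃ u, ∃ t1 ∈ s.N ω ∩ (b.Vo \ b.Vi), u ∈ up t1 ∧ (∃ t' ∈ s.Rv ω, t' ∉ s.X ω ∧ u ∈ up t') ∧
      Lk (s.N ω ∩ (b.Vo \ b.Vi)) v u

variable {s}

/-- the revealed set is anchored -/
theorem anch_Rv {b : Bk} (hb : s.BkOK b) (ω : Cfg) : Anch (b.V' \ b.V) (s.Rv ω) := by
  have h1 : ∀ t ∈ s.X ω, ∃ r, r ∉ b.V' \ b.V ∧
      Relation.ReflTransGen (StepIn ((s.Rv ω : Set P2) ∪ ((b.V' \ b.V : Finset P2) : Set P2)ᶜ)) r t := by
    intro t ht
    obtain ⟨_, r, hr, hp⟩ := mem_Ex.1 ht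
    clear ht
    have hrX : r ∈ s.X ω := R_sub_Ex s.hRW ω hr
    have hstart : ∃ r0, r0 ∉ b.V' \ b.V ∧
        Relation.ReflTransGen (StepIn ((s.Rv ω : Set P2) ∪ ((b.V' \ b.V : Finset P2) : Set P2)ᶜ)) r0 r := by
      by_cases h : r ∈ b.V' \ b.V
      · obtain ⟨r0, h2, h3⟩ := hb.row r hr h
        exact ⟨r0, h2, Relation.ReflTransGen.single ⟨Or.inr fun h' => h2 (Finset.mem_coe.1 h'),
          Or.inl (Finset.mem_coe.2 (s.X_sub_Rv ω hrX)), h3⟩⟩
      · exact ⟨r, h, .refl⟩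
    obtain ⟨r0, h0, p0⟩ := hstart
    refine ⟨r0, h0, ?_⟩
    induction hp with
    | refl => exact p0
    | @tail b' e h1 h2 ih =>
      have hb' : b' ∈ s.X ω := mem_Ex.2 ⟨mem_D_of_path s.hRW hr h1, r, hr, h1⟩
      have he' : e ∈ s.X ω := Ex_step hb' h2.1 h2.2.1 h2.2.2
      exact (ih (s.X_sub ω hb')).tail
        ⟨Or.inl (Finset.mem_coe.2 (s.X_sub_Rv ω hb')), Or.inl (Finset.mem_coe.2 (s.X_sub_Rv ω he')), h2.1⟩
  intro t ht
  obtain ⟨_, h2 | ⟨x, hx, hxt⟩⟩ := mem_Cl.1 ht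
  · exact h1 t h2
  · obtain ⟨r, hr, p⟩ := h1 x hx
    exact ⟨r, hr, p.tail ⟨Or.inl (Finset.mem_coe.2 (s.X_sub_Rv ω hx)), Or.inl (Finset.mem_coe.2 ht), hxt⟩⟩

theorem anch_Eo {b : Bk} (η : Cfg) : Anch (b.V' \ b.V) (Cl (s.N η) (s.Eo b η)) :=
  anch_cl Finset.sdiff_subset (fun _ hr h => (Finset.mem_sdiff.1 hr).2 (Finset.mem_sdiff.1 h).1) η

theorem anch_Ei {b : Bk} (η : Cfg) : Anch (b.V' \ b.V) (Cl (s.N η) (s.Ei b η)) :=
  anch_cl Finset.inter_subset_left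
    (fun _ hr h => (Finset.mem_sdiff.1 h).2 (Finset.mem_inter.1 hr).2) η

theorem anch_out {b : Bk} (hb : s.BkOK b) : Anch (b.V' \ b.V) (b.V' \ b.Vo) := by
  intro t ht
  obtain ⟨r, hr⟩ := Infinite.exists_notMem_finset b.V'
  have hr' : r ∉ b.V' \ b.V := fun h => hr (Finset.mem_sdiff.1 h).1
  refine ⟨r, hr', ?_⟩
  have h1 : r ∈ ((b.Vo : Finset P2) : Set P2)ᶜ := fun h => hr (hb.i4 (Finset.mem_coe.1 h))
  have h2 : t ∈ ((b.Vo : Finset P2) : Set P2)ᶜ := fun h => (Finset.mem_sdiff.1 ht).2 (Finset.mem_coe.1 h)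
  refine rtg_mono ?_ (hb.sco r h1 t h2)
  intro x hx
  by_cases h : x ∈ b.V'
  · exact Or.inl (Finset.mem_coe.2 (Finset.mem_sdiff.2 ⟨h, fun h' => hx (Finset.mem_coe.2 h')⟩))
  · exact Or.inr fun h' => h (Finset.mem_sdiff.1 (Finset.mem_coe.1 h')).1

variable (s) in
/-- the domain of the block -/
def Dm (b : Bk) (ω : Cfg) : Finset P2 := s.N ω ∩ (b.V' \ b.V)

theorem Dm_eq {b : Bk} (hb : s.BkOK b) (ω : Cfg) : s.Dm b ω = (b.V' \ b.V) \ s.Rv ω := by
  ext t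
  unfold Dm
  rw [Finset.mem_inter, Finset.mem_sdiff, s.mem_N, Finset.mem_sdiff, Finset.mem_sdiff]
  have := @hb.i5 t
  have := @s.hGF t
  tauto

theorem sc_Dm {b : Bk} (hb : s.BkOK b) (ω : Cfg) (T : Finset P2) (hT : Anch (b.V' \ b.V) T) :
    SC (s.Dm b ω \ T) := by
  have e : s.Dm b ω \ T = (b.V' \ b.V) \ (s.Rv ω ∪ T) := by
    rw [Dm_eq hb]
    ext t
    simp only [Finset.mem_sdiff, Finset.mem_union]
    tauto
  rw [e]
  exact sc_sdiff hb.sc0 ((anch_Rv hb ω).union hT)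

end St
end Crest.Agent.R144.Cc169
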