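import Crest.Agent.R144.Cc4_169

/-!
# R144 (CCW, step B), one block: swap of the middle part (helper169)

`fib_eq` : the fibre sum over the configurations with a barrier, outer part `r` and inner part `l` is
`Z c (middle)` times the fibre sum restricted to the configurations which are flat in the middle.
-/

set_option autoImplicit false
set_option linter.unusedSectionVars false
set_option linter.unusedSimpArgs false

noncomputable section

namespace Crest.Agent.R144.Cc169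

open Finset
open Crest.Agent.R144.It844 (P2 Lip adj_iff adj_symm lip_iff)
open Crest.ProbabilityR.HexHeights (Adj)
open Crest.Agent.R144.Zg349 Crest.Agent.R144.Zk349 Crest.Agent.R144.Zd349 Crest.Agent.R144.Zm349
open Crest.Agent.R144.Ze349
open Crest.Agent.R144.Cb2169 (Ex Cl Wd mem_Ex mem_Cl mem_Wd Ex_sub Cl_sub R_sub_Ex Ex_sub_Cl Ex_step
  layer_pC Ex_congr adj_of_share mem_D_of_path Stp Apart Bar stepIn_symm rtg_symm rtg_mono)
open Crest.Agent.R144.Zs349 (Lay glue lev ins inH)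

/-- flat on a set of triangles -/
def Flt (M : Finset P2) (η : Cfg) : Prop := ∀ t ∈ M, η.2 t = true ∧ ∀ v ∈ up t, η.1 v % 4 = 0

theorem eq_flat {M : Finset P2} {ω' : Cfg} (h : Valid M ω') (h1 : ∀ t ∈ M, ω'.2 t = true)
    (h2 : ∀ v ∈ VF M, ω'.1 v % 4 = 0) : ω' = flat := by
  have h3 : ω'.1 = fun _ => 0 := by
    have key : ∀ v, ω'.1 v % 4 = 0 := by
      intro v
      by_cases hv : v ∈ VF M
      · exact h2 v hv
      · rw [h.ht.off v hv]; norm_num
    refine height_inj h.ht (valid_flat M).ht (fun v => ?_) (fun v => ?_)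
    · have := key v
      unfold s1
      rw [decide_eq_decide]
      omega
    · have := key v
      unfold s2
      rw [decide_eq_decide]
      omega
  refine Prod.ext h3 ?_
  funext t
  by_cases ht : t ∈ M
  · exact h1 t ht
  · exact h.cl t ht

open Classical in
/-- sum over the inside of the flat indicator -/
theorem sum_flat {c : ℝ} {M : Finset P2} {η : Cfg} (hM : SC M) (hl : Lip η.1) (hL : Zs349.Lay true M η) :
    ∑ ω' ∈ conf M, wt c M ω' * (if Flt M (glue true M η ω') then 1 else 0) = 1 := by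
  have hmod : ∀ v ∈ VF M, lev true M η v % 4 = 0 := fun v hv => Zs349.lev_mod hM hl hL hv
  have key : ∀ ω' ∈ conf M, (Flt M (glue true M η ω') ↔ ω' = flat) := by
    intro ω' hω'
    constructor
    · intro h
      refine eq_flat (mem_conf.1 hω') (fun t ht => ?_) (fun v hv => ?_)
      · rw [← Zs349.glue_z (e := true) (ω := η) (ω' := ω') ht]
        exact (h t ht).1
      · obtain ⟨t, ht, hvt⟩ := mem_VF.1 hv
        have h1 := (h t ht).2 v hvt
        rw [Zs349.glue_in hv] at h1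
        have h2 := hmod v hv
        omega
    · rintro rfl t ht
      refine ⟨by rw [Zs349.glue_z ht]; rfl, fun v hv => ?_⟩
      have hv' : v ∈ VF M := mem_VF.2 ⟨t, ht, hv⟩
      rw [Zs349.glue_in hv']
      have h2 := hmod v hv'
      show (lev true M η v + 0) % 4 = 0
      omega
  rw [Finset.sum_eq_single flat]
  · rw [if_pos ((key flat (mem_conf.2 (valid_flat M))).2 rfl), wt_flat, mul_one]
  · intro ω' hω' hne
    rw [if_neg fun h => hne ((key ω' hω').1 h), mul_zero]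
  · intro h
    exact absurd (mem_conf.2 (valid_flat M)) h

namespace St
variable {s : St}

variable (s) in
/-- middle part -/
def Md (b : Bk) (ω : Cfg) (r l : Pt) : Finset P2 := s.Dm b ω \ (Cl (s.N ω) r.1 ∪ Cl (s.N ω) l.1)

variable (s) in
/-- structure of the configurations of a fibre -/
structure Fb (b : Bk) (r l : Pt) (η : Cfg) : Prop where
  bar : s.Bar b η
  ro : res (s.Eo b η) η = r
  li : res (s.Ei b η) η = l

theorem Fb.r1 {b : Bk} {r l : Pt} {η : Cfg} (h : s.Fb b r l η) : r.1 = s.Eo b η := by rw [← h.ro]; rfl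
theorem Fb.l1 {b : Bk} {r l : Pt} {η : Cfg} (h : s.Fb b r l η) : l.1 = s.Ei b η := by rw [← h.li]; rfl

theorem mem_Md {b : Bk} {ω η : Cfg} {r l : Pt} (h : s.Fb b r l η) (hN : s.N η = s.N ω) {t : P2} :
    t ∈ s.Md b ω r l ↔ t ∈ s.N η ∧ t ∈ b.V' \ b.V ∧ t ∉ Cl (s.N η) (s.Eo b η) ∧ t ∉ Cl (s.N η) (s.Ei b η) := by
  unfold Md Dm
  rw [h.r1, h.l1, ← hN, Finset.mem_sdiff, Finset.mem_inter, Finset.mem_union]
  tauto

theorem sc_Md {b : Bk} (hb : s.BkOK b) {ω η η' : Cfg} {r l r' l' : Pt} (h : s.Fb b r l η)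
    (h' : s.Fb b r' l' η') (hN : s.N η = s.N ω) (hN' : s.N η' = s.N ω) : SC (s.Md b ω r l') := by
  unfold Md
  rw [h.r1, h'.l1]
  refine sc_Dm hb ω _ (Anch.union ?_ ?_)
  · rw [← hN]; exact anch_Eo η
  · rw [← hN']; exact anch_Ei η'

/-- neighbours of the middle part -/
theorem Md_nb {b : Bk} (hb : s.BkOK b) {ω η : Cfg} {r l : Pt} (hg : s.Gd b ω) (h : s.Fb b r l η)
    (hX : s.X η = s.X ω) {m t : P2} (hm : m ∈ s.Md b ω r l) (hmt : Adj m t) :
    t ∈ s.F ∧ t ∉ s.Eo b η ∧ t ∉ s.Ei b η ∧ t ∉ s.X ω ∧ t ∉ s.N η \ b.V' ∧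
      (t ∉ s.Md b ω r l → pC η t) := by
  have hN := s.N_congr hX
  rw [mem_Md h hN] at hm
  obtain ⟨m1, m2, m3, m4⟩ := hm
  have hmG : m ∈ s.G := hb.i5 (Finset.mem_sdiff.1 m2).1
  have htF : t ∈ s.F := s.hnb m hmG t hmt
  have c1 : t ∉ s.Eo b η := fun h1 => m3 (mem_Cl.2 ⟨m1, Or.inr ⟨t, h1, adj_symm hmt⟩⟩)
  have c2 : t ∉ s.Ei b η := fun h1 => m4 (mem_Cl.2 ⟨m1, Or.inr ⟨t, h1, adj_symm hmt⟩⟩)
  have c3 : t ∉ s.X ω := by
    intro h1
    by_cases hmL : m ∈ s.Lay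
    · rw [hN] at m1
      exact (s.mem_N.1 m1).2 (mem_Cl.2 ⟨hmL, Or.inr ⟨t, h1, adj_symm hmt⟩⟩)
    · exact hg m m2 hmL t h1 (adj_symm hmt)
  have c4 : t ∉ s.N η \ b.V' := fun h1 => c1 (R_sub_Ex Finset.sdiff_subset η h1)
  refine ⟨htF, c1, c2, c3, c4, fun htM => ?_⟩
  by_cases htR : t ∈ s.Rv ω
  · exact s.layer ((s.Rv_congr hX).symm ▸ htR) (hX.symm ▸ c3)
  · have htN : t ∈ s.N η := by rw [hN]; exact s.mem_N.2 ⟨htF, htR⟩
    have htV : t ∈ b.V' \ b.V := by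
      rw [Finset.mem_sdiff]
      constructor
      · by_contra h1
        exact c4 (Finset.mem_sdiff.2 ⟨htN, h1⟩)
      · intro h1
        exact c2 (R_sub_Ex Finset.inter_subset_left η (Finset.mem_inter.2 ⟨htN, h1⟩))
    rw [mem_Md h hN] at htM
    have : t ∈ Cl (s.N η) (s.Eo b η) ∨ t ∈ Cl (s.N η) (s.Ei b η) := by
      by_contra h1
      push Not at h1
      exact htM ⟨htN, htV, h1.1, h1.2⟩
    rcases this with h1 | h1
    · exact layer_pC h1 c1
    · exact layer_pC h1 c2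

open Classical in
variable (s) in
/-- ambient family for the swap -/
def Fam (b : Bk) (ω : Cfg) (r l : Pt) : Finset Cfg :=
  (s.K0 b.V' ω).filter fun η => s.Fb b r l η ∧ Cmp (s.F \ s.Md b ω r l) η

theorem mem_Fam {b : Bk} {ω : Cfg} {r l : Pt} {η : Cfg} :
    η ∈ s.Fam b ω r l ↔ η ∈ s.K0 b.V' ω ∧ s.Fb b r l η ∧ Cmp (s.F \ s.Md b ω r l) η := by
  simp only [Fam, Finset.mem_filter]

section
variable {b : Bk} (hb : s.BkOK b) {ω : Cfg} (hg : s.Gd b ω) {r l : Pt}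
include hb hg

theorem share_ne {m t v : P2} {M : Finset P2} (hm : m ∈ M) (ht : t ∉ M) (h1 : v ∈ up m) (h2 : v ∈ up t) :
    Adj m t := adj_of_share (fun h => ht (h ▸ hm)) h1 h2

theorem fam_lay {η : Cfg} (h : η ∈ s.Fam b ω r l) : Zs349.Lay true (s.Md b ω r l) η := by
  obtain ⟨h1, h2, h3⟩ := mem_Fam.1 h
  have hX : s.X η = s.X ω := (s.mem_K0.1 h1).2.2.2
  rintro t ht ⟨v, hv, hvt⟩
  obtain ⟨m, hm, hvm⟩ := mem_VF.1 hv
  have hmt : Adj m t := adj_of_share (fun h' => ht (h' ▸ hm)) hvm hvt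
  obtain ⟨a1, _, _, _, _, a6⟩ := Md_nb hb hg h2 hX hm hmt
  have hp := a6 ht
  exact ⟨hp.1, fun u hu => pC_all h3 (Finset.mem_sdiff.2 ⟨a1, ht⟩) hp hu⟩

/-- sites of the middle part are free -/
theorem VF_Md_fr {η : Cfg} (h2 : s.Fb b r l η) (hX : s.X η = s.X ω) {v : P2}
    (hv : v ∈ VF (s.Md b ω r l)) :
    v ∈ s.Fr b.V' ω ∧ v ∉ VF (s.Eo b η) ∧ v ∉ VF (s.Ei b η) := by
  have hN := s.N_congr hX
  obtain ⟨m, hm, hvm⟩ := mem_VF.1 hv
  have hm' := (mem_Md h2 hN).1 hm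
  have nb : ∀ t, v ∈ up t → t = m ∨ (t ∉ s.Eo b η ∧ t ∉ s.Ei b η ∧ t ∉ s.X ω ∧ t ∉ s.N η \ b.V') := by
    intro t hvt
    by_cases hmt : t = m
    · exact Or.inl hmt
    · obtain ⟨_, a2, a3, a4, a5, _⟩ := Md_nb hb hg h2 hX hm (adj_of_share (fun h => hmt h.symm) hvm hvt)
      exact Or.inr ⟨a2, a3, a4, a5⟩
  have mG : m ∈ s.G := hb.i5 (Finset.mem_sdiff.1 hm'.2.1).1
  refine ⟨s.mem_Fr.2 ⟨mem_VF_of mG hvm, fun h => ?_, fun h => ?_⟩, fun h => ?_, fun h => ?_⟩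
  · obtain ⟨t, ht, hvt⟩ := mem_VF.1 h
    rcases nb t hvt with rfl | ⟨_, _, h3, _⟩
    · have := hm'.1
      rw [hN] at this
      exact (s.mem_N.1 this).2 (s.X_sub_Rv ω ht)
    · exact h3 ht
  · obtain ⟨t, ht, hvt⟩ := mem_VF.1 h
    rcases nb t hvt with rfl | ⟨_, _, _, h4⟩
    · exact (Finset.mem_sdiff.1 ht).2 (Finset.mem_sdiff.1 hm'.2.1).1
    · rw [hN] at h4
      exact h4 ht
  · obtain ⟨t, ht, hvt⟩ := mem_VF.1 h
    rcases nb t hvt with rfl | ⟨h1, _, _, _⟩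
    · exact hm'.2.2.1 (Ex_sub_Cl η ht)
    · exact h1 ht
  · obtain ⟨t, ht, hvt⟩ := mem_VF.1 h
    rcases nb t hvt with rfl | ⟨_, h1, _, _⟩
    · exact hm'.2.2.2 (Ex_sub_Cl η ht)
    · exact h1 ht

theorem fam_glue {η : Cfg} (h : η ∈ s.Fam b ω r l) (hL : Zs349.Lay true (s.Md b ω r l) η) {ω' : Cfg}
    (hω' : ω' ∈ conf (s.Md b ω r l)) : glue true (s.Md b ω r l) η ω' ∈ s.Fam b ω r l := by
  obtain ⟨h1, h2, h3⟩ := mem_Fam.1 h
  obtain ⟨k1, k2, k3, hX⟩ := s.mem_K0.1 h1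
  have hN := s.N_congr hX
  have hM := sc_Md hb h2 h2 hN hN
  have hv' := mem_conf.1 hω'
  set M := s.Md b ω r l with hMdef
  set g := glue true M η ω' with hgdef
  have hpC : ∀ t, t ∉ M → (pC η t ↔ pC g t) := by
    intro t ht
    unfold pC
    rw [hgdef, Zs349.glue_z' ht, Zs349.glue_s1_off hM k1 hL hv'
      (fun h => ht (mem_of_corner (base_mem_up t) h))]
  have hMN : ∀ t ∈ M, t ∈ s.N ω := fun t ht => by
    have := ((mem_Md h2 hN).1 ht).1
    rwa [hN] at this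
  have hXg : s.X g = s.X ω := by
    rw [← hX]
    refine Ex_congr s.hRW fun t ht => hpC t fun htM => ?_
    have : t ∈ s.Rv η := ht
    rw [s.Rv_congr hX] at this
    exact (s.mem_N.1 (hMN t htM)).2 this
  have hNg : s.N g = s.N η := by rw [s.N_congr hXg, hN]
  have hEo : s.Eo b g = s.Eo b η := by
    unfold Eo
    rw [hNg]
    exact Ex_congr Finset.sdiff_subset fun t ht => hpC t fun htM => ((mem_Md h2 hN).1 htM).2.2.1 ht
  have hEi : s.Ei b g = s.Ei b η := by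
    unfold Ei
    rw [hNg]
    exact Ex_congr Finset.inter_subset_left fun t ht => hpC t fun htM => ((mem_Md h2 hN).1 htM).2.2.2 ht
  have hout : ∀ v, v ∉ VF M → g.1 v = η.1 v := fun v hv => Zs349.glue_out hv
  have hzout : ∀ t, t ∉ M → g.2 t = η.2 t := fun t ht => Zs349.glue_z' ht
  refine mem_Fam.2 ⟨s.mem_K0.2 ⟨Zs349.glue_lip hM k1 hL hv', fun v hv => ?_, fun t ht => ?_, hXg⟩,
    ⟨?_, ?_, ?_⟩, ?_⟩
  · rw [hout v fun hv' => hv (VF_Md_fr hb hg h2 hX hv').1]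
    exact k2 v hv
  · rw [hzout t fun htM => ht ?_]
    · exact k3 t ht
    · exact Finset.mem_inter.2 ⟨hMN t htM, (Finset.mem_sdiff.1 ((mem_Md h2 hN).1 htM).2.1).1⟩
  · unfold Bar
    rw [hEo, hEi, hNg]
    exact h2.bar
  · rw [hEo, ← h2.ro]
    refine res_eq (fun v hv => hout v fun hv' => (VF_Md_fr hb hg h2 hX hv').2.1 hv)
      (fun t ht => hzout t fun htM => ((mem_Md h2 hN).1 htM).2.2.1 (Ex_sub_Cl η ht))
  · rw [hEi, ← h2.li]
    refine res_eq (fun v hv => hout v fun hv' => (VF_Md_fr hb hg h2 hX hv').2.2 hv)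
      (fun t ht => hzout t fun htM => ((mem_Md h2 hN).1 htM).2.2.2 (Ex_sub_Cl η ht))
  · intro t ht
    obtain ⟨htF, htM⟩ := Finset.mem_sdiff.1 ht
    by_cases hsh : ∃ v ∈ VF M, v ∈ up t
    · obtain ⟨a1, a2⟩ := Zs349.glue_lay hM k1 hL hv' t htM hsh
      rw [← hgdef] at a1 a2
      refine ⟨fun _ => c1_of_s1 a2, fun h' => ?_⟩
      rw [a1] at h'
      exact absurd h' (by decide)
    · push Not at hsh
      have e1 : ∀ v ∈ up t, g.1 v = η.1 v := fun v hv => hout v fun h' => hsh v h' hv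
      rw [hzout t htM, C1_congr e1, C2_congr e1]
      exact h3 t ht

variable (s r l) in
open Classical in
/-- fibre -/
def FK (b : Bk) (ω : Cfg) : Finset Cfg := (s.K b.V' ω).filter fun η => s.Fb b r l η

omit hb hg in
theorem mem_FK {η : Cfg} : η ∈ s.FK r l b ω ↔ η ∈ s.K b.V' ω ∧ s.Fb b r l η := by
  simp only [FK, Finset.mem_filter]

variable (s r l) in
open Classical in
/-- flat fibre -/
def GK (b : Bk) (ω : Cfg) : Finset Cfg := (s.FK r l b ω).filter fun η => Flt (s.Md b ω r l) η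

omit hb hg in
theorem mem_GK {η : Cfg} : η ∈ s.GK r l b ω ↔ η ∈ s.FK r l b ω ∧ Flt (s.Md b ω r l) η := by
  simp only [GK, Finset.mem_filter]

omit hb hg in
theorem cmp_of_flt {M : Finset P2} {η : Cfg} (h : Flt M η) : Cmp M η := by
  intro t ht
  obtain ⟨h1, h2⟩ := h t ht
  refine ⟨fun _ => c1_of_s1 fun v hv => ?_, fun h' => ?_⟩
  · rw [s1_true, h2 v hv]; norm_num
  · rw [h1] at h'
    exact absurd h' (by decide)

omit hb hg in
theorem FK_sub : s.FK r l b ω ⊆ s.Fam b ω r l := by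
  intro η h
  obtain ⟨h1, h2⟩ := mem_FK.1 h
  obtain ⟨h3, h4⟩ := s.mem_K.1 h1
  exact mem_Fam.2 ⟨h3, h2, h4.mono Finset.sdiff_subset⟩

omit hb hg in
theorem cmp_split {M : Finset P2} {η : Cfg} (h : Cmp (s.F \ M) η) (h' : Cmp M η) : Cmp s.F η := by
  intro t ht
  by_cases hM : t ∈ M
  · exact h' t hM
  · exact h t (Finset.mem_sdiff.2 ⟨ht, hM⟩)

omit hb hg in
theorem Md_sub {η : Cfg} (h2 : s.Fb b r l η) (hN : s.N η = s.N ω) : s.Md b ω r l ⊆ s.N ω ∩ b.V' := by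
  intro t ht
  obtain ⟨a, a', _⟩ := (mem_Md h2 hN).1 ht
  rw [hN] at a
  exact Finset.mem_inter.2 ⟨a, (Finset.mem_sdiff.1 a').1⟩

/-- **swap of the middle part** -/
theorem fib_eq (c : ℝ) : ∑ η ∈ s.FK r l b ω, wt c (s.N ω ∩ b.V') η =
    Z c (s.Md b ω r l) * ∑ η ∈ s.GK r l b ω, wt c (s.N ω ∩ b.V') η := by
  classical
  by_cases hne : ∃ η0, η0 ∈ s.Fam b ω r l
  · obtain ⟨η0, hη0⟩ := hne
    obtain ⟨g1, g2, _⟩ := mem_Fam.1 hη0
    have hX0 : s.X η0 = s.X ω := (s.mem_K0.1 g1).2.2.2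
    have hN0 := s.N_congr hX0
    have hM := sc_Md hb g2 g2 hN0 hN0
    have hMK := Md_sub g2 hN0
    have e0 : (s.Fam b ω r l).filter (Zs349.Lay true (s.Md b ω r l)) = s.Fam b ω r l :=
      Finset.filter_true_of_mem fun η hη => fam_lay hb hg hη
    have sw := Zs349.swap (e := true) hM c hMK (s.Fam b ω r l) (fun η hη => (s.mem_K0.1 (mem_Fam.1 hη).1).1)
      (fun η hη hL ω' hω' => fam_glue hb hg hη hL hω') (fun η => if Flt (s.Md b ω r l) η then 1 else 0)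
    rw [e0] at sw
    have r1 : ∑ η ∈ s.Fam b ω r l, wt c (s.N ω ∩ b.V') η * ∑ ω' ∈ conf (s.Md b ω r l),
        wt c (s.Md b ω r l) ω' * (if Flt (s.Md b ω r l) (glue true (s.Md b ω r l) η ω') then 1 else 0) =
        ∑ η ∈ s.Fam b ω r l, wt c (s.N ω ∩ b.V') η := by
      refine Finset.sum_congr rfl fun η hη => ?_
      rw [sum_flat hM (s.mem_K0.1 (mem_Fam.1 hη).1).1 (fam_lay hb hg hη), mul_one]
    have r2 : ∑ η ∈ s.Fam b ω r l, wt c (s.N ω ∩ b.V') η = ∑ η ∈ s.FK r l b ω, wt c (s.N ω ∩ b.V') η := by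
      refine (Finset.sum_subset FK_sub fun η hη hη' => ?_).symm
      by_contra hw
      obtain ⟨h1, h2, h3⟩ := mem_Fam.1 hη
      exact hη' (mem_FK.2 ⟨s.mem_K.2 ⟨h1, cmp_split h3 ((cmp_of_wt hw).mono hMK)⟩, h2⟩)
    have r3 : ∑ η ∈ s.Fam b ω r l, wt c (s.N ω ∩ b.V') η * (if Flt (s.Md b ω r l) η then 1 else 0) =
        ∑ η ∈ s.GK r l b ω, wt c (s.N ω ∩ b.V') η := by
      have : (s.Fam b ω r l).filter (fun η => Flt (s.Md b ω r l) η) = s.GK r l b ω := by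
        ext η
        rw [Finset.mem_filter, mem_GK]
        constructor
        · rintro ⟨h4, h5⟩
          obtain ⟨h1, h2, h3⟩ := mem_Fam.1 h4
          exact ⟨mem_FK.2 ⟨s.mem_K.2 ⟨h1, cmp_split h3 (cmp_of_flt h5)⟩, h2⟩, h5⟩
        · rintro ⟨h4, h5⟩
          exact ⟨FK_sub h4, h5⟩
      rw [← this, Finset.sum_filter]
      refine Finset.sum_congr rfl fun η _ => ?_
      split_ifs <;> simp
    rw [r3, r1, r2] at sw
    rw [← sw, mul_comm]
  · have e1 : s.FK r l b ω = ∅ := Finset.eq_empty_of_forall_notMem fun η h => hne ⟨η, FK_sub h⟩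
    have e2 : s.GK r l b ω = ∅ := Finset.eq_empty_of_forall_notMem fun η h => by
      have := (mem_GK.1 h).1
      rw [e1] at this
      exact absurd this (Finset.notMem_empty η)
    rw [e1, e2]
    simp

end

end St
end Crest.Agent.R144.Cc169
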