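import Crest.Agent.R144.Pst8_967

/-!
# R144, plane state (helper967), part 9: exploration from outside, convergence modulo 4

* `Xs N ω` : triangles joined to the outside of `hexB N` by triangles which are not minus closed (`¬ mC`);
* `Bs N ω` : triangles of `hexB N` not in `Xs` and without neighbour in `Xs`; `sc_Bs`, `layer_Bs`,
  `offTZ_Bs` (the event `Bs N ω = B` depends only on `(s1, z)` off `B`);
* `Blk M N ω` : `Xs N ω` does not meet `hexB M`; `stay_of_blk` : then open paths from inside stay in `hexB N`;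
* `BLOCK c` : the input; `conv_mod4` : under `BLOCK c` the expectations of local observables of the heights
  modulo 4 converge along `lC scs` for the F-type laws.
-/

set_option autoImplicit false

noncomputable section

namespace Crest.Agent.R144.Pst967

open Finset Filter Topology
open Crest.Agent.R144.It844 (P2 adj_symm adj_iff adj_comm)
open Crest.ProbabilityR.HexHeights (Adj)
open Crest.Agent.R144.Zg349 Crest.Agent.R144.Zk349 Crest.Agent.R144.Zd349 Crest.Agent.R144.Zm349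
open Crest.Agent.R144.Ze349

/-- step into a triangle which is not minus closed -/
def XStep (ω : Cfg) (a b : P2) : Prop := Adj a b ∧ ¬ mC ω b

/-- explored set -/
def Xs (N : ℕ) (ω : Cfg) : Set P2 := {t | ∃ t0, t0 ∉ hexB N ∧ Relation.ReflTransGen (XStep ω) t0 t}

theorem xs_of_notMem {N : ℕ} (ω : Cfg) {t : P2} (h : t ∉ hexB N) : t ∈ Xs N ω :=
  ⟨t, h, Relation.ReflTransGen.refl⟩

theorem xs_step {N : ℕ} {ω : Cfg} {t t' : P2} (h : t ∈ Xs N ω) (h1 : Adj t t') (h2 : ¬ mC ω t') :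
    t' ∈ Xs N ω := by
  obtain ⟨t0, h3, h4⟩ := h
  exact ⟨t0, h3, h4.tail ⟨h1, h2⟩⟩

open Classical in
/-- the unexplored domain -/
def Bs (N : ℕ) (ω : Cfg) : Finset P2 :=
  (hexB N).filter fun t => t ∉ Xs N ω ∧ ∀ t', Adj t t' → t' ∉ Xs N ω

open Classical in
theorem mem_Bs {N : ℕ} {ω : Cfg} {t : P2} :
    t ∈ Bs N ω ↔ t ∉ Xs N ω ∧ ∀ t', Adj t t' → t' ∉ Xs N ω := by
  unfold Bs
  rw [Finset.mem_filter]
  refine ⟨fun h => h.2, fun h => ⟨?_, h⟩⟩
  by_contra h1
  exact h.1 (xs_of_notMem ω h1)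

theorem notMem_Bs {N : ℕ} {ω : Cfg} {t : P2} :
    t ∉ Bs N ω ↔ t ∈ Xs N ω ∨ ∃ t', Adj t t' ∧ t' ∈ Xs N ω := by
  rw [mem_Bs]
  push Not
  constructor
  · intro h
    by_cases h1 : t ∈ Xs N ω
    · exact Or.inl h1
    · exact Or.inr (h h1)
  · rintro (h | h) h1
    · exact absurd h h1
    · exact h

/-- the triangles next to the unexplored domain are minus closed -/
theorem layer_Bs {N : ℕ} {ω : Cfg} {t t' : P2} (h : t ∈ Bs N ω) (ht' : t' ∉ Bs N ω) (ha : Adj t t') :
    mC ω t' := by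
  rw [mem_Bs] at h
  rw [notMem_Bs] at ht'
  have h1 : t' ∉ Xs N ω := h.2 t' ha
  rcases ht' with h2 | ⟨u, hu, hux⟩
  · exact absurd h2 h1
  · by_contra h3
    exact h1 (xs_step hux (adj_symm hu) h3)

theorem Bs_sub {N : ℕ} (ω : Cfg) : Bs N ω ⊆ hexB N := by
  classical
  exact Finset.filter_subset _ _

/-- the complement of the unexplored domain is connected -/
theorem sc_Bs (N : ℕ) (ω : Cfg) : SC (Bs N ω) := by
  set S : Set P2 := ((Bs N ω : Finset P2) : Set P2)ᶜ with hS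
  have hmem : ∀ t, t ∈ S ↔ t ∉ Bs N ω := fun t => by
    rw [hS, Set.mem_compl_iff, Finset.mem_coe]
  have hX : ∀ t, t ∈ Xs N ω → t ∈ S := fun t ht => by
    rw [hmem, notMem_Bs]; exact Or.inl ht
  -- paths of explored triangles
  have h1 : ∀ t0 t, t0 ∉ hexB N → Relation.ReflTransGen (XStep ω) t0 t →
      Relation.ReflTransGen (StepIn S) t0 t := by
    intro t0 t h0 h
    induction h with
    | refl => exact Relation.ReflTransGen.refl
    | @tail b d h2 h3 ih =>
      exact ih.tail ⟨hX _ ⟨t0, h0, h2⟩, hX _ ⟨t0, h0, h2.tail h3⟩, h3.1⟩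
  -- everything is joined to the outside
  have h2 : ∀ t ∈ S, ∃ t0, t0 ∉ hexB N ∧ Relation.ReflTransGen (StepIn S) t0 t := by
    intro t ht
    have ht' := ht
    rw [hmem, notMem_Bs] at ht
    rcases ht with ⟨t0, h3, h4⟩ | ⟨u, hu, t0, h3, h4⟩
    · exact ⟨t0, h3, h1 t0 t h3 h4⟩
    · exact ⟨t0, h3, (h1 t0 u h3 h4).tail ⟨hX u ⟨t0, h3, h4⟩, ht', adj_symm hu⟩⟩
  have h3 : ∀ t0 t1, t0 ∉ hexB N → t1 ∉ hexB N → Relation.ReflTransGen (StepIn S) t0 t1 := by
    intro t0 t1 ht0 ht1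
    have := conn_hexB N t0 (by simpa using ht0) t1 (by simpa using ht1)
    refine Relation.ReflTransGen.mono (fun a b hab => ?_) _ _ this
    exact ⟨hX a (xs_of_notMem ω (by simpa using hab.1)), hX b (xs_of_notMem ω (by simpa using hab.2.1)),
      hab.2.2⟩
  intro u hu v hv
  obtain ⟨t0, h4, h5⟩ := h2 u hu
  obtain ⟨t1, h6, h7⟩ := h2 v hv
  exact ((path_symm h5).trans (h3 t0 t1 h4 h6)).trans h7

/-- the minus closed status of a triangle off `B` is seen from outside `B` -/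
theorem mC_congr {B : Finset P2} {ω ω' : Cfg} (h1 : ∀ v, v ∉ IV B → s1 (ω.1 v) = s1 (ω'.1 v))
    (h2 : ∀ t, t ∉ B → ω.2 t = ω'.2 t) {t : P2} (ht : t ∉ B) : mC ω t ↔ mC ω' t := by
  unfold mC
  rw [h1 t (fun h => ht (IV_sub B h)), h2 t ht]

/-- the event `Bs N ω = B` depends only on `(s1, z)` off `B` -/
theorem Bs_congr {N : ℕ} {B : Finset P2} {ω ω' : Cfg} (h1 : ∀ v, v ∉ IV B → s1 (ω.1 v) = s1 (ω'.1 v))
    (h2 : ∀ t, t ∉ B → ω.2 t = ω'.2 t) (hB : Bs N ω = B) : Bs N ω' = B := by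
  have hst : ∀ t, t ∉ B → (mC ω t ↔ mC ω' t) := fun t ht => mC_congr h1 h2 ht
  have hX : Xs N ω' = Xs N ω := by
    ext t
    constructor
    · rintro ⟨t0, h3, h4⟩
      induction h4 with
      | refl => exact xs_of_notMem ω h3
      | @tail b d _ h5 ih =>
        by_contra h6
        have h7 : d ∉ B := by
          rw [← hB, notMem_Bs]
          exact Or.inr ⟨b, adj_symm h5.1, ih⟩
        exact h6 (xs_step ih h5.1 fun h8 => h5.2 ((hst d h7).1 h8))
    · rintro ⟨t0, h3, h4⟩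
      induction h4 with
      | refl => exact xs_of_notMem ω' h3
      | @tail b d h4 h5 ih =>
        refine xs_step ih h5.1 fun h6 => ?_
        have h7 : d ∉ B := by
          rw [← hB, notMem_Bs]
          exact Or.inl ⟨t0, h3, h4.tail h5⟩
        exact h5.2 ((hst d h7).2 h6)
  rw [← hB]
  ext t
  rw [mem_Bs, mem_Bs, hX]

open Classical in
/-- indicator of `Bs N ω = B` -/
def BsI (N : ℕ) (B : Finset P2) (ω : Cfg) : ℝ := if Bs N ω = B then 1 else 0

theorem offTZ_BsI (N : ℕ) (B : Finset P2) : OffTZ B (BsI N B) := by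
  intro ω ω' h1 h2
  unfold BsI
  by_cases h : Bs N ω = B
  · rw [if_pos h, if_pos (Bs_congr h1 h2 h)]
  · rw [if_neg h, if_neg fun h' => h (Bs_congr (fun v hv => (h1 v hv).symm)
      (fun t ht => (h2 t ht).symm) h')]

theorem BsI_nonneg (N : ℕ) (B : Finset P2) (ω : Cfg) : 0 ≤ BsI N B ω := by
  unfold BsI; split_ifs <;> norm_num

/-- decomposition according to the unexplored domain -/
theorem sum_BsI (N : ℕ) (ω : Cfg) : ∑ B ∈ (hexB N).powerset, BsI N B ω = 1 := by
  classical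
  unfold BsI
  rw [Finset.sum_ite_eq, if_pos]
  exact Finset.mem_powerset.2 (Bs_sub ω)

/-! ### blocking -/

/-- no exploration reaches `hexB M` -/
def Blk (M N : ℕ) (ω : Cfg) : Prop := ∀ t ∈ hexB M, t ∉ Xs N ω

open Classical in
/-- indicator of the failure of blocking -/
def nBlk (M N : ℕ) (ω : Cfg) : ℝ := if Blk M N ω then 0 else 1

theorem nBlk_nonneg (M N : ℕ) (ω : Cfg) : 0 ≤ nBlk M N ω := by
  unfold nBlk; split_ifs <;> norm_num

theorem nBlk_le (M N : ℕ) (ω : Cfg) : nBlk M N ω ≤ 1 := by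
  unfold nBlk; split_ifs <;> norm_num

/-- failure of blocking is an increasing event -/
theorem incP_nBlk (M N : ℕ) : IncP (nBlk M N) := by
  intro ω ω' h
  unfold nBlk
  by_cases h1 : Blk M N ω'
  · have h2 : Blk M N ω := by
      intro t ht hX
      refine h1 t ht ?_
      obtain ⟨t0, h3, h4⟩ := hX
      refine ⟨t0, h3, Relation.ReflTransGen.mono (fun a b hab => ⟨hab.1, fun h5 => hab.2 ?_⟩) _ _ h4⟩
      exact h.m b h5
    rw [if_pos h1, if_pos h2]
  · rw [if_neg h1]
    split_ifs <;> norm_num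

/-- **the RSW input** : under the maximal (F-type) laws a minus closed layer separates `hexB M` from the
complement of `hexB N` with probability close to one -/
def BLOCK (c : ℝ) : Prop := ∀ (M : ℕ) (ε : ℝ), 0 < ε → ∃ N : ℕ, M ≤ N ∧
  ∀ᶠ F in lC scs, E c F (nBlk M N) ≤ ε

/-- it is enough to have one domain for each `M, ε` -/
theorem block_of {c : ℝ} (hc : 1 ≤ c) (h : ∀ (M : ℕ) (ε : ℝ), 0 < ε → ∃ N : ℕ, M ≤ N ∧
    ∃ F ∈ scs, E c F (nBlk M N) ≤ ε) : BLOCK c := by
  intro M ε hε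
  obtain ⟨N, h1, F, hF, h2⟩ := h M ε hε
  refine ⟨N, h1, mem_lC.2 ⟨F, fun F' hF' hs => ?_⟩⟩
  exact (dom_mono hc hF hF' hs (incP_nBlk M N)).trans h2

/-- two up triangles with a common corner are equal or adjacent -/
theorem adj_of_share {t t' v : P2} (h : v ∈ up t) (h' : v ∈ up t') : t = t' ∨ Adj t t' := by
  rw [mem_up'] at h h'
  unfold Adj
  rcases h with rfl | rfl | rfl <;> rcases h' with rfl | rfl | rfl <;> simp

/-- **open paths stay inside** -/
theorem stay_of_blk {M N : ℕ} {ω : Cfg} (h : Blk M N ω) {W : Finset P2}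
    (hW : ∀ v ∈ W, ∀ t, v ∈ up t → t ∈ hexB M) : Stay W (hexB N) ω.2 := by
  intro v hv w hc
  -- stronger induction: every open triangle at the current end is not explored
  have key : ∀ w, Relation.ReflTransGen (OStep ω.2) v w → OConn (loc (hexB N) ω.2) v w ∧
      ∀ t, ω.2 t = false → w ∈ up t → t ∉ Xs N ω := by
    intro w hw
    induction hw with
    | refl => exact ⟨oConn_refl _ _, fun t _ ht => h t (hW v hv t ht)⟩
    | @tail b d _ h2 ih =>
      obtain ⟨t, h3, h4, h5⟩ := h2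
      have h6 : t ∉ Xs N ω := ih.2 t h3 h4
      have h7 : t ∈ hexB N := by
        by_contra h8
        exact h6 (xs_of_notMem ω h8)
      refine ⟨ih.1.tail ⟨t, ?_, h4, h5⟩, fun t' h8 h9 hX => ?_⟩
      · unfold loc
        rw [if_pos h7, h3]
      · rcases adj_of_share h9 h5 with rfl | h10
        · exact h6 hX
        · exact h6 (xs_step hX h10 fun h11 => by
            have := h11.1
            rw [h3] at this
            exact absurd this (by decide))
  exact (key w hc).1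

theorem subset_VF {F W : Finset P2} (h : W ⊆ F) : W ⊆ VF F := fun v hv => mem_VF'.2 (Or.inl (h hv))

/-- **Convergence modulo 4** of the F-type laws. -/
theorem conv_mod4 {c : ℝ} (hc : 1 ≤ c) (hB : BLOCK c) {W : Finset P2}
    {f : (P2 → Bool) → (P2 → Bool) → (P2 → Bool) → ℝ} (hf : DepW W f) {C : ℝ}
    (hC : ∀ s a z, |f s a z| ≤ C) :
    ∃ a, Tendsto (fun F : Finset P2 => E c F (fun ω => f (c1 ω) (c2 ω) ω.2)) (lC scs) (𝓝 a) := by
  classical
  have hC0 : 0 ≤ C := (abs_nonneg _).trans (hC (fun _ => true) (fun _ => true) (fun _ => true))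
  have hne := cls_scs.neBot
  -- window
  obtain ⟨M, hM⟩ := subset_hexB (W ∪ W.biUnion fun v => {v, (v.1 - 1, v.2), (v.1, v.2 - 1)})
  have hWM : ∀ v ∈ W, ∀ t, v ∈ up t → t ∈ hexB M := by
    intro v hv t ht
    refine hM (Finset.mem_union_right _ (Finset.mem_biUnion.2 ⟨v, hv, ?_⟩))
    rw [mem_up'] at ht
    simp only [Finset.mem_insert, Finset.mem_singleton]
    exact ht
  have key : ∀ ε : ℝ, 0 < ε → ∃ g : Cfg → ℝ, (∃ W', LTZ W' g) ∧ ∀ᶠ F in lC scs,
      |E c F (fun ω => f (c1 ω) (c2 ω) ω.2) - E c F g| ≤ ε := by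
    intro ε hε
    obtain ⟨N, _, hN⟩ := hB M (ε / (2 * C + 1)) (by positivity)
    refine ⟨fun ω => avg W f (c1 ω) ω.2 (loc (hexB N) ω.2), ⟨_, ltz_avg hf⟩, ?_⟩
    filter_upwards [hN, mem_lC_of_subset W, mem_inf_of_right (mem_principal_self scs)] with F h1 h2 h3
    rw [E_avg h3 (subset_VF h2) c hf.depA, ← E_sub]
    have h4 : ∀ ω : Cfg, |avg W f (c1 ω) ω.2 ω.2 - avg W f (c1 ω) ω.2 (loc (hexB N) ω.2)| ≤
        2 * C * nBlk M N ω := by
      intro ω
      unfold nBlk
      split_ifs with hb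
      · rw [avg_loc hf.depA (stay_of_blk hb hWM), sub_self, abs_zero, mul_zero]
      · rw [mul_one]
        have h5 := abs_avg_le hC (W := W) (c1 ω) ω.2 ω.2
        have h6 := abs_avg_le hC (W := W) (c1 ω) ω.2 (loc (hexB N) ω.2)
        refine (abs_sub _ _).trans ?_
        linarith
    have h5 : E c F (fun ω => avg W f (c1 ω) ω.2 ω.2 - avg W f (c1 ω) ω.2 (loc (hexB N) ω.2)) ≤
        2 * C * E c F (nBlk M N) := by
      rw [← E_smul]
      exact E_mono hc fun ω _ => (le_abs_self _).trans (h4 ω)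
    have h6 : -(2 * C * E c F (nBlk M N)) ≤
        E c F (fun ω => avg W f (c1 ω) ω.2 ω.2 - avg W f (c1 ω) ω.2 (loc (hexB N) ω.2)) := by
      have h7 : -(2 * C * E c F (nBlk M N)) = E c F (fun ω => (-(2 * C)) * nBlk M N ω) := by
        rw [E_smul]; ring
      rw [h7]
      refine E_mono hc fun ω _ => ?_
      have := (abs_le.1 (h4 ω)).1
      linarith
    have h8 : 2 * C * E c F (nBlk M N) ≤ ε := by
      have h9 : 0 ≤ E c F (nBlk M N) := E_nonneg hc fun ω _ => nBlk_nonneg M N ω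
      calc 2 * C * E c F (nBlk M N) ≤ (2 * C + 1) * E c F (nBlk M N) := by nlinarith
        _ ≤ (2 * C + 1) * (ε / (2 * C + 1)) := mul_le_mul_of_nonneg_left h1 (by positivity)
        _ = ε := by field_simp
    rw [abs_le]
    constructor <;> linarith
  -- Cauchy
  have hcau : Cauchy (map (fun F : Finset P2 => E c F (fun ω => f (c1 ω) (c2 ω) ω.2)) (lC scs)) := by
    rw [Metric.cauchy_iff]
    refine ⟨hne.map _, fun ε hε => ?_⟩
    obtain ⟨g, ⟨W', hg⟩, h1⟩ := key (ε / 8) (by positivity)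
    obtain ⟨a, ha⟩ := conv_ltz hc hg
    rw [Metric.tendsto_nhds] at ha
    have h2 := ha (ε / 8) (by positivity)
    refine ⟨(fun F : Finset P2 => E c F (fun ω => f (c1 ω) (c2 ω) ω.2)) ''
      {F | |E c F (fun ω => f (c1 ω) (c2 ω) ω.2) - E c F g| ≤ ε / 8 ∧ dist (E c F g) a < ε / 8},
      image_mem_map (by filter_upwards [h1, h2] with F h3 h4 using ⟨h3, h4⟩), ?_⟩
    rintro _ ⟨F, ⟨h3, h4⟩, rfl⟩ _ ⟨F', ⟨h5, h6⟩, rfl⟩
    beta_reduce
    rw [Real.dist_eq, abs_lt] at *
    rw [abs_le] at h3 h5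
    constructor <;> linarith
  obtain ⟨a, ha⟩ := cauchy_map_iff_exists_tendsto.1 hcau
  exact ⟨a, ha⟩

end Crest.Agent.R144.Pst967
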