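import Crest.Agent.R144.Mix2_880
import Crest.Agent.R144.Pst9_967

/-!
# R144, mixing (helper880), part 3: comparison of domains in total variation

* `F3m c` : exact decoupling across a minus closed layer (input, helper349's F3);
* `XA N A ω` : the part of 967's exploration `Xs N ω` seen off `A`; `Inv` : invariant of the revealment;
* `claim` : sequential revealment, for ordered environments;
* `tv_dom` : `F ⊆ F'`, `hexB N ⊆ F`, `f` seen inside `hexB M`, `|f| ≤ C` :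
  `|E c F' f - E c F f| ≤ 2 C E c F (nBlk (M+1) N)`;
* `tv_dom'` : any two domains containing `hexB N` : `≤ 4 C E c (hexB N) (nBlk (M+1) N)`.
-/

set_option autoImplicit false

noncomputable section

namespace Crest.Agent.R144.Mix880

open Finset
open Crest.Agent.R144.It844 (P2 adj_symm adj_iff adj_comm)
open Crest.ProbabilityR.HexHeights (Adj)
open Crest.Agent.R144.Zg349 Crest.Agent.R144.Zk349 Crest.Agent.R144.Zd349 Crest.Agent.R144.Zm349
open Crest.Agent.R144.Ze349 Crest.Agent.R144.Zf349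
open Crest.Agent.R144.Pst967 (hexB mem_hexB hexB_mono XStep Xs Bs mem_Bs notMem_Bs xs_of_notMem xs_step
  Bs_sub sc_Bs layer_Bs Blk nBlk nBlk_nonneg nBlk_le incP_nBlk conn_hexB hexB_mem_scs)

/-- exact decoupling across a minus closed layer -/
def F3m (c : ℝ) : Prop := ∀ F B : Finset P2, SC F → SC B → B ⊆ F → ∀ g f : Cfg → ℝ, OffTZ B g →
  InTZ B f → (∀ ω, g ω ≠ 0 → ∀ t ∈ B, ∀ t', t' ∉ B → Adj t t' → mC ω t') →
  E c F (fun ω => g ω * f ω) = E c F g * E c B (fun ω => f (addH 2 ω))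

theorem adj_hexB {M : ℕ} {t t' : P2} (h : t ∈ hexB M) (ha : Adj t t') : t' ∈ hexB (M + 1) := by
  rw [mem_hexB] at h ⊢
  unfold Adj at ha
  simp only [abs_le] at h ⊢
  push_cast
  obtain ⟨a, b⟩ := t
  obtain ⟨a', b'⟩ := t'
  rcases ha with h1 | h1 | h1 | h1 | h1 | h1 <;> simp only at h1 h <;>
    simp only <;> omega

theorem InTZ.mono' {B B' : Finset P2} (h : B ⊆ B') {f : Cfg → ℝ} (hf : InTZ B f) : InTZ B' f :=
  fun _ _ h1 h2 => hf _ _ (fun v hv => h1 v (IV_mono h hv)) fun t ht => h2 t (h ht)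

/-- explored part, steps off `A` -/
def XA (N : ℕ) (A : Finset P2) (ω : Cfg) : Set P2 :=
  {t | ∃ t0, t0 ∉ hexB N ∧ Relation.ReflTransGen (fun a b => XStep ω a b ∧ b ∉ A) t0 t}

theorem xa_of_notMem {N : ℕ} (A : Finset P2) (ω : Cfg) {t : P2} (h : t ∉ hexB N) : t ∈ XA N A ω :=
  ⟨t, h, Relation.ReflTransGen.refl⟩

theorem xa_step {N : ℕ} {A : Finset P2} {ω : Cfg} {t t' : P2} (h : t ∈ XA N A ω) (h1 : Adj t t')
    (h2 : ¬ mC ω t') (h3 : t' ∉ A) : t' ∈ XA N A ω := by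
  obtain ⟨t0, h4, h5⟩ := h
  exact ⟨t0, h4, h5.tail ⟨⟨h1, h2⟩, h3⟩⟩

theorem xa_notMem {N : ℕ} {A : Finset P2} (hA : A ⊆ hexB N) {ω : Cfg} {t : P2} (h : t ∈ XA N A ω) :
    t ∉ A := by
  obtain ⟨t0, h1, h2⟩ := h
  rcases Relation.ReflTransGen.cases_tail h2 with h3 | ⟨u, _, h4⟩
  · rw [h3]
    exact fun h5 => h1 (hA h5)
  · exact h4.2

theorem xa_mono {N : ℕ} {A A' : Finset P2} (hAA : A' ⊆ A) {ω ω' : Cfg} (ha : Ag A ω ω') {t : P2}
    (h : t ∈ XA N A ω) : t ∈ XA N A' ω' := by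
  obtain ⟨t0, h1, h2⟩ := h
  induction h2 with
  | refl => exact xa_of_notMem _ _ h1
  | @tail a b _ h3 ih =>
    exact xa_step ih h3.1.1 (fun h4 => h3.1.2 ((ha.mC h3.2).2 h4)) fun h4 => h3.2 (hAA h4)

theorem xa_sub_xs {N : ℕ} {A : Finset P2} {ω ω' : Cfg} (ha : Ag A ω ω') {t : P2}
    (h : t ∈ XA N A ω) : t ∈ Xs N ω' := by
  obtain ⟨t0, h1, h2⟩ := h
  induction h2 with
  | refl => exact xs_of_notMem _ h1
  | @tail a b _ h3 ih => exact xs_step ih h3.1.1 fun h4 => h3.1.2 ((ha.mC h3.2).2 h4)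

/-- at the end of the revealment the exploration is completely seen -/
theorem xs_sub_xa {N : ℕ} {A : Finset P2} {ω ω' : Cfg} (ha : Ag A ω ω')
    (hstop : ∀ t ∈ A, ∀ u ∈ XA N A ω, ¬ Adj u t) {t : P2} (h : t ∈ Xs N ω') : t ∈ XA N A ω := by
  obtain ⟨t0, h1, h2⟩ := h
  induction h2 with
  | refl => exact xa_of_notMem _ _ h1
  | @tail a b _ h3 ih =>
    have hb : b ∉ A := fun h4 => hstop b h4 a ih h3.1
    exact xa_step ih h3.1 (fun h4 => h3.2 ((ha.mC hb).1 h4)) hb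

/-- invariant of the revealment -/
def Inv (N : ℕ) (A : Finset P2) (ω : Cfg) : Prop :=
  ∀ t ∈ hexB N, t ∉ A → t ∈ XA N A ω ∨ ∃ u ∈ XA N A ω, Adj u t

theorem Inv.next {N : ℕ} {A : Finset P2} {ω ω' : Cfg} (hI : Inv N A ω) {t u : P2}
    (hu : u ∈ XA N A ω) (hut : Adj u t) (ha : Ag A ω ω') : Inv N (A.erase t) ω' := by
  have hsub : A.erase t ⊆ A := Finset.erase_subset _ _
  intro s hs hsA
  by_cases h1 : s = t
  · rw [h1]
    exact Or.inr ⟨u, xa_mono hsub ha hu, hut⟩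
  · have h2 : s ∉ A := fun h3 => hsA (Finset.mem_erase.2 ⟨h1, h3⟩)
    rcases hI s hs h2 with h3 | ⟨w, h3, h4⟩
    · exact Or.inl (xa_mono hsub ha h3)
    · exact Or.inr ⟨w, xa_mono hsub ha h3, h4⟩

theorem Bs_of_stop {N : ℕ} {A : Finset P2} (hA : A ⊆ hexB N) {ω ω' : Cfg} (hI : Inv N A ω)
    (hstop : ∀ t ∈ A, ∀ u ∈ XA N A ω, ¬ Adj u t) (ha : Ag A ω ω') : Bs N ω' = A := by
  ext t
  constructor
  · intro h
    by_contra h1
    have h2 := mem_Bs.1 h
    rcases hI t (Bs_sub ω' h) h1 with h3 | ⟨u, h3, h4⟩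
    · exact h2.1 (xa_sub_xs ha h3)
    · exact h2.2 u (adj_symm h4) (xa_sub_xs ha h3)
  · intro h
    rw [mem_Bs]
    refine ⟨fun h1 => ?_, fun t' h1 h2 => ?_⟩
    · exact xa_notMem hA (xs_sub_xa ha hstop h1) h
    · exact hstop t h t' (xs_sub_xa ha hstop h2) (adj_symm h1)

/-- **Sequential revealment.** -/
theorem claim {c : ℝ} (hc : 1 ≤ c) (h3 : F3m c) {F F' : Finset P2} (hF : SC F) (hF' : SC F')
    (hFF : F ⊆ F') {N M : ℕ} (hN : hexB N ⊆ F) {f : Cfg → ℝ} (hf : InTZ (hexB M) f) {C : ℝ}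
    (hC : ∀ ω, |f ω| ≤ C) (n : ℕ) : ∀ A : Finset P2, A.card = n → A ⊆ hexB N → ∀ ξ ξ' : Cfg,
      Inv N A ξ' → LeOff A ξ ξ' → 0 < E c F' (ind A ξ) → 0 < E c F (ind A ξ') →
      cE c F' A f ξ ≤ cE c F A f ξ' + cE c F A (fun ω => 2 * C * nBlk (M + 1) N ω) ξ' := by
  have hC0 : 0 ≤ C := (abs_nonneg _).trans (hC flat)
  have hb : ∀ ω, 0 ≤ 2 * C * nBlk (M + 1) N ω := fun ω =>
    mul_nonneg (mul_nonneg (by norm_num) hC0) (nBlk_nonneg _ _ _)
  induction n with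
  | zero =>
    intro A hcard hA ξ ξ' hI hle hp hp'
    exact (stopCase hc h3 hF hF' hFF hN hf hC hC0 hb A hA ξ ξ' hI hle hp hp' (by
      rw [Finset.card_eq_zero] at hcard
      rw [hcard]
      intro t ht
      exact absurd ht (Finset.notMem_empty _)))
  | succ n ih =>
    intro A hcard hA ξ ξ' hI hle hp hp'
    by_cases hstop : ∀ t ∈ A, ∀ u ∈ XA N A ξ', ¬ Adj u t
    · exact stopCase hc h3 hF hF' hFF hN hf hC hC0 hb A hA ξ ξ' hI hle hp hp' hstop
    · push Not at hstop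
      obtain ⟨t, ht, u, hu, hut⟩ := hstop
      have hsub : A.erase t ⊆ A := Finset.erase_subset _ _
      refine jump hc hF hF' hFF (hA.trans (hN.trans hFF)) hsub (fun ω => (abs_le.1 (hC ω)).1) hb
        ?_ hle hp hp'
      intro ω1 ω2 _ h2 hp1 hp2 hle2
      exact ih (A.erase t) (by rw [Finset.card_erase_of_mem ht, hcard]; rfl) (hsub.trans hA) ω1 ω2
        (hI.next hu hut h2) hle2 hp1 hp2
where
  stopCase {c : ℝ} (hc : 1 ≤ c) (h3 : F3m c) {F F' : Finset P2} (hF : SC F) (hF' : SC F')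
    (hFF : F ⊆ F') {N M : ℕ} (hN : hexB N ⊆ F) {f : Cfg → ℝ} (hf : InTZ (hexB M) f) {C : ℝ}
    (hC : ∀ ω, |f ω| ≤ C) (hC0 : 0 ≤ C) (hb : ∀ ω, 0 ≤ 2 * C * nBlk (M + 1) N ω)
    (A : Finset P2) (hA : A ⊆ hexB N) (ξ ξ' : Cfg)
    (hI : Inv N A ξ') (hle : LeOff A ξ ξ') (hp : 0 < E c F' (ind A ξ)) (hp' : 0 < E c F (ind A ξ'))
    (hstop : ∀ t ∈ A, ∀ u ∈ XA N A ξ', ¬ Adj u t) :
      cE c F' A f ξ ≤ cE c F A f ξ' + cE c F A (fun ω => 2 * C * nBlk (M + 1) N ω) ξ' := by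
    have hBs : ∀ ω', Ag A ξ' ω' → Bs N ω' = A := fun ω' ha => Bs_of_stop hA hI hstop ha
    have hSC : SC A := by
      have := sc_Bs N ξ'
      rw [hBs ξ' (Ag.refl _ _)] at this
      exact this
    by_cases hM : hexB M ⊆ A
    · have hfA : InTZ A f := InTZ.mono' hM hf
      have e1 : E c F (fun ω => ind A ξ' ω * f ω) =
          E c F (ind A ξ') * E c A (fun ω => f (addH 2 ω)) := by
        refine h3 F A hF hSC (hA.trans hN) _ _ (offTZ_ind A ξ') hfA ?_
        intro ω hω t ht t' ht' hadj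
        have ha : Ag A ξ' ω := by
          by_contra h; exact hω (ind_of_not h)
        have h4 := hBs ω ha
        rw [← h4] at ht ht'
        exact layer_Bs ht ht' hadj
      have e2 : E c F' (fun ω => ind A ξ ω * f ω) =
          E c F' (ind A ξ) * E c A (fun ω => f (addH 2 ω)) := by
        refine h3 F' A hF' hSC (hA.trans (hN.trans hFF)) _ _ (offTZ_ind A ξ) hfA ?_
        intro ω hω t ht t' ht' hadj
        have ha : Ag A ξ ω := by
          by_contra h; exact hω (ind_of_not h)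
        have h4 := hBs ξ' (Ag.refl _ _)
        have h5 : mC ξ' t' := by
          rw [← h4] at ht ht'
          exact layer_Bs ht ht' hadj
        exact (ha.mC ht').1 (hle.m t' ht' h5)
      have h6 : 0 ≤ cE c F A (fun ω => 2 * C * nBlk (M + 1) N ω) ξ' := cE_ge hc hp' fun ω _ => hb ω
      have h7 : cE c F A f ξ' = E c A (fun ω => f (addH 2 ω)) := by
        unfold cE
        rw [e1]
        field_simp
      have h8 : cE c F' A f ξ = E c A (fun ω => f (addH 2 ω)) := by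
        unfold cE
        rw [e2]
        field_simp
      rw [h7, h8]
      linarith
    · rw [Finset.subset_iff] at hM
      push Not at hM
      obtain ⟨t, ht, htA⟩ := hM
      have h6 : 2 * C ≤ cE c F A (fun ω => 2 * C * nBlk (M + 1) N ω) ξ' := by
        refine cE_ge hc hp' fun ω ha => ?_
        have h7 := hBs ω ha
        rw [← h7, notMem_Bs] at htA
        have h8 : ¬ Blk (M + 1) N ω := by
          intro h8
          rcases htA with h9 | ⟨u, h9, h10⟩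
          · exact h8 t (hexB_mono (Nat.le_succ M) ht) h9
          · exact h8 u (adj_hexB ht h9) h10
        unfold nBlk
        rw [if_neg h8, mul_one]
      have h9 : -C ≤ cE c F A f ξ' := cE_ge hc hp' fun ω _ => (abs_le.1 (hC ω)).1
      have h10 : cE c F' A f ξ ≤ C := cE_le hc hp fun ω _ => (abs_le.1 (hC ω)).2
      linarith

theorem ag_flat {F F' : Finset P2} (hFF : F ⊆ F') {ω : Cfg} (h : Valid F ω) : Ag F' flat ω := by
  refine ⟨fun x hx => ?_, fun t ht => ?_⟩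
  · rw [h.ht.s1_bd fun h1 => hx (IV_mono hFF h1)]
    show s1 0 = true
    decide
  · rw [h.cl t fun h1 => ht (hFF h1)]
    rfl

theorem E_ind_flat {c : ℝ} (hc : 1 ≤ c) {F F' : Finset P2} (hFF : F ⊆ F') (f : Cfg → ℝ) :
    E c F (fun ω => ind F' flat ω * f ω) = E c F f ∧ E c F (ind F' flat) = 1 := by
  constructor
  · exact E_congr fun ω hω => by rw [ind_of (ag_flat hFF hω), one_mul]
  · rw [E_congr (g := fun _ => 1) fun ω hω => ind_of (ag_flat hFF hω), E_const hc]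

/-- one sided comparison of domains -/
theorem tv_le {c : ℝ} (hc : 1 ≤ c) (h3 : F3m c) {F F' : Finset P2} (hF : SC F) (hF' : SC F')
    (hFF : F ⊆ F') {N M : ℕ} (hN : hexB N ⊆ F) {f : Cfg → ℝ} (hf : InTZ (hexB M) f) {C : ℝ}
    (hC : ∀ ω, |f ω| ≤ C) : E c F' f ≤ E c F f + 2 * C * E c F (nBlk (M + 1) N) := by
  have hC0 : 0 ≤ C := (abs_nonneg _).trans (hC flat)
  have hb : ∀ ω, 0 ≤ 2 * C * nBlk (M + 1) N ω := fun ω =>
    mul_nonneg (mul_nonneg (by norm_num) hC0) (nBlk_nonneg _ _ _)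
  have e1 := E_ind_flat hc (Finset.Subset.refl F') f
  have e2 := E_ind_flat hc hFF f
  have e3 := E_ind_flat hc hFF (fun ω => 2 * C * nBlk (M + 1) N ω)
  have key := jump hc hF hF' hFF (Finset.Subset.refl F') (hN.trans hFF)
    (fun ω => (abs_le.1 (hC ω)).1) hb (ξ := flat) (ξ' := flat) (f := f) (A' := hexB N) ?_
    (LeOff.refl _ _) (by rw [e1.2]; norm_num) (by rw [e2.2]; norm_num)
  · unfold cE at key
    rw [e1.1, e1.2, e2.1, e2.2, e3.1, div_one, div_one, div_one, E_smul] at key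
    exact key
  · intro ω1 ω2 _ _ hp1 hp2 hle
    refine claim hc h3 hF hF' hFF hN hf hC _ (hexB N) rfl (Finset.Subset.refl _) ω1 ω2 ?_ hle hp1 hp2
    intro t ht ht'
    exact absurd ht ht'

/-- **Comparison of domains in total variation.** -/
theorem tv_dom {c : ℝ} (hc : 1 ≤ c) (h3 : F3m c) {F F' : Finset P2} (hF : SC F) (hF' : SC F')
    (hFF : F ⊆ F') {N M : ℕ} (hN : hexB N ⊆ F) {f : Cfg → ℝ} (hf : InTZ (hexB M) f) {C : ℝ}
    (hC : ∀ ω, |f ω| ≤ C) : |E c F' f - E c F f| ≤ 2 * C * E c F (nBlk (M + 1) N) := by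
  have h1 := tv_le hc h3 hF hF' hFF hN hf hC
  have hf' : InTZ (hexB M) (fun ω => - f ω) := fun ω ω' a b => by
    show - f ω = - f ω'
    rw [hf ω ω' a b]
  have h2 := tv_le hc h3 hF hF' hFF hN hf' (C := C) (fun ω => by rw [abs_neg]; exact hC ω)
  have hneg : ∀ G : Finset P2, E c G (fun ω => - f ω) = - E c G f := by
    intro G
    have : (fun ω => - f ω) = fun ω => (-1) * f ω := by funext ω; ring
    rw [this, E_smul]
    ring
  rw [hneg, hneg] at h2
  rw [abs_le]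
  constructor <;> linarith

/-- the blocking failure probability in the hexagonal ball -/
def bt (c : ℝ) (m N : ℕ) : ℝ := E c (hexB N) (nBlk m N)

theorem bt_nonneg {c : ℝ} (hc : 1 ≤ c) (m N : ℕ) : 0 ≤ bt c m N :=
  E_nonneg hc fun _ _ => nBlk_nonneg _ _ _

theorem nBlk_le_bt {c : ℝ} (hc : 1 ≤ c) {F : Finset P2} (hF : SC F) {m N : ℕ} (hN : hexB N ⊆ F) :
    E c F (nBlk m N) ≤ bt c m N := dom_mono hc (conn_hexB N) hF hN (incP_nBlk m N)

/-- **Comparison of two domains.** -/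
theorem tv_dom' {c : ℝ} (hc : 1 ≤ c) (h3 : F3m c) {F F' : Finset P2} (hF : SC F) (hF' : SC F')
    {N M : ℕ} (hN : hexB N ⊆ F) (hN' : hexB N ⊆ F') {f : Cfg → ℝ} (hf : InTZ (hexB M) f) {C : ℝ}
    (hC : ∀ ω, |f ω| ≤ C) : |E c F' f - E c F f| ≤ 4 * C * bt c (M + 1) N := by
  have h1 := tv_dom hc h3 (conn_hexB N) hF hN (Finset.Subset.refl _) hf hC
  have h2 := tv_dom hc h3 (conn_hexB N) hF' hN' (Finset.Subset.refl _) hf hC
  unfold bt
  rw [abs_le] at h1 h2 ⊢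
  constructor <;> linarith

end Crest.Agent.R144.Mix880
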