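import Crest.Agent.R144.Cc5_169
import Crest.Agent.R144.Zs3_349

/-!
# R144 (CCW, step B), one block: exchange and cross ratio (helper169)

`sf_cross` : for two admissible configurations with the same revealed information, in a good block,
`p ^ 2 * (Sf ω r l * Sf ω' r' l') ≤ Sf ω r l' * Sf ω' r' l`.
-/

set_option autoImplicit false
set_option linter.unusedSectionVars false
set_option linter.unusedSimpArgs false

noncomputable section

namespace Crest.Agent.R144.Cc169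

open Finset
open Crest.Agent.R144.It844 (P2 Lip adj_iff adj_symm lip_iff)
open Crest.ProbabilityR.HexHeights (Adj)
open Crest.Agent.R144.Zg349 Crest.Agent.R144.Zk349 Crest.Agent.R144.Zd349 Crest.Agent.R144.Zm349
open Crest.Agent.R144.Ze349
open Crest.Agent.R144.Cb2169 (Ex Cl Wd mem_Ex mem_Cl mem_Wd Ex_sub Cl_sub R_sub_Ex Ex_sub_Cl Ex_step
  layer_pC Ex_congr adj_of_share mem_D_of_path Stp Apart stepIn_symm rtg_symm rtg_mono)

namespace St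
variable {s : St}

section
variable {b : Bk} (hb : s.BkOK b) {ω ω' : Cfg} (aω : s.Adm ω) (h0 : s.Eq0 ω ω')
  (hg : s.Gd b ω) {r l r' l' : Pt}

/-- the middle zone is in the middle part -/
theorem zone_Md (hb : s.BkOK b) {η : Cfg} (h : s.Fb b r l η) (hN : s.N η = s.N ω) {t : P2}
    (ht : t ∈ s.N ω ∩ (b.Vo \ b.Vi)) : t ∈ s.Md b ω r l := by
  rw [Finset.mem_inter, Finset.mem_sdiff] at ht
  rw [mem_Md h hN]
  refine ⟨by rw [hN]; exact ht.1, Finset.mem_sdiff.2 ⟨hb.i4 ht.2.1, fun h' => ht.2.2 (hb.i1 h')⟩, ?_, ?_⟩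
  · exact fun h' => Finset.disjoint_left.1 h.bar.1 h' ht.2.1
  · exact fun h' => ht.2.2 (h.bar.2 h')

/-- heights are constant along flat links -/
theorem lk_eq {Z : Finset P2} {η : Cfg} (hl : Lip η.1) (hf : Flt Z η) {v u : P2} (h : Lk Z v u) :
    η.1 v = η.1 u := by
  unfold Lk at h
  induction h with
  | refl => rfl
  | @tail a c _ h2 ih =>
    obtain ⟨t, ht, h3, h4⟩ := h2
    have h5 := (hf t ht).2 a h3
    have h6 := (hf t ht).2 c h4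
    have h7 := abs_le.1 (up_close hl h3 h4)
    omega

theorem eq0_pair (h0 : s.Eq0 ω ω') {V : Finset P2} {η η' : Cfg} (h : η ∈ s.K V ω) (h' : η' ∈ s.K V ω') :
    s.Eq0 η η' := (eq0_of_K h).symm.trans (h0.trans (eq0_of_K h'))

include hb aω h0 hg

theorem agree {η η' : Cfg} (h : η ∈ s.K b.V' ω) (h' : η' ∈ s.K b.V' ω') (hF : s.Fb b r l η)
    (hF' : s.Fb b r' l' η') (hf : Flt (s.Md b ω r l) η) (hf' : Flt (s.Md b ω r' l') η') :
    s.Cpt b.Vm η' η := by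
  have hX : s.X η = s.X ω := s.X_of_K h
  have hN := s.N_congr hX
  have hX' : s.X η' = s.X ω := (s.X_of_K h').trans h0.X
  have hN' := s.N_congr hX'
  intro v h1 h2
  rw [hN] at h1 h2
  obtain ⟨u, t1, ht1, hu1, ⟨t', ht', htX, hut⟩, hlk⟩ := hb.col ω aω hg v h1 h2
  have z : Flt (s.N ω ∩ (b.Vo \ b.Vi)) η := fun t ht => hf t (zone_Md hb hF hN ht)
  have z' : Flt (s.N ω ∩ (b.Vo \ b.Vi)) η' := fun t ht => hf' t (zone_Md hb hF' hN' ht)
  have aη := s.adm_of_K h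
  have aη' := s.adm_of_K h'
  have e1 := lk_eq aη.lip z hlk
  have e2 := lk_eq aη'.lip z' hlk
  have m1 := (z t1 ht1).2 u hu1
  have m2 := (z' t1 ht1).2 u hu1
  obtain ⟨_, _, e3⟩ := layer_blk aη aη'.lip (aη'.cmp.mono (s.Rv_sub_F η)) (eq0_pair h0 h h')
    (by rw [s.Rv_congr hX]; exact ht') (by rw [hX]; exact htX) hut hut
  omega

/-- exchange: outside of the middle line from `η`, inside from `η'` -/
theorem exch {η η' : Cfg} (h : η ∈ s.GK r l b ω) (h' : η' ∈ s.GK r' l' b ω') :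
    s.gl b.Vm η' η ∈ s.GK r l' b ω := by
  obtain ⟨h1, hf⟩ := mem_GK.1 h
  obtain ⟨hK, hF⟩ := mem_FK.1 h1
  obtain ⟨h1', hf'⟩ := mem_GK.1 h'
  obtain ⟨hK', hF'⟩ := mem_FK.1 h1'
  have hX : s.X η = s.X ω := s.X_of_K hK
  have hN := s.N_congr hX
  have hX' : s.X η' = s.X ω := (s.X_of_K hK').trans h0.X
  have hN' := s.N_congr hX'
  have hMd' : s.Md b ω' r' l' = s.Md b ω r' l' := by
    unfold Md Dm
    rw [h0.N]
  rw [hMd'] at hf'
  have hc := agree hb aω h0 hg hK hK' hF hF' hf hf'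
  have hE : s.Eq0 η η' := eq0_pair h0 hK hK'
  have aη := s.adm_of_K hK
  have aη' := s.adm_of_K hK'
  have hVm : b.Vm ⊆ s.G := (hb.i3.trans hb.i4).trans hb.i5
  have hmem := gl_mem hVm hE hc aη' aη
  set g := s.gl b.Vm η' η with hgdef
  have hXg : s.X g = s.X η := X_gl hE aη' aη
  have hNg : s.N g = s.N η := s.N_congr hXg
  have hNN : s.N η' = s.N η := hE.N
  -- closure of the outer exploration
  have o1 : ∀ t ∈ Cl (s.N η) (s.Eo b η), t ∈ s.N η \ b.Vm := fun t ht =>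
    Finset.mem_sdiff.2 ⟨Cl_sub _ _ ht, fun h3 => Finset.disjoint_left.1 hF.bar.1 ht (hb.i3 h3)⟩
  have i1 : ∀ t ∈ Cl (s.N η') (s.Ei b η'), t ∈ s.N η ∩ b.Vm := fun t ht =>
    Finset.mem_inter.2 ⟨hNN ▸ Cl_sub _ _ ht, hb.i2 (hF'.bar.2 ht)⟩
  have nin : ∀ {t : P2}, t ∈ s.N η \ b.Vm → t ∉ s.N η ∩ b.Vm := fun h3 h4 =>
    (Finset.mem_sdiff.1 h3).2 (Finset.mem_inter.1 h4).2
  have pCo : ∀ t ∈ s.N η \ b.Vm, (pC η t ↔ pC g t) := by
    intro t ht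
    unfold pC
    rw [hgdef, gl_z' (nin ht), gl_out (mem_VF_of ht (base_mem_up t))]
  have pCi : ∀ t ∈ s.N η ∩ b.Vm, (pC η' t ↔ pC g t) := by
    intro t ht
    unfold pC
    rw [hgdef, gl_z ht, gl_in hVm hE hc (mem_VF_of ht (base_mem_up t))]
  have hEo : s.Eo b g = s.Eo b η := by
    unfold Eo
    rw [hNg]
    exact Ex_congr Finset.sdiff_subset fun t ht => pCo t (o1 t ht)
  have hEi : s.Ei b g = s.Ei b η' := by
    unfold Ei
    rw [hNg, ← hNN]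
    exact Ex_congr Finset.inter_subset_left fun t ht => pCi t (i1 t ht)
  have oE : ∀ t ∈ s.Eo b η, t ∈ s.N η \ b.Vm := fun t ht => o1 t (Ex_sub_Cl η ht)
  have iE : ∀ t ∈ s.Ei b η', t ∈ s.N η ∩ b.Vm := fun t ht => i1 t (Ex_sub_Cl η' ht)
  have hFb : s.Fb b r l' g := by
    refine ⟨⟨?_, ?_⟩, ?_, ?_⟩
    · rw [hEo, hNg]; exact hF.bar.1
    · rw [hEi, hNg, ← hNN]; exact hF'.bar.2
    · rw [hEo, ← hF.ro]
      refine res_eq (fun v hv => ?_) fun t ht => gl_z' (nin (oE t ht))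
      obtain ⟨t, ht, hvt⟩ := mem_VF.1 hv
      exact gl_out (mem_VF_of (oE t ht) hvt)
    · rw [hEi, ← hF'.li]
      refine res_eq (fun v hv => ?_) fun t ht => gl_z (iE t ht)
      obtain ⟨t, ht, hvt⟩ := mem_VF.1 hv
      exact gl_in hVm hE hc (mem_VF_of (iE t ht) hvt)
  refine mem_GK.2 ⟨mem_FK.2 ⟨s.K_trans (hb.i3.trans hb.i4) hK hmem, hFb⟩, ?_⟩
  intro t ht
  have ht2 := (mem_Md hFb (hNg.trans hN)).1 ht
  rw [hEo, hEi, hNg] at ht2
  obtain ⟨b1, b2, b3, b4⟩ := ht2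
  by_cases hm : t ∈ b.Vm
  · have hti : t ∈ s.N η ∩ b.Vm := Finset.mem_inter.2 ⟨b1, hm⟩
    have htM : t ∈ s.Md b ω r' l' := by
      rw [mem_Md hF' hN', hNN]
      refine ⟨b1, b2, fun h3 => ?_, by rw [← hNN] at b4 ⊢; exact b4⟩
      rw [← hNN] at h3
      exact Finset.disjoint_left.1 hF'.bar.1 h3 (hb.i3 hm)
    obtain ⟨q1, q2⟩ := hf' t htM
    refine ⟨by rw [hgdef, gl_z hti]; exact q1, fun v hv => ?_⟩
    rw [hgdef, gl_in hVm hE hc (mem_VF_of hti hv)]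
    exact q2 v hv
  · have hto : t ∈ s.N η \ b.Vm := Finset.mem_sdiff.2 ⟨b1, hm⟩
    have htM : t ∈ s.Md b ω r l := by
      rw [mem_Md hF hN]
      exact ⟨b1, b2, b3, fun h3 => hm (hb.i2 (hF.bar.2 h3))⟩
    obtain ⟨q1, q2⟩ := hf t htM
    refine ⟨by rw [hgdef, gl_z' (nin hto)]; exact q1, fun v hv => ?_⟩
    rw [hgdef, gl_out (mem_VF_of hto hv)]
    exact q2 v hv

omit hb aω h0 hg in
theorem gd_congr {b : Bk} {ω ω' : Cfg} (h : s.X ω' = s.X ω) (hg : s.Gd b ω) : s.Gd b ω' := by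
  unfold Gd at *
  rw [h]
  exact hg

/-- flat fibre sums factorise -/
theorem gk_prod (c : ℝ) (aω' : s.Adm ω') :
    (∑ η ∈ s.GK r l b ω, wt c (s.N ω ∩ b.V') η) * (∑ η' ∈ s.GK r' l' b ω', wt c (s.N ω' ∩ b.V') η') =
    (∑ η ∈ s.GK r l' b ω, wt c (s.N ω ∩ b.V') η) * (∑ η' ∈ s.GK r' l b ω', wt c (s.N ω' ∩ b.V') η') := by
  have hg' : s.Gd b ω' := gd_congr h0.X hg
  have hVm : b.Vm ⊆ s.G := (hb.i3.trans hb.i4).trans hb.i5
  rw [Finset.sum_mul_sum, Finset.sum_mul_sum, ← Finset.sum_product', ← Finset.sum_product']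
  have facts : ∀ {r l r' l' : Pt} {p : Cfg × Cfg}, p ∈ s.GK r l b ω ×ˢ s.GK r' l' b ω' →
      s.Adm p.1 ∧ s.Adm p.2 ∧ s.Eq0 p.1 p.2 ∧ s.Cpt b.Vm p.2 p.1 ∧ s.N p.1 = s.N ω := by
    intro r l r' l' p hp
    obtain ⟨h1, h2⟩ := Finset.mem_product.1 hp
    obtain ⟨k1, f1⟩ := mem_GK.1 h1
    obtain ⟨k1, b1⟩ := mem_FK.1 k1
    obtain ⟨k2, f2⟩ := mem_GK.1 h2
    obtain ⟨k2, b2⟩ := mem_FK.1 k2
    have hMd' : s.Md b ω' r' l' = s.Md b ω r' l' := by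
      unfold Md Dm
      rw [h0.N]
    rw [hMd'] at f2
    exact ⟨s.adm_of_K k1, s.adm_of_K k2, eq0_pair h0 k1 k2,
      agree hb aω h0 hg k1 k2 b1 b2 f1 f2, s.N_congr (s.X_of_K k1)⟩
  refine Finset.sum_bij' (fun p _ => (s.gl b.Vm p.2 p.1, s.gl b.Vm p.1 p.2))
    (fun p _ => (s.gl b.Vm p.2 p.1, s.gl b.Vm p.1 p.2)) ?_ ?_ ?_ ?_ ?_
  · intro p hp
    obtain ⟨h1, h2⟩ := Finset.mem_product.1 hp
    exact Finset.mem_product.2 ⟨exch hb aω h0 hg h1 h2, exch hb aω' h0.symm hg' h2 h1⟩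
  · intro p hp
    obtain ⟨h1, h2⟩ := Finset.mem_product.1 hp
    exact Finset.mem_product.2 ⟨exch hb aω h0 hg h1 h2, exch hb aω' h0.symm hg' h2 h1⟩
  · intro p hp
    obtain ⟨a1, a2, a3, a4, _⟩ := facts hp
    refine Prod.ext ?_ ?_
    · exact gl_gl hVm a3.symm (a4.symm a3) a1 a2
    · exact gl_gl hVm a3 a4 a2 a1
  · intro p hp
    obtain ⟨a1, a2, a3, a4, _⟩ := facts hp
    refine Prod.ext ?_ ?_
    · exact gl_gl hVm a3.symm (a4.symm a3) a1 a2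
    · exact gl_gl hVm a3 a4 a2 a1
  · intro p hp
    obtain ⟨a1, a2, a3, a4, a5⟩ := facts hp
    have key := wt_gl c hVm (hb.i3.trans hb.i4) a3 a4 a2 a1
    simp only
    rw [h0.N, ← a5, key, mul_comm]

end

variable (s) in
/-- fibre sum -/
def Sf (c : ℝ) (b : Bk) (ω : Cfg) (r l : Pt) : ℝ := ∑ η ∈ s.FK r l b ω, wt c (s.N ω ∩ b.V') η

theorem Sf_nonneg {c : ℝ} (hc : 1 ≤ c) (b : Bk) (ω : Cfg) (r l : Pt) : 0 ≤ s.Sf c b ω r l :=
  Finset.sum_nonneg fun η _ => wt_nonneg hc _ η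

variable (s) in
/-- lower bound for the middle barrier in the maximal law of the block -/
def PB (c p : ℝ) (b : Bk) (ω : Cfg) : Prop :=
  p ≤ Pr c (s.Dm b ω) (Cb2169.Bar (s.Dm b ω) (s.Dm b ω \ b.Vo) (s.Dm b ω ∩ b.Vi))

/-- **Cross ratio of the fibre sums.** -/
theorem sf_cross {c : ℝ} (hc : 1 ≤ c) {b : Bk} (hb : s.BkOK b) {ω ω' : Cfg} (aω : s.Adm ω)
    (aω' : s.Adm ω') (h0 : s.Eq0 ω ω') (hg : s.Gd b ω) {p : ℝ} (hp0 : 0 ≤ p) (hp : s.PB c p b ω)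
    (r l r' l' : Pt) :
    p ^ 2 * (s.Sf c b ω r l * s.Sf c b ω' r' l') ≤ s.Sf c b ω r l' * s.Sf c b ω' r' l := by
  have hrhs : 0 ≤ s.Sf c b ω r l' * s.Sf c b ω' r' l := mul_nonneg (Sf_nonneg hc _ _ _ _) (Sf_nonneg hc _ _ _ _)
  by_cases h1 : s.FK r l b ω = ∅
  · have : s.Sf c b ω r l = 0 := by unfold Sf; rw [h1]; simp
    rw [this, zero_mul, mul_zero]
    exact hrhs
  by_cases h2 : s.FK r' l' b ω' = ∅
  · have : s.Sf c b ω' r' l' = 0 := by unfold Sf; rw [h2]; simp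
    rw [this, mul_zero, mul_zero]
    exact hrhs
  obtain ⟨η, hη⟩ := Finset.nonempty_iff_ne_empty.2 h1
  obtain ⟨η', hη'⟩ := Finset.nonempty_iff_ne_empty.2 h2
  obtain ⟨hK, hF⟩ := mem_FK.1 hη
  obtain ⟨hK', hF'⟩ := mem_FK.1 hη'
  have hg' : s.Gd b ω' := gd_congr h0.X hg
  have hN := s.N_congr (s.X_of_K hK)
  have hN' : s.N η' = s.N ω := s.N_congr ((s.X_of_K hK').trans h0.X)
  have hMd : ∀ r l, s.Md b ω' r l = s.Md b ω r l := fun r l => by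
    unfold Md Dm
    rw [h0.N]
  unfold Sf
  rw [fib_eq hb hg c, fib_eq hb hg' c, fib_eq hb hg c, fib_eq hb hg' c, hMd, hMd]
  have hG := gk_prod hb aω h0 hg (r := r) (l := l) (r' := r') (l' := l') c aω'
  set G1 := ∑ η ∈ s.GK r l b ω, wt c (s.N ω ∩ b.V') η
  set G2 := ∑ η' ∈ s.GK r' l' b ω', wt c (s.N ω' ∩ b.V') η'
  set G3 := ∑ η ∈ s.GK r l' b ω, wt c (s.N ω ∩ b.V') η
  set G4 := ∑ η' ∈ s.GK r' l b ω', wt c (s.N ω' ∩ b.V') η'
  have g1 : 0 ≤ G1 := Finset.sum_nonneg fun η _ => wt_nonneg hc _ η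
  have g2 : 0 ≤ G2 := Finset.sum_nonneg fun η _ => wt_nonneg hc _ η
  -- cross ratio of the partition functions
  set D := s.Dm b ω with hD
  have eM : ∀ A B : Finset P2, D \ (A ∪ B) = D \ ((A ∩ D) ∪ (B ∩ D)) := by
    intro A B
    ext t
    simp only [Finset.mem_sdiff, Finset.mem_union, Finset.mem_inter]
    tauto
  have eS : ∀ A : Finset P2, D \ A = D \ (A ∩ D) := by
    intro A
    ext t
    simp only [Finset.mem_sdiff, Finset.mem_inter]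
    tauto
  have ar : Anch (b.V' \ b.V) (Cl (s.N ω) r.1) := by rw [hF.r1, ← hN]; exact anch_Eo η
  have ar' : Anch (b.V' \ b.V) (Cl (s.N ω) r'.1) := by rw [hF'.r1, ← hN']; exact anch_Eo η'
  have al : Anch (b.V' \ b.V) (Cl (s.N ω) l.1) := by rw [hF.l1, ← hN]; exact anch_Ei η
  have al' : Anch (b.V' \ b.V) (Cl (s.N ω) l'.1) := by rw [hF'.l1, ← hN']; exact anch_Ei η'
  have rsub : ∀ {η : Cfg} {r l : Pt}, s.Fb b r l η → s.N η = s.N ω → Cl (s.N ω) r.1 ∩ D ⊆ D \ b.Vo := by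
    intro η r l hF hN t ht
    rw [Finset.mem_inter] at ht
    refine Finset.mem_sdiff.2 ⟨ht.2, fun h3 => ?_⟩
    have := hF.bar.1
    rw [← hF.r1, hN] at this
    exact Finset.disjoint_left.1 this ht.1 h3
  have lsub : ∀ {η : Cfg} {r l : Pt}, s.Fb b r l η → s.N η = s.N ω → Cl (s.N ω) l.1 ∩ D ⊆ D ∩ b.Vi := by
    intro η r l hF hN t ht
    rw [Finset.mem_inter] at ht
    have := hF.bar.2
    rw [← hF.l1, hN] at this
    exact Finset.mem_inter.2 ⟨ht.2, this ht.1⟩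
  have hcr := Cb2169.cross hc (Zs349.dec169 hc) (D := D) (R := D \ b.Vo) (L := D ∩ b.Vi)
    (by simpa using sc_Dm hb ω ∅ (Anch.empty _)) Finset.sdiff_subset Finset.inter_subset_left
    (by
      have e : D \ (D \ b.Vo) = D \ (b.V' \ b.Vo) := by
        ext t
        have : t ∈ D → t ∈ b.V' := fun h => (Finset.mem_sdiff.1 (Finset.mem_inter.1 h).2).1
        simp only [Finset.mem_sdiff]
        tauto
      rw [e]
      exact sc_Dm hb ω _ (anch_out hb))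
    (fun t ht t' ht' v hv => hb.ap t
      (Finset.mem_sdiff.2 ⟨(Finset.mem_sdiff.1 (Finset.mem_inter.1 (Finset.mem_sdiff.1 ht).1).2).1,
        (Finset.mem_sdiff.1 ht).2⟩) t' (Finset.mem_inter.1 ht').2 v hv)
    hp0 hp (rsub hF hN) (rsub hF' hN') (lsub hF hN) (lsub hF' hN')
    (by rw [← eS]; exact sc_Dm hb ω _ ar) (by rw [← eS]; exact sc_Dm hb ω _ ar')
    (by rw [← eS]; exact sc_Dm hb ω _ al) (by rw [← eS]; exact sc_Dm hb ω _ al')
    (by rw [← eM]; exact sc_Dm hb ω _ (ar.union al)) (by rw [← eM]; exact sc_Dm hb ω _ (ar'.union al'))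
    (by rw [← eM]; exact sc_Dm hb ω _ (ar.union al')) (by rw [← eM]; exact sc_Dm hb ω _ (ar'.union al))
  rw [← eM, ← eM, ← eM, ← eM] at hcr
  have eMd : ∀ r l : Pt, s.Md b ω r l = D \ (Cl (s.N ω) r.1 ∪ Cl (s.N ω) l.1) := fun _ _ => rfl
  rw [eMd, eMd, eMd, eMd]
  set z1 := Z c (D \ (Cl (s.N ω) r.1 ∪ Cl (s.N ω) l.1))
  set z2 := Z c (D \ (Cl (s.N ω) r'.1 ∪ Cl (s.N ω) l'.1))
  set z3 := Z c (D \ (Cl (s.N ω) r.1 ∪ Cl (s.N ω) l'.1))
  set z4 := Z c (D \ (Cl (s.N ω) r'.1 ∪ Cl (s.N ω) l.1))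
  calc p ^ 2 * (z1 * G1 * (z2 * G2)) = (p ^ 2 * (z1 * z2)) * (G1 * G2) := by ring
    _ ≤ (z3 * z4) * (G1 * G2) := mul_le_mul_of_nonneg_right hcr (mul_nonneg g1 g2)
    _ = (z3 * z4) * (G3 * G4) := by rw [hG]
    _ = z3 * G3 * (z4 * G4) := by ring

end St
end Crest.Agent.R144.Cc169
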