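import Crest.Agent.R144.Cc6_169
import Crest.Agent.R144.Swp_356

/-!
# R144 (CCW, step B), chain of blocks (helper169)

* `pair_le` : contraction on pairs of configurations which both have a barrier;
* `block_step`, `chain` : `|R V f ω - R V f ω'| ≤ R2 V (∏ kp (b i) * |f - f'|) ω ω'`.
-/

set_option autoImplicit false
set_option linter.unusedSectionVars false
set_option linter.unusedSimpArgs false

noncomputable section

namespace Crest.Agent.R144.Cc169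

open Finset
open Crest.Agent.R144.It844 (P2 Lip adj_iff adj_symm lip_iff)
open Crest.ProbabilityR.HexHeights (Adj)
open Crest.Agent.R144.Zg349 Crest.Agent.R144.Zk349 Crest.Agent.R144.Zd349 Crest.Agent.R144.Zm349
open Crest.Agent.R144.Ze349
open Crest.Agent.R144.Cb2169 (Ex Cl Wd mem_Ex mem_Cl mem_Wd Ex_sub Cl_sub R_sub_Ex Ex_sub_Cl Ex_step
  layer_pC Ex_congr adj_of_share mem_D_of_path Stp Apart stepIn_symm rtg_symm rtg_mono)
open Crest.Agent.R144.Swp356 (kap kap_nonneg kap_le_one step)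

/-- contraction factor -/
def kq (p : ℝ) : ℝ := ((p ^ 2)⁻¹ - 1) / ((p ^ 2)⁻¹ + 1)

theorem kq_nonneg {p : ℝ} (h0 : 0 < p) (h1 : p ≤ 1) : 0 ≤ kq p := by
  have : 1 ≤ (p ^ 2)⁻¹ := (one_le_inv₀ (by positivity)).2 (pow_le_one₀ h0.le h1)
  unfold kq
  exact div_nonneg (by linarith) (by linarith)

theorem kq_le_one {p : ℝ} (h0 : 0 < p) : kq p ≤ 1 := by
  have : 0 < (p ^ 2)⁻¹ := by positivity
  unfold kq
  rw [div_le_one (by linarith)]
  linarith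

theorem kq_lt_one {p : ℝ} (h0 : 0 < p) : kq p < 1 := by
  have : 0 < (p ^ 2)⁻¹ := by positivity
  unfold kq
  rw [div_lt_one (by linarith)]
  linarith

namespace St
variable {s : St}

variable (s) in
open Classical in
/-- configurations of the kernel with a barrier -/
def KB (b : Bk) (ω : Cfg) : Finset Cfg := (s.K b.V' ω).filter fun η => s.Bar b η

theorem mem_KB {b : Bk} {ω η : Cfg} : η ∈ s.KB b ω ↔ η ∈ s.K b.V' ω ∧ s.Bar b η := by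
  simp only [KB, Finset.mem_filter]

variable (s) in
/-- outer part -/
def rho (b : Bk) (η : Cfg) : Pt := res (s.Eo b η) η
variable (s) in
/-- inner part -/
def lam (b : Bk) (η : Cfg) : Pt := res (s.Ei b η) η

theorem fb_iff {b : Bk} {η : Cfg} {r l : Pt} : s.Fb b r l η ↔ s.Bar b η ∧ s.rho b η = r ∧ s.lam b η = l :=
  ⟨fun h => ⟨h.bar, h.ro, h.li⟩, fun h => ⟨h.1, h.2.1, h.2.2⟩⟩

/-- sum over fibres -/
theorem fib1 (c : ℝ) {b : Bk} {ω : Cfg} {Rs Ls : Finset Pt} (hR : ∀ η ∈ s.KB b ω, s.rho b η ∈ Rs)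
    (hL : ∀ η ∈ s.KB b ω, s.lam b η ∈ Ls) (φ : Pt → ℝ) :
    ∑ η ∈ s.KB b ω, wt c (s.N ω ∩ b.V') η * φ (s.lam b η) =
      ∑ r ∈ Rs, ∑ l ∈ Ls, s.Sf c b ω r l * φ l := by
  classical
  have h1 : ∀ r l, s.Sf c b ω r l = ∑ η ∈ s.KB b ω,
      if s.rho b η = r ∧ s.lam b η = l then wt c (s.N ω ∩ b.V') η else 0 := by
    intro r l
    unfold Sf
    rw [← Finset.sum_filter]
    refine Finset.sum_congr ?_ fun _ _ => rfl
    ext η
    rw [mem_FK, Finset.mem_filter, mem_KB, fb_iff]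
    tauto
  have h3 : ∀ r l, s.Sf c b ω r l * φ l = ∑ η ∈ s.KB b ω,
      (if s.rho b η = r ∧ s.lam b η = l then wt c (s.N ω ∩ b.V') η * φ l else 0) := by
    intro r l
    rw [h1, Finset.sum_mul]
    refine Finset.sum_congr rfl fun η _ => ?_
    split_ifs <;> simp
  have h2 : ∑ r ∈ Rs, ∑ l ∈ Ls, s.Sf c b ω r l * φ l = ∑ η ∈ s.KB b ω, ∑ r ∈ Rs, ∑ l ∈ Ls,
      (if s.rho b η = r ∧ s.lam b η = l then wt c (s.N ω ∩ b.V') η * φ l else 0) := by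
    calc ∑ r ∈ Rs, ∑ l ∈ Ls, s.Sf c b ω r l * φ l
        = ∑ r ∈ Rs, ∑ l ∈ Ls, ∑ η ∈ s.KB b ω,
          (if s.rho b η = r ∧ s.lam b η = l then wt c (s.N ω ∩ b.V') η * φ l else 0) :=
          Finset.sum_congr rfl fun r _ => Finset.sum_congr rfl fun l _ => h3 r l
      _ = ∑ r ∈ Rs, ∑ η ∈ s.KB b ω, ∑ l ∈ Ls,
          (if s.rho b η = r ∧ s.lam b η = l then wt c (s.N ω ∩ b.V') η * φ l else 0) :=
          Finset.sum_congr rfl fun r _ => Finset.sum_comm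
      _ = _ := Finset.sum_comm
  rw [h2]
  refine Finset.sum_congr rfl fun η hη => ?_
  rw [Finset.sum_eq_single (s.rho b η), Finset.sum_eq_single (s.lam b η)]
  · rw [if_pos ⟨rfl, rfl⟩]
  · intro l _ hne
    rw [if_neg fun h => hne h.2.symm]
  · intro h
    exact absurd (hL η hη) h
  · intro r _ hne
    refine Finset.sum_eq_zero fun l _ => ?_
    rw [if_neg fun h => hne h.1.symm]
  · intro h
    exact absurd (hR η hη) h

theorem fib2 (c : ℝ) {b : Bk} {ω ω' : Cfg} {Rs Ls : Finset Pt} (hR : ∀ η ∈ s.KB b ω, s.rho b η ∈ Rs)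
    (hL : ∀ η ∈ s.KB b ω, s.lam b η ∈ Ls) (hR' : ∀ η ∈ s.KB b ω', s.rho b η ∈ Rs)
    (hL' : ∀ η ∈ s.KB b ω', s.lam b η ∈ Ls) (φ : Pt → Pt → ℝ) :
    ∑ η ∈ s.KB b ω, ∑ η' ∈ s.KB b ω', wt c (s.N ω ∩ b.V') η * wt c (s.N ω' ∩ b.V') η' *
      φ (s.lam b η) (s.lam b η') =
      ∑ r ∈ Rs, ∑ r' ∈ Rs, ∑ l ∈ Ls, ∑ l' ∈ Ls, s.Sf c b ω r l * s.Sf c b ω' r' l' * φ l l' := by
  have h1 : ∀ η ∈ s.KB b ω, ∑ η' ∈ s.KB b ω', wt c (s.N ω ∩ b.V') η * wt c (s.N ω' ∩ b.V') η' *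
      φ (s.lam b η) (s.lam b η') =
      wt c (s.N ω ∩ b.V') η * (fun l => ∑ r' ∈ Rs, ∑ l' ∈ Ls, s.Sf c b ω' r' l' * φ l l') (s.lam b η) := by
    intro η _
    show _ = wt c (s.N ω ∩ b.V') η * (∑ r' ∈ Rs, ∑ l' ∈ Ls, s.Sf c b ω' r' l' * φ (s.lam b η) l')
    rw [← fib1 c hR' hL' (φ (s.lam b η)), Finset.mul_sum]
    exact Finset.sum_congr rfl fun _ _ => by ring
  rw [Finset.sum_congr rfl h1, fib1 c hR hL (fun l => ∑ r' ∈ Rs, ∑ l' ∈ Ls, s.Sf c b ω' r' l' * φ l l')]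
  refine Finset.sum_congr rfl fun r _ => ?_
  rw [Finset.sum_comm]
  refine Finset.sum_congr rfl fun l _ => ?_
  rw [Finset.mul_sum]
  refine Finset.sum_congr rfl fun r' _ => ?_
  rw [Finset.mul_sum]
  exact Finset.sum_congr rfl fun _ _ => by ring

/-- **contraction on pairs with two barriers** -/
theorem pair_le {c : ℝ} (hc : 1 ≤ c) {b : Bk} (hb : s.BkOK b) {ω ω' : Cfg} (aω : s.Adm ω)
    (aω' : s.Adm ω') (h0 : s.Eq0 ω ω') (hg : s.Gd b ω) {p : ℝ} (hp0 : 0 < p) (hp1 : p ≤ 1)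
    (hp : s.PB c p b ω) (F G : Pt → Pt → ℝ) (hF : ∀ l l', F l' l = - F l l')
    (hG : ∀ l l', G l' l = G l l') (hFG : ∀ l l', |F l l'| ≤ G l l') :
    |∑ η ∈ s.KB b ω, ∑ η' ∈ s.KB b ω', wt c (s.N ω ∩ b.V') η * wt c (s.N ω' ∩ b.V') η' *
      F (s.lam b η) (s.lam b η')| ≤
    kq p * ∑ η ∈ s.KB b ω, ∑ η' ∈ s.KB b ω', wt c (s.N ω ∩ b.V') η * wt c (s.N ω' ∩ b.V') η' *
      G (s.lam b η) (s.lam b η') := by
  classical
  set Rs : Finset Pt := (s.KB b ω).image (s.rho b) ∪ (s.KB b ω').image (s.rho b) with hRs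
  set Ls : Finset Pt := (s.KB b ω).image (s.lam b) ∪ (s.KB b ω').image (s.lam b) with hLs
  have hR : ∀ η ∈ s.KB b ω, s.rho b η ∈ Rs := fun η h =>
    Finset.mem_union_left _ (Finset.mem_image_of_mem _ h)
  have hL : ∀ η ∈ s.KB b ω, s.lam b η ∈ Ls := fun η h =>
    Finset.mem_union_left _ (Finset.mem_image_of_mem _ h)
  have hR' : ∀ η ∈ s.KB b ω', s.rho b η ∈ Rs := fun η h =>
    Finset.mem_union_right _ (Finset.mem_image_of_mem _ h)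
  have hL' : ∀ η ∈ s.KB b ω', s.lam b η ∈ Ls := fun η h =>
    Finset.mem_union_right _ (Finset.mem_image_of_mem _ h)
  rw [fib2 c hR hL hR' hL' F, fib2 c hR hL hR' hL' G, Finset.mul_sum]
  refine (Finset.abs_sum_le_sum_abs _ _).trans (Finset.sum_le_sum fun r _ => ?_)
  rw [Finset.mul_sum]
  refine (Finset.abs_sum_le_sum_abs _ _).trans (Finset.sum_le_sum fun r' _ => ?_)
  have hC : 1 ≤ (p ^ 2)⁻¹ := (one_le_inv₀ (by positivity)).2 (pow_le_one₀ hp0.le hp1)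
  have hp2 : 0 < p ^ 2 := by positivity
  -- apply the one block lemma on the finite type `Ls`
  have key := step (S := Bool) (T := {l // l ∈ Ls})
    (fun e l => if e then s.Sf c b ω' r' l.1 else s.Sf c b ω r l.1) (fun _ => 1)
    (fun e e' _ _ => e = false ∧ e' = true)
    (fun e l => by
      cases e
      · exact Sf_nonneg hc _ _ _ _
      · exact Sf_nonneg hc _ _ _ _)
    (fun _ => zero_le_one) hC (fun _ _ _ _ h => h)
    (fun e e' l l' h => by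
      rw [h.1, h.2]
      simp only [Bool.false_eq_true, if_false, if_true]
      have := sf_cross hc hb aω aω' h0 hg hp0.le hp r l.1 r' l'.1
      rw [← div_eq_inv_mul, le_div_iff₀ hp2]
      linarith)
    (fun l l' => F l.1 l'.1) (fun l l' => G l.1 l'.1) (fun _ _ => hF _ _) (fun _ _ => hG _ _)
    (fun _ _ => hFG _ _) false true
  simp only [Bool.false_eq_true, if_false, if_true, mul_one] at key
  have kk : ∀ (Q : Prop) [Decidable Q], Q → kap (p ^ 2)⁻¹ Q = kq p := by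
    intro Q _ h
    unfold kap kq
    rw [if_pos h]
  have e1 : ∀ Q : Pt → Pt → ℝ, ∑ l ∈ Ls, ∑ l' ∈ Ls, s.Sf c b ω r l * s.Sf c b ω' r' l' * Q l l' =
      ∑ l : {l // l ∈ Ls}, ∑ l' : {l // l ∈ Ls}, s.Sf c b ω r l.1 * s.Sf c b ω' r' l'.1 * Q l.1 l'.1 := by
    intro Q
    rw [← Finset.sum_coe_sort Ls]
    refine Finset.sum_congr rfl fun l _ => ?_
    rw [← Finset.sum_coe_sort Ls]
  rw [e1, e1]
  refine key.trans (le_of_eq ?_)
  rw [Finset.mul_sum]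
  refine Finset.sum_congr rfl fun l _ => ?_
  rw [Finset.mul_sum]
  refine Finset.sum_congr rfl fun l' _ => ?_
  rw [kk _ ⟨trivial, trivial⟩]
  ring

/-! ### invariance of the barrier event -/

/-- the barrier event is constant on the kernels of `V` -/
theorem bar_K {b : Bk} (hb : s.BkOK b) {ξ ζ : Cfg} (h : ζ ∈ s.K b.V ξ) (hB : s.Bar b ξ) : s.Bar b ζ := by
  obtain ⟨_, k2, k3, hX⟩ := s.mem_K0.1 (s.mem_K.1 h).1
  have hN := s.N_congr hX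
  have hpC : ∀ t ∈ s.N ξ \ b.V, (pC ξ t ↔ pC ζ t) := by
    intro t ht
    unfold pC
    rw [k3 t (fun h' => (Finset.mem_sdiff.1 ht).2 (Finset.mem_inter.1 h').2),
      k2 t (fun h' => ((s.mem_Fr).1 h').2.2 (mem_VF_of ht (base_mem_up t)))]
  have hEo : s.Eo b ζ = s.Eo b ξ := by
    unfold Eo
    rw [hN]
    refine Ex_congr Finset.sdiff_subset fun t ht => hpC t (Finset.mem_sdiff.2 ⟨Cl_sub _ _ ht, fun h' => ?_⟩)
    exact Finset.disjoint_left.1 hB.1 ht (hb.i3 (hb.i2 (hb.i1 h')))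
  have hEi : s.Ei b ζ = s.Ei b ξ := by
    unfold Ei
    rw [hN]
    refine Ex_congr' Finset.inter_subset_left fun t ht ht' => hpC t (Finset.mem_sdiff.2 ⟨Cl_sub _ _ ht, ?_⟩)
    exact fun h' => ht' (Finset.mem_inter.2 ⟨Cl_sub _ _ ht, h'⟩)
  unfold Bar
  rw [hEo, hEi, hN]
  exact hB

theorem bar_K_iff {b : Bk} (hb : s.BkOK b) {ξ ζ : Cfg} (aξ : s.Adm ξ) (h : ζ ∈ s.K b.V ξ) :
    s.Bar b ζ ↔ s.Bar b ξ :=
  ⟨bar_K hb (s.K_symm aξ h), bar_K hb h⟩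

/-- the barrier event is seen inside `V ⊇ V'` -/
theorem bar_gl {b : Bk} (hb : s.BkOK b) {V : Finset P2} (hV : b.V' ⊆ V) (hVG : V ⊆ s.G) {ξ η : Cfg}
    (aξ : s.Adm ξ) (aη : s.Adm η) (h0 : s.Eq0 η ξ) (hc : s.Cpt V ξ η) :
    s.Bar b (s.gl V ξ η) ↔ s.Bar b ξ := by
  have hX : s.X (s.gl V ξ η) = s.X ξ := (X_gl h0 aξ aη).trans h0.X.symm
  have hN : s.N (s.gl V ξ η) = s.N ξ := s.N_congr hX
  have hNN : s.N ξ = s.N η := h0.N
  have hpC : ∀ t ∈ s.N ξ ∩ V, (pC ξ t ↔ pC (s.gl V ξ η) t) := by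
    intro t ht
    rw [hNN] at ht
    unfold pC
    rw [gl_z ht, gl_in hVG h0 hc (mem_VF_of ht (base_mem_up t))]
  have hVi : b.Vi ⊆ V := ((hb.i2.trans hb.i3).trans hb.i4).trans hV
  have hEo : s.Eo b (s.gl V ξ η) = s.Eo b ξ := by
    unfold Eo
    rw [hN]
    refine Ex_congr' Finset.sdiff_subset fun t ht ht' => hpC t (Finset.mem_inter.2 ⟨Cl_sub _ _ ht, hV ?_⟩)
    by_contra h'
    exact ht' (Finset.mem_sdiff.2 ⟨Cl_sub _ _ ht, h'⟩)
  have hEi : s.Bar b ξ → s.Ei b (s.gl V ξ η) = s.Ei b ξ := by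
    intro hB
    unfold Ei
    rw [hN]
    exact Ex_congr Finset.inter_subset_left fun t ht =>
      hpC t (Finset.mem_inter.2 ⟨Cl_sub _ _ ht, hVi (hB.2 ht)⟩)
  have hEi' : s.Bar b (s.gl V ξ η) → s.Ei b ξ = s.Ei b (s.gl V ξ η) := by
    intro hB
    have h2 := hB.2
    unfold Ei at h2 ⊢
    rw [hN] at h2 ⊢
    exact Ex_congr Finset.inter_subset_left fun t ht =>
      (hpC t (Finset.mem_inter.2 ⟨Cl_sub _ _ ht, hVi (h2 ht)⟩)).symm
  constructor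
  · intro hB
    have h1 := hEi' hB
    unfold Bar at *
    rw [h1, ← hEo, ← hN]
    exact hB
  · intro hB
    have h1 := hEi hB
    unfold Bar at *
    rw [h1, hEo, hN]
    exact hB

theorem gd_gl {b : Bk} {V : Finset P2} {ξ η : Cfg} (aξ : s.Adm ξ) (aη : s.Adm η) (h0 : s.Eq0 η ξ) :
    s.Gd b (s.gl V ξ η) ↔ s.Gd b ξ := by
  have hX : s.X (s.gl V ξ η) = s.X ξ := (X_gl h0 aξ aη).trans h0.X.symm
  exact ⟨gd_congr hX.symm, gd_congr hX⟩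

/-- monotonicity of locality -/
theorem LocV.mono {V V' : Finset P2} (hV : V ⊆ V') (hVG : V' ⊆ s.G) {f : Cfg → ℝ} (h : s.LocV V f) :
    s.LocV V' f := by
  intro ξ η aξ aη h0 hc
  have e0 : s.Eq0 (s.gl V' ξ η) ξ := by
    have := eq0_of_K (gl_mem hVG h0 hc aξ aη)
    exact this.symm.trans h0
  have hN : s.N (s.gl V' ξ η) = s.N η := s.N_congr (X_gl h0 aξ aη)
  have hX : s.X (s.gl V' ξ η) = s.X η := X_gl h0 aξ aη
  have e1 : s.Cpt V ξ (s.gl V' ξ η) := by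
    intro v h1 _
    rw [hN] at h1
    exact (gl_in hVG h0 hc (VF_mono (Finset.inter_subset_inter_left hV) h1)).symm
  have e2 : s.gl V ξ (s.gl V' ξ η) = s.gl V' ξ η := by
    refine Prod.ext ?_ ?_
    · funext v
      by_cases hv : v ∈ s.Fr V (s.gl V' ξ η)
      · rw [gl_fr hv]
        rw [s.Fr_congr hX] at hv
        exact (gl_fr (s.Fr_mono hV η hv)).symm
      · rw [gl_nfr hv]
    · funext t
      by_cases ht : t ∈ s.N (s.gl V' ξ η) ∩ V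
      · rw [gl_z ht]
        rw [hN] at ht
        exact (gl_z (Finset.inter_subset_inter_left hV ht)).symm
      · rw [gl_z' ht]
  have := h ξ (s.gl V' ξ η) aξ (gl_adm hVG h0 hc aξ aη) e0 e1
  rw [e2] at this
  exact this

/-! ### block step -/

variable (s) in
open Classical in
/-- contraction factor of a pair at a block -/
def kp (p : ℝ) (b : Bk) (ξ ξ' : Cfg) : ℝ := if (s.Gd b ξ ∧ s.Gd b ξ') ∧ (s.Bar b ξ ∧ s.Bar b ξ') then kq p else 1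

/-- two-variable locality and symmetry -/
structure Loc2 (s : St) (V : Finset P2) (H : Cfg → Cfg → ℝ) : Prop where
  l1 : ∀ ξ', s.LocV V fun ξ => H ξ ξ'
  symm : ∀ ξ ξ', H ξ ξ' = H ξ' ξ

theorem R2_symm (c : ℝ) {V : Finset P2} {H : Cfg → Cfg → ℝ} (hH : ∀ ξ ξ', H ξ ξ' = H ξ' ξ) (ω ω' : Cfg) :
    s.R2 c V H ω ω' = s.R2 c V H ω' ω := by
  unfold R2
  rw [R_comm c V V (fun ξ ξ' => H ξ ξ') ω ω']
  refine R_congr c fun ξ _ => R_congr c fun ξ' _ => hH _ _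

theorem R2_loc {c : ℝ} {V : Finset P2} (hV : V ⊆ s.G) {H : Cfg → Cfg → ℝ} (hH : s.Loc2 V H)
    {η η2 η' η2' : Cfg} (a : s.Adm η) (a2 : s.Adm η2) (h0 : s.Eq0 η η2) (hc : s.Cpt V η η2)
    (a' : s.Adm η') (a2' : s.Adm η2') (h0' : s.Eq0 η' η2') (hc' : s.Cpt V η' η2') :
    s.R2 c V H η η' = s.R2 c V H η2 η2' := by
  have key : ∀ {η η2 : Cfg} (η' : Cfg), s.Adm η → s.Adm η2 → s.Eq0 η η2 → s.Cpt V η η2 →
      s.R2 c V H η η' = s.R2 c V H η2 η' := by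
    intro η η2 η' a a2 h0 hc
    unfold R2
    refine R_loc hV a a2 h0 hc fun ξ ζ aξ aζ e0 ec => ?_
    refine R_congr c fun ξ' _ => ?_
    exact hH.l1 ξ' ξ ζ aξ aζ e0 ec
  rw [key η' a a2 h0 hc, R2_symm c hH.symm, key η2 a' a2' h0' hc', R2_symm c hH.symm]

theorem lam_cpt {b : Bk} {η η2 : Cfg} (h0 : s.Eq0 η η2) (h : s.lam b η = s.lam b η2) :
    s.Cpt b.V η η2 := by
  obtain ⟨e1, e2, _⟩ := of_res_eq h
  intro v h1 _
  refine e2 v ?_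
  rw [e1]
  exact VF_mono (R_sub_Ex (ω := η2) Finset.inter_subset_left) h1

theorem lift_step {c : ℝ} (hc : 1 ≤ c) {V V' : Finset P2} (hV : V ⊆ V') {f : Cfg → ℝ}
    {H : Cfg → Cfg → ℝ} (hyp : ∀ η η', s.Adm η → s.Adm η' → s.Eq0 η η' →
      |s.R c V f η - s.R c V f η'| ≤ s.R2 c V H η η') {ω ω' : Cfg} (aω : s.Adm ω) (aω' : s.Adm ω')
    (h0 : s.Eq0 ω ω') : |s.R c V' f ω - s.R c V' f ω'| ≤ s.R2 c V' H ω ω' := by
  rw [← R_tower hc hV f aω, ← R_tower hc hV f aω', ← R2_sub_eq hc (s.R c V f) aω aω']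
  refine (R2_abs hc aω aω').trans ?_
  rw [← R2_tower hc hV H aω aω']
  exact R2_mono hc aω aω' fun ξ hξ ξ' hξ' => hyp ξ ξ' (s.adm_of_K hξ) (s.adm_of_K hξ') (eq0_pair h0 hξ hξ')

theorem R2_eq (c : ℝ) (V : Finset P2) (H : Cfg → Cfg → ℝ) (ω ω' : Cfg) :
    s.R2 c V H ω ω' = (∑ ξ ∈ s.K V ω, ∑ ξ' ∈ s.K V ω', wt c (s.N ω ∩ V) ξ * wt c (s.N ω' ∩ V) ξ' *
      H ξ ξ') / (s.W c V ω * s.W c V ω') := by
  unfold R2 R
  have : ∀ ξ ∈ s.K V ω, wt c (s.N ω ∩ V) ξ * ((∑ ξ' ∈ s.K V ω', wt c (s.N ω' ∩ V) ξ' * H ξ ξ') /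
      s.W c V ω') = (∑ ξ' ∈ s.K V ω', wt c (s.N ω ∩ V) ξ * wt c (s.N ω' ∩ V) ξ' * H ξ ξ') /
      s.W c V ω' := by
    intro ξ _
    rw [mul_div_assoc', Finset.mul_sum]
    congr 1
    exact Finset.sum_congr rfl fun _ _ => by ring
  rw [Finset.sum_congr rfl this, ← Finset.sum_div, div_div, mul_comm (s.W c V ω') _]

theorem block_step {c : ℝ} (hc : 1 ≤ c) {b : Bk} (hb : s.BkOK b) {p : ℝ} (hp0 : 0 < p) (hp1 : p ≤ 1)
    (hp : ∀ ω, s.Adm ω → s.Gd b ω → s.PB c p b ω) {f : Cfg → ℝ} (hf : s.LocV b.V f)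
    {H : Cfg → Cfg → ℝ} (hH : s.Loc2 b.V H)
    (hyp : ∀ η η', s.Adm η → s.Adm η' → s.Eq0 η η' →
      |s.R c b.V f η - s.R c b.V f η'| ≤ s.R2 c b.V H η η') {ω ω' : Cfg} (aω : s.Adm ω)
    (aω' : s.Adm ω') (h0 : s.Eq0 ω ω') :
    |s.R c b.V' f ω - s.R c b.V' f ω'| ≤ s.R2 c b.V' (fun ξ ξ' => s.kp p b ξ ξ' * H ξ ξ') ω ω' := by
  classical
  have hVV : b.V ⊆ b.V' := ((hb.i1.trans hb.i2).trans hb.i3).trans hb.i4
  have hVG : b.V ⊆ s.G := hVV.trans hb.i5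
  by_cases hg : s.Gd b ω
  swap
  · have h1 := lift_step hc hVV hyp aω aω' h0
    refine h1.trans (le_of_eq ?_)
    refine R2_congr c fun ξ hξ ξ' _ => ?_
    have : ¬ s.Gd b ξ := fun h => hg (gd_congr (s.X_of_K hξ).symm h)
    unfold kp
    rw [if_neg fun h => this h.1.1, one_mul]
  -- representatives
  let P : Pt → Prop := fun l => ∃ η, s.Adm η ∧ s.Eq0 ω η ∧ s.Bar b η ∧ s.lam b η = l
  let rp : Pt → Cfg := fun l => if h : P l then h.choose else ω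
  have hrp : ∀ l, P l → s.Adm (rp l) ∧ s.Eq0 ω (rp l) ∧ s.Bar b (rp l) ∧ s.lam b (rp l) = l := by
    intro l h
    have : rp l = h.choose := dif_pos h
    rw [this]
    exact h.choose_spec
  let Fq : Pt → Pt → ℝ := fun l l' =>
    if P l ∧ P l' then s.R c b.V f (rp l) - s.R c b.V f (rp l') else 0
  let Gq : Pt → Pt → ℝ := fun l l' => if P l ∧ P l' then s.R2 c b.V H (rp l) (rp l') else 0
  have hPK : ∀ η ∈ s.KB b ω, P (s.lam b η) := fun η h =>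
    ⟨η, s.adm_of_K (mem_KB.1 h).1, eq0_of_K (mem_KB.1 h).1, (mem_KB.1 h).2, rfl⟩
  have hPK' : ∀ η ∈ s.KB b ω', P (s.lam b η) := fun η h =>
    ⟨η, s.adm_of_K (mem_KB.1 h).1, h0.trans (eq0_of_K (mem_KB.1 h).1), (mem_KB.1 h).2, rfl⟩
  have main := pair_le hc hb aω aω' h0 hg hp0 hp1 (hp ω aω hg) Fq Gq
    (fun l l' => by
      simp only [Fq]
      by_cases h : P l ∧ P l'
      · rw [if_pos h, if_pos h.symm]; ring
      · rw [if_neg h, if_neg fun h' => h h'.symm]; ring)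
    (fun l l' => by
      simp only [Gq]
      by_cases h : P l ∧ P l'
      · rw [if_pos h, if_pos h.symm]; exact R2_symm c hH.symm _ _
      · rw [if_neg h, if_neg fun h' => h h'.symm])
    (fun l l' => by
      simp only [Fq, Gq]
      by_cases h : P l ∧ P l'
      · rw [if_pos h, if_pos h]
        obtain ⟨a1, a2, _, _⟩ := hrp l h.1
        obtain ⟨b1, b2, _, _⟩ := hrp l' h.2
        exact hyp _ _ a1 b1 (a2.symm.trans b2)
      · rw [if_neg h, if_neg h, abs_zero])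
  have loc : ∀ η, s.Adm η → s.Eq0 ω η → P (s.lam b η) →
      s.Eq0 (rp (s.lam b η)) η ∧ s.Cpt b.V (rp (s.lam b η)) η ∧ s.Adm (rp (s.lam b η)) := by
    intro η _ e h
    obtain ⟨a1, a2, _, a4⟩ := hrp _ h
    exact ⟨a2.symm.trans e, lam_cpt (a2.symm.trans e) a4, a1⟩
  have eF : ∀ η ∈ s.KB b ω, ∀ η' ∈ s.KB b ω', Fq (s.lam b η) (s.lam b η') =
      s.R c b.V f η - s.R c b.V f η' := by
    intro η hη η' hη'
    have h1 := hPK η hη
    have h2 := hPK' η' hη'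
    have aη := s.adm_of_K (mem_KB.1 hη).1
    have aη' := s.adm_of_K (mem_KB.1 hη').1
    obtain ⟨l1, l2, l3⟩ := loc η aη (eq0_of_K (mem_KB.1 hη).1) h1
    obtain ⟨m1, m2, m3⟩ := loc η' aη' (h0.trans (eq0_of_K (mem_KB.1 hη').1)) h2
    simp only [Fq]
    rw [if_pos ⟨h1, h2⟩, R_loc hVG l3 aη l1 l2 hf, R_loc hVG m3 aη' m1 m2 hf]
  have eG : ∀ η ∈ s.KB b ω, ∀ η' ∈ s.KB b ω', Gq (s.lam b η) (s.lam b η') =
      s.R2 c b.V H η η' := by
    intro η hη η' hη'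
    have h1 := hPK η hη
    have h2 := hPK' η' hη'
    have aη := s.adm_of_K (mem_KB.1 hη).1
    have aη' := s.adm_of_K (mem_KB.1 hη').1
    obtain ⟨l1, l2, l3⟩ := loc η aη (eq0_of_K (mem_KB.1 hη).1) h1
    obtain ⟨m1, m2, m3⟩ := loc η' aη' (h0.trans (eq0_of_K (mem_KB.1 hη').1)) h2
    simp only [Gq]
    rw [if_pos ⟨h1, h2⟩, R2_loc hVG hH l3 aη l1 l2 m3 aη' m1 m2]
  have main' : |∑ η ∈ s.KB b ω, ∑ η' ∈ s.KB b ω', wt c (s.N ω ∩ b.V') η * wt c (s.N ω' ∩ b.V') η' *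
      (s.R c b.V f η - s.R c b.V f η')| ≤
      kq p * ∑ η ∈ s.KB b ω, ∑ η' ∈ s.KB b ω', wt c (s.N ω ∩ b.V') η * wt c (s.N ω' ∩ b.V') η' *
      s.R2 c b.V H η η' := by
    have e1 : ∑ η ∈ s.KB b ω, ∑ η' ∈ s.KB b ω', wt c (s.N ω ∩ b.V') η * wt c (s.N ω' ∩ b.V') η' *
      (s.R c b.V f η - s.R c b.V f η') = ∑ η ∈ s.KB b ω, ∑ η' ∈ s.KB b ω',
        wt c (s.N ω ∩ b.V') η * wt c (s.N ω' ∩ b.V') η' * Fq (s.lam b η) (s.lam b η') :=
      Finset.sum_congr rfl fun η hη => Finset.sum_congr rfl fun η' hη' => by rw [eF η hη η' hη']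
    have e2 : ∑ η ∈ s.KB b ω, ∑ η' ∈ s.KB b ω', wt c (s.N ω ∩ b.V') η * wt c (s.N ω' ∩ b.V') η' *
      s.R2 c b.V H η η' = ∑ η ∈ s.KB b ω, ∑ η' ∈ s.KB b ω',
        wt c (s.N ω ∩ b.V') η * wt c (s.N ω' ∩ b.V') η' * Gq (s.lam b η) (s.lam b η') :=
      Finset.sum_congr rfl fun η hη => Finset.sum_congr rfl fun η' hη' => by rw [eG η hη η' hη']
    rw [e1, e2]
    exact main
  -- rewrite both sides
  rw [← R_tower hc hVV f aω, ← R_tower hc hVV f aω', ← R2_sub_eq hc (s.R c b.V f) aω aω',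
    ← R2_tower hc hVV (fun ξ ξ' => s.kp p b ξ ξ' * H ξ ξ') aω aω']
  have hkp : s.R2 c b.V' (s.R2 c b.V (fun ξ ξ' => s.kp p b ξ ξ' * H ξ ξ')) ω ω' =
      s.R2 c b.V' (fun ξ ξ' => s.kp p b ξ ξ' * s.R2 c b.V H ξ ξ') ω ω' := by
    refine R2_congr c fun ξ hξ ξ' hξ' => ?_
    rw [← R2_smul]
    refine R2_congr c fun ζ hζ ζ' hζ' => ?_
    have e1 := bar_K_iff hb (s.adm_of_K hξ) hζ
    have e2 := bar_K_iff hb (s.adm_of_K hξ') hζ'
    have e3 : s.Gd b ζ ↔ s.Gd b ξ := ⟨gd_congr (s.X_of_K hζ).symm, gd_congr (s.X_of_K hζ)⟩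
    have e4 : s.Gd b ζ' ↔ s.Gd b ξ' := ⟨gd_congr (s.X_of_K hζ').symm, gd_congr (s.X_of_K hζ')⟩
    unfold kp
    simp only [e1, e2, e3, e4]
  rw [hkp, R2_eq, R2_eq, abs_div]
  have hW : 0 < s.W c b.V' ω * s.W c b.V' ω' := mul_pos (W_pos hc aω) (W_pos hc aω')
  rw [abs_of_pos hW]
  refine div_le_div_of_nonneg_right ?_ hW.le
  -- split
  have split : ∀ Q : Cfg → Cfg → ℝ, ∑ ξ ∈ s.K b.V' ω, ∑ ξ' ∈ s.K b.V' ω', Q ξ ξ' =
      (∑ ξ ∈ s.KB b ω, ∑ ξ' ∈ s.KB b ω', Q ξ ξ') +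
      ∑ ξ ∈ s.K b.V' ω, ∑ ξ' ∈ s.K b.V' ω', if s.Bar b ξ ∧ s.Bar b ξ' then 0 else Q ξ ξ' := by
    intro Q
    have h1 : ∑ ξ ∈ s.KB b ω, ∑ ξ' ∈ s.KB b ω', Q ξ ξ' =
        ∑ ξ ∈ s.K b.V' ω, ∑ ξ' ∈ s.K b.V' ω', if s.Bar b ξ ∧ s.Bar b ξ' then Q ξ ξ' else 0 := by
      unfold KB
      rw [Finset.sum_filter]
      refine Finset.sum_congr rfl fun ξ _ => ?_
      by_cases h : s.Bar b ξ
      · rw [if_pos h, Finset.sum_filter]
        refine Finset.sum_congr rfl fun ξ' _ => ?_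
        simp only [h, true_and]
      · rw [if_neg h]
        simp only [h, false_and, if_false, Finset.sum_const_zero]
    rw [h1, ← Finset.sum_add_distrib]
    refine Finset.sum_congr rfl fun ξ _ => ?_
    rw [← Finset.sum_add_distrib]
    refine Finset.sum_congr rfl fun ξ' _ => ?_
    split_ifs <;> simp
  rw [split, split (fun ξ ξ' => wt c (s.N ω ∩ b.V') ξ * wt c (s.N ω' ∩ b.V') ξ' *
    (s.kp p b ξ ξ' * s.R2 c b.V H ξ ξ'))]
  refine (abs_add_le _ _).trans (add_le_add ?_ ?_)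
  · refine main'.trans (le_of_eq ?_)
    rw [Finset.mul_sum]
    refine Finset.sum_congr rfl fun ξ hξ => ?_
    rw [Finset.mul_sum]
    refine Finset.sum_congr rfl fun ξ' hξ' => ?_
    have : s.kp p b ξ ξ' = kq p := by
      unfold kp
      rw [if_pos ⟨⟨gd_congr (s.X_of_K (mem_KB.1 hξ).1) hg,
        gd_congr ((s.X_of_K (mem_KB.1 hξ').1).trans h0.X) hg⟩, (mem_KB.1 hξ).2, (mem_KB.1 hξ').2⟩]
    rw [this]
    ring
  · refine (Finset.abs_sum_le_sum_abs _ _).trans (Finset.sum_le_sum fun ξ hξ => ?_)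
    refine (Finset.abs_sum_le_sum_abs _ _).trans (Finset.sum_le_sum fun ξ' hξ' => ?_)
    by_cases h : s.Bar b ξ ∧ s.Bar b ξ'
    · rw [if_pos h, if_pos h, abs_zero]
    · rw [if_neg h, if_neg h]
      have : s.kp p b ξ ξ' = 1 := by
        unfold kp
        rw [if_neg fun h' => h h'.2]
      have hw : 0 ≤ wt c (s.N ω ∩ b.V') ξ * wt c (s.N ω' ∩ b.V') ξ' :=
        mul_nonneg (wt_nonneg hc _ _) (wt_nonneg hc _ _)
      rw [this, one_mul, abs_mul, abs_of_nonneg hw]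
      exact mul_le_mul_of_nonneg_left
        (hyp ξ ξ' (s.adm_of_K hξ) (s.adm_of_K hξ') (eq0_pair h0 hξ hξ')) hw

/-! ### chain -/

variable (s) in
/-- product of the contraction factors of the first blocks -/
def Kp (p : ℝ) (b : ℕ → Bk) (m : ℕ) (ξ ξ' : Cfg) : ℝ := ∏ i ∈ Finset.range m, s.kp p (b i) ξ ξ'

theorem kp_symm {p : ℝ} {b : Bk} (ξ ξ' : Cfg) : s.kp p b ξ ξ' = s.kp p b ξ' ξ := by
  unfold kp
  by_cases h1 : (s.Gd b ξ ∧ s.Gd b ξ') ∧ (s.Bar b ξ ∧ s.Bar b ξ')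
  · rw [if_pos h1, if_pos ⟨⟨h1.1.2, h1.1.1⟩, h1.2.2, h1.2.1⟩]
  · rw [if_neg h1, if_neg fun h2 => h1 ⟨⟨h2.1.2, h2.1.1⟩, h2.2.2, h2.2.1⟩]

theorem kp_nonneg {p : ℝ} (h0 : 0 < p) (h1 : p ≤ 1) (b : Bk) (ξ ξ' : Cfg) : 0 ≤ s.kp p b ξ ξ' := by
  unfold kp
  split_ifs
  · exact kq_nonneg h0 h1
  · exact zero_le_one

theorem Kp_nonneg {p : ℝ} (h0 : 0 < p) (h1 : p ≤ 1) (b : ℕ → Bk) (m : ℕ) (ξ ξ' : Cfg) :
    0 ≤ s.Kp p b m ξ ξ' := Finset.prod_nonneg fun _ _ => kp_nonneg h0 h1 _ _ _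

theorem Kp_symm {p : ℝ} (b : ℕ → Bk) (m : ℕ) (ξ ξ' : Cfg) : s.Kp p b m ξ ξ' = s.Kp p b m ξ' ξ :=
  Finset.prod_congr rfl fun _ _ => kp_symm ξ ξ'

/-- hypotheses on the chain of blocks -/
structure Chain (s : St) (c p : ℝ) (b : ℕ → Bk) (m : ℕ) (V0 : Finset P2) : Prop where
  ok : ∀ i < m, s.BkOK (b i)
  nest : ∀ i j, i < j → j < m → (b i).V' ⊆ (b j).V
  start : ∀ i < m, V0 ⊆ (b i).V
  pb : ∀ i < m, ∀ ω, s.Adm ω → s.Gd (b i) ω → s.PB c p (b i) ω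

theorem chain {c : ℝ} (hc : 1 ≤ c) {p : ℝ} (hp0 : 0 < p) (hp1 : p ≤ 1) {b : ℕ → Bk} {V0 : Finset P2}
    {f : Cfg → ℝ} (hf : s.LocV V0 f) (m : ℕ) (hb : Chain s c p b m V0) :
    ∀ V, (∀ i < m, (b i).V' ⊆ V) → V0 ⊆ V → V ⊆ s.G → ∀ ω ω', s.Adm ω → s.Adm ω' → s.Eq0 ω ω' →
      |s.R c V f ω - s.R c V f ω'| ≤ s.R2 c V (fun ξ ξ' => s.Kp p b m ξ ξ' * |f ξ - f ξ'|) ω ω' := by
  induction m with
  | zero =>
    intro V _ _ _ ω ω' aω aω' _
    rw [← R2_sub_eq hc f aω aω']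
    refine (R2_abs hc aω aω').trans (le_of_eq ?_)
    refine R2_congr c fun ξ _ ξ' _ => ?_
    simp [Kp]
  | succ m ih =>
    intro V hV hV0 hVG ω ω' aω aω' h0
    have hb' : Chain s c p b m V0 := ⟨fun i hi => hb.ok i (by omega), fun i j hij hj => hb.nest i j hij (by omega),
      fun i hi => hb.start i (by omega), fun i hi => hb.pb i (by omega)⟩
    have ok := hb.ok m (Nat.lt_succ_self m)
    have hVV : (b m).V ⊆ (b m).V' := ((ok.i1.trans ok.i2).trans ok.i3).trans ok.i4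
    have hst := hb.start m (Nat.lt_succ_self m)
    have hmG : (b m).V ⊆ s.G := hVV.trans ok.i5
    have h1 := ih hb' (b m).V (fun i hi => hb.nest i m hi (Nat.lt_succ_self m)) hst hmG
    have hfV : s.LocV (b m).V f := hf.mono hst hmG
    have hH : s.Loc2 (b m).V (fun ξ ξ' => s.Kp p b m ξ ξ' * |f ξ - f ξ'|) := by
      refine ⟨fun ξ' ξ η aξ aη e0 ec => ?_, fun ξ ξ' => ?_⟩
      · simp only
        rw [hfV ξ η aξ aη e0 ec]
        congr 1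
        refine Finset.prod_congr rfl fun i hi => ?_
        have hi' := Finset.mem_range.1 hi
        have hbi := hb.ok i (by omega)
        have e1 := bar_gl hbi (hb.nest i m hi' (Nat.lt_succ_self m)) hmG aξ aη e0 ec
        have e2 := gd_gl (b := b i) (V := (b m).V) aξ aη e0
        show s.kp p (b i) (s.gl (b m).V ξ η) ξ' = s.kp p (b i) ξ ξ'
        unfold kp
        by_cases h3 : (s.Gd (b i) ξ ∧ s.Gd (b i) ξ') ∧ (s.Bar (b i) ξ ∧ s.Bar (b i) ξ')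
        · rw [if_pos h3, if_pos ⟨⟨e2.2 h3.1.1, h3.1.2⟩, e1.2 h3.2.1, h3.2.2⟩]
        · rw [if_neg h3, if_neg fun h4 => h3 ⟨⟨e2.1 h4.1.1, h4.1.2⟩, e1.1 h4.2.1, h4.2.2⟩]
      · show s.Kp p b m ξ ξ' * |f ξ - f ξ'| = s.Kp p b m ξ' ξ * |f ξ' - f ξ|
        rw [Kp_symm, abs_sub_comm]
    have h2 : ∀ η η', s.Adm η → s.Adm η' → s.Eq0 η η' →
        |s.R c (b m).V' f η - s.R c (b m).V' f η'| ≤
          s.R2 c (b m).V' (fun ξ ξ' => s.kp p (b m) ξ ξ' * (s.Kp p b m ξ ξ' * |f ξ - f ξ'|)) η η' :=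
      fun η η' aη aη' e0 => block_step hc ok hp0 hp1 (hb.pb m (Nat.lt_succ_self m)) hfV hH
        (fun ζ ζ' aζ aζ' e => h1 ζ ζ' aζ aζ' e) aη aη' e0
    refine (lift_step hc (hV m (Nat.lt_succ_self m)) h2 aω aω' h0).trans (le_of_eq ?_)
    refine R2_congr c fun ξ _ ξ' _ => ?_
    unfold Kp
    rw [Finset.prod_range_succ]
    ring

end St
end Crest.Agent.R144.Cc169
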