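import Crest.Agent.R144.Cc7_169

/-!
# R144 (CCW, step B), two replicas for the F-type law (helper169)

* `s.Rel4 ω ω'` : same revealed information up to a global shift in `4 ℤ`;
* `s.CF` : valid compatible configurations of `F`; `s.cls`, `s.Pcl` classes of `Rel4` and their masses;
* `s.E2 c H` : two replicas with law `E c F`, conditionally independent given the class;
* `s.Yt c Y` : conditional expectation of `Y` given the class;
* `cov_le` : `|E (f Y) - E (f Yt)| ≤ E2 (Kp |f - f'|)` for `f` seen in `V0`, invariant under `4 ℤ` shifts, `Y` constant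
  on the kernels of the top set.
-/

set_option autoImplicit false
set_option linter.unusedSectionVars false
set_option linter.unusedSimpArgs false

noncomputable section

namespace Crest.Agent.R144.Cc169

open Finset
open Crest.Agent.R144.It844 (P2 Lip adj_iff adj_symm lip_iff)
open Crest.ProbabilityR.HexHeights (Adj)
open Crest.Agent.R144.Zg349 Crest.Agent.R144.Zk349 Crest.Agent.R144.Zd349 Crest.Agent.R144.Zm349
open Crest.Agent.R144.Ze349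
open Crest.Agent.R144.Cb2169 (Ex Cl Wd mem_Ex mem_Cl mem_Wd Ex_sub Cl_sub R_sub_Ex Ex_sub_Cl Ex_step
  layer_pC Ex_congr adj_of_share mem_D_of_path Stp Apart stepIn_symm rtg_symm rtg_mono)

/-! ### shifts -/

theorem s1_add4 (a k : ℤ) : s1 (a + 4 * k) = s1 a := by
  unfold s1
  rw [decide_eq_decide]
  omega

theorem s2_add4 (a k : ℤ) : s2 (a + 4 * k) = s2 a := by
  unfold s2
  rw [decide_eq_decide]
  omega

theorem addH_1 (a : ℤ) (ω : Cfg) (v : P2) : (addH a ω).1 v = ω.1 v + a := rfl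
theorem addH_2 (a : ℤ) (ω : Cfg) (t : P2) : (addH a ω).2 t = ω.2 t := rfl

theorem addH_zero (ω : Cfg) : addH 0 ω = ω := by
  refine Prod.ext ?_ rfl
  funext v
  exact add_zero _

theorem addH_addH (a b : ℤ) (ω : Cfg) : addH a (addH b ω) = addH (a + b) ω := by
  refine Prod.ext ?_ rfl
  funext v
  show ω.1 v + b + a = ω.1 v + (a + b)
  ring

theorem pC_add4 (k : ℤ) (ω : Cfg) (t : P2) : pC (addH (4 * k) ω) t ↔ pC ω t := by
  unfold pC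
  rw [addH_1, s1_add4, addH_2]

theorem C1_add4 (k : ℤ) (ω : Cfg) (t : P2) : C1 (addH (4 * k) ω).1 t ↔ C1 ω.1 t := by
  unfold C1
  simp only [addH_1, s1_add4]

theorem C2_add4 (k : ℤ) (ω : Cfg) (t : P2) : C2 (addH (4 * k) ω).1 t ↔ C2 ω.1 t := by
  unfold C2
  simp only [addH_1, s2_add4]

theorem ew_add4 (c : ℝ) (k : ℤ) (ω : Cfg) (t : P2) : ew c (addH (4 * k) ω) t = ew c ω t := by
  unfold ew
  simp only [C1_add4, C2_add4, addH_2]

theorem wt_add4 (c : ℝ) (A : Finset P2) (k : ℤ) (ω : Cfg) : wt c A (addH (4 * k) ω) = wt c A ω :=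
  Finset.prod_congr rfl fun t _ => ew_add4 c k ω t

theorem Ex_add4 (D R : Finset P2) (k : ℤ) (ω : Cfg) : Ex D R (addH (4 * k) ω) = Ex D R ω := by
  ext t
  rw [mem_Ex, mem_Ex]
  have : ∀ a b, Stp D (addH (4 * k) ω) a b ↔ Stp D ω a b := fun a b => by
    unfold Stp
    rw [pC_add4]
  unfold Cb2169.InE
  have e : Stp D (addH (4 * k) ω) = Stp D ω := by
    funext a b
    exact propext (this a b)
  rw [e]

theorem cmp_add4 {A : Finset P2} {k : ℤ} {ω : Cfg} (h : Cmp A ω) : Cmp A (addH (4 * k) ω) := by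
  intro t ht
  rw [C1_add4, C2_add4, addH_2]
  exact h t ht

theorem lip_add {ω : Cfg} (a : ℤ) (h : Lip ω.1) : Lip (addH a ω).1 := h.add_const a

namespace St
variable (s : St)

theorem X_add4 (k : ℤ) (ω : Cfg) : s.X (addH (4 * k) ω) = s.X ω := Ex_add4 _ _ _ _
theorem N_add4 (k : ℤ) (ω : Cfg) : s.N (addH (4 * k) ω) = s.N ω := s.N_congr (s.X_add4 k ω)

variable {s}

theorem adm_add4 {k : ℤ} {ω : Cfg} (h : s.Adm ω) : s.Adm (addH (4 * k) ω) :=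
  ⟨lip_add _ h.lip, cmp_add4 h.cmp⟩

theorem K_add4 {V : Finset P2} {k : ℤ} {ω η : Cfg} (h : η ∈ s.K V ω) :
    addH (4 * k) η ∈ s.K V (addH (4 * k) ω) := by
  obtain ⟨h1, h2⟩ := s.mem_K.1 h
  obtain ⟨k1, k2, k3, k4⟩ := s.mem_K0.1 h1
  refine s.mem_K.2 ⟨s.mem_K0.2 ⟨lip_add _ k1, fun v hv => ?_, fun t ht => ?_, ?_⟩, cmp_add4 h2⟩
  · rw [s.Fr_congr (s.X_add4 k ω)] at hv
    rw [addH_1, addH_1, k2 v hv]
  · rw [s.N_add4] at ht
    rw [addH_2, addH_2, k3 t ht]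
  · rw [s.X_add4, s.X_add4, k4]

/-- kernels commute with the shifts -/
theorem R_add4 (c : ℝ) (V : Finset P2) (k : ℤ) (f : Cfg → ℝ) (ω : Cfg) :
    s.R c V f (addH (4 * k) ω) = s.R c V (fun ξ => f (addH (4 * k) ξ)) ω := by
  have key : ∀ g : Cfg → ℝ, ∑ ξ ∈ s.K V (addH (4 * k) ω), wt c (s.N (addH (4 * k) ω) ∩ V) ξ * g ξ =
      ∑ ξ ∈ s.K V ω, wt c (s.N ω ∩ V) ξ * g (addH (4 * k) ξ) := by
    intro g
    symm
    have hk : ∀ ζ : Cfg, addH (4 * k) (addH (4 * (-k)) ζ) = ζ := fun ζ => by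
      rw [addH_addH]
      have : 4 * k + 4 * (-k) = 0 := by ring
      rw [this, addH_zero]
    have hk' : ∀ ζ : Cfg, addH (4 * (-k)) (addH (4 * k) ζ) = ζ := fun ζ => by
      rw [addH_addH]
      have : 4 * (-k) + 4 * k = 0 := by ring
      rw [this, addH_zero]
    refine Finset.sum_bij' (fun ξ _ => addH (4 * k) ξ) (fun ξ _ => addH (4 * (-k)) ξ)
      (fun ξ hξ => K_add4 hξ) (fun ξ hξ => ?_) (fun ξ _ => hk' ξ) (fun ξ _ => hk ξ) (fun ξ _ => ?_)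
    · have := K_add4 (k := -k) hξ
      rwa [hk'] at this
    · rw [wt_add4, s.N_add4]
  have h1 := key (fun _ => 1)
  simp only [mul_one] at h1
  unfold R W
  rw [key f, h1]

variable (s) in
/-- same revealed information up to a global shift in `4 ℤ` -/
def Rel4 (ω ω' : Cfg) : Prop := ∃ k : ℤ, s.Eq0 (addH (4 * k) ω) ω'

theorem eq0_add4 {ω ω' : Cfg} (k : ℤ) (h : s.Eq0 ω ω') : s.Eq0 (addH (4 * k) ω) (addH (4 * k) ω') := by
  refine ⟨by rw [s.X_add4, s.X_add4, h.X], fun v hv => ?_, fun t ht => ?_⟩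
  · rw [s.X_add4] at hv
    rw [addH_1, addH_1, h.ht v hv]
  · rw [s.X_add4] at ht
    rw [addH_2, addH_2, h.z t ht]

theorem rel_refl (ω : Cfg) : s.Rel4 ω ω := ⟨0, by rw [mul_zero, addH_zero]; exact Eq0.refl s ω⟩

theorem rel_symm {ω ω' : Cfg} (h : s.Rel4 ω ω') : s.Rel4 ω' ω := by
  obtain ⟨k, hk⟩ := h
  refine ⟨-k, ?_⟩
  have h1 := (eq0_add4 (-k) hk).symm
  rw [addH_addH] at h1
  have : 4 * (-k) + 4 * k = 0 := by ring
  rwa [this, addH_zero] at h1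

theorem rel_trans {ω ω' ω'' : Cfg} (h : s.Rel4 ω ω') (h' : s.Rel4 ω' ω'') : s.Rel4 ω ω'' := by
  obtain ⟨k, hk⟩ := h
  obtain ⟨j, hj⟩ := h'
  refine ⟨j + k, ?_⟩
  have h1 := (eq0_add4 j hk).trans hj
  rw [addH_addH] at h1
  have : 4 * j + 4 * k = 4 * (j + k) := by ring
  rwa [this] at h1

theorem rel_of_eq0 {ω ω' : Cfg} (h : s.Eq0 ω ω') : s.Rel4 ω ω' := ⟨0, by rw [mul_zero, addH_zero]; exact h⟩

theorem rel_X {ω ω' : Cfg} (h : s.Rel4 ω ω') : s.X ω' = s.X ω := by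
  obtain ⟨k, hk⟩ := h
  rw [hk.X, s.X_add4]

/-! ### the F-type law -/

variable (s) in
open Classical in
/-- valid compatible configurations -/
def CF : Finset Cfg := (conf s.F).filter fun ω => Cmp s.F ω

theorem mem_CF {ω : Cfg} : ω ∈ s.CF ↔ Valid s.F ω ∧ Cmp s.F ω := by
  simp only [CF, Finset.mem_filter, mem_conf]

theorem adm_CF {ω : Cfg} (h : ω ∈ s.CF) : s.Adm ω := ⟨(mem_CF.1 h).1.ht.toLip, (mem_CF.1 h).2⟩

theorem E_CF (c : ℝ) (g : Cfg → ℝ) : E c s.F g = ∑ ω ∈ s.CF, pr c s.F ω * g ω := by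
  classical
  unfold E
  refine (Finset.sum_subset (Finset.filter_subset _ _) fun ω hω hω' => ?_).symm
  have h1 : wt c s.F ω = 0 := by
    by_contra h
    exact hω' (Finset.mem_filter.2 ⟨hω, cmp_of_wt h⟩)
  rw [pr_of_valid c (mem_conf.1 hω), h1, zero_div, zero_mul]

theorem G_sub_IV {v : P2} (hv : v ∈ VF s.G) : v ∈ IV s.F := by
  rw [mem_IV']
  intro t ht
  by_contra h
  exact up_not_G h ht hv

theorem K_sub_CF {V : Finset P2} {ω η : Cfg} (hω : ω ∈ s.CF) (h : η ∈ s.K V ω) : η ∈ s.CF := by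
  obtain ⟨h1, h2⟩ := s.mem_K.1 h
  obtain ⟨k1, k2, k3, _⟩ := s.mem_K0.1 h1
  obtain ⟨hv, _⟩ := mem_CF.1 hω
  refine mem_CF.2 ⟨⟨⟨fun t _ i j => Zs349.lip_cr k1 t i j, fun v hv' => ?_, fun v hv' => ?_⟩, fun t ht => ?_⟩, h2⟩
  · have : v ∉ s.Fr V ω := fun h' => hv' (G_sub_IV ((s.mem_Fr).1 h').1)
    rw [k2 v this]
    exact hv.ht.bd v hv'
  · have : v ∉ s.Fr V ω := fun h' => hv' (VF_mono s.hGF ((s.mem_Fr).1 h').1)
    rw [k2 v this]
    exact hv.ht.off v hv'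
  · rw [k3 t fun h' => ht ((s.N_sub ω) (Finset.mem_inter.1 h').1)]
    exact hv.cl t ht

/-- weights off `V` are constant on the kernels (all triangles of `F`) -/
theorem wt_outF {c : ℝ} {V : Finset P2} {ω η : Cfg} (a : s.Adm ω) (h : η ∈ s.K V ω) :
    wt c (s.F \ (s.N ω ∩ V)) η = wt c (s.F \ (s.N ω ∩ V)) ω := by
  have e0 := eq0_of_K h
  have aη := s.adm_of_K h
  obtain ⟨_, a2, a3, _⟩ := s.mem_K0.1 (s.mem_K.1 h).1
  refine Finset.prod_congr rfl fun t ht => ?_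
  rw [Finset.mem_sdiff] at ht
  rcases cases_F ω V ht.1 with h1 | h1 | h1 | ⟨h1, h2⟩
  · exact absurd h1 ht.2
  · exact ew_congr c (fun v hv => a2 v fun h' => ((s.mem_Fr).1 h').2.2 (mem_VF_of h1 hv)) (a3 t ht.2)
  · exact ew_congr c (fun v hv => e0.ht v (mem_VF_of h1 hv)) (e0.z t h1)
  · have p1 : pC ω t := s.layer h1 h2
    have p2 : pC η t := s.layer (by rw [e0.Rv]; exact h1) (by rw [e0.X]; exact h2)
    rw [ew_plus c p2.1 fun v hv => pC_all aη.cmp ht.1 p2 hv,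
      ew_plus c p1.1 fun v hv => pC_all a.cmp ht.1 p1 hv]

/-- averaging over kernels under the F-type law, on unions of kernels -/
theorem sum_avg {c : ℝ} (hc : 1 ≤ c) {V : Finset P2} {C : Finset Cfg} (hC : C ⊆ s.CF)
    (hK : ∀ ω ∈ C, s.K V ω ⊆ C) (g : Cfg → ℝ) :
    ∑ ω ∈ C, pr c s.F ω * g ω = ∑ ω ∈ C, pr c s.F ω * s.R c V g ω := by
  have hpr : ∀ ω ∈ C, pr c s.F ω = wt c (s.F \ (s.N ω ∩ V)) ω / Z c s.F * wt c (s.N ω ∩ V) ω := by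
    intro ω hω
    have hsub : s.N ω ∩ V ⊆ s.F := Finset.inter_subset_left.trans (s.N_sub ω)
    rw [pr_of_valid c (mem_CF.1 (hC hω)).1, wt_sub c hsub ω]
    ring
  have hN : ∀ ω ∈ C, ∀ η ∈ s.K V ω, s.N η = s.N ω := fun ω _ η h => s.N_congr (s.X_of_K h)
  -- the weight function must not depend on the class representative
  have key := part_avg C (fun ω => s.K V ω) hK (fun ω hω => s.self_mem_K (adm_CF (hC hω)))
    (fun ω hω η h => s.K_eq (adm_CF (hC hω)) h)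
    (fun ω => wt c (s.F \ (s.N ω ∩ V)) ω / Z c s.F) (fun ω => wt c (s.N ω ∩ V) ω) g
    (fun ω hω η h => by
      rw [hN ω hω η h, wt_outF (adm_CF (hC hω)) h])
    (fun ω hω => by
      have h1 := (W_pos hc (V := V) (adm_CF (hC hω))).ne'
      unfold W at h1
      have : ∑ η ∈ s.K V ω, wt c (s.N η ∩ V) η = ∑ η ∈ s.K V ω, wt c (s.N ω ∩ V) η :=
        Finset.sum_congr rfl fun η h => by rw [hN ω hω η h]
      rw [this]
      exact h1)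
  have l : ∑ ω ∈ C, pr c s.F ω * g ω =
      ∑ ω ∈ C, wt c (s.F \ (s.N ω ∩ V)) ω / Z c s.F * wt c (s.N ω ∩ V) ω * g ω :=
    Finset.sum_congr rfl fun ω hω => by rw [hpr ω hω]
  rw [l, key]
  refine Finset.sum_congr rfl fun ω hω => ?_
  rw [hpr ω hω]
  congr 1
  unfold R W
  have e1 : ∑ η ∈ s.K V ω, wt c (s.N η ∩ V) η = ∑ η ∈ s.K V ω, wt c (s.N ω ∩ V) η :=
    Finset.sum_congr rfl fun η h => by rw [hN ω hω η h]
  have e2 : ∑ η ∈ s.K V ω, wt c (s.N η ∩ V) η * g η = ∑ η ∈ s.K V ω, wt c (s.N ω ∩ V) η * g η :=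
    Finset.sum_congr rfl fun η h => by rw [hN ω hω η h]
  rw [e1, e2]

variable (s) in
open Classical in
/-- class of a configuration -/
def cls (ω : Cfg) : Finset Cfg := s.CF.filter fun ω' => s.Rel4 ω ω'

theorem mem_cls {ω ω' : Cfg} : ω' ∈ s.cls ω ↔ ω' ∈ s.CF ∧ s.Rel4 ω ω' := by
  simp only [cls, Finset.mem_filter]

theorem cls_sub (ω : Cfg) : s.cls ω ⊆ s.CF := fun _ h => (mem_cls.1 h).1

theorem self_mem_cls {ω : Cfg} (h : ω ∈ s.CF) : ω ∈ s.cls ω := mem_cls.2 ⟨h, rel_refl ω⟩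

theorem cls_eq {ω ω' : Cfg} (h : s.Rel4 ω ω') : s.cls ω' = s.cls ω := by
  ext η
  rw [mem_cls, mem_cls]
  exact ⟨fun h' => ⟨h'.1, rel_trans h h'.2⟩, fun h' => ⟨h'.1, rel_trans (rel_symm h) h'.2⟩⟩

theorem K_sub_cls {V : Finset P2} {ω ω' : Cfg} (h : ω' ∈ s.cls ω) : s.K V ω' ⊆ s.cls ω := fun η hη =>
  mem_cls.2 ⟨K_sub_CF (mem_cls.1 h).1 hη, rel_trans (mem_cls.1 h).2 (rel_of_eq0 (eq0_of_K hη))⟩

variable (s) in
/-- mass of a class -/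
def Pcl (c : ℝ) (ω : Cfg) : ℝ := ∑ ω' ∈ s.cls ω, pr c s.F ω'

variable (s) in
/-- conditional expectation given the class -/
def Yt (c : ℝ) (Y : Cfg → ℝ) (ω : Cfg) : ℝ := (∑ ω' ∈ s.cls ω, pr c s.F ω' * Y ω') / s.Pcl c ω

variable (s) in
/-- two replicas, conditionally independent given the class -/
def E2 (c : ℝ) (H : Cfg → Cfg → ℝ) : ℝ :=
  ∑ ω ∈ s.CF, pr c s.F ω * ((∑ ω' ∈ s.cls ω, pr c s.F ω' * H ω ω') / s.Pcl c ω)

theorem Pcl_eq (c : ℝ) {ω ω' : Cfg} (h : s.Rel4 ω ω') : s.Pcl c ω' = s.Pcl c ω := by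
  unfold Pcl; rw [cls_eq h]

theorem Yt_eq (c : ℝ) (Y : Cfg → ℝ) {ω ω' : Cfg} (h : s.Rel4 ω ω') : s.Yt c Y ω' = s.Yt c Y ω := by
  unfold Yt; rw [cls_eq h, Pcl_eq c h]

theorem Pcl_nonneg {c : ℝ} (hc : 1 ≤ c) (ω : Cfg) : 0 ≤ s.Pcl c ω :=
  Finset.sum_nonneg fun _ _ => pr_nonneg hc _ _

theorem pr_zero_of {c : ℝ} (hc : 1 ≤ c) {ω : Cfg} (h : s.Pcl c ω = 0) : ∀ ω' ∈ s.cls ω, pr c s.F ω' = 0 :=
  (Finset.sum_eq_zero_iff_of_nonneg fun _ _ => pr_nonneg hc _ _).1 h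

theorem Yt_abs {c : ℝ} (hc : 1 ≤ c) {Y : Cfg → ℝ} {B : ℝ} (hB : 0 ≤ B) (hY : ∀ ω ∈ s.CF, |Y ω| ≤ B)
    (ω : Cfg) : |s.Yt c Y ω| ≤ B := by
  unfold Yt
  rcases (Pcl_nonneg hc ω).lt_or_eq with h | h
  · rw [abs_div, abs_of_pos h, div_le_iff₀ h]
    refine (Finset.abs_sum_le_sum_abs _ _).trans ?_
    unfold Pcl
    rw [Finset.mul_sum]
    refine Finset.sum_le_sum fun ω' hω' => ?_
    rw [abs_mul, abs_of_nonneg (pr_nonneg hc _ _), mul_comm]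
    exact mul_le_mul_of_nonneg_right (hY ω' (cls_sub ω hω')) (pr_nonneg hc _ _)
  · rw [← h, div_zero, abs_zero]
    exact hB

/-- exchange of the two replicas -/
theorem E2_swap {c : ℝ} (H : Cfg → Cfg → ℝ) : s.E2 c H = s.E2 c (fun ω ω' => H ω' ω) := by
  unfold E2
  have l : ∀ H : Cfg → Cfg → ℝ, ∑ ω ∈ s.CF, pr c s.F ω * ((∑ ω' ∈ s.cls ω, pr c s.F ω' * H ω ω') / s.Pcl c ω) =
      ∑ ω ∈ s.CF, ∑ ω' ∈ s.cls ω, pr c s.F ω * pr c s.F ω' / s.Pcl c ω * H ω ω' := by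
    intro H
    refine Finset.sum_congr rfl fun ω _ => ?_
    rw [Finset.sum_div, Finset.mul_sum]
    exact Finset.sum_congr rfl fun _ _ => by ring
  rw [l, l, Finset.sum_comm' (s' := fun ω' => s.cls ω') (t' := s.CF)]
  · refine Finset.sum_congr rfl fun ω' _ => Finset.sum_congr rfl fun ω hω => ?_
    rw [Pcl_eq c (mem_cls.1 hω).2]
    ring
  · intro ω ω'
    rw [mem_cls, mem_cls]
    exact ⟨fun h => ⟨⟨h.1, rel_symm h.2.2⟩, h.2.1⟩, fun h => ⟨h.1.1, h.2, rel_symm h.1.2⟩⟩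

theorem E2_fst {c : ℝ} (hc : 1 ≤ c) (g : Cfg → ℝ) : s.E2 c (fun ω _ => g ω) = E c s.F g := by
  rw [E_CF]
  unfold E2
  refine Finset.sum_congr rfl fun ω hω => ?_
  rw [← Finset.sum_mul]
  show _ * (s.Pcl c ω * g ω / s.Pcl c ω) = _
  rcases (Pcl_nonneg (s := s) hc ω).lt_or_eq with h | h
  · rw [mul_div_assoc, mul_div_cancel₀ _ h.ne']
  · rw [pr_zero_of hc h.symm ω (self_mem_cls hω), zero_mul, zero_mul]

theorem E2_snd {c : ℝ} (hc : 1 ≤ c) (g : Cfg → ℝ) : s.E2 c (fun _ ω' => g ω') = E c s.F g := by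
  rw [E2_swap]
  exact E2_fst hc g

theorem E2_mono {c : ℝ} (hc : 1 ≤ c) {H H' : Cfg → Cfg → ℝ}
    (h : ∀ ω ∈ s.CF, ∀ ω' ∈ s.CF, s.Rel4 ω ω' → H ω ω' ≤ H' ω ω') : s.E2 c H ≤ s.E2 c H' := by
  unfold E2
  refine Finset.sum_le_sum fun ω hω => mul_le_mul_of_nonneg_left ?_ (pr_nonneg hc _ _)
  refine div_le_div_of_nonneg_right ?_ (Pcl_nonneg hc ω)
  exact Finset.sum_le_sum fun ω' hω' =>
    mul_le_mul_of_nonneg_left (h ω hω ω' (mem_cls.1 hω').1 (mem_cls.1 hω').2) (pr_nonneg hc _ _)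

theorem E2_congr {c : ℝ} {H H' : Cfg → Cfg → ℝ}
    (h : ∀ ω ∈ s.CF, ∀ ω' ∈ s.CF, s.Rel4 ω ω' → H ω ω' = H' ω ω') : s.E2 c H = s.E2 c H' := by
  unfold E2
  refine Finset.sum_congr rfl fun ω hω => ?_
  congr 2
  exact Finset.sum_congr rfl fun ω' hω' => by rw [h ω hω ω' (mem_cls.1 hω').1 (mem_cls.1 hω').2]

theorem E2_add (c : ℝ) (H H' : Cfg → Cfg → ℝ) :
    s.E2 c (fun ω ω' => H ω ω' + H' ω ω') = s.E2 c H + s.E2 c H' := by
  unfold E2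
  rw [← Finset.sum_add_distrib]
  refine Finset.sum_congr rfl fun ω _ => ?_
  rw [← mul_add, ← add_div, ← Finset.sum_add_distrib]
  congr 2
  exact Finset.sum_congr rfl fun _ _ => by ring

theorem E2_smul (c a : ℝ) (H : Cfg → Cfg → ℝ) : s.E2 c (fun ω ω' => a * H ω ω') = a * s.E2 c H := by
  unfold E2
  rw [Finset.mul_sum]
  refine Finset.sum_congr rfl fun ω _ => ?_
  have : ∑ ω' ∈ s.cls ω, pr c s.F ω' * (a * H ω ω') = a * ∑ ω' ∈ s.cls ω, pr c s.F ω' * H ω ω' := by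
    rw [Finset.mul_sum]
    exact Finset.sum_congr rfl fun _ _ => by ring
  rw [this]
  ring

/-- tower for the second variable -/
theorem E2_avg2 {c : ℝ} (hc : 1 ≤ c) (V : Finset P2) (H : Cfg → Cfg → ℝ) :
    s.E2 c (fun ω ω' => s.R c V (H ω) ω') = s.E2 c H := by
  unfold E2
  refine Finset.sum_congr rfl fun ω _ => ?_
  rw [sum_avg hc (V := V) (cls_sub ω) (fun ω' h => K_sub_cls h) (H ω)]

/-- **tower for the two replicas** -/
theorem E2_tower {c : ℝ} (hc : 1 ≤ c) (V : Finset P2) (H : Cfg → Cfg → ℝ) :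
    s.E2 c (s.R2 c V H) = s.E2 c H := by
  have h1 : s.E2 c (s.R2 c V H) = s.E2 c (fun ω ω' => s.R c V (fun ξ => H ξ ω') ω) := by
    have e : s.R2 c V H = fun ω ω' => s.R c V (fun ω'' => s.R c V (fun ξ => H ξ ω'') ω) ω' := by
      funext ω ω'
      unfold R2
      exact R_comm c V V H ω ω'
    rw [e]
    exact E2_avg2 hc V fun ω ω'' => s.R c V (fun ξ => H ξ ω'') ω
  rw [h1, E2_swap]
  have h2 := E2_avg2 (s := s) hc V (fun ω ω' => H ω' ω)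
  rw [h2, ← E2_swap]

theorem E2_abs {c : ℝ} (hc : 1 ≤ c) (H : Cfg → Cfg → ℝ) : |s.E2 c H| ≤ s.E2 c fun ω ω' => |H ω ω'| := by
  rw [abs_le]
  constructor
  · have h1 := E2_mono (s := s) hc (H := fun ω ω' => (-1) * |H ω ω'|) (H' := H) fun ω _ ω' _ _ => by
      rw [neg_one_mul]; exact neg_abs_le _
    rw [E2_smul, neg_one_mul] at h1
    exact h1
  · exact E2_mono hc fun ω _ ω' _ _ => le_abs_self _

theorem Kp_add4 {p : ℝ} (b : ℕ → Bk) (m : ℕ) (k : ℤ) (ξ ξ' : Cfg) :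
    s.Kp p b m ξ (addH (4 * k) ξ') = s.Kp p b m ξ ξ' := by
  refine Finset.prod_congr rfl fun i _ => ?_
  have e1 : s.Gd (b i) (addH (4 * k) ξ') ↔ s.Gd (b i) ξ' :=
    ⟨gd_congr (s.X_add4 k ξ').symm, gd_congr (s.X_add4 k ξ')⟩
  have e2 : s.Bar (b i) (addH (4 * k) ξ') ↔ s.Bar (b i) ξ' := by
    unfold Bar Eo Ei
    rw [s.N_add4, Ex_add4, Ex_add4]
  unfold kp
  by_cases h : (s.Gd (b i) ξ ∧ s.Gd (b i) ξ') ∧ (s.Bar (b i) ξ ∧ s.Bar (b i) ξ')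
  · rw [if_pos h, if_pos ⟨⟨h.1.1, e1.2 h.1.2⟩, h.2.1, e2.2 h.2.2⟩]
  · rw [if_neg h, if_neg fun h' => h ⟨⟨h'.1.1, e1.1 h'.1.2⟩, h'.2.1, e2.1 h'.2.2⟩]

/-- chain for configurations with the same revealed information up to a shift -/
theorem chain4 {c : ℝ} (hc : 1 ≤ c) {p : ℝ} (hp0 : 0 < p) (hp1 : p ≤ 1) {b : ℕ → Bk} {V0 : Finset P2}
    {f : Cfg → ℝ} (hf : s.LocV V0 f) (h4 : ∀ k ω, f (addH (4 * k) ω) = f ω) {m : ℕ}
    (hb : Chain s c p b m V0) {V : Finset P2} (hV : ∀ i < m, (b i).V' ⊆ V) (hV0 : V0 ⊆ V) (hVG : V ⊆ s.G)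
    {ω ω' : Cfg} (aω : s.Adm ω) (aω' : s.Adm ω') (h0 : s.Rel4 ω ω') :
    |s.R c V f ω - s.R c V f ω'| ≤ s.R2 c V (fun ξ ξ' => s.Kp p b m ξ ξ' * |f ξ - f ξ'|) ω ω' := by
  obtain ⟨k, hk⟩ := rel_symm h0
  have h1 := chain hc hp0 hp1 hf m hb V hV hV0 hVG ω (addH (4 * k) ω') aω (adm_add4 aω') hk.symm
  have e1 : s.R c V f (addH (4 * k) ω') = s.R c V f ω' := by
    rw [R_add4]
    exact R_congr c fun ξ _ => h4 k ξ
  have e2 : s.R2 c V (fun ξ ξ' => s.Kp p b m ξ ξ' * |f ξ - f ξ'|) ω (addH (4 * k) ω') =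
      s.R2 c V (fun ξ ξ' => s.Kp p b m ξ ξ' * |f ξ - f ξ'|) ω ω' := by
    unfold R2
    refine R_congr c fun ξ _ => ?_
    rw [R_add4]
    refine R_congr c fun ξ' _ => ?_
    show s.Kp p b m ξ (addH (4 * k) ξ') * |f ξ - f (addH (4 * k) ξ')| =
      s.Kp p b m ξ ξ' * |f ξ - f ξ'|
    rw [Kp_add4, h4]
  rw [e1, e2] at h1
  exact h1

/-- **Covariance bound** -/
theorem cov_le {c : ℝ} (hc : 1 ≤ c) {p : ℝ} (hp0 : 0 < p) (hp1 : p ≤ 1) {b : ℕ → Bk} {V0 : Finset P2}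
    {f : Cfg → ℝ} (hf : s.LocV V0 f) (h4 : ∀ k ω, f (addH (4 * k) ω) = f ω) {m : ℕ}
    (hb : Chain s c p b m V0) {V : Finset P2} (hV : ∀ i < m, (b i).V' ⊆ V) (hV0 : V0 ⊆ V) (hVG : V ⊆ s.G)
    {Y : Cfg → ℝ} (hY1 : ∀ ω ∈ s.CF, |Y ω| ≤ 1) (hYK : ∀ ω ∈ s.CF, ∀ η ∈ s.K V ω, Y η = Y ω) :
    |E c s.F (fun ω => f ω * Y ω) - E c s.F (fun ω => f ω * s.Yt c Y ω)| ≤
      s.E2 c (fun ω ω' => s.Kp p b m ω ω' * |f ω - f ω'|) := by
  have step1 : ∀ g : Cfg → ℝ, (∀ ω ∈ s.CF, ∀ η ∈ s.K V ω, g η = g ω) →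
      E c s.F (fun ω => f ω * g ω) = ∑ ω ∈ s.CF, pr c s.F ω * (g ω * s.R c V f ω) := by
    intro g hg
    rw [E_CF, sum_avg hc (V := V) le_rfl (fun ω h => fun η hη => K_sub_CF h hη) (fun ω => f ω * g ω)]
    refine Finset.sum_congr rfl fun ω hω => ?_
    congr 1
    rw [← R_mul_of_const c (f := f) (g := g) (hg ω hω)]
    exact R_congr c fun ξ _ => mul_comm _ _
  have hYt : ∀ ω ∈ s.CF, ∀ η ∈ s.K V ω, s.Yt c Y η = s.Yt c Y ω := fun ω _ η hη =>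
    Yt_eq c Y (rel_of_eq0 (eq0_of_K hη))
  rw [step1 Y hYK, step1 _ hYt]
  have e1 : ∑ ω ∈ s.CF, pr c s.F ω * (Y ω * s.R c V f ω) =
      s.E2 c (fun _ ω' => Y ω' * s.R c V f ω') := by
    rw [E2_snd hc (fun ω => Y ω * s.R c V f ω), E_CF]
  have e2 : ∑ ω ∈ s.CF, pr c s.F ω * (s.Yt c Y ω * s.R c V f ω) =
      s.E2 c (fun ω ω' => Y ω' * s.R c V f ω) := by
    unfold E2 Yt
    refine Finset.sum_congr rfl fun ω _ => ?_
    congr 1
    rw [div_mul_eq_mul_div, Finset.sum_mul]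
    congr 1
    exact Finset.sum_congr rfl fun _ _ => by ring
  rw [e1, e2]
  have e3 : s.E2 c (fun _ ω' => Y ω' * s.R c V f ω') - s.E2 c (fun ω ω' => Y ω' * s.R c V f ω) =
      s.E2 c (fun ω ω' => Y ω' * (s.R c V f ω' - s.R c V f ω)) := by
    have h1 : s.E2 c (fun ω ω' => Y ω' * (s.R c V f ω' - s.R c V f ω)) =
        s.E2 c (fun ω ω' => (fun _ ω' => Y ω' * s.R c V f ω') ω ω' +
          (-1) * (fun ω ω' => Y ω' * s.R c V f ω) ω ω') := by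
      refine E2_congr fun ω _ ω' _ _ => ?_
      simp only
      ring
    rw [h1, E2_add, E2_smul c (-1) (fun ω ω' => Y ω' * s.R c V f ω)]
    ring
  rw [e3]
  refine (E2_abs hc _).trans ?_
  rw [← E2_tower hc V (fun ω ω' => s.Kp p b m ω ω' * |f ω - f ω'|)]
  refine E2_mono hc fun ω hω ω' hω' hr => ?_
  rw [abs_mul]
  have h2 := chain4 hc hp0 hp1 hf h4 hb hV hV0 hVG (adm_CF hω) (adm_CF hω') hr
  rw [abs_sub_comm] at h2
  calc |Y ω'| * |s.R c V f ω' - s.R c V f ω| ≤ 1 * |s.R c V f ω' - s.R c V f ω| :=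
        mul_le_mul_of_nonneg_right (hY1 ω' hω') (abs_nonneg _)
    _ = |s.R c V f ω' - s.R c V f ω| := one_mul _
    _ ≤ _ := h2

end St
end Crest.Agent.R144.Cc169
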