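import Crest.Agent.R144.Cc8_169

/-!
# R144 (CCW, step B), final estimate of the F-type laws (helper169)

* `cs_le` : Cauchy-Schwarz for the two replicas;
* `zav c A Y h` : average over the coins of `A`, given the heights; `E_zav`;
* `stepB` : for `f` seen in `V0` (strip), `Y` seen off `G`, there is `Yb`, a function of the heights on the layers,
  invariant under `4 ℤ` shifts, `|Yb| ≤ 1`, with
  `|E (f Y) - E (f Yb)| ≤ t * E2 (Kp ^ 2) + t⁻¹ * E (f ^ 2)` for all `t > 0`.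
-/

set_option autoImplicit false
set_option linter.unusedSectionVars false
set_option linter.unusedSimpArgs false

noncomputable section

namespace Crest.Agent.R144.Cc169

open Finset
open Crest.Agent.R144.It844 (P2 Lip adj_iff adj_symm lip_iff)
open Crest.ProbabilityR.HexHeights (Adj)
open Crest.Agent.R144.Zg349 Crest.Agent.R144.Zk349 Crest.Agent.R144.Zd349 Crest.Agent.R144.Zm349
open Crest.Agent.R144.Ze349
open Crest.Agent.R144.Cb2169 (Ex Cl Wd mem_Ex mem_Cl mem_Wd Ex_sub Cl_sub R_sub_Ex Ex_sub_Cl Ex_step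
  layer_pC Ex_congr adj_of_share mem_D_of_path Stp Apart stepIn_symm rtg_symm rtg_mono)

/-! ### averaging over coins -/

/-- restriction of the coins to `A` (closed off `A`) -/
def zr (A : Finset P2) (z : P2 → Bool) : P2 → Bool := fun t => if t ∈ A then z t else true

theorem zr_mem (A : Finset P2) (z : P2 → Bool) : zr A z ∈ zs A := mem_zs.2 fun _ ht => if_neg ht

theorem zr_in {A : Finset P2} {z : P2 → Bool} {t : P2} (ht : t ∈ A) : zr A z t = z t := if_pos ht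

theorem wt_coin (c : ℝ) {A : Finset P2} {h h' : P2 → ℤ} {z z' : P2 → Bool}
    (H : ∀ v ∈ VF A, h v = h' v) (hz : ∀ t ∈ A, z t = z' t) : wt c A (h, z) = wt c A (h', z') :=
  Finset.prod_congr rfl fun t ht => ew_congr c (fun v hv => H v (mem_VF.2 ⟨t, ht, hv⟩)) (hz t ht)

/-- total weight of the coins -/
def zW (c : ℝ) (A : Finset P2) (h : P2 → ℤ) : ℝ := ∑ z ∈ zs A, wt c A (h, z)

theorem zW_nonneg {c : ℝ} (hc : 1 ≤ c) (A : Finset P2) (h : P2 → ℤ) : 0 ≤ zW c A h :=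
  Finset.sum_nonneg fun _ _ => wt_nonneg hc _ _

theorem coin_split (c : ℝ) {A F : Finset P2} (hAF : A ⊆ F) (h : P2 → ℤ) (g : (P2 → Bool) → ℝ)
    (hg : ∀ z, g z = g (zr A z)) :
    ∑ z ∈ zs F, wt c F (h, z) * g z = zW c (F \ A) h * ∑ z ∈ zs A, wt c A (h, z) * g z := by
  unfold zW
  rw [Finset.sum_mul_sum, ← Finset.sum_product']
  refine Finset.sum_bij' (fun z _ => (zr (F \ A) z, zr A z))
    (fun q _ => fun t => if t ∈ A then q.2 t else q.1 t) ?_ ?_ ?_ ?_ ?_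
  · intro z _
    exact Finset.mem_product.2 ⟨zr_mem _ _, zr_mem _ _⟩
  · intro q hq
    obtain ⟨h1, h2⟩ := Finset.mem_product.1 hq
    refine mem_zs.2 fun t ht => ?_
    have hA : t ∉ A := fun h => ht (hAF h)
    simp only [if_neg hA]
    exact mem_zs.1 h1 t fun h => ht (Finset.mem_sdiff.1 h).1
  · intro z hz
    funext t
    by_cases hA : t ∈ A
    · simp only [if_pos hA, zr_in hA]
    · simp only [if_neg hA]
      by_cases hF : t ∈ F
      · exact zr_in (Finset.mem_sdiff.2 ⟨hF, hA⟩)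
      · rw [mem_zs.1 hz t hF]
        exact if_neg fun h => hF (Finset.mem_sdiff.1 h).1
  · intro q hq
    obtain ⟨h1, h2⟩ := Finset.mem_product.1 hq
    refine Prod.ext ?_ ?_
    · funext t
      by_cases hFA : t ∈ F \ A
      · have hA := (Finset.mem_sdiff.1 hFA).2
        simp only [zr, if_pos hFA, if_neg hA]
      · simp only [zr, if_neg hFA]
        exact (mem_zs.1 h1 t hFA).symm
    · funext t
      by_cases hA : t ∈ A
      · simp only [zr, if_pos hA]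
      · simp only [zr, if_neg hA]
        exact (mem_zs.1 h2 t hA).symm
  · intro z _
    simp only
    rw [wt_sub c hAF (h, z), hg z, mul_assoc]
    rw [wt_coin c (A := F \ A) (z' := zr (F \ A) z) (fun _ _ => rfl) fun t ht => (zr_in ht).symm,
      wt_coin c (A := A) (z' := zr A z) (fun _ _ => rfl) fun t ht => (zr_in ht).symm]

/-- average over the coins of `A` -/
def zav (c : ℝ) (A : Finset P2) (Y : Cfg → ℝ) (h : P2 → ℤ) : ℝ :=
  (∑ z ∈ zs A, wt c A (h, z) * Y (h, z)) / zW c A h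

theorem zav_abs {c : ℝ} (hc : 1 ≤ c) (A : Finset P2) {Y : Cfg → ℝ} (hY : ∀ ω, |Y ω| ≤ 1) (h : P2 → ℤ) :
    |zav c A Y h| ≤ 1 := by
  unfold zav
  rcases (zW_nonneg hc A h).lt_or_eq with h1 | h1
  · rw [abs_div, abs_of_pos h1, div_le_iff₀ h1, one_mul]
    refine (Finset.abs_sum_le_sum_abs _ _).trans (Finset.sum_le_sum fun z _ => ?_)
    rw [abs_mul, abs_of_nonneg (wt_nonneg hc _ _)]
    calc wt c A (h, z) * |Y (h, z)| ≤ wt c A (h, z) * 1 :=
          mul_le_mul_of_nonneg_left (hY _) (wt_nonneg hc _ _)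
      _ = wt c A (h, z) := mul_one _
  · rw [← h1, div_zero, abs_zero]
    exact zero_le_one

/-- **averaging over the coins** -/
theorem E_zav {c : ℝ} (hc : 1 ≤ c) {A F : Finset P2} (hAF : A ⊆ F) {Y : Cfg → ℝ}
    (hY : ∀ h z, Y (h, z) = Y (h, zr A z)) (f : (P2 → ℤ) → ℝ) :
    E c F (fun ω => f ω.1 * Y ω) = E c F (fun ω => f ω.1 * zav c A Y ω.1) := by
  rw [E_eq_div, E_eq_div]
  congr 1
  unfold conf
  rw [Finset.sum_product, Finset.sum_product]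
  refine Finset.sum_congr rfl fun h _ => ?_
  simp only
  have e1 : ∑ z ∈ zs F, wt c F (h, z) * (f h * Y (h, z)) =
      f h * ∑ z ∈ zs F, wt c F (h, z) * Y (h, z) := by
    rw [Finset.mul_sum]
    exact Finset.sum_congr rfl fun _ _ => by ring
  have e2 : ∑ z ∈ zs F, wt c F (h, z) * (f h * zav c A Y h) =
      f h * zav c A Y h * ∑ z ∈ zs F, wt c F (h, z) * 1 := by
    rw [Finset.mul_sum]
    exact Finset.sum_congr rfl fun _ _ => by ring
  rw [e1, e2, coin_split c hAF h (fun z => Y (h, z)) (hY h), coin_split c hAF h (fun _ => 1) fun _ => rfl]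
  simp only [mul_one]
  show f h * (zW c (F \ A) h * ∑ z ∈ zs A, wt c A (h, z) * Y (h, z)) =
    f h * zav c A Y h * (zW c (F \ A) h * zW c A h)
  rcases (zW_nonneg hc A h).lt_or_eq with h1 | h1
  · unfold zav
    field_simp
  · have h2 : ∀ z ∈ zs A, wt c A (h, z) = 0 :=
      (Finset.sum_eq_zero_iff_of_nonneg fun _ _ => wt_nonneg hc _ _).1 h1.symm
    have h3 : ∑ z ∈ zs A, wt c A (h, z) * Y (h, z) = 0 :=
      Finset.sum_eq_zero fun z hz => by rw [h2 z hz, zero_mul]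
    rw [h3, ← h1]
    ring

namespace St
variable {s : St}

/-- **Cauchy-Schwarz** -/
theorem cs_le {c : ℝ} (hc : 1 ≤ c) (Kf : Cfg → Cfg → ℝ) (f : Cfg → ℝ) {t : ℝ} (ht : 0 < t) :
    s.E2 c (fun ω ω' => Kf ω ω' * |f ω - f ω'|) ≤
      t * s.E2 c (fun ω ω' => Kf ω ω' ^ 2) + t⁻¹ * E c s.F (fun ω => f ω ^ 2) := by
  have h1 : s.E2 c (fun ω ω' => Kf ω ω' * |f ω - f ω'|) ≤
      s.E2 c (fun ω ω' => (fun ω ω' => t * Kf ω ω' ^ 2) ω ω' +
        (fun ω ω' => (fun ω _ => (2 * t)⁻¹ * f ω ^ 2) ω ω' + (fun _ ω' => (2 * t)⁻¹ * f ω' ^ 2) ω ω') ω ω') := by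
    refine E2_mono hc fun ω _ ω' _ _ => ?_
    simp only
    set a := f ω
    set b := f ω'
    set K := Kf ω ω'
    have e : (2 * t)⁻¹ * a ^ 2 + (2 * t)⁻¹ * b ^ 2 = (a ^ 2 + b ^ 2) / (2 * t) := by
      field_simp
    rw [e, ← sub_nonneg]
    have h2 : |a - b| ^ 2 ≤ 2 * (a ^ 2 + b ^ 2) := by
      rw [sq_abs]
      nlinarith [sq_nonneg (a + b)]
    have h3 : t * K ^ 2 + (a ^ 2 + b ^ 2) / (2 * t) - K * |a - b| =
        ((2 * t * K - |a - b|) ^ 2 + (2 * (a ^ 2 + b ^ 2) - |a - b| ^ 2)) / (4 * t) := by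
      field_simp
      ring
    rw [h3]
    exact div_nonneg (add_nonneg (sq_nonneg _) (by linarith)) (by linarith)
  refine h1.trans (le_of_eq ?_)
  rw [E2_add c (fun ω ω' => t * Kf ω ω' ^ 2), E2_add c (fun ω _ => (2 * t)⁻¹ * f ω ^ 2),
    E2_smul, E2_fst hc (fun ω => (2 * t)⁻¹ * f ω ^ 2), E2_snd hc (fun ω => (2 * t)⁻¹ * f ω ^ 2), E_smul]
  have : (2 * t)⁻¹ + (2 * t)⁻¹ = t⁻¹ := by
    field_simp
    norm_num
  rw [← add_mul, this]

theorem X_congr_lay {ω ω' : Cfg} (h1 : ∀ v ∈ VF s.Lay, ω.1 v = ω'.1 v) (h2 : ∀ t ∈ s.Lay, ω.2 t = ω'.2 t) :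
    s.X ω' = s.X ω := by
  refine Ex_congr s.hRW fun t ht => ?_
  have ht' : t ∈ s.Lay := Cl_sub _ _ ht
  unfold pC
  rw [h2 t ht', h1 t (mem_VF.2 ⟨t, ht', base_mem_up t⟩)]

theorem rel_of_lay {ω ω' : Cfg} (h1 : ∀ v ∈ VF s.Lay, ω.1 v = ω'.1 v) (h2 : ∀ t ∈ s.Lay, ω.2 t = ω'.2 t) :
    s.Rel4 ω ω' :=
  rel_of_eq0 ⟨X_congr_lay h1 h2, fun v hv => (h1 v (VF_mono (s.X_sub ω) hv)).symm,
    fun t ht => (h2 t (s.X_sub ω ht)).symm⟩

theorem rel_add4 (k : ℤ) (ω : Cfg) : s.Rel4 ω (addH (4 * k) ω) := ⟨k, Eq0.refl s _⟩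

/-- heights functionals seen in `V0`, disjoint from the layers -/
theorem locV_of {V0 : Finset P2} (hV0 : V0 ⊆ s.G) (hVL : Disjoint V0 s.Lay) {f : (P2 → ℤ) → ℝ}
    (hf : ∀ h g : P2 → ℤ, (∀ v ∈ VF V0, h v = g v) → f h = f g) : s.LocV V0 (fun ω => f ω.1) := by
  intro ξ η _ _ h0 hc
  refine hf _ _ fun v hv => ?_
  refine gl_in hV0 h0 hc ?_
  obtain ⟨t, ht, hvt⟩ := mem_VF.1 hv
  refine mem_VF_of (Finset.mem_inter.2 ⟨s.mem_N.2 ⟨s.hGF (hV0 ht), fun h => ?_⟩, ht⟩) hvt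
  exact Finset.disjoint_left.1 hVL ht (s.Rv_sub η h)

/-- **Step B** -/
theorem stepB {c : ℝ} (hc : 1 ≤ c) {p : ℝ} (hp0 : 0 < p) (hp1 : p ≤ 1) {b : ℕ → Bk} {V0 : Finset P2}
    {m : ℕ} (hb : Chain s c p b m V0) (hV0 : V0 ⊆ s.G) (hVL : Disjoint V0 s.Lay) {f : (P2 → ℤ) → ℝ}
    (hf : ∀ h g : P2 → ℤ, (∀ v ∈ VF V0, h v = g v) → f h = f g)
    (h4 : ∀ (h : P2 → ℤ) (k : ℤ), f (fun v => h v + 4 * k) = f h) {Y : (P2 → ℤ) → ℝ}
    (hY : ∀ h g : P2 → ℤ, (∀ v, v ∉ VF s.G → h v = g v) → Y h = Y g) (hY1 : ∀ h, |Y h| ≤ 1) :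
    ∃ Yb : (P2 → ℤ) → ℝ, (∀ h g : P2 → ℤ, (∀ v ∈ VF s.Lay, h v = g v) → Yb h = Yb g) ∧
      (∀ h, |Yb h| ≤ 1) ∧ (∀ (h : P2 → ℤ) (k : ℤ), Yb (fun v => h v + 4 * k) = Yb h) ∧
      ∀ t : ℝ, 0 < t → |E c s.F (fun ω => f ω.1 * Y ω.1) - E c s.F (fun ω => f ω.1 * Yb ω.1)| ≤
        t * s.E2 c (fun ω ω' => s.Kp p b m ω ω' ^ 2) + t⁻¹ * E c s.F (fun ω => f ω.1 ^ 2) := by
  set Y1 : Cfg → ℝ := fun ω => Y ω.1 with hY1def
  set Yt := s.Yt c Y1 with hYt
  refine ⟨zav c s.Lay Yt, fun h g hg => ?_, fun h => ?_, fun h k => ?_, fun t ht => ?_⟩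
  · unfold zav zW
    have e1 : ∀ z ∈ zs s.Lay, wt c s.Lay (h, z) = wt c s.Lay (g, z) := fun z _ =>
      wt_coin c hg fun _ _ => rfl
    have e2 : ∀ z, Yt (h, z) = Yt (g, z) := fun z =>
      (Yt_eq c Y1 (rel_of_lay (s := s) (ω := (h, z)) (ω' := (g, z)) hg fun _ _ => rfl)).symm
    rw [Finset.sum_congr rfl fun z hz => by rw [e1 z hz, e2 z], Finset.sum_congr rfl e1]
  · exact zav_abs hc _ (fun ω => Yt_abs hc zero_le_one (fun ω _ => hY1 ω.1) ω) h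
  · unfold zav zW
    have e1 : ∀ z ∈ zs s.Lay, wt c s.Lay (fun v => h v + 4 * k, z) = wt c s.Lay (h, z) := fun z _ =>
      wt_add4 c s.Lay k (h, z)
    have e2 : ∀ z, Yt (fun v => h v + 4 * k, z) = Yt (h, z) := fun z =>
      Yt_eq c Y1 (rel_add4 (s := s) k (h, z))
    rw [Finset.sum_congr rfl fun z hz => by rw [e1 z hz, e2 z], Finset.sum_congr rfl e1]
  · have h1 := cov_le hc hp0 hp1 (locV_of hV0 hVL hf) (fun k ω => h4 ω.1 k) hb
      (V := s.G) (fun i hi => (hb.ok i hi).i5) hV0 le_rfl (Y := Y1) (fun ω _ => hY1 ω.1)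
      (fun ω _ η hη => by
        refine hY _ _ fun v hv => ?_
        exact (s.mem_K0.1 (s.mem_K.1 hη).1).2.1 v fun h => hv ((s.mem_Fr).1 h).1)
    have h2 : E c s.F (fun ω => f ω.1 * Yt ω) = E c s.F (fun ω => f ω.1 * zav c s.Lay Yt ω.1) :=
      E_zav hc s.Lay_sub_F (fun h z => (Yt_eq c Y1 (rel_of_lay (s := s) (ω := (h, z))
        (ω' := (h, zr s.Lay z)) (fun _ _ => rfl) fun t ht => (zr_in ht).symm)).symm) f
    rw [← h2]
    exact h1.trans (cs_le hc _ _ ht)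

end St
end Crest.Agent.R144.Cc169
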