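import Crest.Agent.R144.It3_844
import Crest.Agent.R144.Ps0_643

/-!
# R144, plane state of the integer models (helper967), part 1: the limit measure

* `GObs f` : `f : (P2 → ℤ) → ℝ` depends on finitely many heights and is invariant under `h ↦ h + c`;
* `exists_limit` : for any filter `l ≠ ⊥` and probability measures `μ i` on `P2 → ℤ`, carried by Lipschitz
  heights, such that `∫ f dμ i` converges along `l` for every `GObs f`, there is a probability measure
  `P` on `P2 → ℤ`, with `h 0 = 0`, Lipschitz, and `∫ f dP = lim` for every `GObs f` (`IsLim`).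
-/

set_option autoImplicit false

noncomputable section

namespace Crest.Agent.R144.Pst967

open MeasureTheory Filter Topology
open Crest.ProbabilityR.HexHeights (Adj)
open Crest.Agent.R144.It844

/-- integer heights -/
abbrev Hz : Type := P2 → ℤ

/-- local function -/
def LocZ {β : Type*} (S : Set P2) (F : Hz → β) : Prop := ∀ h g : Hz, (∀ v ∈ S, h v = g v) → F h = F g

/-- gradient function -/
def NeutZ {β : Type*} (F : Hz → β) : Prop := ∀ (h : Hz) (c : ℤ), F (fun v => h v + c) = F h

/-- local gradient observable -/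
structure GObs {β : Type*} (F : Hz → β) : Prop where
  loc : ∃ S : Finset P2, LocZ (S : Set P2) F
  neut : NeutZ F

theorem LocZ.mono {β : Type*} {S T : Set P2} (hST : S ⊆ T) {F : Hz → β} (hF : LocZ S F) : LocZ T F :=
  fun h g hg => hF h g fun v hv => hg v (hST hv)

theorem LocZ.comp {β γ : Type*} {S : Set P2} {F : Hz → β} (hF : LocZ S F) (k : β → γ) :
    LocZ S (fun h => k (F h)) := fun h g hg => by
  simp only [hF h g hg]

theorem GObs.comp {β γ : Type*} {F : Hz → β} (hF : GObs F) (k : β → γ) : GObs (fun h => k (F h)) := by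
  obtain ⟨⟨S, hS⟩, hN⟩ := hF
  exact ⟨⟨S, hS.comp k⟩, fun h c => by simp only [hN h c]⟩

theorem GObs.map₂ {β γ δ : Type*} {F : Hz → β} {G : Hz → γ} (hF : GObs F) (hG : GObs G)
    (k : β → γ → δ) : GObs (fun h => k (F h) (G h)) := by
  classical
  obtain ⟨⟨S, hS⟩, hN⟩ := hF
  obtain ⟨⟨T, hT⟩, hM⟩ := hG
  refine ⟨⟨S ∪ T, fun h g hg => ?_⟩, fun h c => ?_⟩
  · simp only [hS h g fun v hv => hg v (by
      rw [Finset.coe_union]; exact Or.inl hv), hT h g fun v hv => hg v (by
      rw [Finset.coe_union]; exact Or.inr hv)]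
  · simp only [hN h c, hM h c]

theorem GObs.const {β : Type*} (b : β) : GObs (fun _ : Hz => b) :=
  ⟨⟨∅, fun _ _ _ => rfl⟩, fun _ _ => rfl⟩

theorem GObs.grad (u v : P2) : GObs (fun h : Hz => h u - h v) := by
  classical
  refine ⟨⟨{u, v}, fun h g hg => ?_⟩, fun h c => ?_⟩
  · have h1 := hg u (by simp)
    have h2 := hg v (by simp)
    simp only [h1, h2]
  · simp only []
    ring

theorem measurable_of_loc {β : Type*} [MeasurableSpace β] {F : Hz → β}
    (hF : ∃ S : Finset P2, LocZ (S : Set P2) F) : Measurable F := by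
  classical
  obtain ⟨S, hS⟩ := hF
  -- factor through the restriction to `S`
  let r : Hz → (S → ℤ) := fun h v => h v
  have hr : Measurable r := measurable_pi_lambda _ fun v => measurable_pi_apply _
  let e : (S → ℤ) → Hz := fun a v => if hv : v ∈ S then a ⟨v, hv⟩ else 0
  have he : Measurable (fun a : S → ℤ => F (e a)) := measurable_of_countable _
  have hfac : F = fun h => F (e (r h)) := by
    funext h
    refine hS _ _ fun v hv => ?_
    have hv' : v ∈ S := hv
    simp only [e, r, dif_pos hv']
  rw [hfac]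
  exact he.comp hr

/-! ### a priori bound -/

/-- graph distance bound -/
def nrm (v : P2) : ℕ := v.1.natAbs + v.2.natAbs

theorem lip_bound {h : Hz} (hl : Lip h) (v : P2) : |h v - h 0| ≤ nrm v := by
  have row : ∀ (x y : ℤ) (n : ℕ), |h (x + n, y) - h (x, y)| ≤ n := by
    intro x y n
    induction n with
    | zero => simp
    | succ n ih =>
      have h1 := hl (x + (n + 1 : ℕ), y) (x + n, y) (by unfold Adj; simp only; push_cast; omega)
      simp only [abs_le] at h1 ih ⊢
      push_cast at h1 ih ⊢
      constructor <;> linarith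
  have col : ∀ (x y : ℤ) (n : ℕ), |h (x, y + n) - h (x, y)| ≤ n := by
    intro x y n
    induction n with
    | zero => simp
    | succ n ih =>
      have h1 := hl (x, y + (n + 1 : ℕ)) (x, y + n) (by unfold Adj; simp only; push_cast; omega)
      simp only [abs_le] at h1 ih ⊢
      push_cast at h1 ih ⊢
      constructor <;> linarith
  have row' : ∀ (x y : ℤ), |h (x, y) - h (0, y)| ≤ x.natAbs := by
    intro x y
    rcases le_total 0 x with hx | hx
    · have := row 0 y x.natAbs
      have e : (0 : ℤ) + ((x.natAbs : ℕ) : ℤ) = x := by omega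
      rwa [e] at this
    · have := row x y x.natAbs
      rw [show x + ((x.natAbs : ℕ) : ℤ) = 0 by omega] at this
      rwa [abs_sub_comm]
  have col' : ∀ (y : ℤ), |h (0, y) - h (0, 0)| ≤ y.natAbs := by
    intro y
    rcases le_total 0 y with hy | hy
    · have := col 0 0 y.natAbs
      have e : (0 : ℤ) + ((y.natAbs : ℕ) : ℤ) = y := by omega
      rwa [e] at this
    · have := col 0 y y.natAbs
      rw [show y + ((y.natAbs : ℕ) : ℤ) = 0 by omega] at this
      rwa [abs_sub_comm]
  have h1 := row' v.1 v.2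
  have h2 := col' v.2
  have e1 : (v.1, v.2) = v := rfl
  have e2 : ((0, 0) : P2) = 0 := rfl
  rw [e1] at h1
  rw [e2] at h2
  have h3 : ((nrm v : ℕ) : ℤ) = (v.1.natAbs : ℤ) + (v.2.natAbs : ℤ) := by
    unfold nrm; push_cast; rfl
  rw [h3]
  generalize ((v.1.natAbs : ℕ) : ℤ) = A at *
  generalize ((v.2.natAbs : ℕ) : ℤ) = B at *
  simp only [abs_le] at h1 h2 ⊢
  constructor <;> linarith

/-! ### the compact space of pinned heights -/

/-- pinned heights with the a priori bound -/
abbrev Kz : Type := (v : P2) → Set.Icc (-(nrm v : ℤ)) (nrm v : ℤ)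

instance (v : P2) : Finite (Set.Icc (-(nrm v : ℤ)) (nrm v : ℤ)) := (Set.finite_Icc _ _).to_subtype

/-- inclusion -/
def incl (k : Kz) : Hz := fun v => (k v : ℤ)

/-- pin at `0` and clamp -/
def pin (h : Hz) : Kz := fun v =>
  ⟨max (-(nrm v : ℤ)) (min (nrm v : ℤ) (h v - h 0)), le_max_left _ _,
    max_le (by omega) (min_le_left _ _)⟩

theorem incl_pin {h : Hz} (hl : Lip h) (v : P2) : incl (pin h) v = h v - h 0 := by
  have h1 := lip_bound hl v
  unfold incl pin
  simp only
  rw [abs_le] at h1
  rw [min_eq_right h1.2, max_eq_right h1.1]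

theorem measurable_incl : Measurable incl :=
  measurable_pi_lambda _ fun v => measurable_subtype_coe.comp (measurable_pi_apply v)

theorem measurable_pin : Measurable pin := by
  refine measurable_pi_lambda _ fun v => ?_
  refine Measurable.subtype_mk ?_
  refine measurable_const.max (measurable_const.min ?_)
  exact (measurable_pi_apply v).sub (measurable_pi_apply 0)

theorem continuous_of_locZ {F : Hz → ℝ} (hF : ∃ S : Finset P2, LocZ (S : Set P2) F) :
    Continuous fun k : Kz => F (incl k) := by
  classical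
  obtain ⟨S, hS⟩ := hF
  let r : Kz → ((v : S) → Set.Icc (-(nrm (v : P2) : ℤ)) (nrm (v : P2) : ℤ)) := fun k v => k v
  have hr : Continuous r := continuous_pi fun v => continuous_apply _
  let e : ((v : S) → Set.Icc (-(nrm (v : P2) : ℤ)) (nrm (v : P2) : ℤ)) → Hz :=
    fun a v => if hv : v ∈ S then (a ⟨v, hv⟩ : ℤ) else 0
  have he : Continuous (fun a : ((v : S) → Set.Icc (-(nrm (v : P2) : ℤ)) (nrm (v : P2) : ℤ)) => F (e a)) :=
    continuous_of_discreteTopology
  have hfac : (fun k : Kz => F (incl k)) = fun k => F (e (r k)) := by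
    funext k
    refine hS _ _ fun v hv => ?_
    have hv' : v ∈ S := hv
    simp only [e, r, dif_pos hv', incl]
  rw [hfac]
  exact he.comp hr

theorem bounded_of_locZ {F : Hz → ℝ} (hF : ∃ S : Finset P2, LocZ (S : Set P2) F) :
    ∃ C, ∀ k : Kz, ‖F (incl k)‖ ≤ C := by
  obtain ⟨C, hC⟩ := (isCompact_range (continuous_of_locZ hF)).isBounded.exists_norm_le
  exact ⟨C, fun k => hC _ ⟨k, rfl⟩⟩

/-- bounded continuous function on the compact space -/
def bcf {F : Hz → ℝ} (hF : ∃ S : Finset P2, LocZ (S : Set P2) F) : BoundedContinuousFunction Kz ℝ :=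
  BoundedContinuousFunction.mkOfCompact ⟨_, continuous_of_locZ hF⟩

theorem gobs_pin {F : Hz → ℝ} (hF : GObs F) {h : Hz} (hl : Lip h) : F (incl (pin h)) = F h := by
  have h1 : incl (pin h) = fun v => h v + (-(h 0)) := by
    funext v
    rw [incl_pin hl, sub_eq_add_neg]
  rw [h1, hF.neut]

/-- `P` computes the limits of the expectations `E i F` of local gradient observables -/
def IsLim {ι : Type*} (l : Filter ι) (E : ι → (Hz → ℝ) → ℝ) (P : Measure Hz) : Prop :=
  ∀ F : Hz → ℝ, GObs F → Tendsto (fun i => E i F) l (𝓝 (∫ h, F h ∂P))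

/-- structure of the limit measure on integer heights -/
structure PinnedZ (P : Measure Hz) : Prop where
  prob : IsProbabilityMeasure P
  zero : ∀ᵐ h ∂P, h 0 = 0
  lip : ∀ᵐ h ∂P, Lip h

/-- local gradient observables are integrable for laws on Lipschitz heights -/
theorem gobs_bounded {F : Hz → ℝ} (hF : GObs F) : ∃ C, ∀ h, Lip h → |F h| ≤ C := by
  obtain ⟨C, hC⟩ := bounded_of_locZ hF.loc
  refine ⟨C, fun h hl => ?_⟩
  have := hC (pin h)
  rwa [gobs_pin hF hl, Real.norm_eq_abs] at this

theorem integrable_gobs {F : Hz → ℝ} (hF : GObs F) {μ : Measure Hz} [IsFiniteMeasure μ]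
    (hl : ∀ᵐ h ∂μ, Lip h) : Integrable F μ := by
  obtain ⟨C, hC⟩ := gobs_bounded hF
  refine Integrable.of_bound (measurable_of_loc hF.loc).aestronglyMeasurable C ?_
  filter_upwards [hl] with h hh
  rw [Real.norm_eq_abs]
  exact hC h hh

/-- **the limit measure** -/
theorem exists_limit {ι : Type*} (l : Filter ι) [l.NeBot] (μ : ι → Measure Hz)
    (hp : ∀ i, IsProbabilityMeasure (μ i)) (hl : ∀ i, ∀ᵐ h ∂(μ i), Lip h)
    (hconv : ∀ F : Hz → ℝ, GObs F → ∃ a, Tendsto (fun i => ∫ h, F h ∂(μ i)) l (𝓝 a)) :
    ∃ P : Measure Hz, PinnedZ P ∧ IsLim l (fun i F => ∫ h, F h ∂(μ i)) P := by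
  classical
  -- laws on the compact space
  let u : ι → ProbabilityMeasure Kz := fun i =>
    ⟨(μ i).map pin, Measure.isProbabilityMeasure_map measurable_pin.aemeasurable⟩
  set U : Ultrafilter ι := Ultrafilter.of l with hU
  obtain ⟨Q, -, hQ⟩ := isCompact_univ.ultrafilter_le_nhds (U.map u) (by simp)
  have h1 : Tendsto u U (𝓝 Q) := hQ
  let P : Measure Hz := (Q : Measure Kz).map incl
  have hPp : IsProbabilityMeasure P :=
    Measure.isProbabilityMeasure_map measurable_incl.aemeasurable
  have hint : ∀ F : Hz → ℝ, GObs F → ∫ h, F h ∂P = ∫ k, F (incl k) ∂(Q : Measure Kz) := fun F hF =>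
    integral_map measurable_incl.aemeasurable (measurable_of_loc hF.loc).aestronglyMeasurable
  have hui : ∀ i (F : Hz → ℝ), GObs F → ∫ k, F (incl k) ∂(u i : Measure Kz) = ∫ h, F h ∂(μ i) := by
    intro i F hF
    have e : (u i : Measure Kz) = (μ i).map pin := rfl
    rw [e, integral_map measurable_pin.aemeasurable (continuous_of_locZ hF.loc).aestronglyMeasurable]
    refine integral_congr_ae ?_
    filter_upwards [hl i] with h hh
    exact gobs_pin hF hh
  have hlim : ∀ F : Hz → ℝ, GObs F → Tendsto (fun i => ∫ h, F h ∂(μ i)) l (𝓝 (∫ h, F h ∂P)) := by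
    intro F hF
    obtain ⟨a, ha⟩ := hconv F hF
    have h2 := (ProbabilityMeasure.tendsto_iff_forall_integral_tendsto.1 h1) (bcf hF.loc)
    have h3 : Tendsto (fun i => ∫ h, F h ∂(μ i)) U (𝓝 (∫ h, F h ∂P)) := by
      rw [hint F hF]
      refine h2.congr fun i => ?_
      exact hui i F hF
    have h4 := tendsto_nhds_unique h3 (ha.mono_left (Ultrafilter.of_le l))
    rwa [h4]
  refine ⟨P, ⟨hPp, ?_, ?_⟩, hlim⟩
  · have h5 : ∀ k : Kz, incl k 0 = 0 := by
      intro k
      obtain ⟨h6, h7⟩ := Set.mem_Icc.1 (k 0).2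
      unfold incl
      have e : (nrm 0 : ℤ) = 0 := by simp [nrm]
      omega
    have hm : MeasurableSet {h : Hz | h 0 = 0} := (measurable_pi_apply 0) (measurableSet_singleton 0)
    exact (ae_map_iff measurable_incl.aemeasurable hm).2 (Eventually.of_forall h5)
  · -- each edge
    have hedge : ∀ u v : P2, Adj u v → ∀ᵐ h ∂P, |h u - h v| ≤ 1 := by
      intro u v huv
      let F : Hz → ℝ := fun h => if |h u - h v| ≤ 1 then 0 else 1
      have hF : GObs F := (GObs.grad u v).comp (fun d : ℤ => if |d| ≤ 1 then (0 : ℝ) else 1)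
      have h6 : ∫ h, F h ∂P = 0 := by
        refine tendsto_nhds_unique (hlim F hF) ?_
        refine tendsto_const_nhds.congr fun i => ?_
        symm
        rw [integral_eq_zero_of_ae]
        filter_upwards [hl i] with h hh
        simp only [F, if_pos (hh u v huv), Pi.zero_apply]
      have h7 : 0 ≤ᵐ[P] F := Eventually.of_forall fun h => by
        simp only [F, Pi.zero_apply]; split_ifs <;> norm_num
      have h8 : Integrable F P := by
        refine Integrable.of_bound (measurable_of_loc hF.loc).aestronglyMeasurable 1 ?_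
        refine Eventually.of_forall fun h => ?_
        simp only [F]; split_ifs <;> simp
      have h9 := (integral_eq_zero_iff_of_nonneg_ae h7 h8).1 h6
      filter_upwards [h9] with h hh
      by_contra hc
      simp only [F, if_neg hc, Pi.zero_apply] at hh
      exact one_ne_zero hh
    have h10 : ∀ᵐ h ∂P, ∀ u v : P2, Adj u v → |h u - h v| ≤ 1 := by
      rw [ae_all_iff]; intro u
      rw [ae_all_iff]; intro v
      by_cases huv : Adj u v
      · filter_upwards [hedge u v huv] with h hh _ using hh
      · exact Eventually.of_forall fun h hh => absurd hh huv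
    exact h10

end Crest.Agent.R144.Pst967
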