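import Crest.Agent.R144.Ccw2_435
import Crest.Agent.R144.Pst1_967

/-!
# R144, closed-contour Ward identity (doc 1620), step (A2) for the integer plane law

`DLR x P` : `∫ F dP = ∫ ex x Λ h F dP(h)` for local gradient observables.
`joint` : if the product functionals of the contour `L` around `S1` and of `S2` are killed by `X`, and the
density of the pattern on `S1` with respect to the contour is `≤ C` off a set of mass `η`, then the joint
functionals `Y` of `S1 ∪ S2` are killed as well.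
-/

set_option autoImplicit false

noncomputable section

namespace Crest.Agent.R144.Ccw435

open MeasureTheory Filter Topology Finset
open Crest.ProbabilityR.HexHeights (Adj)
open Crest.Agent.R144.It844 Crest.Agent.R144.Pst967

/-- DLR property of a law on integer heights, for local gradient observables -/
def DLR (x : ℝ) (P : Measure Hz) : Prop :=
  ∀ (Λ : Finset P2) (F : Hz → ℝ), GObs F → ∫ h, F h ∂P = ∫ h, ex x Λ h F ∂P

/-- integer functional of charge `α` -/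
def ChgZ (α : ℝ) (F : Hz → ℂ) : Prop :=
  ∀ (h : Hz) (c : ℤ), F (fun v => h v + c) = Complex.exp (Complex.I * (α * c : ℝ)) * F h

/-! ### the local version of `ex x Λ h F` -/

open Classical in
/-- `g` in `Λ`, `h` outside -/
def patch (Λ : Finset P2) (h g : Hz) : Hz := fun v => if v ∈ Λ then g v else h v

/-- `ex` depends only on the boundary data seen by the observable and by the weights -/
theorem ex_local' {x : ℝ} {Λ : Finset P2} {τ τ' : Hz} (hτ : Lip τ) (hτ' : Lip τ') {S : Set P2}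
    {F : Hz → ℝ} (hF : LocZ S F) (h : ∀ v, v ∉ Λ → v ∈ nbhd Λ ∪ S → τ v = τ' v) :
    ex x Λ τ F = ex x Λ τ' F := by
  classical
  have h1 : ex x Λ τ F = ex x Λ τ (fun g => F (patch Λ τ g)) := by
    refine ex_congr fun g hg => hF _ _ fun v _ => ?_
    unfold patch
    split_ifs with hv
    · rfl
    · exact (mem_conf.1 hg).2 v hv
  have h2 : ex x Λ τ' F = ex x Λ τ' (fun g => F (patch Λ τ g)) := by
    refine ex_congr fun g hg => hF _ _ fun v hv' => ?_
    unfold patch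
    split_ifs with hv
    · rfl
    · rw [(mem_conf.1 hg).2 v hv, h v hv (Or.inr hv')]
  rw [h1, h2]
  refine ex_local x hτ hτ' (fun v hv hn => h v hv (Or.inl hn)) _ fun a b hab => ?_
  congr 1
  funext v
  unfold patch
  split_ifs with hv
  · exact hab v hv
  · rfl

open Classical in
/-- local version of `h ↦ ex x Λ h F` -/
def kern (x : ℝ) (Λ : Finset P2) (S : Set P2) (F : Hz → ℝ) (h : Hz) : ℝ :=
  if H : ∃ τ : Hz, Lip τ ∧ ∀ v, v ∉ Λ → v ∈ nbhd Λ ∪ S → τ v = h v then ex x Λ H.choose F else 0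

theorem kern_eq {x : ℝ} {Λ : Finset P2} {S : Set P2} {F : Hz → ℝ} (hF : LocZ S F) {h : Hz}
    (hl : Lip h) : kern x Λ S F h = ex x Λ h F := by
  have H : ∃ τ : Hz, Lip τ ∧ ∀ v, v ∉ Λ → v ∈ nbhd Λ ∪ S → τ v = h v := ⟨h, hl, fun _ _ _ => rfl⟩
  unfold kern
  rw [dif_pos H]
  exact ex_local' H.choose_spec.1 hl hF H.choose_spec.2

theorem kern_loc (x : ℝ) {Λ : Finset P2} {S : Set P2} {F : Hz → ℝ} (hF : LocZ S F) :
    LocZ ((nbhd Λ ∪ S) \ Λ) (kern x Λ S F) := by
  intro h g hg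
  have e : ∀ τ : Hz, (Lip τ ∧ ∀ v, v ∉ Λ → v ∈ nbhd Λ ∪ S → τ v = h v) ↔
      (Lip τ ∧ ∀ v, v ∉ Λ → v ∈ nbhd Λ ∪ S → τ v = g v) := fun τ => by
    refine and_congr_right fun _ => forall_congr' fun v => ?_
    refine imp_congr_right fun hv => imp_congr_right fun hv' => ?_
    rw [hg v ⟨hv', by simpa using hv⟩]
  unfold kern
  by_cases H : ∃ τ : Hz, Lip τ ∧ ∀ v, v ∉ Λ → v ∈ nbhd Λ ∪ S → τ v = h v
  · have H' : ∃ τ : Hz, Lip τ ∧ ∀ v, v ∉ Λ → v ∈ nbhd Λ ∪ S → τ v = g v := by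
      obtain ⟨τ, hτ⟩ := H; exact ⟨τ, (e τ).1 hτ⟩
    rw [dif_pos H, dif_pos H']
    refine ex_local' H.choose_spec.1 H'.choose_spec.1 hF fun v hv hv' => ?_
    rw [H.choose_spec.2 v hv hv', H'.choose_spec.2 v hv hv', hg v ⟨hv', by simpa using hv⟩]
  · have H' : ¬ ∃ τ : Hz, Lip τ ∧ ∀ v, v ∉ Λ → v ∈ nbhd Λ ∪ S → τ v = g v := by
      rintro ⟨τ, hτ⟩; exact H ⟨τ, (e τ).2 hτ⟩
    rw [dif_neg H, dif_neg H']

theorem kern_neut (x : ℝ) {Λ : Finset P2} {S : Set P2} {F : Hz → ℝ} (hF : LocZ S F)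
    (hN : NeutZ F) : NeutZ (kern x Λ S F) := by
  intro h c
  unfold kern
  by_cases H : ∃ τ : Hz, Lip τ ∧ ∀ v, v ∉ Λ → v ∈ nbhd Λ ∪ S → τ v = h v
  · have H' : ∃ τ : Hz, Lip τ ∧ ∀ v, v ∉ Λ → v ∈ nbhd Λ ∪ S → τ v = h v + c := by
      obtain ⟨τ, hτ, hτ2⟩ := H
      exact ⟨fun v => τ v + c, hτ.add_const c, fun v hv hv' => by
        show τ v + c = h v + c
        rw [hτ2 v hv hv']⟩
    rw [dif_pos H', dif_pos H]
    have e1 : ex x Λ H'.choose F = ex x Λ (fun v => H.choose v + c) F := by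
      refine ex_local' H'.choose_spec.1 (H.choose_spec.1.add_const c) hF fun v hv hv' => ?_
      rw [H'.choose_spec.2 v hv hv', H.choose_spec.2 v hv hv']
    rw [e1, ex_add_const]
    exact ex_congr fun g _ => hN g c
  · have H' : ¬ ∃ τ : Hz, Lip τ ∧ ∀ v, v ∉ Λ → v ∈ nbhd Λ ∪ S → τ v = h v + c := by
      rintro ⟨τ, hτ, hτ2⟩
      refine H ⟨fun v => τ v + -c, hτ.add_const (-c), fun v hv hv' => ?_⟩
      show τ v + -c = h v
      rw [hτ2 v hv hv']; ring
    rw [dif_neg H', dif_neg H]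

/-- the neighbourhood of a finite set is finite -/
theorem nbhd_finite (Λ : Finset P2) : (nbhd Λ).Finite := by
  classical
  have : nbhd Λ ⊆ ((Λ ∪ Λ.biUnion fun w =>
      {(w.1 + 1, w.2), (w.1 - 1, w.2), (w.1, w.2 + 1), (w.1, w.2 - 1), (w.1 + 1, w.2 - 1),
        (w.1 - 1, w.2 + 1)} : Finset P2) : Set P2) := by
    rintro v (hv | ⟨w, hw, hwv⟩)
    · simp [hv]
    · have h1 : v = (w.1 + 1, w.2) ∨ v = (w.1 - 1, w.2) ∨ v = (w.1, w.2 + 1) ∨
          v = (w.1, w.2 - 1) ∨ v = (w.1 + 1, w.2 - 1) ∨ v = (w.1 - 1, w.2 + 1) := by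
        obtain ⟨v1, v2⟩ := v
        obtain ⟨w1, w2⟩ := w
        unfold Adj at hwv
        simp only [Prod.mk.injEq] at hwv ⊢
        omega
      rw [Finset.mem_coe, Finset.mem_union, Finset.mem_biUnion]
      refine Or.inr ⟨w, hw, ?_⟩
      simpa using h1
  exact (Finset.finite_toSet _).subset this

theorem kern_gobs (x : ℝ) {Λ S : Finset P2} {F : Hz → ℝ} (hF : LocZ (S : Set P2) F)
    (hN : NeutZ F) : GObs (kern x Λ S F) := by
  classical
  refine ⟨⟨(nbhd_finite Λ).toFinset ∪ S, ?_⟩, kern_neut x hF hN⟩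
  refine (kern_loc x hF).mono ?_
  intro v hv
  rw [Finset.coe_union, Set.Finite.coe_toFinset]
  exact hv.1

/-- DLR from the convergence of the zero boundary laws -/
theorem dlr_of_lim {x : ℝ} (hx : 0 < x) {P : Measure Hz} {l : Filter (Finset P2)} [l.NeBot]
    (hl : ∀ Λ : Finset P2, ∀ᶠ Λ' in l, Λ ⊆ Λ') (hP : ∀ᵐ h ∂P, Lip h)
    (hlim : ∀ F : Hz → ℝ, GObs F → Tendsto (fun Λ => ex x Λ 0 F) l (𝓝 (∫ h, F h ∂P))) :
    DLR x P := by
  intro Λ F hF
  obtain ⟨S, hS⟩ := hF.loc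
  have hG := kern_gobs x (Λ := Λ) hS hF.neut
  have h1 : ∫ h, ex x Λ h F ∂P = ∫ h, kern x Λ S F h ∂P := by
    refine integral_congr_ae ?_
    filter_upwards [hP] with h hh
    exact (kern_eq hS hh).symm
  rw [h1]
  refine tendsto_nhds_unique (hlim F hF) ((hlim _ hG).congr' ?_)
  filter_upwards [hl Λ] with Λ' hΛ'
  rw [ex_tower hx hΛ' 0 F]
  exact ex_congr fun g hg => kern_eq hS (mem_conf.1 hg).1

/-! ### linearity and positivity of the kernel -/

theorem kern_nonneg {x : ℝ} {Λ : Finset P2} {S : Set P2} {F : Hz → ℝ} (hF : ∀ h, 0 ≤ F h)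
    (h : Hz) : 0 ≤ kern x Λ S F h := by
  unfold kern
  split_ifs
  · exact ex_nonneg fun g _ => hF g
  · exact le_rfl

theorem kern_sum {x : ℝ} {Λ : Finset P2} {S : Set P2} {A : Type*} (s : Finset A)
    (F : A → Hz → ℝ) (h : Hz) :
    ∑ a ∈ s, kern x Λ S (F a) h = kern x Λ S (fun g => ∑ a ∈ s, F a g) h := by
  unfold kern
  split_ifs with H
  · unfold ex
    rw [← Finset.smul_sum, Finset.sum_comm]
    congr 1
    exact Finset.sum_congr rfl fun g _ => by rw [Finset.smul_sum]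
  · simp

theorem kern_le_one {x : ℝ} (hx : 0 < x) {Λ : Finset P2} {S : Set P2} {F : Hz → ℝ}
    (hF : ∀ h, Lip h → F h ≤ 1) (h : Hz) : kern x Λ S F h ≤ 1 := by
  unfold kern
  split_ifs with H
  · calc ex x Λ H.choose F ≤ ex x Λ H.choose (fun _ => (1 : ℝ)) :=
        ex_mono fun g hg => hF g (mem_conf.1 hg).1
      _ = 1 := ex_const hx H.choose_spec.1 _
  · exact zero_le_one

/-! ### patterns -/

/-- pattern on `S1` relative to the base point `o` -/
def pat (o : P2) (S1 : Finset P2) (g : Hz) : S1 → ℤ := fun v => g v - g o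

theorem pat_loc (o : P2) (S1 : Finset P2) : LocZ ((S1 : Set P2) ∪ {o}) (pat o S1) := by
  intro h g hg
  funext v
  unfold pat
  rw [hg v (Or.inl v.2), hg o (Or.inr rfl)]

theorem pat_neut (o : P2) (S1 : Finset P2) : NeutZ (pat o S1) := by
  intro h c
  funext v
  unfold pat
  ring

/-- bound for the patterns -/
def patN (o : P2) (S1 : Finset P2) : ℤ := (∑ v ∈ S1, (nrm v : ℤ)) + nrm o

/-- the possible patterns -/
def pats (o : P2) (S1 : Finset P2) : Finset (S1 → ℤ) :=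
  Fintype.piFinset fun _ => Finset.Icc (-(patN o S1)) (patN o S1)

theorem lip_sub_le {h : Hz} (hl : Lip h) (u v : P2) : |h u - h v| ≤ nrm u + nrm v := by
  have h1 := lip_bound hl u
  have h2 := lip_bound hl v
  rw [abs_le] at *
  constructor <;> linarith

theorem pat_mem {o : P2} {S1 : Finset P2} {h : Hz} (hl : Lip h) : pat o S1 h ∈ pats o S1 := by
  rw [pats, Fintype.mem_piFinset]
  intro v
  rw [Finset.mem_Icc, ← abs_le]
  refine (lip_sub_le hl _ _).trans ?_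
  unfold patN
  have := Finset.single_le_sum (f := fun v => (nrm v : ℤ)) (s := S1)
    (fun v _ => Int.natCast_nonneg _) v.2
  linarith

open Classical in
/-- indicator of a pattern -/
def ind (o : P2) (S1 : Finset P2) (a : S1 → ℤ) (g : Hz) : ℝ := if pat o S1 g = a then 1 else 0

theorem ind_nonneg (o : P2) (S1 : Finset P2) (a : S1 → ℤ) (g : Hz) : 0 ≤ ind o S1 a g := by
  unfold ind; split_ifs <;> norm_num

theorem ind_loc (o : P2) (S1 : Finset P2) (a : S1 → ℤ) :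
    LocZ ((S1 : Set P2) ∪ {o}) (ind o S1 a) := by
  intro h g hg
  unfold ind
  rw [pat_loc o S1 h g hg]

theorem ind_neut (o : P2) (S1 : Finset P2) (a : S1 → ℤ) : NeutZ (ind o S1 a) := by
  intro h c
  unfold ind
  rw [pat_neut o S1 h c]

theorem sum_ind {o : P2} {S1 : Finset P2} {h : Hz} (hl : Lip h) :
    ∑ a ∈ pats o S1, ind o S1 a h = 1 := by
  classical
  unfold ind
  rw [Finset.sum_ite_eq, if_pos (pat_mem hl)]

/-- the conditional probability of the pattern `a`, local version -/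
def qq (x : ℝ) (Λ : Finset P2) (o : P2) (S1 : Finset P2) (a : S1 → ℤ) : Hz → ℝ :=
  kern x Λ ((S1 : Set P2) ∪ {o}) (ind o S1 a)

theorem qq_eq {x : ℝ} {Λ : Finset P2} {o : P2} {S1 : Finset P2} {a : S1 → ℤ} {h : Hz}
    (hl : Lip h) : qq x Λ o S1 a h = ex x Λ h (ind o S1 a) := kern_eq (ind_loc o S1 a) hl

theorem qq_nonneg {x : ℝ} {Λ : Finset P2} {o : P2} {S1 : Finset P2} {a : S1 → ℤ} (h : Hz) :
    0 ≤ qq x Λ o S1 a h := kern_nonneg (ind_nonneg o S1 a) h

theorem sum_qq {x : ℝ} (hx : 0 < x) {Λ : Finset P2} {o : P2} {S1 : Finset P2} (h : Hz) :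
    ∑ a ∈ pats o S1, qq x Λ o S1 a h ≤ 1 := by
  unfold qq
  rw [kern_sum]
  exact kern_le_one hx (fun g hg => (sum_ind hg).le) h

theorem qq_loc (x : ℝ) {Λ L : Finset P2} {o : P2} {S1 : Finset P2} (hL : nbhd Λ ⊆ Λ ∪ L)
    (hS1 : S1 ⊆ Λ) (ho : o ∈ L) (a : S1 → ℤ) : LocZ (L : Set P2) (qq x Λ o S1 a) := by
  refine (kern_loc x (ind_loc o S1 a)).mono ?_
  rintro v ⟨hv, hvΛ⟩
  rcases hv with hv | hv | hv
  · rcases hL hv with h | h
    · exact absurd h hvΛ
    · exact h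
  · exact absurd (hS1 hv) hvΛ
  · rw [Set.mem_singleton_iff.1 hv]; exact ho

theorem qq_neut (x : ℝ) {Λ : Finset P2} {o : P2} {S1 : Finset P2} (a : S1 → ℤ) :
    NeutZ (qq x Λ o S1 a) := kern_neut x (ind_loc o S1 a) (ind_neut o S1 a)

end Crest.Agent.R144.Ccw435
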