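import Crest.Agent.R144.Ccw3_435

/-!
# R144, closed-contour Ward identity (doc 1620), step (A2): joint functionals of two patches

`joint` (main theorem): see the statement.
-/

set_option autoImplicit false

noncomputable section

namespace Crest.Agent.R144.Ccw435

open MeasureTheory Filter Topology Finset
open Crest.ProbabilityR.HexHeights (Adj)
open Crest.Agent.R144.It844 Crest.Agent.R144.Pst967

section Joint

variable {x : ℝ} {P : Measure Hz} {Λ S1 L S2 T : Finset P2} {o b : P2}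

open Classical in
/-- insert the pattern `a` in `S1` -/
def ins (o : P2) (S1 : Finset P2) (a : S1 → ℤ) (h : Hz) : Hz :=
  fun v => if hv : v ∈ S1 then h o + a ⟨v, hv⟩ else h v

open Classical in
/-- pattern `a` on `S1`, `0` at `o`, `h - h b + k` elsewhere -/
def ins2 (o b : P2) (S1 : Finset P2) (a : S1 → ℤ) (k : ℤ) (h : Hz) : Hz :=
  fun v => if hv : v ∈ S1 then a ⟨v, hv⟩ else if v = o then 0 else h v - h b + k

/-- on the event `h b - h o = k` the functional only sees `S2` -/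
theorem ins_eq_ins2 {Y : Hz → ℝ} (hYn : NeutZ Y) {a : S1 → ℤ} {k : ℤ} {h : Hz}
    (hk : h b - h o = k) : Y (ins o S1 a h) = Y (ins2 o b S1 a k h) := by
  rw [← hYn (ins o S1 a h) (-h o)]
  congr 1
  funext v
  unfold ins ins2
  by_cases hv : v ∈ S1
  · simp only [dif_pos hv]; ring
  · simp only [dif_neg hv]
    by_cases hvo : v = o
    · rw [if_pos hvo, hvo]; ring
    · rw [if_neg hvo, ← hk]; ring

theorem ins2_loc {Y : Hz → ℝ} (hY : LocZ ((S1 : Set P2) ∪ S2 ∪ {o}) Y) (hb : b ∈ S2) (a : S1 → ℤ)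
    (k : ℤ) : LocZ (S2 : Set P2) fun h => Y (ins2 o b S1 a k h) := by
  intro h g hg
  refine hY _ _ fun v hv => ?_
  unfold ins2
  by_cases hv1 : v ∈ S1
  · simp only [dif_pos hv1]
  · simp only [dif_neg hv1]
    by_cases hvo : v = o
    · rw [if_pos hvo, if_pos hvo]
    · rw [if_neg hvo, if_neg hvo]
      have hv2 : v ∈ (S2 : Set P2) := by
        rcases hv with (hv | hv) | hv
        · exact absurd hv hv1
        · exact hv
        · exact absurd hv hvo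
      rw [hg v hv2, hg b hb]

theorem ins2_neut {Y : Hz → ℝ} (a : S1 → ℤ) (k : ℤ) :
    NeutZ fun h => Y (ins2 o b S1 a k h) := by
  intro h c
  show Y _ = Y _
  congr 1
  funext v
  unfold ins2
  by_cases hv1 : v ∈ S1
  · simp only [dif_pos hv1]
  · simp only [dif_neg hv1]
    by_cases hvo : v = o
    · rw [if_pos hvo, if_pos hvo]
    · rw [if_neg hvo, if_neg hvo]; ring

theorem ins_loc {Y : Hz → ℝ} (hY : LocZ ((S1 : Set P2) ∪ S2 ∪ {o}) Y) (a : S1 → ℤ) :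
    LocZ ((S2 : Set P2) ∪ {o}) fun h => Y (ins o S1 a h) := by
  intro h g hg
  refine hY _ _ fun v hv => ?_
  unfold ins
  by_cases hv1 : v ∈ S1
  · simp only [dif_pos hv1]; rw [hg o (Or.inr rfl)]
  · simp only [dif_neg hv1]
    refine hg v ?_
    rcases hv with (hv | hv) | hv
    · exact absurd hv hv1
    · exact Or.inl hv
    · exact Or.inr hv

theorem ins_neut {Y : Hz → ℝ} (hYn : NeutZ Y) (a : S1 → ℤ) :
    NeutZ fun h => Y (ins o S1 a h) := by
  intro h c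
  show Y _ = Y _
  rw [← hYn (ins o S1 a h) c]
  congr 1
  funext v
  unfold ins
  by_cases hv1 : v ∈ S1
  · simp only [dif_pos hv1]; ring
  · simp only [dif_neg hv1]

/-- the charged test functional -/
def eZ (α : ℝ) (n : ℤ) : ℂ := Complex.exp (Complex.I * (α * n : ℝ))

theorem norm_eZ (α : ℝ) (n : ℤ) : ‖eZ α n‖ = 1 := by
  unfold eZ
  rw [mul_comm, Complex.norm_exp_ofReal_mul_I]

theorem eZ_add (α : ℝ) (m n : ℤ) : eZ α (m + n) = eZ α m * eZ α n := by
  unfold eZ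
  rw [← Complex.exp_add]
  congr 1
  push_cast
  ring

theorem eZ_neg (α : ℝ) (n : ℤ) : eZ (-α) n = eZ α (-n) := by
  unfold eZ
  congr 1
  push_cast
  ring

/-- product functionals: expansion in characters -/
theorem product_level (hP : PinnedZ P) (ho : o ∈ L) (hb : b ∈ S2) (hoS : o ∉ S1)
    {X : Hz → ℝ} (hX : LocZ (T : Set P2) X) (hXn : NeutZ X)
    {Y : Hz → ℝ} (hY : LocZ ((S1 : Set P2) ∪ S2 ∪ {o}) Y) (hYn : NeutZ Y) (hY1 : ∀ h, |Y h| ≤ 1)
    {M : ℕ} (hYM : ∀ h, (M : ℤ) < |h b - h o| → Y h = 0) (hbS : b ∉ S1)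
    {ε : ℝ}
    (hA1 : ∀ (α : ℝ) (Z1 Z2 : Hz → ℂ), LocZ (L : Set P2) Z1 → LocZ (S2 : Set P2) Z2 →
      ChgZ (-α) Z1 → ChgZ α Z2 → (∀ h, ‖Z1 h‖ ≤ 1) → (∀ h, ‖Z2 h‖ ≤ 1) →
      ‖∫ h, (X h : ℂ) * Z1 h * Z2 h ∂P‖ ≤ ε)
    (a : S1 → ℤ) {φ : Hz → ℝ} (hφ : LocZ (L : Set P2) φ) (hφn : NeutZ φ)
    (hφ0 : ∀ h, 0 ≤ φ h) (hφ1 : ∀ h, φ h ≤ 1) :
    ‖∫ h, ((φ h * X h : ℝ) : ℂ) * ((Y (ins o S1 a h) : ℝ) : ℂ) ∂P‖ ≤ (2 * M + 1) * ε := by
  classical
  have := hP.prob
  set m : ℕ := nrm b + nrm o + M + 1 with hm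
  have hm1 : 0 < m := by rw [hm]; omega
  have hm0 : (m : ℂ) ≠ 0 := Nat.cast_ne_zero.2 hm1.ne'
  have hmpos : (0 : ℝ) < m := Nat.cast_pos.2 hm1
  let Z1 : ℝ → Hz → ℂ := fun α h => (φ h : ℂ) * eZ (-α) (h o)
  let Z2 : ℝ → ℤ → Hz → ℂ := fun α k h => ((Y (ins2 o b S1 a k h) : ℝ) : ℂ) * eZ α (h b - k)
  have hZ1l : ∀ α, LocZ (L : Set P2) (Z1 α) := fun α h g hg => by
    simp only [Z1, hφ h g hg, hg o ho]
  have hZ2l : ∀ α k, LocZ (S2 : Set P2) (Z2 α k) := fun α k h g hg => by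
    simp only [Z2, ins2_loc hY hb a k h g hg, hg b hb]
  have hZ1c : ∀ α, ChgZ (-α) (Z1 α) := fun α h c => by
    simp only [Z1, hφn h c]
    rw [eZ_add]
    unfold eZ; ring
  have hZ2c : ∀ α k, ChgZ α (Z2 α k) := fun α k h c => by
    have e := ins2_neut (o := o) (b := b) (S1 := S1) (Y := Y) a k h c
    simp only at e
    simp only [Z2, e]
    rw [show h b + c - k = (h b - k) + c by ring, eZ_add]
    unfold eZ; ring
  have hZ1n : ∀ α h, ‖Z1 α h‖ ≤ 1 := fun α h => by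
    simp only [Z1]
    rw [norm_mul, norm_eZ, mul_one, Complex.norm_real, Real.norm_eq_abs, abs_of_nonneg (hφ0 h)]
    exact hφ1 h
  have hZ2n : ∀ α k h, ‖Z2 α k h‖ ≤ 1 := fun α k h => by
    simp only [Z2]
    rw [norm_mul, norm_eZ, mul_one, Complex.norm_real, Real.norm_eq_abs]
    exact hY1 _
  have hXi : Integrable X P := integrable_gobs ⟨⟨T, hX⟩, hXn⟩ hP.lip
  have hZ1m : ∀ α, Measurable (Z1 α) := fun α => measurable_of_loc ⟨L, hZ1l α⟩
  have hZ2m : ∀ α k, Measurable (Z2 α k) := fun α k => measurable_of_loc ⟨S2, hZ2l α k⟩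
  have hint : ∀ α k, Integrable (fun h => (X h : ℂ) * Z1 α h * Z2 α k h) P := fun α k => by
    have h1 : Integrable (fun h => ((X h : ℝ) : ℂ)) P := hXi.ofReal
    have h2 : (fun h => (X h : ℂ) * Z1 α h * Z2 α k h)
        = fun h => (Z1 α h * Z2 α k h) * (X h : ℂ) := by funext h; ring
    rw [h2]
    refine h1.bdd_mul (c := 1) ((hZ1m α).mul (hZ2m α k)).aestronglyMeasurable
      (ae_of_all _ fun h => ?_)
    rw [norm_mul]
    exact mul_le_one₀ (hZ1n α h) (norm_nonneg _) (hZ2n α k h)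
  -- pointwise expansion
  have hpt : ∀ h : Hz, Lip h → ((φ h * X h : ℝ) : ℂ) * ((Y (ins o S1 a h) : ℝ) : ℂ)
      = ∑ k ∈ Finset.Icc (-(M : ℤ)) M, (m : ℂ)⁻¹ * ∑ j ∈ Finset.range m,
        (X h : ℂ) * Z1 (2 * Real.pi * j / m) h * Z2 (2 * Real.pi * j / m) k h := by
    intro h hl
    have e1 : ∀ k ∈ Finset.Icc (-(M : ℤ)) M, (m : ℂ)⁻¹ * ∑ j ∈ Finset.range m,
        (X h : ℂ) * Z1 (2 * Real.pi * j / m) h * Z2 (2 * Real.pi * j / m) k h
        = (if h b - h o = k then ((φ h * X h : ℝ) : ℂ) * ((Y (ins2 o b S1 a k h) : ℝ) : ℂ)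
          else 0) := by
      intro k hk
      rw [Finset.mem_Icc] at hk
      have hbd : |h b - h o - k| < m := by
        have h1 := lip_sub_le hl b o
        rw [abs_lt]
        rw [abs_le] at h1
        rw [hm]
        push_cast
        constructor <;> linarith [h1.1, h1.2, hk.1, hk.2]
      have hc := char_sum hbd
      have e2 : ∀ j ∈ Finset.range m,
          (X h : ℂ) * Z1 (2 * Real.pi * j / m) h * Z2 (2 * Real.pi * j / m) k h
          = (((φ h * X h : ℝ) : ℂ) * ((Y (ins2 o b S1 a k h) : ℝ) : ℂ)) *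
            Complex.exp (Complex.I * (((2 * Real.pi * j / m : ℝ) * ((h b - h o - k : ℤ) : ℝ) : ℝ) : ℂ)) := by
        intro j _
        have e3 : Complex.exp (Complex.I * (((2 * Real.pi * j / m : ℝ) * ((h b - h o - k : ℤ) : ℝ) : ℝ) : ℂ))
            = eZ (-(2 * Real.pi * j / m)) (h o) * eZ (2 * Real.pi * j / m) (h b - k) := by
          rw [eZ_neg, ← eZ_add, eZ]
          congr 4
          ring_nf
        rw [e3]
        simp only [Z1, Z2]
        push_cast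
        ring
      rw [Finset.sum_congr rfl e2, ← Finset.mul_sum, mul_left_comm, hc]
      by_cases hd : h b - h o = k
      · rw [if_pos hd, if_pos (by rw [hd, sub_self]), mul_one]
      · rw [if_neg hd, if_neg (fun h0 => hd (by linarith [h0])), mul_zero]
    rw [Finset.sum_congr rfl e1, Finset.sum_ite_eq]
    by_cases hk : h b - h o ∈ Finset.Icc (-(M : ℤ)) M
    · rw [if_pos hk, ins_eq_ins2 hYn rfl]
    · rw [if_neg hk]
      have hlt : (M : ℤ) < |h b - h o| := by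
        rw [Finset.mem_Icc, ← abs_le, not_le] at hk; exact hk
      have e4 : ins o S1 a h b - ins o S1 a h o = h b - h o := by
        unfold ins; rw [dif_neg hbS, dif_neg hoS]
      rw [hYM (ins o S1 a h) (by rw [e4]; exact hlt)]
      simp
  have e5 : ∫ h, ((φ h * X h : ℝ) : ℂ) * ((Y (ins o S1 a h) : ℝ) : ℂ) ∂P
      = ∑ k ∈ Finset.Icc (-(M : ℤ)) M, (m : ℂ)⁻¹ * ∑ j ∈ Finset.range m,
        ∫ h, (X h : ℂ) * Z1 (2 * Real.pi * j / m) h * Z2 (2 * Real.pi * j / m) k h ∂P := by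
    rw [integral_congr_ae (g := fun h => ∑ k ∈ Finset.Icc (-(M : ℤ)) M, (m : ℂ)⁻¹ *
      ∑ j ∈ Finset.range m, (X h : ℂ) * Z1 (2 * Real.pi * j / m) h * Z2 (2 * Real.pi * j / m) k h)]
    · rw [integral_finsetSum]
      · refine Finset.sum_congr rfl fun k _ => ?_
        rw [integral_const_mul, integral_finsetSum]
        exact fun j _ => hint _ k
      · exact fun k _ => (integrable_finsetSum _ fun j _ => hint _ k).const_mul _
    · filter_upwards [hP.lip] with h hh using hpt h hh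
  rw [e5]
  refine (norm_sum_le _ _).trans ?_
  have e6 : ∀ k ∈ Finset.Icc (-(M : ℤ)) M, ‖(m : ℂ)⁻¹ * ∑ j ∈ Finset.range m,
        ∫ h, (X h : ℂ) * Z1 (2 * Real.pi * j / m) h * Z2 (2 * Real.pi * j / m) k h ∂P‖ ≤ ε := by
    intro k _
    rw [norm_mul, norm_inv, Complex.norm_natCast, inv_mul_le_iff₀ hmpos]
    refine (norm_sum_le _ _).trans ?_
    refine (Finset.sum_le_sum fun j _ => hA1 _ _ _ (hZ1l _) (hZ2l _ k) (hZ1c _) (hZ2c _ k)
      (hZ1n _) (hZ2n _ k)).trans ?_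
    rw [Finset.sum_const, Finset.card_range, nsmul_eq_mul]
  refine (Finset.sum_le_sum e6).trans ?_
  rw [Finset.sum_const, nsmul_eq_mul]
  refine le_of_eq ?_
  congr 1
  rw [Int.card_Icc]
  have : ((M : ℤ) + 1 - -(M : ℤ)).toNat = 2 * M + 1 := by omega
  rw [this]; push_cast; ring

theorem ex_sum_mul {x : ℝ} {Λ : Finset P2} {τ : Hz} {A : Type*} (s : Finset A) (F : A → Hz → ℝ)
    (c : A → ℝ) : ex x Λ τ (fun g => ∑ a ∈ s, F a g * c a) = ∑ a ∈ s, ex x Λ τ (F a) * c a := by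
  unfold ex
  simp only [smul_eq_mul]
  have : ∀ g ∈ conf Λ τ, wt x Λ g * ∑ a ∈ s, F a g * c a = ∑ a ∈ s, (wt x Λ g * F a g) * c a :=
    fun g _ => by rw [Finset.mul_sum]; exact Finset.sum_congr rfl fun a _ => by ring
  rw [Finset.sum_congr rfl this, Finset.sum_comm, Finset.mul_sum]
  refine Finset.sum_congr rfl fun a _ => ?_
  rw [← Finset.sum_mul]; ring

/-- DLR for the product of an outside functional and a joint functional -/
theorem ex_joint (hoΛ : o ∉ Λ) (hS2 : Disjoint S2 Λ) (hT : Disjoint T Λ)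
    {X : Hz → ℝ} (hX : LocZ (T : Set P2) X) {Y : Hz → ℝ}
    (hY : LocZ ((S1 : Set P2) ∪ S2 ∪ {o}) Y) {h : Hz} (hl : Lip h) :
    ex x Λ h (fun g => X g * Y g)
      = ∑ a ∈ pats o S1, qq x Λ o S1 a h * (X h * Y (ins o S1 a h)) := by
  classical
  have e1 : ex x Λ h (fun g => X g * Y g)
      = ex x Λ h (fun g => ∑ a ∈ pats o S1, ind o S1 a g * (X h * Y (ins o S1 a h))) := by
    refine ex_congr fun g hg => ?_
    obtain ⟨hgl, hgo⟩ := mem_conf.1 hg
    unfold ind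
    simp only [ite_mul, one_mul, zero_mul]
    rw [Finset.sum_ite_eq, if_pos (pat_mem hgl)]
    have hXg : X g = X h := hX _ _ fun v hv =>
      hgo v fun hv' => (Finset.disjoint_left.1 hT hv) hv'
    rw [hXg]
    congr 1
    refine hY _ _ fun v hv => ?_
    unfold ins
    by_cases hv1 : v ∈ S1
    · rw [dif_pos hv1]
      show g v = h o + (g v - g o)
      rw [hgo o hoΛ]; ring
    · rw [dif_neg hv1]
      refine hgo v ?_
      rcases hv with (hv | hv) | hv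
      · exact absurd hv hv1
      · exact fun hv' => (Finset.disjoint_left.1 hS2 hv) hv'
      · rw [Set.mem_singleton_iff.1 hv]; exact hoΛ
  rw [e1, ex_sum_mul]
  exact Finset.sum_congr rfl fun a _ => by rw [qq_eq hl]

theorem memLp_gobs {X : Hz → ℝ} (hX : GObs X) {P : Measure Hz} [IsProbabilityMeasure P]
    (hl : ∀ᵐ h ∂P, Lip h) : MemLp X 2 P := by
  obtain ⟨C, hC⟩ := gobs_bounded hX
  refine MemLp.of_bound (measurable_of_loc hX.loc).aestronglyMeasurable C ?_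
  filter_upwards [hl] with h hh
  rw [Real.norm_eq_abs]
  exact hC h hh

theorem joint0 (hx : 0 < x) (hP : PinnedZ P) (hD : DLR x P) (ho : o ∈ L) (hLΛ : Disjoint L Λ)
    (hb : b ∈ S2) (hS1 : S1 ⊆ Λ) (hL : nbhd Λ ⊆ Λ ∪ L) (hS2 : Disjoint S2 Λ) (hT : Disjoint T Λ)
    {X : Hz → ℝ} (hX : LocZ (T : Set P2) X) (hXn : NeutZ X)
    {Y : Hz → ℝ} (hY : LocZ ((S1 : Set P2) ∪ S2 ∪ {o}) Y) (hYn : NeutZ Y) (hY1 : ∀ h, |Y h| ≤ 1)
    {M : ℕ} (hYM : ∀ h, (M : ℤ) < |h b - h o| → Y h = 0) {C η ε : ℝ} (hC : 0 < C) (hε : 0 ≤ ε)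
    (hη : ∑ a ∈ pats o S1, ∫ h, (if C * (∫ h', qq x Λ o S1 a h' ∂P) < qq x Λ o S1 a h then
      qq x Λ o S1 a h else 0) ∂P ≤ η)
    (hA1 : ∀ (α : ℝ) (Z1 Z2 : Hz → ℂ), LocZ (L : Set P2) Z1 → LocZ (S2 : Set P2) Z2 →
      ChgZ (-α) Z1 → ChgZ α Z2 → (∀ h, ‖Z1 h‖ ≤ 1) → (∀ h, ‖Z2 h‖ ≤ 1) →
      ‖∫ h, (X h : ℂ) * Z1 h * Z2 h ∂P‖ ≤ ε) :
    |∫ h, X h * Y h ∂P| ≤ C * ((2 * M + 1) * ε) + √(∫ h, X h ^ 2 ∂P) * √η := by
  classical
  have := hP.prob
  have hoΛ : o ∉ Λ := fun h => (Finset.disjoint_left.1 hLΛ ho) h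
  have hoS : o ∉ S1 := fun h => hoΛ (hS1 h)
  have hbS : b ∉ S1 := fun h => (Finset.disjoint_left.1 hS2 hb) (hS1 h)
  have hXg : GObs X := ⟨⟨T, hX⟩, hXn⟩
  have hYg : GObs Y := ⟨⟨S1 ∪ S2 ∪ {o}, by push_cast; exact hY⟩, hYn⟩
  have e1 : ∫ h, X h * Y h ∂P
      = ∫ h, ∑ a ∈ pats o S1, qq x Λ o S1 a h * (X h * Y (ins o S1 a h)) ∂P := by
    rw [hD Λ _ (hXg.map₂ hYg fun s t => s * t)]
    refine integral_congr_ae ?_
    filter_upwards [hP.lip] with h hh using ex_joint hoΛ hS2 hT hX hY hh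
  have e2 : ((∫ h, X h * Y h ∂P : ℝ) : ℂ) = ∫ h, ∑ a ∈ pats o S1,
      ((qq x Λ o S1 a h * X h : ℝ) : ℂ) * ((Y (ins o S1 a h) : ℝ) : ℂ) ∂P := by
    rw [e1, ← integral_complex_ofReal]
    refine integral_congr_ae (ae_of_all _ fun h => ?_)
    simp only
    push_cast
    exact Finset.sum_congr rfl fun a _ => by ring
  have e3 : |∫ h, X h * Y h ∂P| = ‖((∫ h, X h * Y h ∂P : ℝ) : ℂ)‖ := by
    rw [Complex.norm_real, Real.norm_eq_abs]
  have hqm : ∀ a ∈ pats o S1, Measurable (qq x Λ o S1 a) := fun a _ =>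
    measurable_of_loc ⟨L, qq_loc x hL hS1 ho a⟩
  rw [e3, e2]
  refine density (pats o S1) (qq x Λ o S1) hqm (fun a _ h => qq_nonneg h)
    (fun h => sum_qq hx h) X (memLp_gobs hXg hP.lip)
    (fun a h => ((Y (ins o S1 a h) : ℝ) : ℂ)) (fun a _ => ?_) (fun a _ h => ?_) hC
    (by positivity) hη ?_
  · refine Complex.measurable_ofReal.comp (measurable_of_loc ⟨S2 ∪ {o}, ?_⟩)
    push_cast
    exact ins_loc hY a
  · rw [Complex.norm_real, Real.norm_eq_abs]; exact hY1 _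
  · rintro a _ φ ⟨g, -, hg⟩ h0 h1
    refine product_level hP ho hb hoS hX hXn hY hYn hY1 hYM hbS hA1 a ?_ ?_ h0 h1
    · rw [hg]; exact (qq_loc x hL hS1 ho a).comp g
    · intro h c
      rw [hg]
      simp only [qq_neut x a h c]

/-- **Step (A2)**: joint functionals of two patches are killed. -/
theorem joint (hx : 0 < x) (hP : PinnedZ P) (hD : DLR x P) (ho : o ∈ L) (hLΛ : Disjoint L Λ)
    (hb : b ∈ S2) (hS1 : S1 ⊆ Λ) (hL : nbhd Λ ⊆ Λ ∪ L) (hS2 : Disjoint S2 Λ) (hT : Disjoint T Λ)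
    {X : Hz → ℝ} (hX : LocZ (T : Set P2) X) (hXn : NeutZ X)
    {Y : Hz → ℝ} (hY : LocZ ((S1 : Set P2) ∪ S2) Y) (hYn : NeutZ Y) (hY1 : ∀ h, |Y h| ≤ 1)
    (M : ℕ) {C η ε : ℝ} (hC : 0 < C) (hε : 0 ≤ ε)
    (hη : ∑ a ∈ pats o S1, ∫ h, (if C * (∫ h', qq x Λ o S1 a h' ∂P) < qq x Λ o S1 a h then
      qq x Λ o S1 a h else 0) ∂P ≤ η)
    (hA1 : ∀ (α : ℝ) (Z1 Z2 : Hz → ℂ), LocZ (L : Set P2) Z1 → LocZ (S2 : Set P2) Z2 →
      ChgZ (-α) Z1 → ChgZ α Z2 → (∀ h, ‖Z1 h‖ ≤ 1) → (∀ h, ‖Z2 h‖ ≤ 1) →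
      ‖∫ h, (X h : ℂ) * Z1 h * Z2 h ∂P‖ ≤ ε) :
    |∫ h, X h * Y h ∂P| ≤ C * ((2 * M + 1) * ε)
      + √(∫ h, X h ^ 2 ∂P) * (√η + √(P.real {h | (M : ℤ) < |h b - h o|})) := by
  classical
  have := hP.prob
  have hXg : GObs X := ⟨⟨T, hX⟩, hXn⟩
  have hYg : GObs Y := ⟨⟨S1 ∪ S2, by push_cast; exact hY⟩, hYn⟩
  set J : Hz → ℝ := fun h => if (M : ℤ) < |h b - h o| then 1 else 0 with hJ
  have hJg : GObs J := (GObs.grad b o).comp fun d : ℤ => if (M : ℤ) < |d| then (1 : ℝ) else 0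
  have hJ0 : ∀ h, 0 ≤ J h := fun h => by simp only [hJ]; split_ifs <;> norm_num
  have hJ1 : ∀ h, J h ≤ 1 := fun h => by simp only [hJ]; split_ifs <;> norm_num
  set Y' : Hz → ℝ := fun h => Y h * (1 - J h) with hY'
  have hY'loc : LocZ ((S1 : Set P2) ∪ S2 ∪ {o}) Y' := by
    intro h g hg
    have e1 : Y h = Y g := hY h g fun v hv => hg v (Or.inl hv)
    have e2 : h b = g b := hg b (Or.inl (Or.inr hb))
    have e3 : h o = g o := hg o (Or.inr rfl)
    simp only [hY', hJ, e1, e2, e3]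
  have hY'n : NeutZ Y' := by
    intro h c
    have e1 := hYn h c
    have e2 := hJg.neut h c
    simp only [hY', e1, e2]
  have hY'1 : ∀ h, |Y' h| ≤ 1 := fun h => by
    simp only [hY']
    rw [abs_mul]
    have h1 := hJ0 h
    have h2 := hJ1 h
    exact mul_le_one₀ (hY1 h) (abs_nonneg _) (by rw [abs_le]; constructor <;> linarith)
  have hY'M : ∀ h, (M : ℤ) < |h b - h o| → Y' h = 0 := fun h hh => by
    simp only [hY', hJ, if_pos hh]; ring
  have main := joint0 hx hP hD ho hLΛ hb hS1 hL hS2 hT hX hXn hY'loc hY'n hY'1 hY'M hC hε hη hA1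
  have hXL := memLp_gobs hXg hP.lip
  have hJL := memLp_gobs hJg hP.lip
  have hY'g : GObs Y' := ⟨⟨S1 ∪ S2 ∪ {o}, by push_cast; exact hY'loc⟩, hY'n⟩
  have i1 : Integrable (fun h => X h * Y' h) P :=
    integrable_gobs (hXg.map₂ hY'g fun s t => s * t) hP.lip
  have i2 : Integrable (fun h => X h * (Y h * J h)) P :=
    integrable_gobs (hXg.map₂ (hYg.map₂ hJg fun s t => s * t) fun s t => s * t) hP.lip
  have e1 : ∫ h, X h * Y h ∂P = ∫ h, X h * Y' h ∂P + ∫ h, X h * (Y h * J h) ∂P := by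
    rw [← integral_add i1 i2]
    refine integral_congr_ae (ae_of_all _ fun h => ?_)
    simp only [hY']; ring
  have e2 : |∫ h, X h * (Y h * J h) ∂P|
      ≤ √(∫ h, X h ^ 2 ∂P) * √(P.real {h | (M : ℤ) < |h b - h o|}) := by
    have b1 : |∫ h, X h * (Y h * J h) ∂P| ≤ ∫ h, |X h| * J h ∂P := by
      refine (abs_integral_le_integral_abs).trans (integral_mono_of_nonneg
        (ae_of_all _ fun h => abs_nonneg _) ?_ (ae_of_all _ fun h => ?_))
      · exact hXL.abs.integrable_mul hJL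
      · simp only
        rw [abs_mul, abs_mul, abs_of_nonneg (hJ0 h)]
        refine mul_le_mul_of_nonneg_left ?_ (abs_nonneg _)
        have := hY1 h
        have := hJ0 h
        nlinarith [abs_nonneg (Y h)]
    have b2 : ∫ h, |X h| * J h ∂P ≤ √(∫ h, X h ^ 2 ∂P) * √(∫ h, J h ^ 2 ∂P) := by
      have := integral_mul_le_Lp_mul_Lq_of_nonneg (μ := P) (p := 2) (q := 2)
        Real.HolderConjugate.two_two (f := fun ω => |X ω|) (g := J)
        (ae_of_all _ fun ω => abs_nonneg _) (ae_of_all _ hJ0)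
        (by
          have : MemLp (fun ω => |X ω|) (ENNReal.ofReal 2) P := by
            have h2 : ENNReal.ofReal 2 = 2 := by norm_num
            rw [h2]; exact hXL.abs
          exact this) (by simpa using hJL)
      simpa [Real.sqrt_eq_rpow, sq_abs] using this
    have hms : MeasurableSet {h : Hz | (M : ℤ) < |h b - h o|} := by
      have hm : Measurable fun h : Hz => |h b - h o| :=
        measurable_of_loc ((GObs.grad b o).comp fun d : ℤ => |d|).loc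
      exact hm (measurableSet_lt measurable_const measurable_id)
    have b3 : ∫ h, J h ^ 2 ∂P = P.real {h | (M : ℤ) < |h b - h o|} := by
      have : (fun h => J h ^ 2) = Set.indicator {h : Hz | (M : ℤ) < |h b - h o|} 1 := by
        funext h
        simp only [hJ, Set.indicator_apply, Set.mem_ofPred_eq, Pi.one_apply]
        split_ifs <;> norm_num
      rw [this, integral_indicator_one hms]
    rw [b3] at b2
    exact b1.trans b2
  rw [e1, mul_add]
  refine (abs_add_le _ _).trans ?_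
  linarith

end Joint

end Crest.Agent.R144.Ccw435
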