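import Crest.Agent.R144.Ccw5_435

/-!
# R144, closed-contour Ward identity (doc 1620), step (A2): neutral form

The density bound is only needed for the NEUTRAL pattern of `S1` (base point `o1 ∈ S1`), against the
reference measure `ν(a) = P{neutral pattern = neutral part of a} 1{|a(o1)| ≤ M}`.
-/

set_option autoImplicit false

noncomputable section

namespace Crest.Agent.R144.Ccw435

open MeasureTheory Filter Topology Finset
open Crest.ProbabilityR.HexHeights (Adj)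
open Crest.Agent.R144.It844 Crest.Agent.R144.Pst967

section Density

variable {Ω : Type*} [MeasurableSpace Ω] {P : Measure Ω} [IsProbabilityMeasure P] {A : Type*}

/-- **Density lemma, kernel form**, with a general reference measure `ν`. -/
theorem density2 (s : Finset A) (q : A → Ω → ℝ) (hqm : ∀ a ∈ s, Measurable (q a))
    (hq0 : ∀ a ∈ s, ∀ ω, 0 ≤ q a ω) (hq1 : ∀ ω, ∑ a ∈ s, q a ω ≤ 1)
    (X : Ω → ℝ) (hX : MemLp X 2 P) (y : A → Ω → ℂ) (hym : ∀ a ∈ s, Measurable (y a))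
    (hy : ∀ a ∈ s, ∀ ω, ‖y a ω‖ ≤ 1) (p : A → ℝ) (hp0 : ∀ a ∈ s, 0 ≤ p a) {N : ℝ}
    (hp1 : ∑ a ∈ s, p a ≤ N) {C η ε : ℝ} (hC : 0 < C) (hε0 : 0 ≤ ε)
    (hη : ∑ a ∈ s, ∫ ω, (if C * p a < q a ω then q a ω else 0) ∂P ≤ η)
    (hε : ∀ a ∈ s, ∀ φ : Ω → ℝ, (∃ g : ℝ → ℝ, Measurable g ∧ φ = fun ω => g (q a ω)) →
      (∀ ω, 0 ≤ φ ω) → (∀ ω, φ ω ≤ 1) →
      ‖∫ ω, ((φ ω * X ω : ℝ) : ℂ) * y a ω ∂P‖ ≤ ε) :
    ‖∫ ω, ∑ a ∈ s, ((q a ω * X ω : ℝ) : ℂ) * y a ω ∂P‖
      ≤ N * (C * ε) + √(∫ ω, X ω ^ 2 ∂P) * √η := by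
  classical
  have hXi : Integrable X P := hX.integrable (by norm_num)
  have hXm := hX.aestronglyMeasurable
  have hq_le : ∀ a ∈ s, ∀ ω, q a ω ≤ 1 := fun a ha ω =>
    (single_le_sum (fun b hb => hq0 b hb ω) ha).trans (hq1 ω)
  have hqi : ∀ a ∈ s, Integrable (q a) P := fun a ha =>
    Integrable.of_bound (hqm a ha).aestronglyMeasurable 1 (ae_of_all _ fun ω => by
      rw [Real.norm_eq_abs, abs_of_nonneg (hq0 a ha ω)]; exact hq_le a ha ω)
  -- the two pieces
  set lo : A → Ω → ℝ := fun a ω => if C * p a < q a ω then 0 else q a ω with hlo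
  set hi : A → Ω → ℝ := fun a ω => if C * p a < q a ω then q a ω else 0 with hhi
  have hsplit : ∀ a ω, q a ω = lo a ω + hi a ω := fun a ω => by
    simp only [hlo, hhi]; split_ifs <;> simp
  have hlom : ∀ a ∈ s, Measurable (lo a) := fun a ha =>
    Measurable.ite (measurableSet_lt measurable_const (hqm a ha)) measurable_const (hqm a ha)
  have hhim : ∀ a ∈ s, Measurable (hi a) := fun a ha =>
    Measurable.ite (measurableSet_lt measurable_const (hqm a ha)) (hqm a ha) measurable_const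
  have hlo0 : ∀ a ∈ s, ∀ ω, 0 ≤ lo a ω := fun a ha ω => by
    simp only [hlo]; split_ifs; exacts [le_rfl, hq0 a ha ω]
  have hhi0 : ∀ a ∈ s, ∀ ω, 0 ≤ hi a ω := fun a ha ω => by
    simp only [hhi]; split_ifs; exacts [hq0 a ha ω, le_rfl]
  have hlo1 : ∀ a ∈ s, ∀ ω, lo a ω ≤ 1 := fun a ha ω => by
    simp only [hlo]; split_ifs; exacts [zero_le_one, hq_le a ha ω]
  have hhi1 : ∀ a ∈ s, ∀ ω, hi a ω ≤ q a ω := fun a ha ω => by
    simp only [hhi]; split_ifs; exacts [le_rfl, hq0 a ha ω]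
  have hint : ∀ (f : A → Ω → ℝ), (∀ a ∈ s, Measurable (f a)) → (∀ a ∈ s, ∀ ω, 0 ≤ f a ω) →
      (∀ a ∈ s, ∀ ω, f a ω ≤ 1) → ∀ a ∈ s, Integrable (fun ω => ((f a ω * X ω : ℝ) : ℂ) * y a ω) P := by
    intro f hfm hf0 hf1 a ha
    have h1 : Integrable (fun ω => ((X ω : ℝ) : ℂ)) P := hXi.ofReal
    have h2 : (fun ω => ((f a ω * X ω : ℝ) : ℂ) * y a ω)
        = fun ω => (((f a ω : ℝ) : ℂ) * y a ω) * ((X ω : ℝ) : ℂ) := by
      funext ω; push_cast; ring
    rw [h2]
    refine h1.bdd_mul (c := 1) ?_ (ae_of_all _ fun ω => ?_)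
    · exact ((Complex.measurable_ofReal.comp (hfm a ha)).mul (hym a ha)).aestronglyMeasurable
    · rw [norm_mul, Complex.norm_real, Real.norm_eq_abs, abs_of_nonneg (hf0 a ha ω)]
      have := hf0 a ha ω
      have := hf1 a ha ω
      have := hy a ha ω
      have := norm_nonneg (y a ω)
      nlinarith
  have hIlo := hint lo hlom hlo0 hlo1
  have hIhi := hint hi hhim hhi0 fun a ha ω => (hhi1 a ha ω).trans (hq_le a ha ω)
  have e1 : (fun ω => ∑ a ∈ s, ((q a ω * X ω : ℝ) : ℂ) * y a ω)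
      = fun ω => (∑ a ∈ s, ((lo a ω * X ω : ℝ) : ℂ) * y a ω)
        + ∑ a ∈ s, ((hi a ω * X ω : ℝ) : ℂ) * y a ω := by
    funext ω
    rw [← sum_add_distrib]
    refine sum_congr rfl fun a _ => ?_
    conv_lhs => rw [hsplit a ω]
    push_cast; ring
  rw [e1, integral_add (integrable_finsetSum s hIlo) (integrable_finsetSum s hIhi)]
  refine (norm_add_le _ _).trans (add_le_add ?_ ?_)
  · -- low part
    rw [integral_finsetSum s hIlo]
    have hterm : ∀ a ∈ s, ‖∫ ω, ((lo a ω * X ω : ℝ) : ℂ) * y a ω ∂P‖ ≤ p a * (C * ε) := by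
      intro a ha
      rcases (hp0 a ha).eq_or_lt with h0 | hpos
      · have : ∫ ω, ((lo a ω * X ω : ℝ) : ℂ) * y a ω ∂P = 0 := by
          refine (integral_congr_ae (g := fun _ => (0 : ℂ)) (ae_of_all _ fun ω => ?_)).trans
            (by simp)
          have h1 : lo a ω = 0 := by
            simp only [hlo, ← h0, mul_zero]
            split_ifs with h
            · rfl
            · exact le_antisymm (not_lt.1 h) (hq0 a ha ω)
          simp only [h1]; simp
        rw [this, ← h0]; simp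
      · have hcp : 0 < C * p a := mul_pos hC hpos
        have := hε a ha (fun ω => lo a ω / (C * p a))
          ⟨fun t => (if C * p a < t then 0 else t) / (C * p a), by
            refine (Measurable.ite measurableSet_Ioi measurable_const measurable_id).div_const _, rfl⟩
          (fun ω => div_nonneg (hlo0 a ha ω) hcp.le)
          (fun ω => by
            rw [div_le_one hcp]
            simp only [hlo]; split_ifs with h
            · exact hcp.le
            · exact not_lt.1 h)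
        have e : ∫ ω, ((lo a ω / (C * p a) * X ω : ℝ) : ℂ) * y a ω ∂P
            = ((C * p a : ℝ) : ℂ)⁻¹ * ∫ ω, ((lo a ω * X ω : ℝ) : ℂ) * y a ω ∂P := by
          rw [← integral_const_mul (((C * p a : ℝ) : ℂ)⁻¹)]
          refine integral_congr_ae (ae_of_all P fun ω => ?_)
          change ((lo a ω / (C * p a) * X ω : ℝ) : ℂ) * y a ω
            = ((C * p a : ℝ) : ℂ)⁻¹ * (((lo a ω * X ω : ℝ) : ℂ) * y a ω)
          push_cast
          rw [div_eq_mul_inv]
          ring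
        rw [e, norm_mul, norm_inv, Complex.norm_real, Real.norm_eq_abs, abs_of_pos hcp,
          inv_mul_le_iff₀ hcp] at this
        linarith [this]
    refine (norm_sum_le _ _).trans ((sum_le_sum hterm).trans ?_)
    rw [← sum_mul]
    exact mul_le_mul_of_nonneg_right hp1 (mul_nonneg hC.le hε0)
  · -- high part
    set h : Ω → ℝ := fun ω => ∑ a ∈ s, hi a ω with hh
    have hhm : Measurable h := Finset.measurable_sum _ fun a ha => hhim a ha
    have hh0 : ∀ ω, 0 ≤ h ω := fun ω => sum_nonneg fun a ha => hhi0 a ha ω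
    have hh1 : ∀ ω, h ω ≤ 1 := fun ω => (sum_le_sum fun a ha => hhi1 a ha ω).trans (hq1 ω)
    have hhL : MemLp h 2 P := MemLp.of_bound hhm.aestronglyMeasurable 1 (ae_of_all _ fun ω => by
      rw [Real.norm_eq_abs, abs_of_nonneg (hh0 ω)]; exact hh1 ω)
    have b1 : ‖∫ ω, ∑ a ∈ s, ((hi a ω * X ω : ℝ) : ℂ) * y a ω ∂P‖ ≤ ∫ ω, |X ω| * h ω ∂P := by
      refine (norm_integral_le_integral_norm _).trans ?_
      refine integral_mono_of_nonneg (ae_of_all _ fun ω => norm_nonneg _) ?_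
        (ae_of_all _ fun ω => ?_)
      · exact hX.abs.integrable_mul hhL
      · simp only
        refine (norm_sum_le _ _).trans ?_
        rw [hh, mul_sum]
        refine sum_le_sum fun a ha => ?_
        rw [norm_mul, Complex.norm_real, Real.norm_eq_abs, abs_mul, abs_of_nonneg (hhi0 a ha ω)]
        have := hhi0 a ha ω
        have := hy a ha ω
        have := norm_nonneg (y a ω)
        have := abs_nonneg (X ω)
        calc hi a ω * |X ω| * ‖y a ω‖ ≤ hi a ω * |X ω| * 1 :=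
              mul_le_mul_of_nonneg_left (hy a ha ω) (by positivity)
          _ = |X ω| * hi a ω := by ring
    have b2 : ∫ ω, |X ω| * h ω ∂P ≤ √(∫ ω, X ω ^ 2 ∂P) * √(∫ ω, h ω ^ 2 ∂P) := by
      have := integral_mul_le_Lp_mul_Lq_of_nonneg (μ := P) (p := 2) (q := 2)
        Real.HolderConjugate.two_two (f := fun ω => |X ω|) (g := h)
        (ae_of_all _ fun ω => abs_nonneg _) (ae_of_all _ hh0)
        (by
          have : MemLp (fun ω => |X ω|) (ENNReal.ofReal 2) P := by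
            have h2 : ENNReal.ofReal 2 = 2 := by norm_num
            rw [h2]; exact hX.abs
          exact this) (by simpa using hhL)
      simpa [Real.sqrt_eq_rpow, sq_abs] using this
    have b3 : ∫ ω, h ω ^ 2 ∂P ≤ η := by
      have : ∫ ω, h ω ^ 2 ∂P ≤ ∫ ω, h ω ∂P := by
        refine integral_mono ?_ ?_ fun ω => ?_
        · simpa using hhL.integrable_sq
        · exact hhL.integrable (by norm_num)
        · simp only; have := hh0 ω; have := hh1 ω; nlinarith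
      refine this.trans ?_
      rw [hh, integral_finsetSum s fun a ha => ?_]
      · exact hη
      · exact Integrable.of_bound (hhim a ha).aestronglyMeasurable 1 (ae_of_all _ fun ω => by
          rw [Real.norm_eq_abs, abs_of_nonneg (hhi0 a ha ω)]
          exact (hhi1 a ha ω).trans (hq_le a ha ω))
    exact b1.trans (b2.trans (mul_le_mul_of_nonneg_left (Real.sqrt_le_sqrt b3) (Real.sqrt_nonneg _)))

end Density

section Joint

variable {x : ℝ} {P : Measure Hz} {Λ S1 L S2 T : Finset P2} {o b : P2}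

theorem joint0n (hx : 0 < x) (hP : PinnedZ P) (hD : DLR x P) (ho : o ∈ L) (hLΛ : Disjoint L Λ)
    (hb : b ∈ S2) (hS1 : S1 ⊆ Λ) (hL : nbhd Λ ⊆ Λ ∪ L) (hS2 : Disjoint S2 Λ) (hT : Disjoint T Λ)
    {X : Hz → ℝ} (hX : LocZ (T : Set P2) X) (hXn : NeutZ X)
    {Y : Hz → ℝ} (hY : LocZ ((S1 : Set P2) ∪ S2 ∪ {o}) Y) (hYn : NeutZ Y) (hY1 : ∀ h, |Y h| ≤ 1)
    {M : ℕ} (hYM : ∀ h, (M : ℤ) < |h b - h o| → Y h = 0) {C η ε : ℝ} (hC : 0 < C) (hε : 0 ≤ ε)
    (ν : (S1 → ℤ) → ℝ) (hν0 : ∀ a ∈ pats o S1, 0 ≤ ν a) {N : ℝ} (hν1 : ∑ a ∈ pats o S1, ν a ≤ N)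
    (hη : ∑ a ∈ pats o S1, ∫ h, (if C * ν a < qq x Λ o S1 a h then
      qq x Λ o S1 a h else 0) ∂P ≤ η)
    (hA1 : ∀ (α : ℝ) (Z1 Z2 : Hz → ℂ), LocZ (L : Set P2) Z1 → LocZ (S2 : Set P2) Z2 →
      ChgZ (-α) Z1 → ChgZ α Z2 → (∀ h, ‖Z1 h‖ ≤ 1) → (∀ h, ‖Z2 h‖ ≤ 1) →
      ‖∫ h, (X h : ℂ) * Z1 h * Z2 h ∂P‖ ≤ ε) :
    |∫ h, X h * Y h ∂P| ≤ N * (C * ((2 * M + 1) * ε)) + √(∫ h, X h ^ 2 ∂P) * √η := by
  classical
  have := hP.prob
  have hoΛ : o ∉ Λ := fun h => (Finset.disjoint_left.1 hLΛ ho) h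
  have hoS : o ∉ S1 := fun h => hoΛ (hS1 h)
  have hbS : b ∉ S1 := fun h => (Finset.disjoint_left.1 hS2 hb) (hS1 h)
  have hXg : GObs X := ⟨⟨T, hX⟩, hXn⟩
  have hYg : GObs Y := ⟨⟨S1 ∪ S2 ∪ {o}, by push_cast; exact hY⟩, hYn⟩
  have e1 : ∫ h, X h * Y h ∂P
      = ∫ h, ∑ a ∈ pats o S1, qq x Λ o S1 a h * (X h * Y (ins o S1 a h)) ∂P := by
    rw [hD Λ _ (hXg.map₂ hYg fun s t => s * t)]
    refine integral_congr_ae ?_
    filter_upwards [hP.lip] with h hh using ex_joint hoΛ hS2 hT hX hY hh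
  have e2 : ((∫ h, X h * Y h ∂P : ℝ) : ℂ) = ∫ h, ∑ a ∈ pats o S1,
      ((qq x Λ o S1 a h * X h : ℝ) : ℂ) * ((Y (ins o S1 a h) : ℝ) : ℂ) ∂P := by
    rw [e1, ← integral_complex_ofReal]
    refine integral_congr_ae (ae_of_all _ fun h => ?_)
    simp only
    push_cast
    exact Finset.sum_congr rfl fun a _ => by ring
  have e3 : |∫ h, X h * Y h ∂P| = ‖((∫ h, X h * Y h ∂P : ℝ) : ℂ)‖ := by
    rw [Complex.norm_real, Real.norm_eq_abs]
  have hqm : ∀ a ∈ pats o S1, Measurable (qq x Λ o S1 a) := fun a _ =>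
    measurable_of_loc ⟨L, qq_loc x hL hS1 ho a⟩
  rw [e3, e2]
  refine density2 (pats o S1) (qq x Λ o S1) hqm (fun a _ h => qq_nonneg h)
    (fun h => sum_qq hx h) X (memLp_gobs hXg hP.lip)
    (fun a h => ((Y (ins o S1 a h) : ℝ) : ℂ)) (fun a _ => ?_) (fun a _ h => ?_) ν hν0 hν1 hC
    (by positivity) hη ?_
  · refine Complex.measurable_ofReal.comp (measurable_of_loc ⟨S2 ∪ {o}, ?_⟩)
    push_cast
    exact ins_loc hY a
  · rw [Complex.norm_real, Real.norm_eq_abs]; exact hY1 _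
  · rintro a _ φ ⟨g, -, hg⟩ h0 h1
    refine product_level hP ho hb hoS hX hXn hY hYn hY1 hYM hbS hA1 a ?_ ?_ h0 h1
    · rw [hg]; exact (qq_loc x hL hS1 ho a).comp g
    · intro h c
      rw [hg]
      simp only [qq_neut x a h c]

/-- **Step (A2)**: joint functionals of two patches are killed. -/
theorem jointn (hx : 0 < x) (hP : PinnedZ P) (hD : DLR x P) (ho : o ∈ L) (hLΛ : Disjoint L Λ)
    (hb : b ∈ S2) (hS1 : S1 ⊆ Λ) (hL : nbhd Λ ⊆ Λ ∪ L) (hS2 : Disjoint S2 Λ) (hT : Disjoint T Λ)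
    {X : Hz → ℝ} (hX : LocZ (T : Set P2) X) (hXn : NeutZ X)
    {Y : Hz → ℝ} (hY : LocZ ((S1 : Set P2) ∪ S2) Y) (hYn : NeutZ Y) (hY1 : ∀ h, |Y h| ≤ 1)
    (M : ℕ) {C η ε : ℝ} (hC : 0 < C) (hε : 0 ≤ ε)
    (ν : (S1 → ℤ) → ℝ) (hν0 : ∀ a ∈ pats o S1, 0 ≤ ν a) {N : ℝ} (hν1 : ∑ a ∈ pats o S1, ν a ≤ N)
    (hη : ∑ a ∈ pats o S1, ∫ h, (if C * ν a < qq x Λ o S1 a h then
      qq x Λ o S1 a h else 0) ∂P ≤ η)
    (hA1 : ∀ (α : ℝ) (Z1 Z2 : Hz → ℂ), LocZ (L : Set P2) Z1 → LocZ (S2 : Set P2) Z2 →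
      ChgZ (-α) Z1 → ChgZ α Z2 → (∀ h, ‖Z1 h‖ ≤ 1) → (∀ h, ‖Z2 h‖ ≤ 1) →
      ‖∫ h, (X h : ℂ) * Z1 h * Z2 h ∂P‖ ≤ ε) :
    |∫ h, X h * Y h ∂P| ≤ N * (C * ((2 * M + 1) * ε))
      + √(∫ h, X h ^ 2 ∂P) * (√η + √(P.real {h | (M : ℤ) < |h b - h o|})) := by
  classical
  have := hP.prob
  have hXg : GObs X := ⟨⟨T, hX⟩, hXn⟩
  have hYg : GObs Y := ⟨⟨S1 ∪ S2, by push_cast; exact hY⟩, hYn⟩
  set J : Hz → ℝ := fun h => if (M : ℤ) < |h b - h o| then 1 else 0 with hJ
  have hJg : GObs J := (GObs.grad b o).comp fun d : ℤ => if (M : ℤ) < |d| then (1 : ℝ) else 0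
  have hJ0 : ∀ h, 0 ≤ J h := fun h => by simp only [hJ]; split_ifs <;> norm_num
  have hJ1 : ∀ h, J h ≤ 1 := fun h => by simp only [hJ]; split_ifs <;> norm_num
  set Y' : Hz → ℝ := fun h => Y h * (1 - J h) with hY'
  have hY'loc : LocZ ((S1 : Set P2) ∪ S2 ∪ {o}) Y' := by
    intro h g hg
    have e1 : Y h = Y g := hY h g fun v hv => hg v (Or.inl hv)
    have e2 : h b = g b := hg b (Or.inl (Or.inr hb))
    have e3 : h o = g o := hg o (Or.inr rfl)
    simp only [hY', hJ, e1, e2, e3]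
  have hY'n : NeutZ Y' := by
    intro h c
    have e1 := hYn h c
    have e2 := hJg.neut h c
    simp only [hY', e1, e2]
  have hY'1 : ∀ h, |Y' h| ≤ 1 := fun h => by
    simp only [hY']
    rw [abs_mul]
    have h1 := hJ0 h
    have h2 := hJ1 h
    exact mul_le_one₀ (hY1 h) (abs_nonneg _) (by rw [abs_le]; constructor <;> linarith)
  have hY'M : ∀ h, (M : ℤ) < |h b - h o| → Y' h = 0 := fun h hh => by
    simp only [hY', hJ, if_pos hh]; ring
  have main := joint0n hx hP hD ho hLΛ hb hS1 hL hS2 hT hX hXn hY'loc hY'n hY'1 hY'M hC hε ν hν0 hν1 hη hA1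
  have hXL := memLp_gobs hXg hP.lip
  have hJL := memLp_gobs hJg hP.lip
  have hY'g : GObs Y' := ⟨⟨S1 ∪ S2 ∪ {o}, by push_cast; exact hY'loc⟩, hY'n⟩
  have i1 : Integrable (fun h => X h * Y' h) P :=
    integrable_gobs (hXg.map₂ hY'g fun s t => s * t) hP.lip
  have i2 : Integrable (fun h => X h * (Y h * J h)) P :=
    integrable_gobs (hXg.map₂ (hYg.map₂ hJg fun s t => s * t) fun s t => s * t) hP.lip
  have e1 : ∫ h, X h * Y h ∂P = ∫ h, X h * Y' h ∂P + ∫ h, X h * (Y h * J h) ∂P := by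
    rw [← integral_add i1 i2]
    refine integral_congr_ae (ae_of_all _ fun h => ?_)
    simp only [hY']; ring
  have e2 : |∫ h, X h * (Y h * J h) ∂P|
      ≤ √(∫ h, X h ^ 2 ∂P) * √(P.real {h | (M : ℤ) < |h b - h o|}) := by
    have b1 : |∫ h, X h * (Y h * J h) ∂P| ≤ ∫ h, |X h| * J h ∂P := by
      refine (abs_integral_le_integral_abs).trans (integral_mono_of_nonneg
        (ae_of_all _ fun h => abs_nonneg _) ?_ (ae_of_all _ fun h => ?_))
      · exact hXL.abs.integrable_mul hJL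
      · simp only
        rw [abs_mul, abs_mul, abs_of_nonneg (hJ0 h)]
        refine mul_le_mul_of_nonneg_left ?_ (abs_nonneg _)
        have := hY1 h
        have := hJ0 h
        nlinarith [abs_nonneg (Y h)]
    have b2 : ∫ h, |X h| * J h ∂P ≤ √(∫ h, X h ^ 2 ∂P) * √(∫ h, J h ^ 2 ∂P) := by
      have := integral_mul_le_Lp_mul_Lq_of_nonneg (μ := P) (p := 2) (q := 2)
        Real.HolderConjugate.two_two (f := fun ω => |X ω|) (g := J)
        (ae_of_all _ fun ω => abs_nonneg _) (ae_of_all _ hJ0)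
        (by
          have : MemLp (fun ω => |X ω|) (ENNReal.ofReal 2) P := by
            have h2 : ENNReal.ofReal 2 = 2 := by norm_num
            rw [h2]; exact hXL.abs
          exact this) (by simpa using hJL)
      simpa [Real.sqrt_eq_rpow, sq_abs] using this
    have hms : MeasurableSet {h : Hz | (M : ℤ) < |h b - h o|} := by
      have hm : Measurable fun h : Hz => |h b - h o| :=
        measurable_of_loc ((GObs.grad b o).comp fun d : ℤ => |d|).loc
      exact hm (measurableSet_lt measurable_const measurable_id)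
    have b3 : ∫ h, J h ^ 2 ∂P = P.real {h | (M : ℤ) < |h b - h o|} := by
      have : (fun h => J h ^ 2) = Set.indicator {h : Hz | (M : ℤ) < |h b - h o|} 1 := by
        funext h
        simp only [hJ, Set.indicator_apply, Set.mem_ofPred_eq, Pi.one_apply]
        split_ifs <;> norm_num
      rw [this, integral_indicator_one hms]
    rw [b3] at b2
    exact b1.trans b2
  rw [e1, mul_add]
  refine (abs_add_le _ _).trans ?_
  linarith

end Joint

section Neutral

variable {x : ℝ} {P : Measure Hz} {Λ S1 L S2 T : Finset P2} {o b : P2}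

theorem qq_loc1 (x : ℝ) {Λ L : Finset P2} {o : P2} {S1 : Finset P2} (hL : nbhd Λ ⊆ Λ ∪ L)
    (hS1 : S1 ⊆ Λ) (ho : o ∈ S1) (a : S1 → ℤ) : LocZ (L : Set P2) (qq x Λ o S1 a) := by
  refine (kern_loc x (ind_loc o S1 a)).mono ?_
  rintro v ⟨hv, hvΛ⟩
  rcases hv with hv | hv | hv
  · rcases hL hv with h | h
    · exact absurd h hvΛ
    · exact h
  · exact absurd (hS1 hv) hvΛ
  · rw [Set.mem_singleton_iff.1 hv] at hvΛ; exact absurd (hS1 ho) hvΛ

/-- a sum over patterns is an integral at the true pattern -/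
theorem sum_pat1 (hP : PinnedZ P) (hD : DLR x P) (hS1 : S1 ⊆ Λ) (hL : nbhd Λ ⊆ Λ ∪ L)
    (ho : o ∈ S1) (hLΛ : Disjoint L Λ) (B : (S1 → ℤ) → Hz → Prop)
    (hB : ∀ a, LocZ (L : Set P2) (B a)) (hBn : ∀ a, NeutZ (B a)) :
    haveI : ∀ a h, Decidable (B a h) := fun _ _ => Classical.dec _
    ∑ a ∈ pats o S1, ∫ h, (if B a h then qq x Λ o S1 a h else 0) ∂P
      = P.real {h | B (pat o S1 h) h} := by
  classical
  have := hP.prob
  -- the functional
  set F : Hz → ℝ := fun h => if B (pat o S1 h) h then 1 else 0 with hF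
  have hFl : LocZ ((S1 : Set P2) ∪ L) F := by
    intro h g hg
    have e1 : pat o S1 h = pat o S1 g := pat_loc o S1 h g fun v hv => by
      rcases hv with hv | hv
      · exact hg v (Or.inl hv)
      · rw [Set.mem_singleton_iff.1 hv]; exact hg o (Or.inl ho)
    have e2 : B (pat o S1 g) h = B (pat o S1 g) g := hB _ h g fun v hv => hg v (Or.inr hv)
    simp only [hF, e1, e2]
  have hFn : NeutZ F := by
    intro h c
    have e1 := pat_neut o S1 h c
    have e2 := hBn (pat o S1 h) h c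
    simp only [hF, e1, e2]
  have hFg : GObs F := ⟨⟨S1 ∪ L, by push_cast; exact hFl⟩, hFn⟩
  have hpm : Measurable (pat o S1) := by
    refine measurable_pi_lambda _ fun v => ?_
    exact (measurable_pi_apply _).sub (measurable_pi_apply _)
  have hFm : Measurable F := measurable_of_loc hFg.loc
  have hm : MeasurableSet {h : Hz | B (pat o S1 h) h} := by
    have : {h : Hz | B (pat o S1 h) h} = F ⁻¹' {1} := by
      ext h
      simp only [Set.mem_ofPred_eq, Set.mem_preimage, Set.mem_singleton_iff, hF]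
      split_ifs with h1
      · simp [h1]
      · simp [h1]
    rw [this]; exact hFm (measurableSet_singleton 1)
  have h2 : F = Set.indicator {h : Hz | B (pat o S1 h) h} 1 := by
    funext g
    simp only [hF, Set.indicator_apply, Set.mem_ofPred_eq, Pi.one_apply]
  have h3 : P.real {h | B (pat o S1 h) h} = ∫ h, F h ∂P := by
    rw [h2, integral_indicator_one hm]
  have hqi : ∀ a ∈ pats o S1, Integrable (fun h => if B a h then qq x Λ o S1 a h else 0) P := by
    intro a _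
    refine integrable_gobs ⟨⟨L, ?_⟩, ?_⟩ hP.lip
    · intro h g hg
      have e2 : B a h = B a g := hB _ h g hg
      have e3 := qq_loc1 x hL hS1 ho a h g hg
      simp only [e2, e3]
    · intro h c
      have e2 := hBn a h c
      have e3 := qq_neut x (Λ := Λ) (o := o) a h c
      simp only [e2, e3]
  rw [h3, hD Λ F hFg, ← integral_finsetSum _ hqi]
  refine integral_congr_ae ?_
  filter_upwards [hP.lip] with h hh
  have e1 : ex x Λ h F = ex x Λ h (fun g => ∑ a ∈ pats o S1, ind o S1 a g * (if B a h then 1 else 0)) := by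
    refine ex_congr fun g hg => ?_
    obtain ⟨hgl, hgo⟩ := mem_conf.1 hg
    unfold ind
    simp only [ite_mul, one_mul, zero_mul]
    rw [Finset.sum_ite_eq, if_pos (pat_mem hgl)]
    have e2 : B (pat o S1 g) g = B (pat o S1 g) h := hB _ g h fun v hv =>
      hgo v fun hv' => (Finset.disjoint_left.1 hLΛ hv) hv'
    simp only [hF, e2]
  rw [e1, ex_sum_mul]
  refine Finset.sum_congr rfl fun a _ => ?_
  rw [qq_eq hh]
  split_ifs <;> simp

theorem ui_aux1 (hP : PinnedZ P) (hD : DLR x P) (hS1 : S1 ⊆ Λ) (hL : nbhd Λ ⊆ Λ ∪ L)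
    (ho : o ∈ S1) (hLΛ : Disjoint L Λ) {C : ℝ} (hC : 0 < C)
    (B : (S1 → ℤ) → Hz → Prop) (hBl : ∀ a, LocZ (L : Set P2) (B a)) (hBn : ∀ a, NeutZ (B a))
    (hBq : ∀ a h, B a h → C * (∫ h', qq x Λ o S1 a h' ∂P) ≤ qq x Λ o S1 a h) :
    ∑ a ∈ pats o S1, P.real {g | pat o S1 g = a} * P.real {h | B a h}
      ≤ C⁻¹ * P.real {h | B (pat o S1 h) h} := by
  classical
  have := hP.prob
  have h1 := sum_pat1 (x := x) hP hD hS1 hL ho hLΛ B hBl hBn
  rw [← h1, Finset.mul_sum]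
  refine Finset.sum_le_sum fun a _ => ?_
  rw [← integral_qq hP hD a]
  have hg1 : GObs (fun h => if B a h then (1 : ℝ) else 0) := by
    refine ⟨⟨L, ?_⟩, ?_⟩
    · intro h g hg
      have e2 := hBl a h g hg
      simp only [e2]
    · intro h c
      have e2 := hBn a h c
      simp only [e2]
  have hm : MeasurableSet {h : Hz | B a h} := by
    have : {h : Hz | B a h} = (fun h => if B a h then (1 : ℝ) else 0) ⁻¹' {1} := by
      ext h
      simp only [Set.mem_ofPred_eq, Set.mem_preimage, Set.mem_singleton_iff]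
      split_ifs with h1
      · simp [h1]
      · simp [h1]
    rw [this]; exact (measurable_of_loc hg1.loc) (measurableSet_singleton 1)
  have h6 : P.real {h | B a h} = ∫ h, (if B a h then (1 : ℝ) else 0) ∂P := by
    rw [← integral_indicator_one hm]
    refine integral_congr_ae (ae_of_all _ fun g => ?_)
    simp only [Set.indicator_apply, Set.mem_ofPred_eq, Pi.one_apply]
  rw [h6, ← integral_const_mul, ← integral_const_mul]
  have hi2 : Integrable (fun h => (if B a h then qq x Λ o S1 a h else 0)) P := by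
    refine integrable_gobs ⟨⟨L, ?_⟩, ?_⟩ hP.lip
    · intro h g hg
      have e2 := hBl a h g hg
      have e3 := qq_loc1 x hL hS1 ho a h g hg
      simp only [e2, e3]
    · intro h c
      have e2 := hBn a h c
      have e3 := qq_neut x (Λ := Λ) (o := o) a h c
      simp only [e2, e3]
  refine integral_mono ((integrable_gobs hg1 hP.lip).const_mul _) (hi2.const_mul _) fun h => ?_
  simp only
  split_ifs with hb
  · have hb' := hBq a h hb
    rw [mul_one, ← div_eq_inv_mul, le_div_iff₀ (by positivity)]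
    linarith
  · simp

/-- the density ratio is controlled by the `UI` form `P(B) ≤ η + C (P ⊗ P)(B)` -/
theorem big_of_ui1 (hP : PinnedZ P) (hD : DLR x P) (hS1 : S1 ⊆ Λ) (hL : nbhd Λ ⊆ Λ ∪ L)
    (ho : o ∈ S1) (hLΛ : Disjoint L Λ) {C η : ℝ} (hC : 0 < C)
    (hUI : ∀ B : (S1 → ℤ) → Hz → Prop, (∀ a, LocZ (L : Set P2) (B a)) → (∀ a, NeutZ (B a)) →
      P.real {h | B (pat o S1 h) h} ≤ η + C * ∑ a ∈ pats o S1,
        P.real {g | pat o S1 g = a} * P.real {h | B a h}) :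
    P.real (big x P Λ o S1 (2 * C)) ≤ 2 * η := by
  classical
  have := hP.prob
  set B : (S1 → ℤ) → Hz → Prop := fun a h => 2 * C * (∫ h', qq x Λ o S1 a h' ∂P) < qq x Λ o S1 a h
    with hB
  have hBl : ∀ a, LocZ (L : Set P2) (B a) := fun a h g hg => by
    have e3 := qq_loc1 x hL hS1 ho a h g hg
    simp only [hB, e3]
  have hBn : ∀ a, NeutZ (B a) := fun a h c => by
    have e3 := qq_neut x (Λ := Λ) (o := o) a h c
    simp only [hB, e3]
  have h2 : P.real {h | B (pat o S1 h) h} = P.real (big x P Λ o S1 (2 * C)) := by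
    refine measureReal_congr ?_
    filter_upwards [hP.lip] with g hg
    refine propext ?_
    show (2 * C * (∫ h', qq x Λ o S1 (pat o S1 g) h' ∂P) < qq x Λ o S1 (pat o S1 g) g)
      ↔ g ∈ big x P Λ o S1 (2 * C)
    unfold big
    rw [Set.mem_ofPred_eq, qq_eq hg, integral_qq hP hD]
  have h3 := hUI B hBl hBn
  have h4 := ui_aux1 hP hD hS1 hL ho hLΛ (C := 2 * C) (by positivity) B hBl hBn
    (fun a h hb => le_of_lt hb)
  rw [h2] at h3 h4
  have h5 : C * ∑ a ∈ pats o S1, P.real {g | pat o S1 g = a} * P.real {h | B a h}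
      ≤ P.real (big x P Λ o S1 (2 * C)) / 2 := by
    refine (mul_le_mul_of_nonneg_left h4 hC.le).trans (le_of_eq ?_)
    field_simp
  linarith

/-- the neutral part of a pattern -/
def neu (o1 : P2) (S1 : Finset P2) (h1 : o1 ∈ S1) (a : S1 → ℤ) : S1 → ℤ := fun v => a v - a ⟨o1, h1⟩

theorem neu_pat {o1 : P2} (h1 : o1 ∈ S1) (h : Hz) : neu o1 S1 h1 (pat o S1 h) = pat o1 S1 h := by
  funext v
  unfold neu pat
  ring

/-- the reference measure -/
def nu (P : Measure Hz) (o1 : P2) (S1 : Finset P2) (h1 : o1 ∈ S1) (M : ℕ) (a : S1 → ℤ) : ℝ :=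
  if |a ⟨o1, h1⟩| ≤ M then P.real {g | pat o1 S1 g = neu o1 S1 h1 a} else 0

theorem nu_nonneg {o1 : P2} (h1 : o1 ∈ S1) (M : ℕ) (a : S1 → ℤ) : 0 ≤ nu P o1 S1 h1 M a := by
  unfold nu
  split_ifs
  · exact measureReal_nonneg
  · exact le_rfl

theorem measurable_pat (o : P2) (S1 : Finset P2) : Measurable (pat o S1) := by
  refine measurable_pi_lambda _ fun v => ?_
  exact (measurable_pi_apply _).sub (measurable_pi_apply _)

theorem sum_nu [IsProbabilityMeasure P] {o1 : P2} (h1 : o1 ∈ S1) (M : ℕ) (s : Finset (S1 → ℤ)) :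
    ∑ a ∈ s, nu P o1 S1 h1 M a ≤ 2 * M + 1 := by
  classical
  have e1 : ∑ a ∈ s, nu P o1 S1 h1 M a = ∑ k ∈ Finset.Icc (-(M : ℤ)) M,
      ∑ a ∈ s with a ⟨o1, h1⟩ = k, P.real {g | pat o1 S1 g = neu o1 S1 h1 a} := by
    have e2 : ∑ a ∈ s, nu P o1 S1 h1 M a
        = ∑ a ∈ s with a ⟨o1, h1⟩ ∈ Finset.Icc (-(M : ℤ)) M,
          P.real {g | pat o1 S1 g = neu o1 S1 h1 a} := by
      rw [Finset.sum_filter]
      refine Finset.sum_congr rfl fun a _ => ?_
      unfold nu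
      simp only [Finset.mem_Icc, ← abs_le]
    rw [e2, ← Finset.sum_fiberwise_of_maps_to (t := Finset.Icc (-(M : ℤ)) M)
      (g := fun a : S1 → ℤ => a ⟨o1, h1⟩) (fun a ha => (Finset.mem_filter.1 ha).2)]
    refine Finset.sum_congr rfl fun k hk => ?_
    rw [Finset.filter_filter]
    refine Finset.sum_congr ?_ fun _ _ => rfl
    ext a
    simp only [Finset.mem_filter]
    constructor
    · rintro ⟨ha, -, hb⟩; exact ⟨ha, hb⟩
    · rintro ⟨ha, hb⟩; exact ⟨ha, hb ▸ hk, hb⟩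
  rw [e1]
  have e3 : ∀ k ∈ Finset.Icc (-(M : ℤ)) M,
      ∑ a ∈ s with a ⟨o1, h1⟩ = k, P.real {g | pat o1 S1 g = neu o1 S1 h1 a} ≤ 1 := by
    intro k _
    rw [← measureReal_biUnion_finset (f := fun a => {g | pat o1 S1 g = neu o1 S1 h1 a})]
    · exact measureReal_le_one
    · intro a ha b hb hab
      rw [Function.onFun, Set.disjoint_left]
      intro g hg hg'
      apply hab
      have h3 : neu o1 S1 h1 a = neu o1 S1 h1 b := by
        rw [← (hg : pat o1 S1 g = _), ← (hg' : pat o1 S1 g = _)]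
      funext v
      have h4 := congrFun h3 v
      unfold neu at h4
      rw [(Finset.mem_filter.1 ha).2, (Finset.mem_filter.1 hb).2] at h4
      linarith
    · intro a _
      exact measurable_pat o1 S1 (measurableSet_singleton _)
  refine (Finset.sum_le_sum e3).trans ?_
  rw [Finset.sum_const, nsmul_eq_mul, mul_one, Int.card_Icc]
  have : ((M : ℤ) + 1 - -(M : ℤ)).toNat = 2 * M + 1 := by omega
  rw [this]; push_cast; exact le_rfl

/-- the mass of the exceptional patterns -/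
theorem sum_hi_nu (hP : PinnedZ P) (hD : DLR x P) (hS1 : S1 ⊆ Λ) (hL : nbhd Λ ⊆ Λ ∪ L)
    (ho : o ∈ L) (hLΛ : Disjoint L Λ) {o1 : P2} (h1 : o1 ∈ S1) (M : ℕ) {C : ℝ} :
    ∑ a ∈ pats o S1, ∫ h, (if C * nu P o1 S1 h1 M a < qq x Λ o S1 a h then
      qq x Λ o S1 a h else 0) ∂P
      ≤ P.real (big x P Λ o1 S1 C) + P.real {h | (M : ℤ) < |h o1 - h o|} := by
  classical
  have := hP.prob
  have h := sum_pat (x := x) hP hD hS1 hL ho hLΛ
    (fun a h => C * nu P o1 S1 h1 M a < qq x Λ o S1 a h)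
    (fun a h g hg => by
      have e3 := qq_loc x hL hS1 ho a h g hg
      simp only [e3])
    (fun a h c => by
      have e3 := qq_neut x (Λ := Λ) (o := o) a h c
      simp only [e3])
  have e0 : ∑ a ∈ pats o S1, ∫ h, (if C * nu P o1 S1 h1 M a < qq x Λ o S1 a h then
      qq x Λ o S1 a h else 0) ∂P
      = P.real {h | C * nu P o1 S1 h1 M (pat o S1 h) < qq x Λ o S1 (pat o S1 h) h} := by
    refine Eq.trans ?_ h
    refine Finset.sum_congr rfl fun a _ => integral_congr_ae (ae_of_all _ fun g => ?_)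
    simp only
  rw [e0]
  refine le_trans ?_ (measureReal_union_le _ _)
  have e1 : P {h | C * nu P o1 S1 h1 M (pat o S1 h) < qq x Λ o S1 (pat o S1 h) h}
      ≤ P (big x P Λ o1 S1 C ∪ {h | (M : ℤ) < |h o1 - h o|}) := by
    refine measure_mono_ae ?_
    filter_upwards [hP.lip] with g hg
    intro (hb : C * nu P o1 S1 h1 M (pat o S1 g) < qq x Λ o S1 (pat o S1 g) g)
    show g ∈ big x P Λ o1 S1 C ∪ {h | (M : ℤ) < |h o1 - h o|}
    by_cases hM : (M : ℤ) < |g o1 - g o|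
    · exact Or.inr hM
    · left
      unfold big
      rw [Set.mem_ofPred_eq]
      rw [qq_eq hg] at hb
      have e2 : nu P o1 S1 h1 M (pat o S1 g) = P.real {g' | pat o1 S1 g' = pat o1 S1 g} := by
        unfold nu
        rw [neu_pat, if_pos]
        show |g o1 - g o| ≤ M
        exact not_lt.1 hM
      rw [e2] at hb
      refine hb.trans_le (ex_mono fun f _ => ?_)
      unfold ind
      by_cases hf : pat o S1 f = pat o S1 g
      · have : pat o1 S1 f = pat o1 S1 g := by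
          rw [← neu_pat (o := o) h1 f, ← neu_pat (o := o) h1 g, hf]
        rw [if_pos hf, if_pos this]
      · rw [if_neg hf]
        split_ifs <;> norm_num
  exact ENNReal.toReal_mono (measure_ne_top _ _) e1

end Neutral

/-- **Step (A2) for sequences, neutral form**: if the product functionals of (contour `L n`, patch
`S2 n`) are killed by `X n`, the NEUTRAL pattern of the patch `S1 n` is controlled by the product form
(`hUI`), and the relative heights are tight, then the joint functionals of `S1 n ∪ S2 n` are killed. -/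
theorem joint_seq2 {x : ℝ} (hx : 0 < x) {P : Measure Hz} (hP : PinnedZ P) (hD : DLR x P)
    {Λ S1 L S2 T : ℕ → Finset P2} {o b o1 : ℕ → P2} (ho : ∀ n, o n ∈ L n) (h1 : ∀ n, o1 n ∈ S1 n)
    (hLΛ : ∀ n, Disjoint (L n) (Λ n)) (hb : ∀ n, b n ∈ S2 n) (hS1 : ∀ n, S1 n ⊆ Λ n)
    (hL : ∀ n, nbhd (Λ n) ⊆ Λ n ∪ L n) (hS2 : ∀ n, Disjoint (S2 n) (Λ n))
    (hT : ∀ n, Disjoint (T n) (Λ n)) {X : ℕ → Hz → ℝ} (hX : ∀ n, LocZ (T n : Set P2) (X n))
    (hXn : ∀ n, NeutZ (X n)) {V : ℝ} (hV : ∀ n, ∫ h, X n h ^ 2 ∂P ≤ V)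
    (hUI : ∀ η > 0, ∃ C : ℝ, 0 < C ∧ ∀ᶠ n in atTop, ∀ B : (S1 n → ℤ) → Hz → Prop,
      (∀ a, LocZ (L n : Set P2) (B a)) → (∀ a, NeutZ (B a)) →
      P.real {h | B (pat (o1 n) (S1 n) h) h} ≤ η + C * ∑ a ∈ pats (o1 n) (S1 n),
        P.real {g | pat (o1 n) (S1 n) g = a} * P.real {h | B a h})
    (hTight1 : ∀ η > 0, ∃ M : ℕ, ∀ᶠ n in atTop, P.real {h | (M : ℤ) < |h (o1 n) - h (o n)|} ≤ η)
    (hTight : ∀ η > 0, ∃ M : ℕ, ∀ᶠ n in atTop, P.real {h | (M : ℤ) < |h (b n) - h (o n)|} ≤ η)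
    (hA1 : ∀ ε > 0, ∀ᶠ n in atTop, ∀ (α : ℝ) (Z1 Z2 : Hz → ℂ), LocZ (L n : Set P2) Z1 →
      LocZ (S2 n : Set P2) Z2 → ChgZ (-α) Z1 → ChgZ α Z2 → (∀ h, ‖Z1 h‖ ≤ 1) →
      (∀ h, ‖Z2 h‖ ≤ 1) → ‖∫ h, (X n h : ℂ) * Z1 h * Z2 h ∂P‖ ≤ ε) :
    ∀ ε > 0, ∀ᶠ n in atTop, ∀ Y : Hz → ℝ, LocZ ((S1 n : Set P2) ∪ S2 n) Y → NeutZ Y →
      (∀ h, |Y h| ≤ 1) → |∫ h, X n h * Y h ∂P| ≤ ε := by
  intro ε hε
  have := hP.prob
  have hV0 : 0 ≤ V := (integral_nonneg fun h => sq_nonneg _).trans (hV 0)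
  -- choose η
  obtain ⟨η, hη, hηε⟩ : ∃ η : ℝ, 0 < η ∧ √V * (√(3 * η) + √(3 * η)) ≤ ε / 2 := by
    refine ⟨(ε / (4 * (√V + 1))) ^ 2 / 3, by positivity, ?_⟩
    have h1 : 0 ≤ √V := Real.sqrt_nonneg V
    rw [mul_div_cancel₀ _ (by norm_num : (3 : ℝ) ≠ 0), Real.sqrt_sq (by positivity)]
    have h2 : √V * (ε / (4 * (√V + 1)) + ε / (4 * (√V + 1))) = (√V / (√V + 1)) * (ε / 2) := by
      field_simp; ring
    rw [h2]
    have h3 : √V / (√V + 1) ≤ 1 := by rw [div_le_one (by positivity)]; linarith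
    nlinarith
  obtain ⟨C, hC, hCn⟩ := hUI η hη
  obtain ⟨M1, hM1n⟩ := hTight1 η hη
  obtain ⟨M, hMn⟩ := hTight (3 * η) (by positivity)
  have hε' : 0 < ε / (2 * ((2 * M1 + 1) * (2 * C * (2 * M + 1)))) := by positivity
  filter_upwards [hCn, hM1n, hMn, hA1 _ hε'] with n h2 h2' h3 h4 Y hY hYn hY1
  have h5 := big_of_ui1 (x := x) hP hD (hS1 n) (hL n) (h1 n) (hLΛ n) hC h2
  have h6 := sum_hi_nu (x := x) hP hD (hS1 n) (hL n) (ho n) (hLΛ n) (h1 n) M1 (C := 2 * C)
  have main := jointn (η := 3 * η) (N := 2 * M1 + 1) hx hP hD (ho n) (hLΛ n) (hb n) (hS1 n) (hL n)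
    (hS2 n) (hT n) (hX n)
    (hXn n) hY hYn hY1 M (by positivity : 0 < 2 * C) hε'.le (nu P (o1 n) (S1 n) (h1 n) M1)
    (fun a _ => nu_nonneg (h1 n) M1 a) (sum_nu (h1 n) M1 _)
    (by linarith) h4
  refine main.trans ?_
  have e1 : ((2 * M1 + 1 : ℝ)) * (2 * C * ((2 * M + 1) *
      (ε / (2 * ((2 * M1 + 1) * (2 * C * (2 * M + 1))))))) = ε / 2 := by
    field_simp
  rw [e1]
  have e2 : √(∫ h, X n h ^ 2 ∂P) ≤ √V := Real.sqrt_le_sqrt (hV n)
  have e3 : √(P.real {h | (M : ℤ) < |h (b n) - h (o n)|}) ≤ √(3 * η) := Real.sqrt_le_sqrt h3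
  have e4 : √(∫ h, X n h ^ 2 ∂P) * (√(3 * η) + √(P.real {h | (M : ℤ) < |h (b n) - h (o n)|}))
      ≤ √V * (√(3 * η) + √(3 * η)) := by
    refine mul_le_mul e2 (by linarith) (by positivity) (Real.sqrt_nonneg _)
  linarith

end Crest.Agent.R144.Ccw435
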