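import Crest.Agent.R144.Ccw6_435

/-!
# R144, closed-contour Ward identity (doc 1620), step (A2) with level functionals

Single sites have logarithmically large height differences, so the relative level of two macroscopic sets is
measured by integer level functionals `l : Hz → ℤ` (`Lev S l` : local on `S`, `l (h + c) = l h + c`), e.g.
`⌊Σ w_v h v⌋`.  `joint_seq3` is the final form.
-/

set_option autoImplicit false

noncomputable section

namespace Crest.Agent.R144.Ccw435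

open MeasureTheory Filter Topology Finset
open Crest.ProbabilityR.HexHeights (Adj)
open Crest.Agent.R144.It844 Crest.Agent.R144.Pst967

/-- integer level functional of `S` -/
structure Lev (S : Finset P2) (l : Hz → ℤ) : Prop where
  loc : LocZ (S : Set P2) l
  shift : ∀ (h : Hz) (c : ℤ), l (fun v => h v + c) = l h + c
  bdd : ∃ D : ℕ, ∀ h : Hz, Lip h → |l h - h 0| ≤ D

/-- floor of a weighted average -/
theorem lev_floor {S : Finset P2} {w : P2 → ℝ} (hw : ∑ v ∈ S, w v = 1) :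
    Lev S fun h => ⌊∑ v ∈ S, w v * h v⌋ where
  loc := fun h g hg => by
    simp only
    congr 1
    exact Finset.sum_congr rfl fun v hv => by rw [hg v hv]
  shift := fun h c => by
    have : ∑ v ∈ S, w v * ((h v + c : ℤ) : ℝ) = ∑ v ∈ S, w v * (h v : ℝ) + (c : ℝ) := by
      push_cast
      simp only [mul_add, Finset.sum_add_distrib]
      rw [← Finset.sum_mul, hw, one_mul]
    rw [this, Int.floor_add_intCast]
  bdd := by
    refine ⟨⌈∑ v ∈ S, |w v| * nrm v⌉₊ + 1, fun h hl => ?_⟩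
    have e1 : ∑ v ∈ S, w v * (h v : ℝ) = ∑ v ∈ S, w v * ((h v : ℝ) - h 0) + h 0 := by
      simp only [mul_sub, Finset.sum_sub_distrib]
      rw [← Finset.sum_mul, hw]; ring
    have e2 : |∑ v ∈ S, w v * ((h v : ℝ) - h 0)| ≤ ∑ v ∈ S, |w v| * nrm v := by
      refine (Finset.abs_sum_le_sum_abs _ _).trans (Finset.sum_le_sum fun v _ => ?_)
      rw [abs_mul]
      refine mul_le_mul_of_nonneg_left ?_ (abs_nonneg _)
      have := lip_bound hl v
      exact_mod_cast this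
    have e3 := Nat.le_ceil (∑ v ∈ S, |w v| * (nrm v : ℝ))
    have e4 : (⌊∑ v ∈ S, w v * (h v : ℝ)⌋ : ℝ) ≤ ∑ v ∈ S, w v * (h v : ℝ) := Int.floor_le _
    have e5 : ∑ v ∈ S, w v * (h v : ℝ) < ⌊∑ v ∈ S, w v * (h v : ℝ)⌋ + 1 := Int.lt_floor_add_one _
    rw [abs_le] at e2
    have : |((⌊∑ v ∈ S, w v * (h v : ℝ)⌋ - h 0 : ℤ) : ℝ)|
        ≤ ((⌈∑ v ∈ S, |w v| * nrm v⌉₊ + 1 : ℕ) : ℝ) := by
      push_cast
      rw [abs_le]
      constructor <;> linarith [e2.1, e2.2]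
    exact_mod_cast this

section Joint

variable {x : ℝ} {P : Measure Hz} {Λ S1 L S2 T : Finset P2} {lo lb l1 : Hz → ℤ}

/-- pattern on `S1` relative to the level `lo` -/
def patR (lo : Hz → ℤ) (S1 : Finset P2) (g : Hz) : S1 → ℤ := fun v => g v - lo g

theorem patR_loc (ho : Lev L lo) : LocZ ((S1 : Set P2) ∪ L) (patR lo S1) := by
  intro h g hg
  funext v
  unfold patR
  rw [hg v (Or.inl v.2), ho.loc h g fun v hv => hg v (Or.inr hv)]

theorem patR_neut (ho : Lev L lo) : NeutZ (patR lo S1) := by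
  intro h c
  funext v
  unfold patR
  rw [ho.shift]
  ring

/-- possible patterns -/
def patsR (S1 : Finset P2) (N : ℕ) : Finset (S1 → ℤ) :=
  Fintype.piFinset fun _ => Finset.Icc (-(N : ℤ)) N

theorem exists_patsR (S1 : Finset P2) (ho : Lev L lo) :
    ∃ N : ℕ, ∀ h : Hz, Lip h → patR lo S1 h ∈ patsR S1 N := by
  obtain ⟨D, hD⟩ := ho.bdd
  refine ⟨∑ v ∈ S1, nrm v + D, fun h hl => ?_⟩
  rw [patsR, Fintype.mem_piFinset]
  intro v
  rw [Finset.mem_Icc, ← abs_le]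
  have h1 := lip_bound hl (v : P2)
  have h2 := hD h hl
  have h3 := Finset.single_le_sum (f := fun v => nrm v) (s := S1) (fun v _ => Nat.zero_le _) v.2
  unfold patR
  rw [abs_le] at *
  push_cast
  have h4 : (nrm (v : P2) : ℤ) ≤ ∑ v ∈ S1, (nrm v : ℤ) := by exact_mod_cast h3
  constructor <;> linarith [h1.1, h1.2, h2.1, h2.2]

open Classical in
/-- indicator of a pattern -/
def indR (lo : Hz → ℤ) (S1 : Finset P2) (a : S1 → ℤ) (g : Hz) : ℝ := if patR lo S1 g = a then 1 else 0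

theorem indR_nonneg (lo : Hz → ℤ) (S1 : Finset P2) (a : S1 → ℤ) (g : Hz) : 0 ≤ indR lo S1 a g := by
  unfold indR; split_ifs <;> norm_num

theorem indR_loc (ho : Lev L lo) (a : S1 → ℤ) : LocZ ((S1 : Set P2) ∪ L) (indR lo S1 a) := by
  intro h g hg
  unfold indR
  rw [patR_loc ho h g hg]

theorem indR_neut (ho : Lev L lo) (a : S1 → ℤ) : NeutZ (indR lo S1 a) := by
  intro h c
  unfold indR
  rw [patR_neut ho h c]

theorem sum_indR {N : ℕ} {h : Hz} (hm : patR lo S1 h ∈ patsR S1 N) :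
    ∑ a ∈ patsR S1 N, indR lo S1 a h = 1 := by
  classical
  unfold indR
  rw [Finset.sum_ite_eq, if_pos hm]

/-- the conditional probability of the pattern `a`, local version -/
def qqR (x : ℝ) (Λ : Finset P2) (lo : Hz → ℤ) (S1 L : Finset P2) (a : S1 → ℤ) : Hz → ℝ :=
  kern x Λ ((S1 : Set P2) ∪ L) (indR lo S1 a)

theorem qqR_eq (ho : Lev L lo) {a : S1 → ℤ} {h : Hz} (hl : Lip h) :
    qqR x Λ lo S1 L a h = ex x Λ h (indR lo S1 a) := kern_eq (indR_loc ho a) hl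

theorem qqR_nonneg {a : S1 → ℤ} (h : Hz) : 0 ≤ qqR x Λ lo S1 L a h := kern_nonneg (indR_nonneg lo S1 a) h

theorem sum_qqR (hx : 0 < x) {N : ℕ} (hN : ∀ h : Hz, Lip h → patR lo S1 h ∈ patsR S1 N) (h : Hz) :
    ∑ a ∈ patsR S1 N, qqR x Λ lo S1 L a h ≤ 1 := by
  unfold qqR
  rw [kern_sum]
  exact kern_le_one hx (fun g hg => (sum_indR (hN g hg)).le) h

theorem qqR_loc (x : ℝ) (ho : Lev L lo) (hL : nbhd Λ ⊆ Λ ∪ L) (hS1 : S1 ⊆ Λ) (a : S1 → ℤ) :
    LocZ (L : Set P2) (qqR x Λ lo S1 L a) := by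
  refine (kern_loc x (indR_loc ho a)).mono ?_
  rintro v ⟨hv, hvΛ⟩
  rcases hv with hv | hv | hv
  · rcases hL hv with h | h
    · exact absurd h hvΛ
    · exact h
  · exact absurd (hS1 hv) hvΛ
  · exact hv

theorem qqR_neut (x : ℝ) (ho : Lev L lo) (a : S1 → ℤ) : NeutZ (qqR x Λ lo S1 L a) :=
  kern_neut x (indR_loc ho a) (indR_neut ho a)

open Classical in
/-- insert the pattern `a` in `S1` -/
def insR (lo : Hz → ℤ) (S1 : Finset P2) (a : S1 → ℤ) (h : Hz) : Hz :=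
  fun v => if hv : v ∈ S1 then lo h + a ⟨v, hv⟩ else h v

open Classical in
/-- pattern `a` on `S1`, `h - lb h + k` elsewhere -/
def insL (lb : Hz → ℤ) (S1 : Finset P2) (a : S1 → ℤ) (k : ℤ) (h : Hz) : Hz :=
  fun v => if hv : v ∈ S1 then a ⟨v, hv⟩ else h v - lb h + k

/-- on the event `lb h - lo h = k` the functional only sees `S2` -/
theorem insR_eq_insL {Y : Hz → ℝ} (hYn : NeutZ Y) {a : S1 → ℤ} {k : ℤ} {h : Hz}
    (hk : lb h - lo h = k) : Y (insR lo S1 a h) = Y (insL lb S1 a k h) := by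
  rw [← hYn (insR lo S1 a h) (-lo h)]
  congr 1
  funext v
  unfold insR insL
  by_cases hv : v ∈ S1
  · simp only [dif_pos hv]; ring
  · simp only [dif_neg hv]
    rw [← hk]; ring

theorem insL_loc {Y : Hz → ℝ} (hY : LocZ ((S1 : Set P2) ∪ S2) Y) (hb : Lev S2 lb) (a : S1 → ℤ)
    (k : ℤ) : LocZ (S2 : Set P2) fun h => Y (insL lb S1 a k h) := by
  intro h g hg
  refine hY _ _ fun v hv => ?_
  unfold insL
  by_cases hv1 : v ∈ S1
  · simp only [dif_pos hv1]
  · simp only [dif_neg hv1]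
    have hv2 : v ∈ (S2 : Set P2) := by
      rcases hv with hv | hv
      · exact absurd hv hv1
      · exact hv
    rw [hg v hv2, hb.loc h g hg]

theorem insL_neut {Y : Hz → ℝ} (hb : Lev S2 lb) (a : S1 → ℤ) (k : ℤ) :
    NeutZ fun h => Y (insL lb S1 a k h) := by
  intro h c
  show Y _ = Y _
  congr 1
  funext v
  unfold insL
  by_cases hv1 : v ∈ S1
  · simp only [dif_pos hv1]
  · simp only [dif_neg hv1]
    rw [hb.shift]; ring

theorem insR_loc {Y : Hz → ℝ} (hY : LocZ ((S1 : Set P2) ∪ S2) Y) (ho : Lev L lo) (a : S1 → ℤ) :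
    LocZ ((S2 : Set P2) ∪ L) fun h => Y (insR lo S1 a h) := by
  intro h g hg
  refine hY _ _ fun v hv => ?_
  unfold insR
  by_cases hv1 : v ∈ S1
  · simp only [dif_pos hv1]; rw [ho.loc h g fun v hv => hg v (Or.inr hv)]
  · simp only [dif_neg hv1]
    refine hg v ?_
    rcases hv with hv | hv
    · exact absurd hv hv1
    · exact Or.inl hv

open Classical in
/-- the level cut -/
def cut (lo lb : Hz → ℤ) (M : ℕ) (h : Hz) : ℝ := if (M : ℤ) < |lb h - lo h| then 0 else 1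

theorem cut_nonneg (lo lb : Hz → ℤ) (M : ℕ) (h : Hz) : 0 ≤ cut lo lb M h := by
  unfold cut; split_ifs <;> norm_num

theorem cut_le_one (lo lb : Hz → ℤ) (M : ℕ) (h : Hz) : cut lo lb M h ≤ 1 := by
  unfold cut; split_ifs <;> norm_num

theorem cut_loc (ho : Lev L lo) (hb : Lev S2 lb) (M : ℕ) :
    LocZ ((S2 : Set P2) ∪ L) (cut lo lb M) := by
  intro h g hg
  unfold cut
  rw [ho.loc h g fun v hv => hg v (Or.inr hv), hb.loc h g fun v hv => hg v (Or.inl hv)]

theorem cut_neut (ho : Lev L lo) (hb : Lev S2 lb) (M : ℕ) : NeutZ (cut lo lb M) := by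
  intro h c
  unfold cut
  rw [ho.shift, hb.shift]
  congr 2
  ring_nf

/-- product functionals: expansion in characters -/
theorem product_levelR (hP : PinnedZ P) (ho : Lev L lo) (hb : Lev S2 lb)
    {X : Hz → ℝ} (hX : LocZ (T : Set P2) X) (hXn : NeutZ X)
    {Y : Hz → ℝ} (hY : LocZ ((S1 : Set P2) ∪ S2) Y) (hYn : NeutZ Y) (hY1 : ∀ h, |Y h| ≤ 1)
    {M : ℕ} {ε : ℝ}
    (hA1 : ∀ (α : ℝ) (Z1 Z2 : Hz → ℂ), LocZ (L : Set P2) Z1 → LocZ (S2 : Set P2) Z2 →
      ChgZ (-α) Z1 → ChgZ α Z2 → (∀ h, ‖Z1 h‖ ≤ 1) → (∀ h, ‖Z2 h‖ ≤ 1) →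
      ‖∫ h, (X h : ℂ) * Z1 h * Z2 h ∂P‖ ≤ ε)
    (a : S1 → ℤ) {φ : Hz → ℝ} (hφ : LocZ (L : Set P2) φ) (hφn : NeutZ φ)
    (hφ0 : ∀ h, 0 ≤ φ h) (hφ1 : ∀ h, φ h ≤ 1) :
    ‖∫ h, ((φ h * X h : ℝ) : ℂ) * ((Y (insR lo S1 a h) * cut lo lb M h : ℝ) : ℂ) ∂P‖
      ≤ (2 * M + 1) * ε := by
  classical
  have := hP.prob
  obtain ⟨Do, hDo⟩ := ho.bdd
  obtain ⟨Db, hDb⟩ := hb.bdd
  set m : ℕ := Do + Db + M + 1 with hm
  have hm1 : 0 < m := by rw [hm]; omega
  have hm0 : (m : ℂ) ≠ 0 := Nat.cast_ne_zero.2 hm1.ne'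
  have hmpos : (0 : ℝ) < m := Nat.cast_pos.2 hm1
  let Z1 : ℝ → Hz → ℂ := fun α h => (φ h : ℂ) * eZ (-α) (lo h)
  let Z2 : ℝ → ℤ → Hz → ℂ := fun α k h => ((Y (insL lb S1 a k h) : ℝ) : ℂ) * eZ α (lb h - k)
  have hZ1l : ∀ α, LocZ (L : Set P2) (Z1 α) := fun α h g hg => by
    simp only [Z1, hφ h g hg, ho.loc h g hg]
  have hZ2l : ∀ α k, LocZ (S2 : Set P2) (Z2 α k) := fun α k h g hg => by
    simp only [Z2, insL_loc hY hb a k h g hg, hb.loc h g hg]
  have hZ1c : ∀ α, ChgZ (-α) (Z1 α) := fun α h c => by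
    simp only [Z1, hφn h c]
    rw [ho.shift, eZ_add]
    unfold eZ; ring
  have hZ2c : ∀ α k, ChgZ α (Z2 α k) := fun α k h c => by
    have e := insL_neut (S1 := S1) (Y := Y) hb a k h c
    simp only at e
    simp only [Z2, e]
    rw [hb.shift, show lb h + c - k = (lb h - k) + c by ring, eZ_add]
    unfold eZ; ring
  have hZ1n : ∀ α h, ‖Z1 α h‖ ≤ 1 := fun α h => by
    simp only [Z1]
    rw [norm_mul, norm_eZ, mul_one, Complex.norm_real, Real.norm_eq_abs, abs_of_nonneg (hφ0 h)]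
    exact hφ1 h
  have hZ2n : ∀ α k h, ‖Z2 α k h‖ ≤ 1 := fun α k h => by
    simp only [Z2]
    rw [norm_mul, norm_eZ, mul_one, Complex.norm_real, Real.norm_eq_abs]
    exact hY1 _
  have hXi : Integrable X P := integrable_gobs ⟨⟨T, hX⟩, hXn⟩ hP.lip
  have hZ1m : ∀ α, Measurable (Z1 α) := fun α => measurable_of_loc ⟨L, hZ1l α⟩
  have hZ2m : ∀ α k, Measurable (Z2 α k) := fun α k => measurable_of_loc ⟨S2, hZ2l α k⟩
  have hint : ∀ α k, Integrable (fun h => (X h : ℂ) * Z1 α h * Z2 α k h) P := fun α k => by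
    have h1 : Integrable (fun h => ((X h : ℝ) : ℂ)) P := hXi.ofReal
    have h2 : (fun h => (X h : ℂ) * Z1 α h * Z2 α k h)
        = fun h => (Z1 α h * Z2 α k h) * (X h : ℂ) := by funext h; ring
    rw [h2]
    refine h1.bdd_mul (c := 1) ((hZ1m α).mul (hZ2m α k)).aestronglyMeasurable
      (ae_of_all _ fun h => ?_)
    rw [norm_mul]
    exact mul_le_one₀ (hZ1n α h) (norm_nonneg _) (hZ2n α k h)
  -- pointwise expansion
  have hpt : ∀ h : Hz, Lip h → ((φ h * X h : ℝ) : ℂ) * ((Y (insR lo S1 a h) * cut lo lb M h : ℝ) : ℂ)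
      = ∑ k ∈ Finset.Icc (-(M : ℤ)) M, (m : ℂ)⁻¹ * ∑ j ∈ Finset.range m,
        (X h : ℂ) * Z1 (2 * Real.pi * j / m) h * Z2 (2 * Real.pi * j / m) k h := by
    intro h hl
    have e1 : ∀ k ∈ Finset.Icc (-(M : ℤ)) M, (m : ℂ)⁻¹ * ∑ j ∈ Finset.range m,
        (X h : ℂ) * Z1 (2 * Real.pi * j / m) h * Z2 (2 * Real.pi * j / m) k h
        = (if lb h - lo h = k then ((φ h * X h : ℝ) : ℂ) * ((Y (insL lb S1 a k h) : ℝ) : ℂ)
          else 0) := by
      intro k hk
      rw [Finset.mem_Icc] at hk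
      have hbd : |lb h - lo h - k| < m := by
        have h1 := hDo h hl
        have h2 := hDb h hl
        rw [abs_lt]
        rw [abs_le] at h1 h2
        rw [hm]
        push_cast
        constructor <;> linarith [h1.1, h1.2, h2.1, h2.2, hk.1, hk.2]
      have hc := char_sum hbd
      have e2 : ∀ j ∈ Finset.range m,
          (X h : ℂ) * Z1 (2 * Real.pi * j / m) h * Z2 (2 * Real.pi * j / m) k h
          = (((φ h * X h : ℝ) : ℂ) * ((Y (insL lb S1 a k h) : ℝ) : ℂ)) *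
            Complex.exp (Complex.I * (((2 * Real.pi * j / m : ℝ) * ((lb h - lo h - k : ℤ) : ℝ) : ℝ) : ℂ)) := by
        intro j _
        have e3 : Complex.exp (Complex.I * (((2 * Real.pi * j / m : ℝ) * ((lb h - lo h - k : ℤ) : ℝ) : ℝ) : ℂ))
            = eZ (-(2 * Real.pi * j / m)) (lo h) * eZ (2 * Real.pi * j / m) (lb h - k) := by
          rw [eZ_neg, ← eZ_add, eZ]
          congr 4
          ring_nf
        rw [e3]
        simp only [Z1, Z2]
        push_cast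
        ring
      rw [Finset.sum_congr rfl e2, ← Finset.mul_sum, mul_left_comm, hc]
      by_cases hd : lb h - lo h = k
      · rw [if_pos hd, if_pos (by rw [hd, sub_self]), mul_one]
      · rw [if_neg hd, if_neg (fun h0 => hd (by linarith [h0])), mul_zero]
    rw [Finset.sum_congr rfl e1, Finset.sum_ite_eq]
    by_cases hk : lb h - lo h ∈ Finset.Icc (-(M : ℤ)) M
    · have hk' : ¬ (M : ℤ) < |lb h - lo h| := by
        rw [Finset.mem_Icc, ← abs_le] at hk; exact not_lt.2 hk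
      rw [if_pos hk, insR_eq_insL hYn rfl, cut, if_neg hk', mul_one]
    · have hlt : (M : ℤ) < |lb h - lo h| := by
        rw [Finset.mem_Icc, ← abs_le, not_le] at hk; exact hk
      rw [if_neg hk, cut, if_pos hlt]
      simp
  have e5 : ∫ h, ((φ h * X h : ℝ) : ℂ) * ((Y (insR lo S1 a h) * cut lo lb M h : ℝ) : ℂ) ∂P
      = ∑ k ∈ Finset.Icc (-(M : ℤ)) M, (m : ℂ)⁻¹ * ∑ j ∈ Finset.range m,
        ∫ h, (X h : ℂ) * Z1 (2 * Real.pi * j / m) h * Z2 (2 * Real.pi * j / m) k h ∂P := by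
    rw [integral_congr_ae (g := fun h => ∑ k ∈ Finset.Icc (-(M : ℤ)) M, (m : ℂ)⁻¹ *
      ∑ j ∈ Finset.range m, (X h : ℂ) * Z1 (2 * Real.pi * j / m) h * Z2 (2 * Real.pi * j / m) k h)]
    · rw [integral_finsetSum]
      · refine Finset.sum_congr rfl fun k _ => ?_
        rw [integral_const_mul, integral_finsetSum]
        exact fun j _ => hint _ k
      · exact fun k _ => (integrable_finsetSum _ fun j _ => hint _ k).const_mul _
    · filter_upwards [hP.lip] with h hh using hpt h hh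
  rw [e5]
  refine (norm_sum_le _ _).trans ?_
  have e6 : ∀ k ∈ Finset.Icc (-(M : ℤ)) M, ‖(m : ℂ)⁻¹ * ∑ j ∈ Finset.range m,
        ∫ h, (X h : ℂ) * Z1 (2 * Real.pi * j / m) h * Z2 (2 * Real.pi * j / m) k h ∂P‖ ≤ ε := by
    intro k _
    rw [norm_mul, norm_inv, Complex.norm_natCast, inv_mul_le_iff₀ hmpos]
    refine (norm_sum_le _ _).trans ?_
    refine (Finset.sum_le_sum fun j _ => hA1 _ _ _ (hZ1l _) (hZ2l _ k) (hZ1c _) (hZ2c _ k)
      (hZ1n _) (hZ2n _ k)).trans ?_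
    rw [Finset.sum_const, Finset.card_range, nsmul_eq_mul]
  refine (Finset.sum_le_sum e6).trans ?_
  rw [Finset.sum_const, nsmul_eq_mul]
  refine le_of_eq ?_
  congr 1
  rw [Int.card_Icc]
  have : ((M : ℤ) + 1 - -(M : ℤ)).toNat = 2 * M + 1 := by omega
  rw [this]; push_cast; ring

/-- DLR for the product of an outside functional and a joint functional -/
theorem ex_jointR (ho : Lev L lo) (hb : Lev S2 lb) (hLΛ : Disjoint L Λ) (hS2 : Disjoint S2 Λ)
    (hT : Disjoint T Λ) {N M : ℕ} (hN : ∀ h : Hz, Lip h → patR lo S1 h ∈ patsR S1 N)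
    {X : Hz → ℝ} (hX : LocZ (T : Set P2) X) {Y : Hz → ℝ}
    (hY : LocZ ((S1 : Set P2) ∪ S2) Y) {h : Hz} (hl : Lip h) :
    ex x Λ h (fun g => X g * (Y g * cut lo lb M g))
      = ∑ a ∈ patsR S1 N, qqR x Λ lo S1 L a h * (X h * (Y (insR lo S1 a h) * cut lo lb M h)) := by
  classical
  have e1 : ex x Λ h (fun g => X g * (Y g * cut lo lb M g))
      = ex x Λ h (fun g => ∑ a ∈ patsR S1 N,
        indR lo S1 a g * (X h * (Y (insR lo S1 a h) * cut lo lb M h))) := by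
    refine ex_congr fun g hg => ?_
    obtain ⟨hgl, hgo⟩ := mem_conf.1 hg
    have hLg : lo g = lo h := ho.loc _ _ fun v hv =>
      hgo v fun hv' => (Finset.disjoint_left.1 hLΛ hv) hv'
    have hBg : lb g = lb h := hb.loc _ _ fun v hv =>
      hgo v fun hv' => (Finset.disjoint_left.1 hS2 hv) hv'
    unfold indR
    simp only [ite_mul, one_mul, zero_mul]
    rw [Finset.sum_ite_eq, if_pos (hN g hgl)]
    have hXg : X g = X h := hX _ _ fun v hv =>
      hgo v fun hv' => (Finset.disjoint_left.1 hT hv) hv'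
    have hcg : cut lo lb M g = cut lo lb M h := by unfold cut; rw [hLg, hBg]
    rw [hXg, hcg]
    congr 2
    refine hY _ _ fun v hv => ?_
    unfold insR
    by_cases hv1 : v ∈ S1
    · rw [dif_pos hv1]
      show g v = lo h + (g v - lo g)
      rw [hLg]; ring
    · rw [dif_neg hv1]
      refine hgo v ?_
      rcases hv with hv | hv
      · exact absurd hv hv1
      · exact fun hv' => (Finset.disjoint_left.1 hS2 hv) hv'
  rw [e1, ex_sum_mul]
  exact Finset.sum_congr rfl fun a _ => by rw [qqR_eq ho hl]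

theorem jointR (hx : 0 < x) (hP : PinnedZ P) (hD : DLR x P) (ho : Lev L lo) (hb : Lev S2 lb)
    (hLΛ : Disjoint L Λ)
    (hS1 : S1 ⊆ Λ) (hL : nbhd Λ ⊆ Λ ∪ L) (hS2 : Disjoint S2 Λ) (hT : Disjoint T Λ)
    {X : Hz → ℝ} (hX : LocZ (T : Set P2) X) (hXn : NeutZ X)
    {Y : Hz → ℝ} (hY : LocZ ((S1 : Set P2) ∪ S2) Y) (hYn : NeutZ Y) (hY1 : ∀ h, |Y h| ≤ 1)
    (M : ℕ) {C η ε : ℝ} (hC : 0 < C) (hε : 0 ≤ ε) {N : ℕ}
    (hN : ∀ h : Hz, Lip h → patR lo S1 h ∈ patsR S1 N)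
    (ν : (S1 → ℤ) → ℝ) (hν0 : ∀ a ∈ patsR S1 N, 0 ≤ ν a) {K : ℝ} (hν1 : ∑ a ∈ patsR S1 N, ν a ≤ K)
    (hη : ∑ a ∈ patsR S1 N, ∫ h, (if C * ν a < qqR x Λ lo S1 L a h then
      qqR x Λ lo S1 L a h else 0) ∂P ≤ η)
    (hA1 : ∀ (α : ℝ) (Z1 Z2 : Hz → ℂ), LocZ (L : Set P2) Z1 → LocZ (S2 : Set P2) Z2 →
      ChgZ (-α) Z1 → ChgZ α Z2 → (∀ h, ‖Z1 h‖ ≤ 1) → (∀ h, ‖Z2 h‖ ≤ 1) →
      ‖∫ h, (X h : ℂ) * Z1 h * Z2 h ∂P‖ ≤ ε) :
    |∫ h, X h * Y h ∂P| ≤ K * (C * ((2 * M + 1) * ε))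
      + √(∫ h, X h ^ 2 ∂P) * (√η + √(P.real {h | (M : ℤ) < |lb h - lo h|})) := by
  classical
  have := hP.prob
  have hXg : GObs X := ⟨⟨T, hX⟩, hXn⟩
  have hYg : GObs Y := ⟨⟨S1 ∪ S2, by push_cast; exact hY⟩, hYn⟩
  have hcg : GObs (cut lo lb M) := ⟨⟨S2 ∪ L, by push_cast; exact cut_loc ho hb M⟩, cut_neut ho hb M⟩
  have hXL := memLp_gobs hXg hP.lip
  have hYc : GObs fun h => Y h * cut lo lb M h := hYg.map₂ hcg fun s t => s * t
  -- main part
  have main : |∫ h, X h * (Y h * cut lo lb M h) ∂P| ≤ K * (C * ((2 * M + 1) * ε))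
      + √(∫ h, X h ^ 2 ∂P) * √η := by
    have e1 : ∫ h, X h * (Y h * cut lo lb M h) ∂P
        = ∫ h, ∑ a ∈ patsR S1 N,
          qqR x Λ lo S1 L a h * (X h * (Y (insR lo S1 a h) * cut lo lb M h)) ∂P := by
      rw [hD Λ _ (hXg.map₂ hYc fun s t => s * t)]
      refine integral_congr_ae ?_
      filter_upwards [hP.lip] with h hh using ex_jointR ho hb hLΛ hS2 hT hN hX hY hh
    have e2 : ((∫ h, X h * (Y h * cut lo lb M h) ∂P : ℝ) : ℂ) = ∫ h, ∑ a ∈ patsR S1 N,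
        ((qqR x Λ lo S1 L a h * X h : ℝ) : ℂ) *
          ((Y (insR lo S1 a h) * cut lo lb M h : ℝ) : ℂ) ∂P := by
      rw [e1, ← integral_complex_ofReal]
      refine integral_congr_ae (ae_of_all _ fun h => ?_)
      simp only
      push_cast
      exact Finset.sum_congr rfl fun a _ => by ring
    have e3 : |∫ h, X h * (Y h * cut lo lb M h) ∂P|
        = ‖((∫ h, X h * (Y h * cut lo lb M h) ∂P : ℝ) : ℂ)‖ := by
      rw [Complex.norm_real, Real.norm_eq_abs]
    have hqm : ∀ a ∈ patsR S1 N, Measurable (qqR x Λ lo S1 L a) := fun a _ =>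
      measurable_of_loc ⟨L, qqR_loc x ho hL hS1 a⟩
    rw [e3, e2]
    refine density2 (patsR S1 N) (qqR x Λ lo S1 L) hqm (fun a _ h => qqR_nonneg h)
      (fun h => sum_qqR hx hN h) X hXL
      (fun a h => ((Y (insR lo S1 a h) * cut lo lb M h : ℝ) : ℂ)) (fun a _ => ?_) (fun a _ h => ?_)
      ν hν0 hν1 hC (by positivity) hη ?_
    · refine Complex.measurable_ofReal.comp (Measurable.mul (measurable_of_loc ⟨S2 ∪ L, ?_⟩)
        (measurable_of_loc hcg.loc))
      push_cast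
      exact insR_loc hY ho a
    · rw [Complex.norm_real, Real.norm_eq_abs, abs_mul, abs_of_nonneg (cut_nonneg lo lb M h)]
      exact mul_le_one₀ (hY1 _) (cut_nonneg lo lb M h) (cut_le_one lo lb M h)
    · rintro a _ φ ⟨g, -, hg⟩ h0 h1
      refine product_levelR hP ho hb hX hXn hY hYn hY1 hA1 a ?_ ?_ h0 h1
      · rw [hg]; exact (qqR_loc x ho hL hS1 a).comp g
      · intro h c
        rw [hg]
        simp only [qqR_neut x ho a h c]
  -- the cut
  set J : Hz → ℝ := fun h => if (M : ℤ) < |lb h - lo h| then 1 else 0 with hJ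
  have hJc : ∀ h, J h = 1 - cut lo lb M h := fun h => by
    simp only [hJ, cut]; split_ifs <;> norm_num
  have hJ0 : ∀ h, 0 ≤ J h := fun h => by simp only [hJ]; split_ifs <;> norm_num
  have hJg : GObs J := by
    have : J = fun h => 1 - cut lo lb M h := funext hJc
    rw [this]
    exact hcg.comp fun t => 1 - t
  have hJL := memLp_gobs hJg hP.lip
  have hi1 : Integrable (fun h => X h * (Y h * cut lo lb M h)) P :=
    integrable_gobs (hXg.map₂ hYc fun s t => s * t) hP.lip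
  have hi2 : Integrable (fun h => X h * (Y h * J h)) P :=
    integrable_gobs (hXg.map₂ (hYg.map₂ hJg fun s t => s * t) fun s t => s * t) hP.lip
  have e1 : ∫ h, X h * Y h ∂P = ∫ h, X h * (Y h * cut lo lb M h) ∂P + ∫ h, X h * (Y h * J h) ∂P := by
    rw [← integral_add hi1 hi2]
    refine integral_congr_ae (ae_of_all _ fun h => ?_)
    simp only [hJc]
    ring
  have e2 : |∫ h, X h * (Y h * J h) ∂P|
      ≤ √(∫ h, X h ^ 2 ∂P) * √(P.real {h | (M : ℤ) < |lb h - lo h|}) := by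
    have b1 : |∫ h, X h * (Y h * J h) ∂P| ≤ ∫ h, |X h| * J h ∂P := by
      rw [← Real.norm_eq_abs]
      refine (norm_integral_le_integral_norm _).trans ?_
      refine integral_mono hi2.norm (hXL.abs.integrable_mul hJL) fun h => ?_
      simp only [Real.norm_eq_abs, abs_mul, abs_of_nonneg (hJ0 h)]
      refine mul_le_mul_of_nonneg_left ?_ (abs_nonneg _)
      have := hY1 h
      have := hJ0 h
      nlinarith [abs_nonneg (Y h)]
    have b2 : ∫ h, |X h| * J h ∂P ≤ √(∫ h, X h ^ 2 ∂P) * √(∫ h, J h ^ 2 ∂P) := by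
      have := integral_mul_le_Lp_mul_Lq_of_nonneg (μ := P) (p := 2) (q := 2)
        Real.HolderConjugate.two_two (f := fun ω => |X ω|) (g := J)
        (ae_of_all _ fun ω => abs_nonneg _) (ae_of_all _ hJ0)
        (by
          have : MemLp (fun ω => |X ω|) (ENNReal.ofReal 2) P := by
            have h2 : ENNReal.ofReal 2 = 2 := by norm_num
            rw [h2]; exact hXL.abs
          exact this) (by simpa using hJL)
      simpa [Real.sqrt_eq_rpow, sq_abs] using this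
    have hms : MeasurableSet {h : Hz | (M : ℤ) < |lb h - lo h|} := by
      have : {h : Hz | (M : ℤ) < |lb h - lo h|} = J ⁻¹' {1} := by
        ext h
        simp only [Set.mem_ofPred_eq, Set.mem_preimage, Set.mem_singleton_iff, hJ]
        split_ifs with h1
        · simp [h1]
        · simp [h1]
      rw [this]; exact (measurable_of_loc hJg.loc) (measurableSet_singleton 1)
    have b3 : ∫ h, J h ^ 2 ∂P = P.real {h | (M : ℤ) < |lb h - lo h|} := by
      have : (fun h => J h ^ 2) = Set.indicator {h : Hz | (M : ℤ) < |lb h - lo h|} 1 := by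
        funext h
        simp only [hJ, Set.indicator_apply, Set.mem_ofPred_eq, Pi.one_apply]
        split_ifs <;> norm_num
      rw [this, integral_indicator_one hms]
    rw [b3] at b2
    exact b1.trans b2
  rw [e1, mul_add]
  refine (abs_add_le _ _).trans ?_
  linarith

/-! ### the sum over the patterns -/

/-- a sum over patterns is an integral at the true pattern -/
theorem sum_patR (hP : PinnedZ P) (hD : DLR x P) (ho : Lev L lo) (hS1 : S1 ⊆ Λ)
    (hL : nbhd Λ ⊆ Λ ∪ L) (hLΛ : Disjoint L Λ) {N : ℕ}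
    (hN : ∀ h : Hz, Lip h → patR lo S1 h ∈ patsR S1 N) (B : (S1 → ℤ) → Hz → Prop)
    (hB : ∀ a, LocZ (L : Set P2) (B a)) (hBn : ∀ a, NeutZ (B a)) :
    haveI : ∀ a h, Decidable (B a h) := fun _ _ => Classical.dec _
    ∑ a ∈ patsR S1 N, ∫ h, (if B a h then qqR x Λ lo S1 L a h else 0) ∂P
      = P.real {h | B (patR lo S1 h) h} := by
  classical
  have := hP.prob
  -- the functional
  set F : Hz → ℝ := fun h => if B (patR lo S1 h) h then 1 else 0 with hF
  have hFl : LocZ ((S1 : Set P2) ∪ L) F := by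
    intro h g hg
    have e1 : patR lo S1 h = patR lo S1 g := patR_loc ho h g hg
    have e2 : B (patR lo S1 g) h = B (patR lo S1 g) g := hB _ h g fun v hv => hg v (Or.inr hv)
    simp only [hF, e1, e2]
  have hFn : NeutZ F := by
    intro h c
    have e1 := patR_neut (S1 := S1) ho h c
    have e2 := hBn (patR lo S1 h) h c
    simp only [hF, e1, e2]
  have hFg : GObs F := ⟨⟨S1 ∪ L, by push_cast; exact hFl⟩, hFn⟩
  have hFm : Measurable F := measurable_of_loc hFg.loc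
  have hm : MeasurableSet {h : Hz | B (patR lo S1 h) h} := by
    have : {h : Hz | B (patR lo S1 h) h} = F ⁻¹' {1} := by
      ext h
      simp only [Set.mem_ofPred_eq, Set.mem_preimage, Set.mem_singleton_iff, hF]
      split_ifs with h1
      · simp [h1]
      · simp [h1]
    rw [this]; exact hFm (measurableSet_singleton 1)
  have h2 : F = Set.indicator {h : Hz | B (patR lo S1 h) h} 1 := by
    funext g
    simp only [hF, Set.indicator_apply, Set.mem_ofPred_eq, Pi.one_apply]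
  have h3 : P.real {h | B (patR lo S1 h) h} = ∫ h, F h ∂P := by
    rw [h2, integral_indicator_one hm]
  have hqi : ∀ a ∈ patsR S1 N, Integrable (fun h => if B a h then qqR x Λ lo S1 L a h else 0) P := by
    intro a _
    refine integrable_gobs ⟨⟨L, ?_⟩, ?_⟩ hP.lip
    · intro h g hg
      have e2 : B a h = B a g := hB _ h g hg
      have e3 := qqR_loc x ho hL hS1 a h g hg
      simp only [e2, e3]
    · intro h c
      have e2 := hBn a h c
      have e3 := qqR_neut (Λ := Λ) (S1 := S1) x ho a h c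
      simp only [e2, e3]
  rw [h3, hD Λ F hFg, ← integral_finsetSum _ hqi]
  refine integral_congr_ae ?_
  filter_upwards [hP.lip] with h hh
  have e1 : ex x Λ h F = ex x Λ h (fun g => ∑ a ∈ patsR S1 N,
      indR lo S1 a g * (if B a h then 1 else 0)) := by
    refine ex_congr fun g hg => ?_
    obtain ⟨hgl, hgo⟩ := mem_conf.1 hg
    unfold indR
    simp only [ite_mul, one_mul, zero_mul]
    rw [Finset.sum_ite_eq, if_pos (hN g hgl)]
    have e2 : B (patR lo S1 g) g = B (patR lo S1 g) h := hB _ g h fun v hv =>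
      hgo v fun hv' => (Finset.disjoint_left.1 hLΛ hv) hv'
    simp only [hF, e2]
  rw [e1, ex_sum_mul]
  refine Finset.sum_congr rfl fun a _ => ?_
  rw [qqR_eq ho hh]
  split_ifs <;> simp

open Classical in
/-- extension of a pattern -/
def extP (S1 : Finset P2) (a : S1 → ℤ) : Hz := fun v => if hv : v ∈ S1 then a ⟨v, hv⟩ else 0

theorem lev_patR (h1 : Lev S1 l1) (h : Hz) : l1 (extP S1 (patR lo S1 h)) = l1 h - lo h := by
  have e : l1 (extP S1 (patR lo S1 h)) = l1 (fun v => h v + -lo h) := h1.loc _ _ fun v hv => by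
    unfold extP patR
    rw [dif_pos (Finset.mem_coe.1 hv)]
    ring
  rw [e, h1.shift]
  ring

theorem neu_patR {o1 : P2} (ho1 : o1 ∈ S1) (h : Hz) :
    neu o1 S1 ho1 (patR lo S1 h) = pat o1 S1 h := by
  funext v
  unfold neu patR pat
  ring

/-- the reference measure -/
def nuR (P : Measure Hz) (l1 : Hz → ℤ) (o1 : P2) (S1 : Finset P2) (ho1 : o1 ∈ S1) (M : ℕ)
    (a : S1 → ℤ) : ℝ :=
  if |l1 (extP S1 a)| ≤ M then P.real {g | pat o1 S1 g = neu o1 S1 ho1 a} else 0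

theorem nuR_nonneg {o1 : P2} (ho1 : o1 ∈ S1) (M : ℕ) (a : S1 → ℤ) : 0 ≤ nuR P l1 o1 S1 ho1 M a := by
  unfold nuR
  split_ifs
  · exact measureReal_nonneg
  · exact le_rfl

theorem sum_nuR [IsProbabilityMeasure P] (h1 : Lev S1 l1) {o1 : P2} (ho1 : o1 ∈ S1) (M : ℕ)
    (s : Finset (S1 → ℤ)) : ∑ a ∈ s, nuR P l1 o1 S1 ho1 M a ≤ 2 * M + 1 := by
  classical
  have e1 : ∑ a ∈ s, nuR P l1 o1 S1 ho1 M a = ∑ k ∈ Finset.Icc (-(M : ℤ)) M,
      ∑ a ∈ s with l1 (extP S1 a) = k, P.real {g | pat o1 S1 g = neu o1 S1 ho1 a} := by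
    have e2 : ∑ a ∈ s, nuR P l1 o1 S1 ho1 M a
        = ∑ a ∈ s with l1 (extP S1 a) ∈ Finset.Icc (-(M : ℤ)) M,
          P.real {g | pat o1 S1 g = neu o1 S1 ho1 a} := by
      rw [Finset.sum_filter]
      refine Finset.sum_congr rfl fun a _ => ?_
      unfold nuR
      simp only [Finset.mem_Icc, ← abs_le]
    rw [e2, ← Finset.sum_fiberwise_of_maps_to (t := Finset.Icc (-(M : ℤ)) M)
      (g := fun a : S1 → ℤ => l1 (extP S1 a)) (fun a ha => (Finset.mem_filter.1 ha).2)]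
    refine Finset.sum_congr rfl fun k hk => ?_
    rw [Finset.filter_filter]
    refine Finset.sum_congr ?_ fun _ _ => rfl
    ext a
    simp only [Finset.mem_filter]
    constructor
    · rintro ⟨ha, -, hb⟩; exact ⟨ha, hb⟩
    · rintro ⟨ha, hb⟩; exact ⟨ha, hb ▸ hk, hb⟩
  rw [e1]
  have e3 : ∀ k ∈ Finset.Icc (-(M : ℤ)) M,
      ∑ a ∈ s with l1 (extP S1 a) = k, P.real {g | pat o1 S1 g = neu o1 S1 ho1 a} ≤ 1 := by
    intro k _
    rw [← measureReal_biUnion_finset (f := fun a => {g | pat o1 S1 g = neu o1 S1 ho1 a})]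
    · exact measureReal_le_one
    · intro a ha b hb hab
      rw [Function.onFun, Set.disjoint_left]
      intro g hg hg'
      apply hab
      have h3 : neu o1 S1 ho1 a = neu o1 S1 ho1 b := by
        rw [← (hg : pat o1 S1 g = _), ← (hg' : pat o1 S1 g = _)]
      -- `a = b + c`
      set c : ℤ := a ⟨o1, ho1⟩ - b ⟨o1, ho1⟩ with hc
      have h4 : ∀ v, a v = b v + c := fun v => by
        have h4 := congrFun h3 v
        unfold neu at h4
        rw [hc]; linarith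
      have h5 : l1 (extP S1 a) = l1 (extP S1 b) + c := by
        rw [← h1.shift]
        refine h1.loc _ _ fun v hv => ?_
        unfold extP
        rw [dif_pos (Finset.mem_coe.1 hv), dif_pos (Finset.mem_coe.1 hv)]
        exact h4 _
      rw [(Finset.mem_filter.1 ha).2, (Finset.mem_filter.1 hb).2] at h5
      funext v
      rw [h4 v]; linarith
    · intro a _
      exact measurable_pat o1 S1 (measurableSet_singleton _)
  refine (Finset.sum_le_sum e3).trans ?_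
  rw [Finset.sum_const, nsmul_eq_mul, mul_one, Int.card_Icc]
  have : ((M : ℤ) + 1 - -(M : ℤ)).toNat = 2 * M + 1 := by omega
  rw [this]; push_cast; exact le_rfl

/-- the mass of the exceptional patterns -/
theorem sum_hi_nuR (hP : PinnedZ P) (hD : DLR x P) (ho : Lev L lo) (h1 : Lev S1 l1) (hS1 : S1 ⊆ Λ)
    (hL : nbhd Λ ⊆ Λ ∪ L) (hLΛ : Disjoint L Λ) {o1 : P2} (ho1 : o1 ∈ S1) (M : ℕ) {N : ℕ}
    (hN : ∀ h : Hz, Lip h → patR lo S1 h ∈ patsR S1 N) {C : ℝ} :
    ∑ a ∈ patsR S1 N, ∫ h, (if C * nuR P l1 o1 S1 ho1 M a < qqR x Λ lo S1 L a h then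
      qqR x Λ lo S1 L a h else 0) ∂P
      ≤ P.real (big x P Λ o1 S1 C) + P.real {h | (M : ℤ) < |l1 h - lo h|} := by
  classical
  have := hP.prob
  have h := sum_patR (x := x) hP hD ho hS1 hL hLΛ hN
    (fun a h => C * nuR P l1 o1 S1 ho1 M a < qqR x Λ lo S1 L a h)
    (fun a h g hg => by
      have e3 := qqR_loc x ho hL hS1 a h g hg
      simp only [e3])
    (fun a h c => by
      have e3 := qqR_neut (Λ := Λ) (S1 := S1) x ho a h c
      simp only [e3])
  have e0 : ∑ a ∈ patsR S1 N, ∫ h, (if C * nuR P l1 o1 S1 ho1 M a < qqR x Λ lo S1 L a h then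
      qqR x Λ lo S1 L a h else 0) ∂P
      = P.real {h | C * nuR P l1 o1 S1 ho1 M (patR lo S1 h) < qqR x Λ lo S1 L (patR lo S1 h) h} := by
    refine Eq.trans ?_ h
    refine Finset.sum_congr rfl fun a _ => integral_congr_ae (ae_of_all _ fun g => ?_)
    simp only
  rw [e0]
  refine le_trans ?_ (measureReal_union_le _ _)
  have e1 : P {h | C * nuR P l1 o1 S1 ho1 M (patR lo S1 h) < qqR x Λ lo S1 L (patR lo S1 h) h}
      ≤ P (big x P Λ o1 S1 C ∪ {h | (M : ℤ) < |l1 h - lo h|}) := by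
    refine measure_mono_ae ?_
    filter_upwards [hP.lip] with g hg
    intro (hb : C * nuR P l1 o1 S1 ho1 M (patR lo S1 g) < qqR x Λ lo S1 L (patR lo S1 g) g)
    show g ∈ big x P Λ o1 S1 C ∪ {h | (M : ℤ) < |l1 h - lo h|}
    by_cases hM : (M : ℤ) < |l1 g - lo g|
    · exact Or.inr hM
    · left
      unfold big
      rw [Set.mem_ofPred_eq]
      rw [qqR_eq ho hg] at hb
      have e2 : nuR P l1 o1 S1 ho1 M (patR lo S1 g) = P.real {g' | pat o1 S1 g' = pat o1 S1 g} := by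
        unfold nuR
        rw [lev_patR h1, neu_patR, if_pos (not_lt.1 hM)]
      rw [e2] at hb
      refine hb.trans_le (ex_mono fun f _ => ?_)
      unfold indR ind
      by_cases hf : patR lo S1 f = patR lo S1 g
      · have : pat o1 S1 f = pat o1 S1 g := by
          rw [← neu_patR (lo := lo) ho1 f, ← neu_patR (lo := lo) ho1 g, hf]
        rw [if_pos hf, if_pos this]
      · rw [if_neg hf]
        split_ifs <;> norm_num
  exact ENNReal.toReal_mono (measure_ne_top _ _) e1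

end Joint

/-- **Step (A2) for sequences, final form** (neutral density bound, level functionals). -/
theorem joint_seq3 {x : ℝ} (hx : 0 < x) {P : Measure Hz} (hP : PinnedZ P) (hD : DLR x P)
    {Λ S1 L S2 T : ℕ → Finset P2} {lo lb l1 : ℕ → Hz → ℤ} {o1 : ℕ → P2}
    (ho : ∀ n, Lev (L n) (lo n)) (hb : ∀ n, Lev (S2 n) (lb n)) (h1 : ∀ n, Lev (S1 n) (l1 n))
    (ho1 : ∀ n, o1 n ∈ S1 n)
    (hLΛ : ∀ n, Disjoint (L n) (Λ n)) (hS1 : ∀ n, S1 n ⊆ Λ n)
    (hL : ∀ n, nbhd (Λ n) ⊆ Λ n ∪ L n) (hS2 : ∀ n, Disjoint (S2 n) (Λ n))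
    (hT : ∀ n, Disjoint (T n) (Λ n)) {X : ℕ → Hz → ℝ} (hX : ∀ n, LocZ (T n : Set P2) (X n))
    (hXn : ∀ n, NeutZ (X n)) {V : ℝ} (hV : ∀ n, ∫ h, X n h ^ 2 ∂P ≤ V)
    (hUI : ∀ η > 0, ∃ C : ℝ, 0 < C ∧ ∀ᶠ n in atTop, ∀ B : (S1 n → ℤ) → Hz → Prop,
      (∀ a, LocZ (L n : Set P2) (B a)) → (∀ a, NeutZ (B a)) →
      P.real {h | B (pat (o1 n) (S1 n) h) h} ≤ η + C * ∑ a ∈ pats (o1 n) (S1 n),
        P.real {g | pat (o1 n) (S1 n) g = a} * P.real {h | B a h})
    (hTight1 : ∀ η > 0, ∃ M : ℕ, ∀ᶠ n in atTop, P.real {h | (M : ℤ) < |l1 n h - lo n h|} ≤ η)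
    (hTight : ∀ η > 0, ∃ M : ℕ, ∀ᶠ n in atTop, P.real {h | (M : ℤ) < |lb n h - lo n h|} ≤ η)
    (hA1 : ∀ ε > 0, ∀ᶠ n in atTop, ∀ (α : ℝ) (Z1 Z2 : Hz → ℂ), LocZ (L n : Set P2) Z1 →
      LocZ (S2 n : Set P2) Z2 → ChgZ (-α) Z1 → ChgZ α Z2 → (∀ h, ‖Z1 h‖ ≤ 1) →
      (∀ h, ‖Z2 h‖ ≤ 1) → ‖∫ h, (X n h : ℂ) * Z1 h * Z2 h ∂P‖ ≤ ε) :
    ∀ ε > 0, ∀ᶠ n in atTop, ∀ Y : Hz → ℝ, LocZ ((S1 n : Set P2) ∪ S2 n) Y → NeutZ Y →
      (∀ h, |Y h| ≤ 1) → |∫ h, X n h * Y h ∂P| ≤ ε := by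
  classical
  intro ε hε
  have := hP.prob
  have hV0 : 0 ≤ V := (integral_nonneg fun h => sq_nonneg _).trans (hV 0)
  -- choose η
  obtain ⟨η, hη, hηε⟩ : ∃ η : ℝ, 0 < η ∧ √V * (√(3 * η) + √(3 * η)) ≤ ε / 2 := by
    refine ⟨(ε / (4 * (√V + 1))) ^ 2 / 3, by positivity, ?_⟩
    have h1 : 0 ≤ √V := Real.sqrt_nonneg V
    rw [mul_div_cancel₀ _ (by norm_num : (3 : ℝ) ≠ 0), Real.sqrt_sq (by positivity)]
    have h2 : √V * (ε / (4 * (√V + 1)) + ε / (4 * (√V + 1))) = (√V / (√V + 1)) * (ε / 2) := by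
      field_simp; ring
    rw [h2]
    have h3 : √V / (√V + 1) ≤ 1 := by rw [div_le_one (by positivity)]; linarith
    nlinarith
  obtain ⟨C, hC, hCn⟩ := hUI η hη
  obtain ⟨M1, hM1n⟩ := hTight1 η hη
  obtain ⟨M, hMn⟩ := hTight (3 * η) (by positivity)
  have hε' : 0 < ε / (2 * ((2 * M1 + 1) * (2 * C * (2 * M + 1)))) := by positivity
  filter_upwards [hCn, hM1n, hMn, hA1 _ hε'] with n h2 h2' h3 h4 Y hY hYn hY1
  obtain ⟨N, hN⟩ := exists_patsR (S1 n) (ho n)
  have h5 := big_of_ui1 (x := x) hP hD (hS1 n) (hL n) (ho1 n) (hLΛ n) hC h2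
  have h6 := sum_hi_nuR (x := x) hP hD (ho n) (h1 n) (hS1 n) (hL n) (hLΛ n) (ho1 n) M1 hN
    (C := 2 * C)
  have main := jointR (η := 3 * η) (K := 2 * M1 + 1) hx hP hD (ho n) (hb n) (hLΛ n) (hS1 n) (hL n)
    (hS2 n) (hT n) (hX n)
    (hXn n) hY hYn hY1 M (by positivity : 0 < 2 * C) hε'.le hN
    (nuR P (l1 n) (o1 n) (S1 n) (ho1 n) M1)
    (fun a _ => nuR_nonneg (ho1 n) M1 a) (sum_nuR (h1 n) (ho1 n) M1 _)
    (h6.trans (by linarith)) h4
  refine main.trans ?_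
  have e1 : ((2 * M1 + 1 : ℝ)) * (2 * C * ((2 * M + 1) *
      (ε / (2 * ((2 * M1 + 1) * (2 * C * (2 * M + 1))))))) = ε / 2 := by
    field_simp
  rw [e1]
  have e2 : √(∫ h, X n h ^ 2 ∂P) ≤ √V := Real.sqrt_le_sqrt (hV n)
  have e3 : √(P.real {h | (M : ℤ) < |lb n h - lo n h|}) ≤ √(3 * η) := Real.sqrt_le_sqrt h3
  have e4 : √(∫ h, X n h ^ 2 ∂P) * (√(3 * η) + √(P.real {h | (M : ℤ) < |lb n h - lo n h|}))
      ≤ √V * (√(3 * η) + √(3 * η)) := by
    refine mul_le_mul e2 (by linarith) (by positivity) (Real.sqrt_nonneg _)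
  linarith

end Crest.Agent.R144.Ccw435
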