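import Crest.Agent.R144.Rsw0_867
import Crest.Agent.R144.It3_844

/-!
# R144, contiguity: the uniform statement `CU` (helper880; S5 table of helper867)

* `nb K r` : the `r`-neighbourhood of `K`;
* `NoP S X Y` : no path in `S` from outside `Y` to `X`;
* `HH K s` : two 0|1 level loops around `nb K s` inside `nb K (5 s)` (height event);
* `CU x` : conditional on all heights off `nb K (5 s) \ nb K s`, `HH K s` has probability `≥ c0`
  outside an event of probability `≤ η`, uniformly in the domain.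
-/

set_option autoImplicit false

noncomputable section

namespace Crest.Agent.R144.CuP880

open Crest.Agent.R144.It844 (P2 Lip pr)
open Crest.Agent.R144.Zg349 (StepIn SC)
open Crest.Agent.R144.Rsw867 (ball)

/-- `r`-neighbourhood -/
def nb (K : Finset P2) (r : ℕ) : Finset P2 := K.biUnion fun v => ball v r

/-- no path in `S` from outside `Y` to `X` -/
def NoP (S : Set P2) (X Y : Finset P2) : Prop :=
  ∀ u v, u ∉ Y → v ∈ X → ¬ Relation.ReflTransGen (StepIn S) u v

/-- two level loops `0|1` around `nb K s` -/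
def HH (K : Finset P2) (s : ℕ) : Set (P2 → ℤ) :=
  {h | NoP {v | h v ≤ 0} (nb K s) (nb K (2 * s)) ∧ NoP {v | 1 ≤ h v} (nb K (2 * s)) (nb K (3 * s)) ∧
    NoP {v | h v ≤ 0} (nb K (3 * s)) (nb K (4 * s)) ∧ NoP {v | 1 ≤ h v} (nb K (4 * s)) (nb K (5 * s))}

/-- the uniform contiguity input -/
def CU (x : ℝ) : Prop := ∀ (R : ℕ) (η : ℝ), 0 < η → ∃ (c0 : ℝ) (s0 : ℕ), 0 < c0 ∧ ∀ s ≥ s0,
  ∀ (a : P2) (Λ : Finset P2), SC Λ → Λ ⊆ ball a (R * s) → ∀ τ : P2 → ℤ, Lip τ →
    (∀ v, v ∉ Λ → τ v = 0 ∨ τ v = 1) → ∀ K : Finset P2, K.Nonempty → nb K (5 * s) ⊆ Λ →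
      pr x Λ τ {h | pr x (nb K (5 * s) \ nb K s) h (HH K s) < c0} ≤ η

end Crest.Agent.R144.CuP880
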