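import Crest.Agent.R144.Cge4_311
import Crest.Agent.R144.Cc10_169
import Crest.Agent.R144.Ccw7_435
import Crest.Agent.R144.CuP_880
import Crest.Agent.R144.Gi1_643

/-!
# R144 (CCW, cell theorem), geometry of one cell (helper169)

Cell with centre `z0` and size `η`, lattice scale `d`: `s = sc η d` the lattice unit (`d s ≈ η / 4`), `g = gp ..` the
strip of width `128 s` and `m` blocks around the cell; `S1, S2` the sites of the lower and of the upper layer,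
`Lam = nb S1 (8 s)`, `LL = nb S1 (16 s) \ Lam`, `TT` the sites of the cell.
-/

set_option autoImplicit false
set_option linter.unusedSectionVars false
set_option linter.unusedSimpArgs false

noncomputable section

namespace Crest.Agent.R144.Cd169

open Finset Filter Topology MeasureTheory
open Crest.Agent.R144.It844 (P2 Lip adj_iff adj_symm nbhd)
open Crest.ProbabilityR.HexHeights (Adj centre)
open Crest.Agent.R144.Zg349 Crest.Agent.R144.Zk349 Crest.Agent.R144.Zd349 Crest.Agent.R144.Zm349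
open Crest.Agent.R144.Ze349
open Crest.Agent.R144.Pst967 (Hz LocZ NeutZ GObs)
open Crest.Agent.R144.HexTil353 (ca cb cen centre_eq cen_ca_cb cen_sub norm_cen_sq N_ge cen_re cen_im)
open Crest.Agent.R144.Cgeo311 (GP Box mem_Box col row)
open Crest.Agent.R144.Rsw867 (ball mem_ball)
open Crest.Agent.R144.CuP880 (nb)

/-! ### index coordinates of the plane -/

theorem ca1_centre (d : ℝ) (v : P2) : ca 1 (centre d v) = d * v.1 := by
  have h3 : Real.sqrt 3 ≠ 0 := by positivity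
  rw [centre_eq]
  unfold ca
  rw [cen_re, cen_im]
  field_simp
  ring

theorem cb1_centre (d : ℝ) (v : P2) : cb 1 (centre d v) = d * v.2 := by
  have h3 : Real.sqrt 3 ≠ 0 := by positivity
  rw [centre_eq]
  unfold cb
  rw [cen_im]
  field_simp

theorem eq_cen (z : ℂ) : cen 1 (ca 1 z) (cb 1 z) = z := cen_ca_cb one_pos z

theorem abs_cab_sub (z z' : ℂ) : |ca 1 z - ca 1 z'| ≤ 2 * ‖z - z'‖ ∧ |cb 1 z - cb 1 z'| ≤ 2 * ‖z - z'‖ := by
  have h : ‖z - z'‖ ^ 2 = Crest.Agent.R144.HexTil353.N (ca 1 z - ca 1 z') (cb 1 z - cb 1 z') := by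
    conv_lhs => rw [← eq_cen z, ← eq_cen z']
    rw [cen_sub, norm_cen_sq, one_pow, one_mul]
  have h2 := N_ge (ca 1 z - ca 1 z') (cb 1 z - cb 1 z')
  rw [← h] at h2
  have h0 : 0 ≤ 2 * ‖z - z'‖ := by positivity
  have key : ∀ x : ℝ, x ^ 2 ≤ 2 * ‖z - z'‖ ^ 2 → |x| ≤ 2 * ‖z - z'‖ := by
    intro x hx
    refine (abs_le_of_sq_le_sq' ?_ h0).2
    rw [sq_abs]
    nlinarith [sq_nonneg ‖z - z'‖]
  exact ⟨key _ (by nlinarith [sq_nonneg (cb 1 z - cb 1 z')]), key _ (by nlinarith [sq_nonneg (ca 1 z - ca 1 z')])⟩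

theorem norm_le_cab (z z' : ℂ) : ‖z - z'‖ ≤ |ca 1 z - ca 1 z'| + |cb 1 z - cb 1 z'| := by
  conv_lhs => rw [← eq_cen z, ← eq_cen z']
  rw [cen_sub]
  have := Crest.Agent.R144.Mix880.norm_cen_le' (δ := 1) zero_le_one (ca 1 z - ca 1 z') (cb 1 z - cb 1 z')
  rwa [one_mul] at this

/-! ### data of a cell -/

/-- lattice unit -/
def sc (η d : ℝ) : ℕ := ⌈η / (4 * d)⌉₊ + 1

theorem sc_pos (η d : ℝ) : 1 ≤ sc η d := Nat.le_add_left 1 _

theorem sc_ge {η d : ℝ} (hd : 0 < d) : η ≤ 4 * (d * sc η d) := by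
  unfold sc
  have h := Nat.le_ceil (η / (4 * d))
  rw [div_le_iff₀ (by positivity)] at h
  push_cast
  nlinarith

theorem sc_le {η d : ℝ} (hη : 0 < η) (hd : 0 < d) (hs : 1024 * d ≤ η) : 2 * (d * sc η d) ≤ η := by
  unfold sc
  have h := (Nat.ceil_lt_add_one (a := η / (4 * d)) (by positivity)).le
  push_cast
  have h1 : d * (((⌈η / (4 * d)⌉₊ : ℕ) : ℝ) + 1) ≤ d * (η / (4 * d) + 1 + 1) :=
    mul_le_mul_of_nonneg_left (by linarith) hd.le
  have h2 : d * (η / (4 * d) + 1 + 1) = η / 4 + 2 * d := by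
    field_simp
    ring
  linarith

/-- strip around the cell -/
def gp {K L : ℕ} (hK : 4 ≤ K) (hL : 1 ≤ L) (m : ℕ) (η d : ℝ) (z0 : ℂ) : GP where
  a := (⌊ca 1 z0 / d⌋, ⌊cb 1 z0 / d⌋ - 64 * (sc η d : ℤ))
  w := 128 * sc η d
  K := K
  h := 4
  L := L
  w0 := 1
  m := m
  hw := by have := sc_pos η d; omega
  hK := hK
  hh := le_rfl
  hL := hL
  hw0 := le_rfl

/-- lower layer, triangles -/
def LayD (g : GP) : Finset P2 := g.SL.filter fun t => row g.a t < 0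
/-- upper layer, triangles -/
def LayU (g : GP) : Finset P2 := g.SL.filter fun t => (g.w : ℤ) ≤ row g.a t

theorem Lay_eq (g : GP) : g.Lay = LayD g ∪ LayU g := by
  ext t
  unfold LayD LayU GP.Lay
  rw [Finset.mem_union, Finset.mem_filter, Finset.mem_filter, Finset.mem_filter]
  tauto

/-- sites of the lower layer -/
def S1 (g : GP) : Finset P2 := VF (LayD g)
/-- sites of the upper layer -/
def S2 (g : GP) : Finset P2 := VF (LayU g)

theorem VF_Lay (g : GP) : VF g.Lay = S1 g ∪ S2 g := by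
  unfold S1 S2
  rw [Lay_eq]
  unfold VF
  exact Finset.union_biUnion

section
variable {K L : ℕ} (hK : 4 ≤ K) (hL : 1 ≤ L) (m : ℕ) (η d : ℝ) (z0 : ℂ)

/-- total length of the strip in lattice units -/
def len (K L m : ℕ) : ℕ := 1 + m * ((2 * K + 3) + (2 * L + 1) * (2 * K + 1))

theorem W_m : (gp hK hL m η d z0).W (gp hK hL m η d z0).m = 128 * (len K L m * sc η d : ℤ) := by
  unfold GP.W GP.Wn GP.per GP.un gp len
  push_cast
  ring

theorem H_eq : (gp hK hL m η d z0).H = 512 * (sc η d : ℤ) := by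
  unfold GP.H gp
  push_cast
  ring

theorem w_eq : ((gp hK hL m η d z0).w : ℤ) = 128 * (sc η d : ℤ) := by
  unfold gp
  push_cast
  ring

variable {hK hL m η d z0}

theorem mem_SL {t : P2} : t ∈ (gp hK hL m η d z0).SL ↔
    |t.1 - (gp hK hL m η d z0).a.1| < 128 * (len K L m * sc η d : ℤ) + 2 ∧
    -(512 * (sc η d : ℤ)) ≤ t.2 - (gp hK hL m η d z0).a.2 ∧
    t.2 - (gp hK hL m η d z0).a.2 < 640 * (sc η d : ℤ) := by
  unfold GP.SL
  rw [mem_Box, W_m, H_eq, w_eq]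
  unfold col row
  have h0 : 0 ≤ |t.1 - (gp hK hL m η d z0).a.1| := abs_nonneg _
  constructor
  · intro h; omega
  · intro h; omega

theorem len_pos (K L m : ℕ) : 1 ≤ len K L m := by unfold len; omega

/-- unit times length -/
theorem len_ge (η d : ℝ) (K L m : ℕ) : (sc η d : ℤ) ≤ len K L m * sc η d := by
  have h1 : (1 : ℤ) ≤ len K L m := by exact_mod_cast len_pos K L m
  have h2 : (0 : ℤ) ≤ sc η d := by positivity
  nlinarith

theorem mem_S1 {v : P2} (hv : v ∈ S1 (gp hK hL m η d z0)) :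
    |v.1 - (gp hK hL m η d z0).a.1| ≤ 128 * (len K L m * sc η d : ℤ) + 2 ∧
    -(512 * (sc η d : ℤ)) ≤ v.2 - (gp hK hL m η d z0).a.2 ∧ v.2 - (gp hK hL m η d z0).a.2 ≤ 0 := by
  obtain ⟨t, ht, hvt⟩ := mem_VF.1 hv
  unfold LayD at ht
  rw [Finset.mem_filter, mem_SL] at ht
  unfold row at ht
  obtain ⟨⟨h1, h2, h3⟩, h4⟩ := ht
  rw [mem_up] at hvt
  rw [abs_lt] at h1
  rw [abs_le]
  rcases hvt with rfl | rfl | rfl
  · omega
  · simp only
    omega
  · simp only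
    omega

theorem mem_S2 {v : P2} (hv : v ∈ S2 (gp hK hL m η d z0)) :
    |v.1 - (gp hK hL m η d z0).a.1| ≤ 128 * (len K L m * sc η d : ℤ) + 2 ∧
    128 * (sc η d : ℤ) ≤ v.2 - (gp hK hL m η d z0).a.2 ∧
    v.2 - (gp hK hL m η d z0).a.2 ≤ 640 * (sc η d : ℤ) := by
  obtain ⟨t, ht, hvt⟩ := mem_VF.1 hv
  unfold LayU at ht
  rw [Finset.mem_filter, mem_SL, w_eq] at ht
  unfold row at ht
  obtain ⟨⟨h1, h2, h3⟩, h4⟩ := ht
  rw [mem_up] at hvt
  rw [abs_lt] at h1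
  rw [abs_le]
  rcases hvt with rfl | rfl | rfl
  · omega
  · simp only
    omega
  · simp only
    omega

theorem mem_VF_SL {v : P2} (hv : v ∈ VF (gp hK hL m η d z0).SL) :
    |v.1 - (gp hK hL m η d z0).a.1| ≤ 128 * (len K L m * sc η d : ℤ) + 2 ∧
    |v.2 - (gp hK hL m η d z0).a.2| ≤ 640 * (sc η d : ℤ) := by
  obtain ⟨t, ht, hvt⟩ := mem_VF.1 hv
  rw [mem_SL] at ht
  obtain ⟨h1, h2, h3⟩ := ht
  rw [mem_up] at hvt
  rw [abs_lt] at h1
  rw [abs_le, abs_le]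
  have := sc_pos η d
  rcases hvt with rfl | rfl | rfl
  · omega
  · simp only
    omega
  · simp only
    omega

theorem in_S1 {v : P2} (h1 : |v.1 - (gp hK hL m η d z0).a.1| ≤ sc η d)
    (h2 : -(512 * (sc η d : ℤ)) ≤ v.2 - (gp hK hL m η d z0).a.2)
    (h3 : v.2 - (gp hK hL m η d z0).a.2 < 0) : v ∈ S1 (gp hK hL m η d z0) := by
  refine mem_VF.2 ⟨v, ?_, base_mem_up v⟩
  unfold LayD
  rw [Finset.mem_filter, mem_SL]
  have := len_ge η d K L m
  unfold row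
  omega

theorem in_S1' {v : P2} (h1 : |v.1 - (gp hK hL m η d z0).a.1| ≤ sc η d)
    (h3 : v.2 = (gp hK hL m η d z0).a.2) : v ∈ S1 (gp hK hL m η d z0) := by
  refine mem_VF.2 ⟨(v.1, v.2 - 1), ?_, ?_⟩
  · unfold LayD
    rw [Finset.mem_filter, mem_SL]
    have := len_ge η d K L m
    have := sc_pos η d
    unfold row
    simp only
    omega
  · rw [mem_up]
    refine Or.inr (Or.inr ?_)
    ext <;> simp

theorem in_S2 {v : P2} (h1 : |v.1 - (gp hK hL m η d z0).a.1| ≤ sc η d)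
    (h2 : 128 * (sc η d : ℤ) ≤ v.2 - (gp hK hL m η d z0).a.2)
    (h3 : v.2 - (gp hK hL m η d z0).a.2 < 640 * (sc η d : ℤ)) : v ∈ S2 (gp hK hL m η d z0) := by
  refine mem_VF.2 ⟨v, ?_, base_mem_up v⟩
  unfold LayU
  rw [Finset.mem_filter, mem_SL, w_eq]
  have := len_ge η d K L m
  unfold row
  omega

end

/-! ### neighbourhoods -/

theorem mem_nb {K : Finset P2} {r : ℕ} {v : P2} : v ∈ nb K r ↔ ∃ u ∈ K, v ∈ ball u r := by
  unfold nb
  rw [Finset.mem_biUnion]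

theorem self_mem_ball (v : P2) (r : ℕ) : v ∈ ball v r := by
  rw [mem_ball]
  simp

theorem sub_nb (K : Finset P2) (r : ℕ) : K ⊆ nb K r := fun v hv => mem_nb.2 ⟨v, hv, self_mem_ball v r⟩

theorem nb_mono (K : Finset P2) {r r' : ℕ} (h : r ≤ r') : nb K r ⊆ nb K r' := fun v hv => by
  obtain ⟨u, hu, h1⟩ := mem_nb.1 hv
  exact mem_nb.2 ⟨u, hu, Crest.Agent.R144.Rsw867.ball_mono u h h1⟩

theorem nb_adj {K : Finset P2} {r : ℕ} {v v' : P2} (hv : v ∈ nb K r) (h : Adj v v') : v' ∈ nb K (r + 1) := by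
  obtain ⟨u, hu, h1⟩ := mem_nb.1 hv
  refine mem_nb.2 ⟨u, hu, ?_⟩
  rw [mem_ball] at h1 ⊢
  simp only [abs_le] at h1 ⊢
  rw [adj_iff] at h
  push_cast
  rcases h with h | h | h | h | h | h <;> subst h <;> simp only <;> omega

/-- enlarged lower layer -/
def Lam (g : GP) (s : ℕ) : Finset P2 := nb (S1 g) (8 * s)
/-- thick contour -/
def LL (g : GP) (s : ℕ) : Finset P2 := nb (S1 g) (16 * s) \ Lam g s
/-- sites of the cell -/
def TT (g : GP) (s : ℕ) : Finset P2 := Box g.a 0 (25 * s + 1) (40 * s) (89 * s + 1)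

theorem disj_LL (g : GP) (s : ℕ) : Disjoint (LL g s) (Lam g s) := Finset.sdiff_disjoint

theorem nbhd_Lam (g : GP) {s : ℕ} (hs : 1 ≤ s) : nbhd (Lam g s) ⊆ Lam g s ∪ LL g s := by
  intro v hv
  by_cases h : v ∈ Lam g s
  · exact Or.inl h
  · rcases hv with hv | ⟨u, hu, huv⟩
    · exact Or.inl hv
    · refine Or.inr ?_
      rw [Finset.mem_coe]
      unfold LL
      rw [Finset.mem_sdiff]
      exact ⟨nb_mono _ (by omega) (nb_adj hu huv), h⟩

section
variable {K L : ℕ} {hK : 4 ≤ K} {hL : 1 ≤ L} {m : ℕ} {η d : ℝ} {z0 : ℂ}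

theorem row_nb {v : P2} {r : ℕ} (hv : v ∈ nb (S1 (gp hK hL m η d z0)) r) :
    |v.1 - (gp hK hL m η d z0).a.1| ≤ 128 * (len K L m * sc η d : ℤ) + 2 + r ∧
    -(512 * (sc η d : ℤ)) - r ≤ v.2 - (gp hK hL m η d z0).a.2 ∧ v.2 - (gp hK hL m η d z0).a.2 ≤ r := by
  obtain ⟨u, hu, h1⟩ := mem_nb.1 hv
  obtain ⟨h2, h3, h4⟩ := mem_S1 hu
  rw [mem_ball] at h1
  simp only [abs_le] at h1 h2 ⊢
  omega

theorem disj_S2 : Disjoint (S2 (gp hK hL m η d z0)) (Lam (gp hK hL m η d z0) (sc η d)) := by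
  rw [Finset.disjoint_left]
  intro v h1 h2
  have h3 := mem_S2 h1
  have h4 := row_nb h2
  have := sc_pos η d
  push_cast at h4
  omega

theorem disj_TT : Disjoint (TT (gp hK hL m η d z0) (sc η d)) (Lam (gp hK hL m η d z0) (sc η d)) := by
  rw [Finset.disjoint_left]
  intro v h1 h2
  have h4 := row_nb h2
  unfold TT at h1
  rw [mem_Box] at h1
  unfold row at h1
  have := sc_pos η d
  push_cast at h4
  omega

theorem TT_sub : TT (gp hK hL m η d z0) (sc η d) ⊆ (gp hK hL m η d z0).V0 := by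
  intro v hv
  unfold TT at hv
  unfold GP.V0
  rw [mem_Box] at hv ⊢
  have e : (((gp hK hL m η d z0).w0 : ℤ) * (gp hK hL m η d z0).w) = 128 * (sc η d : ℤ) := by
    unfold gp
    push_cast
    ring
  rw [e, w_eq]
  have := sc_pos η d
  omega

/-! ### level balls -/

/-- ball in the contour -/
def bo (g : GP) (s : ℕ) : Finset P2 := ball (g.a.1, g.a.2 + 12 * s) s
/-- ball in the lower layer -/
def b1 (g : GP) (s : ℕ) : Finset P2 := ball (g.a.1, g.a.2 - 2 * s) s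
/-- ball in the upper layer -/
def b2 (g : GP) (s : ℕ) : Finset P2 := ball (g.a.1, g.a.2 + 130 * s) s

theorem bo_sub : bo (gp hK hL m η d z0) (sc η d) ⊆ LL (gp hK hL m η d z0) (sc η d) := by
  intro v hv
  unfold bo at hv
  rw [mem_ball] at hv
  have hs := sc_pos η d
  unfold LL Lam
  rw [Finset.mem_sdiff]
  constructor
  · refine mem_nb.2 ⟨(v.1, (gp hK hL m η d z0).a.2), in_S1' ?_ rfl, ?_⟩
    · exact hv.1
    · rw [mem_ball]
      simp only [abs_le] at hv ⊢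
      push_cast
      omega
  · intro h
    have h4 := row_nb h
    simp only [abs_le] at hv h4
    push_cast at h4
    omega

theorem b1_sub : b1 (gp hK hL m η d z0) (sc η d) ⊆ S1 (gp hK hL m η d z0) := by
  intro v hv
  unfold b1 at hv
  rw [mem_ball] at hv
  have hs := sc_pos η d
  simp only [abs_le] at hv
  refine in_S1 ?_ ?_ ?_
  · rw [abs_le]; omega
  · omega
  · omega

theorem b2_sub : b2 (gp hK hL m η d z0) (sc η d) ⊆ S2 (gp hK hL m η d z0) := by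
  intro v hv
  unfold b2 at hv
  rw [mem_ball] at hv
  have hs := sc_pos η d
  simp only [abs_le] at hv
  refine in_S2 ?_ ?_ ?_
  · rw [abs_le]; omega
  · omega
  · omega

theorem S1_sub_ball {R : ℕ} (hR : R = (128 * len K L m + 1024) * sc η d) :
    S1 (gp hK hL m η d z0) ⊆ ball (gp hK hL m η d z0).a R := by
  intro v hv
  obtain ⟨h1, h2, h3⟩ := mem_S1 hv
  have hs := sc_pos η d
  have e : (R : ℤ) = 128 * ((len K L m : ℤ) * (sc η d : ℤ)) + 1024 * (sc η d : ℤ) := by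
    rw [hR]
    push_cast
    ring
  rw [mem_ball, e]
  simp only [abs_le] at h1 ⊢
  omega

/-! ### in the plane -/

theorem a_1 (hd : 0 < d) : d * ((gp hK hL m η d z0).a.1 : ℝ) ≤ ca 1 z0 ∧
    ca 1 z0 < d * ((gp hK hL m η d z0).a.1 : ℝ) + d := by
  show d * ((⌊ca 1 z0 / d⌋ : ℤ) : ℝ) ≤ ca 1 z0 ∧ ca 1 z0 < d * ((⌊ca 1 z0 / d⌋ : ℤ) : ℝ) + d
  have h1 := Int.floor_le (ca 1 z0 / d)
  have h2 := Int.lt_floor_add_one (ca 1 z0 / d)
  rw [le_div_iff₀ hd] at h1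
  rw [div_lt_iff₀ hd] at h2
  constructor <;> nlinarith

theorem a_2 (hd : 0 < d) : d * ((gp hK hL m η d z0).a.2 : ℝ) + 64 * (d * sc η d) ≤ cb 1 z0 ∧
    cb 1 z0 < d * ((gp hK hL m η d z0).a.2 : ℝ) + 64 * (d * sc η d) + d := by
  have e0 : (gp hK hL m η d z0).a.2 = ⌊cb 1 z0 / d⌋ - 64 * (sc η d : ℤ) := rfl
  have e : ((gp hK hL m η d z0).a.2 : ℝ) = ((⌊cb 1 z0 / d⌋ : ℤ) : ℝ) - 64 * (sc η d : ℝ) := by
    rw [e0]
    push_cast
    ring
  rw [e]
  have h1 := Int.floor_le (cb 1 z0 / d)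
  have h2 := Int.lt_floor_add_one (cb 1 z0 / d)
  rw [le_div_iff₀ hd] at h1
  rw [div_lt_iff₀ hd] at h2
  constructor <;> nlinarith

/-- sites near the cell are in `TT` -/
theorem mem_TT (hd : 0 < d) {v : P2} (h1 : |d * v.1 - ca 1 z0| ≤ 6 * η)
    (h2 : |d * v.2 - cb 1 z0| ≤ 6 * η) : v ∈ TT (gp hK hL m η d z0) (sc η d) := by
  obtain ⟨p1, p2⟩ := a_1 (hK := hK) (hL := hL) (m := m) (η := η) (z0 := z0) hd
  obtain ⟨q1, q2⟩ := a_2 (hK := hK) (hL := hL) (m := m) (η := η) (z0 := z0) hd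
  have hge := sc_ge (η := η) hd
  have hs1 : d ≤ d * sc η d := by
    have : (1 : ℝ) ≤ sc η d := by exact_mod_cast sc_pos η d
    nlinarith
  rw [abs_le] at h1 h2
  unfold TT
  rw [mem_Box]
  unfold col row
  have key : ∀ x y : ℤ, d * (x : ℝ) ≤ d * (y : ℝ) → x ≤ y := fun x y h => by
    have := le_of_mul_le_mul_left h hd
    exact_mod_cast this
  refine ⟨⟨abs_nonneg _, ?_⟩, ?_, ?_⟩
  · rw [Int.lt_add_one_iff, abs_le]
    constructor
    · apply key
      push_cast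
      nlinarith
    · apply key
      push_cast
      nlinarith
  · apply key
    push_cast
    nlinarith
  · rw [Int.lt_add_one_iff]
    apply key
    push_cast
    nlinarith

/-- conditions of `a1_inst` for the contour -/
theorem LL_low (hd : 0 < d) {v : P2} (hv : v ∈ LL (gp hK hL m η d z0) (sc η d)) :
    d * v.2 ≤ cb 1 z0 - 2 * (4 * η) ∧ |d * v.1 - ca 1 z0| ≤ (200 * len K L m) * (d * sc η d) ∧
      |d * v.2 - cb 1 z0| ≤ 1000 * (d * sc η d) := by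
  have h0 : v ∈ nb (S1 (gp hK hL m η d z0)) (16 * sc η d) := (Finset.mem_sdiff.1 hv).1
  obtain ⟨h1, h2, h3⟩ := row_nb h0
  obtain ⟨p1, p2⟩ := a_1 (hK := hK) (hL := hL) (m := m) (η := η) (z0 := z0) hd
  obtain ⟨q1, q2⟩ := a_2 (hK := hK) (hL := hL) (m := m) (η := η) (z0 := z0) hd
  have hge := sc_ge (η := η) hd
  have hlen : (1 : ℝ) ≤ len K L m := by exact_mod_cast len_pos K L m
  have hs0 : (1 : ℝ) ≤ sc η d := by exact_mod_cast sc_pos η d
  have hs1 : d ≤ d * sc η d := by nlinarith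
  have hs2 : d * sc η d ≤ len K L m * (d * sc η d) := by
    have : 0 ≤ d * (sc η d : ℝ) := by positivity
    nlinarith
  rw [abs_le] at h1
  obtain ⟨h1a, h1b⟩ := h1
  have r1 : (((-(128 * (len K L m * sc η d : ℤ) + 2 + (16 * sc η d : ℕ)) : ℤ)) : ℝ) ≤
      ((v.1 - (gp hK hL m η d z0).a.1 : ℤ) : ℝ) := by exact_mod_cast h1a
  have r2 : ((v.1 - (gp hK hL m η d z0).a.1 : ℤ) : ℝ) ≤
      (((128 * (len K L m * sc η d : ℤ) + 2 + (16 * sc η d : ℕ)) : ℤ) : ℝ) := by exact_mod_cast h1b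
  have r3 : (((-(512 * (sc η d : ℤ)) - (16 * sc η d : ℕ) : ℤ)) : ℝ) ≤
      ((v.2 - (gp hK hL m η d z0).a.2 : ℤ) : ℝ) := by exact_mod_cast h2
  have r4 : ((v.2 - (gp hK hL m η d z0).a.2 : ℤ) : ℝ) ≤ (((16 * sc η d : ℕ) : ℤ) : ℝ) := by
    exact_mod_cast h3
  push_cast at r1 r2 r3 r4
  have m1 := mul_le_mul_of_nonneg_left r1 hd.le
  have m2 := mul_le_mul_of_nonneg_left r2 hd.le
  have m3 := mul_le_mul_of_nonneg_left r3 hd.le
  have m4 := mul_le_mul_of_nonneg_left r4 hd.le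
  refine ⟨?_, ?_, ?_⟩
  · nlinarith
  · rw [abs_le]
    constructor <;> nlinarith
  · rw [abs_le]
    constructor <;> nlinarith

/-- conditions of `a1_inst` for the upper layer -/
theorem S2_high (hd : 0 < d) {v : P2} (hv : v ∈ S2 (gp hK hL m η d z0)) :
    cb 1 z0 + 2 * (4 * η) ≤ d * v.2 ∧ |d * v.1 - ca 1 z0| ≤ (200 * len K L m) * (d * sc η d) ∧
      |d * v.2 - cb 1 z0| ≤ 1000 * (d * sc η d) := by
  obtain ⟨h1, h2, h3⟩ := mem_S2 hv
  obtain ⟨p1, p2⟩ := a_1 (hK := hK) (hL := hL) (m := m) (η := η) (z0 := z0) hd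
  obtain ⟨q1, q2⟩ := a_2 (hK := hK) (hL := hL) (m := m) (η := η) (z0 := z0) hd
  have hge := sc_ge (η := η) hd
  have hlen : (1 : ℝ) ≤ len K L m := by exact_mod_cast len_pos K L m
  have hs0 : (1 : ℝ) ≤ sc η d := by exact_mod_cast sc_pos η d
  have hs1 : d ≤ d * sc η d := by nlinarith
  have hs2 : d * sc η d ≤ len K L m * (d * sc η d) := by
    have : 0 ≤ d * (sc η d : ℝ) := by positivity
    nlinarith
  rw [abs_le] at h1
  obtain ⟨h1a, h1b⟩ := h1
  have r1 : (((-(128 * (len K L m * sc η d : ℤ) + 2) : ℤ)) : ℝ) ≤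
      ((v.1 - (gp hK hL m η d z0).a.1 : ℤ) : ℝ) := by exact_mod_cast h1a
  have r2 : ((v.1 - (gp hK hL m η d z0).a.1 : ℤ) : ℝ) ≤
      (((128 * (len K L m * sc η d : ℤ) + 2) : ℤ) : ℝ) := by exact_mod_cast h1b
  have r3 : (((128 * (sc η d : ℤ) : ℤ)) : ℝ) ≤
      ((v.2 - (gp hK hL m η d z0).a.2 : ℤ) : ℝ) := by exact_mod_cast h2
  have r4 : ((v.2 - (gp hK hL m η d z0).a.2 : ℤ) : ℝ) ≤ ((640 * (sc η d : ℤ) : ℤ) : ℝ) := by
    exact_mod_cast h3
  push_cast at r1 r2 r3 r4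
  have m1 := mul_le_mul_of_nonneg_left r1 hd.le
  have m2 := mul_le_mul_of_nonneg_left r2 hd.le
  have m3 := mul_le_mul_of_nonneg_left r3 hd.le
  have m4 := mul_le_mul_of_nonneg_left r4 hd.le
  refine ⟨?_, ?_, ?_⟩
  · nlinarith
  · rw [abs_le]
    constructor <;> nlinarith
  · rw [abs_le]
    constructor <;> nlinarith

/-- the strip is in the disc of radius `(400 + 64 per m) η` around `z0` -/
theorem SL_disc (hη : 0 < η) (hd : 0 < d) (hsm : 1024 * d ≤ η) {v : P2}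
    (hv : v ∈ VF (gp hK hL m η d z0).SL) :
    ‖centre d v - z0‖ < (500 + 64 * ((2 * K + 3) + (2 * L + 1) * (2 * K + 1)) * m) * η := by
  obtain ⟨h1, h2⟩ := mem_VF_SL hv
  obtain ⟨p1, p2⟩ := a_1 (hK := hK) (hL := hL) (m := m) (η := η) (z0 := z0) hd
  obtain ⟨q1, q2⟩ := a_2 (hK := hK) (hL := hL) (m := m) (η := η) (z0 := z0) hd
  have hle := sc_le hη hd hsm
  have hs0 : (1 : ℝ) ≤ sc η d := by exact_mod_cast sc_pos η d
  have hs1 : d ≤ d * sc η d := by nlinarith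
  rw [abs_le] at h1 h2
  obtain ⟨h1a, h1b⟩ := h1
  obtain ⟨h2a, h2b⟩ := h2
  have r1 : (((-(128 * (len K L m * sc η d : ℤ) + 2) : ℤ)) : ℝ) ≤
      ((v.1 - (gp hK hL m η d z0).a.1 : ℤ) : ℝ) := by exact_mod_cast h1a
  have r2 : ((v.1 - (gp hK hL m η d z0).a.1 : ℤ) : ℝ) ≤
      (((128 * (len K L m * sc η d : ℤ) + 2) : ℤ) : ℝ) := by exact_mod_cast h1b
  have r3 : (((-(640 * (sc η d : ℤ)) : ℤ)) : ℝ) ≤
      ((v.2 - (gp hK hL m η d z0).a.2 : ℤ) : ℝ) := by exact_mod_cast h2a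
  have r4 : ((v.2 - (gp hK hL m η d z0).a.2 : ℤ) : ℝ) ≤ ((640 * (sc η d : ℤ) : ℤ) : ℝ) := by
    exact_mod_cast h2b
  push_cast at r1 r2 r3 r4
  have m1 := mul_le_mul_of_nonneg_left r1 hd.le
  have m2 := mul_le_mul_of_nonneg_left r2 hd.le
  have m3 := mul_le_mul_of_nonneg_left r3 hd.le
  have m4 := mul_le_mul_of_nonneg_left r4 hd.le
  have hlen : (len K L m : ℝ) = 1 + m * ((2 * K + 3) + (2 * L + 1) * (2 * K + 1)) := by
    unfold len
    push_cast
    ring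
  have hlen0 : (0 : ℝ) ≤ len K L m := by positivity
  have e1 : len K L m * (d * sc η d) ≤ len K L m * (η / 2) :=
    mul_le_mul_of_nonneg_left (by linarith) hlen0
  refine lt_of_le_of_lt (norm_le_cab _ _) ?_
  rw [ca1_centre, cb1_centre]
  have b1 : |d * (v.1 : ℝ) - ca 1 z0| ≤ 128 * (len K L m * (d * sc η d)) + 3 * (d * sc η d) := by
    rw [abs_le]
    constructor <;> nlinarith
  have b2 : |d * (v.2 : ℝ) - cb 1 z0| ≤ 705 * (d * sc η d) := by
    rw [abs_le]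
    constructor <;> nlinarith
  have e2 : (500 + 64 * ((2 * (K : ℝ) + 3) + (2 * L + 1) * (2 * K + 1)) * m) * η =
      128 * (len K L m * (η / 2)) + 436 * η := by
    rw [hlen]
    ring
  rw [e2]
  linarith

end

end Crest.Agent.R144.Cd169
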