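import Crest.Agent.R144.Den1_435
import Crest.Agent.R144.Pst12_967
import Crest.Agent.R144.Ccw7_435

/-!
# R144, two-patch density (helper435), part 2: the plane law

`ui_plane` : the neutral hypothesis `hUI` of `joint_seq3` from `LAYF c`.
-/

set_option autoImplicit false

noncomputable section

namespace Crest.Agent.R144.Den435

open Finset MeasureTheory Filter Topology
open Crest.Agent.R144.It844 (P2 Lip)
open Crest.Agent.R144.Zg349 Crest.Agent.R144.Zd349 Crest.Agent.R144.Zm349 Crest.Agent.R144.Ze349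
open Crest.Agent.R144.Rsw867 (RSW ball RSWZ)
open Crest.Agent.R144.Pst967
open Crest.Agent.R144.CuP880 (nb)
open Crest.Agent.R144.Cmp880 (mem_nb)
open Crest.Agent.R144.Ccw435 (pat pats pat_mem pat_loc pat_neut ind_nonneg ind_loc ind_neut
  measurable_pat)

/-- two-patch comparison for the plane law, functional form -/
theorem main_P {c : ℝ} (hc : 1 ≤ c) {K : ℕ} {p : ℝ} (hR : RSW c K p) (hLF : LAYF c)
    {P : Measure Hz} (hFL : ∀ f : Hz → ℝ, GObs f → FLim c f (∫ h, f h ∂P)) (R : ℕ)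
    {η : ℝ} (hη : 0 < η) : ∃ (C : ℝ) (s0 : ℕ), 0 < C ∧ ∀ s ≥ s0, ∀ (a : P2) (K0 : Finset P2),
      K0.Nonempty → IsConn (K0 : Set P2) → K0 ⊆ ball a (R * s) → ∀ E0 : Finset P2, SC E0 →
        nb K0 (7 * s) ⊆ E0 → ∀ L : Finset P2, Disjoint L (VF E0) →
          ∀ {ι : Type} (t : Finset ι) (f g : ι → Hz → ℝ), (∀ i h, 0 ≤ f i h) → (∀ i h, 0 ≤ g i h) →
            (∀ h, ∑ i ∈ t, g i h * f i h ≤ 1) → (∀ i, LocZ (K0 : Set P2) (f i)) →
              (∀ i, NeutZ (f i)) → (∀ i, LocZ (L : Set P2) (g i)) → (∀ i, NeutZ (g i)) →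
                ∫ h, ∑ i ∈ t, g i h * f i h ∂P ≤
                  η + C * ∑ i ∈ t, (∫ h, f i h ∂P) * ∫ h, g i h ∂P := by
  obtain ⟨C, R', s0, hC, H⟩ := main_F hc hR hLF R hη
  refine ⟨C, s0, hC, fun s hs a K0 hK0 hK0c hK0R E0 hE0 hnb L hL ι t f g f0 g0 hfg hfl hfn hgl hgn => ?_⟩
  have of : ∀ i, GObs (f i) := fun i => ⟨⟨K0, hfl i⟩, hfn i⟩
  have og : ∀ i, GObs (g i) := fun i => ⟨⟨L, hgl i⟩, hgn i⟩
  have oΦ : GObs fun h => ∑ i ∈ t, g i h * f i h := by
    refine ⟨⟨K0 ∪ L, ?_⟩, ?_⟩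
    · intro h h' hh
      refine Finset.sum_congr rfl fun a _ => ?_
      rw [hfl a h h' fun v hv => hh v (by push_cast; exact Or.inl hv),
        hgl a h h' fun v hv => hh v (by push_cast; exact Or.inr hv)]
    · intro h k
      refine Finset.sum_congr rfl fun a _ => ?_
      rw [hfn a h k, hgn a h k]
  have : (lC scs).NeBot := cls_scs.neBot
  have t1 : Tendsto (fun F : Finset P2 => E c F (fun ω => ∑ i ∈ t, g i ω.1 * f i ω.1))
      (lC scs) (𝓝 (∫ h, ∑ i ∈ t, g i h * f i h ∂P)) := hFL _ oΦ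
  have t2 : Tendsto (fun F : Finset P2 => η + C * ∑ i ∈ t,
      E c F (fun ω => f i ω.1) * E c F (fun ω => g i ω.1)) (lC scs)
      (𝓝 (η + C * ∑ i ∈ t, (∫ h, f i h ∂P) * ∫ h, g i h ∂P)) :=
    tendsto_const_nhds.add (tendsto_const_nhds.mul (tendsto_finsetSum _ fun a _ =>
      (hFL _ (of a)).mul (hFL _ (og a))))
  refine le_of_tendsto_of_tendsto t1 t2 (mem_lC.2 ⟨ball a (R' * s) ∪ E0, fun F hF hsub => ?_⟩)
  exact H s hs a K0 hK0 hK0c hK0R E0 hE0 hnb L hL F hF ((subset_union_left).trans hsub)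
    ((subset_union_right).trans hsub) t f g f0 g0 hfg hfl hfn hgl

open Classical in
/-- indicator of a set of heights -/
def chi (A : Set Hz) (h : Hz) : ℝ := if h ∈ A then 1 else 0

theorem chi_nonneg (A : Set Hz) (h : Hz) : 0 ≤ chi A h := by unfold chi; split_ifs <;> norm_num
theorem chi_le_one (A : Set Hz) (h : Hz) : chi A h ≤ 1 := by unfold chi; split_ifs <;> norm_num

theorem chi_congr {A : Set Hz} {h h' : Hz} (H : h ∈ A ↔ h' ∈ A) : chi A h = chi A h' := by
  unfold chi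
  by_cases h1 : h ∈ A
  · rw [if_pos h1, if_pos (H.1 h1)]
  · rw [if_neg h1, if_neg fun h2 => h1 (H.2 h2)]

theorem integral_chi {P : Measure Hz} {A : Set Hz} {S : Finset P2} (hA : LocZ (S : Set P2) (chi A)) :
    ∫ h, chi A h ∂P = P.real A := by
  have hm : MeasurableSet A := by
    have e : A = chi A ⁻¹' {1} := by
      ext h
      simp only [Set.mem_preimage, Set.mem_singleton_iff, chi]
      split_ifs with h1
      · simp [h1]
      · simp [h1]
    rw [e]; exact (measurable_of_loc ⟨S, hA⟩) (measurableSet_singleton 1)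
  have h2 : chi A = Set.indicator A 1 := by
    funext h
    by_cases h1 : h ∈ A
    · rw [Set.indicator_of_mem h1, chi, if_pos h1, Pi.one_apply]
    · rw [Set.indicator_of_notMem h1, chi, if_neg h1]
  rw [h2, integral_indicator_one hm]

/-- **Neutral two-patch density bound for the plane law.** -/
theorem ui_plane {c : ℝ} (hc : 1 ≤ c) {K : ℕ} {p : ℝ} (hR : RSW c K p) (hLF : LAYF c)
    {P : Measure Hz} (hP : PinnedZ P) (hFL : ∀ f : Hz → ℝ, GObs f → FLim c f (∫ h, f h ∂P)) (R : ℕ)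
    {η : ℝ} (hη : 0 < η) : ∃ (C : ℝ) (s0 : ℕ), 0 < C ∧ ∀ s ≥ s0, ∀ (a : P2) (K0 : Finset P2),
      K0.Nonempty → IsConn (K0 : Set P2) → K0 ⊆ ball a (R * s) → ∀ E0 : Finset P2, SC E0 →
        nb K0 (7 * s) ⊆ E0 → ∀ L : Finset P2, Disjoint L (VF E0) → ∀ S1 : Finset P2, S1 ⊆ K0 →
          ∀ o1 ∈ S1, ∀ B : (S1 → ℤ) → Hz → Prop, (∀ a, LocZ (L : Set P2) (B a)) →
            (∀ a, NeutZ (B a)) → P.real {h | B (pat o1 S1 h) h} ≤ η + C * ∑ a ∈ pats o1 S1,
              P.real {g | pat o1 S1 g = a} * P.real {h | B a h} := by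
  obtain ⟨C, s0, hC, H⟩ := main_P hc hR hLF hFL R hη
  refine ⟨C, s0, hC, fun s hs a K0 hK0 hK0c hK0R E0 hE0 hnb L hL S1 hS1 o1 ho1 B hBl hBn => ?_⟩
  have hs1 : ((S1 : Set P2) ∪ {o1}) ⊆ (K0 : Set P2) := by
    rintro v (hv | hv)
    · exact Finset.mem_coe.2 (hS1 (Finset.mem_coe.1 hv))
    · rw [Set.mem_singleton_iff.1 hv]; exact Finset.mem_coe.2 (hS1 ho1)
  have hfl : ∀ a, LocZ (K0 : Set P2) (chi {g | pat o1 S1 g = a}) := fun a h h' hh =>
    chi_congr (by
      rw [Set.mem_ofPred_eq, Set.mem_ofPred_eq, pat_loc o1 S1 h h' fun v hv => hh v (hs1 hv)])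
  have hfn : ∀ a, NeutZ (chi {g | pat o1 S1 g = a}) := fun a h k =>
    chi_congr (by rw [Set.mem_ofPred_eq, Set.mem_ofPred_eq, pat_neut o1 S1 h k])
  have hgl : ∀ a, LocZ (L : Set P2) (chi {h | B a h}) := fun a h h' hh =>
    chi_congr (by rw [Set.mem_ofPred_eq, Set.mem_ofPred_eq, hBl a h h' hh])
  have hgn : ∀ a, NeutZ (chi {h | B a h}) := fun a h k =>
    chi_congr (by rw [Set.mem_ofPred_eq, Set.mem_ofPred_eq, hBn a h k])
  -- the sum over the patterns
  have hsum : ∀ h : Hz, ∑ a ∈ pats o1 S1, chi {h | B a h} h * chi {g | pat o1 S1 g = a} h =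
      if pat o1 S1 h ∈ pats o1 S1 then chi {h | B (pat o1 S1 h) h} h else 0 := fun h => by
    classical
    have e : ∀ a ∈ pats o1 S1, chi {h | B a h} h * chi {g | pat o1 S1 g = a} h =
        if pat o1 S1 h = a then chi {h | B (pat o1 S1 h) h} h else 0 := by
      intro a _
      by_cases h1 : pat o1 S1 h = a
      · rw [if_pos h1]
        have h2 : chi {g | pat o1 S1 g = a} h = 1 := if_pos h1
        rw [h2, mul_one]
        unfold chi
        simp only [Set.mem_ofPred_eq, h1]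
      · rw [if_neg h1]
        have h2 : chi {g | pat o1 S1 g = a} h = 0 := if_neg h1
        rw [h2, mul_zero]
    rw [Finset.sum_congr rfl e, Finset.sum_ite_eq]
  have hfg : ∀ h : Hz, ∑ a ∈ pats o1 S1, chi {h | B a h} h * chi {g | pat o1 S1 g = a} h ≤ 1 :=
    fun h => by
      rw [hsum]
      split_ifs
      · exact chi_le_one _ _
      · exact zero_le_one
  have main := H s hs a K0 hK0 hK0c hK0R E0 hE0 hnb L hL (pats o1 S1)
    (fun a => chi {g | pat o1 S1 g = a}) (fun a => chi {h | B a h}) (fun a h => chi_nonneg _ h)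
    (fun a h => chi_nonneg _ h) hfg hfl hfn hgl hgn
  have e3 : ∫ h, ∑ a ∈ pats o1 S1, chi {h | B a h} h * chi {g | pat o1 S1 g = a} h ∂P =
      P.real {h | B (pat o1 S1 h) h} := by
    rw [← integral_chi (S := K0 ∪ L) (A := {h | B (pat o1 S1 h) h})]
    · refine integral_congr_ae ?_
      filter_upwards [hP.lip] with h hh
      rw [hsum, if_pos (pat_mem hh)]
    · intro h h' hh
      refine chi_congr ?_
      have e1 : pat o1 S1 h = pat o1 S1 h' := pat_loc o1 S1 h h' fun v hv =>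
        hh v (by push_cast; exact Or.inl (hs1 hv))
      rw [Set.mem_ofPred_eq, Set.mem_ofPred_eq, e1]
      rw [hBl _ h h' fun v hv => hh v (by push_cast; exact Or.inr hv)]
  rw [e3] at main
  refine main.trans (le_of_eq ?_)
  congr 2
  refine Finset.sum_congr rfl fun a _ => ?_
  rw [integral_chi (hfl a), integral_chi (hgl a)]

/-! ### index rectangles -/

/-- index rectangle -/
def rct (x1 x2 y1 y2 : ℤ) : Finset P2 := Finset.Icc x1 x2 ×ˢ Finset.Icc y1 y2

theorem mem_rct {x1 x2 y1 y2 : ℤ} {v : P2} :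
    v ∈ rct x1 x2 y1 y2 ↔ x1 ≤ v.1 ∧ v.1 ≤ x2 ∧ y1 ≤ v.2 ∧ v.2 ≤ y2 := by
  unfold rct
  rw [Finset.mem_product, Finset.mem_Icc, Finset.mem_Icc]
  tauto

theorem conn_rct (x1 x2 y1 y2 : ℤ) : IsConn ((rct x1 x2 y1 y2 : Finset P2) : Set P2) := by
  intro u hu v hv
  rw [Finset.mem_coe, mem_rct] at hu hv
  have h1 : Relation.ReflTransGen (StepIn ((rct x1 x2 y1 y2 : Finset P2) : Set P2)) (u.1, u.2) (v.1, u.2) :=
    path_h u.2 u.1 v.1 fun t h1 h2 => by
      rw [Finset.mem_coe, mem_rct]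
      simp only
      rcases min_choice u.1 v.1 with e | e <;> rcases max_choice u.1 v.1 with e' | e' <;>
        rw [e] at h1 <;> rw [e'] at h2 <;> refine ⟨?_, ?_, ?_, ?_⟩ <;> omega
  have h2 : Relation.ReflTransGen (StepIn ((rct x1 x2 y1 y2 : Finset P2) : Set P2)) (v.1, u.2) (v.1, v.2) :=
    path_v v.1 u.2 v.2 fun t h1 h2 => by
      rw [Finset.mem_coe, mem_rct]
      simp only
      rcases min_choice u.2 v.2 with e | e <;> rcases max_choice u.2 v.2 with e' | e' <;>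
        rw [e] at h1 <;> rw [e'] at h2 <;> refine ⟨?_, ?_, ?_, ?_⟩ <;> omega
  exact h1.trans h2

theorem sc_rct (x1 x2 y1 y2 : ℤ) : SC (rct x1 x2 y1 y2) := by
  -- every point is joined to the far upper right corner
  have hm : ∀ v : P2, v ∈ ((rct x1 x2 y1 y2 : Finset P2) : Set P2)ᶜ ↔
      ¬ (x1 ≤ v.1 ∧ v.1 ≤ x2 ∧ y1 ≤ v.2 ∧ v.2 ≤ y2) := fun v => by
    rw [Set.mem_compl_iff, Finset.mem_coe, mem_rct]
  have key : ∀ (X Y : ℤ), x2 < X → y2 < Y → ∀ u : P2, u ∈ ((rct x1 x2 y1 y2 : Finset P2) : Set P2)ᶜ →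
      u.1 ≤ X → u.2 ≤ Y →
      Relation.ReflTransGen (StepIn ((rct x1 x2 y1 y2 : Finset P2) : Set P2)ᶜ) u (X, Y) := by
    intro X Y hX hY u hu hu1 hu2
    rw [hm] at hu
    by_cases h : x1 ≤ u.1 ∧ u.1 ≤ x2
    · -- outside in the second coordinate
      by_cases h' : y2 < u.2
      · -- up, then right
        have p1 : Relation.ReflTransGen (StepIn ((rct x1 x2 y1 y2 : Finset P2) : Set P2)ᶜ)
            (u.1, u.2) (u.1, Y) := path_v u.1 u.2 Y fun t h1 _ => by
          rw [hm]; simp only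
          rw [min_eq_left hu2] at h1
          omega
        have p2 : Relation.ReflTransGen (StepIn ((rct x1 x2 y1 y2 : Finset P2) : Set P2)ᶜ)
            (u.1, Y) (X, Y) := path_h Y u.1 X fun t _ _ => by
          rw [hm]; simp only; omega
        exact p1.trans p2
      · -- below: right, then up
        have h'' : u.2 < y1 := by
          by_contra h3
          exact hu ⟨h.1, h.2, not_lt.1 h3, not_lt.1 h'⟩
        have p1 : Relation.ReflTransGen (StepIn ((rct x1 x2 y1 y2 : Finset P2) : Set P2)ᶜ)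
            (u.1, u.2) (X, u.2) := path_h u.2 u.1 X fun t _ _ => by
          rw [hm]; simp only; omega
        have p2 : Relation.ReflTransGen (StepIn ((rct x1 x2 y1 y2 : Finset P2) : Set P2)ᶜ)
            (X, u.2) (X, Y) := path_v X u.2 Y fun t _ _ => by
          rw [hm]; simp only; omega
        exact p1.trans p2
    · by_cases h' : x2 < u.1
      · -- right of the rectangle: up or down in the column, then
        have p0 : Relation.ReflTransGen (StepIn ((rct x1 x2 y1 y2 : Finset P2) : Set P2)ᶜ)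
            (u.1, u.2) (u.1, Y) := path_v u.1 u.2 Y fun t _ _ => by
          rw [hm]; simp only; omega
        have p1 : Relation.ReflTransGen (StepIn ((rct x1 x2 y1 y2 : Finset P2) : Set P2)ᶜ)
            (u.1, Y) (X, Y) := path_h Y u.1 X fun t _ _ => by
          rw [hm]; simp only; omega
        exact p0.trans p1
      · have h'' : u.1 < x1 := by
          by_contra h3
          exact h ⟨not_lt.1 h3, not_lt.1 h'⟩
        have p0 : Relation.ReflTransGen (StepIn ((rct x1 x2 y1 y2 : Finset P2) : Set P2)ᶜ)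
            (u.1, u.2) (u.1, Y) := path_v u.1 u.2 Y fun t _ _ => by
          rw [hm]; simp only; omega
        have p1 : Relation.ReflTransGen (StepIn ((rct x1 x2 y1 y2 : Finset P2) : Set P2)ᶜ)
            (u.1, Y) (X, Y) := path_h Y u.1 X fun t _ _ => by
          rw [hm]; simp only; omega
        exact p0.trans p1
  intro u hu v hv
  have k1 := key (max (x2 + 1) (max u.1 v.1)) (max (y2 + 1) (max u.2 v.2))
    (lt_of_lt_of_le (by omega) (le_max_left _ _)) (lt_of_lt_of_le (by omega) (le_max_left _ _))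
  exact (k1 u hu ((le_max_left _ _).trans (le_max_right _ _))
    ((le_max_left _ _).trans (le_max_right _ _))).trans
    (path_symm (k1 v hv ((le_max_right _ _).trans (le_max_right _ _))
      ((le_max_right _ _).trans (le_max_right _ _))))

theorem nb_rct {x1 x2 y1 y2 : ℤ} {r : ℕ} :
    nb (rct x1 x2 y1 y2) r ⊆ rct (x1 - r) (x2 + r) (y1 - r) (y2 + r) := by
  intro v hv
  obtain ⟨w, hw, h⟩ := mem_nb.1 hv
  rw [mem_rct] at *
  rw [Rsw867.mem_ball] at h
  obtain ⟨h1, h2, -⟩ := h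
  rw [abs_le] at h1 h2
  refine ⟨?_, ?_, ?_, ?_⟩ <;> omega

/-- **`hUI` for a rectangle and a contour at distance `8 s`.** -/
theorem ui_rct {c : ℝ} (hc : 1 ≤ c) {K : ℕ} {p : ℝ} (hR : RSW c K p) (hLF : LAYF c)
    {P : Measure Hz} (hP : PinnedZ P) (hFL : ∀ f : Hz → ℝ, GObs f → FLim c f (∫ h, f h ∂P)) (R : ℕ)
    {η : ℝ} (hη : 0 < η) : ∃ (C : ℝ) (s0 : ℕ), 0 < C ∧ ∀ s ≥ s0, ∀ (a : P2) (x1 x2 y1 y2 : ℤ),
      x1 ≤ x2 → y1 ≤ y2 → rct x1 x2 y1 y2 ⊆ ball a (R * s) →
        ∀ L : Finset P2, (∀ v ∈ L, v ∉ rct (x1 - (8 * s : ℕ)) (x2 + (8 * s : ℕ)) (y1 - (8 * s : ℕ))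
          (y2 + (8 * s : ℕ))) → ∀ S1 : Finset P2, S1 ⊆ rct x1 x2 y1 y2 →
          ∀ o1 ∈ S1, ∀ B : (S1 → ℤ) → Hz → Prop, (∀ a, LocZ (L : Set P2) (B a)) →
            (∀ a, NeutZ (B a)) → P.real {h | B (pat o1 S1 h) h} ≤ η + C * ∑ a ∈ pats o1 S1,
              P.real {g | pat o1 S1 g = a} * P.real {h | B a h} := by
  obtain ⟨C, s0, hC, H⟩ := ui_plane hc hR hLF hP hFL R hη
  refine ⟨C, max s0 1, hC, fun s hs a x1 x2 y1 y2 hx hy hsub L hL S1 hS1 o1 ho1 B hBl hBn => ?_⟩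
  have hs1 : 1 ≤ s := (le_max_right _ _).trans hs
  refine H s ((le_max_left _ _).trans hs) a (rct x1 x2 y1 y2)
    ⟨(x1, y1), by rw [mem_rct]; simp only; omega⟩ (conn_rct _ _ _ _) hsub
    (rct (x1 - (7 * s : ℕ)) (x2 + (7 * s : ℕ)) (y1 - (7 * s : ℕ)) (y2 + (7 * s : ℕ)))
    (sc_rct _ _ _ _) nb_rct L ?_ S1 hS1 o1 ho1 B hBl hBn
  rw [Finset.disjoint_left]
  intro v hv hvV
  apply hL v hv
  obtain ⟨t, ht, hvt⟩ := mem_VF.1 hvV
  rw [mem_rct] at ht ⊢
  rcases Cmp880.base_adj hvt with rfl | h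
  · push_cast at *
    refine ⟨?_, ?_, ?_, ?_⟩ <;> omega
  · rw [It844.adj_iff] at h
    push_cast at *
    rcases h with h | h | h | h | h | h <;> subst h <;> simp only <;>
      refine ⟨?_, ?_, ?_, ?_⟩ <;> omega

end Crest.Agent.R144.Den435
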