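import Crest.Agent.R144.Pst11_967
import Crest.Agent.R144.Rsw0_867

/-!
# R144, block POS (helper561), part 1: exact decoupling of the HEIGHTS across a minus closed layer

For the F-type law on `F` and a simply connected `B ⊆ F` whose neighbours are all minus closed
(`MLay B ω`), the heights on the sites of `B` are `lev + g` with `g` an F-type configuration on `B` and
`lev ≡ 2 mod 4` constant along `B`; given the outside and `lev`, `g` has the law `E c B`.

* `Ok F B ω` : `ω` valid, compatible, `B` surrounded by a minus closed layer;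
* `inn B ω` : the inside configuration, `lev B ω v = ω.1 v - (inn B ω).1 v`;
* `Sw B ω ω'` : the inside of `ω` replaced by `ω'` (same level);
* `swap` : exchange identity for the product of `E c F` (restricted to `Ok`) and `E c B`;
* `dec` : `E_F [1_Ok Φ(ω)] = E_F [1_Ok E_B' Φ(Sw B ω ω')]`.
-/

set_option autoImplicit false

noncomputable section

namespace Crest.Agent.R144.Pos561

open Finset
open Crest.Agent.R144.It844 (P2 Lip adj_iff)
open Crest.Agent.R144.Zg349 Crest.Agent.R144.Zk349 Crest.Agent.R144.Zd349 Crest.Agent.R144.Zm349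
open Crest.Agent.R144.Ze349
open Crest.Agent.R144.Pst967 (MLay adj_of_share E_pos_congr wt_ne_zero)
open Crest.ProbabilityR.HexHeights (Adj)

/-! ### arithmetic of colours -/

theorem s1_congr {a b : ℤ} (h : (a - b) % 4 = 0) : s1 a = s1 b := by
  unfold s1; rw [decide_eq_decide]; omega
theorem s2_congr {a b : ℤ} (h : (a - b) % 4 = 0) : s2 a = s2 b := by
  unfold s2; rw [decide_eq_decide]; omega

/-- a shift by `2` mod `4` flips the first colour -/
theorem s1_two {a b : ℤ} (h : (a - b) % 4 = 2) : s1 a = !s1 b := by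
  rw [← s1_add_two]; exact s1_congr (by omega)
theorem s2_two {a b : ℤ} (h : (a - b) % 4 = 2) : s2 a = !s2 b := by
  rw [← s2_add_two]; exact s2_congr (by omega)

/-! ### compatibility -/

/-- closed triangles have constant first colour, open ones constant second colour -/
def Good (F : Finset P2) (ω : Cfg) : Prop :=
  ∀ t ∈ F, (ω.2 t = true → C1 ω.1 t) ∧ (ω.2 t = false → C2 ω.1 t)

theorem ew_ne_zero_good {c : ℝ} {ω : Cfg} {t : P2} (h : ew c ω t ≠ 0) :
    (ω.2 t = true → C1 ω.1 t) ∧ (ω.2 t = false → C2 ω.1 t) := by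
  unfold ew at h
  constructor
  · intro hz
    rw [if_pos hz] at h
    by_contra hc
    exact h (if_neg hc)
  · intro hz
    rw [if_neg (by rw [hz]; decide)] at h
    by_contra hc
    exact h (if_neg hc)

theorem good_of_wt {c : ℝ} {F : Finset P2} {ω : Cfg} (h : wt c F ω ≠ 0) : Good F ω :=
  fun _ ht => wt_ne_zero h ht

theorem wt_of_not_good {c : ℝ} {F : Finset P2} {ω : Cfg} (h : ¬ Good F ω) : wt c F ω = 0 := by
  by_contra h1
  exact h (good_of_wt h1)

/-- valid, compatible, `B` surrounded by minus closed triangles -/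
structure Ok (F B : Finset P2) (ω : Cfg) : Prop where
  val : Valid F ω
  good : Good F ω
  lay : MLay B ω

variable {F B : Finset P2} {ω ω' : Cfg}

theorem notMem_IV_of {t v : P2} (ht : t ∉ B) (hv : v ∈ up t) : v ∉ IV B := fun h =>
  ht (mem_of_corner hv h)

/-- triangles off `B` touching a site of `B` are in the layer -/
theorem Ok.mc (h : Ok F B ω) {t v : P2} (ht : t ∉ B) (hv : v ∈ up t) (hvB : v ∈ VF B) : mC ω t := by
  obtain ⟨t0, h0, h1⟩ := mem_VF.1 hvB
  rcases adj_of_share h1 hv with rfl | ha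
  · exact absurd h0 ht
  · exact h.lay t0 h0 t ht ha

theorem Ok.mem_F (h : Ok F B ω) {t v : P2} (ht : t ∉ B) (hv : v ∈ up t) (hvB : v ∈ VF B) : t ∈ F := by
  by_contra hF
  have h1 := (h.mc ht hv hvB).2
  rw [h.val.ht.s1_bd (notMem_IV_of hF (base_mem_up t))] at h1
  exact absurd h1 (by decide)

/-- all corners of a layer triangle are minus -/
theorem Ok.s1_layer (h : Ok F B ω) {t v : P2} (ht : t ∉ B) (hv : v ∈ up t) (hvB : v ∈ VF B) {w : P2}
    (hw : w ∈ up t) : s1 (ω.1 w) = false := by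
  have h1 := h.mc ht hv hvB
  have h2 := (h.good t (h.mem_F ht hv hvB)).1 h1.1
  obtain ⟨i, rfl⟩ := mem_up_iff.1 hw
  have h3 : s1 (ω.1 (cr t 0)) = false := h1.2
  unfold C1 at h2
  fin_cases i
  · exact h3
  · rw [← h3]; exact h2.1.symm
  · rw [← h3]; exact h2.2.symm

/-- boundary sites of `B` are minus -/
theorem Ok.s1_bdry (h : Ok F B ω) {v : P2} (hv : v ∈ VF B) (hv' : v ∉ IV B) :
    s1 (ω.1 v) = false := by
  rw [mem_IV'] at hv'
  push Not at hv'
  obtain ⟨t, h1, h2⟩ := hv'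
  exact h.s1_layer h2 h1 hv h1

/-- all sites of `B` are interior to `F` -/
theorem Ok.vf_sub (h : Ok F B ω) (hBF : B ⊆ F) {v : P2} (hv : v ∈ VF B) : v ∈ IV F := by
  rw [mem_IV']
  intro t ht
  by_cases htB : t ∈ B
  · exact hBF htB
  · exact h.mem_F htB ht hv

/-! ### the inside configuration -/

/-- `g` is an F-type height on `B`, congruent to the heights plus `2` -/
def IsIn (B : Finset P2) (h g : P2 → ℤ) : Prop := HV B g ∧ ∀ v ∈ VF B, (h v - g v) % 4 = 2

theorem exists_in (hB : SC B) (hBF : B ⊆ F) (h : Ok F B ω) : ∃ g, IsIn B ω.1 g := by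
  classical
  set T := (IV B).filter fun v => s1 (ω.1 v) = true with hT
  set A := (VF B).filter fun v => s2 (ω.1 v) = true with hA
  have mT : ∀ v ∈ VF B, (v ∈ T ↔ s1 (ω.1 v) = true) := by
    intro v hv
    rw [hT, Finset.mem_filter]
    refine ⟨fun h => h.2, fun h1 => ⟨?_, h1⟩⟩
    by_contra h2
    rw [h.s1_bdry hv h2] at h1
    exact absurd h1 (by decide)
  have mA : ∀ v ∈ VF B, (v ∈ A ↔ s2 (ω.1 v) = true) := by
    intro v hv
    rw [hA, Finset.mem_filter]
    exact ⟨fun h => h.2, fun h1 => ⟨hv, h1⟩⟩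
  have hcor : ∀ t ∈ B, ∀ i, cr t i ∈ VF B := fun t ht i => mem_VF.2 ⟨t, ht, cr_mem_up t i⟩
  obtain ⟨g, hg, g1, g2⟩ := exists_height hB (T := T) (A := A) (Finset.filter_subset _ _)
    (Finset.filter_subset _ _) (fun t ht => by
      rcases c1_or_c2 (h.val.ht.lip t (hBF ht)) with hc | hc
      · left
        rw [m3_ch, mT _ (hcor t ht 0), mT _ (hcor t ht 1), mT _ (hcor t ht 2), hc.1, ← hc.2, hc.1]
        exact ⟨Iff.rfl, Iff.rfl⟩
      · right
        rw [m3_ch, mA _ (hcor t ht 0), mA _ (hcor t ht 1), mA _ (hcor t ht 2), hc.1, ← hc.2, hc.1]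
        exact ⟨Iff.rfl, Iff.rfl⟩)
  refine ⟨g, hg, fun v hv => ?_⟩
  have e1 : s1 (g v) = s1 (ω.1 v + 2) := by
    rw [s1_add_two]
    have := g1 v
    rw [mT v hv] at this
    cases hx : s1 (ω.1 v) <;> cases hy : s1 (g v) <;> rw [hx, hy] at this <;> simp_all
  have e2 : s2 (g v) = s2 (ω.1 v + 2) := by
    rw [s2_add_two]
    have := g2 v
    rw [mA v hv] at this
    cases hx : s2 (ω.1 v) <;> cases hy : s2 (g v) <;> rw [hx, hy] at this <;> simp_all
  have := mod4_of_s e1 e2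
  omega

open Classical in
/-- the inside configuration -/
def inn (B : Finset P2) (ω : Cfg) : Cfg :=
  (if hh : ∃ g, IsIn B ω.1 g then Classical.choose hh else fun _ => 0,
    fun t => if t ∈ B then ω.2 t else true)

theorem inn_isIn (h : ∃ g, IsIn B ω.1 g) : IsIn B ω.1 (inn B ω).1 := by
  have e : (inn B ω).1 = Classical.choose h := dif_pos h
  rw [e]
  exact Classical.choose_spec h

theorem isIn_unique {h g g' : P2 → ℤ} (hg : IsIn B h g) (hg' : IsIn B h g') : g = g' := by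
  have key : ∀ v, (g v - g' v) % 4 = 0 := by
    intro v
    by_cases hv : v ∈ VF B
    · have h1 := hg.2 v hv
      have h2 := hg'.2 v hv
      omega
    · rw [hg.1.off v hv, hg'.1.off v hv]; rfl
  exact height_inj hg.1 hg'.1 (fun v => s1_congr (key v)) (fun v => s2_congr (key v))

theorem inn_eq {g : P2 → ℤ} (hg : IsIn B ω.1 g) : (inn B ω).1 = g :=
  isIn_unique (inn_isIn ⟨g, hg⟩) hg

/-- the level of the layer seen from `v` -/
def lev (B : Finset P2) (ω : Cfg) (v : P2) : ℤ := ω.1 v - (inn B ω).1 v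

theorem lev_mod (h : ∃ g, IsIn B ω.1 g) {v : P2} (hv : v ∈ VF B) : lev B ω v % 4 = 2 :=
  (inn_isIn h).2 v hv

/-- the level is constant on the triangles of `B` -/
theorem lev_const (hl : ∀ t ∈ B, ∀ i j, |ω.1 (cr t i) - ω.1 (cr t j)| ≤ 1)
    (h : ∃ g, IsIn B ω.1 g) {t : P2} (ht : t ∈ B) (i j : Fin 3) :
    lev B ω (cr t i) = lev B ω (cr t j) := by
  have h1 := abs_le.1 (hl t ht i j)
  have h2 := abs_le.1 ((inn_isIn h).1.lip t ht i j)
  have h3 := lev_mod h (mem_VF.2 ⟨t, ht, cr_mem_up t i⟩)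
  have h4 := lev_mod h (mem_VF.2 ⟨t, ht, cr_mem_up t j⟩)
  unfold lev at *
  omega

/-- replace the inside of `ω` by `ω'` -/
def Sw (B : Finset P2) (ω ω' : Cfg) : Cfg :=
  (fun v => if v ∈ VF B then lev B ω v + ω'.1 v else ω.1 v, fun t => if t ∈ B then ω'.2 t else ω.2 t)

theorem sw_of_mem {v : P2} (hv : v ∈ VF B) : (Sw B ω ω').1 v = lev B ω v + ω'.1 v := if_pos hv
theorem sw_of_notMem {v : P2} (hv : v ∉ VF B) : (Sw B ω ω').1 v = ω.1 v := if_neg hv
theorem sw2_of_mem {t : P2} (ht : t ∈ B) : (Sw B ω ω').2 t = ω'.2 t := if_pos ht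
theorem sw2_of_notMem {t : P2} (ht : t ∉ B) : (Sw B ω ω').2 t = ω.2 t := if_neg ht
theorem inn2_of_mem {t : P2} (ht : t ∈ B) : (inn B ω).2 t = ω.2 t := if_pos ht
theorem inn2_of_notMem {t : P2} (ht : t ∉ B) : (inn B ω).2 t = true := if_neg ht

theorem isIn_sw (h : ∃ g, IsIn B ω.1 g) (h' : HV B ω'.1) : IsIn B (Sw B ω ω').1 ω'.1 := by
  refine ⟨h', fun v hv => ?_⟩
  rw [sw_of_mem hv]
  have := lev_mod h hv
  omega

theorem inn_sw (h : ∃ g, IsIn B ω.1 g) (h' : Valid B ω') : inn B (Sw B ω ω') = ω' := by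
  refine Prod.ext (inn_eq (isIn_sw h h'.ht)) ?_
  funext t
  by_cases ht : t ∈ B
  · rw [inn2_of_mem ht, sw2_of_mem ht]
  · rw [inn2_of_notMem ht, h'.cl t ht]

theorem lev_sw (h : ∃ g, IsIn B ω.1 g) (h' : Valid B ω') {v : P2} (hv : v ∈ VF B) :
    lev B (Sw B ω ω') v = lev B ω v := by
  have e : lev B (Sw B ω ω') v = (Sw B ω ω').1 v - (inn B (Sw B ω ω')).1 v := rfl
  rw [e, inn_sw h h', sw_of_mem hv]
  ring

theorem sw_sw (h : ∃ g, IsIn B ω.1 g) (h' : Valid B ω') : Sw B (Sw B ω ω') (inn B ω) = ω := by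
  refine Prod.ext ?_ ?_
  · funext v
    by_cases hv : v ∈ VF B
    · rw [sw_of_mem hv, lev_sw h h' hv]
      unfold lev
      ring
    · rw [sw_of_notMem hv, sw_of_notMem hv]
  · funext t
    by_cases ht : t ∈ B
    · rw [sw2_of_mem ht, inn2_of_mem ht]
    · rw [sw2_of_notMem ht, sw2_of_notMem ht]

/-! ### colours of the swapped configuration -/

/-- on a layer triangle there is a level `k ≡ 2 mod 4` with heights in `{k, k+1}` -/
theorem Ok.exists_level (h : Ok F B ω) {t v : P2} (ht : t ∉ B) (hv : v ∈ up t) (hvB : v ∈ VF B) :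
    ∃ k : ℤ, k % 4 = 2 ∧ ∀ i, (ω.1 (cr t i) = k ∨ ω.1 (cr t i) = k + 1) := by
  have hs : ∀ i, 2 ≤ ω.1 (cr t i) % 4 := fun i =>
    s1_false.1 (h.s1_layer ht hv hvB (cr_mem_up t i))
  have hl := fun i j => abs_le.1 (h.val.ht.lip t (h.mem_F ht hv hvB) i j)
  refine ⟨ω.1 (cr t 0) - (ω.1 (cr t 0) - 2) % 4, by omega, fun i => ?_⟩
  have h0 := hs 0
  have h1 := hs i
  have h2 := hl 0 i
  omega

/-- values of the swapped heights on a layer triangle -/
theorem Ok.sw_layer (h : Ok F B ω) (hin : ∃ g, IsIn B ω.1 g) (h' : HV B ω'.1) {t v : P2} (ht : t ∉ B)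
    (hv : v ∈ up t) (hvB : v ∈ VF B) :
    ∃ k : ℤ, k % 4 = 2 ∧ ∀ i, ((Sw B ω ω').1 (cr t i) = k ∨ (Sw B ω ω').1 (cr t i) = k + 1) := by
  obtain ⟨k, hk, hk'⟩ := h.exists_level ht hv hvB
  refine ⟨k, hk, fun i => ?_⟩
  by_cases hi : cr t i ∈ VF B
  · rw [sw_of_mem hi]
    have hni : cr t i ∉ IV B := notMem_IV_of ht (cr_mem_up t i)
    have h1 := (inn_isIn hin).1.bd _ hni
    have h2 := h'.bd _ hni
    have h3 := lev_mod hin hi
    have h4 := hk' i
    unfold lev at *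
    omega
  · rw [sw_of_notMem hi]
    exact hk' i

theorem Ok.sw_mC (h : Ok F B ω) (hin : ∃ g, IsIn B ω.1 g) (h' : HV B ω'.1) {t v : P2} (ht : t ∉ B)
    (hv : v ∈ up t) (hvB : v ∈ VF B) : mC (Sw B ω ω') t := by
  obtain ⟨k, hk, hk'⟩ := h.sw_layer hin h' ht hv hvB
  refine ⟨?_, ?_⟩
  · rw [sw2_of_notMem ht]
    exact (h.mc ht hv hvB).1
  · rw [s1_false]
    have := hk' 0
    rw [cr0] at this
    omega

/-- colours inside `B` -/
theorem c1_shift {h g : P2 → ℤ} {t : P2} (hm : ∀ i, (h (cr t i) - g (cr t i)) % 4 = 2) :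
    C1 h t ↔ C1 g t := by
  unfold C1
  rw [s1_two (hm 0), s1_two (hm 1), s1_two (hm 2)]
  constructor
  · rintro ⟨a, b⟩
    exact ⟨by simpa using a, by simpa using b⟩
  · rintro ⟨a, b⟩
    exact ⟨by rw [a], by rw [b]⟩

theorem c2_shift {h g : P2 → ℤ} {t : P2} (hm : ∀ i, (h (cr t i) - g (cr t i)) % 4 = 2) :
    C2 h t ↔ C2 g t := by
  unfold C2
  rw [s2_two (hm 0), s2_two (hm 1), s2_two (hm 2)]
  constructor
  · rintro ⟨a, b⟩
    exact ⟨by simpa using a, by simpa using b⟩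
  · rintro ⟨a, b⟩
    exact ⟨by rw [a], by rw [b]⟩

theorem isIn_corners {h g : P2 → ℤ} (hg : IsIn B h g) {t : P2} (ht : t ∈ B) (i : Fin 3) :
    (h (cr t i) - g (cr t i)) % 4 = 2 := hg.2 _ (mem_VF.2 ⟨t, ht, cr_mem_up t i⟩)

/-- triangle weights inside `B` -/
theorem ew_in (c : ℝ) (hg : IsIn B ω.1 ω'.1) {t : P2} (ht : t ∈ B) (hz : ω.2 t = ω'.2 t) :
    ew c ω t = ew c ω' t := by
  unfold ew
  have e1 := c1_shift (isIn_corners hg ht)
  have e2 := c2_shift (isIn_corners hg ht)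
  simp only [hz, e1, e2]

theorem ew_inn (c : ℝ) (h : ∃ g, IsIn B ω.1 g) {t : P2} (ht : t ∈ B) : ew c ω t = ew c (inn B ω) t :=
  ew_in c (inn_isIn h) ht (inn2_of_mem ht).symm

theorem ew_sw_in (c : ℝ) (h : ∃ g, IsIn B ω.1 g) (h' : HV B ω'.1) {t : P2} (ht : t ∈ B) :
    ew c (Sw B ω ω') t = ew c ω' t := ew_in c (isIn_sw h h') ht (sw2_of_mem ht)

/-- triangle weights off `B` -/
theorem Ok.ew_sw_out (h : Ok F B ω) (c : ℝ) (hin : ∃ g, IsIn B ω.1 g) (h' : HV B ω'.1) {t : P2}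
    (ht : t ∉ B) : ew c (Sw B ω ω') t = ew c ω t := by
  by_cases hv : ∃ v ∈ up t, v ∈ VF B
  · obtain ⟨v, hv, hvB⟩ := hv
    have h1 := h.mc ht hv hvB
    have h2 := (h.good t (h.mem_F ht hv hvB)).1 h1.1
    have h3 := (h.sw_mC hin h' ht hv hvB).1
    obtain ⟨k, hk, hk'⟩ := h.sw_layer hin h' ht hv hvB
    have h4 : C1 (Sw B ω ω').1 t := by
      have hs : ∀ i, s1 ((Sw B ω ω').1 (cr t i)) = false := fun i => by
        rw [s1_false]
        have := hk' i
        omega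
      exact ⟨by rw [hs, hs], by rw [hs, hs]⟩
    unfold ew
    rw [if_pos h1.1, if_pos h2, if_pos h3, if_pos h4]
  · push Not at hv
    have e : ∀ i, (Sw B ω ω').1 (cr t i) = ω.1 (cr t i) := fun i =>
      sw_of_notMem (hv _ (cr_mem_up t i))
    have e1 : C1 (Sw B ω ω').1 t ↔ C1 ω.1 t := by unfold C1; rw [e, e, e]
    have e2 : C2 (Sw B ω ω').1 t ↔ C2 ω.1 t := by unfold C2; rw [e, e, e]
    unfold ew
    simp only [sw2_of_notMem ht, e1, e2]

theorem Ok.wt_sw (h : Ok F B ω) (hBF : B ⊆ F) (c : ℝ) (hin : ∃ g, IsIn B ω.1 g) (h' : HV B ω'.1) :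
    wt c F (Sw B ω ω') * wt c B (inn B ω) = wt c F ω * wt c B ω' := by
  unfold wt
  rw [← Finset.prod_sdiff hBF, ← Finset.prod_sdiff hBF]
  rw [Finset.prod_congr rfl fun t ht => h.ew_sw_out c hin h' (Finset.mem_sdiff.1 ht).2,
    Finset.prod_congr (s₁ := B) rfl fun t ht => ew_sw_in c hin h' ht,
    Finset.prod_congr (s₁ := B) (f := fun t => ew c ω t) rfl fun t ht => ew_inn c hin ht]
  ring

/-! ### validity -/

theorem Ok.inn_valid (h : Ok F B ω) (hBF : B ⊆ F) (hin : ∃ g, IsIn B ω.1 g) :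
    Valid B (inn B ω) ∧ Good B (inn B ω) := by
  refine ⟨⟨(inn_isIn hin).1, fun t ht => inn2_of_notMem ht⟩, fun t ht => ?_⟩
  have h1 := h.good t (hBF ht)
  rw [inn2_of_mem ht, ← c1_shift (isIn_corners (inn_isIn hin) ht),
    ← c2_shift (isIn_corners (inn_isIn hin) ht)]
  exact h1

theorem Ok.sw_ok (h : Ok F B ω) (hBF : B ⊆ F) (hin : ∃ g, IsIn B ω.1 g) (h' : Valid B ω')
    (hg' : Good B ω') : Ok F B (Sw B ω ω') := by
  have hout : ∀ t ∈ F, t ∉ B → ∀ i j, |(Sw B ω ω').1 (cr t i) - (Sw B ω ω').1 (cr t j)| ≤ 1 := by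
    intro t htF ht i j
    by_cases hv : ∃ v ∈ up t, v ∈ VF B
    · obtain ⟨v, hv, hvB⟩ := hv
      obtain ⟨k, hk, hk'⟩ := h.sw_layer hin h'.ht ht hv hvB
      have h1 := hk' i
      have h2 := hk' j
      rw [abs_le]
      omega
    · push Not at hv
      rw [sw_of_notMem (hv _ (cr_mem_up t i)), sw_of_notMem (hv _ (cr_mem_up t j))]
      exact h.val.ht.lip t htF i j
  refine ⟨⟨⟨fun t ht i j => ?_, fun v hv => ?_, fun v hv => ?_⟩, fun t ht => ?_⟩, fun t ht => ?_,
    fun t ht t' ht' ha => ?_⟩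
  · by_cases htB : t ∈ B
    · have e := lev_const (fun t ht => h.val.ht.lip t (hBF ht)) hin htB i j
      rw [sw_of_mem (mem_VF.2 ⟨t, htB, cr_mem_up t i⟩), sw_of_mem (mem_VF.2 ⟨t, htB, cr_mem_up t j⟩), e]
      have := h'.ht.lip t htB i j
      rw [add_sub_add_left_eq_sub]
      exact this
    · exact hout t ht htB i j
  · have h1 : v ∉ VF B := fun h2 => hv (h.vf_sub hBF h2)
    rw [sw_of_notMem h1]
    exact h.val.ht.bd v hv
  · have h1 : v ∉ VF B := fun h2 => hv (VF_mono hBF h2)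
    rw [sw_of_notMem h1]
    exact h.val.ht.off v hv
  · rw [sw2_of_notMem fun h1 => ht (hBF h1)]
    exact h.val.cl t ht
  · by_cases htB : t ∈ B
    · rw [sw2_of_mem htB, c1_shift (isIn_corners (isIn_sw hin h'.ht) htB),
        c2_shift (isIn_corners (isIn_sw hin h'.ht) htB)]
      exact hg' t htB
    · by_cases hv : ∃ v ∈ up t, v ∈ VF B
      · obtain ⟨v, hv, hvB⟩ := hv
        obtain ⟨k, hk, hk'⟩ := h.sw_layer hin h'.ht htB hv hvB
        have hs : ∀ i, s1 ((Sw B ω ω').1 (cr t i)) = false := fun i => by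
          rw [s1_false]
          have := hk' i
          omega
        refine ⟨fun _ => ⟨by rw [hs, hs], by rw [hs, hs]⟩, fun h1 => ?_⟩
        rw [(h.sw_mC hin h'.ht htB hv hvB).1] at h1
        exact absurd h1 (by decide)
      · push Not at hv
        have e : ∀ i, (Sw B ω ω').1 (cr t i) = ω.1 (cr t i) := fun i =>
          sw_of_notMem (hv _ (cr_mem_up t i))
        unfold C1 C2
        rw [sw2_of_notMem htB, e, e, e]
        exact h.good t ht
  · obtain ⟨v, h1, h2⟩ := adj_site ha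
    exact h.sw_mC hin h'.ht ht' h2 (mem_VF.2 ⟨t, ht, h1⟩)

/-! ### the exchange identity -/

open Classical in
/-- indicator of `Ok` -/
def okI (F B : Finset P2) (ω : Cfg) : ℝ := if Ok F B ω then 1 else 0

theorem okI_nonneg (F B : Finset P2) (ω : Cfg) : 0 ≤ okI F B ω := by
  unfold okI; split_ifs <;> norm_num

/-- **Exchange identity**, unnormalised. -/
theorem swapS (hB : SC B) (hBF : B ⊆ F) (c : ℝ) (Φ : Cfg → Cfg → ℝ) :
    S c F (fun ω => okI F B ω * S c B (fun ω' => Φ ω ω')) =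
      S c F (fun ω => okI F B ω * S c B (fun ω' => Φ (Sw B ω ω') (inn B ω))) := by
  classical
  set D : Finset (Cfg × Cfg) :=
    (conf F ×ˢ conf B).filter fun p => Ok F B p.1 ∧ Good B p.2 with hD
  have hmem : ∀ p : Cfg × Cfg, p ∈ D ↔ Ok F B p.1 ∧ Valid B p.2 ∧ Good B p.2 := by
    intro p
    rw [hD, Finset.mem_filter, Finset.mem_product, mem_conf, mem_conf]
    exact ⟨fun h => ⟨h.2.1, h.1.2, h.2.2⟩, fun h => ⟨⟨h.1.val, h.2.1⟩, h.1, h.2.2⟩⟩
  have key : ∀ Ψ : Cfg → Cfg → ℝ, S c F (fun ω => okI F B ω * S c B (fun ω' => Ψ ω ω')) =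
      ∑ p ∈ D, wt c F p.1 * wt c B p.2 * Ψ p.1 p.2 := by
    intro Ψ
    rw [hD, Finset.sum_filter, Finset.sum_product]
    unfold S
    refine Finset.sum_congr rfl fun ω _ => ?_
    beta_reduce
    rw [Finset.mul_sum, Finset.mul_sum]
    refine Finset.sum_congr rfl fun ω' _ => ?_
    simp only
    by_cases h1 : Ok F B ω
    · by_cases h2 : Good B ω'
      · rw [if_pos ⟨h1, h2⟩]
        unfold okI
        rw [if_pos h1]
        ring
      · rw [if_neg fun h => h2 h.2, wt_of_not_good h2]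
        ring
    · rw [if_neg fun h => h1 h.1]
      unfold okI
      rw [if_neg h1]
      ring
  rw [key, key fun ω ω' => Φ (Sw B ω ω') (inn B ω)]
  refine Finset.sum_nbij' (fun p => (Sw B p.1 p.2, inn B p.1)) (fun p => (Sw B p.1 p.2, inn B p.1))
    ?_ ?_ ?_ ?_ ?_
  · intro p hp
    rw [hmem] at hp ⊢
    have hin := exists_in hB hBF hp.1
    exact ⟨hp.1.sw_ok hBF hin hp.2.1 hp.2.2, hp.1.inn_valid hBF hin⟩
  · intro p hp
    rw [hmem] at hp ⊢
    have hin := exists_in hB hBF hp.1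
    exact ⟨hp.1.sw_ok hBF hin hp.2.1 hp.2.2, hp.1.inn_valid hBF hin⟩
  · intro p hp
    rw [hmem] at hp
    have hin := exists_in hB hBF hp.1
    exact Prod.ext (sw_sw hin hp.2.1) (inn_sw hin hp.2.1)
  · intro p hp
    rw [hmem] at hp
    have hin := exists_in hB hBF hp.1
    exact Prod.ext (sw_sw hin hp.2.1) (inn_sw hin hp.2.1)
  · intro p hp
    rw [hmem] at hp
    have hin := exists_in hB hBF hp.1
    simp only
    rw [sw_sw hin hp.2.1, inn_sw hin hp.2.1, hp.1.wt_sw hBF c hin hp.2.1.ht]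

/-- **Decoupling across a minus closed layer**: given `Ok F B`, the inside may be resampled. -/
theorem dec {c : ℝ} (hc : 1 ≤ c) (hB : SC B) (hBF : B ⊆ F) (Φ : Cfg → ℝ) :
    E c F (fun ω => okI F B ω * Φ ω) =
      E c F (fun ω => okI F B ω * E c B (fun ω' => Φ (Sw B ω ω'))) := by
  have hZ := Z_pos hc B
  have h := swapS hB hBF c (fun ω _ => Φ ω)
  have e1 : S c F (fun ω => okI F B ω * S c B (fun _ => Φ ω)) =
      Z c B * S c F (fun ω => okI F B ω * Φ ω) := by
    unfold S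
    rw [Finset.mul_sum]
    refine Finset.sum_congr rfl fun ω _ => ?_
    beta_reduce
    rw [← Finset.sum_mul]
    unfold Z
    ring
  have e2 : S c F (fun ω => okI F B ω * S c B (fun ω' => Φ (Sw B ω ω'))) =
      Z c B * S c F (fun ω => okI F B ω * E c B (fun ω' => Φ (Sw B ω ω'))) := by
    unfold S
    rw [Finset.mul_sum]
    refine Finset.sum_congr rfl fun ω _ => ?_
    beta_reduce
    rw [E_eq_S]
    unfold S
    field_simp
  rw [e1, e2] at h
  rw [E_eq_S, E_eq_S, mul_left_cancel₀ hZ.ne' h]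

end Crest.Agent.R144.Pos561
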