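import Crest.Agent.R144.Mix5_880
import Crest.Agent.R144.Pos1_561

/-!
# R144, mixing (helper880), part 6: the decoupling hypothesis discharged, conditional (DLR) form

* `f3m : F3m c` (from helper561's `Pos561.dec`);
* `mix` : the plane covariance bound from `RSWZ c`;
* `kern_out` : kernel of the conditional law as a gradient observable of the sites next to `Λ`;
* `mix_l1` : `∫ |ex x Λ h f - ∫ f dP| dP ≤ C (m/N)^α A` for `ball a N ⊆ Λ`, `f` neutral local in `ball a m`.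
-/

set_option autoImplicit false

noncomputable section

namespace Crest.Agent.R144.Mix880

open Finset Filter Topology MeasureTheory
open Crest.Agent.R144.It844 (P2 Lip adj_symm adj_iff adj_comm ex nbhd)
open Crest.ProbabilityR.HexHeights (Adj)
open Crest.Agent.R144.Zg349 Crest.Agent.R144.Zk349 Crest.Agent.R144.Zd349 Crest.Agent.R144.Zm349
open Crest.Agent.R144.Ze349 Crest.Agent.R144.Zf349
open Crest.Agent.R144.Pst967 (Hz hexB mem_hexB hexB_mono conn_hexB hexB_mem_scs LocZ NeutZ GObs FLim lC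
  mem_lC scs cls_scs gobs_bounded integrable_gobs PinnedZ ZeroLim nbhd_finite E_pos_congr)

/-- **Exact decoupling** of `(s1, z)` observables across a minus-closed layer -/
theorem f3m {c : ℝ} (hc : 1 ≤ c) : F3m c := by
  intro F B hF hB hBF g f hg hf hlay
  have key : ∀ ω, Valid F ω → Pos561.Good F ω → g ω ≠ 0 → Pos561.okI F B ω = 1 := by
    intro ω h1 h2 h3
    exact if_pos ⟨h1, h2, hlay ω h3⟩
  have e1 : E c F (fun ω => g ω * f ω) = E c F (fun ω => Pos561.okI F B ω * (g ω * f ω)) := by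
    refine E_pos_congr fun ω h1 h2 => ?_
    by_cases h3 : g ω = 0
    · rw [h3, zero_mul, mul_zero]
    · rw [key ω h1 h2 h3, one_mul]
  have e2 : E c F g = E c F (fun ω => Pos561.okI F B ω * g ω) := by
    refine E_pos_congr fun ω h1 h2 => ?_
    by_cases h3 : g ω = 0
    · rw [h3, mul_zero]
    · rw [key ω h1 h2 h3, one_mul]
  rw [e1, Pos561.dec hc hB hBF (fun ω => g ω * f ω), e2]
  have e3 : E c F (fun ω => Pos561.okI F B ω * g ω) * E c B (fun ω => f (addH 2 ω)) =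
      E c F (fun ω => E c B (fun ω => f (addH 2 ω)) * (Pos561.okI F B ω * g ω)) := by
    rw [E_smul]; ring
  rw [e3]
  refine congrArg (E c F) (funext fun ω => ?_)
  by_cases hok : Pos561.Ok F B ω
  · have hin := Pos561.exists_in hB hBF hok
    have hval : ∀ ω', Valid B ω' → g (Pos561.Sw B ω ω') * f (Pos561.Sw B ω ω') =
        g ω * f (addH 2 ω') := by
      intro ω' h'
      have a1 : g (Pos561.Sw B ω ω') = g ω := by
        refine hg _ _ (fun v hv => ?_) (fun t ht => Pos561.sw2_of_notMem ht)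
        by_cases hvB : v ∈ VF B
        · rw [Pos561.sw_of_mem hvB, hok.s1_bdry hvB hv]
          have h4 := Pos561.lev_mod hin hvB
          have h5 := h'.ht.bd v hv
          rw [s1_false]
          omega
        · rw [Pos561.sw_of_notMem hvB]
      have a2 : f (Pos561.Sw B ω ω') = f (addH 2 ω') := by
        refine hf _ _ (fun v hv => ?_) (fun t ht => Pos561.sw2_of_mem ht)
        have hvB : v ∈ VF B := mem_VF'.2 (Or.inl (IV_sub B hv))
        rw [Pos561.sw_of_mem hvB]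
        have h4 := Pos561.lev_mod hin hvB
        refine Pos561.s1_congr ?_
        show (Pos561.lev B ω v + ω'.1 v - (ω'.1 v + 2)) % 4 = 0
        omega
      rw [a1, a2]
    have e4 : E c B (fun ω' => g (Pos561.Sw B ω ω') * f (Pos561.Sw B ω ω')) =
        g ω * E c B (fun ω => f (addH 2 ω)) := by
      rw [← E_smul]
      exact E_congr fun ω' h' => hval ω' h'
    rw [e4]
    ring
  · have h0 : Pos561.okI F B ω = 0 := if_neg hok
    rw [h0]
    ring

/-- **MIXING OF THE PLANE LAW FROM RSW.** -/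
theorem mix {c x : ℝ} (hc : 1 ≤ c) {K : ℕ} {p : ℝ} (hR : Rsw867.RSW c K p)
    {P : Measure Hz} (hZ : PinnedZ P) (hL : ZeroLim x scs P)
    (hP : ∀ f : Hz → ℝ, GObs f → FLim c f (∫ h, f h ∂P)) :
    ∃ C α : ℝ, 1 ≤ C ∧ 0 < α ∧ ∀ (a : P2) (m N : ℕ), 1 ≤ m → 1 ≤ N → ∀ S : Finset P2,
      (∀ v ∈ S, v ∉ Rsw867.ball a N) → ∀ f g : Hz → ℝ, LocZ (Rsw867.ball a m : Set P2) f → NeutZ f →
      LocZ (S : Set P2) g → NeutZ g → ∀ A B : ℝ, (∀ h, Lip h → |f h| ≤ A) →
      (∀ h, Lip h → |g h| ≤ B) →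
      |∫ h, f h * g h ∂P - (∫ h, f h ∂P) * ∫ h, g h ∂P| ≤ C * ((m : ℝ) / N) ^ α * A * B :=
  cov_ball hc (f3m hc) hR hZ hL hP

/-! ### the conditional form -/

open Classical in
/-- sites next to `Λ` -/
def bdS (Λ : Finset P2) : Finset P2 := (nbhd_finite Λ).toFinset \ Λ

theorem mem_bdS {Λ : Finset P2} {v : P2} : v ∈ bdS Λ ↔ v ∈ nbhd Λ ∧ v ∉ Λ := by
  classical
  unfold bdS
  rw [Finset.mem_sdiff, Set.Finite.mem_toFinset]

/-- conditional expectations of inside observables are gradient observables of the sites next to `Λ` -/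
theorem kern_out (x : ℝ) (Λ : Finset P2) {f : Hz → ℝ} (hf : LocZ (Λ : Set P2) f) (hN : NeutZ f) :
    ∃ G : Hz → ℝ, LocZ (bdS Λ : Set P2) G ∧ NeutZ G ∧ ∀ h, Lip h → G h = ex x Λ h f := by
  classical
  let Q : Hz → Hz → Prop := fun h g => Lip g ∧ ∀ v ∈ bdS Λ, g v = h v
  let G : Hz → ℝ := fun h => if hh : ∃ g, Q h g then ex x Λ (Classical.choose hh) f else 0
  have hG : ∀ h g, Q h g → G h = ex x Λ g f := by
    intro h g hg
    have hh : ∃ g, Q h g := ⟨g, hg⟩
    have h1 : G h = ex x Λ (Classical.choose hh) f := dif_pos hh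
    rw [h1]
    have h2 := Classical.choose_spec hh
    refine It844.ex_local x h2.1 hg.1 (fun v hv hvn => ?_) f fun a b hab => hf a b fun v hv =>
      hab v (Finset.mem_coe.1 hv)
    have hvT : v ∈ bdS Λ := mem_bdS.2 ⟨hvn, hv⟩
    rw [h2.2 v hvT, hg.2 v hvT]
  refine ⟨G, fun h g hhg => ?_, fun h c => ?_, fun h hl => hG h h ⟨hl, fun _ _ => rfl⟩⟩
  · by_cases hh : ∃ k, Q h k
    · obtain ⟨k, hk⟩ := hh
      have hk' : Q g k := ⟨hk.1, fun v hv => (hk.2 v hv).trans (hhg v (Finset.mem_coe.2 hv))⟩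
      rw [hG h k hk, hG g k hk']
    · have hg : ¬ ∃ k, Q g k := by
        rintro ⟨k, hk⟩
        exact hh ⟨k, hk.1, fun v hv => (hk.2 v hv).trans (hhg v (Finset.mem_coe.2 hv)).symm⟩
      simp only [G, dif_neg hh, dif_neg hg]
  · by_cases hh : ∃ k, Q h k
    · obtain ⟨k, hk⟩ := hh
      have hk' : Q (fun v => h v + c) (fun v => k v + c) :=
        ⟨hk.1.add_const c, fun v hv => by simp only [hk.2 v hv]⟩
      rw [hG h k hk, hG _ _ hk', It844.ex_add_const]
      simp only [hN _ c]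
    · have hg : ¬ ∃ k, Q (fun v => h v + c) k := by
        rintro ⟨k, hk⟩
        refine hh ⟨fun v => k v - c, ?_, fun v hv => ?_⟩
        · have := hk.1.add_const (-c)
          simpa only [sub_eq_add_neg] using this
        · have := hk.2 v hv
          simp only at this ⊢
          rw [this]
          ring
      simp only [G, dif_neg hh, dif_neg hg]

theorem bdS_out {Λ : Finset P2} {a : P2} {N : ℕ} (h : Rsw867.ball a N ⊆ Λ) :
    ∀ v ∈ bdS Λ, v ∉ Rsw867.ball a N := fun v hv hv' => (mem_bdS.1 hv).2 (h hv')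

/-- outside factors come out of the conditional expectation, under the plane law -/
theorem dlr_mul {x : ℝ} (hx : 0 < x) {P : Measure Hz} (hZ : PinnedZ P) (hL : ZeroLim x scs P)
    {Λ : Finset P2} {G f : Hz → ℝ} {T : Finset P2} (hT : ∀ v ∈ T, v ∉ Λ) (hG : LocZ (T : Set P2) G)
    (hGN : NeutZ G) (hf : GObs f) : ∫ h, G h * f h ∂P = ∫ h, G h * ex x Λ h f ∂P := by
  have hGG : GObs G := ⟨⟨_, hG⟩, hGN⟩
  have hGf : GObs (fun h => G h * f h) := hGG.map₂ hf (fun a b => a * b)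
  rw [hL.dlr hx cls_scs hZ Λ hGf]
  refine integral_congr_ae (Eventually.of_forall fun h => ?_)
  show ex x Λ h (fun k => G k * f k) = G h * ex x Λ h f
  have e1 : ex x Λ h (fun k => G k * f k) = ex x Λ h (fun k => G h • f k) := by
    refine It844.ex_congr fun k hk => ?_
    have : G k = G h := hG _ _ fun v hv => (It844.mem_conf.1 hk).2 v (hT v (Finset.mem_coe.1 hv))
    rw [this, smul_eq_mul]
  rw [e1, It844.ex_smul, smul_eq_mul]

/-- from covariances to the conditional law -/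
theorem l1_of_cov {x : ℝ} (hx : 0 < x) {P : Measure Hz} (hZ : PinnedZ P) (hL : ZeroLim x scs P)
    {Λ : Finset P2} {f : Hz → ℝ} (hf : LocZ (Λ : Set P2) f) (hN : NeutZ f) {ε : ℝ}
    (hcov : ∀ g : Hz → ℝ, LocZ (bdS Λ : Set P2) g → NeutZ g → (∀ h, |g h| ≤ 1) →
      |∫ h, f h * g h ∂P - (∫ h, f h ∂P) * ∫ h, g h ∂P| ≤ ε) :
    ∫ h, |ex x Λ h f - ∫ h, f h ∂P| ∂P ≤ ε := by
  classical
  have hpr := hZ.prob
  set b := ∫ h, f h ∂P with hb
  obtain ⟨K, hK, hKN, hKe⟩ := kern_out x Λ hf hN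
  have hfG : GObs f := ⟨⟨_, hf⟩, hN⟩
  have hKG : GObs K := ⟨⟨_, hK⟩, hKN⟩
  let g : Hz → ℝ := fun h => if b ≤ K h then 1 else -1
  have hg : LocZ (bdS Λ : Set P2) g := fun h k hk => by
    show (if b ≤ K h then (1 : ℝ) else -1) = if b ≤ K k then 1 else -1
    rw [hK h k hk]
  have hgN : NeutZ g := fun h k => by
    show (if b ≤ K (fun v => h v + k) then (1 : ℝ) else -1) = if b ≤ K h then 1 else -1
    rw [hKN h k]
  have hg1 : ∀ h, |g h| ≤ 1 := fun h => by
    show |(if b ≤ K h then (1 : ℝ) else -1)| ≤ 1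
    split_ifs <;> simp
  have hgG : GObs g := ⟨⟨_, hg⟩, hgN⟩
  have habs : ∀ h, |K h - b| = g h * K h - b * g h := fun h => by
    show |K h - b| = (if b ≤ K h then (1 : ℝ) else -1) * K h - b * if b ≤ K h then 1 else -1
    split_ifs with h1
    · rw [abs_of_nonneg (by linarith)]; ring
    · rw [abs_of_neg (by linarith)]; ring
  have e1 : ∫ h, |ex x Λ h f - b| ∂P = ∫ h, |K h - b| ∂P := by
    refine integral_congr_ae ?_
    filter_upwards [hZ.lip] with h hh
    rw [hKe h hh]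
  have e2 : ∫ h, |K h - b| ∂P = ∫ h, g h * K h ∂P - b * ∫ h, g h ∂P := by
    simp only [habs]
    rw [integral_sub (integrable_gobs (hgG.map₂ hKG (fun a b => a * b)) hZ.lip)
      ((integrable_gobs hgG hZ.lip).const_mul b), integral_const_mul]
  have e3 : ∫ h, g h * K h ∂P = ∫ h, f h * g h ∂P := by
    have h1 := dlr_mul hx hZ hL (Λ := Λ) (fun v hv => (mem_bdS.1 hv).2) hg hgN hfG
    have h2 : ∫ h, g h * ex x Λ h f ∂P = ∫ h, g h * K h ∂P := by
      refine integral_congr_ae ?_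
      filter_upwards [hZ.lip] with h hh
      rw [hKe h hh]
    rw [← h2, ← h1]
    refine integral_congr_ae (Eventually.of_forall fun h => ?_)
    exact mul_comm _ _
  rw [e1, e2, e3]
  exact (le_abs_self _).trans (hcov g hg hgN hg1)

/-- **MIXING, CONDITIONAL FORM.** -/
theorem mix_l1 {c x : ℝ} (hx : 0 < x) (hc : 1 ≤ c) {K : ℕ} {p : ℝ} (hR : Rsw867.RSW c K p)
    {P : Measure Hz} (hZ : PinnedZ P) (hL : ZeroLim x scs P)
    (hP : ∀ f : Hz → ℝ, GObs f → FLim c f (∫ h, f h ∂P)) :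
    ∃ C α : ℝ, 1 ≤ C ∧ 0 < α ∧ ∀ (a : P2) (m N : ℕ), 1 ≤ m → m ≤ N → ∀ Λ : Finset P2,
      Rsw867.ball a N ⊆ Λ → ∀ f : Hz → ℝ, LocZ (Rsw867.ball a m : Set P2) f → NeutZ f →
      ∀ A : ℝ, (∀ h, Lip h → |f h| ≤ A) →
      ∫ h, |ex x Λ h f - ∫ h, f h ∂P| ∂P ≤ C * ((m : ℝ) / N) ^ α * A := by
  obtain ⟨C, α, hC, hα, h⟩ := mix hc hR hZ hL hP
  refine ⟨C, α, hC, hα, fun a m N hm hmN Λ hΛ f hf hN A hA => ?_⟩
  refine l1_of_cov hx hZ hL (hf.mono fun v hv => hΛ (Rsw867.ball_mono a hmN hv)) hN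
    fun g hg hgN hg1 => ?_
  have := h a m N hm (hm.trans hmN) (bdS Λ) (bdS_out hΛ) f g hf hN hg hgN A 1 hA (fun h _ => hg1 h)
  rwa [mul_one] at this

end Crest.Agent.R144.Mix880
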