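import Crest.Agent.R144.Fin2_268
import Crest.Agent.R144.Mix6_880
import Crest.Agent.R144.Dom1_136

/-!
# R144 (helper136), block D1 (DOM), file 2: from the plane law to the domain laws

* `Contig x P D δ Λ τ` : contiguity of the laws `ex x (Λ n) (τ n)` with respect to the plane law `P`, on
  compact subsets of `D`, for neutral local events;
* `GaussZ κ P` : conditional Gaussianity of lattice Laplacians under the plane law (dual form);
* `transfer` : one volume `Λ' ⊆ Λ`.
-/

set_option autoImplicit false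

noncomputable section

namespace Crest.Agent.R144.Dom136

open MeasureTheory Filter Topology Set Metric
open scoped ContDiff
open Crest.ProbabilityR.HexHeights (Adj centre)
open Crest.Agent.R144.It844 (P2 Lip adj_symm adj_iff adj_comm ex nbhd conf mem_conf pr mu)
open Crest.Agent.R144.Pst967 (Hz LocZ NeutZ GObs scs cls_scs gobs_bounded integrable_gobs PinnedZ
  ZeroLim nbhd_finite)
open Crest.Agent.R144.Mix880 (bdS mem_bdS kern_out dlr_mul)
open Crest.Agent.R144.Cw643 (Dop six Sup7 sum_Dop)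
open Crest.Agent.R144.Fin268 (LS cS Cv Vr)

/-! ### indicators -/

open Classical in
/-- indicator -/
def ind (A : Set Hz) : Hz → ℝ := fun h => if h ∈ A then 1 else 0

theorem pr_eq (x : ℝ) (Λ : Finset P2) (τ : P2 → ℤ) (A : Set Hz) : pr x Λ τ A = ex x Λ τ (ind A) := by
  unfold pr ind
  rfl

theorem ind_nonneg (A : Set Hz) (h : Hz) : 0 ≤ ind A h := by
  unfold ind; split_ifs <;> norm_num

/-! ### the definitions -/

/-- contiguity -/
def Contig (x : ℝ) (P : Measure Hz) (D : Set ℂ) (δ : ℕ → ℝ) (Λ : ℕ → Finset P2)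
    (τ : ℕ → P2 → ℤ) : Prop :=
  ∀ K : Set ℂ, IsCompact K → K ⊆ D → ∀ η > 0, ∃ C : ℝ, 0 < C ∧ ∀ᶠ n in atTop,
    ∀ (T : Finset P2) (A : Set Hz), (∀ v ∈ T, centre (δ n) v ∈ K) →
      LocZ (T : Set P2) (fun h => h ∈ A) → NeutZ (fun h => h ∈ A) →
      pr x (Λ n) (τ n) A ≤ η + C * P.real A

/-- lattice Laplacian of the samples of `u` -/
def Du (u : ℂ → ℝ) (d : ℝ) : P2 → ℝ := Dop (fun v => u (centre d v))

/-- the Gaussian characteristic function -/
def gau (κ : ℝ) (u : ℂ → ℝ) (t : ℝ) : ℝ := Real.exp (-(κ * (∫ z, ‖fderiv ℝ u z‖ ^ 2) * t ^ 2 / 2))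

/-- conditional Gaussianity given the outside of `U` in the plane -/
def GaussZ (κ : ℝ) (P : Measure Hz) : Prop :=
  ∀ δ : ℕ → ℝ, (∀ n, 0 < δ n) → Tendsto δ atTop (𝓝 0) → ∀ u : ℂ → ℝ, ContDiff ℝ ∞ u →
    HasCompactSupport u → ∀ U : Set ℂ, IsOpen U → tsupport u ⊆ U → ∀ t ε : ℝ, 0 < ε →
    ∀ᶠ n in atTop, ∀ S : Finset P2, (∀ v, v ∉ S → Du u (δ n) v = 0) →
      ∀ (T : Finset P2) (g : Hz → ℝ), (∀ v ∈ T, centre (δ n) v ∉ U) → LocZ (T : Set P2) g →
        NeutZ g → (∀ h, |g h| ≤ 1) →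
        |∫ h, g h * Real.cos (t * LS S (Du u (δ n)) h) ∂P - gau κ u t * ∫ h, g h ∂P| ≤ ε ∧
        |∫ h, g h * Real.sin (t * LS S (Du u (δ n)) h) ∂P| ≤ ε

/-! ### from the dual form to the conditional law -/

theorem l1_of_dual {x : ℝ} (hx : 0 < x) {P : Measure Hz} (hZ : PinnedZ P) (hL : ZeroLim x scs P)
    {Λ : Finset P2} {f : Hz → ℝ} (hf : LocZ (Λ : Set P2) f) (hN : NeutZ f) {b ε : ℝ}
    (hcov : ∀ g : Hz → ℝ, LocZ (bdS Λ : Set P2) g → NeutZ g → (∀ h, |g h| ≤ 1) →
      |∫ h, g h * f h ∂P - b * ∫ h, g h ∂P| ≤ ε) :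
    ∫ h, |ex x Λ h f - b| ∂P ≤ ε := by
  classical
  have hpr := hZ.prob
  obtain ⟨K, hK, hKN, hKe⟩ := kern_out x Λ hf hN
  have hfG : GObs f := ⟨⟨_, hf⟩, hN⟩
  have hKG : GObs K := ⟨⟨_, hK⟩, hKN⟩
  let g : Hz → ℝ := fun h => if b ≤ K h then 1 else -1
  have hg : LocZ (bdS Λ : Set P2) g := fun h k hk => by
    show (if b ≤ K h then (1 : ℝ) else -1) = if b ≤ K k then 1 else -1
    rw [hK h k hk]
  have hgN : NeutZ g := fun h k => by
    show (if b ≤ K (fun v => h v + k) then (1 : ℝ) else -1) = if b ≤ K h then 1 else -1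
    rw [hKN h k]
  have hg1 : ∀ h, |g h| ≤ 1 := fun h => by
    show |(if b ≤ K h then (1 : ℝ) else -1)| ≤ 1
    split_ifs <;> simp
  have hgG : GObs g := ⟨⟨_, hg⟩, hgN⟩
  have habs : ∀ h, |K h - b| = g h * K h - b * g h := fun h => by
    show |K h - b| = (if b ≤ K h then (1 : ℝ) else -1) * K h - b * if b ≤ K h then 1 else -1
    split_ifs with h1
    · rw [abs_of_nonneg (by linarith)]; ring
    · rw [abs_of_neg (by linarith)]; ring
  have e1 : ∫ h, |ex x Λ h f - b| ∂P = ∫ h, |K h - b| ∂P := by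
    refine integral_congr_ae ?_
    filter_upwards [hZ.lip] with h hh
    rw [hKe h hh]
  have e2 : ∫ h, |K h - b| ∂P = ∫ h, g h * K h ∂P - b * ∫ h, g h ∂P := by
    simp only [habs]
    rw [integral_sub (integrable_gobs (hgG.map₂ hKG (fun a b => a * b)) hZ.lip)
      ((integrable_gobs hgG hZ.lip).const_mul b), integral_const_mul]
  have e3 : ∫ h, g h * K h ∂P = ∫ h, g h * f h ∂P := by
    have h1 := dlr_mul hx hZ hL (Λ := Λ) (fun v hv => (mem_bdS.1 hv).2) hg hgN hfG
    have h2 : ∫ h, g h * ex x Λ h f ∂P = ∫ h, g h * K h ∂P := by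
      refine integral_congr_ae ?_
      filter_upwards [hZ.lip] with h hh
      rw [hKe h hh]
    rw [← h2, ← h1]
  rw [e1, e2, e3]
  exact (le_abs_self _).trans (hcov g hg hgN hg1)

theorem abs_ex_le {x : ℝ} {Λ : Finset P2} {τ : P2 → ℤ} (f : Hz → ℝ) :
    |ex x Λ τ f| ≤ ex x Λ τ (fun h => |f h|) := by
  rw [abs_le]
  constructor
  · have h1 : ex x Λ τ (fun h => (-1 : ℝ) • |f h|) ≤ ex x Λ τ f := It844.ex_mono fun h _ => by
      rw [smul_eq_mul]
      have := neg_abs_le (f h)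
      linarith
    rw [It844.ex_smul, smul_eq_mul] at h1
    linarith
  · exact It844.ex_mono fun h _ => le_abs_self _

/-- **transfer of one conditional expectation** -/
theorem transfer {x : ℝ} (hx : 0 < x) {P : Measure Hz} (hZ : PinnedZ P) (hL : ZeroLim x scs P)
    {Λ' Λ : Finset P2} (hΛ : Λ' ⊆ Λ) {τ : P2 → ℤ} (hτ : Lip τ) {f : Hz → ℝ}
    (hf : LocZ (Λ' : Set P2) f) (hN : NeutZ f) (hf1 : ∀ h, |f h| ≤ 1) {b ε s η C : ℝ}
    (hb : |b| ≤ 1) (hs : 0 < s) (hC : 0 ≤ C)
    (hcov : ∀ g : Hz → ℝ, LocZ (bdS Λ' : Set P2) g → NeutZ g → (∀ h, |g h| ≤ 1) →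
      |∫ h, g h * f h ∂P - b * ∫ h, g h ∂P| ≤ ε)
    (hcon : ∀ A : Set Hz, LocZ (bdS Λ' : Set P2) (fun h => h ∈ A) → NeutZ (fun h => h ∈ A) →
      pr x Λ τ A ≤ η + C * P.real A) :
    |ex x Λ τ f - b| ≤ s + 2 * (η + C * (ε / s)) := by
  classical
  have hpr := hZ.prob
  have h1 := l1_of_dual hx hZ hL hf hN hcov
  obtain ⟨K, hK, hKN, hKe⟩ := kern_out x Λ' hf hN
  have hKG : GObs K := ⟨⟨_, hK⟩, hKN⟩
  set A : Set Hz := {h | s < |K h - b|} with hA
  have hAl : LocZ (bdS Λ' : Set P2) (fun h => h ∈ A) := fun h k hk => by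
    show (s < |K h - b|) = (s < |K k - b|)
    rw [hK h k hk]
  have hAN : NeutZ (fun h => h ∈ A) := fun h k => by
    show (s < |K (fun v => h v + k) - b|) = (s < |K h - b|)
    rw [hKN h k]
  have hPA : P.real A ≤ ε / s := by
    have e1 : ∫ h, |ex x Λ' h f - b| ∂P = ∫ h, |K h - b| ∂P := by
      refine integral_congr_ae ?_
      filter_upwards [hZ.lip] with h hh
      rw [hKe h hh]
    rw [e1] at h1
    have hint : Integrable (fun h => |K h - b|) P :=
      ((integrable_gobs hKG hZ.lip).sub (integrable_const b)).abs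
    have h2 := mul_meas_ge_le_integral_of_nonneg (μ := P) (f := fun h => |K h - b|)
      (Eventually.of_forall fun h => abs_nonneg _) hint s
    rw [le_div_iff₀ hs]
    have h3 : P.real A ≤ P.real {h | s ≤ |K h - b|} :=
      by
        refine measureReal_mono fun h hh => ?_
        have h4 : s < |K h - b| := hh
        exact h4.le
    nlinarith
  have hK1 : ∀ h, Lip h → |K h| ≤ 1 := by
    intro h hh
    rw [hKe h hh]
    refine (abs_ex_le f).trans ?_
    calc ex x Λ' h (fun h => |f h|) ≤ ex x Λ' h (fun _ => (1 : ℝ)) := It844.ex_mono fun k _ => hf1 k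
      _ = 1 := It844.ex_const hx hh 1
  have e2 : ex x Λ τ f - b = ex x Λ τ (fun h => K h + (-b)) := by
    rw [It844.ex_add, It844.ex_const hx hτ, It844.ex_tower hx hΛ τ f]
    have : ex x Λ τ (fun h => ex x Λ' h f) = ex x Λ τ K :=
      It844.ex_congr fun h hh => (hKe h (mem_conf.1 hh).1).symm
    rw [this]
    ring
  rw [e2]
  refine (abs_ex_le _).trans ?_
  calc ex x Λ τ (fun h => |K h + -b|)
      ≤ ex x Λ τ (fun h => s + (2 : ℝ) • ind A h) := by
        refine It844.ex_mono fun h hh => ?_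
        have hl := (mem_conf.1 hh).1
        rw [smul_eq_mul, ← sub_eq_add_neg]
        by_cases hhA : h ∈ A
        · have : ind A h = 1 := if_pos hhA
          rw [this]
          have h3 := hK1 h hl
          have h4 : |K h - b| ≤ |K h| + |b| := abs_sub _ _
          linarith
        · have : ind A h = 0 := if_neg hhA
          rw [this]
          have h3 : |K h - b| ≤ s := not_lt.1 hhA
          linarith
    _ = s + 2 * ex x Λ τ (ind A) := by
        rw [It844.ex_add, It844.ex_const hx hτ, It844.ex_smul, smul_eq_mul]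
    _ ≤ s + 2 * (η + C * (ε / s)) := by
        have h5 := hcon A hAl hAN
        rw [pr_eq] at h5
        have h6 : C * P.real A ≤ C * (ε / s) := mul_le_mul_of_nonneg_left hPA hC
        linarith

/-! ### supports -/

theorem Du_supp {u : ℂ → ℝ} {d : ℝ} (hd : 0 ≤ d) {v : P2} (h : Du u d v ≠ 0) :
    ∃ z ∈ tsupport u, dist (centre d v) z ≤ d := by
  by_contra hcon
  push Not at hcon
  apply h
  have z0 : ∀ e ∈ six, u (centre d (v - e)) = 0 := by
    intro e he
    by_contra h1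
    have h2 := hcon _ (subset_tsupport _ h1)
    have h3 := Cw643.norm_centre_six hd he
    rw [Cw643.centre_sub, dist_eq_norm] at h2
    have e1 : centre d v - (centre d v - centre d e) = centre d e := by ring
    rw [e1] at h2
    linarith
  have z1 : u (centre d v) = 0 := by
    by_contra h1
    have := hcon _ (subset_tsupport _ h1)
    rw [dist_self] at this
    linarith
  unfold Du Dop
  beta_reduce
  rw [z1, z0 _ (by decide), z0 _ (by decide), z0 _ (by decide), z0 _ (by decide),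
    z0 _ (by decide), z0 _ (by decide)]
  ring

/-- `S` contains all sites within `d` of the support -/
theorem sup7_of {u : ℂ → ℝ} {d : ℝ} (hd : 0 ≤ d) {S : Finset P2}
    (hS : ∀ v, (∃ z ∈ tsupport u, dist (centre d v) z ≤ d) → v ∈ S) :
    Sup7 S (fun v => u (centre d v)) := by
  constructor
  · intro p hp
    by_contra h1
    exact hp (hS p ⟨_, subset_tsupport _ h1, by rw [dist_self]; exact hd⟩)
  · intro e he p hp
    by_contra h1
    refine hp (hS p ⟨_, subset_tsupport _ h1, ?_⟩)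
    rw [dist_eq_norm]
    have h3 := Cw643.norm_centre_six hd he
    rw [Cw643.centre_sub]
    have e1 : centre d p - (centre d p - centre d e) = centre d e := by ring
    rw [e1]
    exact h3

theorem LS_eq {S S' : Finset P2} {b : P2 → ℝ} (h : ∀ v, v ∉ S → b v = 0) (h' : ∀ v, v ∉ S' → b v = 0)
    (k : Hz) : LS S b k = LS S' b k := by
  classical
  unfold LS
  have h1 : ∑ p ∈ S, b p * (k p : ℝ) = ∑ p ∈ S ∪ S', b p * (k p : ℝ) :=
    Finset.sum_subset Finset.subset_union_left fun p _ hp => by rw [h p hp, zero_mul]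
  have h2 : ∑ p ∈ S', b p * (k p : ℝ) = ∑ p ∈ S ∪ S', b p * (k p : ℝ) :=
    Finset.sum_subset Finset.subset_union_right fun p _ hp => by rw [h' p hp, zero_mul]
  rw [h1, h2]

theorem locZ_LS (S : Finset P2) (b : P2 → ℝ) : LocZ (S : Set P2) (LS S b) := fun h k hk => by
  unfold LS
  exact Finset.sum_congr rfl fun v hv => by rw [hk v (Finset.mem_coe.2 hv)]

theorem neutZ_LS {S : Finset P2} {b : P2 → ℝ} (hb : ∑ v ∈ S, b v = 0) : NeutZ (LS S b) := fun h c => by
  unfold LS
  have : ∀ v ∈ S, b v * ((h v + c : ℤ) : ℝ) = b v * (h v : ℝ) + b v * (c : ℝ) := fun v _ => by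
    push_cast; ring
  rw [Finset.sum_congr rfl this, Finset.sum_add_distrib, ← Finset.sum_mul, hb, zero_mul, add_zero]

end Crest.Agent.R144.Dom136
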