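import Crest.Agent.R144.Cw9_643
import Crest.Agent.R144.Ps1_643
import Crest.Agent.R144.Reg_136
import Crest.Agent.R144.Cst2_725
import Crest.Agent.R144.Ga2a_617

/-!
# R144 (helper643), CW block, file 10: variograms and plane states

* `exists_spec : Two V → ∃ u L C, Spec V u L C ∧ L (2/π) ≤ V (1,0)`;
* `Lim2 V κ`: the limiting covariance functional, `lim2 : Two V → ∃ κ, Lim2 V κ ∧ κ ≤ (π/√3) V (1,0)`,
  with the lower bound of `κ` from a logarithmic lower bound of `V`;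
* plane states: `cov_tendsto`, `ward_rfl` (Ward identity for the lattice reflections `rfl6`).
-/

set_option autoImplicit false

noncomputable section

namespace Crest.Agent.R144.Cw643

open Finset Filter Topology MeasureTheory
open Crest.Agent.R144.Tp952
open Crest.ProbabilityR.HexHeights (centre)
open Crest.Agent.R144.HexTil353 Crest.Agent.R144.Geo268
open Crest.Agent.R144.Ps643 Crest.Agent.R144.Ps643.PlaneState
open Crest.Agent.R144.Ga2617 (rfl6 Dir6 dot stp mem_dir6 rfl6_rfl6 dot_rfl6)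
open scoped Real ContDiff Laplacian

variable {V : ℤ × ℤ → ℝ}

/-- the spectral representation of every variogram, with the bound of the constant -/
theorem exists_spec (hV : Two V) : ∃ (u : ℝ × ℝ → ℝ) (L C : ℝ), Spec V u L C ∧ L * (2 / π) ≤ V (1, 0) := by
  have hs : SinB (Reg136.Un V) := SinB.of_RC fun n => ⟨_, _, Reg136.Cn V n, Reg136.rc_Cn hV n, rfl⟩
  obtain ⟨u, L, C, h0, h1, h2, h3, h4, h5, h6, h7⟩ := (Reg136.reg hV).exists_spec_const hV hs
  exact ⟨u, L, C, ⟨h1, h2, h3, h4, h5, h6, h7⟩, h0⟩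

/-- the limiting covariance functional of a variogram -/
structure Lim2 (V : ℤ × ℤ → ℝ) (κ : ℝ) : Prop where
  nonneg : 0 ≤ κ
  lim : ∀ (δ : ℕ → ℝ) (ψ f : ℂ → ℝ) (b a : ℕ → ℤ × ℤ → ℝ) (s t : ℕ → Finset (ℤ × ℤ)),
    (∀ n, 0 < δ n) → Tendsto δ atTop (𝓝 0) → ContDiff ℝ ∞ ψ → HasCompactSupport ψ →
    Continuous f → HasCompactSupport f → Near δ b (fun z => -(Δ ψ) z) → Near δ a f →
    (∀ᶠ n in atTop, Wt (s n) (b n)) → (∀ᶠ n in atTop, Wt (t n) (a n)) →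
    Tendsto (fun n => CV V (s n) (b n) (t n) (a n)) atTop (𝓝 (κ * ∫ z, ψ z * f z))
  sq : ∃ K : ℝ, 0 < K ∧ ∀ (m : ℕ) (s A : ℝ) (g : ℤ × ℤ → ℝ), 1 ≤ s → 1 ≤ A → (m : ℝ) ≤ A * s →
    (∀ p ∈ BX m, |g p| ≤ A / s ^ 2) → ∑ p ∈ BX m, g p = 0 → CV V (BX m) g (BX m) g ≤ K * A ^ 8

theorem sq_of_spec {u : ℝ × ℝ → ℝ} {L C : ℝ} (hS : Spec V u L C) (m : ℕ) (s A : ℝ) (g : ℤ × ℤ → ℝ)
    (hs : 1 ≤ s) (hA : 1 ≤ A) (hm : (m : ℝ) ≤ A * s) (hg : ∀ p ∈ BX m, |g p| ≤ A / s ^ 2)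
    (h0 : ∑ p ∈ BX m, g p = 0) : CV V (BX m) g (BX m) g ≤ (2000000 * C) * A ^ 8 := by
  have h1 := apriori hS h0 (ε := 100 * A) (δ := 1 / (10 * s)) (R := A) (by positivity)
    (by rw [div_le_div_iff₀ (by positivity) (by norm_num)]; linarith) (by positivity)
    (by rw [mul_one_div, div_le_iff₀ (by positivity)]; nlinarith) hA
    (fun p hp => by
      refine (hg p hp).trans (le_of_eq ?_)
      field_simp
      ring)
  refine h1.trans (le_of_eq ?_)
  ring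

theorem Lim2.of_spec (hV : Two V) {u : ℝ × ℝ → ℝ} {L C : ℝ} (hS : Spec V u L C) :
    Lim2 V (2 * L / Real.sqrt 3) where
  nonneg := by have := hS.L_nonneg; positivity
  lim := fun δ ψ f b a s t hδ hδ0 hψ hψc hf hfc hb ha hs ht =>
    cv_tendsto hV hS hδ hδ0 hψ hψc hf hfc hb ha hs ht
  sq := ⟨2000000 * C, by have := hS.C_pos; positivity, sq_of_spec hS⟩

/-- **the two-point theorem** -/
theorem lim2 (hV : Two V) : ∃ κ : ℝ, Lim2 V κ ∧ κ ≤ π / Real.sqrt 3 * V (1, 0) ∧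
    ∀ c : ℝ, (∃ᶠ p : ℤ × ℤ in cofinite, c * Real.log (1 + l1 p ^ 2) ≤ V p) → c / Real.sqrt 3 ≤ κ := by
  obtain ⟨u, L, C, hS, hL⟩ := exists_spec hV
  have h3 : (0 : ℝ) < Real.sqrt 3 := by positivity
  have hπ := Real.pi_pos
  refine ⟨2 * L / Real.sqrt 3, Lim2.of_spec hV hS, ?_, fun c hc => ?_⟩
  · rw [div_mul_eq_mul_div, div_le_div_iff_of_pos_right h3]
    have : L * (2 / π) = 2 * L / π := by ring
    rw [this, div_le_iff₀ hπ] at hL
    linarith
  · have := hS.le_L_of_log hV hc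
    rw [div_le_div_iff_of_pos_right h3]
    linarith

end Crest.Agent.R144.Cw643
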