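import Crest.Agent.R144.Geo3_268
import Crest.Agent.R144.TriDom_353
import Crest.Agent.R144.HexDom_353
import Crest.Agent.R144.It1b_844

/-!
# R144 / Cov_353 : covering of compact sets, neighbourhoods, simple connectivity in site form
-/

set_option autoImplicit false

noncomputable section

namespace Crest.Agent.R144.Cov353

open Set Topology Filter Crest.ProbabilityR.HexHeights Crest.ProbabilityR.TriHeights
open Crest.Agent.R144.Til353 Crest.Agent.R144.HexTil353 Crest.Agent.R144.HexDom353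
open Crest.Agent.R144.TriTil353 Crest.Agent.R144.TriDom353 Crest.Agent.R144.Geo268
open Crest.Agent.R144.It844

/-! ### triangles -/

section tri

variable {D : Set ℂ} {γ : ℝ → ℂ} {θ : ℝ} {δ : ℕ → ℝ} {T : ℕ → Finset Tri}
  {ea eb : ℕ → (ℤ × ℤ) × (ℤ × ℤ)} {c : ℕ → ℝ → ℂ}

theorem cur_of (hA : IsMarkedApprox γ θ δ T ea eb c) (n : ℕ) : Cur (c n) :=
  ⟨(hA.2.2.2.1 n).1, (hA.2.2.2.1 n).2.1⟩

theorem dom_of (hA : IsMarkedApprox γ θ δ T ea eb c) (n : ℕ) :
    VC (T n : Set Tri) ∧ (T n).Nonempty ∧ Conn TAdj (T n : Set Tri) ∧ Conn TAdj ((T n : Set Tri)ᶜ) ∧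
    IsPreconnected (polygon (δ n) (T n)) ∧ IsPreconnected (Pt (δ n) (T n))ᶜ ∧
    ¬ Bornology.IsBounded (Pt (δ n) (T n))ᶜ :=
  tri_domain (hA.1 n) (hA.2.2.2.1 n).1 (hA.2.2.2.1 n).2.1 (hA.2.2.2.1 n).2.2.1
    (hA.2.2.2.1 n).2.2.2.1

theorem range_eq (hA : IsMarkedApprox γ θ δ T ea eb c) (n : ℕ) :
    range (c n) = frontier (polygon (δ n) (T n)) := (hA.2.2.2.1 n).2.2.2.1

theorem isOpen_polygon (δ : ℝ) (T : Finset Tri) : IsOpen (polygon δ T) := isOpen_interior

theorem polygon_disj (hA : IsMarkedApprox γ θ δ T ea eb c) (n : ℕ) :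
    Disjoint (polygon (δ n) (T n)) (range (c n)) := by
  rw [range_eq hA n]
  exact Set.disjoint_iff_inter_eq_empty.2 (isOpen_polygon _ _).inter_frontier_eq

theorem compl_disj (hA : IsMarkedApprox γ θ δ T ea eb c) (n : ℕ) :
    Disjoint (Pt (δ n) (T n))ᶜ (range (c n)) := by
  rw [range_eq hA n, Set.disjoint_left]
  intro z hz hz'
  rw [← closure_polygon (hA.1 n)] at hz
  exact hz (frontier_subset_closure hz')

theorem wn_zero (hA : IsMarkedApprox γ θ δ T ea eb c) (n : ℕ) {z : ℂ}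
    (h1 : z ∉ polygon (δ n) (T n)) (h2 : z ∉ range (c n)) : wn (c n) z = 0 := by
  obtain ⟨_, _, _, _, _, h3, h4⟩ := dom_of hA n
  refine wn_unbounded (cur_of hA n) h3 (compl_disj hA n) h4 ?_
  intro h5
  rw [← closure_polygon (hA.1 n)] at h5
  rw [range_eq hA n, frontier, (isOpen_polygon _ _).interior_eq] at h2
  exact h2 ⟨h5, h1⟩

/-- **(T1)** compact subsets of `D` are eventually covered. -/
theorem tri_cover (hD : IsSmoothMarkedDomain D γ θ) (hA : IsMarkedApprox γ θ δ T ea eb c)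
    {K : Set ℂ} (hK : IsCompact K) (hKD : K ⊆ D) :
    ∀ᶠ n in atTop, K ⊆ polygon (δ n) (T n) :=
  (dom_of_marked hD).eventually_subset (cur_of hA) hA.2.2.2.2 (fun n _ h1 h2 => wn_zero hA n h1 h2)
    hK hKD

/-- **(T2)** the polygons are eventually in every neighbourhood of `D`. -/
theorem tri_near (hD : IsSmoothMarkedDomain D γ θ) (hA : IsMarkedApprox γ θ δ T ea eb c)
    {ε : ℝ} (hε : 0 < ε) : ∀ᶠ n in atTop, ∀ z ∈ polygon (δ n) (T n), Metric.infDist z D < ε := by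
  obtain ⟨z0, hz0⟩ := hD.2.2.1.nonempty
  exact (dom_of_marked hD).eventually_near (cur_of hA) hA.2.2.2.2 (fun n => (dom_of hA n).2.2.2.2.1)
    (polygon_disj hA) hz0 ((tri_cover hD hA isCompact_singleton (singleton_subset_iff.2 hz0)).mono
      fun n hn => hn rfl) hε

/-- boundary vertices are eventually near the frontier of `D` -/
theorem tri_boundary_near (hD : IsSmoothMarkedDomain D γ θ) (hA : IsMarkedApprox γ θ δ T ea eb c)
    {ε : ℝ} (hε : 0 < ε) : ∀ᶠ n in atTop, ∀ v, IsBoundaryVertex (T n) v →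
      Metric.infDist (centre (δ n) v) (frontier D) < ε := by
  filter_upwards [Metric.tendstoUniformly_iff.1 hA.2.2.2.2 ε hε] with n hn v hv
  have h1 := centre_mem_frontier (hA.1 n) hv
  rw [← range_eq hA n] at h1
  obtain ⟨s, hs⟩ := h1
  have h2 : γ s ∈ frontier D := by
    rw [← hD.2.2.2.2.2.2.2.1]; exact mem_range_self s
  refine (Metric.infDist_le_dist_of_mem h2).trans_lt ?_
  rw [← hs, dist_comm]
  exact hn s

end tri

/-- triangles are small: a point of a triangle is within `δ` of each corner -/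
theorem dist_corner_le {δ : ℝ} (hδ : 0 < δ) {t : Tri} {s : ℤ × ℤ} (hs : s ∈ corners t) {z : ℂ}
    (hz : z ∈ triRegion δ t) : dist z (centre δ s) ≤ δ := by
  have hsub : triRegion δ t ⊆ Metric.closedBall (centre δ s) δ := by
    refine convexHull_min ?_ (convex_closedBall _ _)
    rintro _ ⟨w, hw, rfl⟩
    rw [Metric.mem_closedBall]
    by_cases he : s = w
    · rw [he, dist_self]; exact hδ.le
    · obtain ⟨k, rfl⟩ := exists_nb hs (by exact_mod_cast hw) he
      have hadj : Adj s (nb s k) := (adj_iff_nb _ _).2 ⟨k, rfl⟩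
      have h1 := dist_centre_sq δ s (nb s k)
      rw [(adj_iff _ _).1 hadj] at h1
      rw [dist_comm]
      have h2 : dist (centre δ s) (centre δ (nb s k)) ^ 2 ≤ δ ^ 2 := by rw [h1]; simp
      exact (abs_le_of_sq_le_sq' h2 hδ.le).2
  exact hsub hz

/-- a tile whose interior meets the union belongs to the set -/
theorem mem_of_int {ι : Type*} {C : ι → Set ℂ} (h : Tiling C) {S : Set ι} {i : ι}
    (hi : C i ⊆ U C S) : i ∈ S := by
  by_contra hcon
  obtain ⟨z, hz⟩ := h.int_ne i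
  exact Set.disjoint_left.1 (h.int_disj_U (S := S) hcon) hz (hi (interior_subset hz))

theorem lam_of_ball {δ : ℝ} (hδ : 0 < δ) {T : Finset Tri} {v : ℤ × ℤ}
    (h : Metric.closedBall (centre δ v) δ ⊆ polygon δ T) : v ∈ Lam T := by
  rw [mem_Lam]
  intro k
  have h1 : triRegion δ (star v k) ⊆ U (triRegion δ) (T : Set Tri) := by
    intro z hz
    have h2 := h (Metric.mem_closedBall.2 (dist_corner_le hδ (self_mem_star v k) hz))
    rw [polygon_eq] at h2
    exact interior_subset h2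
  exact_mod_cast mem_of_int (TriTil353.tiling hδ) h1

/-- compact subset of an open set: a closed neighbourhood is a compact subset too -/
theorem exists_thick {K D : Set ℂ} (hK : IsCompact K) (hD : IsOpen D) (hKD : K ⊆ D) :
    ∃ r > 0, IsCompact (Metric.cthickening r K) ∧ Metric.cthickening r K ⊆ D := by
  obtain ⟨r, hr, h⟩ := hK.exists_cthickening_subset_open hD hKD
  exact ⟨r, hr, hK.cthickening, h⟩

/-- **Interior sites**: every site whose centre lies in a compact subset of `D` is interior. -/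
theorem tri_sites {D : Set ℂ} {γ : ℝ → ℂ} {θ : ℝ} {δ : ℕ → ℝ} {T : ℕ → Finset Tri}
    {ea eb : ℕ → (ℤ × ℤ) × (ℤ × ℤ)} {c : ℕ → ℝ → ℂ}
    (hD : IsSmoothMarkedDomain D γ θ) (hA : IsMarkedApprox γ θ δ T ea eb c)
    {K : Set ℂ} (hK : IsCompact K) (hKD : K ⊆ D) :
    ∀ᶠ n in atTop, ∀ v, centre (δ n) v ∈ K → v ∈ Lam (T n) := by
  obtain ⟨r, hr, hc, hs⟩ := exists_thick hK hD.1 hKD
  filter_upwards [tri_cover hD hA hc hs, hA.2.1.eventually (gt_mem_nhds hr)] with n h1 h2 v hv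
  refine lam_of_ball (hA.1 n) fun z hz => h1 ?_
  refine Metric.closedBall_subset_cthickening hv r ?_
  rw [Metric.mem_closedBall] at hz ⊢
  exact hz.trans h2.le

/-! ### hexagons -/

theorem mem_intF_iff {F : Finset (ℤ × ℤ)} {v : ℤ × ℤ} :
    v ∈ intF F ↔ v ∈ F ∧ ∀ w, Adj v w → w ∈ F := by
  classical
  unfold intF bdryFaces
  rw [Finset.mem_sdiff, Finset.mem_filter]
  constructor
  · rintro ⟨h1, h2⟩
    refine ⟨h1, fun w hw => ?_⟩
    by_contra h3
    exact h2 ⟨h1, w, hw, h3⟩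
  · rintro ⟨h1, h2⟩
    refine ⟨h1, ?_⟩
    rintro ⟨_, w, hw, h3⟩
    exact h3 (h2 w hw)

theorem dist_le_cell {δ : ℝ} (hδ : 0 < δ) {u : ℤ × ℤ} {z : ℂ} (hz : z ∈ cell δ u) :
    dist z (centre δ u) ≤ δ := by
  have h1 := dist_le_of_mem_cell hδ hz
  refine (abs_le_of_sq_le_sq' ?_ hδ.le).2
  nlinarith [sq_nonneg (dist z (centre δ u))]

theorem intF_of_ball {δ : ℝ} (hδ : 0 < δ) {F : Finset (ℤ × ℤ)} {v : ℤ × ℤ}
    (h : Metric.closedBall (centre δ v) (2 * δ) ⊆ approxDomain δ F) : v ∈ intF F := by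
  have key : ∀ w, dist (centre δ w) (centre δ v) ≤ δ → w ∈ F := by
    intro w hw
    have h1 : cell δ w ⊆ U (cell δ) (F : Set (ℤ × ℤ)) := by
      intro z hz
      have h2 := dist_le_cell hδ hz
      have h3 := dist_triangle z (centre δ w) (centre δ v)
      have h4 := h (Metric.mem_closedBall.2 (by linarith))
      rw [approx_eq] at h4
      exact interior_subset h4
    exact_mod_cast mem_of_int (HexTil353.tiling hδ) h1
  rw [mem_intF_iff]
  refine ⟨key v (by rw [dist_self]; exact hδ.le), fun w hw => key w ?_⟩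
  have h1 := dist_centre_sq δ v w
  rw [(adj_iff _ _).1 hw] at h1
  rw [dist_comm]
  have h2 : dist (centre δ v) (centre δ w) ^ 2 ≤ δ ^ 2 := by rw [h1]; simp
  exact (abs_le_of_sq_le_sq' h2 hδ.le).2

/-- **Interior faces**: every face whose centre lies in a compact subset of `D` is interior. -/
theorem hex_sites {D : Set ℂ} {γ : ℝ → ℂ} {δ : ℕ → ℝ} {F : ℕ → Finset (ℤ × ℤ)}
    (hD : IsC2JordanDomain D γ) (hA : IsInsideApprox D γ δ F)
    {K : Set ℂ} (hK : IsCompact K) (hKD : K ⊆ D) :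
    ∀ᶠ n in atTop, ∀ v, centre (δ n) v ∈ K → v ∈ intF (F n) := by
  obtain ⟨r, hr, hc, hs⟩ := exists_thick hK hD.1 hKD
  filter_upwards [hA.2.2.2.1 _ hc hs, hA.2.1.eventually (gt_mem_nhds (show 0 < r / 2 by positivity))]
    with n h1 h2 v hv
  refine intF_of_ball (hA.1 n) fun z hz => h1 ?_
  refine Metric.closedBall_subset_cthickening hv r ?_
  rw [Metric.mem_closedBall] at hz ⊢
  linarith

/-- faces of `F n` have their centre in `D` -/
theorem hex_inside {D : Set ℂ} {γ : ℝ → ℂ} {δ : ℕ → ℝ} {F : ℕ → Finset (ℤ × ℤ)}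
    (hA : IsInsideApprox D γ δ F) (n : ℕ) {v : ℤ × ℤ} (hv : v ∈ F n) : centre (δ n) v ∈ D := by
  apply hA.2.2.1 n
  refine interior_mono ?_ (interior_maximal (ball_subset_cell (hA.1 n) v) Metric.isOpen_ball
    (Metric.mem_ball_self (by have := hA.1 n; linarith)))
  intro z hz
  exact mem_iUnion₂.2 ⟨v, hv, hz⟩

theorem hex_dom {D : Set ℂ} {γ : ℝ → ℂ} {δ : ℕ → ℝ} {F : ℕ → Finset (ℤ × ℤ)}
    (hA : IsInsideApprox D γ δ F) (n : ℕ) :
    (F n).Nonempty ∧ Conn Adj (F n : Set (ℤ × ℤ)) ∧ Conn Adj ((F n : Set (ℤ × ℤ))ᶜ) ∧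
    IsPreconnected (approxDomain (δ n) (F n)) ∧ IsPreconnected (P (δ n) (F n))ᶜ ∧
    ¬ Bornology.IsBounded (P (δ n) (F n))ᶜ := by
  obtain ⟨c, hc, _⟩ := hA.2.2.2.2
  obtain ⟨h1, h2, h3, h4⟩ := hc n
  have hJ : IsPreconnected (frontier (approxDomain (δ n) (F n))) := by
    rw [← h4]; exact isPreconnected_range h1
  have hne : (F n).Nonempty := by
    by_contra h
    rw [Finset.not_nonempty_iff_eq_empty] at h
    have h5 : c n 0 ∈ frontier (approxDomain (δ n) (F n)) := by rw [← h4]; exact mem_range_self 0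
    rw [approx_eq, (HexTil353.tiling (hA.1 n)).frontier_eq] at h5
    obtain ⟨t, ht, _⟩ := mem_U.1 h5.1
    rw [h] at ht
    simp at ht
  obtain ⟨g1, g2, g3, g4, g5⟩ := hex_domain (hA.1 n) hJ
  exact ⟨hne, g1, g2 hne, g3, g4 hne, g5⟩

/-- boundary faces are near the frontier of `D` -/
theorem hex_boundary_near {D : Set ℂ} {γ : ℝ → ℂ} {δ : ℕ → ℝ} {F : ℕ → Finset (ℤ × ℤ)}
    (hD : IsC2JordanDomain D γ) (hA : IsInsideApprox D γ δ F) {ε : ℝ} (hε : 0 < ε) :
    ∀ᶠ n in atTop, ∀ v ∈ F n, v ∉ intF (F n) →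
      Metric.infDist (centre (δ n) v) (frontier D) < ε := by
  obtain ⟨c, hc, hu⟩ := hA.2.2.2.2
  filter_upwards [Metric.tendstoUniformly_iff.1 hu (ε / 2) (by positivity),
    hA.2.1.eventually (gt_mem_nhds (show 0 < ε / 2 by positivity))] with n hn h2 v hv hv'
  rw [mem_intF_iff] at hv'
  push Not at hv'
  obtain ⟨w, hw, hwF⟩ := hv' hv
  -- common point of the two cells
  obtain ⟨m, hm1, hm2, _⟩ := glued_of_adj (hA.1 n) hw
  have h3 : m ∈ frontier (approxDomain (δ n) (F n)) := by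
    rw [approx_eq, (HexTil353.tiling (hA.1 n)).frontier_eq]
    exact ⟨mem_U.2 ⟨v, by exact_mod_cast hv, hm1⟩, mem_U.2 ⟨w, by simpa using hwF, hm2⟩⟩
  rw [← (hc n).2.2.2] at h3
  obtain ⟨s, hs⟩ := h3
  have h4 : γ s ∈ frontier D := by
    rw [← hD.2.2.2.2.2.2.2]; exact mem_range_self s
  refine (Metric.infDist_le_dist_of_mem h4).trans_lt ?_
  have h5 := dist_le_cell (hA.1 n) hm1
  have h6 := hn s
  rw [hs] at h6
  have h7 := dist_triangle (centre (δ n) v) m (γ s)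
  rw [dist_comm (centre (δ n) v) m, dist_comm m (γ s)] at h7
  linarith

/-! ### simple connectivity in site form -/

theorem conn_step {S : Set (ℤ × ℤ)} {u v : ℤ × ℤ} (hu : u ∈ S) (hv : v ∈ S) (h : u = v ∨ Adj u v) :
    Relation.ReflTransGen (fun a b => a ∈ S ∧ b ∈ S ∧ Adj a b) u v := by
  rcases h with rfl | h
  · exact Relation.ReflTransGen.refl
  · exact Relation.ReflTransGen.single ⟨hu, hv, h⟩

theorem conn_mono {S S' : Set (ℤ × ℤ)} (h : S ⊆ S') {u v : ℤ × ℤ}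
    (hc : Relation.ReflTransGen (fun a b => a ∈ S ∧ b ∈ S ∧ Adj a b) u v) :
    Relation.ReflTransGen (fun a b => a ∈ S' ∧ b ∈ S' ∧ Adj a b) u v := by
  induction hc with
  | refl => exact Relation.ReflTransGen.refl
  | tail _ hs ih => exact ih.tail ⟨h hs.1, h hs.2.1, hs.2.2⟩

theorem adj_symm' {u v : ℤ × ℤ} (h : Adj u v) : Adj v u := by
  unfold Adj at h ⊢; omega

/-- **Hexagons**: the complement of the interior faces is connected. -/
theorem hex_compl_conn {F : Finset (ℤ × ℤ)} (h : Conn Adj ((F : Set (ℤ × ℤ))ᶜ)) :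
    Conn Adj ((intF F : Set (ℤ × ℤ))ᶜ) := by
  have hsub : ((F : Set (ℤ × ℤ))ᶜ) ⊆ ((intF F : Set (ℤ × ℤ))ᶜ) := by
    intro u hu hu'
    exact hu (by exact_mod_cast (mem_intF_iff.1 (by exact_mod_cast hu')).1)
  -- every site outside is joined to a site outside `F`
  have key : ∀ u ∈ ((intF F : Set (ℤ × ℤ))ᶜ), ∃ w ∈ ((F : Set (ℤ × ℤ))ᶜ), u = w ∨ Adj u w := by
    intro u hu
    by_cases huF : u ∈ F
    · have h1 : ¬ (u ∈ F ∧ ∀ w, Adj u w → w ∈ F) := fun h2 => hu (by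
        exact_mod_cast mem_intF_iff.2 h2)
      push Not at h1
      obtain ⟨w, hw, hwF⟩ := h1 huF
      exact ⟨w, by simpa using hwF, Or.inr hw⟩
    · exact ⟨u, by simpa using huF, Or.inl rfl⟩
  intro u hu v hv
  obtain ⟨u', hu', h1⟩ := key u hu
  obtain ⟨v', hv', h2⟩ := key v hv
  refine ((conn_step hu (hsub hu') h1).trans (conn_mono hsub (h u' hu' v' hv'))).trans ?_
  refine conn_step (hsub hv') hv ?_
  rcases h2 with h2 | h2
  · exact Or.inl h2.symm
  · exact Or.inr (adj_symm' h2)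

theorem corners_adj {t : Tri} {u v : ℤ × ℤ} (hu : u ∈ corners t) (hv : v ∈ corners t) :
    u = v ∨ Adj u v := by
  by_cases h : u = v
  · exact Or.inl h
  · obtain ⟨k, rfl⟩ := exists_nb hu hv h
    exact Or.inr ((adj_iff_nb _ _).2 ⟨k, rfl⟩)

theorem tadj_common {t t' : Tri} (h : TAdj t t') : ∃ s, s ∈ corners t ∧ s ∈ corners t' := by
  obtain ⟨⟨i, j⟩, b⟩ := t
  obtain ⟨⟨p, q⟩, b'⟩ := t'
  have hud : ∀ (i j p q : ℤ), UD (i, j) (p, q) →
      ∃ s, s ∈ corners ((i, j), true) ∧ s ∈ corners ((p, q), false) := by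
    intro i j p q h
    simp only [UD, Prod.mk.injEq] at h
    rcases h with ⟨rfl, rfl⟩ | ⟨rfl, rfl⟩ | ⟨rfl, rfl⟩
    · exact ⟨(p + 1, q), mem_corners_up.2 (by simp), mem_corners_dn.2 (by simp)⟩
    · exact ⟨(i, q), mem_corners_up.2 (by simp), mem_corners_dn.2 (by simp)⟩
    · exact ⟨(p, j), mem_corners_up.2 (by simp), mem_corners_dn.2 (by simp)⟩
  rcases h with ⟨h1, h2, h3⟩ | ⟨h1, h2, h3⟩
  · simp only at h1 h2 h3
    subst h1; subst h2
    exact hud i j p q h3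
  · simp only at h1 h2 h3
    subst h1; subst h2
    obtain ⟨s, hs1, hs2⟩ := hud p q i j h3
    exact ⟨s, hs2, hs1⟩

/-- **Triangles**: the complement of the interior vertices is connected. -/
theorem tri_compl_conn {T : Finset Tri} (h : Conn TAdj ((T : Set Tri)ᶜ)) :
    Conn Adj ((Lam T : Set (ℤ × ℤ))ᶜ) := by
  have hsub : ∀ t ∈ ((T : Set Tri)ᶜ), ∀ s ∈ corners t, s ∈ ((Lam T : Set (ℤ × ℤ))ᶜ) := by
    intro t ht s hs hs'
    obtain ⟨k, rfl⟩ := mem_star.1 hs
    have h2 : s ∈ Lam T := by exact_mod_cast hs'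
    exact ht (by exact_mod_cast mem_Lam.1 h2 k)
  have key : ∀ u ∈ ((Lam T : Set (ℤ × ℤ))ᶜ), ∃ t ∈ ((T : Set Tri)ᶜ), u ∈ corners t := by
    intro u hu
    have h1 : ¬ ∀ k, star u k ∈ T := fun h2 => hu (by exact_mod_cast mem_Lam.2 h2)
    push Not at h1
    obtain ⟨k, hk⟩ := h1
    exact ⟨star u k, by simpa using hk, self_mem_star u k⟩
  -- along a chain of triangles
  have hch : ∀ t t', Relation.ReflTransGen (fun a b => a ∈ ((T : Set Tri)ᶜ) ∧ b ∈ ((T : Set Tri)ᶜ) ∧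
      TAdj a b) t t' → t ∈ ((T : Set Tri)ᶜ) → ∀ u ∈ corners t, ∀ v ∈ corners t',
      Relation.ReflTransGen (fun a b => a ∈ ((Lam T : Set (ℤ × ℤ))ᶜ) ∧
        b ∈ ((Lam T : Set (ℤ × ℤ))ᶜ) ∧ Adj a b) u v := by
    intro t t' hc ht
    induction hc with
    | refl =>
      intro u hu v hv
      exact conn_step (hsub t ht u hu) (hsub t ht v hv) (corners_adj hu hv)
    | tail _ hs ih =>
      intro u hu v hv
      obtain ⟨s, hs1, hs2⟩ := tadj_common hs.2.2
      exact (ih u hu s hs1).trans (conn_step (hsub _ hs.1 s hs1) (hsub _ hs.2.1 v hv)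
        (corners_adj hs2 hv))
  intro u hu v hv
  obtain ⟨t, ht, hut⟩ := key u hu
  obtain ⟨t', ht', hvt'⟩ := key v hv
  exact hch t t' (h t ht t' ht') ht u hut v hvt'

end Crest.Agent.R144.Cov353
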