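import Mathlib
import Crest.Agent.R144.Geo5_268
import Crest.Agent.R144.Geo7_268
import Crest.Agent.R144.Cov_353

/-! R144 (helper268) GEO block, file 8: eventual plain forms of the pairings of the three
statements: weights supported well inside, on free sites. -/

set_option autoImplicit false

noncomputable section

open Set Topology Filter Metric MeasureTheory

namespace Crest.Agent.R144.Geo268

open Crest.ProbabilityR.HexHeights Crest.ProbabilityR.TriHeights Crest.Agent.R144.HexTil353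

/-- test functions for a domain: what the statements give -/
structure Tst (D : Set ℂ) (f : ℂ → ℝ) : Prop where
  cont : Continuous f
  cpt : HasCompactSupport f
  sub : tsupport f ⊆ D

theorem Tst.integrable {D : Set ℂ} {f : ℂ → ℝ} (hf : Tst D f) : Integrable f :=
  hf.cont.integrable_of_hasCompactSupport hf.cpt

theorem Tst.bdd {D : Set ℂ} {f : ℂ → ℝ} (hf : Tst D f) : ∃ M, ∀ z, |f z| ≤ M := by
  obtain ⟨M, hM⟩ := hf.cpt.exists_bound_of_continuous hf.cont
  exact ⟨M, fun z => by simpa using hM z⟩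

/-- the weights vanish away from the support -/
theorem w_support {K : ℝ × ℝ → ℝ} (hK : Ker K) {f : ℂ → ℝ} {r : ℝ} {δ : ℝ} (hδ : 0 ≤ δ)
    (hr : 2 * δ ≤ r) {v : ℤ × ℤ} (hv : wK K δ f v ≠ 0) :
    centre δ v ∈ cthickening r (tsupport f) := by
  by_contra hcon
  apply hv
  apply hK.w_eq_zero hδ
  intro z hz
  by_contra h0
  apply hcon
  have h1 : z ∈ tsupport f := subset_tsupport f h0
  refine mem_cthickening_of_dist_le _ z r _ h1 ?_
  rw [dist_comm, dist_eq_norm]
  exact hz.trans hr

/-- a compact neighbourhood of the support inside `D` -/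
theorem Tst.exists_thick {D : Set ℂ} {f : ℂ → ℝ} (hf : Tst D f) (hD : IsOpen D) :
    ∃ r > 0, IsCompact (cthickening r (tsupport f)) ∧ cthickening r (tsupport f) ⊆ D :=
  Crest.Agent.R144.Cov353.exists_thick hf.cpt hD hf.sub

/-- **S0195**: the pairing in plain form; the weights are eventually supported on interior faces -/
theorem hex_eventually {D : Set ℂ} {γ : ℝ → ℂ} {δ : ℕ → ℝ} {F : ℕ → Finset (ℤ × ℤ)}
    (hD : IsC2JordanDomain D γ) (hA : IsInsideApprox D γ δ F) {f : ℂ → ℝ} (hf : Tst D f) :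
    ∀ᶠ n in atTop, (∀ u, wK hexK (δ n) f u ≠ 0 → u ∈ Crest.Agent.R144.It844.intF (F n)) ∧
      ∀ h : Height (F n), pairing (δ n) f h =
        ∑ u ∈ Crest.Agent.R144.It844.intF (F n), ((Crest.Agent.R144.It844.extF h u : ℤ) : ℝ) *
          wK hexK (δ n) f u := by
  obtain ⟨r, hr, hc, hs⟩ := hf.exists_thick hD.1
  filter_upwards [Crest.Agent.R144.Cov353.hex_sites hD hA hc hs,
    hA.2.1.eventually (gt_mem_nhds (show 0 < r / 2 by positivity))] with n h1 h2
  have hδ := hA.1 n
  have h3 : ∀ u, wK hexK (δ n) f u ≠ 0 → u ∈ Crest.Agent.R144.It844.intF (F n) := fun u hu =>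
    h1 u (w_support ker_hex hδ.le (by linarith) hu)
  refine ⟨h3, fun h => ?_⟩
  rw [pairing_plain hδ]
  have h4 : ∑ u : F n, ((h u : ℤ) : ℝ) * wK hexK (δ n) f u =
      ∑ u ∈ F n, ((Crest.Agent.R144.It844.extF h u : ℤ) : ℝ) * wK hexK (δ n) f u := by
    rw [← Finset.sum_coe_sort (F n)]
    refine Finset.sum_congr rfl fun u _ => ?_
    rw [Crest.Agent.R144.It844.extF_coe]
  rw [h4]
  symm
  refine Finset.sum_subset (fun u hu => (Crest.Agent.R144.It844.mem_intF.1 hu).1) fun u _ hu => ?_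
  have : wK hexK (δ n) f u = 0 := by
    by_contra h5
    exact hu (h3 u h5)
  rw [this, mul_zero]

/-- **S0196, S0197**: the affine pairing in plain form; the weights are eventually supported on
free vertices -/
theorem tri_eventually {D : Set ℂ} {γ : ℝ → ℂ} {θ : ℝ} {δ : ℕ → ℝ} {T : ℕ → Finset Tri}
    {ea eb : ℕ → (ℤ × ℤ) × (ℤ × ℤ)} {c : ℕ → ℝ → ℂ}
    (hD : IsSmoothMarkedDomain D γ θ) (hA : IsMarkedApprox γ θ δ T ea eb c)
    {f : ℂ → ℝ} (hf : Tst D f) :
    ∀ᶠ n in atTop,
      (∀ v, wA (δ n) f v ≠ 0 → v ∈ freeVerts (T n) (arcPlus (δ n) (T n) (c n) θ)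
        (arcMinus (δ n) (T n) (c n) θ)) ∧
      ∀ h : ℤ × ℤ → ℝ, affinePairing (δ n) (T n) f h =
        ∑ v ∈ freeVerts (T n) (arcPlus (δ n) (T n) (c n) θ) (arcMinus (δ n) (T n) (c n) θ),
          h v * wA (δ n) f v := by
  obtain ⟨r, hr, hc, hs⟩ := hf.exists_thick hD.1
  filter_upwards [Crest.Agent.R144.Cov353.tri_cover hD hA hc hs,
    hA.2.1.eventually (gt_mem_nhds (show 0 < r / 2 by positivity))] with n h1 h2
  have hδ := hA.1 n
  have h3 : ∀ v, wA (δ n) f v ≠ 0 → v ∈ freeVerts (T n) (arcPlus (δ n) (T n) (c n) θ)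
        (arcMinus (δ n) (T n) (c n) θ) := fun v hv => by
    rw [mem_free_iff hA n v]
    rw [wA_eq hδ] at hv
    exact h1 (w_support ker_tent hδ.le (by linarith) hv)
  refine ⟨h3, fun h => ?_⟩
  rw [affinePairing_eq hδ (T n) hf.integrable]
  · symm
    refine Finset.sum_subset (fun v hv => (Crest.Agent.R144.Ham560.mem_freeVerts'.1 hv).1)
      fun v _ hv => ?_
    have : wA (δ n) f v = 0 := by
      by_contra h5
      exact hv (h3 v h5)
    rw [this, mul_zero]
  · intro z hz
    have h4 : z ∈ cthickening r (tsupport f) :=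
      self_subset_cthickening _ (subset_tsupport f hz)
    exact interior_subset (h1 h4)

end Crest.Agent.R144.Geo268
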