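import Mathlib
import Crest.Agent.R144.Geo8_268

/-! R144 (helper268) CNT block, file 1: counting lattice points, Riemann sums over the triangular
lattice `centre δ`. -/

set_option autoImplicit false

open Set Topology Filter Metric MeasureTheory

namespace Crest.Agent.R144.Cnt268

open Crest.ProbabilityR.HexHeights Crest.ProbabilityR.TriHeights Crest.Agent.R144.HexTil353
  Crest.Agent.R144.Geo268

/-- volume of one hexagon at mesh `δ` -/
noncomputable def vc (δ : ℝ) : ℝ := Real.sqrt 3 / 2 * δ ^ 2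

theorem vc_pos {δ : ℝ} (hδ : 0 < δ) : 0 < vc δ := by unfold vc; positivity

theorem vc_nonneg (δ : ℝ) : 0 ≤ vc δ := by unfold vc; positivity

theorem cell_volume {δ : ℝ} (hδ : 0 < δ) (u : ℤ × ℤ) : volume.real (cell δ u) = vc δ := by
  have h1 := cell_integral hδ (fun _ => (1 : ℝ)) u
  rw [setIntegral_const, smul_eq_mul, mul_one] at h1
  rw [h1]
  unfold wK vc
  simp only [one_mul]
  rw [ker_hex.mass, mul_one]

theorem finite_ball {δ : ℝ} (hδ : 0 < δ) (p : ℂ) (r : ℝ) :
    {v : ℤ × ℤ | dist (centre δ v) p ≤ r}.Finite := by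
  refine (finite_near hδ p r).subset fun v hv => ?_
  simp only [mem_ofPred_eq] at hv ⊢
  first
    | exact hv
    | (rw [dist_comm]; exact hv)

/-- the lattice points whose centre is within `r` of `p` -/
noncomputable def ballS {δ : ℝ} (hδ : 0 < δ) (p : ℂ) (r : ℝ) : Finset (ℤ × ℤ) :=
  (finite_ball hδ p r).toFinset

theorem mem_ballS {δ : ℝ} {hδ : 0 < δ} {p : ℂ} {r : ℝ} {v : ℤ × ℤ} :
    v ∈ ballS hδ p r ↔ dist (centre δ v) p ≤ r := by
  unfold ballS
  rw [Set.Finite.mem_toFinset, mem_ofPred_eq]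

/-- **counting by area** -/
theorem card_mul_le {δ : ℝ} (hδ : 0 < δ) {S : Finset (ℤ × ℤ)} {A : Set ℂ} (hA : MeasurableSet A)
    (hfin : volume A ≠ ⊤) (h : ∀ v ∈ S, cell δ v ⊆ A) : (S.card : ℝ) * vc δ ≤ volume.real A := by
  have hg : Integrable (A.indicator fun _ => (1 : ℝ)) :=
    (integrable_indicator_iff hA).2 (integrableOn_const hfin)
  have h1 := sum_setIntegral_cell hδ S hg
  have h2 : ∀ u ∈ S, ∫ z in cell δ u, A.indicator (fun _ => (1 : ℝ)) z = vc δ := by
    intro u hu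
    rw [← cell_volume hδ u]
    rw [setIntegral_congr_fun (g := fun _ => (1 : ℝ)) (isClosed_cell δ u).measurableSet
      (fun z hz => indicator_of_mem (h u hu hz) _)]
    rw [setIntegral_const, smul_eq_mul, mul_one]
  rw [Finset.sum_congr rfl h2, Finset.sum_const, nsmul_eq_mul] at h1
  rw [h1]
  calc ∫ z in ⋃ u ∈ S, cell δ u, A.indicator (fun _ => (1 : ℝ)) z
      ≤ ∫ z, A.indicator (fun _ => (1 : ℝ)) z := by
        refine setIntegral_le_integral hg (ae_of_all _ fun z => ?_)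
        exact indicator_nonneg (fun _ _ => zero_le_one) z
    _ = volume.real A := by rw [integral_indicator_const _ hA, smul_eq_mul, mul_one]

theorem cell_subset_ball {δ : ℝ} (hδ : 0 < δ) (v : ℤ × ℤ) :
    cell δ v ⊆ closedBall (centre δ v) δ := fun _ hz =>
  mem_closedBall.2 (Crest.Agent.R144.Cov353.dist_le_cell hδ hz)

theorem volume_real_closedBall (p : ℂ) {r : ℝ} (hr : 0 ≤ r) :
    volume.real (closedBall p r) = Real.pi * r ^ 2 := by
  rw [Measure.real, Complex.volume_closedBall, ENNReal.toReal_mul, ENNReal.toReal_pow,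
    ENNReal.toReal_ofReal hr]
  simp [mul_comm]

/-- **(C6)** number of lattice points in a ball -/
theorem card_ball_le {δ : ℝ} (hδ : 0 < δ) (p : ℂ) {r : ℝ} (hr : 0 ≤ r) {S : Finset (ℤ × ℤ)}
    (hS : ∀ v ∈ S, dist (centre δ v) p ≤ r) : (S.card : ℝ) * vc δ ≤ Real.pi * (r + δ) ^ 2 := by
  rw [← volume_real_closedBall p (by positivity)]
  refine card_mul_le hδ isClosed_closedBall.measurableSet ?_ fun v hv z hz => ?_
  · exact (isCompact_closedBall p _).measure_lt_top.ne
  · have h1 := mem_closedBall.1 (cell_subset_ball hδ v hz)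
    have h2 := dist_triangle z (centre δ v) p
    have h3 := hS v hv
    exact mem_closedBall.2 (by linarith)

theorem card_ballS_le {δ : ℝ} (hδ : 0 < δ) (p : ℂ) {r : ℝ} (hr : 0 ≤ r) :
    ((ballS hδ p r).card : ℝ) * vc δ ≤ Real.pi * (r + δ) ^ 2 :=
  card_ball_le hδ p hr fun _ hv => mem_ballS.1 hv

/-- `#{v ∈ S : |z_v - p| ≤ r} ≤ 4 (r/δ + 1)²` -/
theorem card_ball_le' {δ : ℝ} (hδ : 0 < δ) (p : ℂ) {r : ℝ} (hr : 0 ≤ r) {S : Finset (ℤ × ℤ)}
    (hS : ∀ v ∈ S, dist (centre δ v) p ≤ r) : (S.card : ℝ) ≤ 4 * (r / δ + 1) ^ 2 := by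
  have h1 := card_ball_le hδ p hr hS
  have h2 : Real.pi * (r + δ) ^ 2 ≤ 4 * (r / δ + 1) ^ 2 * vc δ := by
    have h3 : (r + δ) ^ 2 = (r / δ + 1) ^ 2 * δ ^ 2 := by
      rw [← mul_pow, add_mul, div_mul_cancel₀ _ hδ.ne', one_mul]
    rw [h3]
    unfold vc
    have h4 : (1.7 : ℝ) ≤ Real.sqrt 3 := by
      apply Real.le_sqrt_of_sq_le; norm_num
    have h5 : Real.pi ≤ 3.15 := by linarith [Real.pi_lt_d2]
    have h6 : 0 ≤ (r / δ + 1) ^ 2 * δ ^ 2 := by positivity
    nlinarith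
  exact le_of_mul_le_mul_right (h1.trans h2) (vc_pos hδ)

/-! ### Riemann sums -/

/-- accuracy of the weights under a modulus of continuity -/
theorem wK_close {K : ℝ × ℝ → ℝ} (hK : Ker K) {δ : ℝ} (hδ : 0 ≤ δ) {f : ℂ → ℝ} (hf : Continuous f)
    (hf' : ∃ M, ∀ z, |f z| ≤ M) {η : ℝ} {v : ℤ × ℤ}
    (hη : ∀ z, ‖z - centre δ v‖ ≤ 2 * δ → |f z - f (centre δ v)| ≤ η) :
    |wK K δ f v - vc δ * f (centre δ v)| ≤ vc δ * η := by
  have hint := hK.integrable hf hf' (δ := δ) v
  have h0 : f (centre δ v) = ∫ p, f (centre δ v) * K p := by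
    rw [integral_const_mul, hK.mass, mul_one]
  have h1 : wK K δ f v - vc δ * f (centre δ v) =
      vc δ * ∫ p, (f (cen δ (v.1 + p.1) (v.2 + p.2)) - f (centre δ v)) * K p := by
    unfold wK vc
    simp only [sub_mul]
    rw [integral_sub hint (hK.int.const_mul _), ← h0]
    ring
  rw [h1, abs_mul, abs_of_nonneg (vc_nonneg δ)]
  have h2 : ‖∫ p, (f (cen δ (v.1 + p.1) (v.2 + p.2)) - f (centre δ v)) * K p‖ ≤
      ∫ p, η * K p := by
    refine norm_integral_le_of_norm_le (hK.int.const_mul _) (ae_of_all _ fun p => ?_)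
    rw [norm_mul, Real.norm_eq_abs, Real.norm_eq_abs, abs_of_nonneg (hK.nonneg p)]
    by_cases hp : K p = 0
    · simp [hp]
    · exact mul_le_mul_of_nonneg_right (hη _ (hK.near hδ v hp)) (hK.nonneg p)
  rw [integral_const_mul, hK.mass, mul_one, Real.norm_eq_abs] at h2
  exact mul_le_mul_of_nonneg_left h2 (vc_nonneg δ)

/-- the sum over the whole lattice -/
noncomputable def lsum (δ : ℝ) (φ : ℂ → ℝ) : ℝ := ∑' v : ℤ × ℤ, φ (centre δ v)

theorem lsum_eq {δ : ℝ} {φ : ℂ → ℝ} {S : Finset (ℤ × ℤ)}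
    (hS : ∀ v, v ∉ S → φ (centre δ v) = 0) : lsum δ φ = ∑ v ∈ S, φ (centre δ v) :=
  tsum_eq_sum fun v hv => hS v hv

/-- comparison of the Riemann sum with the integral at fixed mesh -/
theorem lsum_close {δ : ℝ} (hδ : 0 < δ) {φ : ℂ → ℝ} (hφ : Continuous φ) {R : ℝ} (hR : 0 ≤ R)
    (hsupp : ∀ z, R < ‖z‖ → φ z = 0) {η : ℝ}
    (hη : ∀ z w, ‖z - w‖ ≤ 2 * δ → |φ z - φ w| ≤ η) :
    |vc δ * lsum δ φ - ∫ z, φ z| ≤ Real.pi * (R + 3 * δ) ^ 2 * η := by
  have hbd : ∃ M, ∀ z, |φ z| ≤ M := by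
    obtain ⟨M, hM⟩ := (isCompact_closedBall (0 : ℂ) R).exists_bound_of_continuousOn
      hφ.continuousOn
    refine ⟨max M 0, fun z => ?_⟩
    by_cases hz : R < ‖z‖
    · rw [hsupp z hz, abs_zero]; exact le_max_right _ _
    · exact (hM z (by rw [mem_closedBall, dist_zero_right]; exact not_lt.1 hz)).trans
        (le_max_left _ _)
  have hcs : HasCompactSupport φ := by
    refine HasCompactSupport.of_support_subset_isCompact (isCompact_closedBall (0 : ℂ) R) ?_
    intro z hz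
    rw [mem_closedBall, dist_zero_right]
    by_contra h
    exact hz (hsupp z (not_le.1 h))
  have hint : Integrable φ := hφ.integrable_of_hasCompactSupport hcs
  set S := ballS hδ 0 (R + 2 * δ) with hS
  have h1 : lsum δ φ = ∑ v ∈ S, φ (centre δ v) := by
    apply lsum_eq
    intro v hv
    apply hsupp
    rw [hS, mem_ballS, dist_zero_right, not_le] at hv
    linarith
  have h2 : ∫ z, φ z = ∑ v ∈ S, wK hexK δ φ v := by
    rw [Finset.sum_congr rfl fun v _ => (cell_integral hδ φ v).symm,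
      sum_setIntegral_cell hδ S hint]
    symm
    refine setIntegral_eq_integral_of_forall_compl_eq_zero fun z hz => ?_
    by_contra h3
    apply hz
    obtain ⟨u, hu⟩ := exists_cell hδ z
    refine mem_iUnion₂.2 ⟨u, ?_, hu⟩
    rw [hS, mem_ballS]
    have h4 : ‖z‖ ≤ R := by
      by_contra h5
      exact h3 (hsupp z (not_le.1 h5))
    have h5 := mem_closedBall.1 (cell_subset_ball hδ u hu)
    have h6 := dist_triangle_left (centre δ u) 0 z
    rw [dist_zero_right z] at h6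
    linarith
  rw [h1, h2, Finset.mul_sum, ← Finset.sum_sub_distrib]
  have hη0 : 0 ≤ η := (abs_nonneg _).trans (hη 0 0 (by simp; exact hδ.le))
  calc |∑ v ∈ S, (vc δ * φ (centre δ v) - wK hexK δ φ v)|
      ≤ ∑ v ∈ S, |vc δ * φ (centre δ v) - wK hexK δ φ v| := Finset.abs_sum_le_sum_abs _ _
    _ ≤ ∑ _v ∈ S, vc δ * η := by
        refine Finset.sum_le_sum fun v _ => ?_
        rw [abs_sub_comm]
        exact wK_close ker_hex hδ.le hφ hbd fun z hz => hη _ _ hz
    _ = (S.card * vc δ) * η := by rw [Finset.sum_const, nsmul_eq_mul]; ring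
    _ ≤ (Real.pi * (R + 3 * δ) ^ 2) * η := by
        refine mul_le_mul_of_nonneg_right ?_ hη0
        have := card_ballS_le hδ 0 (r := R + 2 * δ) (by positivity)
        calc _ ≤ _ := this
          _ = _ := by ring

/-- **(C1)** Riemann sums over the lattice -/
theorem lsum_tendsto {δ : ℕ → ℝ} (hpos : ∀ n, 0 < δ n) (hlim : Tendsto δ atTop (𝓝 0))
    {φ : ℂ → ℝ} (hφ : Continuous φ) (hcs : HasCompactSupport φ) :
    Tendsto (fun n => vc (δ n) * lsum (δ n) φ) atTop (𝓝 (∫ z, φ z)) := by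
  obtain ⟨R, hR⟩ := hcs.isCompact.isBounded.subset_closedBall (0 : ℂ)
  set R' := max R 0 with hR'
  have hR0 : 0 ≤ R' := le_max_right _ _
  have hsupp : ∀ z, R' < ‖z‖ → φ z = 0 := by
    intro z hz
    by_contra h
    have h1 := hR (subset_tsupport φ h)
    rw [mem_closedBall, dist_zero_right] at h1
    have : R ≤ R' := le_max_left _ _
    linarith
  have huc : UniformContinuous φ := hcs.uniformContinuous_of_continuous hφ
  rw [Metric.tendsto_atTop']
  intro ε hε
  set C := Real.pi * (R' + 3) ^ 2 + 1 with hC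
  have hCpos : 0 < C := by positivity
  obtain ⟨ρ, hρ, huc'⟩ := Metric.uniformContinuous_iff.1 huc (ε / (2 * C)) (by positivity)
  have h1 := hlim.eventually (gt_mem_nhds (show 0 < min 1 (ρ / 4) by positivity))
  obtain ⟨n0, hn0⟩ := eventually_atTop.1 h1
  refine ⟨n0, fun n hn => ?_⟩
  have h2 := hn0 n hn.le
  have h3 : δ n < 1 := h2.trans_le (min_le_left _ _)
  have h4 : δ n < ρ / 4 := h2.trans_le (min_le_right _ _)
  have hδ := hpos n
  have h5 := lsum_close hδ hφ hR0 hsupp (η := ε / (2 * C)) fun z w hzw => by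
    have : dist z w < ρ := by rw [dist_eq_norm]; linarith
    have h6 := huc' this
    rw [Real.dist_eq] at h6
    exact h6.le
  rw [Real.dist_eq]
  refine h5.trans_lt ?_
  have h6 : Real.pi * (R' + 3 * δ n) ^ 2 ≤ C := by
    have : (R' + 3 * δ n) ^ 2 ≤ (R' + 3) ^ 2 := by
      apply pow_le_pow_left₀ (by positivity); linarith
    have h7 := mul_le_mul_of_nonneg_left this Real.pi_pos.le
    linarith
  calc Real.pi * (R' + 3 * δ n) ^ 2 * (ε / (2 * C)) ≤ C * (ε / (2 * C)) :=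
        mul_le_mul_of_nonneg_right h6 (by positivity)
    _ = ε / 2 := by field_simp
    _ < ε := by linarith

theorem lsum_tendsto' {δ : ℕ → ℝ} (hpos : ∀ n, 0 < δ n) (hlim : Tendsto δ atTop (𝓝 0))
    {φ : ℂ → ℝ} (hφ : Continuous φ) (hcs : HasCompactSupport φ) :
    Tendsto (fun n => δ n ^ 2 * lsum (δ n) φ) atTop (𝓝 (2 / Real.sqrt 3 * ∫ z, φ z)) := by
  have h1 := (lsum_tendsto hpos hlim hφ hcs).const_mul (2 / Real.sqrt 3)
  refine h1.congr fun n => ?_
  unfold vc
  have : Real.sqrt 3 ≠ 0 := by positivity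
  field_simp

end Crest.Agent.R144.Cnt268
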