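import Crest.Agent.R144.Geo3_268

/-!
# R144 (helper549): the segment property of `C¹` Jordan domains

Near every boundary point there is a direction `ν` such that `z + t ν ∈ D` for all `z ∈ closure D` near
the point and all small `t > 0`.
-/

set_option autoImplicit false

open Set Topology Filter Metric

namespace Crest.Agent.R144.Seg549

open Crest.Agent.R144.Geo268

variable {D : Set ℂ} {γ : ℝ → ℂ}

/-- oriented cone condition -/
theorem cone (h : Dom D γ) : ∃ σ : ℝ, (σ = 1 ∨ σ = -1) ∧ ∀ s : ℝ, ∃ δ > 0, ∀ ζ : ℂ,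
    ‖ζ‖ < δ → |ζ.re| < 3 * ζ.im →
      γ s + deriv γ s * (σ * ζ) ∈ D ∧ γ s - deriv γ s * (σ * ζ) ∉ D := by
  obtain ⟨v, hv, h1 | h1⟩ := h.main
  · refine ⟨1, Or.inl rfl, fun s => ?_⟩
    obtain ⟨l⟩ := h.reg.exists_loc s one_pos
    have hvl := hv s 1 l
    have hR : ∀ z ∈ l.R, z ∉ D := fun z hz hzD => by
      have h2 := l.wR z hz
      rw [hvl, h1.1, h1.2 z hzD] at h2
      have := Real.pi_pos
      linarith
    have hL : l.L ⊆ D := by
      rcases h.side l with h2 | h2
      · exact h2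
      · exact absurd (h2 (Dom.R_mem l)) (hR _ (Dom.R_mem l))
    refine ⟨l.δ, l.δpos, fun ζ hζ hc => ⟨?_, ?_⟩⟩
    · have := hL (l.coneL ζ hζ hc)
      simpa using this
    · have h3 := hR _ (l.coneR (-ζ) (by rwa [norm_neg]) (by
        rw [Complex.neg_re, Complex.neg_im, abs_neg]; linarith))
      intro h4
      refine h3 ?_
      convert h4 using 1
      push_cast
      ring
  · refine ⟨-1, Or.inr rfl, fun s => ?_⟩
    obtain ⟨l⟩ := h.reg.exists_loc s one_pos
    have hvl := hv s 1 l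
    have hL : ∀ z ∈ l.L, z ∉ D := fun z hz hzD => by
      have h2 := l.wL z hz
      rw [hvl, h1.1, h1.2 z hzD] at h2
      have := Real.pi_pos
      linarith
    have hR : l.R ⊆ D := by
      rcases h.side l with h2 | h2
      · exact absurd (h2 (Dom.L_mem l)) (hL _ (Dom.L_mem l))
      · exact h2
    refine ⟨l.δ, l.δpos, fun ζ hζ hc => ⟨?_, ?_⟩⟩
    · have h3 := hR (l.coneR (-ζ) (by rwa [norm_neg]) (by
        rw [Complex.neg_re, Complex.neg_im, abs_neg]; linarith))
      convert h3 using 1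
      push_cast
      ring
    · have h3 := hL _ (l.coneL ζ hζ hc)
      intro h4
      refine h3 ?_
      convert h4 using 1
      push_cast
      ring

/-- boundary points near `γ s₀` have parameters with almost the same tangent -/
theorem nearby (h : Dom D γ) (s0 : ℝ) : ∃ ρ > 0, ∀ p' ∈ frontier D, p' ∈ ball (γ s0) ρ →
    ∃ s, γ s = p' ∧ ‖deriv γ s0 / deriv γ s - 1‖ < 1 / 2 := by
  have hpi := Real.pi_pos
  have hfc : Continuous fun s => ‖deriv γ s0 / deriv γ s - 1‖ :=
    ((continuous_const.div h.reg.contDeriv h.reg.reg).sub continuous_const).norm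
  set A : Set ℝ := Icc (s0 - Real.pi) (s0 + Real.pi) ∩ {s | 1 / 2 ≤ ‖deriv γ s0 / deriv γ s - 1‖}
    with hA
  have hAc : IsCompact A := isCompact_Icc.inter_right (isClosed_le continuous_const hfc)
  have hKc : IsCompact (γ '' A) := hAc.image h.reg.cur.cont
  have hn : γ s0 ∉ γ '' A := by
    rintro ⟨s, ⟨hs1, hs2⟩, hs3⟩
    obtain ⟨k, hk⟩ := inj_mod h.reg.per h.reg.inj hs3
    have hk0 : k = 0 := by
      by_contra hk0
      have h1 : (1 : ℝ) ≤ |(k : ℝ)| := by
        rw [← Int.cast_abs]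
        exact_mod_cast Int.one_le_abs hk0
      have h2 : |s - s0| ≤ Real.pi := by
        rw [abs_le]
        constructor <;> linarith [hs1.1, hs1.2]
      have h3 : |s - s0| = |(k : ℝ)| * (2 * Real.pi) := by
        rw [hk, add_sub_cancel_left, abs_mul, abs_of_pos (by positivity : (0 : ℝ) < 2 * Real.pi)]
      rw [h3] at h2
      nlinarith
    rw [hk0] at hk
    simp only [Int.cast_zero, zero_mul, add_zero] at hk
    rw [hk] at hs2
    simp only [Set.mem_ofPred_eq] at hs2
    rw [div_self (h.reg.reg s0), sub_self, norm_zero] at hs2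
    norm_num at hs2
  obtain ⟨ρ, hρ, hb⟩ := Metric.isOpen_iff.1 hKc.isClosed.isOpen_compl (γ s0) hn
  refine ⟨ρ, hρ, fun p' hp' hpb => ?_⟩
  rw [← h.fr] at hp'
  obtain ⟨s', rfl⟩ := hp'
  obtain ⟨s, hs, hss⟩ := h.reg.per.exists_mem_Ico (by positivity) s' (s0 - Real.pi)
  refine ⟨s, hss.symm, ?_⟩
  by_contra hcon
  rw [not_lt] at hcon
  refine hb hpb ⟨s, ⟨⟨hs.1, ?_⟩, hcon⟩, hss.symm⟩
  have := hs.2
  linarith

/-- a common transversal direction at all boundary points near `γ s₀` -/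
theorem bdry_dir (h : Dom D γ) (s0 : ℝ) : ∃ (ν : ℂ) (ρ : ℝ), 0 < ρ ∧ ∀ p' ∈ frontier D,
    p' ∈ ball (γ s0) ρ → ∃ δ > 0, ∀ t : ℝ, 0 < t → t < δ → p' + t * ν ∈ D ∧ p' - t * ν ∉ D := by
  obtain ⟨σ, hσ, hcone⟩ := cone h
  obtain ⟨ρ, hρ, hnear⟩ := nearby h s0
  refine ⟨σ * Complex.I * deriv γ s0, ρ, hρ, fun p' hp' hpb => ?_⟩
  obtain ⟨s, rfl, hs⟩ := hnear p' hp' hpb
  obtain ⟨δ, hδ, hc⟩ := hcone s
  set q := deriv γ s0 / deriv γ s with hq
  have hre : 1 / 2 < q.re := by
    have h1 := (Complex.abs_re_le_norm (q - 1)).trans_lt hs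
    rw [Complex.sub_re, Complex.one_re, abs_lt] at h1
    linarith [h1.1]
  have him : |q.im| < 1 / 2 := by
    have h1 := (Complex.abs_im_le_norm (q - 1)).trans_lt hs
    rwa [Complex.sub_im, Complex.one_im, sub_zero] at h1
  have hnq : ‖q‖ ≤ 2 := by
    calc ‖q‖ = ‖(q - 1) + 1‖ := by rw [sub_add_cancel]
      _ ≤ ‖q - 1‖ + ‖(1 : ℂ)‖ := norm_add_le _ _
      _ ≤ 2 := by rw [norm_one]; linarith
  refine ⟨δ / 2, by positivity, fun t ht htδ => ?_⟩
  set ζ : ℂ := (t : ℂ) * Complex.I * q with hζ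
  have hn : ‖ζ‖ < δ := by
    rw [hζ, norm_mul, norm_mul, Complex.norm_I, mul_one, Complex.norm_real, Real.norm_eq_abs,
      abs_of_pos ht]
    nlinarith [norm_nonneg q]
  have hζre : ζ.re = -(t * q.im) := by
    rw [hζ]
    simp
  have hζim : ζ.im = t * q.re := by
    rw [hζ]
    simp
  have hcz : |ζ.re| < 3 * ζ.im := by
    rw [hζre, hζim, abs_neg, abs_mul, abs_of_pos ht]
    nlinarith
  have hreg : deriv γ s ≠ 0 := h.reg.reg s
  have he : deriv γ s * (σ * ζ) = t * (σ * Complex.I * deriv γ s0) := by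
    rw [hζ, hq]
    field_simp
  have := hc ζ hn hcz
  rwa [he] at this

/-- **segment property** -/
theorem seg (h : Dom D γ) {p : ℂ} (hp : p ∈ frontier D) : ∃ (ν : ℂ) (ρ t0 : ℝ), 0 < ρ ∧ 0 < t0 ∧
    ∀ z ∈ closure D, z ∈ ball p ρ → ∀ t : ℝ, 0 < t → t < t0 → z + t * ν ∈ D := by
  have hp' := hp
  rw [← h.fr] at hp'
  obtain ⟨s0, rfl⟩ := hp'
  obtain ⟨ν, ρ, hρ, hd⟩ := bdry_dir h s0
  have hν : 0 < ‖ν‖ + 1 := by positivity
  have hstep : ∀ z ∈ D, z ∈ ball (γ s0) (ρ / 2) → ∀ t : ℝ, 0 ≤ t → t < ρ / 2 / (‖ν‖ + 1) →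
      z + t * ν ∈ D := by
    intro z hz hzb t ht htt
    by_contra hcon
    set T : Set ℝ := Icc 0 t ∩ {r | z + r * ν ∉ D} with hT
    have hTc : IsCompact T := by
      refine isCompact_Icc.inter_right ?_
      have : IsClosed ((fun r : ℝ => z + r * ν) ⁻¹' Dᶜ) :=
        (h.op.isClosed_compl).preimage (by fun_prop)
      exact this
    have hTn : T.Nonempty := ⟨t, ⟨ht, le_rfl⟩, hcon⟩
    have hmem := hTc.sInf_mem hTn
    set r := sInf T with hr
    have hr0 : 0 < r := by
      rcases hmem.1.1.eq_or_lt with h1 | h1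
      · exfalso
        have h2 := hmem.2
        rw [← h1] at h2
        simp only [Complex.ofReal_zero, zero_mul, add_zero, Set.mem_ofPred_eq] at h2
        exact h2 hz
      · exact h1
    have hlow : ∀ r' : ℝ, 0 ≤ r' → r' < r → z + r' * ν ∈ D := by
      intro r' h1 h2
      by_contra h3
      have h4 : r' ∈ T := ⟨⟨h1, h2.le.trans hmem.1.2⟩, h3⟩
      exact absurd (csInf_le hTc.bddBelow h4) (not_le.2 h2)
    have hpf : z + r * ν ∈ frontier D := by
      rw [frontier, h.op.interior_eq]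
      refine ⟨?_, hmem.2⟩
      rw [mem_closure_iff_seq_limit]
      refine ⟨fun n => z + ((r - r / (n + 1) : ℝ) : ℂ) * ν, fun n => hlow _ ?_ ?_, ?_⟩
      · have : r / (n + 1) ≤ r := by
          rw [div_le_iff₀ (by positivity)]
          nlinarith [(Nat.cast_nonneg n : (0 : ℝ) ≤ n)]
        linarith
      · have : 0 < r / (n + 1) := by positivity
        linarith
      · have h1 : Tendsto (fun n : ℕ => r - r / ((n : ℝ) + 1)) atTop (𝓝 (r - 0)) := by
          refine tendsto_const_nhds.sub ?_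
          have := (tendsto_one_div_add_atTop_nhds_zero_nat (𝕜 := ℝ)).const_mul r
          simpa [div_eq_mul_inv] using this
        rw [sub_zero] at h1
        have h2 : Continuous fun x : ℝ => z + (x : ℂ) * ν := by fun_prop
        exact (h2.tendsto r).comp h1
    have hball : z + r * ν ∈ ball (γ s0) ρ := by
      rw [mem_ball, dist_eq_norm] at hzb ⊢
      have h1 : ‖(r : ℂ) * ν‖ ≤ t * ‖ν‖ := by
        rw [norm_mul, Complex.norm_real, Real.norm_eq_abs, abs_of_pos hr0]
        exact mul_le_mul_of_nonneg_right hmem.1.2 (norm_nonneg _)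
      have h2 : t * ‖ν‖ < ρ / 2 := by
        rw [lt_div_iff₀ hν] at htt
        nlinarith [norm_nonneg ν]
      calc ‖z + r * ν - γ s0‖ = ‖(z - γ s0) + r * ν‖ := by ring_nf
        _ ≤ ‖z - γ s0‖ + ‖(r : ℂ) * ν‖ := norm_add_le _ _
        _ < ρ := by linarith
    obtain ⟨δ, hδ, hdd⟩ := hd _ hpf hball
    set x := min (δ / 2) (r / 2) with hx
    have hx0 : 0 < x := lt_min (by positivity) (by positivity)
    have hxδ : x < δ := (min_le_left _ _).trans_lt (by linarith)
    have hxr : x < r := (min_le_right _ _).trans_lt (by linarith)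
    have h1 := (hdd x hx0 hxδ).2
    have h2 := hlow (r - x) (by linarith) (by linarith)
    refine h1 ?_
    convert h2 using 1
    push_cast
    ring
  refine ⟨ν, ρ / 2, ρ / 2 / (‖ν‖ + 1), by positivity, by positivity, fun z hz hzb t ht htt => ?_⟩
  by_cases hzD : z ∈ D
  · exact hstep z hzD hzb t ht.le htt
  · have hzf : z ∈ frontier D := by
      rw [frontier, h.op.interior_eq]
      exact ⟨hz, hzD⟩
    obtain ⟨δ, hδ, hdd⟩ := hd z hzf (ball_subset_ball (by linarith) hzb)
    -- move a little inside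
    obtain ⟨η, hη, hηb⟩ := Metric.isOpen_iff.1 (isOpen_ball (x := γ s0) (ε := ρ / 2)) z hzb
    set x := min (min (δ / 2) (t / 2)) (η / (2 * (‖ν‖ + 1))) with hx
    have hx0 : 0 < x := lt_min (lt_min (by positivity) (by positivity)) (by positivity)
    have hxδ : x < δ := ((min_le_left _ _).trans (min_le_left _ _)).trans_lt (by linarith)
    have hxt : x < t := ((min_le_left _ _).trans (min_le_right _ _)).trans_lt (by linarith)
    have hxη : x ≤ η / (2 * (‖ν‖ + 1)) := min_le_right _ _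
    have hzb' : z + x * ν ∈ ball (γ s0) (ρ / 2) := by
      refine hηb ?_
      rw [mem_ball, dist_eq_norm, add_sub_cancel_left, norm_mul, Complex.norm_real,
        Real.norm_eq_abs, abs_of_pos hx0]
      rw [le_div_iff₀ (by positivity)] at hxη
      nlinarith [norm_nonneg ν]
    have h1 := hstep _ (hdd x hx0 hxδ).1 hzb' (t - x) (by linarith) (by linarith)
    convert h1 using 1
    push_cast
    ring

/-- the frontier is a null set -/
theorem volume_frontier (h : Dom D γ) : MeasureTheory.volume (frontier D) = 0 := by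
  rw [← h.fr]
  set G : ℂ → ℂ := fun z => γ z.re with hG
  have h1 : range γ = G '' univ := by
    ext w
    constructor
    · rintro ⟨s, rfl⟩
      exact ⟨(s : ℂ), mem_univ _, by simp [hG]⟩
    · rintro ⟨z, -, rfl⟩
      exact ⟨z.re, rfl⟩
  rw [h1]
  have h2 : ∀ z ∈ (univ : Set ℂ), HasFDerivWithinAt G
      (Complex.reCLM.smulRight (deriv γ z.re) : ℂ →L[ℝ] ℂ) univ z := by
    intro z _
    have h3 : HasDerivAt γ (deriv γ z.re) z.re := (h.reg.diff z.re).hasDerivAt
    have h4 : HasFDerivAt G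
        ((ContinuousLinearMap.toSpanSingleton ℝ (deriv γ z.re)).comp Complex.reCLM) z :=
      h3.hasFDerivAt.comp z Complex.reCLM.hasFDerivAt
    have h5 : ((ContinuousLinearMap.toSpanSingleton ℝ (deriv γ z.re)).comp Complex.reCLM :
        ℂ →L[ℝ] ℂ) = Complex.reCLM.smulRight (deriv γ z.re) := by
      ext v <;> simp
    rw [h5] at h4
    exact h4.hasFDerivWithinAt
  refine MeasureTheory.addHaar_image_eq_zero_of_det_fderivWithin_eq_zero MeasureTheory.volume h2
    fun z _ => ?_
  rw [ContinuousLinearMap.det, ← LinearMap.det_toMatrix Complex.basisOneI, Matrix.det_fin_two]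
  simp [LinearMap.toMatrix_apply]

end Crest.Agent.R144.Seg549
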