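import Mathlib
import Crest.Agent.R144.Cnt1_268
import Crest.Agent.R144.Seg_549

/-! R144 (helper268) CNT block, file 2: counting in the free sets of the approximating domains. -/

set_option autoImplicit false

open Set Topology Filter Metric MeasureTheory

namespace Crest.Agent.R144.Cnt268

open Crest.ProbabilityR.HexHeights Crest.ProbabilityR.TriHeights Crest.Agent.R144.HexTil353
  Crest.Agent.R144.Geo268

/-- finite sets of sites approximating a bounded open set with null frontier -/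
structure Sites (D : Set ℂ) (δ : ℕ → ℝ) (S : ℕ → Finset (ℤ × ℤ)) : Prop where
  opn : IsOpen D
  bdd : Bornology.IsBounded D
  nul : volume (frontier D) = 0
  pos : ∀ n, 0 < δ n
  lim : Tendsto δ atTop (𝓝 0)
  inn : ∀ K, IsCompact K → K ⊆ D → ∀ᶠ n in atTop, ∀ v, centre (δ n) v ∈ K → v ∈ S n
  out : ∀ ε > 0, ∀ᶠ n in atTop, ∀ v ∈ S n, centre (δ n) v ∈ cthickening ε D

variable {D : Set ℂ} {δ : ℕ → ℝ} {S : ℕ → Finset (ℤ × ℤ)}

theorem Sites.small (h : Sites D δ S) {ε : ℝ} (hε : 0 < ε) : ∀ᶠ n in atTop, δ n < ε :=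
  h.lim.eventually (gt_mem_nhds hε)

theorem Sites.compact_cth (h : Sites D δ S) (ε : ℝ) : IsCompact (cthickening ε D) :=
  isCompact_of_isClosed_isBounded isClosed_cthickening (h.bdd.cthickening)

theorem Sites.volume_ne_top (h : Sites D δ S) : volume D ≠ ⊤ := h.bdd.measure_lt_top.ne

theorem Sites.volume_closure (h : Sites D δ S) : volume (closure D) = volume D := by
  refine le_antisymm ?_ (measure_mono subset_closure)
  rw [closure_eq_self_union_frontier]
  exact (measure_union_le _ _).trans (by rw [h.nul, add_zero])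

/-- the collar is small in area -/
theorem Sites.exists_collar (h : Sites D δ S) {η : ℝ} (hη : 0 < η) :
    ∃ ε > 0, volume.real (cthickening ε D) ≤ volume.real D + η := by
  have h1 : Tendsto (fun r => volume (cthickening r D)) (𝓝 0) (𝓝 (volume (closure D))) :=
    tendsto_measure_cthickening ⟨1, one_pos, (h.compact_cth 1).measure_lt_top.ne⟩
  rw [h.volume_closure] at h1
  have h2 := (ENNReal.tendsto_toReal h.volume_ne_top).comp h1
  have h3 : ∀ᶠ r in 𝓝 (0 : ℝ), volume.real (cthickening r D) < volume.real D + η :=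
    h2.eventually (gt_mem_nhds (show (volume D).toReal < volume.real D + η by
      rw [Measure.real]; linarith))
  obtain ⟨ε, hε, h4⟩ := Metric.eventually_nhds_iff.1 h3
  refine ⟨ε / 2, by positivity, (h4 (y := ε / 2) ?_).le⟩
  rw [Real.dist_eq, sub_zero, abs_of_pos (by positivity)]
  linarith

/-- compact exhaustion in area -/
theorem Sites.exists_compact (h : Sites D δ S) {η : ℝ} (hη : 0 < η) :
    ∃ K, IsCompact K ∧ K ⊆ D ∧ volume.real D ≤ volume.real K + η := by
  obtain ⟨K, hK, hKc, h1⟩ := h.opn.measurableSet.exists_isCompact_lt_add h.volume_ne_top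
    (ENNReal.ofReal_pos.2 hη).ne'
  refine ⟨K, hKc, hK, ?_⟩
  have h2 := ENNReal.toReal_mono (ENNReal.add_ne_top.2 ⟨hKc.measure_lt_top.ne,
    ENNReal.ofReal_ne_top⟩) h1.le
  rw [ENNReal.toReal_add hKc.measure_lt_top.ne ENNReal.ofReal_ne_top,
    ENNReal.toReal_ofReal hη.le] at h2
  exact h2

/-- **layer lemma**: few sites outside a large compact subset of `D` -/
theorem Sites.layer (h : Sites D δ S) {η : ℝ} (hη : 0 < η) :
    ∃ K, IsCompact K ∧ K ⊆ D ∧ volume.real D ≤ volume.real K + η ∧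
      ∀ᶠ n in atTop, ∀ S' ⊆ S n, (∀ v ∈ S', centre (δ n) v ∉ K) →
        (S'.card : ℝ) * vc (δ n) ≤ η := by
  obtain ⟨K0, hK0c, hK0, hv0⟩ := h.exists_compact (show 0 < η / 2 by positivity)
  obtain ⟨ε, hε, hcol⟩ := h.exists_collar (show 0 < η / 2 by positivity)
  obtain ⟨r, hr, hrc, hrs⟩ := Crest.Agent.R144.Cov353.exists_thick hK0c h.opn hK0
  refine ⟨cthickening r K0, hrc, hrs, ?_, ?_⟩
  · have h1 : volume.real K0 ≤ volume.real (cthickening r K0) :=
      measureReal_mono (self_subset_cthickening K0) hrc.measure_lt_top.ne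
    linarith
  · filter_upwards [h.out (ε / 2) (by positivity), h.small (show 0 < min (ε / 2) r by positivity)]
      with n hout hsm S' hS' hK'
    have h1 : δ n < ε / 2 := hsm.trans_le (min_le_left _ _)
    have h2 : δ n < r := hsm.trans_le (min_le_right _ _)
    have h3 : ∀ v ∈ S', cell (δ n) v ⊆ cthickening ε D \ K0 := by
      intro v hv z hz
      have h4 := mem_closedBall.1 (cell_subset_ball (h.pos n) v hz)
      constructor
      · have h5 := hout v (hS' hv)
        have h6 : z ∈ cthickening (ε / 2 + ε / 2) D := by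
          refine cthickening_cthickening_subset (by positivity) (by positivity) D ?_
          exact mem_cthickening_of_dist_le z _ _ _ h5 (by linarith)
        rwa [add_halves] at h6
      · intro h5
        refine hK' v hv (mem_cthickening_of_dist_le _ z r K0 h5 ?_)
        rw [dist_comm]
        linarith
    have h4 := card_mul_le (h.pos n) (isClosed_cthickening.measurableSet.diff
      hK0c.measurableSet) (ne_top_of_le_ne_top (h.compact_cth ε).measure_lt_top.ne
        (measure_mono sdiff_subset)) h3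
    refine h4.trans ?_
    have h5 : K0 ⊆ cthickening ε D := hK0.trans (self_subset_cthickening D)
    rw [measureReal_sdiff h5 hK0c.measurableSet (h.compact_cth ε).measure_lt_top.ne]
    linarith

/-- **(C5)** sites over a compact set have their whole `L`-box in `S n` -/
theorem Sites.box (h : Sites D δ S) {K : Set ℂ} (hK : IsCompact K) (hKD : K ⊆ D) (L : ℕ) :
    ∀ᶠ n in atTop, ∀ v, centre (δ n) v ∈ K → ∀ w : ℤ × ℤ, |w.1 - v.1| ≤ L → |w.2 - v.2| ≤ L →
      w ∈ S n := by
  obtain ⟨r, hr, hrc, hrs⟩ := Crest.Agent.R144.Cov353.exists_thick hK h.opn hKD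
  filter_upwards [h.inn _ hrc hrs, h.small (show 0 < r / (2 * (L + 1)) by positivity)]
    with n h1 h2 v hv w hw1 hw2
  refine h1 w (mem_cthickening_of_dist_le _ _ r K hv ?_)
  have h3 := dist_centre_sq (δ n) w v
  have h4 : (((v.1 - w.1) ^ 2 + (v.1 - w.1) * (v.2 - w.2) + (v.2 - w.2) ^ 2 : ℤ) : ℝ) ≤
      (2 * (L + 1)) ^ 2 := by
    have h5 : |((w.1 - v.1 : ℤ) : ℝ)| ≤ L := by exact_mod_cast hw1
    have h6 : |((w.2 - v.2 : ℤ) : ℝ)| ≤ L := by exact_mod_cast hw2
    push_cast at h5 h6 ⊢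
    rw [abs_le] at h5 h6
    obtain ⟨a1, a2⟩ := h5
    obtain ⟨b1, b2⟩ := h6
    nlinarith [mul_nonneg (sub_nonneg.2 a2) (sub_nonneg.2 b2),
      mul_nonneg (by linarith : (0:ℝ) ≤ w.1 - v.1 + L) (by linarith : (0:ℝ) ≤ w.2 - v.2 + L),
      mul_nonneg (by linarith : (0:ℝ) ≤ w.1 - v.1 + L) (sub_nonneg.2 a2),
      mul_nonneg (by linarith : (0:ℝ) ≤ w.2 - v.2 + L) (sub_nonneg.2 b2),
      mul_nonneg (by linarith : (0:ℝ) ≤ w.1 - v.1 + L) (sub_nonneg.2 b2),
      mul_nonneg (by linarith : (0:ℝ) ≤ w.2 - v.2 + L) (sub_nonneg.2 a2)]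
  have h5 : dist (centre (δ n) w) (centre (δ n) v) ^ 2 ≤ (δ n * (2 * (L + 1))) ^ 2 := by
    rw [h3, mul_pow]
    exact mul_le_mul_of_nonneg_left h4 (by positivity)
  have h6 : dist (centre (δ n) w) (centre (δ n) v) ≤ δ n * (2 * (L + 1)) :=
    le_of_sq_le_sq h5 (by have := h.pos n; positivity)
  refine h6.trans ?_
  rw [lt_div_iff₀ (by positivity)] at h2
  exact h2.le

/-- **(C4)** few sites near the complement -/
theorem Sites.near (h : Sites D δ S) (L : ℕ) {η : ℝ} (hη : 0 < η) :
    ∀ᶠ n in atTop, ∀ S' ⊆ S n,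
      (∀ v ∈ S', ∃ w : ℤ × ℤ, w ∉ S n ∧ |w.1 - v.1| ≤ L ∧ |w.2 - v.2| ≤ L) →
        (S'.card : ℝ) * vc (δ n) ≤ η := by
  obtain ⟨K, hK, hKD, -, h1⟩ := h.layer hη
  filter_upwards [h1, h.box hK hKD L] with n h2 h3 S' hS' hw
  refine h2 S' hS' fun v hv hvK => ?_
  obtain ⟨w, hw1, hw2, hw3⟩ := hw v hv
  exact hw1 (h3 v hvK w hw2 hw3)

/-- **(C2)** Riemann sums over the free set -/
theorem Sites.riemann (h : Sites D δ S) {φ : ℂ → ℝ} (hφ : Continuous φ) :
    Tendsto (fun n => vc (δ n) * ∑ v ∈ S n, φ (centre (δ n) v)) atTop (𝓝 (∫ z in D, φ z)) := by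
  classical
  obtain ⟨M, hM⟩ := (h.compact_cth 1).exists_bound_of_continuousOn hφ.continuousOn
  set M' := max M 0 + 1 with hM'
  have hM0 : 0 < M' := by positivity
  have hMb : ∀ z ∈ cthickening 1 D, |φ z| ≤ M' := fun z hz =>
    ((hM z hz).trans (le_max_left _ _)).trans (by linarith)
  have hDint : IntegrableOn φ D := by
    refine (hφ.continuousOn.integrableOn_compact (h.compact_cth 1)).mono_set ?_
    exact self_subset_cthickening D
  rw [Metric.tendsto_atTop']
  intro ε hε
  set η := ε / (4 * M') with hη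
  have hηpos : 0 < η := by positivity
  obtain ⟨K, hK, hKD, hvol, hlay⟩ := h.layer hηpos
  -- cut-off
  obtain ⟨χ, hχ1, hχ2, hχc, hχs⟩ : ∃ χ : ℂ → ℝ, Continuous χ ∧ HasCompactSupport χ ∧
      (∀ z ∈ K, χ z = 1) ∧ (tsupport χ ⊆ D) ∧ ∀ z, 0 ≤ χ z ∧ χ z ≤ 1 := by
    obtain ⟨r, hr, hrc, hrs⟩ := Crest.Agent.R144.Cov353.exists_thick hK h.opn hKD
    have hd : Disjoint (closure (cthickening r K)ᶜ) K := by
      have h3 : closure (cthickening r K)ᶜ ⊆ (thickening r K)ᶜ := by
        refine closure_minimal ?_ isOpen_thickening.isClosed_compl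
        exact compl_subset_compl.2 (thickening_subset_cthickening r K)
      refine Disjoint.mono_left h3 ?_
      rw [disjoint_compl_left_iff_subset]
      exact self_subset_thickening hr K
    obtain ⟨g, hg0, hg1, hg⟩ := exists_continuous_zero_one_of_isClosed isClosed_closure
      hK.isClosed hd
    have hsup : tsupport g ⊆ cthickening r K := by
      refine closure_minimal ?_ isClosed_cthickening
      intro z hz
      by_contra h4
      exact hz (hg0 (subset_closure h4))
    refine ⟨g, g.continuous, ?_, fun z hz => hg1 hz, hsup.trans hrs, fun z => hg z⟩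
    exact hrc.of_isClosed_subset (isClosed_tsupport _) hsup
  have hχs' := hχs.1
  have hχ01 := hχs.2
  -- the compactly supported part
  have hc1 : Continuous fun z => χ z * φ z := hχ1.mul hφ
  have hc2 : HasCompactSupport fun z => χ z * φ z := hχ2.mul_right
  have hT := lsum_tendsto h.pos h.lim hc1 hc2
  have hT' := (Metric.tendsto_atTop'.1 hT) (ε / 4) (by positivity)
  have hsub : tsupport (fun z => χ z * φ z) ⊆ D :=
    (tsupport_mul_subset_left (f := χ) (g := φ)).trans hχs'
  have hin := h.inn _ hc2.isCompact hsub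
  obtain ⟨n0, hn0⟩ := hT'
  obtain ⟨n1, hn1⟩ := eventually_atTop.1 ((hlay.and hin).and ((h.out 1 one_pos).and
    (eventually_ge_atTop 0)))
  refine ⟨max n0 n1, fun n hn => ?_⟩
  obtain ⟨⟨g1, g2⟩, g3, -⟩ := hn1 n ((le_max_right n0 n1).trans hn.le)
  have g4 := hn0 n ((le_max_left n0 n1).trans_lt hn)
  have hδ := h.pos n
  -- split the sum
  have h1 : ∑ v ∈ S n, φ (centre (δ n) v) = lsum (δ n) (fun z => χ z * φ z) +
      ∑ v ∈ S n, (1 - χ (centre (δ n) v)) * φ (centre (δ n) v) := by
    rw [lsum_eq (S := S n), ← Finset.sum_add_distrib]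
    · exact Finset.sum_congr rfl fun v _ => by ring
    · intro v hv
      by_contra h5
      exact hv (g2 v (subset_tsupport _ h5))
  have h2 : vc (δ n) * |∑ v ∈ S n, (1 - χ (centre (δ n) v)) * φ (centre (δ n) v)| ≤ M' * η := by
    set S' := (S n).filter fun v => centre (δ n) v ∉ K with hS'
    have h5 : ∑ v ∈ S n, (1 - χ (centre (δ n) v)) * φ (centre (δ n) v) =
        ∑ v ∈ S', (1 - χ (centre (δ n) v)) * φ (centre (δ n) v) := by
      symm
      refine Finset.sum_subset (Finset.filter_subset _ _) fun v hv hv' => ?_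
      have : centre (δ n) v ∈ K := by
        by_contra h6
        exact hv' (Finset.mem_filter.2 ⟨hv, h6⟩)
      rw [hχc _ this, sub_self, zero_mul]
    have h6 : |∑ v ∈ S', (1 - χ (centre (δ n) v)) * φ (centre (δ n) v)| ≤ S'.card * M' := by
      refine (Finset.abs_sum_le_sum_abs _ _).trans ?_
      calc _ ≤ ∑ _v ∈ S', M' := by
            refine Finset.sum_le_sum fun v hv => ?_
            rw [abs_mul]
            have h7 := hχ01 (centre (δ n) v)
            have h8 : |1 - χ (centre (δ n) v)| ≤ 1 := by rw [abs_le]; constructor <;> linarith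
            have h9 := hMb _ (g3 v (Finset.mem_filter.1 hv).1)
            calc _ ≤ 1 * M' := mul_le_mul h8 h9 (abs_nonneg _) zero_le_one
              _ = M' := one_mul _
        _ = _ := by rw [Finset.sum_const, nsmul_eq_mul]
    have h7 := g1 S' (Finset.filter_subset _ _) fun v hv => (Finset.mem_filter.1 hv).2
    rw [h5]
    calc _ ≤ vc (δ n) * (S'.card * M') := mul_le_mul_of_nonneg_left h6 (vc_nonneg _)
      _ = M' * (S'.card * vc (δ n)) := by ring
      _ ≤ M' * η := mul_le_mul_of_nonneg_left h7 hM0.le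
  have h3 : |(∫ z, χ z * φ z) - ∫ z in D, φ z| ≤ M' * η := by
    have h5 : ∫ z, χ z * φ z = ∫ z in D, χ z * φ z := by
      symm
      refine setIntegral_eq_integral_of_forall_compl_eq_zero fun z hz => ?_
      by_contra h6
      exact hz (hsub (subset_tsupport _ h6))
    have h6 : IntegrableOn (fun z => χ z * φ z) D :=
      (hc1.integrable_of_hasCompactSupport hc2).integrableOn
    rw [h5, ← integral_sub h6 hDint]
    have h7 : ∀ z ∈ D, ‖χ z * φ z - φ z‖ ≤ (D \ K).indicator (fun _ => M') z := by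
      intro z hz
      by_cases hzK : z ∈ K
      · rw [hχc z hzK, indicator_of_notMem (fun h8 => h8.2 hzK)]; simp
      · rw [indicator_of_mem (show z ∈ D \ K from ⟨hz, hzK⟩)]
        have h8 := hχ01 z
        have h9 : |χ z - 1| ≤ 1 := by rw [abs_le]; constructor <;> linarith
        have h10 := hMb z (self_subset_cthickening D hz)
        rw [show χ z * φ z - φ z = (χ z - 1) * φ z by ring, norm_mul, Real.norm_eq_abs,
          Real.norm_eq_abs]
        calc _ ≤ 1 * M' := mul_le_mul h9 h10 (abs_nonneg _) zero_le_one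
          _ = M' := one_mul _
    have hmD : MeasurableSet (D \ K) := h.opn.measurableSet.diff hK.measurableSet
    have h8 : volume (D \ K) ≠ ⊤ := ne_top_of_le_ne_top h.volume_ne_top (measure_mono sdiff_subset)
    have hgi : Integrable ((D \ K).indicator fun _ => M') :=
      (integrable_indicator_iff hmD).2 (integrableOn_const h8)
    rw [← Real.norm_eq_abs]
    calc ‖∫ z in D, (χ z * φ z - φ z)‖ ≤ ∫ z in D, (D \ K).indicator (fun _ => M') z := by
          refine norm_integral_le_of_norm_le hgi.integrableOn ?_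
          exact (ae_restrict_iff' h.opn.measurableSet).2 (ae_of_all _ h7)
      _ ≤ ∫ z, (D \ K).indicator (fun _ => M') z :=
          setIntegral_le_integral hgi (ae_of_all _ fun z =>
            indicator_nonneg (fun _ _ => hM0.le) z)
      _ = volume.real (D \ K) * M' := by rw [integral_indicator_const _ hmD, smul_eq_mul]
      _ ≤ η * M' := by
          refine mul_le_mul_of_nonneg_right ?_ hM0.le
          rw [measureReal_sdiff hKD hK.measurableSet h.volume_ne_top]
          linarith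
      _ = M' * η := mul_comm _ _
  have h4 : M' * η = ε / 4 := by rw [hη]; field_simp
  rw [h4] at h2 h3
  rw [Real.dist_eq] at g4 ⊢
  rw [h1, mul_add]
  have h5 : vc (δ n) * lsum (δ n) (fun z => χ z * φ z) + vc (δ n) *
      (∑ v ∈ S n, (1 - χ (centre (δ n) v)) * φ (centre (δ n) v)) - ∫ z in D, φ z =
      (vc (δ n) * lsum (δ n) (fun z => χ z * φ z) - ∫ z, χ z * φ z) +
      ((∫ z, χ z * φ z) - ∫ z in D, φ z) + vc (δ n) *
      (∑ v ∈ S n, (1 - χ (centre (δ n) v)) * φ (centre (δ n) v)) := by ring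
  rw [h5]
  have h6 : |vc (δ n) * (∑ v ∈ S n, (1 - χ (centre (δ n) v)) * φ (centre (δ n) v))| ≤ ε / 4 := by
    rw [abs_mul, abs_of_nonneg (vc_nonneg _)]; exact h2
  calc _ ≤ |vc (δ n) * lsum (δ n) (fun z => χ z * φ z) - ∫ z, χ z * φ z| +
        |(∫ z, χ z * φ z) - ∫ z in D, φ z| + |vc (δ n) *
      (∑ v ∈ S n, (1 - χ (centre (δ n) v)) * φ (centre (δ n) v))| := abs_add_three _ _ _
    _ < ε := by linarith

/-- **(C3)** number of sites -/
theorem Sites.card (h : Sites D δ S) :
    Tendsto (fun n => vc (δ n) * ((S n).card : ℝ)) atTop (𝓝 (volume.real D)) := by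
  have h1 := h.riemann (φ := fun _ => (1 : ℝ)) continuous_const
  simp only [Finset.sum_const, nsmul_eq_mul, mul_one, integral_const, smul_eq_mul,
    MeasurableSet.univ, measureReal_restrict_apply, univ_inter] at h1
  exact h1

theorem vc_inv {δ : ℝ} : δ ^ 2 = 2 / Real.sqrt 3 * vc δ := by
  unfold vc
  have : Real.sqrt 3 ≠ 0 := by positivity
  field_simp

/-- **(C2)** in the form `δ² ∑` -/
theorem Sites.riemann' (h : Sites D δ S) {φ : ℂ → ℝ} (hφ : Continuous φ) :
    Tendsto (fun n => δ n ^ 2 * ∑ v ∈ S n, φ (centre (δ n) v)) atTop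
      (𝓝 (2 / Real.sqrt 3 * ∫ z in D, φ z)) := by
  refine ((h.riemann hφ).const_mul (2 / Real.sqrt 3)).congr fun n => ?_
  rw [← mul_assoc, ← vc_inv]

theorem Sites.card' (h : Sites D δ S) :
    Tendsto (fun n => δ n ^ 2 * ((S n).card : ℝ)) atTop
      (𝓝 (2 / Real.sqrt 3 * volume.real D)) := by
  refine (h.card.const_mul (2 / Real.sqrt 3)).congr fun n => ?_
  rw [← mul_assoc, ← vc_inv]

/-- **(C3)** `δ² #S ≤ C` for every `n` -/
theorem Sites.card_bdd (h : Sites D δ S) : ∃ C > 0, ∀ n, δ n ^ 2 * ((S n).card : ℝ) ≤ C := by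
  obtain ⟨C, hC⟩ := h.card'.bddAbove_range
  refine ⟨max C 1, by positivity, fun n => (hC (mem_range_self n)).trans (le_max_left _ _)⟩

/-- **(C4)** in the form `δ² #` -/
theorem Sites.near' (h : Sites D δ S) (L : ℕ) {η : ℝ} (hη : 0 < η) :
    ∀ᶠ n in atTop, ∀ S' ⊆ S n,
      (∀ v ∈ S', ∃ w : ℤ × ℤ, w ∉ S n ∧ |w.1 - v.1| ≤ L ∧ |w.2 - v.2| ≤ L) →
        δ n ^ 2 * (S'.card : ℝ) ≤ η := by
  have h3 : 0 < Real.sqrt 3 := by positivity
  filter_upwards [h.near L (show 0 < Real.sqrt 3 / 2 * η by positivity)] with n h1 S' hS' hw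
  have h2 := h1 S' hS' hw
  rw [vc_inv]
  calc 2 / Real.sqrt 3 * vc (δ n) * (S'.card : ℝ) = 2 / Real.sqrt 3 * (S'.card * vc (δ n)) := by
        ring
    _ ≤ 2 / Real.sqrt 3 * (Real.sqrt 3 / 2 * η) := by gcongr
    _ = η := by field_simp

/-! ### instances -/

/-- **(C7)** the free vertices of a marked approximation (S0196, S0197) -/
theorem sites_tri {D : Set ℂ} {γ : ℝ → ℂ} {θ : ℝ} {δ : ℕ → ℝ} {T : ℕ → Finset Tri}
    {ea eb : ℕ → (ℤ × ℤ) × (ℤ × ℤ)} {c : ℕ → ℝ → ℂ}
    (hD : IsSmoothMarkedDomain D γ θ) (hA : IsMarkedApprox γ θ δ T ea eb c) :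
    Sites D δ fun n => freeVerts (T n) (arcPlus (δ n) (T n) (c n) θ)
      (arcMinus (δ n) (T n) (c n) θ) where
  opn := hD.1
  bdd := hD.2.1
  nul := Crest.Agent.R144.Seg549.volume_frontier (dom_of_marked hD)
  pos := hA.1
  lim := hA.2.1
  inn := fun K hK hKD => (Crest.Agent.R144.Cov353.tri_cover hD hA hK hKD).mono fun n hn v hv =>
    (mem_free_iff hA n v).2 (hn hv)
  out := fun ε hε => (Crest.Agent.R144.Cov353.tri_near hD hA hε).mono fun n hn v hv => by
    have h1 := hn _ ((mem_free_iff hA n v).1 hv)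
    obtain ⟨z0, hz0⟩ := hD.2.2.1.nonempty
    rw [mem_cthickening_iff, ← ENNReal.ofReal_toReal (infEDist_ne_top ⟨z0, hz0⟩)]
    exact ENNReal.ofReal_le_ofReal h1.le

/-- **(C7)** interior faces of an inside approximation (S0195) -/
theorem sites_hex {D : Set ℂ} {γ : ℝ → ℂ} {δ : ℕ → ℝ} {F : ℕ → Finset (ℤ × ℤ)}
    (hD : IsC2JordanDomain D γ) (hA : IsInsideApprox D γ δ F) :
    Sites D δ fun n => Crest.Agent.R144.It844.intF (F n) where
  opn := hD.1
  bdd := hD.2.1
  nul := Crest.Agent.R144.Seg549.volume_frontier (dom_of_C2 hD)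
  pos := hA.1
  lim := hA.2.1
  inn := fun K hK hKD => Crest.Agent.R144.Cov353.hex_sites hD hA hK hKD
  out := fun ε hε => Eventually.of_forall fun n v hv => self_subset_cthickening D
    (Crest.Agent.R144.Cov353.hex_inside hA n (Crest.Agent.R144.It844.mem_intF.1 hv).1)

/-- **(C7)** all faces of an inside approximation (S0195) -/
theorem sites_hex' {D : Set ℂ} {γ : ℝ → ℂ} {δ : ℕ → ℝ} {F : ℕ → Finset (ℤ × ℤ)}
    (hD : IsC2JordanDomain D γ) (hA : IsInsideApprox D γ δ F) : Sites D δ F where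
  opn := hD.1
  bdd := hD.2.1
  nul := Crest.Agent.R144.Seg549.volume_frontier (dom_of_C2 hD)
  pos := hA.1
  lim := hA.2.1
  inn := fun K hK hKD => (Crest.Agent.R144.Cov353.hex_sites hD hA hK hKD).mono fun n hn v hv =>
    (Crest.Agent.R144.It844.mem_intF.1 (hn v hv)).1
  out := fun ε hε => Eventually.of_forall fun n v hv => self_subset_cthickening D
    (Crest.Agent.R144.Cov353.hex_inside hA n hv)

end Crest.Agent.R144.Cnt268
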