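import Mathlib
import Crest.Agent.R144.Cnt2_268
import Crest.Agent.R144.Cov_353
import Crest.Agent.R144.Zg_349

/-! R144 (helper702): the free sites of S0195, S0196 are covered by simply connected sets of up
triangles close to the domain. -/

set_option autoImplicit false

open Set Topology Filter Metric MeasureTheory

namespace Crest.Agent.R144.Env702

open Crest.ProbabilityR.HexHeights Crest.ProbabilityR.TriHeights Crest.Agent.R144.HexTil353
  Crest.Agent.R144.Geo268 Crest.Agent.R144.Cnt268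
open Crest.Agent.R144.It844 (intF upT mem_upT mem_intF P2)
open Crest.Agent.R144.Zg349 (up mem_up SC IsConn StepIn)
open Crest.Agent.R144.TriDom353 (TAdj UD)

/-- simply connected sets of up triangles containing the triangles at the free sites, close to the
domain -/
def Env (D : Set ℂ) (δ : ℕ → ℝ) (Λ : ℕ → Finset (ℤ × ℤ)) : Prop :=
  ∃ F : ℕ → Finset (ℤ × ℤ), (∀ n, SC (F n)) ∧ (∀ n, upT (Λ n) ⊆ F n) ∧
    ∀ ε > 0, ∀ᶠ n in atTop, ∀ t ∈ F n, centre (δ n) t ∈ cthickening ε D

/-- two triangles with a common site are equal or adjacent -/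
theorem adj_of_site {t t' v : P2} (h : v ∈ up t) (h' : v ∈ up t') : t = t' ∨ Adj t t' := by
  obtain ⟨a, b⟩ := t
  obtain ⟨c, d⟩ := t'
  obtain ⟨p, q⟩ := v
  simp only [mem_up, Prod.mk.injEq] at h h'
  simp only [Adj, Prod.mk.injEq]
  omega

theorem step_of_site {S : Set P2} {t t' v : P2} (hv : v ∈ up t) (hv' : v ∈ up t') (ht : t ∈ S)
    (ht' : t' ∈ S) : Relation.ReflTransGen (StepIn S) t t' := by
  rcases adj_of_site hv hv' with h | h
  · rw [h]
  · exact Relation.ReflTransGen.single ⟨ht, ht', h⟩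

/-- the edge between adjacent sites is in an up triangle -/
theorem exists_edge {u v : P2} (h : Adj u v) : ∃ t, u ∈ up t ∧ v ∈ up t := by
  obtain ⟨a, b⟩ := u
  rcases It844.adj_iff.1 h with rfl | rfl | rfl | rfl | rfl | rfl
  · exact ⟨(a, b), by simp [mem_up]⟩
  · exact ⟨(a - 1, b), by simp [mem_up]⟩
  · exact ⟨(a, b), by simp [mem_up]⟩
  · exact ⟨(a, b - 1), by simp [mem_up]⟩
  · exact ⟨(a, b - 1), by simp [mem_up]⟩
  · exact ⟨(a - 1, b), by simp [mem_up]⟩

theorem adj_of_up {t u v : P2} (hu : u ∈ up t) (hv : v ∈ up t) : u = v ∨ Adj u v := by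
  obtain ⟨a, b⟩ := t
  obtain ⟨c, d⟩ := u
  obtain ⟨p, q⟩ := v
  simp only [mem_up, Prod.mk.injEq] at hu hv
  simp only [Adj, Prod.mk.injEq]
  omega

theorem mem_upT' {Λ : Finset P2} {t : P2} : t ∈ upT Λ ↔ ∃ v ∈ up t, v ∈ Λ := by
  rw [mem_upT]
  obtain ⟨a, b⟩ := t
  constructor
  · rintro (h | h | h)
    · exact ⟨_, by simp [mem_up], h⟩
    · exact ⟨_, by simp [mem_up], h⟩
    · exact ⟨_, by simp [mem_up], h⟩
  · rintro ⟨v, hv, h⟩
    simp only [mem_up] at hv
    rcases hv with rfl | rfl | rfl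
    · exact Or.inl h
    · exact Or.inr (Or.inl h)
    · exact Or.inr (Or.inr h)

theorem adj_symm {u v : P2} (h : Adj u v) : Adj v u := by
  unfold Adj at h ⊢
  omega

/-- a triangle at a site off `F` is not in `upT (intF F)` -/
theorem not_mem_of_site {F : Finset P2} {u t : P2} (hu : u ∉ F) (ht : u ∈ up t) :
    t ∉ upT (intF F) := by
  intro h
  obtain ⟨v, hv, hvF⟩ := mem_upT'.1 h
  rw [mem_intF] at hvF
  rcases adj_of_up hv ht with h1 | h1
  · rw [h1] at hvF
    exact hu hvF.1
  · exact hu (hvF.2 u h1)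

/-- **hexagonal faces**: the triangles at the interior faces -/
theorem sc_upT_intF {F : Finset P2} (h : HexDom353.Conn Adj ((F : Set P2)ᶜ)) : SC (upT (intF F)) := by
  -- chain of sites off `F`
  have hch : ∀ u v : P2, Relation.ReflTransGen (fun a b => a ∈ ((F : Set P2)ᶜ) ∧ b ∈ ((F : Set P2)ᶜ) ∧
      Adj a b) u v → u ∉ F → ∀ t t', u ∈ up t → v ∈ up t' →
      Relation.ReflTransGen (StepIn (((upT (intF F) : Finset P2) : Set P2)ᶜ)) t t' := by
    intro u v hc hu
    induction hc with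
    | refl =>
      intro t t' ht ht'
      exact step_of_site ht ht' (by simpa using not_mem_of_site hu ht)
        (by simpa using not_mem_of_site hu ht')
    | tail _ hs ih =>
      intro t t' ht ht'
      obtain ⟨e, he1, he2⟩ := exists_edge hs.2.2
      have h1 : e ∉ upT (intF F) := not_mem_of_site (by simpa using hs.1) he1
      have h2 : t' ∉ upT (intF F) := not_mem_of_site (by simpa using hs.2.1) ht'
      exact (ih t e ht he1).trans (step_of_site he2 ht' (by simpa using h1) (by simpa using h2))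
  have key : ∀ t, t ∉ upT (intF F) → ∃ u t', u ∉ F ∧ u ∈ up t' ∧ ∃ v ∈ up t, v ∈ up t' := by
    intro t ht
    have h1 : t ∉ intF F := fun h2 => ht (mem_upT.2 (Or.inl h2))
    rw [mem_intF] at h1
    by_cases h3 : t ∈ F
    · have h4 : ¬ ∀ v, Adj t v → v ∈ F := fun h5 => h1 ⟨h3, h5⟩
      push Not at h4
      obtain ⟨u, hu, huF⟩ := h4
      obtain ⟨e, he1, he2⟩ := exists_edge hu
      exact ⟨u, e, huF, he2, t, by simp [mem_up], he1⟩
    · exact ⟨t, t, h3, by simp [mem_up], t, by simp [mem_up], by simp [mem_up]⟩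
  intro t ht t' ht'
  have ht0 : t ∉ upT (intF F) := by simpa using ht
  have ht0' : t' ∉ upT (intF F) := by simpa using ht'
  obtain ⟨u, s, hu, hus, w, hw, hws⟩ := key t ht0
  obtain ⟨u', s', hu', hus', w', hw', hws'⟩ := key t' ht0'
  have hs : s ∉ upT (intF F) := not_mem_of_site hu hus
  have hs' : s' ∉ upT (intF F) := not_mem_of_site hu' hus'
  have h1 := step_of_site hw hws ht (by simpa using hs)
  have h2 := step_of_site hws' hw' (S := (((upT (intF F) : Finset P2) : Set P2)ᶜ))
    (by simpa using hs') ht'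
  exact (h1.trans (hch u u' (h u (by simpa using hu) u' (by simpa using hu')) hu s s' hus hus')).trans h2

/-- the up triangles of `T` -/
noncomputable def ups (T : Finset Tri) : Finset P2 := by
  classical
  exact (T.filter fun t => t.2 = true).image Prod.fst

theorem mem_ups {T : Finset Tri} {t : P2} : t ∈ ups T ↔ (t, true) ∈ T := by
  classical
  unfold ups
  rw [Finset.mem_image]
  constructor
  · rintro ⟨s, hs, rfl⟩
    obtain ⟨h1, h2⟩ := Finset.mem_filter.1 hs
    rw [← h2]
    exact h1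
  · intro h
    exact ⟨(t, true), Finset.mem_filter.2 ⟨h, rfl⟩, rfl⟩

theorem ud_adj {u u' w : P2} (h : UD u w) (h' : UD u' w) : u = u' ∨ Adj u u' := by
  obtain ⟨a, b⟩ := u
  obtain ⟨c, d⟩ := u'
  obtain ⟨p, q⟩ := w
  simp only [UD, Prod.mk.injEq] at h h'
  simp only [Adj, Prod.mk.injEq]
  omega

/-- **triangles** -/
theorem sc_ups {T : Finset Tri} (h : HexDom353.Conn TAdj ((T : Set Tri)ᶜ)) : SC (ups T) := by
  intro u hu u' hu'
  have hu0 : (u, true) ∈ ((T : Set Tri)ᶜ) := by
    have : u ∉ ups T := by simpa using hu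
    rw [mem_ups] at this
    simpa using this
  have hu0' : (u', true) ∈ ((T : Set Tri)ᶜ) := by
    have : u' ∉ ups T := by simpa using hu'
    rw [mem_ups] at this
    simpa using this
  have key : ∀ s : Tri, Relation.ReflTransGen (fun a b => a ∈ ((T : Set Tri)ᶜ) ∧ b ∈ ((T : Set Tri)ᶜ) ∧
      TAdj a b) (u, true) s →
      (s.2 = true → Relation.ReflTransGen (StepIn (((ups T : Finset P2) : Set P2)ᶜ)) u s.1) ∧
      (s.2 = false → ∃ w, w ∉ ups T ∧ UD w s.1 ∧
        Relation.ReflTransGen (StepIn (((ups T : Finset P2) : Set P2)ᶜ)) u w) := by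
    intro s hs
    induction hs with
    | refl => exact ⟨fun _ => Relation.ReflTransGen.refl, fun h => by simp at h⟩
    | @tail b c _ hst ih =>
      obtain ⟨hb, hc, hbc⟩ := hst
      rcases hbc with ⟨h1, h2, h3⟩ | ⟨h1, h2, h3⟩
      · refine ⟨fun h4 => by rw [h2] at h4; simp at h4, fun _ => ⟨b.1, ?_, h3, ih.1 h1⟩⟩
        rw [mem_ups, ← h1]
        simpa using hb
      · refine ⟨fun _ => ?_, fun h4 => by rw [h2] at h4; simp at h4⟩
        obtain ⟨w, hw, hwb, hc'⟩ := ih.2 h1
        have hc0 : c.1 ∉ ups T := by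
          rw [mem_ups, ← h2]
          simpa using hc
        rcases ud_adj hwb h3 with h5 | h5
        · rw [← h5]; exact hc'
        · exact hc'.tail ⟨by simpa using hw, by simpa using hc0, h5⟩
  exact (key _ (h _ hu0 _ hu0')).1 rfl

theorem mem_corners_of_up {t v : P2} (h : v ∈ up t) : v ∈ corners (t, true) := by
  rw [Crest.Agent.R144.TriTil353.mem_corners_up]
  simp only [mem_up] at h
  exact h

/-- the triangles at the interior vertices are triangles of `T` -/
theorem upT_sub_ups (T : Finset Tri) : upT (Crest.Agent.R144.TriDom353.Lam T) ⊆ ups T := by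
  intro t ht
  obtain ⟨v, hv, hvL⟩ := mem_upT'.1 ht
  rw [mem_ups]
  rw [Crest.Agent.R144.TriDom353.mem_Lam] at hvL
  obtain ⟨k, hk⟩ := Crest.Agent.R144.TriDom353.mem_star.1 (mem_corners_of_up hv)
  rw [hk]
  exact hvL k

theorem mem_cth_of_infDist {D : Set ℂ} (hD : D.Nonempty) {z : ℂ} {ε : ℝ} (h : infDist z D ≤ ε) :
    z ∈ cthickening ε D := by
  rw [mem_cthickening_iff, ← ENNReal.ofReal_toReal (infEDist_ne_top hD)]
  exact ENNReal.ofReal_le_ofReal h

/-- **S0195** -/
theorem env_hex {D : Set ℂ} {γ : ℝ → ℂ} {δ : ℕ → ℝ} {F : ℕ → Finset (ℤ × ℤ)}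
    (hD : IsC2JordanDomain D γ) (hA : IsInsideApprox D γ δ F) :
    Env D δ (fun n => intF (F n)) := by
  refine ⟨fun n => upT (intF (F n)), fun n => sc_upT_intF (Cov353.hex_dom hA n).2.2.1,
    fun n => Finset.Subset.refl _, fun ε hε => ?_⟩
  filter_upwards [hA.2.1.eventually (gt_mem_nhds hε)] with n hn t ht
  obtain ⟨v, hv, hvF⟩ := mem_upT'.1 ht
  have h1 : centre (δ n) v ∈ D := Cov353.hex_inside hA n (mem_intF.1 hvF).1
  refine mem_cth_of_infDist hD.2.2.1.nonempty ((infDist_le_dist_of_mem h1).trans ?_)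
  rcases adj_of_up (t := t) (u := t) (by simp [mem_up]) hv with h2 | h2
  · rw [← h2, dist_self]; exact hε.le
  · have h3 := dist_centre_sq (δ n) t v
    rw [(HexTil353.adj_iff _ _).1 h2] at h3
    have h4 : dist (centre (δ n) t) (centre (δ n) v) ^ 2 ≤ (δ n) ^ 2 := by rw [h3]; simp
    exact ((abs_le_of_sq_le_sq' h4 (hA.1 n).le).2).trans hn.le

/-- **S0196** -/
theorem env_tri {D : Set ℂ} {γ : ℝ → ℂ} {θ : ℝ} {δ : ℕ → ℝ} {T : ℕ → Finset Tri}
    {ea eb : ℕ → (ℤ × ℤ) × (ℤ × ℤ)} {c : ℕ → ℝ → ℂ}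
    (hD : IsSmoothMarkedDomain D γ θ) (hA : IsMarkedApprox γ θ δ T ea eb c) :
    Env D δ (fun n => freeVerts (T n) (arcPlus (δ n) (T n) (c n) θ)
      (arcMinus (δ n) (T n) (c n) θ)) := by
  refine ⟨fun n => ups (T n), fun n => sc_ups (Cov353.dom_of hA n).2.2.2.1, fun n => ?_,
    fun ε hε => ?_⟩
  · have h1 : freeVerts (T n) (arcPlus (δ n) (T n) (c n) θ) (arcMinus (δ n) (T n) (c n) θ) =
        Crest.Agent.R144.TriDom353.Lam (T n) := by
      ext v
      rw [mem_free_iff hA n v, centre_mem_polygon (hA.1 n), Crest.Agent.R144.TriDom353.mem_Lam]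
      constructor
      · intro h k
        exact h _ (Crest.Agent.R144.TriDom353.self_mem_star v k)
      · intro h t ht
        obtain ⟨k, rfl⟩ := Crest.Agent.R144.TriDom353.mem_star.1 ht
        exact h k
    show upT (freeVerts (T n) (arcPlus (δ n) (T n) (c n) θ) (arcMinus (δ n) (T n) (c n) θ)) ⊆ ups (T n)
    rw [h1]
    exact upT_sub_ups _
  · filter_upwards [Cov353.tri_near hD hA hε] with n hn t ht
    rw [mem_ups] at ht
    refine mem_cth_of_infDist hD.2.2.1.nonempty ?_
    have h1 : centre (δ n) t ∈ closure (polygon (δ n) (T n)) := by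
      rw [Crest.Agent.R144.TriDom353.closure_polygon (hA.1 n)]
      exact mem_iUnion₂.2 ⟨(t, true), ht, centre_mem_tri (mem_corners_of_up (by simp [mem_up]))⟩
    refine closure_minimal (s := polygon (δ n) (T n)) (t := {z | infDist z D ≤ ε}) ?_ ?_ h1
    · exact fun z hz => (hn z hz).le
    · exact isClosed_le (continuous_infDist_pt _) continuous_const

end Crest.Agent.R144.Env702
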