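import Crest.Agent.R144.EndC_938

/-!
# R144, harmonic remainder, part D (helper938): convergence of the characteristic functions
-/

set_option autoImplicit false

open MeasureTheory Metric Set Filter Topology Laplacian InnerProductSpace ProbabilityTheory
open scoped ComplexConjugate ContDiff ENNReal

namespace Crest.Agent.R144.End938

open Crest.Agent.R144.Con549 Crest.Agent.R161.Green722
open Crest.ProbabilityR.HexHeights (domainGreenForm)

noncomputable section

theorem tendsto_approx {a : ℕ → ℂ} {c : ℂ} (h : ∀ ε > 0, ∃ (b : ℕ → ℂ) (c' : ℂ),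
    Tendsto b atTop (𝓝 c') ∧ ‖c' - c‖ ≤ ε ∧ ∀ᶠ n in atTop, ‖a n - b n‖ ≤ ε) :
    Tendsto a atTop (𝓝 c) := by
  rw [Metric.tendsto_atTop']
  intro ε hε
  obtain ⟨b, c', hb, hc, hab⟩ := h (ε / 4) (by positivity)
  have h1 : ∀ᶠ n in atTop, dist (b n) c' < ε / 4 := Metric.tendsto_nhds.1 hb _ (by positivity)
  obtain ⟨N, hN⟩ := eventually_atTop.1 (hab.and h1)
  refine ⟨N, fun n hn => ?_⟩
  obtain ⟨h2, h3⟩ := hN n hn.le
  rw [dist_eq_norm] at h3 ⊢
  have e : a n - c = (a n - b n) + (b n - c') + (c' - c) := by ring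
  rw [e]
  calc ‖(a n - b n) + (b n - c') + (c' - c)‖ ≤ ‖a n - b n‖ + ‖b n - c'‖ + ‖c' - c‖ :=
        (norm_add_le _ _).trans (add_le_add (norm_add_le _ _) le_rfl)
    _ < ε := by linarith

theorem norm_exp_sub_le (a b : ℝ) :
    ‖Complex.exp (Complex.I * (a : ℝ)) - Complex.exp (Complex.I * (b : ℝ))‖ ≤ |a - b| := by
  have h1 : Complex.exp (Complex.I * (a : ℝ)) - Complex.exp (Complex.I * (b : ℝ)) =
      Complex.exp (Complex.I * (b : ℝ)) * (Complex.exp (Complex.I * ((a - b : ℝ) : ℂ)) - 1) := by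
    rw [mul_sub, ← Complex.exp_add, mul_one]
    congr 2
    push_cast
    ring
  rw [h1, norm_mul, Complex.norm_exp_I_mul_ofReal, one_mul]
  exact Real.norm_exp_I_mul_ofReal_sub_one_le

/-- characteristic functions of close variables -/
theorem char_sub_le {Ω : Type*} [MeasurableSpace Ω] {μ : Measure Ω} [IsProbabilityMeasure μ]
    {A B C : Ω → ℝ} (hA : MemLp A 2 μ) (hB : MemLp B 2 μ) (hC : MemLp C 2 μ)
    (h : A =ᵐ[μ] fun o => B o + C o) (t : ℝ) :
    ‖(∫ o, Complex.exp (Complex.I * (t * A o : ℝ)) ∂μ) -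
      ∫ o, Complex.exp (Complex.I * (t * B o : ℝ)) ∂μ‖ ≤
      |t| * Real.sqrt (∫ o, C o * C o ∂μ) := by
  have hint : ∀ V : Ω → ℝ, MemLp V 2 μ →
      Integrable (fun o => Complex.exp (Complex.I * (t * V o : ℝ))) μ := by
    intro V hV
    refine Integrable.of_bound (C := 1) ?_ (Eventually.of_forall fun o => ?_)
    · have h1 : Continuous fun x : ℝ => Complex.exp (Complex.I * (t * x : ℝ)) := by fun_prop
      exact h1.comp_aestronglyMeasurable hV.aestronglyMeasurable
    · rw [Complex.norm_exp_I_mul_ofReal]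
  rw [← integral_sub (hint A hA) (hint B hB)]
  have hCi : Integrable C μ := hC.integrable (by norm_num)
  have h1 : ‖∫ o, (Complex.exp (Complex.I * (t * A o : ℝ)) -
      Complex.exp (Complex.I * (t * B o : ℝ))) ∂μ‖ ≤ ∫ o, |t| * |C o| ∂μ := by
    refine norm_integral_le_of_norm_le (hCi.abs.const_mul _) ?_
    filter_upwards [h] with o ho
    refine (norm_exp_sub_le _ _).trans (le_of_eq ?_)
    rw [ho, ← abs_mul]
    congr 1
    ring
  refine h1.trans ?_
  rw [integral_const_mul]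
  refine mul_le_mul_of_nonneg_left ?_ (abs_nonneg t)
  have hCC : Integrable (fun o => C o * C o) μ := by
    have := hC.integrable_sq
    refine this.congr (Eventually.of_forall fun o => ?_)
    simp only
    ring
  refine Real.le_sqrt_of_sq_le ?_
  set m := ∫ o, |C o| ∂μ with hm
  have h2 : 0 ≤ ∫ o, (|C o| - m) ^ 2 ∂μ := integral_nonneg fun o => sq_nonneg _
  have h3 : ∫ o, (|C o| - m) ^ 2 ∂μ = (∫ o, C o * C o ∂μ) - m ^ 2 := by
    have e : (fun o => (|C o| - m) ^ 2) = fun o => (C o * C o - 2 * m * |C o|) + m ^ 2 := by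
      funext o
      have := abs_mul_abs_self (C o)
      linear_combination this
    have i1 : Integrable (fun o => 2 * m * |C o|) μ := hCi.abs.const_mul _
    have i2 : Integrable (fun o => C o * C o - 2 * m * |C o|) μ := hCC.sub i1
    rw [e, integral_add i2 (integrable_const _), integral_sub hCC i1,
      integral_const_mul, integral_const]
    simp only [probReal_univ, one_smul]
    ring
  linarith

/-- **End (harmonic remainder), probabilistic form.** -/
theorem end_char {D : Set ℂ} {P : Finset ℂ} {kap : ℝ} (hb : Bornology.IsBounded D)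
    (hP : ∀ m ∈ P, m ∉ D) {φ ψ : ℂ → ℂ} (B : Bih D (ball 0 1) φ ψ)
    {Ω : ℕ → Type*} [∀ n, MeasurableSpace (Ω n)] (μ : ∀ n, Measure (Ω n))
    [∀ n, IsProbabilityMeasure (μ n)] (Y : ∀ n, (ℂ → ℝ) → Ω n → ℝ)
    (hL2 : ∀ n f, IsTest D f → MemLp (Y n f) 2 (μ n))
    (hadd : ∀ n f g, IsTest D f → IsTest D g →
      Y n (fun z => f z + g z) =ᵐ[μ n] fun o => Y n f o + Y n g o)
    (hsmul : ∀ n (c : ℝ) f, IsTest D f → Y n (fun z => c * f z) =ᵐ[μ n] fun o => c * Y n f o)
    (p1 : ∀ u, IsTest D u → Tendsto (fun n => ∫ o, Y n (Δ u) o * Y n (Δ u) o ∂μ n) atTop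
      (𝓝 (kap * ∫ z, ‖fderiv ℝ u z‖ ^ 2)))
    (bd : ∀ K, IsCompact K → K ⊆ D → ∃ C : ℝ, ∀ f, IsTest D f → tsupport f ⊆ K →
      ∀ M, (∀ z, |f z| ≤ M) → ∀ᶠ n in atTop, ∫ o, Y n f o * Y n f o ∂μ n ≤ C * M ^ 2)
    (c1 : ∃ C : ℝ, ∀ z ∈ D, ∀ᶠ n in atTop,
      ∫ o, Y n (rr z (rad D z)) o * Y n (rr z (rad D z)) o ∂μ n ≤ C)
    (c2 : ∀ g, IsTest D g → ∀ p ∈ frontier D, p ∉ P → ∀ ε > 0, ∃ η > 0, ∀ z ∈ D,
      dist z p < η → ∀ᶠ n in atTop, |∫ o, Y n (rr z (rad D z)) o * Y n g o ∂μ n| ≤ ε)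
    (hcf : ∀ u, IsTest D u → ∀ t : ℝ, Tendsto
      (fun n => ∫ o, Complex.exp (Complex.I * (t * Y n (fun z => -(Δ u) z) o : ℝ)) ∂μ n) atTop
      (𝓝 (Complex.exp (-(kap * (∫ z, ‖fderiv ℝ u z‖ ^ 2) * t ^ 2 / 2 : ℝ))))) :
    ∀ f, IsTest D f →
      Tendsto (fun n => ∫ o, Y n f o * Y n f o ∂μ n) atTop (𝓝 (kap * domainGreenForm φ f)) ∧
      ∀ t : ℝ, Tendsto (fun n => ∫ o, Complex.exp (Complex.I * (t * Y n f o : ℝ)) ∂μ n) atTop
        (𝓝 (Complex.exp (-(kap * domainGreenForm φ f * t ^ 2 / 2 : ℝ)))) := by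
  have hprod : ∀ n f g, IsTest D f → IsTest D g → Integrable (fun o => Y n f o * Y n g o) (μ n) :=
    fun n f g hf hg => (hL2 n f hf).integrable_mul (hL2 n g hg)
  have H : EndData D P kap (fun n f g => ∫ o, Y n f o * Y n g o ∂μ n) := by
    refine ⟨fun n f g _ _ => ?_, fun n f1 f2 g h1 h2 hg => ?_, fun n c f g hf hg => ?_,
      fun n f _ => integral_nonneg fun o => mul_self_nonneg _, p1, bd, c1, c2⟩
    · congr 1; funext o; ring
    · rw [← integral_add (hprod n f1 g h1 hg) (hprod n f2 g h2 hg)]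
      refine integral_congr_ae ?_
      filter_upwards [hadd n f1 f2 h1 h2] with o ho
      rw [ho]; ring
    · rw [← integral_const_mul]
      refine integral_congr_ae ?_
      filter_upwards [hsmul n c f hf] with o ho
      rw [ho]; ring
  intro f hf
  refine ⟨end_var H hb hP B hf, fun t => ?_⟩
  refine tendsto_approx fun ε hε => ?_
  -- continuity of the target
  have hcont : Continuous fun x : ℝ => Complex.exp (-(kap * x * t ^ 2 / 2 : ℝ)) := by fun_prop
  obtain ⟨η, hη, hclose⟩ := Metric.continuous_iff.1 hcont (domainGreenForm φ f) ε hε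
  set η' := min η ((ε / (|t| + 1)) ^ 2 / (2 * (|kap| + 1))) with hη'
  have hη'p : 0 < η' := lt_min hη (by positivity)
  obtain ⟨u, hu, h1, h2⟩ := exists_approx B hf hη'p
  refine ⟨_, _, hcf u hu t, ?_, ?_⟩
  · have h3 := hclose (∫ z, ‖fderiv ℝ u z‖ ^ 2) (by
      rw [Real.dist_eq, abs_sub_comm]; exact h2.trans_le (min_le_left _ _))
    rw [dist_eq_norm] at h3
    exact h3.le
  · have hk : IsTest D (fun z => f z + (Δ u) z) := hf.add hu.lap
    have hv := end_var H hb hP B hk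
    set G := domainGreenForm φ (fun z => f z + (Δ u) z) with hG
    have hlt : kap * G < (ε / (|t| + 1)) ^ 2 := by
      have h4 : kap * G ≤ |kap| * η' := by
        calc kap * G ≤ |kap * G| := le_abs_self _
          _ = |kap| * |G| := abs_mul _ _
          _ ≤ |kap| * η' := mul_le_mul_of_nonneg_left h1.le (abs_nonneg _)
      have h5 : |kap| * η' ≤ |kap| * ((ε / (|t| + 1)) ^ 2 / (2 * (|kap| + 1))) :=
        mul_le_mul_of_nonneg_left (min_le_right _ _) (abs_nonneg _)
      have h6 : |kap| * ((ε / (|t| + 1)) ^ 2 / (2 * (|kap| + 1))) ≤ (ε / (|t| + 1)) ^ 2 / 2 := by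
        rw [mul_div_assoc', div_le_div_iff₀ (by positivity) (by norm_num)]
        have : 0 < (ε / (|t| + 1)) ^ 2 := by positivity
        nlinarith [abs_nonneg kap]
      have h7 : 0 < (ε / (|t| + 1)) ^ 2 := by positivity
      linarith
    have hev : ∀ᶠ n in atTop, ∫ o, Y n (fun z => f z + (Δ u) z) o *
        Y n (fun z => f z + (Δ u) z) o ∂μ n < (ε / (|t| + 1)) ^ 2 :=
      hv.eventually_lt_const hlt
    filter_upwards [hev] with n hn
    have hsum : Y n f =ᵐ[μ n] fun o => Y n (fun z => -(Δ u) z) o + Y n (fun z => f z + (Δ u) z) o := by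
      have h3 := hadd n (fun z => -(Δ u) z) (fun z => f z + (Δ u) z) hu.lap.neg hk
      have e : (fun z => -(Δ u) z + (f z + (Δ u) z)) = f := by funext z; ring
      rw [e] at h3
      exact h3
    refine (char_sub_le (hL2 n f hf) (hL2 n _ hu.lap.neg) (hL2 n _ hk) hsum t).trans ?_
    have h4 : Real.sqrt (∫ o, Y n (fun z => f z + (Δ u) z) o *
        Y n (fun z => f z + (Δ u) z) o ∂μ n) ≤ ε / (|t| + 1) := by
      refine Real.sqrt_le_iff.2 ⟨by positivity, hn.le⟩
    calc |t| * Real.sqrt (∫ o, Y n (fun z => f z + (Δ u) z) o *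
        Y n (fun z => f z + (Δ u) z) o ∂μ n) ≤ |t| * (ε / (|t| + 1)) :=
          mul_le_mul_of_nonneg_left h4 (abs_nonneg _)
      _ = (|t| / (|t| + 1)) * ε := by ring
      _ ≤ 1 * ε := by
        refine mul_le_mul_of_nonneg_right ?_ hε.le
        rw [div_le_one (by positivity)]
        linarith
      _ = ε := one_mul _

end

end Crest.Agent.R144.End938
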