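import Crest.Agent.R144.Dpl5_702
import Crest.Agent.R144.Mom_353
import Crest.Agent.R144.It1b_844
import Crest.Agent.R144.HexTil_353

/-!
# R144: the moment halves of S0195 and S0196 follow from the characteristic function halves (helper702)

* `bdd_of_mp` : finite weighted laws whose characteristic functions converge to a Gaussian one and which
  have the midpoint property have bounded even moments (no variance input);
* `height_moments'` : the moment half of `S0195` from its law half, literal form;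
* `twoArc_moments'` : the moment half of `S0196` from its law half, given `FreeSet` and a bound of
  `∑ |∫ f bary|`.
-/

set_option autoImplicit false

noncomputable section

namespace Crest.Agent.R144.Dpl702

open Filter Topology MeasureTheory ProbabilityTheory
open Crest.Agent.R144.Mom353 (gm law isProb_law integral_law integrable_law gaussian_moment
  integrable_pow_gaussian moments_of_sum nonneg_of_sum)

theorem tl_div' {α : Type*} (S : Finset α) (W X : α → ℝ) (Z t : ℝ) :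
    tl S (fun a => W a / Z) X t = tl S W X t / Z := by
  unfold tl
  rw [Finset.sum_div]

/-- cut-off square -/
def cs (M x : ℝ) : ℝ := min 1 (x ^ 2 / M ^ 2)

theorem cs_nonneg (M x : ℝ) : 0 ≤ cs M x := le_min zero_le_one (by positivity)
theorem cs_le_one (M x : ℝ) : cs M x ≤ 1 := min_le_left _ _
theorem continuous_cs (M : ℝ) : Continuous (cs M) := by unfold cs; fun_prop

theorem ind_le_cs {M : ℝ} (hM : 0 < M) {x : ℝ} (h : M ≤ |x|) : cs M x = 1 := by
  unfold cs
  refine min_eq_left ?_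
  rw [one_le_div (by positivity), ← sq_abs x]
  exact pow_le_pow_left₀ hM.le h 2

/-- **bounded moments from the midpoint property** -/
theorem bdd_of_mp {ι : ℕ → Type*} {s : ∀ n, Finset (ι n)} {w : ∀ n, ι n → ℝ} {X : ∀ n, ι n → ℝ}
    (hw : ∀ n, ∀ a ∈ s n, 0 ≤ w n a) (hs : ∀ n, 0 < ∑ b ∈ s n, w n b) {v : ℝ} (hv : 0 ≤ v)
    (hc : ∀ t : ℝ, Tendsto (fun n => (∑ a ∈ s n, (w n a : ℂ) *
        Complex.exp (Complex.I * (t * X n a : ℝ))) / ∑ a ∈ s n, (w n a : ℂ)) atTop
      (𝓝 (Complex.exp (-(v * t ^ 2 / 2 : ℝ)))))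
    {L : ℝ} (hL : 0 ≤ L)
    (hmp : ∀ᶠ n in atTop, ∀ a b, tl (s n) (w n) (X n) a * tl (s n) (w n) (X n) b ≤
      tl (s n) (w n) (X n) ((a + b - L) / 2) ^ 2)
    (hmp' : ∀ᶠ n in atTop, ∀ a b, tl (s n) (w n) (fun i => - X n i) a *
      tl (s n) (w n) (fun i => - X n i) b ≤
      tl (s n) (w n) (fun i => - X n i) ((a + b - L) / 2) ^ 2) (k : ℕ) :
    ∃ C : ℝ, ∀ᶠ n in atTop, (∑ a ∈ s n, w n a * X n a ^ (2 * k)) / (∑ a ∈ s n, w n a) ≤ C := by
  let μ : ℕ → ProbabilityMeasure ℝ := fun n =>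
    ⟨law (s n) (w n) (X n), isProb_law (hw n) (hs n) (X n)⟩
  let μ₀ : ProbabilityMeasure ℝ := ⟨gaussianReal 0 v.toNNReal, inferInstance⟩
  have hcast : ∀ n, (∑ a ∈ s n, (w n a : ℂ)) = ((∑ a ∈ s n, w n a : ℝ) : ℂ) := by
    intro n; push_cast; rfl
  have hI : ∀ n (g : ℝ → ℂ), ∫ x, g x ∂(μ n : Measure ℝ) =
      (∑ a ∈ s n, (w n a : ℂ) * g (X n a)) / ∑ a ∈ s n, (w n a : ℂ) := by
    intro n g
    change ∫ x, g x ∂(law (s n) (w n) (X n)) = _
    rw [integral_law (hw n) (hs n), Finset.sum_div, hcast]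
    refine Finset.sum_congr rfl fun a _ => ?_
    rw [Complex.real_smul]
    push_cast
    ring
  have hconv : Tendsto μ atTop (𝓝 μ₀) := by
    refine ProbabilityMeasure.tendsto_of_tendsto_charFun fun t => ?_
    have : charFun (μ₀ : Measure ℝ) t = Complex.exp (-(v * t ^ 2 / 2 : ℝ)) := by
      change charFun (gaussianReal 0 v.toNNReal) t = _
      rw [charFun_gaussianReal, Real.coe_toNNReal _ hv]
      congr 1
      push_cast
      ring
    rw [this]
    refine (hc t).congr fun n => ?_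
    rw [charFun_apply_real, hI n (fun x => Complex.exp (t * x * Complex.I))]
    congr 1
    refine Finset.sum_congr rfl fun a _ => ?_
    congr 2
    push_cast
    ring
  -- the level `M`
  set M : ℝ := Real.sqrt (8 * v) + 1 with hMdef
  have hM : 0 < M := by
    have := Real.sqrt_nonneg (8 * v)
    linarith
  have hM2 : 8 * v ≤ M ^ 2 := by
    have h1 := Real.sqrt_nonneg (8 * v)
    have h2 := Real.sq_sqrt (show 0 ≤ 8 * v by linarith)
    nlinarith
  let g : BoundedContinuousFunction ℝ ℝ := BoundedContinuousFunction.ofNormedAddCommGroup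
    (cs M) (continuous_cs M) 1 (fun x => by
      rw [Real.norm_of_nonneg (cs_nonneg _ _)]; exact cs_le_one _ _)
  have hg := (ProbabilityMeasure.tendsto_iff_forall_integral_tendsto.1 hconv) g
  have h0 : ∫ x, cs M x ∂(μ₀ : Measure ℝ) ≤ 1 / 8 := by
    change ∫ x, cs M x ∂(gaussianReal 0 v.toNNReal) ≤ 1 / 8
    have h1 := gaussian_moment hv 2
    have h2 : gm v 2 = v := by
      unfold gm
      rw [if_pos (by decide)]
      norm_num [Nat.doubleFactorial]
    rw [h2] at h1
    calc ∫ x, cs M x ∂(gaussianReal 0 v.toNNReal) ≤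
          ∫ x, x ^ 2 / M ^ 2 ∂(gaussianReal 0 v.toNNReal) := by
          refine integral_mono ?_ ((integrable_pow_gaussian v 2).div_const _) fun x =>
            min_le_right _ _
          exact g.integrable (gaussianReal 0 v.toNNReal)
      _ = v / M ^ 2 := by rw [integral_div, h1]
      _ ≤ 1 / 8 := by
          rw [div_le_div_iff₀ (by positivity) (by norm_num)]
          linarith
  have hev : ∀ᶠ n in atTop, ∫ x, cs M x ∂(μ n : Measure ℝ) < 1 / 4 := by
    have : ∫ x, g x ∂(μ₀ : Measure ℝ) < 1 / 4 := lt_of_le_of_lt h0 (by norm_num)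
    exact hg.eventually_lt_const this
  refine ⟨2 * Cm (2 * k) * (2 * M + L) ^ (2 * k), ?_⟩
  filter_upwards [hev, hmp, hmp'] with n hn h1 h2
  have hw' : ∀ a ∈ s n, 0 ≤ w n a / ∑ b ∈ s n, w n b := fun a ha => div_nonneg (hw n a ha) (hs n).le
  have hone : ∑ a ∈ s n, w n a / ∑ b ∈ s n, w n b = 1 := by
    rw [← Finset.sum_div]; exact div_self (hs n).ne'
  have hint : ∫ x, cs M x ∂(μ n : Measure ℝ) =
      ∑ a ∈ s n, (w n a / ∑ b ∈ s n, w n b) * cs M (X n a) := by
    change ∫ x, cs M x ∂(law (s n) (w n) (X n)) = _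
    rw [integral_law (hw n) (hs n)]
    rfl
  rw [hint] at hn
  have tail : ∀ Y : ι n → ℝ, (∀ a, |Y a| = |X n a|) →
      tl (s n) (fun a => w n a / ∑ b ∈ s n, w n b) Y M ≤ 1 / 4 := by
    intro Y hY
    refine le_trans ?_ hn.le
    rw [tl_eq]
    refine Finset.sum_le_sum fun a ha => mul_le_mul_of_nonneg_left ?_ (hw' a ha)
    split_ifs with h
    · rw [ind_le_cs hM (by rw [← hY a]; exact h.trans (le_abs_self _))]
    · exact cs_nonneg _ _
  have mpdiv : ∀ Y : ι n → ℝ, (∀ a b, tl (s n) (w n) Y a * tl (s n) (w n) Y b ≤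
      tl (s n) (w n) Y ((a + b - L) / 2) ^ 2) → ∀ a b,
      tl (s n) (fun a => w n a / ∑ b ∈ s n, w n b) Y a *
        tl (s n) (fun a => w n a / ∑ b ∈ s n, w n b) Y b ≤
        tl (s n) (fun a => w n a / ∑ b ∈ s n, w n b) Y ((a + b - L) / 2) ^ 2 := by
    intro Y hY a b
    rw [tl_div', tl_div', tl_div', div_mul_div_comm, div_pow, sq (∑ b ∈ s n, w n b)]
    exact div_le_div_of_nonneg_right (hY a b) (mul_self_nonneg _)
  have key := two_sided hw' hone hL hM (tail (X n) fun _ => rfl)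
    (tail (fun i => - X n i) fun _ => abs_neg _) (mpdiv _ h1) (mpdiv _ h2) (2 * k)
  refine le_trans (le_of_eq ?_) key
  rw [Finset.sum_div]
  refine Finset.sum_congr rfl fun a _ => ?_
  have : |X n a| ^ (2 * k) = X n a ^ (2 * k) := by rw [pow_mul, sq_abs, ← pow_mul]
  rw [this]
  ring

/-- **moments from characteristic functions under the midpoint property** -/
theorem moments_of_mp {ι : ℕ → Type*} {s : ∀ n, Finset (ι n)} {w : ∀ n, ι n → ℝ} {X : ∀ n, ι n → ℝ}
    (hw : ∀ n, ∀ a ∈ s n, 0 ≤ w n a) (hs : ∀ n, 0 < ∑ b ∈ s n, w n b) {v : ℝ}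
    (hc : ∀ t : ℝ, Tendsto (fun n => (∑ a ∈ s n, (w n a : ℂ) *
        Complex.exp (Complex.I * (t * X n a : ℝ))) / ∑ a ∈ s n, (w n a : ℂ)) atTop
      (𝓝 (Complex.exp (-(v * t ^ 2 / 2 : ℝ)))))
    {L : ℝ} (hL : 0 ≤ L)
    (hmp : ∀ᶠ n in atTop, ∀ a b, tl (s n) (w n) (X n) a * tl (s n) (w n) (X n) b ≤
      tl (s n) (w n) (X n) ((a + b - L) / 2) ^ 2)
    (hmp' : ∀ᶠ n in atTop, ∀ a b, tl (s n) (w n) (fun i => - X n i) a *
      tl (s n) (w n) (fun i => - X n i) b ≤
      tl (s n) (w n) (fun i => - X n i) ((a + b - L) / 2) ^ 2) (k : ℕ) :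
    Tendsto (fun n => (∑ a ∈ s n, (w n a : ℂ) * ((X n a ^ k : ℝ) : ℂ)) / ∑ a ∈ s n, (w n a : ℂ))
      atTop (𝓝 ((gm v k : ℝ) : ℂ)) := by
  have hv : 0 ≤ v := nonneg_of_sum hw hs (hc 1)
  exact moments_of_sum hw hs hv hc (fun j => bdd_of_mp hw hs hv hc hL hmp hmp' j) k

/-! ### the integer models -/

open Crest.Agent.R144.It844

theorem ex_complex (x : ℝ) (Λ : Finset P2) (τ : P2 → ℤ) (g : (P2 → ℤ) → ℂ) :
    ex x Λ τ g = (∑ a ∈ conf Λ τ, (wt x Λ a : ℂ) * g a) / ∑ a ∈ conf Λ τ, (wt x Λ a : ℂ) := by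
  unfold ex Z
  rw [Complex.real_smul, Complex.ofReal_inv, Complex.ofReal_sum, div_eq_inv_mul]
  congr 1

/-- **moments of compatible observables of the integer models** -/
theorem ex_moments {x : ℝ} (hx0 : 0 < x) (hx1 : x ≤ 1) {Λ : ℕ → Finset P2} {τ : ℕ → P2 → ℤ}
    (hτ : ∀ n, Lip (τ n)) {X : ℕ → (P2 → ℤ) → ℝ} {L v : ℝ} (hL : 0 ≤ L)
    (hX : ∀ᶠ n in atTop, MidLin (conf (Λ n) (τ n)) (X n) L)
    (hc : ∀ t : ℝ, Tendsto (fun n => ex x (Λ n) (τ n)
        (fun h => Complex.exp (Complex.I * (t * X n h : ℝ)))) atTop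
      (𝓝 (Complex.exp (-(v * t ^ 2 / 2 : ℝ))))) (k : ℕ) :
    Tendsto (fun n => ex x (Λ n) (τ n) (fun h => ((X n h ^ k : ℝ) : ℂ))) atTop
      (𝓝 ((gm v k : ℝ) : ℂ)) := by
  have hx2 : x ^ 2 ≤ 1 := pow_le_one₀ hx0.le hx1
  simp only [ex_complex] at hc ⊢
  refine moments_of_mp (fun n a _ => wt_nonneg _ _ _) (fun n => Z_pos hx0 (hτ n)) hc hL ?_ ?_ k
  · filter_upwards [hX] with n hn a b
    exact mp_fin (nat2_conf hx2 (Λ n) (τ n)) hn a b
  · filter_upwards [hX] with n hn a b
    exact mp_fin (nat2_conf hx2 (Λ n) (τ n)) hn.neg a b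

/-! ### tilings: the sum of the `L¹` norms over tiles -/

section tile
open Crest.Agent.R144.Til353

theorem sum_tile_le {ι : Type*} {C : ι → Set ℂ} (hC : Tiling C) {f : ℂ → ℝ}
    (hf : Integrable f) (s : Finset ι) : ∑ i ∈ s, ∫ z in C i, |f z| ≤ ∫ z, |f z| := by
  have h1 : ∀ i, ∫ z in C i, |f z| = ∫ z in interior (C i), |f z| := by
    intro i
    refine setIntegral_congr_set ?_
    have h2 : volume (frontier (C i)) = 0 := (hC.convex i).addHaar_frontier volume
    refine Filter.EventuallyEq.symm (ae_eq_set.2 ⟨?_, ?_⟩)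
    · rw [Set.sdiff_eq_empty.2 interior_subset, measure_empty]
    · refine measure_mono_null ?_ h2
      rw [frontier]
      exact Set.sdiff_subset_sdiff_left subset_closure
  simp only [h1]
  rw [← integral_biUnion_finset s (fun i _ => isOpen_interior.measurableSet) ?_
    (fun i _ => hf.abs.integrableOn)]
  · exact setIntegral_le_integral hf.abs (ae_of_all _ fun z => abs_nonneg _)
  · intro i _ j _ hij
    exact (hC.disj i j hij).mono_right interior_subset

theorem sum_abs_tile_le {ι : Type*} {C : ι → Set ℂ} (hC : Tiling C) {f : ℂ → ℝ}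
    (hf : Integrable f) (s : Finset ι) : ∑ i ∈ s, |∫ z in C i, f z| ≤ ∫ z, |f z| :=
  (Finset.sum_le_sum fun _ _ => abs_integral_le_integral_abs).trans (sum_tile_le hC hf s)

end tile

/-! ### S0195 -/

section S0195
open Crest.ProbabilityR.HexHeights (heightExpect pairing cell Height)

/-- **the moment half of S0195 from the law half** -/
theorem height_moments' {x : ℝ} (hx0 : 0 < x) (hx1 : x ≤ 1) {δ : ℕ → ℝ} (hδ : ∀ n, 0 < δ n)
    {F : ℕ → Finset (ℤ × ℤ)} {f : ℂ → ℝ} (hf : Integrable f) (σ : ℝ) {v : ℝ}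
    (hc : ∀ t : ℝ, Tendsto (fun n => heightExpect (F n) x
        (fun h => Complex.exp (Complex.I * (t * pairing (δ n) f h / σ : ℝ)))) atTop
      (𝓝 (Complex.exp (-(v * t ^ 2 / 2 : ℝ))))) (k : ℕ) :
    Tendsto (fun n => heightExpect (F n) x (fun h => ((pairing (δ n) f h / σ) ^ k : ℝ))) atTop
      (𝓝 ((if Even k then v ^ (k / 2) * ((k - 1).doubleFactorial : ℝ) else 0 : ℝ) : ℂ)) := by
  let X : ℕ → (P2 → ℤ) → ℝ := fun n h =>
    σ⁻¹ * ∑ u ∈ F n, (∫ z in cell (δ n) u, f z) * (h u : ℝ)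
  have hXe : ∀ n (h : Height (F n)), pairing (δ n) f h / σ = X n (extF h) := by
    intro n h
    rw [pairing_eq, div_eq_inv_mul]
    simp only [X]
    congr 1
    exact Finset.sum_congr rfl fun u _ => mul_comm _ _
  have hL : ∀ n, MidLin (conf (intF (F n)) (fun _ => 0)) (X n) (|σ⁻¹| * ∫ z, |f z|) := by
    intro n
    refine (midLin_sum _ (F n) _).mul_const σ⁻¹ |>.mono ?_
    exact mul_le_mul_of_nonneg_left
      (sum_abs_tile_le (Crest.Agent.R144.HexTil353.tiling (hδ n)) hf (F n)) (abs_nonneg _)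
  have h1 : ∀ t : ℝ, Tendsto (fun n => ex x (intF (F n)) (fun _ => (0 : ℤ))
        (fun h => Complex.exp (Complex.I * (t * X n h : ℝ)))) atTop
      (𝓝 (Complex.exp (-(v * t ^ 2 / 2 : ℝ)))) := by
    intro t
    refine (hc t).congr fun n => ?_
    refine heightExpect_eq (F n) x _ _ fun h _ => ?_
    rw [← hXe, mul_div_assoc]
  have h2 := ex_moments hx0 hx1 (fun n => lip_const 0)
    (mul_nonneg (abs_nonneg _) (integral_nonneg fun _ => abs_nonneg _))
    (Eventually.of_forall hL) h1 k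
  refine h2.congr fun n => ?_
  symm
  exact heightExpect_eq (F n) x _ _ fun h _ => by rw [← hXe]

end S0195

/-! ### S0196 -/

section S0196
open Crest.ProbabilityR.HexHeights (centre)
open Crest.ProbabilityR.TriHeights (Tri corner corners verts triRegion bary IntHeight IsTwoArcHeight
  twoArcExpect oddHeight affinePairing)
open Crest.Agent.R144.Til353

theorem midLin_sum' {V β : Type*} (S : Finset (V → ℤ)) (s : Finset β) (g : β → V) (f : β → ℝ) :
    MidLin S (fun a => ∑ i ∈ s, f i * (a (g i) : ℝ)) (∑ i ∈ s, |f i|) := by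
  intro a ha b hb
  refine ⟨?_, ?_⟩
  · rw [← Finset.sum_add_distrib, ← Finset.sum_add_distrib]
    refine Finset.sum_congr rfl fun v _ => ?_
    rw [← mul_add, ← mul_add, (midLin_eval S (g v) a ha b hb).1]
  · rw [← Finset.sum_sub_distrib]
    refine (Finset.abs_sum_le_sum_abs _ _).trans (Finset.sum_le_sum fun v _ => ?_)
    rw [← mul_sub, abs_mul]
    have := (midLin_eval S (g v) a ha b hb).2
    have h0 := abs_nonneg (f v)
    nlinarith

/-- barycentric coordinates lie in `[0, 1]` on the triangle -/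
theorem bary_mem {p q r z : ℂ} (hz : z ∈ convexHull ℝ ({p, q, r} : Set ℂ)) :
    0 ≤ bary p q r z ∧ bary p q r z ≤ 1 := by
  rw [convexHull_insert ⟨q, by simp⟩, convexHull_pair] at hz
  simp only [mem_convexJoin, Set.mem_singleton_iff, exists_eq_left] at hz
  obtain ⟨w, hw, hz⟩ := hz
  obtain ⟨a, b, ha, hb, hab, rfl⟩ := hw
  obtain ⟨c, d, hc, hd, hcd, rfl⟩ := hz
  have key : ((starRingEnd ℂ (q - (c • p + d • (a • q + b • r)))) *
      (r - (c • p + d • (a • q + b • r)))).im =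
      c * ((starRingEnd ℂ (q - p)) * (r - p)).im := by
    have ea : a = 1 - b := by linarith
    have ec : d = 1 - c := by linarith
    subst ea ec
    simp only [Complex.mul_im, Complex.conj_re, Complex.conj_im, Complex.sub_re, Complex.sub_im,
      Complex.add_re, Complex.add_im, Complex.real_smul, Complex.mul_re, Complex.ofReal_re,
      Complex.ofReal_im, zero_mul, sub_zero, add_zero]
    ring
  unfold bary
  rw [key]
  by_cases h0 : ((starRingEnd ℂ (q - p)) * (r - p)).im = 0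
  · rw [h0, mul_zero, div_zero]
    exact ⟨le_rfl, zero_le_one⟩
  · rw [mul_div_assoc, div_self h0, mul_one]
    exact ⟨hc, by linarith⟩

theorem corners_eq (t : Tri) (k : Fin 3) :
    (corners t : Set (ℤ × ℤ)) = {corner t k, corner t (k + 1), corner t (k + 2)} := by
  ext v
  simp only [corners, Finset.coe_image, Finset.coe_univ, Set.image_univ, Set.mem_range,
    Set.mem_insert_iff, Set.mem_singleton_iff]
  constructor
  · rintro ⟨j, rfl⟩
    fin_cases k <;> fin_cases j <;> simp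
  · rintro (h | h | h)
    · exact ⟨_, h.symm⟩
    · exact ⟨_, h.symm⟩
    · exact ⟨_, h.symm⟩

theorem bary_tri {δ : ℝ} {t : Tri} (k : Fin 3) {z : ℂ} (hz : z ∈ triRegion δ t) :
    0 ≤ bary (centre δ (corner t k)) (centre δ (corner t (k + 1))) (centre δ (corner t (k + 2))) z ∧
    bary (centre δ (corner t k)) (centre δ (corner t (k + 1))) (centre δ (corner t (k + 2))) z ≤ 1 := by
  refine bary_mem ?_
  unfold triRegion at hz
  rw [corners_eq t k, Set.image_insert_eq, Set.image_insert_eq, Set.image_singleton] at hz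
  exact hz

/-- the coefficients of the affine pairing -/
def ac (δ : ℝ) (f : ℂ → ℝ) (t : Tri) (k : Fin 3) : ℝ := ∫ z in triRegion δ t,
  f z * bary (centre δ (corner t k)) (centre δ (corner t (k + 1))) (centre δ (corner t (k + 2))) z

theorem abs_ac_le {δ : ℝ} {f : ℂ → ℝ} (hf : Integrable f) {t : Tri}
    (ht : MeasurableSet (triRegion δ t)) (k : Fin 3) : |ac δ f t k| ≤ ∫ z in triRegion δ t, |f z| := by
  unfold ac
  refine (abs_integral_le_integral_abs).trans ?_
  refine integral_mono_of_nonneg (ae_of_all _ fun z => abs_nonneg _) hf.abs.integrableOn ?_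
  filter_upwards [ae_restrict_mem ht] with z hz
  obtain ⟨h1, h2⟩ := bary_tri k hz
  rw [abs_mul, abs_of_nonneg h1]
  exact mul_le_of_le_one_right (abs_nonneg _) h2

theorem sum_ac_le {δ : ℝ} (hC : Tiling (triRegion δ)) {f : ℂ → ℝ} (hf : Integrable f)
    (T : Finset Tri) : ∑ t ∈ T, ∑ k : Fin 3, |ac δ f t k| ≤ 3 * ∫ z, |f z| := by
  have h1 : ∑ t ∈ T, ∑ k : Fin 3, |ac δ f t k| ≤ ∑ t ∈ T, 3 * ∫ z in triRegion δ t, |f z| := by
    refine Finset.sum_le_sum fun t _ => ?_
    refine (Finset.sum_le_sum fun k _ => abs_ac_le hf (hC.closed t).measurableSet k).trans ?_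
    rw [Finset.sum_const, Finset.card_univ, Fintype.card_fin, nsmul_eq_mul]
    norm_num
  rw [← Finset.mul_sum] at h1
  exact h1.trans (mul_le_mul_of_nonneg_left (sum_tile_le hC hf T) (by norm_num))

/-- the affine pairing as an affine function of the extended height -/
def apX (δ : ℝ) (T : Finset Tri) (f : ℂ → ℝ) (h : P2 → ℤ) : ℝ :=
  ∑ p ∈ T ×ˢ (Finset.univ : Finset (Fin 3)), (2 * ac δ f p.1 p.2) * (h (corner p.1 p.2) : ℝ) -
    (- ∑ p ∈ T ×ˢ (Finset.univ : Finset (Fin 3)), ac δ f p.1 p.2)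

theorem affinePairing_eq (δ : ℝ) (T : Finset Tri) (f : ℂ → ℝ) (Am : Set P2) (H : IntHeight T) :
    affinePairing δ T f (oddHeight H) = apX δ T f (extT Am H) := by
  unfold affinePairing apX
  rw [sub_neg_eq_add, ← Finset.sum_add_distrib, Finset.sum_product]
  refine Finset.sum_congr rfl fun t ht => Finset.sum_congr rfl fun k _ => ?_
  have hv : corner t k ∈ verts T :=
    Finset.mem_biUnion.2 ⟨t, ht, Finset.mem_image.2 ⟨k, Finset.mem_univ _, rfl⟩⟩
  rw [oddHeight_eq Am H hv]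
  simp only [ac]
  ring

theorem midLin_apX {δ : ℝ} (hC : Tiling (triRegion δ)) {f : ℂ → ℝ} (hf : Integrable f)
    (T : Finset Tri) (S : Finset (P2 → ℤ)) : MidLin S (apX δ T f) (6 * ∫ z, |f z|) := by
  refine ((midLin_sum' S (T ×ˢ (Finset.univ : Finset (Fin 3))) (fun p => corner p.1 p.2)
    (fun p => 2 * ac δ f p.1 p.2)).sub_const _).mono ?_
  have h1 := sum_ac_le hC hf T
  rw [Finset.sum_product]
  simp only [abs_mul, abs_two]
  simp only [← Finset.mul_sum]
  linarith

/-- **the moment half of S0196 from the law half** -/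
theorem twoArc_moments' {δ : ℕ → ℝ} (hC : ∀ n, Tiling (triRegion (δ n))) {T : ℕ → Finset Tri}
    {Ap Am : ℕ → Set (ℤ × ℤ)} {Λ : ℕ → Finset (ℤ × ℤ)}
    (hF : ∀ n, FreeSet (T n) (Ap n) (Am n) (Λ n)) {f : ℂ → ℝ} (hf : Integrable f)
    (m : ℕ → ℝ) (σ : ℝ) {v : ℝ}
    (hc : ∀ t : ℝ, Tendsto (fun n => twoArcExpect (T n) (Ap n) (Am n)
        (fun H => Complex.exp (Complex.I *
          (t * (affinePairing (δ n) (T n) f (oddHeight H) - m n) / σ : ℝ)))) atTop
      (𝓝 (Complex.exp (-(v * t ^ 2 / 2 : ℝ))))) (k : ℕ) :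
    Tendsto (fun n => twoArcExpect (T n) (Ap n) (Am n)
        (fun H => (((affinePairing (δ n) (T n) f (oddHeight H) - m n) / σ) ^ k : ℝ))) atTop
      (𝓝 ((if Even k then v ^ (k / 2) * ((k - 1).doubleFactorial : ℝ) else 0 : ℝ) : ℂ)) := by
  let X : ℕ → (P2 → ℤ) → ℝ := fun n h => σ⁻¹ * (apX (δ n) (T n) f h - m n)
  have hXe : ∀ n (H : IntHeight (T n)),
      (affinePairing (δ n) (T n) f (oddHeight H) - m n) / σ = X n (extT (Am n) H) := by
    intro n H
    rw [affinePairing_eq (δ n) (T n) f (Am n) H, div_eq_inv_mul]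
  have hL : ∀ n, MidLin (conf (Λ n) (xi (Am n))) (X n) (|σ⁻¹| * (6 * ∫ z, |f z|)) := fun n =>
    ((midLin_apX (hC n) hf (T n) _).sub_const (m n)).mul_const σ⁻¹
  have h1 : ∀ t : ℝ, Tendsto (fun n => ex 1 (Λ n) (xi (Am n))
        (fun h => Complex.exp (Complex.I * (t * X n h : ℝ)))) atTop
      (𝓝 (Complex.exp (-(v * t ^ 2 / 2 : ℝ)))) := by
    intro t
    refine (hc t).congr fun n => ?_
    refine twoArcExpect_eq (hF n) _ _ fun H _ => ?_
    rw [← hXe, mul_div_assoc]
  have h2 := ex_moments one_pos le_rfl (fun n => lip_xi (Am n))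
    (mul_nonneg (abs_nonneg _) (mul_nonneg (by norm_num) (integral_nonneg fun _ => abs_nonneg _)))
    (Eventually.of_forall hL) h1 k
  refine h2.congr fun n => ?_
  symm
  exact twoArcExpect_eq (hF n) _ _ fun H _ => by rw [← hXe]

end S0196

end Crest.Agent.R144.Dpl702
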