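import Mathlib
import Crest.Agent.R144.Geo3_268

/-! R144 (helper268) COL block, file 1: `C²` Jordan domains: Taylor bound, chord-arc, uniform
interior and exterior balls. -/

set_option autoImplicit false

open Set Topology Filter Metric

namespace Crest.Agent.R144.Geo268

theorem periodic_deriv {E : Type*} [NormedAddCommGroup E] [NormedSpace ℝ E] {f : ℝ → E} {T : ℝ}
    (h : Function.Periodic f T) : Function.Periodic (deriv f) T := by
  intro x
  have h1 : (fun y => f (y + T)) = f := funext h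
  have h2 := deriv_comp_add_const f T x
  rw [h1] at h2
  exact h2.symm

theorem periodic_bdd {E : Type*} [NormedAddCommGroup E] {f : ℝ → E} (hc : Continuous f)
    (hp : Function.Periodic f (2 * Real.pi)) : ∃ M > 0, ∀ x, ‖f x‖ ≤ M := by
  obtain ⟨M, hM⟩ := (isCompact_Icc (a := (0 : ℝ)) (b := 2 * Real.pi)).exists_bound_of_continuousOn
    hc.continuousOn
  refine ⟨max M 1, by positivity, fun x => ?_⟩
  obtain ⟨y, hy, hxy⟩ := hp.exists_mem_Ico₀ two_pi_pos' x
  rw [hxy]
  exact (hM y (Ico_subset_Icc_self hy)).trans (le_max_left _ _)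

theorem periodic_pos {f : ℝ → ℝ} (hc : Continuous f)
    (hp : Function.Periodic f (2 * Real.pi)) (h0 : ∀ x, 0 < f x) : ∃ m > 0, ∀ x, m ≤ f x := by
  obtain ⟨m, hm, hmin⟩ := (isCompact_Icc (a := (0 : ℝ)) (b := 2 * Real.pi)).exists_isMinOn
    (nonempty_Icc.2 pi2) hc.continuousOn
  refine ⟨f m, h0 m, fun x => ?_⟩
  obtain ⟨y, hy, hxy⟩ := hp.exists_mem_Ico₀ two_pi_pos' x
  rw [hxy]
  exact hmin (Ico_subset_Icc_self hy)

/-- metric constants of a `C²` regular simple closed curve -/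
structure Met (γ : ℝ → ℂ) (m M c : ℝ) : Prop where
  mpos : 0 < m
  Mpos : 0 < M
  cpos : 0 < c
  low : ∀ s, m ≤ ‖deriv γ s‖
  up : ∀ s, ‖deriv γ s‖ ≤ M
  lip : ∀ s t, ‖deriv γ t - deriv γ s‖ ≤ M * |t - s|
  taylor : ∀ s t, ‖γ t - γ s - ((t - s : ℝ) : ℂ) * deriv γ s‖ ≤ M * |t - s| ^ 2
  chord : ∀ s t, |t - s| ≤ Real.pi → c * |t - s| ≤ ‖γ t - γ s‖

theorem Reg.exists_met {γ : ℝ → ℂ} (h : Reg γ) (h2 : ContDiff ℝ 2 γ) :
    ∃ m M c, Met γ m M c := by
  have hpi := Real.pi_pos
  have hd1 : ContDiff ℝ 1 (deriv γ) := by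
    have : ContDiff ℝ (1 + 1) γ := by
      rw [one_add_one_eq_two]; exact h2
    exact (contDiff_succ_iff_deriv.1 this).2.2
  have hc2 : Continuous (deriv (deriv γ)) := hd1.continuous_deriv (by norm_num)
  obtain ⟨m, hm, hlow⟩ := periodic_pos (f := fun s => ‖deriv γ s‖) h.contDeriv.norm
    (fun x => by simp only [periodic_deriv h.per x]) (fun x => norm_pos_iff.2 (h.reg x))
  obtain ⟨M1, hM1, hup⟩ := periodic_bdd h.contDeriv (periodic_deriv h.per)
  obtain ⟨M2, hM2, hup2⟩ := periodic_bdd hc2 (periodic_deriv (periodic_deriv h.per))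
  set M := max M1 M2 with hM
  have hMpos : 0 < M := lt_max_of_lt_left hM1
  have hlip : ∀ s t, ‖deriv γ t - deriv γ s‖ ≤ M * |t - s| := by
    intro s t
    have h3 := (convex_univ (𝕜 := ℝ) (E := ℝ)).norm_image_sub_le_of_norm_deriv_le
      (f := deriv γ) (C := M2) (fun x _ => (hd1.differentiable (by norm_num)) x)
      (fun x _ => hup2 x) (mem_univ s) (mem_univ t)
    rw [Real.norm_eq_abs] at h3
    exact h3.trans (mul_le_mul_of_nonneg_right (le_max_right _ _) (abs_nonneg _))
  have htaylor : ∀ s t, ‖γ t - γ s - ((t - s : ℝ) : ℂ) * deriv γ s‖ ≤ M * |t - s| ^ 2 := by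
    intro s t
    have hdx : ∀ x : ℝ, HasDerivAt (fun x : ℝ => γ x - (x : ℂ) * deriv γ s)
        (deriv γ x - deriv γ s) x := fun x => by
      have h9 := ((h.diff x).hasDerivAt).sub ((Complex.ofRealCLM.hasDerivAt (x := x)).mul_const (deriv γ s))
      exact h9.congr_deriv (by simp)
    have h3 := (convex_uIcc s t).norm_image_sub_le_of_norm_hasDerivWithin_le
      (f := fun x : ℝ => γ x - (x : ℂ) * deriv γ s) (f' := fun x => deriv γ x - deriv γ s)
      (C := M * |t - s|) (fun x _ => (hdx x).hasDerivWithinAt)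
      (fun x hx => by
        refine (hlip s x).trans ?_
        apply mul_le_mul_of_nonneg_left _ hMpos.le
        exact abs_sub_left_of_mem_uIcc hx) left_mem_uIcc right_mem_uIcc
    rw [Real.norm_eq_abs] at h3
    calc _ = ‖(γ t - (t : ℂ) * deriv γ s) - (γ s - (s : ℂ) * deriv γ s)‖ := by
          congr 1
          push_cast
          ring
      _ ≤ M * |t - s| * |t - s| := h3
      _ = _ := by ring
  -- chord-arc
  set ε := m / (2 * M) with hε
  have hεpos : 0 < ε := by positivity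
  obtain ⟨ρ, hρ, hfar⟩ : ∃ ρ > 0, ∀ s t, ε ≤ |t - s| → |t - s| ≤ Real.pi → ρ ≤ ‖γ t - γ s‖ := by
    set K : Set (ℝ × ℝ) := Icc 0 (2 * Real.pi) ×ˢ {r : ℝ | ε ≤ |r| ∧ |r| ≤ Real.pi} with hK
    have hKr : IsCompact {r : ℝ | ε ≤ |r| ∧ |r| ≤ Real.pi} := by
      refine (isCompact_Icc (a := -Real.pi) (b := Real.pi)).of_isClosed_subset ?_ ?_
      · exact (isClosed_le continuous_const continuous_abs).inter
          (isClosed_le continuous_abs continuous_const)
      · rintro r ⟨-, hr⟩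
        exact abs_le.1 hr
    have hKc : IsCompact K := isCompact_Icc.prod hKr
    rcases K.eq_empty_or_nonempty with he | hne
    · refine ⟨1, one_pos, fun s t h3 h4 => ?_⟩
      exfalso
      have : ((0 : ℝ), t - s) ∈ K := ⟨⟨le_rfl, pi2⟩, h3, h4⟩
      rw [he] at this
      exact this
    · have hcont : ContinuousOn (fun q : ℝ × ℝ => ‖γ (q.1 + q.2) - γ q.1‖) K := by
        have := h.cur.cont
        fun_prop
      obtain ⟨q, hq, hmin⟩ := hKc.exists_isMinOn hne hcont
      refine ⟨‖γ (q.1 + q.2) - γ q.1‖, norm_pos_iff.2 (sub_ne_zero.2 ?_), fun s t h3 h4 => ?_⟩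
      · obtain ⟨-, h5, h6⟩ := hq
        rcases le_total 0 q.2 with h7 | h7
        · rw [abs_of_nonneg h7] at h5 h6
          exact ne_of_Ioo h.per h.inj (by linarith) (by linarith)
        · rw [abs_of_nonpos h7] at h5 h6
          exact (ne_of_Ioo h.per h.inj (s := q.1) (t := q.1 + q.2) (by linarith) (by linarith)).symm
      · obtain ⟨y, hy, hsy⟩ := h.per.exists_mem_Ico₀ two_pi_pos' s
        have h8 : γ s = γ (toIcoMod two_pi_pos' 0 s) := by
          rw [toIcoMod]
          exact (h.per.sub_zsmul_eq _).symm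
        have h9 : γ t = γ (toIcoMod two_pi_pos' 0 s + (t - s)) := by
          rw [toIcoMod]
          have : s - toIcoDiv two_pi_pos' 0 s • (2 * Real.pi) + (t - s) =
              t - toIcoDiv two_pi_pos' 0 s • (2 * Real.pi) := by ring
          rw [this]
          exact (h.per.sub_zsmul_eq _).symm
        have h10 := toIcoMod_mem_Ico two_pi_pos' 0 s
        rw [zero_add] at h10
        have h11 : (toIcoMod two_pi_pos' 0 s, t - s) ∈ K := ⟨Ico_subset_Icc_self h10, h3, h4⟩
        have h12 := hmin h11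
        rw [h8, h9]
        exact h12
  refine ⟨m, M, min (m / 2) (ρ / Real.pi), hm, hMpos, by positivity, hlow,
    fun s => (hup s).trans (le_max_left _ _), hlip, htaylor, fun s t hst => ?_⟩
  rcases le_total ε |t - s| with h3 | h3
  · have h4 := hfar s t h3 hst
    calc min (m / 2) (ρ / Real.pi) * |t - s| ≤ (ρ / Real.pi) * Real.pi := by
          apply mul_le_mul (min_le_right _ _) hst (abs_nonneg _) (by positivity)
      _ = ρ := by field_simp
      _ ≤ _ := h4
  · have h4 := htaylor s t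
    have h5 : ‖((t - s : ℝ) : ℂ) * deriv γ s‖ = |t - s| * ‖deriv γ s‖ := by
      rw [norm_mul, Complex.norm_real, Real.norm_eq_abs]
    have h6 : ‖((t - s : ℝ) : ℂ) * deriv γ s‖ ≤
        ‖γ t - γ s - ((t - s : ℝ) : ℂ) * deriv γ s‖ + ‖γ t - γ s‖ := by
      have := norm_sub_le (γ t - γ s) (γ t - γ s - ((t - s : ℝ) : ℂ) * deriv γ s)
      rw [sub_sub_cancel] at this
      linarith
    have h7 : m * |t - s| ≤ |t - s| * ‖deriv γ s‖ := by
      rw [mul_comm]
      exact mul_le_mul_of_nonneg_left (hlow s) (abs_nonneg _)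
    have h8 : M * |t - s| ^ 2 ≤ m / 2 * |t - s| := by
      have : M * |t - s| ≤ m / 2 := by
        calc M * |t - s| ≤ M * ε := mul_le_mul_of_nonneg_left h3 hMpos.le
          _ = m / 2 := by rw [hε]; field_simp
      calc M * |t - s| ^ 2 = (M * |t - s|) * |t - s| := by ring
        _ ≤ _ := mul_le_mul_of_nonneg_right this (abs_nonneg _)
    have h9 : min (m / 2) (ρ / Real.pi) * |t - s| ≤ m / 2 * |t - s| :=
      mul_le_mul_of_nonneg_right (min_le_left _ _) (abs_nonneg _)
    rw [h5] at h6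
    linarith

/-- every point of the curve is `γ t` with `|t - s| ≤ π` -/
theorem exists_near_param {γ : ℝ → ℂ} (hp : Function.Periodic γ (2 * Real.pi)) (s t : ℝ) :
    ∃ t', |t' - s| ≤ Real.pi ∧ γ t' = γ t := by
  obtain ⟨y, hy, hty⟩ := hp.exists_mem_Ico two_pi_pos' t (s - Real.pi)
  refine ⟨y, ?_, hty.symm⟩
  rw [abs_le]
  constructor
  · linarith [hy.1]
  · linarith [hy.2]

/-- tangent balls on both sides avoid the curve -/
theorem Met.ball_disj {γ : ℝ → ℂ} {m M c : ℝ} (hm : Met γ m M c)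
    (hp : Function.Periodic γ (2 * Real.pi)) {s : ℝ} {n : ℂ} (hn : ‖n‖ = 1)
    (hperp : (deriv γ s * (starRingEnd ℂ) n).re = 0) {r : ℝ} (hr : 0 < r)
    (hr' : 2 * M * r ≤ c ^ 2) : Disjoint (ball (γ s + r * n) r) (range γ) := by
  rw [disjoint_left]
  rintro z hz ⟨t, rfl⟩
  obtain ⟨t', ht', htt⟩ := exists_near_param hp s t
  rw [← htt, mem_ball, dist_eq_norm] at hz
  set w := γ t' - γ s with hw
  have h1 : γ t' - (γ s + r * n) = w - r * n := by rw [hw]; ring
  rw [h1] at hz
  have h2 : ‖w - r * n‖ ^ 2 = ‖w‖ ^ 2 - 2 * r * (w * (starRingEnd ℂ) n).re + r ^ 2 := by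
    rw [← Complex.normSq_eq_norm_sq, Complex.normSq_sub, Complex.normSq_eq_norm_sq,
      Complex.normSq_eq_norm_sq, norm_mul, hn, mul_one, Complex.norm_real, Real.norm_eq_abs,
      sq_abs]
    have : (w * (starRingEnd ℂ) (r * n)).re = r * (w * (starRingEnd ℂ) n).re := by
      rw [map_mul, Complex.conj_ofReal]
      have : w * ((r : ℂ) * (starRingEnd ℂ) n) = (r : ℂ) * (w * (starRingEnd ℂ) n) := by ring
      rw [this, Complex.re_ofReal_mul]
    rw [this]
    ring
  have h3 : ‖w - r * n‖ ^ 2 < r ^ 2 := by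
    have := norm_nonneg (w - r * n)
    nlinarith
  have h4 : (w * (starRingEnd ℂ) n).re ≤ M * |t' - s| ^ 2 := by
    have h5 := hm.taylor s t'
    have h6 : (w * (starRingEnd ℂ) n).re =
        ((w - ((t' - s : ℝ) : ℂ) * deriv γ s) * (starRingEnd ℂ) n).re := by
      conv_rhs => rw [sub_mul, Complex.sub_re, mul_assoc, Complex.re_ofReal_mul, hperp, mul_zero,
        sub_zero]
    rw [h6]
    refine (Complex.re_le_norm _).trans ?_
    rw [norm_mul, RCLike.norm_conj, hn, mul_one]
    exact h5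
  have h5 := hm.chord s t' ht'
  have h6 : c ^ 2 * |t' - s| ^ 2 ≤ ‖w‖ ^ 2 := by
    rw [← mul_pow]
    exact pow_le_pow_left₀ (mul_nonneg hm.cpos.le (abs_nonneg _)) h5 2
  have h7 : 2 * r * (w * (starRingEnd ℂ) n).re ≤ c ^ 2 * |t' - s| ^ 2 := by
    calc 2 * r * (w * (starRingEnd ℂ) n).re ≤ 2 * r * (M * |t' - s| ^ 2) :=
          mul_le_mul_of_nonneg_left h4 (by positivity)
      _ = (2 * M * r) * |t' - s| ^ 2 := by ring
      _ ≤ _ := mul_le_mul_of_nonneg_right hr' (by positivity)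
  linarith

end Crest.Agent.R144.Geo268
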