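import Mathlib
import Crest.Agent.R144.Cnt2_268
import Crest.Agent.R144.Col1_268
import Crest.Agent.R144.It1b_844

/-! R144 (helper268): the common SETUP of the integer statements S0195, S0196 (block D0): free sites
`Λ n`, boundary data `τ n` in `{-1, 0}`, marks `P`, uniform ball condition, density of boundary
sites. -/

set_option autoImplicit false

open Set Topology Filter Metric MeasureTheory

namespace Crest.Agent.R144.Set268

open Crest.ProbabilityR.HexHeights Crest.ProbabilityR.TriHeights Crest.Agent.R144.HexTil353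
  Crest.Agent.R144.Geo268 Crest.Agent.R144.Cnt268
open Crest.Agent.R144.It844 (intF xi Lip)

/-- boundary sites: not free, adjacent to a free site -/
def Bd (Λ : Finset (ℤ × ℤ)) (v : ℤ × ℤ) : Prop := v ∉ Λ ∧ ∃ w ∈ Λ, Adj w v

/-- the common setting of S0195 and S0196 -/
structure Setup (D : Set ℂ) (γ : ℝ → ℂ) (P : Finset ℂ) (δ : ℕ → ℝ) (Λ : ℕ → Finset (ℤ × ℤ))
    (τ : ℕ → ℤ × ℤ → ℤ) : Prop where
  dom : Dom D γ
  c2 : ContDiff ℝ 2 γ
  sites : Sites D δ Λ
  compl : ∀ n, Crest.Agent.R144.HexDom353.Conn Adj ((Λ n : Set (ℤ × ℤ))ᶜ)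
  data : ∀ n v, τ n v = -1 ∨ τ n v = 0
  marks : ∀ p ∈ P, p ∈ frontier D
  bnd : ∀ ε > 0, ∀ᶠ n in atTop, ∀ v, Bd (Λ n) v → infDist (centre (δ n) v) (frontier D) < ε
  cst : ∀ p ∈ frontier D, p ∉ P → ∃ r > 0, ∃ k : ℤ, (k = -1 ∨ k = 0) ∧
    ∀ᶠ n in atTop, ∀ v, Bd (Λ n) v → dist (centre (δ n) v) p ≤ r → τ n v = k

/-- **S0195** -/
theorem setup_hex {D : Set ℂ} {γ : ℝ → ℂ} {δ : ℕ → ℝ} {F : ℕ → Finset (ℤ × ℤ)}
    (hD : IsC2JordanDomain D γ) (hA : IsInsideApprox D γ δ F) :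
    Setup D γ ∅ δ (fun n => intF (F n)) (fun _ _ => 0) where
  dom := dom_of_C2 hD
  c2 := hD.2.2.2.1
  sites := sites_hex hD hA
  compl := fun n => Crest.Agent.R144.Cov353.hex_compl_conn
    (Crest.Agent.R144.Cov353.hex_dom hA n).2.2.1
  data := fun _ _ => Or.inr rfl
  marks := by simp
  bnd := fun ε hε => (Crest.Agent.R144.Cov353.hex_boundary_near hD hA hε).mono fun n hn v hv => by
    obtain ⟨h1, w, hw, hwv⟩ := hv
    have h2 := (Crest.Agent.R144.It844.mem_intF.1 hw).2 v hwv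
    exact hn v h2 h1
  cst := fun p _ _ => ⟨1, one_pos, 0, Or.inr rfl, Eventually.of_forall fun _ _ _ _ => rfl⟩

/-- a boundary site of the free set is a boundary vertex of the polygon -/
theorem bdv_of_bd {γ : ℝ → ℂ} {θ : ℝ} {δ : ℕ → ℝ} {T : ℕ → Finset Tri}
    {ea eb : ℕ → (ℤ × ℤ) × (ℤ × ℤ)} {c : ℕ → ℝ → ℂ}
    (hA : IsMarkedApprox γ θ δ T ea eb c) {n : ℕ} {v : ℤ × ℤ}
    (hv : Bd (freeVerts (T n) (arcPlus (δ n) (T n) (c n) θ) (arcMinus (δ n) (T n) (c n) θ)) v) :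
    IsBoundaryVertex (T n) v := by
  obtain ⟨h1, w, hw, hwv⟩ := hv
  rw [isBoundaryVertex_iff (hA.1 n)]
  rw [mem_free_iff hA n v] at h1
  rw [mem_free_iff hA n w] at hw
  exact ⟨(Crest.Agent.R144.It844.IsEdge.mem (isEdge_of_adj (hA.1 n) hw hwv)).2, h1⟩

/-- the free vertices are 353's interior vertices -/
theorem free_eq_Lam {γ : ℝ → ℂ} {θ : ℝ} {δ : ℕ → ℝ} {T : ℕ → Finset Tri}
    {ea eb : ℕ → (ℤ × ℤ) × (ℤ × ℤ)} {c : ℕ → ℝ → ℂ}
    (hA : IsMarkedApprox γ θ δ T ea eb c) (n : ℕ) :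
    freeVerts (T n) (arcPlus (δ n) (T n) (c n) θ) (arcMinus (δ n) (T n) (c n) θ) =
      Crest.Agent.R144.TriDom353.Lam (T n) := by
  ext v
  rw [mem_free_iff hA n v, centre_mem_polygon (hA.1 n), Crest.Agent.R144.TriDom353.mem_Lam]
  constructor
  · intro h k
    exact h _ (Crest.Agent.R144.TriDom353.self_mem_star v k)
  · intro h t ht
    obtain ⟨k, rfl⟩ := Crest.Agent.R144.TriDom353.mem_star.1 ht
    exact h k

/-- **S0196** (and the discrete domains of S0197) -/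
theorem setup_tri {D : Set ℂ} {γ : ℝ → ℂ} {θ : ℝ} {δ : ℕ → ℝ} {T : ℕ → Finset Tri}
    {ea eb : ℕ → (ℤ × ℤ) × (ℤ × ℤ)} {c : ℕ → ℝ → ℂ}
    (hD : IsSmoothMarkedDomain D γ θ) (hA : IsMarkedApprox γ θ δ T ea eb c) :
    Setup D γ {γ 0, γ θ} δ
      (fun n => freeVerts (T n) (arcPlus (δ n) (T n) (c n) θ) (arcMinus (δ n) (T n) (c n) θ))
      (fun n => xi (arcMinus (δ n) (T n) (c n) θ)) where
  dom := dom_of_marked hD
  c2 := contDiff_infty.1 hD.2.2.2.1 2
  sites := sites_tri hD hA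
  compl := fun n => by
    have h1 := Crest.Agent.R144.Cov353.tri_compl_conn
      (Crest.Agent.R144.Cov353.dom_of hA n).2.2.2.1
    rw [← free_eq_Lam hA n] at h1
    exact h1
  data := fun n v => Crest.Agent.R144.It844.xi_cases _ v
  marks := by
    intro p hp
    rw [← hD.2.2.2.2.2.2.2.1]
    simp only [Finset.mem_insert, Finset.mem_singleton] at hp
    rcases hp with rfl | rfl <;> exact mem_range_self _
  bnd := fun ε hε => (Crest.Agent.R144.Cov353.tri_boundary_near hD hA hε).mono fun n hn v hv =>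
    hn v (bdv_of_bd hA hv)
  cst := by
    intro p hp hpP
    simp only [Finset.mem_insert, Finset.mem_singleton, not_or] at hpP
    obtain ⟨hp0, hpθ⟩ := hpP
    rw [← hD.2.2.2.2.2.2.2.1] at hp
    obtain ⟨s', rfl⟩ := hp
    have hper := hD.2.2.2.2.1
    have hinj := hD.2.2.2.2.2.2.1
    have hθ0 := hD.2.2.2.2.2.2.2.2.1
    have hθ1 := hD.2.2.2.2.2.2.2.2.2
    have hcont : Continuous γ := hD.2.2.2.1.continuous
    obtain ⟨s, hs, hss⟩ := hper.exists_mem_Ico₀ two_pi_pos' s'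
    rw [hss] at hp0 hpθ ⊢
    have hs0 : s ≠ 0 := fun h => hp0 (by rw [h])
    have hsθ : s ≠ θ := fun h => hpθ (by rw [h])
    have hspos : 0 < s := lt_of_le_of_ne hs.1 hs0.symm
    -- a compact arc not containing the point
    have key : ∀ a b : ℝ, 0 ≤ a → b ≤ 2 * Real.pi → (s < a ∨ b < s) →
        ∃ r > 0, ∀ᶠ n in atTop, ∀ v : ℤ × ℤ, dist (centre (δ n) v) (γ s) ≤ r →
          ∀ t, a < t → t < b → c n t ≠ centre (δ n) v := by
      intro a b ha hb hsab
      have hcpt : IsCompact (γ '' Icc a b) := isCompact_Icc.image hcont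
      have hnot : γ s ∉ γ '' Icc a b := by
        rintro ⟨t, ht, hts⟩
        have ht' : t ∈ Icc 0 (2 * Real.pi) := ⟨ha.trans ht.1, ht.2.trans hb⟩
        rcases eq_or_lt_of_le ht'.2 with h1 | h1
        · have h2 : γ t = γ 0 := by
            have := hper 0
            rw [zero_add] at this
            rw [h1, this]
          exact hp0 (by rw [← hts, h2])
        · have h2 := hinj (⟨ht'.1, h1⟩ : t ∈ Ico 0 (2 * Real.pi)) hs hts
          rcases hsab with h3 | h3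
          · linarith [ht.1]
          · linarith [ht.2]
      obtain ⟨r, hr, hr'⟩ : ∃ r > 0, ∀ z ∈ γ '' Icc a b, 3 * r ≤ dist z (γ s) := by
        obtain ⟨r, hr, hr'⟩ := Metric.isOpen_iff.1 hcpt.isClosed.isOpen_compl (γ s) hnot
        refine ⟨r / 3, by positivity, fun z hz => ?_⟩
        by_contra hcon
        push Not at hcon
        exact hr' (mem_ball.2 (by linarith)) hz
      refine ⟨r, hr, ?_⟩
      filter_upwards [Metric.tendstoUniformly_iff.1 hA.2.2.2.2 r hr] with n hn v hv t hat htb h1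
      have h2 := hr' (γ t) ⟨t, ⟨hat.le, htb.le⟩, rfl⟩
      have h3 := hn t
      rw [h1] at h3
      have h4 := dist_triangle (γ t) (centre (δ n) v) (γ s)
      linarith
    rcases lt_or_gt_of_ne hsθ with hlt | hgt
    · obtain ⟨r, hr, hev⟩ := key θ (2 * Real.pi) hθ0.le le_rfl (Or.inl hlt)
      refine ⟨r, hr, 0, Or.inr rfl, hev.mono fun n hn v _ hvr => ?_⟩
      unfold xi
      rw [if_neg]
      rintro ⟨-, t, ht1, ht2, ht3⟩
      exact hn v hvr t ht1 ht2 ht3
    · obtain ⟨r, hr, hev⟩ := key 0 θ le_rfl hθ1.le (Or.inr hgt)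
      refine ⟨r, hr, -1, Or.inl rfl, hev.mono fun n hn v hv hvr => ?_⟩
      unfold xi
      rw [if_pos]
      rcases arcs_cover hA n (bdv_of_bd hA hv) with h1 | h1
      · obtain ⟨-, t, ht1, ht2, ht3⟩ := h1
        exact absurd ht3 (hn v hvr t ht1 ht2)
      · exact h1

end Crest.Agent.R144.Set268
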