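import Mathlib
import Crest.Agent.R144.Set1_268
import Crest.Agent.R144.Pst2_967
import Crest.Agent.R144.Zg_349

/-! R144 (helper268): SETUP, file 2: uniform two-sided ball condition, boundary sites are dense along
the frontier, bridges from the literal expectations to `It844.ex`. -/

set_option autoImplicit false

open Set Topology Filter Metric MeasureTheory

namespace Crest.Agent.R144.Set268

open Crest.ProbabilityR.HexHeights Crest.ProbabilityR.TriHeights Crest.Agent.R144.HexTil353
  Crest.Agent.R144.Geo268 Crest.Agent.R144.Cnt268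
open Crest.Agent.R144.It844 (intF xi Lip ex conf extF extT)

/-! ### uniform balls -/

/-- **uniform two-sided ball condition** for a `C²` Jordan domain: at every point of the frontier the
inner normal `n` gives a ball of radius `r` inside `D` and one outside `closure D`, both tangent -/
theorem exists_balls {D : Set ℂ} {γ : ℝ → ℂ} (h : Dom D γ) (h2 : ContDiff ℝ 2 γ) :
    ∃ r0 > 0, ∀ p ∈ frontier D, ∃ n : ℂ, ‖n‖ = 1 ∧ ∀ r : ℝ, 0 < r → r ≤ r0 →
      ball (p + r * n) r ⊆ D ∧ Disjoint (ball (p - r * n) r) (closure D) := by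
  obtain ⟨m, M, c, hm⟩ := h.reg.exists_met h2
  have hM := hm.Mpos
  have hc := hm.cpos
  refine ⟨c ^ 2 / (2 * M), by positivity, fun p hp => ?_⟩
  rw [← h.fr] at hp
  obtain ⟨s, rfl⟩ := hp
  have hd0 : deriv γ s ≠ 0 := h.reg.reg s
  have hdn : (0 : ℝ) < ‖deriv γ s‖ := norm_pos_iff.2 hd0
  set n0 : ℂ := deriv γ s * Complex.I / (‖deriv γ s‖ : ℂ) with hn0
  have hn0n : ‖n0‖ = 1 := by
    rw [hn0, norm_div, norm_mul, Complex.norm_I, mul_one, Complex.norm_real, norm_norm,
      div_self hdn.ne']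
  have hperp : (deriv γ s * (starRingEnd ℂ) n0).re = 0 := by
    rw [hn0, map_div₀, map_mul, Complex.conj_I, Complex.conj_ofReal]
    have : deriv γ s * ((starRingEnd ℂ) (deriv γ s) * -Complex.I / (‖deriv γ s‖ : ℂ)) =
        ((-(‖deriv γ s‖ : ℝ) : ℝ) : ℂ) * Complex.I := by
      have h3 : deriv γ s * (starRingEnd ℂ) (deriv γ s) = (‖deriv γ s‖ : ℂ) ^ 2 :=
        Complex.mul_conj' _
      have h4 : (‖deriv γ s‖ : ℂ) ≠ 0 := by exact_mod_cast hdn.ne'
      push_cast
      field_simp
      rw [h3]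
    rw [this, Complex.re_ofReal_mul, Complex.I_re, mul_zero]
  have hperp' : (deriv γ s * (starRingEnd ℂ) (-n0)).re = 0 := by
    rw [map_neg, mul_neg, Complex.neg_re, hperp, neg_zero]
  obtain ⟨l⟩ := h.reg.exists_loc s one_pos
  -- points of the two sides in the balls
  have hrad : ∀ r : ℝ, 0 < r → r ≤ c ^ 2 / (2 * M) → 2 * M * r ≤ c ^ 2 := by
    intro r _ hr
    rw [le_div_iff₀ (by positivity)] at hr
    linarith
  have hdist : ∀ t r : ℝ, 0 < t → t * ‖deriv γ s‖ < r → |t * ‖deriv γ s‖ - r| < r := by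
    intro t r ht hr
    have : 0 < t * ‖deriv γ s‖ := by positivity
    rw [abs_lt]
    constructor <;> linarith
  have hI : deriv γ s * Complex.I = (‖deriv γ s‖ : ℂ) * n0 := by
    have h4 : (‖deriv γ s‖ : ℂ) ≠ 0 := by exact_mod_cast hdn.ne'
    rw [hn0]
    field_simp
  have hLball : ∀ t r : ℝ, 0 < t → t * ‖deriv γ s‖ < r →
      γ s + deriv γ s * (t * Complex.I) ∈ ball (γ s + r * n0) r := by
    intro t r ht hr
    rw [mem_ball, dist_eq_norm]
    have : γ s + deriv γ s * (t * Complex.I) - (γ s + r * n0) =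
        ((t * ‖deriv γ s‖ - r : ℝ) : ℂ) * n0 := by
      have : deriv γ s * (t * Complex.I) = t * (deriv γ s * Complex.I) := by ring
      rw [this, hI]
      push_cast
      ring
    rw [this, norm_mul, hn0n, mul_one, Complex.norm_real, Real.norm_eq_abs]
    exact hdist t r ht hr
  have hRball : ∀ t r : ℝ, 0 < t → t * ‖deriv γ s‖ < r →
      γ s - deriv γ s * (t * Complex.I) ∈ ball (γ s + r * (-n0)) r := by
    intro t r ht hr
    rw [mem_ball, dist_eq_norm]
    have : γ s - deriv γ s * (t * Complex.I) - (γ s + r * (-n0)) =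
        -(((t * ‖deriv γ s‖ - r : ℝ) : ℂ) * n0) := by
      have : deriv γ s * (t * Complex.I) = t * (deriv γ s * Complex.I) := by ring
      rw [this, hI]
      push_cast
      ring
    rw [this, norm_neg, norm_mul, hn0n, mul_one, Complex.norm_real, Real.norm_eq_abs]
    exact hdist t r ht hr
  -- the generic argument: side `A` inside, side `B` outside
  have key : ∀ (A B : Set ℂ) (n : ℂ), ‖n‖ = 1 → (deriv γ s * (starRingEnd ℂ) n).re = 0 →
      (deriv γ s * (starRingEnd ℂ) (-n)).re = 0 →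
      A ⊆ D → (∀ z ∈ B, z ∉ D) →
      (∀ r : ℝ, 0 < r → ∃ z ∈ A, z ∈ ball (γ s + r * n) r) →
      (∀ r : ℝ, 0 < r → ∃ z ∈ B, z ∈ ball (γ s + r * (-n)) r) →
      ∀ r : ℝ, 0 < r → r ≤ c ^ 2 / (2 * M) →
        ball (γ s + r * n) r ⊆ D ∧ Disjoint (ball (γ s - r * n) r) (closure D) := by
    intro A B n hn h3 h3' hA hB hAb hBb r hr hr'
    have g1 := hm.ball_disj h.reg.per hn h3 hr (hrad r hr hr')
    have g2 := hm.ball_disj h.reg.per (n := -n) (by rw [norm_neg]; exact hn) h3' hr (hrad r hr hr')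
    obtain ⟨z1, hz1, hz1'⟩ := hAb r hr
    obtain ⟨z2, hz2, hz2'⟩ := hBb r hr
    constructor
    · exact h.sub_of_meets (convex_ball _ _).isPreconnected g1 hz1' (hA hz1)
    · have h4 : γ s - r * n = γ s + r * (-n) := by ring
      rw [h4]
      have h5 : Disjoint (ball (γ s + r * (-n)) r) D := by
        rw [disjoint_left]
        intro z hz hzD
        have := h.sub_of_meets (convex_ball _ _).isPreconnected g2 hz hzD
        exact hB z2 hz2 (this hz2')
      exact h5.closure_right isOpen_ball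
  have hexL : ∀ r : ℝ, 0 < r → ∃ z ∈ l.L, z ∈ ball (γ s + r * n0) r := by
    intro r hr
    set t := min (l.δ / 2) (r / (2 * ‖deriv γ s‖)) with ht
    have hδ := l.δpos
    have htpos : 0 < t := by positivity
    have ht1 : t < l.δ := (min_le_left _ _).trans_lt (by linarith)
    have ht2 : t * ‖deriv γ s‖ < r := by
      have : t ≤ r / (2 * ‖deriv γ s‖) := min_le_right _ _
      calc t * ‖deriv γ s‖ ≤ r / (2 * ‖deriv γ s‖) * ‖deriv γ s‖ :=
            mul_le_mul_of_nonneg_right this hdn.le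
        _ = r / 2 := by field_simp
        _ < r := by linarith
    exact ⟨_, l.left s t (by rw [sub_self, abs_zero]; exact hδ) htpos ht1, hLball t r htpos ht2⟩
  have hexR : ∀ r : ℝ, 0 < r → ∃ z ∈ l.R, z ∈ ball (γ s + r * (-n0)) r := by
    intro r hr
    set t := min (l.δ / 2) (r / (2 * ‖deriv γ s‖)) with ht
    have hδ := l.δpos
    have htpos : 0 < t := by positivity
    have ht1 : t < l.δ := (min_le_left _ _).trans_lt (by linarith)
    have ht2 : t * ‖deriv γ s‖ < r := by
      have : t ≤ r / (2 * ‖deriv γ s‖) := min_le_right _ _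
      calc t * ‖deriv γ s‖ ≤ r / (2 * ‖deriv γ s‖) * ‖deriv γ s‖ :=
            mul_le_mul_of_nonneg_right this hdn.le
        _ = r / 2 := by field_simp
        _ < r := by linarith
    exact ⟨_, l.right s t (by rw [sub_self, abs_zero]; exact hδ) htpos ht1, hRball t r htpos ht2⟩
  rcases h.side l with hL | hR
  · refine ⟨n0, hn0n, key l.L l.R n0 hn0n hperp hperp' hL ?_ hexL hexR⟩
    intro z hz hzD
    exact h.not_both l ⟨hL, h.sub_of_meets l.pR l.dR hz hzD⟩
  · refine ⟨-n0, by rw [norm_neg]; exact hn0n, key l.R l.L (-n0) (by rw [norm_neg]; exact hn0n)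
      hperp' (by rw [neg_neg]; exact hperp) hR ?_ hexR (by simpa using hexL)⟩
    intro z hz hzD
    exact h.not_both l ⟨h.sub_of_meets l.pL l.dL hz hzD, hR⟩

end Crest.Agent.R144.Set268
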