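import Mathlib
import Crest.Agent.R144.Set2_268

/-! R144 (helper268): SETUP, file 3: boundary sites are dense along the frontier; for S0195 the
interior sites of `upT (intF F)` are exactly `intF F`. -/

set_option autoImplicit false

open Set Topology Filter Metric MeasureTheory

namespace Crest.Agent.R144.Set268

open Crest.ProbabilityR.HexHeights Crest.ProbabilityR.TriHeights Crest.Agent.R144.HexTil353
  Crest.Agent.R144.Geo268 Crest.Agent.R144.Cnt268
open Crest.Agent.R144.It844 (intF xi Lip ex conf extF extT upT)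

/-- a connected set meeting a free cell and a non-free cell contains a point common to adjacent
cells, one free and one not -/
theorem exists_pair {δ : ℝ} (hδ : 0 < δ) (Λ : Finset (ℤ × ℤ)) {S : Set ℂ} (hS : IsPreconnected S)
    {u v : ℤ × ℤ} (hu : u ∈ Λ) (hv : v ∉ Λ) {a b : ℂ} (ha : a ∈ S) (hau : a ∈ cell δ u)
    (hb : b ∈ S) (hbv : b ∈ cell δ v) :
    ∃ w v' : ℤ × ℤ, w ∈ Λ ∧ v' ∉ Λ ∧ Adj w v' ∧ ∃ m ∈ S, m ∈ cell δ w ∧ m ∈ cell δ v' := by
  have hT := tiling hδ
  obtain ⟨m, hmS, hm1, hm2⟩ := isPreconnected_closed_iff.1 hS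
    (Crest.Agent.R144.Til353.U (cell δ) (Λ : Set (ℤ × ℤ)))
    (Crest.Agent.R144.Til353.U (cell δ) ((Λ : Set (ℤ × ℤ))ᶜ)) (hT.isClosed_U _) (hT.isClosed_U _)
    (by
      rw [← Crest.Agent.R144.Til353.Tiling.U_union, union_compl_self]
      intro z _
      obtain ⟨w, hw⟩ := exists_cell hδ z
      exact Crest.Agent.R144.Til353.mem_U.2 ⟨w, mem_univ _, hw⟩)
    ⟨a, ha, Crest.Agent.R144.Til353.mem_U.2 ⟨u, hu, hau⟩⟩
    ⟨b, hb, Crest.Agent.R144.Til353.mem_U.2 ⟨v, hv, hbv⟩⟩
  obtain ⟨w, hw, hmw⟩ := Crest.Agent.R144.Til353.mem_U.1 hm1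
  obtain ⟨v', hv', hmv⟩ := Crest.Agent.R144.Til353.mem_U.1 hm2
  refine ⟨w, v', hw, hv', ?_, m, hmS, hmw, hmv⟩
  rcases touch hδ ⟨m, hmw, hmv⟩ with h | h
  · exact absurd (h ▸ hw) hv'
  · exact h

/-- **boundary sites are dense along the frontier** -/
theorem Setup.dense {D : Set ℂ} {γ : ℝ → ℂ} {P : Finset ℂ} {δ : ℕ → ℝ} {Λ : ℕ → Finset (ℤ × ℤ)}
    {τ : ℕ → ℤ × ℤ → ℤ} (h : Setup D γ P δ Λ τ) {ε : ℝ} (hε : 0 < ε) :
    ∀ᶠ n in atTop, ∀ p ∈ frontier D, ∃ w v : ℤ × ℤ, w ∈ Λ n ∧ v ∉ Λ n ∧ Adj w v ∧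
      dist (centre (δ n) w) p < ε ∧ dist (centre (δ n) v) p < ε := by
  obtain ⟨r0, hr0, hballs⟩ := exists_balls h.dom h.c2
  set ρ := min r0 (ε / 4) with hρ
  have hρpos : 0 < ρ := by positivity
  have hρr : ρ ≤ r0 := min_le_left _ _
  have hρε : ρ ≤ ε / 4 := min_le_right _ _
  -- compact core
  set K : Set ℂ := {z | z ∈ closure D ∧ ∀ w ∈ Dᶜ, ρ / 2 ≤ dist z w} with hK
  have hKc : IsCompact K := by
    refine isCompact_of_isClosed_isBounded ?_ (h.sites.bdd.closure.subset fun z hz => hz.1)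
    have : K = closure D ∩ ⋂ w ∈ Dᶜ, {z | ρ / 2 ≤ dist z w} := by
      ext z; simp only [hK, mem_ofPred_eq, mem_inter_iff, mem_iInter]
    rw [this]
    refine isClosed_closure.inter (isClosed_biInter fun w _ => ?_)
    exact isClosed_le continuous_const (continuous_id.dist continuous_const)
  have hKD : K ⊆ D := by
    intro z hz
    by_contra h1
    have := hz.2 z h1
    rw [dist_self] at this
    linarith
  filter_upwards [h.sites.inn K hKc hKD, h.sites.out (ρ / 4) (by positivity),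
    h.sites.small (show 0 < ρ / 4 by positivity)] with n h1 h2 h3 p hp
  obtain ⟨nn, hnn, hb⟩ := hballs p hp
  obtain ⟨hin, hout⟩ := hb ρ hρpos hρr
  have hδ := h.sites.pos n
  obtain ⟨u, hu⟩ := exists_cell hδ (p + ρ * nn)
  obtain ⟨v, hv⟩ := exists_cell hδ (p - ρ * nn)
  have hu' := mem_closedBall.1 (cell_subset_ball hδ u hu)
  have hv' := mem_closedBall.1 (cell_subset_ball hδ v hv)
  -- `u` is free
  have huΛ : u ∈ Λ n := by
    apply h1
    have hsub : ball (centre (δ n) u) (ρ / 2) ⊆ D := by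
      intro z hz
      apply hin
      rw [mem_ball] at hz ⊢
      have := dist_triangle z (centre (δ n) u) (p + ρ * nn)
      rw [dist_comm (centre (δ n) u)] at this
      linarith
    refine ⟨subset_closure (hsub (mem_ball_self (by positivity))), fun w hw => ?_⟩
    by_contra hcon
    push Not at hcon
    exact hw (hsub (by rw [mem_ball, dist_comm]; exact hcon))
  -- `v` is not free
  have hvΛ : v ∉ Λ n := by
    intro hcon
    have h4 := cthickening_subset_thickening' (show 0 < ρ / 2 by positivity)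
      (show ρ / 4 < ρ / 2 by linarith) D (h2 v hcon)
    rw [mem_thickening_iff] at h4
    obtain ⟨z, hzD, hz⟩ := h4
    refine disjoint_left.1 hout ?_ (subset_closure hzD)
    rw [mem_ball]
    have h5 := dist_triangle_left z (p - ρ * nn) (centre (δ n) v)
    rw [dist_comm (p - ρ * nn)] at hv'
    linarith
  obtain ⟨w, v', hw, hv'', hadj, m, hm, hmw, hmv⟩ := exists_pair hδ (Λ n)
    (convex_closedBall p ρ).isPreconnected huΛ hvΛ
    (a := p + ρ * nn) (by
      rw [mem_closedBall, dist_eq_norm, add_sub_cancel_left, norm_mul, hnn, mul_one,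
        Complex.norm_real, Real.norm_eq_abs, abs_of_pos hρpos]) hu
    (b := p - ρ * nn) (by
      rw [mem_closedBall, dist_eq_norm, sub_sub_cancel_left, norm_neg, norm_mul, hnn, mul_one,
        Complex.norm_real, Real.norm_eq_abs, abs_of_pos hρpos]) hv
  refine ⟨w, v', hw, hv'', hadj, ?_, ?_⟩
  · have h4 := mem_closedBall.1 (cell_subset_ball hδ w hmw)
    have h5 := dist_triangle_left (centre (δ n) w) p m
    rw [mem_closedBall] at hm
    linarith
  · have h4 := mem_closedBall.1 (cell_subset_ball hδ v' hmv)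
    have h5 := dist_triangle_left (centre (δ n) v') p m
    rw [mem_closedBall] at hm
    linarith

/-- **S0195**: a site all whose three up triangles meet `intF F` belongs to `intF F` -/
theorem intF_of_up {F : Finset (ℤ × ℤ)} {v : ℤ × ℤ} (h1 : v ∈ upT (intF F))
    (h2 : (v.1 - 1, v.2) ∈ upT (intF F)) (h3 : (v.1, v.2 - 1) ∈ upT (intF F)) : v ∈ intF F := by
  obtain ⟨a, b⟩ := v
  simp only [Crest.Agent.R144.It844.mem_upT, sub_add_cancel] at h1 h2 h3
  have key : ∀ w u : ℤ × ℤ, w ∈ intF F → Adj w u → u ∈ F := fun w u hw hwu =>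
    (Crest.Agent.R144.It844.mem_intF.1 hw).2 u hwu
  by_contra hcon
  have g1 : (a, b) ∈ F ∧ (a + 1, b) ∈ F ∧ (a, b + 1) ∈ F := by
    rcases h1 with h | h | h
    · exact absurd h hcon
    · refine ⟨key _ _ h ?_, (Crest.Agent.R144.It844.mem_intF.1 h).1, key _ _ h ?_⟩ <;>
        unfold Adj <;> simp only <;> omega
    · refine ⟨key _ _ h ?_, key _ _ h ?_, (Crest.Agent.R144.It844.mem_intF.1 h).1⟩ <;>
        unfold Adj <;> simp only <;> omega
  have g2 : (a - 1, b) ∈ F ∧ (a - 1, b + 1) ∈ F := by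
    rcases h2 with h | h | h
    · refine ⟨(Crest.Agent.R144.It844.mem_intF.1 h).1, key _ _ h ?_⟩ <;>
        unfold Adj <;> simp only <;> omega
    · exact absurd h hcon
    · refine ⟨key _ _ h ?_, (Crest.Agent.R144.It844.mem_intF.1 h).1⟩ <;>
        unfold Adj <;> simp only <;> omega
  have g3 : (a, b - 1) ∈ F ∧ (a + 1, b - 1) ∈ F := by
    rcases h3 with h | h | h
    · refine ⟨(Crest.Agent.R144.It844.mem_intF.1 h).1, key _ _ h ?_⟩ <;>
        unfold Adj <;> simp only <;> omega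
    · refine ⟨key _ _ h ?_, (Crest.Agent.R144.It844.mem_intF.1 h).1⟩ <;>
        unfold Adj <;> simp only <;> omega
    · exact absurd h hcon
  apply hcon
  rw [Crest.Agent.R144.It844.mem_intF]
  refine ⟨g1.1, ?_⟩
  rintro ⟨c, d⟩ hw
  unfold Adj at hw
  simp only at hw
  rcases hw with ⟨hc, hd⟩ | ⟨hc, hd⟩ | ⟨hc, hd⟩ | ⟨hc, hd⟩ | ⟨hc, hd⟩ | ⟨hc, hd⟩
  · obtain rfl : c = a + 1 := by omega
    obtain rfl : d = b := by omega
    exact g1.2.1
  · obtain rfl : c = a - 1 := by omega
    obtain rfl : d = b := by omega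
    exact g2.1
  · obtain rfl : c = a := by omega
    obtain rfl : d = b + 1 := by omega
    exact g1.2.2
  · obtain rfl : c = a := by omega
    obtain rfl : d = b - 1 := by omega
    exact g3.1
  · obtain rfl : c = a + 1 := by omega
    obtain rfl : d = b - 1 := by omega
    exact g3.2
  · obtain rfl : c = a - 1 := by omega
    obtain rfl : d = b + 1 := by omega
    exact g2.2

/-- **S0195**: in 349's language the interior sites of `upT (intF F)` are `intF F` -/
theorem IV_upT (F : Finset (ℤ × ℤ)) : Crest.Agent.R144.Zg349.IV (upT (intF F)) = intF F := by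
  ext v
  rw [Crest.Agent.R144.Zg349.mem_IV]
  constructor
  · rintro ⟨h1, h2, h3⟩
    exact intF_of_up h1 h2 h3
  · intro h
    simp only [Crest.Agent.R144.It844.mem_upT, sub_add_cancel]
    exact ⟨Or.inl h, Or.inr (Or.inl h), Or.inr (Or.inr h)⟩

end Crest.Agent.R144.Set268
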