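import Mathlib
import Crest.Agent.R144.Set3_268
import Crest.Agent.R144.Dpl6_702

/-! R144 (helper268) FIN block, file 1: from the law half in terms of `It844.ex` to the literal
statements of S0195 and S0196. -/

set_option autoImplicit false

open Set Topology Filter Metric MeasureTheory
open scoped ContDiff

namespace Crest.Agent.R144.Fin268

open Crest.ProbabilityR.HexHeights Crest.ProbabilityR.TriHeights Crest.Agent.R144.HexTil353
  Crest.Agent.R144.Geo268 Crest.Agent.R144.Cnt268 Crest.Agent.R144.Set268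
open Crest.Agent.R144.It844 (intF xi Lip ex conf extF extT upT)

/-- the linear statistic of a height function with the weights of the kernel `K` -/
noncomputable def LX (K : ℝ × ℝ → ℝ) (δ : ℝ) (Λ : Finset (ℤ × ℤ)) (f : ℂ → ℝ)
    (h : ℤ × ℤ → ℤ) : ℝ := ∑ v ∈ Λ, wK K δ f v * (h v : ℝ)

/-- its mean -/
noncomputable def mX (x : ℝ) (K : ℝ × ℝ → ℝ) (δ : ℝ) (Λ : Finset (ℤ × ℤ)) (τ : ℤ × ℤ → ℤ)
    (f : ℂ → ℝ) : ℝ := ex x Λ τ (LX K δ Λ f)

/-- **the law half, common to both statements**: centred linear statistics are asymptotically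
Gaussian with variance `κ ⟨f, G_D f⟩` -/
def MainLaw (x κ : ℝ) : Prop :=
  ∀ (D : Set ℂ) (γ : ℝ → ℂ) (P : Finset ℂ) (δ : ℕ → ℝ) (Λ : ℕ → Finset (ℤ × ℤ))
    (τ : ℕ → ℤ × ℤ → ℤ), Setup D γ P δ Λ τ → ∀ φ : ℂ → ℂ, DifferentiableOn ℂ φ D →
    BijOn φ D (ball (0 : ℂ) 1) → ∀ K : ℝ × ℝ → ℝ, Ker K →
    ∀ f : ℂ → ℝ, ContDiff ℝ ∞ f → HasCompactSupport f → tsupport f ⊆ D → ∀ t : ℝ,
    Tendsto (fun n => ex x (Λ n) (τ n) (fun h => Complex.exp (Complex.I *
      (t * (LX K (δ n) (Λ n) f h - mX x K (δ n) (Λ n) (τ n) f) : ℝ)))) atTop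
      (𝓝 (Complex.exp (-(κ * domainGreenForm φ f * t ^ 2 / 2 : ℝ))))

/-- **bridge, S0195** -/
theorem hex_bridge {D : Set ℂ} {γ : ℝ → ℂ} {δ : ℕ → ℝ} {F : ℕ → Finset (ℤ × ℤ)} (x : ℝ)
    (hD : IsC2JordanDomain D γ) (hA : IsInsideApprox D γ δ F) {f : ℂ → ℝ} (hf : Tst D f) :
    ∀ᶠ n in atTop, ∀ G : ℝ → ℂ, heightExpect (F n) x (fun h => G (pairing (δ n) f h)) =
      ex x (intF (F n)) (fun _ => 0) (fun h => G (LX hexK (δ n) (intF (F n)) f h)) := by
  filter_upwards [hex_eventually hD hA hf] with n hn G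
  refine Crest.Agent.R144.It844.heightExpect_eq (F n) x _ _ fun h _ => ?_
  rw [hn.2 h]
  unfold LX
  congr 1
  exact Finset.sum_congr rfl fun u _ => mul_comm _ _

/-- **bridge, S0196** -/
theorem tri_bridge {D : Set ℂ} {γ : ℝ → ℂ} {θ : ℝ} {δ : ℕ → ℝ} {T : ℕ → Finset Tri}
    {ea eb : ℕ → (ℤ × ℤ) × (ℤ × ℤ)} {c : ℕ → ℝ → ℂ}
    (hD : IsSmoothMarkedDomain D γ θ) (hA : IsMarkedApprox γ θ δ T ea eb c)
    {f : ℂ → ℝ} (hf : Tst D f) :
    ∀ᶠ n in atTop, ∀ G : ℝ → ℂ,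
      twoArcExpect (T n) (arcPlus (δ n) (T n) (c n) θ) (arcMinus (δ n) (T n) (c n) θ)
        (fun H => G (affinePairing (δ n) (T n) f (oddHeight H))) =
      ex 1 (freeVerts (T n) (arcPlus (δ n) (T n) (c n) θ) (arcMinus (δ n) (T n) (c n) θ))
        (xi (arcMinus (δ n) (T n) (c n) θ))
        (fun h => G (2 * LX (fun p => tent p.1 p.2) (δ n)
          (freeVerts (T n) (arcPlus (δ n) (T n) (c n) θ) (arcMinus (δ n) (T n) (c n) θ)) f h +
          ∑ v ∈ freeVerts (T n) (arcPlus (δ n) (T n) (c n) θ) (arcMinus (δ n) (T n) (c n) θ),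
            wK (fun p => tent p.1 p.2) (δ n) f v)) := by
  filter_upwards [tri_eventually hD hA hf] with n hn G
  refine Crest.Agent.R144.It844.twoArcExpect_eq
    (freeSet hA hD.2.2.2.2.2.2.2.2.1 hD.2.2.2.2.2.2.2.2.2 n) _ _ fun H _ => ?_
  rw [hn.2]
  unfold LX
  congr 1
  rw [Finset.mul_sum, ← Finset.sum_add_distrib]
  refine Finset.sum_congr rfl fun v hv => ?_
  rw [Crest.Agent.R144.It844.oddHeight_eq (arcMinus (δ n) (T n) (c n) θ) H
    (Crest.Agent.R144.Ham560.mem_freeVerts'.1 hv).1, wA_eq (hA.1 n)]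
  ring

/-- the mean vanishes for zero boundary values -/
theorem mX_zero (x : ℝ) (K : ℝ × ℝ → ℝ) (δ : ℝ) (Λ : Finset (ℤ × ℤ)) (f : ℂ → ℝ) :
    mX x K δ Λ (fun _ => 0) f = 0 := by
  unfold mX
  have h1 := Crest.Agent.R144.Pst967.ex_neg0 x Λ (LX K δ Λ f)
  have h2 : (fun h : ℤ × ℤ → ℤ => LX K δ Λ f (fun v => -h v)) = fun h => (-1 : ℝ) • LX K δ Λ f h := by
    funext h
    unfold LX
    rw [smul_eq_mul, Finset.mul_sum]
    refine Finset.sum_congr rfl fun v _ => ?_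
    push_cast
    ring
  rw [h2, Crest.Agent.R144.It844.ex_smul] at h1
  rw [smul_eq_mul] at h1
  linarith

/-- **S0195 from the law half** -/
theorem fin195 {x κ : ℝ} (hx0 : 0 < x) (hx1 : x ≤ 1) (hκ : 0 < κ) (hM : MainLaw x κ) :
    ∃ σ : ℝ, 0 < σ ∧ ∀ (D : Set ℂ) (γ : ℝ → ℂ) (φ : ℂ → ℂ),
      IsC2JordanDomain D γ → DifferentiableOn ℂ φ D →
      Set.BijOn φ D (Metric.ball (0 : ℂ) 1) →
      ∀ (δ : ℕ → ℝ) (F : ℕ → Finset (ℤ × ℤ)),
        IsInsideApprox D γ δ F →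
      ∀ f : ℂ → ℝ, ContDiff ℝ ∞ f → HasCompactSupport f → tsupport f ⊆ D →
        (∀ t : ℝ, Filter.Tendsto (fun n : ℕ => heightExpect (F n) x
            (fun h => Complex.exp (Complex.I *
              (t * pairing (δ n) f h / σ : ℝ))))
          Filter.atTop
          (nhds (Complex.exp
            (-(domainGreenForm φ f * t ^ 2 / 2 : ℝ))))) ∧
        ∀ k : ℕ, Filter.Tendsto (fun n : ℕ => heightExpect (F n) x
            (fun h => ((pairing (δ n) f h / σ) ^ k : ℝ)))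
          Filter.atTop
          (nhds ((if Even k then domainGreenForm φ f ^ (k / 2) *
              ((k - 1).doubleFactorial : ℝ) else 0 : ℝ) : ℂ)) := by
  refine ⟨Real.sqrt κ, Real.sqrt_pos.2 hκ, fun D γ φ hD hφ hb δ F hA f hf hfc hfs => ?_⟩
  have hT : Tst D f := ⟨hf.continuous, hfc, hfs⟩
  have hs := Real.sqrt_pos.2 hκ
  have hlaw : ∀ t : ℝ, Tendsto (fun n : ℕ => heightExpect (F n) x
      (fun h => Complex.exp (Complex.I * (t * pairing (δ n) f h / Real.sqrt κ : ℝ)))) atTop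
      (𝓝 (Complex.exp (-(domainGreenForm φ f * t ^ 2 / 2 : ℝ)))) := by
    intro t
    have h1 := hM D γ ∅ δ (fun n => intF (F n)) (fun _ _ => 0) (setup_hex hD hA) φ hφ hb hexK ker_hex
      f hf hfc hfs (t / Real.sqrt κ)
    have h2 : κ * domainGreenForm φ f * (t / Real.sqrt κ) ^ 2 / 2 =
        domainGreenForm φ f * t ^ 2 / 2 := by
      rw [div_pow, Real.sq_sqrt hκ.le]
      field_simp
    rw [h2] at h1
    refine h1.congr' ?_
    filter_upwards [hex_bridge x hD hA hT] with n hn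
    have h3 := hn (fun r => Complex.exp (Complex.I * (t * r / Real.sqrt κ : ℝ)))
    rw [h3]
    refine Crest.Agent.R144.It844.ex_congr fun h _ => ?_
    rw [mX_zero, sub_zero]
    congr 3
    ring
  refine ⟨hlaw, fun k => ?_⟩
  exact Crest.Agent.R144.Dpl702.height_moments' hx0 hx1 hA.1 hT.integrable _ hlaw k

/-- **S0196 from the law half** -/
theorem fin196 {κ : ℝ} (hκ : 0 < κ) (hM : MainLaw 1 κ) :
    ∃ σ : ℝ, 0 < σ ∧ ∀ (D : Set ℂ) (γ : ℝ → ℂ) (θ : ℝ) (φ : ℂ → ℂ),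
      IsSmoothMarkedDomain D γ θ → DifferentiableOn ℂ φ D →
      Set.BijOn φ D (Metric.ball (0 : ℂ) 1) →
      ∀ (δ : ℕ → ℝ) (T : ℕ → Finset Tri) (ea eb : ℕ → (ℤ × ℤ) × (ℤ × ℤ)) (c : ℕ → ℝ → ℂ),
        IsMarkedApprox γ θ δ T ea eb c →
      ∀ f : ℂ → ℝ, ContDiff ℝ ∞ f → HasCompactSupport f → tsupport f ⊆ D →
        (∀ t : ℝ, Filter.Tendsto (fun n : ℕ => twoArcExpect (T n) (arcPlus (δ n) (T n) (c n) θ) (arcMinus (δ n) (T n) (c n) θ)
            (fun H => Complex.exp (Complex.I *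
              (t * (affinePairing (δ n) (T n) f (oddHeight H) -
              (twoArcExpect (T n) (arcPlus (δ n) (T n) (c n) θ) (arcMinus (δ n) (T n) (c n) θ) (fun H' => (affinePairing (δ n) (T n) f (oddHeight H') : ℂ))).re) / σ : ℝ))))
          Filter.atTop
          (nhds (Complex.exp (-(domainGreenForm φ f * t ^ 2 / 2 : ℝ))))) ∧
        ∀ k : ℕ, Filter.Tendsto (fun n : ℕ => twoArcExpect (T n) (arcPlus (δ n) (T n) (c n) θ) (arcMinus (δ n) (T n) (c n) θ)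
            (fun H => (((affinePairing (δ n) (T n) f (oddHeight H) -
              (twoArcExpect (T n) (arcPlus (δ n) (T n) (c n) θ) (arcMinus (δ n) (T n) (c n) θ) (fun H' => (affinePairing (δ n) (T n) f (oddHeight H') : ℂ))).re) / σ) ^ k : ℝ)))
          Filter.atTop
          (nhds ((if Even k then domainGreenForm φ f ^ (k / 2) *
              ((k - 1).doubleFactorial : ℝ) else 0 : ℝ) : ℂ)) := by
  have hs := Real.sqrt_pos.2 hκ
  refine ⟨2 * Real.sqrt κ, by positivity, fun D γ θ φ hD hφ hb δ T ea eb c hA f hf hfc hfs => ?_⟩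
  have hT : Tst D f := ⟨hf.continuous, hfc, hfs⟩
  set K : ℝ × ℝ → ℝ := fun p => tent p.1 p.2 with hK
  set Λ : ℕ → Finset (ℤ × ℤ) := fun n =>
    freeVerts (T n) (arcPlus (δ n) (T n) (c n) θ) (arcMinus (δ n) (T n) (c n) θ) with hΛ
  set τ : ℕ → ℤ × ℤ → ℤ := fun n => xi (arcMinus (δ n) (T n) (c n) θ) with hτ
  have hbr := tri_bridge hD hA hT
  -- the mean
  have hmean : ∀ᶠ n in atTop,
      (twoArcExpect (T n) (arcPlus (δ n) (T n) (c n) θ) (arcMinus (δ n) (T n) (c n) θ)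
        (fun H' => (affinePairing (δ n) (T n) f (oddHeight H') : ℂ))).re =
      2 * mX 1 K (δ n) (Λ n) (τ n) f + ∑ v ∈ Λ n, wK K (δ n) f v := by
    filter_upwards [hbr] with n hn
    rw [hn (fun r => (r : ℂ))]
    have hL : Lip (τ n) := Crest.Agent.R144.It844.lip_xi _
    have e1 : ex 1 (Λ n) (τ n) (fun h => ((2 * LX K (δ n) (Λ n) f h +
        ∑ v ∈ Λ n, wK K (δ n) f v : ℝ) : ℂ)) =
        ((2 * mX 1 K (δ n) (Λ n) (τ n) f + ∑ v ∈ Λ n, wK K (δ n) f v : ℝ) : ℂ) := by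
      rw [← Crest.Agent.R144.Pst967.integral_mu one_pos hL, integral_complex_ofReal,
        Crest.Agent.R144.Pst967.integral_mu one_pos hL]
      congr 1
      rw [Crest.Agent.R144.It844.ex_add, Crest.Agent.R144.It844.ex_const one_pos hL]
      congr 1
      have := Crest.Agent.R144.It844.ex_smul (x := 1) (Λ := Λ n) (τ := τ n) (2 : ℝ)
        (LX K (δ n) (Λ n) f)
      simp only [smul_eq_mul] at this
      exact this
    rw [e1, Complex.ofReal_re]
  have hlaw : ∀ t : ℝ, Tendsto (fun n : ℕ => twoArcExpect (T n) (arcPlus (δ n) (T n) (c n) θ)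
      (arcMinus (δ n) (T n) (c n) θ) (fun H => Complex.exp (Complex.I *
        (t * (affinePairing (δ n) (T n) f (oddHeight H) -
          (twoArcExpect (T n) (arcPlus (δ n) (T n) (c n) θ) (arcMinus (δ n) (T n) (c n) θ)
            (fun H' => (affinePairing (δ n) (T n) f (oddHeight H') : ℂ))).re) /
          (2 * Real.sqrt κ) : ℝ)))) atTop
      (𝓝 (Complex.exp (-(domainGreenForm φ f * t ^ 2 / 2 : ℝ)))) := by
    intro t
    have h1 := hM D γ {γ 0, γ θ} δ Λ τ (setup_tri hD hA) φ hφ hb K ker_tent f hf hfc hfs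
      (t / Real.sqrt κ)
    have h2 : κ * domainGreenForm φ f * (t / Real.sqrt κ) ^ 2 / 2 =
        domainGreenForm φ f * t ^ 2 / 2 := by
      rw [div_pow, Real.sq_sqrt hκ.le]
      field_simp
    rw [h2] at h1
    refine h1.congr' ?_
    filter_upwards [hbr, hmean] with n hn hm
    rw [hm]
    have h3 := hn (fun r => Complex.exp (Complex.I * (t * (r - (2 * mX 1 K (δ n) (Λ n) (τ n) f +
      ∑ v ∈ Λ n, wK K (δ n) f v)) / (2 * Real.sqrt κ) : ℝ)))
    rw [h3]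
    refine Crest.Agent.R144.It844.ex_congr fun h _ => ?_
    congr 3
    field_simp
    ring
  refine ⟨hlaw, fun k => ?_⟩
  exact Crest.Agent.R144.Dpl702.twoArc_moments'
    (fun n => Crest.Agent.R144.TriTil353.tiling (hA.1 n))
    (fun n => freeSet hA hD.2.2.2.2.2.2.2.2.1 hD.2.2.2.2.2.2.2.2.2 n) hT.integrable _ _ hlaw k

end Crest.Agent.R144.Fin268
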