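import Mathlib
import Crest.Agent.R144.Fin1_268
import Crest.Agent.R144.Cw6_643
import Crest.Agent.R144.EndD_938

/-! R144 (helper268) FIN block, file 2: the law half `MainLaw x κ` from four literal lattice inputs
(Gaussianity of lattice Laplacians, bounded variances, boundary bump bound, boundary decay) through
helper938's harmonic remainder theorem. -/

set_option autoImplicit false

open Set Topology Filter Metric MeasureTheory
open scoped ContDiff Laplacian

namespace Crest.Agent.R144.Fin268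

open Crest.ProbabilityR.HexHeights Crest.ProbabilityR.TriHeights Crest.Agent.R144.HexTil353
  Crest.Agent.R144.Geo268 Crest.Agent.R144.Cnt268 Crest.Agent.R144.Set268
open Crest.Agent.R144.It844 (intF xi Lip ex conf extF extT upT mu ex_add ex_smul ex_const ex_congr)
open Crest.Agent.R144.Con549 (IsTest Bih)
open Crest.Agent.R144.Pst967 (integral_mu isProb_mu integrable_mu)
open Crest.Agent.R144.Cw643 (Dop Near six)
open Crest.Agent.R144.End938 (rr rad end_char char_sub_le)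

/-- linear statistic with the weights `b` -/
noncomputable def LS (Λ : Finset (ℤ × ℤ)) (b : ℤ × ℤ → ℝ) (h : ℤ × ℤ → ℤ) : ℝ :=
  ∑ v ∈ Λ, b v * (h v : ℝ)

/-- centred linear statistic -/
noncomputable def cS (x : ℝ) (Λ : Finset (ℤ × ℤ)) (τ : ℤ × ℤ → ℤ) (b : ℤ × ℤ → ℝ)
    (h : ℤ × ℤ → ℤ) : ℝ := LS Λ b h - ex x Λ τ (LS Λ b)

/-- covariance -/
noncomputable def Cv (x : ℝ) (Λ : Finset (ℤ × ℤ)) (τ : ℤ × ℤ → ℤ) (b g : ℤ × ℤ → ℝ) : ℝ :=
  ex x Λ τ (fun h => cS x Λ τ b h * cS x Λ τ g h)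

/-- variance -/
noncomputable def Vr (x : ℝ) (Λ : Finset (ℤ × ℤ)) (τ : ℤ × ℤ → ℤ) (b : ℤ × ℤ → ℝ) : ℝ :=
  Cv x Λ τ b b

/-- bump weights at `z`: nonnegative, supported within `3/4 dist (z, Dᶜ)`, height
`≤ M δ² / dist (z, Dᶜ)²` -/
structure Bump (D : Set ℂ) (δ M : ℝ) (z : ℂ) (b : ℤ × ℤ → ℝ) : Prop where
  nonneg : ∀ v, 0 ≤ b v
  supp : ∀ v, b v ≠ 0 → dist (centre δ v) z ≤ 3 / 4 * infDist z Dᶜ
  le : ∀ v, b v * infDist z Dᶜ ^ 2 ≤ M * δ ^ 2

theorem Bump.mono {D : Set ℂ} {δ M M' : ℝ} {z : ℂ} {b : ℤ × ℤ → ℝ} (h : Bump D δ M z b)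
    (hM : M ≤ M') : Bump D δ M' z b :=
  ⟨h.nonneg, h.supp, fun v => (h.le v).trans (mul_le_mul_of_nonneg_right hM (sq_nonneg _))⟩

/-- weights over the compact set `K` of height `≤ M δ²` -/
structure Over (K : Set ℂ) (δ M : ℝ) (g : ℤ × ℤ → ℝ) : Prop where
  supp : ∀ v, g v ≠ 0 → centre δ v ∈ K
  le : ∀ v, |g v| ≤ M * δ ^ 2

/-- **the four lattice inputs** -/
structure Inputs (x κ : ℝ) (D : Set ℂ) (P : Finset ℂ) (δ : ℕ → ℝ) (Λ : ℕ → Finset (ℤ × ℤ))
    (τ : ℕ → ℤ × ℤ → ℤ) : Prop where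
  p1 : ∀ u, IsTest D u → ∀ t : ℝ, Tendsto (fun n => ex x (Λ n) (τ n) (fun h =>
    Complex.exp (Complex.I * (t * cS x (Λ n) (τ n)
      (Dop (fun v => u (centre (δ n) v))) h : ℝ)))) atTop
    (𝓝 (Complex.exp (-(κ * (∫ z, ‖fderiv ℝ u z‖ ^ 2) * t ^ 2 / 2 : ℝ))))
  bd : ∀ K, IsCompact K → K ⊆ D → ∃ C : ℝ, ∀ᶠ n in atTop, ∀ M g, Over K (δ n) M g →
    Vr x (Λ n) (τ n) g ≤ C * M ^ 2
  c1 : ∀ M : ℝ, ∃ C : ℝ, ∀ z ∈ D, ∀ᶠ n in atTop, ∀ b, Bump D (δ n) M z b →
    Vr x (Λ n) (τ n) b ≤ C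
  c2 : ∀ M K, IsCompact K → K ⊆ D → ∀ p ∈ frontier D, p ∉ P → ∀ ε > 0, ∃ η > 0, ∀ z ∈ D,
    dist z p < η → ∀ᶠ n in atTop, ∀ b g, Bump D (δ n) M z b → Over K (δ n) M g →
      |Cv x (Λ n) (τ n) b g| ≤ ε

/-! ### algebra -/

theorem LS_add (Λ : Finset (ℤ × ℤ)) (b g : ℤ × ℤ → ℝ) (h : ℤ × ℤ → ℤ) :
    LS Λ (fun v => b v + g v) h = LS Λ b h + LS Λ g h := by
  unfold LS
  rw [← Finset.sum_add_distrib]
  exact Finset.sum_congr rfl fun v _ => by ring

theorem LS_smul (Λ : Finset (ℤ × ℤ)) (c : ℝ) (b : ℤ × ℤ → ℝ) (h : ℤ × ℤ → ℤ) :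
    LS Λ (fun v => c * b v) h = c * LS Λ b h := by
  unfold LS
  rw [Finset.mul_sum]
  exact Finset.sum_congr rfl fun v _ => by ring

theorem cS_add (x : ℝ) (Λ : Finset (ℤ × ℤ)) (τ : ℤ × ℤ → ℤ) (b g : ℤ × ℤ → ℝ) (h : ℤ × ℤ → ℤ) :
    cS x Λ τ (fun v => b v + g v) h = cS x Λ τ b h + cS x Λ τ g h := by
  unfold cS
  have h1 : ex x Λ τ (LS Λ fun v => b v + g v) = ex x Λ τ (LS Λ b) + ex x Λ τ (LS Λ g) := by
    rw [← ex_add]
    exact ex_congr fun a _ => LS_add Λ b g a
  rw [h1, LS_add]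
  ring

theorem cS_smul (x : ℝ) (Λ : Finset (ℤ × ℤ)) (τ : ℤ × ℤ → ℤ) (c : ℝ) (b : ℤ × ℤ → ℝ)
    (h : ℤ × ℤ → ℤ) : cS x Λ τ (fun v => c * b v) h = c * cS x Λ τ b h := by
  unfold cS
  have h1 : ex x Λ τ (LS Λ fun v => c * b v) = c * ex x Λ τ (LS Λ b) := by
    have := ex_smul (x := x) (Λ := Λ) (τ := τ) c (LS Λ b)
    simp only [smul_eq_mul] at this
    rw [← this]
    exact ex_congr fun a _ => LS_smul Λ c b a
  rw [h1, LS_smul]
  ring

theorem cS_congr {x : ℝ} {Λ : Finset (ℤ × ℤ)} {τ : ℤ × ℤ → ℤ} {b g : ℤ × ℤ → ℝ}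
    (h : ∀ v, b v = g v) : cS x Λ τ b = cS x Λ τ g := by
  rw [funext h]

theorem wK_nonneg {K : ℝ × ℝ → ℝ} (hK : Ker K) (δ : ℝ) {f : ℂ → ℝ} (hf : ∀ z, 0 ≤ f z)
    (v : ℤ × ℤ) : 0 ≤ wK K δ f v := by
  unfold wK
  exact mul_nonneg (by positivity) (integral_nonneg fun p => mul_nonneg (hf _) (hK.nonneg p))

/-- the weights of a continuous function with compact support form a near family -/
theorem near_wK {K : ℝ × ℝ → ℝ} (hK : Ker K) {δ : ℕ → ℝ} (hδ : ∀ n, 0 < δ n)
    (hδ0 : Tendsto δ atTop (𝓝 0)) {g : ℂ → ℝ} (hg : Continuous g) (hc : HasCompactSupport g) :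
    Near δ (fun n => wK K (δ n) g) g := by
  obtain ⟨R, hR⟩ := hc.isBounded.exists_norm_le
  have hbd : ∃ M, ∀ z, |g z| ≤ M := by
    obtain ⟨M, hM⟩ := hc.exists_bound_of_continuous hg
    exact ⟨M, fun z => by simpa using hM z⟩
  refine ⟨⟨R + 2, ?_⟩, fun ε hε => ?_⟩
  · filter_upwards [hδ0.eventually (gt_mem_nhds one_pos)] with n hn v hv
    by_contra hcon
    push Not at hcon
    apply hv
    refine hK.w_eq_zero (hδ n).le fun z hz => ?_
    by_contra h1
    have h2 := hR z (subset_tsupport _ h1)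
    have h3 := norm_sub_norm_le (centre (δ n) v) z
    rw [norm_sub_rev] at hz
    linarith
  · have huc : UniformContinuous g := hc.uniformContinuous_of_continuous hg
    obtain ⟨ρ, hρ, huc'⟩ := Metric.uniformContinuous_iff.1 huc ε hε
    filter_upwards [hδ0.eventually (gt_mem_nhds (show 0 < ρ / 2 by positivity))] with n hn v
    have h1 := wK_close hK (hδ n).le hg hbd (η := ε) (v := v) fun z hz => by
      have h2 : dist z (centre (δ n) v) < ρ := by rw [dist_eq_norm]; linarith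
      have h3 := huc' h2
      rw [Real.dist_eq] at h3
      exact h3.le
    have h4 : vc (δ n) ≤ δ n ^ 2 := by
      unfold vc
      have h5 : Real.sqrt 3 ≤ 2 := by
        rw [Real.sqrt_le_left (by norm_num)]; norm_num
      nlinarith [sq_nonneg (δ n)]
    refine h1.trans ?_
    rw [mul_comm ε]
    exact mul_le_mul_of_nonneg_right h4 hε.le

theorem lip_of_data {τ : ℤ × ℤ → ℤ} (h : ∀ v, τ v = -1 ∨ τ v = 0) : Lip τ := fun u v _ => by
  rcases h u with h1 | h1 <;> rcases h v with h2 | h2 <;> rw [h1, h2] <;> simp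

theorem vc_le (δ : ℝ) : vc δ ≤ δ ^ 2 := by
  unfold vc
  have h5 : Real.sqrt 3 ≤ 2 := by
    rw [Real.sqrt_le_left (by norm_num)]; norm_num
  nlinarith [sq_nonneg δ]

/-- `ℓ¹` bound of the weights, general kernel -/
theorem sum_wK_le {K : ℝ × ℝ → ℝ} (hK : Ker K) {δ : ℝ} (hδ : 0 < δ) (hδ1 : δ ≤ 1) {f : ℂ → ℝ}
    {R M : ℝ} (hR : 0 ≤ R) (hM : 0 ≤ M) (hf : ∀ z, |f z| ≤ M) (hs : ∀ z, f z ≠ 0 → ‖z‖ ≤ R)
    (Λ : Finset (ℤ × ℤ)) : ∑ v ∈ Λ, |wK K δ f v| ≤ Real.pi * (R + 3) ^ 2 * M := by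
  classical
  set S := Λ.filter fun v => dist (centre δ v) 0 ≤ R + 2 * δ with hS
  have h1 : ∑ v ∈ Λ, |wK K δ f v| = ∑ v ∈ S, |wK K δ f v| := by
    symm
    refine Finset.sum_subset (Finset.filter_subset _ _) fun v hv hv' => ?_
    rw [abs_eq_zero]
    refine hK.w_eq_zero hδ.le fun z hz => ?_
    by_contra h2
    apply hv'
    refine Finset.mem_filter.2 ⟨hv, ?_⟩
    rw [dist_zero_right]
    have h3 := norm_sub_norm_le (centre δ v) z
    rw [norm_sub_rev] at hz
    linarith [hs z h2]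
  rw [h1]
  have h2 := card_ball_le hδ 0 (r := R + 2 * δ) (by positivity) (S := S)
    fun v hv => (Finset.mem_filter.1 hv).2
  calc ∑ v ∈ S, |wK K δ f v| ≤ ∑ _v ∈ S, vc δ * M := by
        refine Finset.sum_le_sum fun v _ => ?_
        exact hK.w_le hf v
    _ = (S.card * vc δ) * M := by rw [Finset.sum_const, nsmul_eq_mul]; ring
    _ ≤ (Real.pi * (R + 2 * δ + δ) ^ 2) * M := mul_le_mul_of_nonneg_right h2 hM
    _ ≤ Real.pi * (R + 3) ^ 2 * M := by
        refine mul_le_mul_of_nonneg_right ?_ hM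
        refine mul_le_mul_of_nonneg_left ?_ Real.pi_pos.le
        exact pow_le_pow_left₀ (by positivity) (by linarith) 2

/-- **the law half from the lattice inputs** -/
theorem main_of_inputs {x κ : ℝ} (hx0 : 0 < x) (hx1 : x ≤ 1)
    (H : ∀ (D : Set ℂ) (γ : ℝ → ℂ) (P : Finset ℂ) (δ : ℕ → ℝ) (Λ : ℕ → Finset (ℤ × ℤ))
      (τ : ℕ → ℤ × ℤ → ℤ), Setup D γ P δ Λ τ → Inputs x κ D P δ Λ τ) : MainLaw x κ := by
  intro D γ P δ Λ τ hS φ hφ hb K hK f hf hfc hfs t
  have hI := H D γ P δ Λ τ hS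
  have hop := hS.dom.op
  have hδ := hS.sites.pos
  have hδ0 := hS.sites.lim
  have hτ : ∀ n, Lip (τ n) := fun n => lip_of_data (hS.data n)
  obtain ⟨ψ, B⟩ := Crest.Agent.R144.Con549.exists_bih hop hφ hb
  have : ∀ n, IsProbabilityMeasure (mu x (Λ n) (τ n)) := fun n => isProb_mu hx0 (hτ n)
  set Y : ∀ n : ℕ, (ℂ → ℝ) → (ℤ × ℤ → ℤ) → ℝ := fun n g => cS x (Λ n) (τ n) (wK K (δ n) g) with hY
  have hP : ∀ m ∈ P, m ∉ D := by
    intro m hm hmD
    have h1 := hS.marks m hm
    rw [frontier, hop.interior_eq] at h1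
    exact h1.2 hmD
  have hbdd : ∀ g, IsTest D g → ∃ M, ∀ z, |g z| ≤ M := by
    intro g hg
    obtain ⟨M, hM⟩ := hg.comp.exists_bound_of_continuous hg.smooth.continuous
    exact ⟨M, fun z => by simpa using hM z⟩
  have hLp : ∀ n b, MemLp (cS x (Λ n) (τ n) b) 2 (mu x (Λ n) (τ n)) := by
    intro n b
    have h1 := integrable_mu x (Λ n) (τ n) (cS x (Λ n) (τ n) b)
    refine (memLp_two_iff_integrable_sq h1.aestronglyMeasurable).2 ?_
    exact integrable_mu x (Λ n) (τ n) _
  have hwadd : ∀ n f g, IsTest D f → IsTest D g →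
      ∀ v, wK K (δ n) (fun z => f z + g z) v = wK K (δ n) f v + wK K (δ n) g v := by
    intro n f g hf hg v
    exact wK_add (δ n) v (hK.integrable hf.smooth.continuous (hbdd f hf) v)
      (hK.integrable hg.smooth.continuous (hbdd g hg) v)
  have hadd : ∀ n f g, IsTest D f → IsTest D g →
      Y n (fun z => f z + g z) =ᵐ[mu x (Λ n) (τ n)] fun o => Y n f o + Y n g o := by
    intro n f g hf hg
    refine Eventually.of_forall fun o => ?_
    simp only [hY]
    rw [cS_congr (hwadd n f g hf hg), cS_add]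
  have hsmul : ∀ n (c : ℝ) f, IsTest D f →
      Y n (fun z => c * f z) =ᵐ[mu x (Λ n) (τ n)] fun o => c * Y n f o := by
    intro n c f _
    refine Eventually.of_forall fun o => ?_
    simp only [hY]
    rw [cS_congr (fun v => wK_smul (δ n) c f v), cS_smul]
  -- integrals are expectations
  have hcv : ∀ n b g, ∫ o, cS x (Λ n) (τ n) b o * cS x (Λ n) (τ n) g o ∂(mu x (Λ n) (τ n)) =
      Cv x (Λ n) (τ n) b g := fun n b g => integral_mu hx0 (hτ n) _
  -- supports
  have hsup : ∀ r > 0, ∀ g, IsTest D g → ∀ᶠ n in atTop, ∀ v, wK K (δ n) g v ≠ 0 →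
      centre (δ n) v ∈ cthickening r (tsupport g) := by
    intro r hr g _
    filter_upwards [hS.sites.small (show 0 < r / 2 by positivity)] with n hn v hv
    exact w_support hK (hδ n).le (by linarith) hv
  have hover : ∀ K0, IsCompact K0 → K0 ⊆ D → ∃ K1, IsCompact K1 ∧ K1 ⊆ D ∧ ∀ g, IsTest D g →
      tsupport g ⊆ K0 → ∀ M, (∀ z, |g z| ≤ M) → ∀ᶠ n in atTop, Over K1 (δ n) M (wK K (δ n) g) := by
    intro K0 hK0 hK0D
    obtain ⟨r, hr, hrc, hrs⟩ := Crest.Agent.R144.Cov353.exists_thick hK0 hop hK0D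
    refine ⟨_, hrc, hrs, fun g hg hgK M hM => ?_⟩
    filter_upwards [hsup r hr g hg] with n hn
    refine ⟨fun v hv => cthickening_subset_of_subset r hgK (hn v hv), fun v => ?_⟩
    have h1 : |wK K (δ n) g v| ≤ vc (δ n) * M := hK.w_le hM v
    have hM0 : 0 ≤ M := (abs_nonneg _).trans (hM 0)
    refine h1.trans ?_
    rw [mul_comm M]
    exact mul_le_mul_of_nonneg_right (vc_le _) hM0
  -- the characteristic functions of Laplacians
  have hcf : ∀ u, IsTest D u → ∀ t : ℝ, Tendsto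
      (fun n => ∫ o, Complex.exp (Complex.I * (t * Y n (fun z => -(Δ u) z) o : ℝ))
        ∂(mu x (Λ n) (τ n))) atTop
      (𝓝 (Complex.exp (-(κ * (∫ z, ‖fderiv ℝ u z‖ ^ 2) * t ^ 2 / 2 : ℝ)))) := by
    intro u hu t
    have h1 := hI.p1 u hu t
    set g : ℂ → ℝ := fun z => -(Δ u) z with hg
    have hgT : IsTest D g := hu.lap.neg
    set dd : ℕ → ℤ × ℤ → ℝ := fun n => Dop (fun v => u (centre (δ n) v)) with hdd
    set cc : ℕ → ℤ × ℤ → ℝ := fun n v => wK K (δ n) g v - dd n v with hcc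
    have hnear : Near δ cc (fun z => g z - g z) :=
      (near_wK hK hδ hδ0 hgT.smooth.continuous hgT.comp).sub
        (Crest.Agent.R144.Cw643.near_Dop hδ hδ0 hu.smooth hu.comp)
    -- a compact set containing the supports
    obtain ⟨r, hr, hrc, hrs⟩ := Crest.Agent.R144.Cov353.exists_thick hu.comp.isCompact hop hu.supp
    have hsupc : ∀ᶠ n in atTop, ∀ v, cc n v ≠ 0 →
        centre (δ n) v ∈ cthickening r (tsupport u) := by
      filter_upwards [hsup r hr g hgT, hS.sites.small (show 0 < r by positivity)] with n h2 h3 v hv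
      by_cases h4 : wK K (δ n) g v = 0
      · have h5 : dd n v ≠ 0 := by
          intro h6
          apply hv
          simp only [hcc, h4, h6, sub_zero]
        by_contra hcon
        apply h5
        have z1 : u (centre (δ n) v) = 0 := by
          by_contra h7
          exact hcon (self_subset_cthickening _ (subset_tsupport _ h7))
        have z0 : ∀ e ∈ six, u (centre (δ n) (v - e)) = 0 := by
          intro e he
          by_contra h7
          apply hcon
          refine mem_cthickening_of_dist_le _ _ r _ (subset_tsupport _ h7) ?_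
          rw [dist_eq_norm, Crest.Agent.R144.Cw643.centre_sub, sub_sub_cancel]
          exact (Crest.Agent.R144.Cw643.norm_centre_six (hδ n).le he).trans h3.le
        simp only [hdd]
        unfold Dop
        beta_reduce
        rw [z1, z0 _ (by decide), z0 _ (by decide), z0 _ (by decide), z0 _ (by decide),
          z0 _ (by decide), z0 _ (by decide)]
        ring
      · refine cthickening_subset_of_subset r ?_ (h2 v h4)
        exact (closure_mono (by
          intro z hz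
          simp only [hg, Function.mem_support, ne_eq, neg_eq_zero] at hz ⊢
          exact hz)).trans (Crest.Agent.R161.Green722.tsupport_lapC u)
    obtain ⟨C, hC⟩ := hI.bd _ hrc hrs
    have hdiff : ∀ ε > 0, ∀ᶠ n in atTop, Vr x (Λ n) (τ n) (cc n) ≤ C * ε ^ 2 := by
      intro ε hε
      filter_upwards [hnear.near ε hε, hsupc, hC] with n h2 h3 h4
      refine h4 ε (cc n) ⟨h3, fun v => ?_⟩
      have h5 := h2 v
      simpa using h5
    have hev : Tendsto (fun n => (∫ o, Complex.exp (Complex.I * (t * Y n g o : ℝ))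
        ∂(mu x (Λ n) (τ n))) - ex x (Λ n) (τ n) (fun h => Complex.exp (Complex.I *
          (t * cS x (Λ n) (τ n) (dd n) h : ℝ)))) atTop (𝓝 0) := by
      rw [Metric.tendsto_nhds]
      intro ε hε
      set ε' := ε / ((|t| + 1) * (Real.sqrt |C| + 1)) with hε'
      have hε'p : 0 < ε' := by positivity
      filter_upwards [hdiff ε' hε'p] with n hn
      rw [dist_zero_right, ← integral_mu hx0 (hτ n)]
      have hsum : Y n g =ᵐ[mu x (Λ n) (τ n)] fun o =>
          cS x (Λ n) (τ n) (dd n) o + cS x (Λ n) (τ n) (cc n) o := by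
        refine Eventually.of_forall fun o => ?_
        simp only [hY]
        rw [← cS_add]
        congr 1
        funext v
        simp only [hcc]
        ring
      refine (char_sub_le (hLp n _) (hLp n _) (hLp n _) hsum t).trans_lt ?_
      rw [hcv]
      have h5 : Real.sqrt (Cv x (Λ n) (τ n) (cc n) (cc n)) ≤ Real.sqrt |C| * ε' := by
        refine Real.sqrt_le_iff.2 ⟨by positivity, ?_⟩
        rw [mul_pow, Real.sq_sqrt (abs_nonneg C)]
        exact hn.trans (mul_le_mul_of_nonneg_right (le_abs_self C) (by positivity))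
      calc |t| * Real.sqrt (Cv x (Λ n) (τ n) (cc n) (cc n)) ≤ |t| * (Real.sqrt |C| * ε') :=
            mul_le_mul_of_nonneg_left h5 (abs_nonneg _)
        _ < (|t| + 1) * ((Real.sqrt |C| + 1) * ε') := by
            have h6 : 0 < (Real.sqrt |C| + 1) * ε' := by positivity
            have h7 : Real.sqrt |C| * ε' ≤ (Real.sqrt |C| + 1) * ε' := by nlinarith
            have h8 := mul_le_mul_of_nonneg_left h7 (abs_nonneg t)
            nlinarith
        _ = ε := by rw [hε']; field_simp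
    have h9 := hev.add h1
    rw [zero_add] at h9
    exact h9.congr fun n => by ring
  -- the variances of Laplacians
  have hp1 : ∀ u, IsTest D u → Tendsto (fun n => ∫ o, Y n (Δ u) o * Y n (Δ u) o
      ∂(mu x (Λ n) (τ n))) atTop (𝓝 (κ * ∫ z, ‖fderiv ℝ u z‖ ^ 2)) := by
    intro u hu
    set g : ℂ → ℝ := fun z => -(Δ u) z with hg
    have hgT : IsTest D g := hu.lap.neg
    obtain ⟨M, hM⟩ := hbdd g hgT
    obtain ⟨R, hR⟩ := hgT.comp.isBounded.exists_norm_le
    have hM0 : 0 ≤ M := (abs_nonneg _).trans (hM 0)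
    have hmid : ∀ᶠ n in atTop, Crest.Agent.R144.Dpl702.MidLin (conf (Λ n) (τ n)) (Y n g)
        (Real.pi * (max R 0 + 3) ^ 2 * M) := by
      filter_upwards [hS.sites.small one_pos] with n hn
      refine ((Crest.Agent.R144.Dpl702.midLin_sum (conf (Λ n) (τ n)) (Λ n)
        (wK K (δ n) g)).mono ?_).sub_const _
      exact sum_wK_le hK (hδ n) hn.le (le_max_right _ _) hM0 hM
        (fun z hz => (hR z (subset_tsupport _ hz)).trans (le_max_left _ _)) _
    have h1 := Crest.Agent.R144.Dpl702.ex_moments hx0 hx1 hτ (v := κ * ∫ z, ‖fderiv ℝ u z‖ ^ 2)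
      (X := fun n => Y n g) (by positivity) hmid (fun t => by
        have := hcf u hu t
        refine this.congr fun n => ?_
        exact integral_mu hx0 (hτ n) _) 2
    have h2 : Crest.Agent.R144.Mom353.gm (κ * ∫ z, ‖fderiv ℝ u z‖ ^ 2) 2 =
        κ * ∫ z, ‖fderiv ℝ u z‖ ^ 2 := by
      unfold Crest.Agent.R144.Mom353.gm
      simp [Nat.doubleFactorial]
    rw [h2] at h1
    have h3 : ∀ n, ex x (Λ n) (τ n) (fun h => ((Y n g h ^ 2 : ℝ) : ℂ)) =
        ((∫ o, Y n (Δ u) o * Y n (Δ u) o ∂(mu x (Λ n) (τ n)) : ℝ) : ℂ) := by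
      intro n
      rw [← integral_mu hx0 (hτ n), integral_complex_ofReal]
      congr 1
      refine integral_congr_ae (Eventually.of_forall fun o => ?_)
      have h4 : Y n g o = -1 * Y n (Δ u) o := by
        simp only [hY]
        rw [← cS_smul]
        congr 1
        funext v
        rw [← wK_smul]
        congr 1
        funext z
        simp only [hg]
        ring
      simp only [h4]
      ring
    simp only [h3] at h1
    have h5 := (Complex.continuous_re.tendsto _).comp h1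
    simpa only [Function.comp_def, Complex.ofReal_re] using h5
  -- bumps
  obtain ⟨M0, hM0⟩ : ∃ M, ∀ w, Crest.Agent.R144.End938.rho w ≤ M := by
    have hc : HasCompactSupport Crest.Agent.R144.End938.rho := by
      refine HasCompactSupport.of_support_subset_isCompact (isCompact_closedBall (0 : ℂ) 1) ?_
      intro w hw
      rw [mem_closedBall, dist_zero_right]
      by_contra hcon
      push Not at hcon
      exact hw (Crest.Agent.R144.End938.rho_zero hcon.le)
    obtain ⟨M, hM⟩ := hc.exists_bound_of_continuous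
      Crest.Agent.R144.End938.contDiff_rho.continuous
    exact ⟨M, fun w => (le_abs_self _).trans (by simpa using hM w)⟩
  have hM00 : 0 ≤ M0 := (Crest.Agent.R144.End938.rho_nonneg 0).trans (hM0 0)
  have hbump : ∀ z ∈ D, ∀ᶠ n in atTop, Bump D (δ n) (4 * M0) z (wK K (δ n) (rr z (rad D z))) := by
    intro z hz
    have hr := Crest.Agent.R144.End938.rad_pos hop hS.dom.bdd hz
    have hrad : infDist z Dᶜ = 2 * rad D z := by
      unfold Crest.Agent.R144.End938.rad
      ring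
    filter_upwards [hS.sites.small (show 0 < rad D z / 4 by positivity)] with n hn
    refine ⟨fun v => wK_nonneg hK _ (Crest.Agent.R144.End938.rr_nonneg z _) v, fun v hv => ?_,
      fun v => ?_⟩
    · by_contra hcon
      push Not at hcon
      apply hv
      refine hK.w_eq_zero (hδ n).le fun w hw => ?_
      refine Crest.Agent.R144.End938.rr_zero hr ?_
      have h1 := dist_triangle_left (centre (δ n) v) z w
      rw [← dist_eq_norm] at hw
      rw [hrad] at hcon
      linarith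
    · have h1 : ∀ w, |rr z (rad D z) w| ≤ (1 / rad D z) ^ 2 * M0 := by
        intro w
        rw [abs_of_nonneg (Crest.Agent.R144.End938.rr_nonneg z _ w)]
        unfold Crest.Agent.R144.End938.rr
        exact mul_le_mul_of_nonneg_left (hM0 _) (by positivity)
      have h2 : |wK K (δ n) (rr z (rad D z)) v| ≤ vc (δ n) * ((1 / rad D z) ^ 2 * M0) :=
        hK.w_le h1 v
      have h3 := (le_abs_self _).trans h2
      calc wK K (δ n) (rr z (rad D z)) v * infDist z Dᶜ ^ 2
          ≤ vc (δ n) * ((1 / rad D z) ^ 2 * M0) * infDist z Dᶜ ^ 2 :=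
            mul_le_mul_of_nonneg_right h3 (by positivity)
        _ = 4 * M0 * vc (δ n) := by
            rw [hrad]
            field_simp
            ring
        _ ≤ 4 * M0 * δ n ^ 2 := mul_le_mul_of_nonneg_left (vc_le _) (by positivity)
  -- the conclusion
  have hend := end_char hS.dom.bdd hP B (fun n => mu x (Λ n) (τ n)) Y
    (fun n f _ => hLp n _) hadd hsmul hp1 ?_ ?_ ?_ hcf f ⟨hf, hfc, hfs⟩
  · refine (hend.2 t).congr fun n => ?_
    exact integral_mu hx0 (hτ n) _
  · -- bd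
    intro K0 hK0 hK0D
    obtain ⟨K1, hK1, hK1D, hov⟩ := hover K0 hK0 hK0D
    obtain ⟨C, hC⟩ := hI.bd K1 hK1 hK1D
    refine ⟨C, fun g hg hgK M hM => ?_⟩
    filter_upwards [hov g hg hgK M hM, hC] with n h1 h2
    rw [hcv]
    exact h2 M _ h1
  · -- c1
    obtain ⟨C, hC⟩ := hI.c1 (4 * M0)
    refine ⟨C, fun z hz => ?_⟩
    filter_upwards [hC z hz, hbump z hz] with n h1 h2
    rw [hcv]
    exact h1 _ h2
  · -- c2
    intro g hg p hp hpP ε hε
    obtain ⟨K1, hK1, hK1D, hov⟩ := hover (tsupport g) hg.comp.isCompact hg.supp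
    obtain ⟨Mg, hMg⟩ := hbdd g hg
    obtain ⟨η, hη, hev⟩ := hI.c2 (max (4 * M0) Mg) K1 hK1 hK1D p hp hpP ε hε
    refine ⟨η, hη, fun z hz hzp => ?_⟩
    filter_upwards [hev z hz hzp, hbump z hz, hov g hg subset_rfl (max (4 * M0) Mg)
      (fun z => (hMg z).trans (le_max_right _ _))] with n h1 h2 h3
    rw [hcv]
    exact h1 _ _ (h2.mono (le_max_left _ _)) h3

end Crest.Agent.R144.Fin268
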