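import Mathlib
import Crest.Agent.R144.Set3_268

/-! R144 (helper268): SETUP, file 4: non-free sites close to every point of the domain (at the
distance of the point from the complement), boundary values near unmarked frontier points. -/

set_option autoImplicit false

open Set Topology Filter Metric MeasureTheory

namespace Crest.Agent.R144.Set268

open Crest.ProbabilityR.HexHeights Crest.ProbabilityR.TriHeights Crest.Agent.R144.HexTil353
  Crest.Agent.R144.Geo268 Crest.Agent.R144.Cnt268
open Crest.Agent.R144.It844 (intF xi Lip ex conf extF extT upT)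

theorem compl_nonempty' {D : Set ℂ} (hb : Bornology.IsBounded D) : (Dᶜ).Nonempty := by
  rw [nonempty_compl]
  rintro rfl
  obtain ⟨R, hR⟩ := hb.exists_norm_le
  have h1 := hR ((|R| + 1 : ℝ) : ℂ) (mem_univ _)
  rw [Complex.norm_real, Real.norm_eq_abs] at h1
  have h2 := le_abs_self (|R| + 1)
  linarith [le_abs_self R]

/-- the nearest point of the complement is a frontier point -/
theorem exists_frontier_near {D : Set ℂ} (hop : IsOpen D) (hb : Bornology.IsBounded D) {z : ℂ}
    (hz : z ∈ D) : ∃ p ∈ frontier D, dist z p = infDist z Dᶜ := by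
  obtain ⟨p, hp, hd⟩ := hop.isClosed_compl.exists_infDist_eq_dist (compl_nonempty' hb) z
  have hpos : 0 < infDist z Dᶜ :=
    (hop.isClosed_compl.notMem_iff_infDist_pos (compl_nonempty' hb)).1 fun h => h hz
  refine ⟨p, ⟨?_, ?_⟩, hd.symm⟩
  · have h1 : p ∈ closure (ball z (infDist z Dᶜ)) := by
      rw [closure_ball z hpos.ne', mem_closedBall, dist_comm, hd]
    exact closure_mono ball_infDist_compl_subset h1
  · rw [hop.interior_eq]
    exact hp

variable {D : Set ℂ} {γ : ℝ → ℂ} {P : Finset ℂ} {δ : ℕ → ℝ} {Λ : ℕ → Finset (ℤ × ℤ)}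
  {τ : ℕ → ℤ × ℤ → ℤ}

/-- **a non-free site (adjacent to a free one) within `infDist z Dᶜ + ε` of every `z ∈ D`** -/
theorem Setup.near_out (h : Setup D γ P δ Λ τ) {ε : ℝ} (hε : 0 < ε) :
    ∀ᶠ n in atTop, ∀ z ∈ D, ∃ w v : ℤ × ℤ, w ∈ Λ n ∧ v ∉ Λ n ∧ Adj w v ∧
      dist (centre (δ n) w) z < infDist z Dᶜ + ε ∧ dist (centre (δ n) v) z < infDist z Dᶜ + ε := by
  filter_upwards [h.dense hε] with n hn z hz
  obtain ⟨p, hp, hd⟩ := exists_frontier_near h.dom.op h.dom.bdd hz
  obtain ⟨w, v, hw, hv, hwv, h1, h2⟩ := hn p hp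
  refine ⟨w, v, hw, hv, hwv, ?_, ?_⟩
  · have := dist_triangle_right (centre (δ n) w) z p
    rw [hd] at this
    linarith
  · have := dist_triangle_right (centre (δ n) v) z p
    rw [hd] at this
    linarith

/-- eventually every site over a compact subset of the domain is free -/
theorem Setup.free (h : Setup D γ P δ Λ τ) {K : Set ℂ} (hK : IsCompact K) (hKD : K ⊆ D) :
    ∀ᶠ n in atTop, ∀ v, centre (δ n) v ∈ K → v ∈ Λ n := h.sites.inn K hK hKD

/-- eventually every non-free site is within `ε` of the complement -/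
theorem Setup.nonfree_near (h : Setup D γ P δ Λ τ) {ε : ℝ} (hε : 0 < ε) :
    ∀ᶠ n in atTop, ∀ v, v ∉ Λ n → infDist (centre (δ n) v) Dᶜ < ε := by
  have hne := compl_nonempty' h.dom.bdd
  set K : Set ℂ := closure D ∩ {z | ε ≤ infDist z Dᶜ} with hK
  have hKc : IsCompact K := by
    refine isCompact_of_isClosed_isBounded ?_ (h.dom.bdd.closure.subset inter_subset_left)
    exact isClosed_closure.inter (isClosed_le continuous_const (continuous_infDist_pt _))
  have hKD : K ⊆ D := by
    intro z hz
    by_contra hcon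
    have h1 := infDist_zero_of_mem (show z ∈ Dᶜ from hcon)
    have h2 : ε ≤ infDist z Dᶜ := hz.2
    linarith
  filter_upwards [h.sites.inn K hKc hKD] with n hn v hv
  by_contra hcon
  push Not at hcon
  apply hv
  apply hn
  refine ⟨?_, hcon⟩
  by_contra h3
  have h4 : centre (δ n) v ∈ Dᶜ := fun h5 => h3 (subset_closure h5)
  have h1 := infDist_zero_of_mem h4
  linarith

end Crest.Agent.R144.Set268
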