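import Mathlib
import Crest.Agent.R144.Set4_268

/-! R144 (helper830): **LC** = local connectivity of the non-free sites near the frontier
(block B6 (g4) of doc 1945), for S0195 (`lc_hex`) and S0196/S0197 (`lc_tri`), uniformly in the
frontier point. -/

set_option autoImplicit false

open Set Topology Filter Metric

namespace Crest.Agent.R144.Lc830

open Crest.ProbabilityR.HexHeights Crest.ProbabilityR.TriHeights Crest.Agent.R144.HexTil353
  Crest.Agent.R144.TriTil353 Crest.Agent.R144.Geo268 Crest.Agent.R144.Cnt268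
  Crest.Agent.R144.Set268
open Crest.Agent.R144.It844 (intF xi)

/-- joined by `Adj`-steps inside `S` -/
abbrev Jn (S : Set (ℤ × ℤ)) : ℤ × ℤ → ℤ × ℤ → Prop :=
  Relation.ReflTransGen fun a b => a ∈ S ∧ b ∈ S ∧ Adj a b

/-- **discretisation**: the sites whose closed cell meets a preconnected set are joined -/
theorem join_of_preconn {δ : ℝ} (hδ : 0 < δ) {K : Set ℂ} (hK : IsPreconnected K)
    {S : Set (ℤ × ℤ)} (hS : ∀ u, (cell δ u ∩ K).Nonempty → u ∈ S) {u v : ℤ × ℤ}
    (hu : (cell δ u ∩ K).Nonempty) (hv : (cell δ v ∩ K).Nonempty) : Jn S u v := by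
  by_contra hcon
  have hT := HexTil353.tiling hδ
  obtain ⟨a, ha1, ha2⟩ := hu
  obtain ⟨b, hb1, hb2⟩ := hv
  set A : Set (ℤ × ℤ) := {w | Jn S u w} with hA
  obtain ⟨m, hmK, hm1, hm2⟩ := isPreconnected_closed_iff.1 hK
    (Crest.Agent.R144.Til353.U (cell δ) A)
    (Crest.Agent.R144.Til353.U (cell δ) Aᶜ) (hT.isClosed_U _) (hT.isClosed_U _)
    (by
      rw [← Crest.Agent.R144.Til353.Tiling.U_union, union_compl_self]
      intro z _
      obtain ⟨w, hw⟩ := exists_cell hδ z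
      exact Crest.Agent.R144.Til353.mem_U.2 ⟨w, mem_univ _, hw⟩)
    ⟨a, ha2, Crest.Agent.R144.Til353.mem_U.2 ⟨u, Relation.ReflTransGen.refl, ha1⟩⟩
    ⟨b, hb2, Crest.Agent.R144.Til353.mem_U.2 ⟨v, hcon, hb1⟩⟩
  obtain ⟨w, hw, hmw⟩ := Crest.Agent.R144.Til353.mem_U.1 hm1
  obtain ⟨w', hw', hmw'⟩ := Crest.Agent.R144.Til353.mem_U.1 hm2
  apply hw'
  rcases touch hδ ⟨m, hmw, hmw'⟩ with h | h
  · rw [← h]; exact hw
  · exact hw.tail ⟨hS w ⟨m, hmw, hmK⟩, hS w' ⟨m, hmw', hmK⟩, h⟩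

/-- **first entry**: from a point off an open set towards a point of it, the segment up to a
frontier point stays off the open set -/
theorem first_entry {O : Set ℂ} (hO : IsOpen O) {z q : ℂ} (hz : z ∉ O) (hq : q ∈ O) :
    ∃ w ∈ segment ℝ z q, w ∈ frontier O ∧ segment ℝ z w ⊆ Oᶜ := by
  set l : ℝ → ℂ := fun t => AffineMap.lineMap z q t with hl
  have hlc : Continuous l := AffineMap.lineMap_continuous
  set S : Set ℝ := {t | t ∈ Icc (0 : ℝ) 1 ∧ l t ∈ O} with hS
  have h1S : (1 : ℝ) ∈ S := ⟨⟨zero_le_one, le_rfl⟩, by simpa [hl] using hq⟩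
  have hbdd : BddBelow S := ⟨0, fun t ht => ht.1.1⟩
  set t0 := sInf S with ht0
  have h0 : 0 ≤ t0 := le_csInf ⟨1, h1S⟩ fun t ht => ht.1.1
  have h1 : t0 ≤ 1 := csInf_le hbdd h1S
  have hlt : ∀ t, 0 ≤ t → t < t0 → l t ∉ O := by
    intro t ht htt hlO
    exact absurd (csInf_le hbdd (⟨⟨ht, htt.le.trans h1⟩, hlO⟩ : t ∈ S)) (not_le.2 htt)
  have hcl : l t0 ∈ closure O := by
    have h2 : t0 ∈ closure S := csInf_mem_closure ⟨1, h1S⟩ hbdd
    have h3 : l t0 ∈ closure (l '' S) := image_closure_subset_closure_image hlc ⟨t0, h2, rfl⟩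
    exact closure_mono (by rintro _ ⟨t, ht, rfl⟩; exact ht.2) h3
  have hnO : l t0 ∉ O := by
    intro hin
    rcases h0.eq_or_lt with h2 | h2
    · apply hz
      have : l 0 = z := by simp [hl]
      rw [← this, h2]; exact hin
    · have h3 : ∀ᶠ t in 𝓝 t0, l t ∈ O := hlc.continuousAt.eventually (hO.mem_nhds hin)
      obtain ⟨ε, hε, hb⟩ := Metric.eventually_nhds_iff.1 h3
      set t := max 0 (t0 - ε / 2) with ht
      have h4 : t < t0 := max_lt h2 (by linarith)
      have h5 : t0 - ε / 2 ≤ t := le_max_right _ _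
      refine hlt t (le_max_left _ _) h4 (hb ?_)
      rw [Real.dist_eq, abs_lt]
      constructor <;> linarith
  refine ⟨l t0, ?_, ⟨hcl, by rwa [hO.interior_eq]⟩, ?_⟩
  · rw [segment_eq_image_lineMap]
    exact ⟨t0, ⟨h0, h1⟩, rfl⟩
  · intro y hy
    rw [segment_eq_image_lineMap] at hy
    obtain ⟨s, hs, rfl⟩ := hy
    have h6 : AffineMap.lineMap z (l t0) s = l (s * t0) := by
      simp only [hl, AffineMap.lineMap_apply, vsub_eq_sub, vadd_eq_add, smul_eq_mul,
        Complex.real_smul]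
      push_cast
      ring
    rw [h6]
    rcases hs.2.eq_or_lt with h7 | h7
    · rw [h7, one_mul]; exact hnO
    · rcases h0.eq_or_lt with h8 | h8
      · rw [← h8, mul_zero]
        rw [← h8] at hnO
        exact hnO
      · exact hlt _ (mul_nonneg hs.1 h0) (by nlinarith)

/-- **LC**: non-free sites near a frontier point are joined off the free set nearby, uniformly in
the frontier point -/
def LC (D : Set ℂ) (δ : ℕ → ℝ) (Λ : ℕ → Finset (ℤ × ℤ)) : Prop :=
  ∃ C : ℝ, 1 ≤ C ∧ ∀ ρ : ℝ, 0 < ρ → ∀ᶠ n in atTop, ∀ p ∈ frontier D, ∀ u v : ℤ × ℤ,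
    u ∉ Λ n → v ∉ Λ n → dist (centre (δ n) u) p ≤ ρ → dist (centre (δ n) v) p ≤ ρ →
    Jn {w | w ∉ Λ n ∧ dist (centre (δ n) w) p ≤ C * ρ} u v

/-- abstract form: open regions `O n` whose frontiers are traced by `c n → γ` -/
theorem lc_of_curves {D : Set ℂ} {γ : ℝ → ℂ} {δ : ℕ → ℝ} {Λ : ℕ → Finset (ℤ × ℤ)}
    (hD : Dom D γ) (h2 : ContDiff ℝ 2 γ) (hpos : ∀ n, 0 < δ n) (hlim : Tendsto δ atTop (𝓝 0))
    {O : ℕ → Set ℂ} (hO : ∀ n, IsOpen (O n)) {c : ℕ → ℝ → ℂ} (hc : ∀ n, Continuous (c n))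
    (hp : ∀ n, Function.Periodic (c n) (2 * Real.pi)) (hr : ∀ n, range (c n) = frontier (O n))
    (hu : TendstoUniformly c γ atTop)
    (hcov : ∀ K : Set ℂ, IsCompact K → K ⊆ D → ∀ᶠ n in atTop, K ⊆ O n)
    (hS1 : ∀ n z u, z ∉ O n → z ∈ cell (δ n) u → u ∉ Λ n)
    (hS2 : ∀ n u, u ∉ Λ n → ∃ z ∈ cell (δ n) u, z ∉ O n) : LC D δ Λ := by
  obtain ⟨m, M, cc, hm⟩ := hD.reg.exists_met h2
  obtain ⟨r0, hr0, hballs⟩ := exists_balls hD h2
  have hM := hm.Mpos
  have hcc := hm.cpos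
  have hper := hD.reg.per
  refine ⟨4 * M / cc + 5, ?_, fun ρ hρ => ?_⟩
  · have : 0 ≤ 4 * M / cc := by positivity
    linarith
  set r := min r0 ρ with hrdef
  have hrpos : 0 < r := lt_min hr0 hρ
  -- compact core
  set K : Set ℂ := {z | z ∈ closure D ∧ ∀ w ∈ Dᶜ, r ≤ dist z w} with hK
  have hKc : IsCompact K := by
    refine isCompact_of_isClosed_isBounded ?_ (hD.bdd.closure.subset fun z hz => hz.1)
    have : K = closure D ∩ ⋂ w ∈ Dᶜ, {z | r ≤ dist z w} := by
      ext z; simp only [hK, mem_ofPred_eq, mem_inter_iff, mem_iInter]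
    rw [this]
    refine isClosed_closure.inter (isClosed_biInter fun w _ => ?_)
    exact isClosed_le continuous_const (continuous_id.dist continuous_const)
  have hKD : K ⊆ D := by
    intro z hz
    by_contra h1
    have := hz.2 z h1
    rw [dist_self] at this
    linarith
  filter_upwards [hcov K hKc hKD, hlim.eventually (gt_mem_nhds hρ),
    Metric.tendstoUniformly_iff.1 hu ρ hρ] with n hn1 hn2 hn3 p hpf u v hu' hv' hud hvd
  obtain ⟨nn, hnn, hb⟩ := hballs p hpf
  obtain ⟨hin, -⟩ := hb r hrpos (min_le_left _ _)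
  have hqK : p + r * nn ∈ K := by
    have hcen : p + r * nn ∈ D := hin (mem_ball_self hrpos)
    refine ⟨subset_closure hcen, fun w hw => ?_⟩
    by_contra hcon
    push Not at hcon
    exact hw (hin (by rw [mem_ball, dist_comm]; exact hcon))
  set q := p + r * nn with hq
  have hqO : q ∈ O n := hn1 hqK
  have hqd : dist q p ≤ ρ := by
    rw [hq, dist_eq_norm, add_sub_cancel_left, norm_mul, hnn, mul_one, Complex.norm_real,
      Real.norm_eq_abs, abs_of_pos hrpos]
    exact min_le_right _ _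
  have hδ := hpos n
  rw [← hD.fr] at hpf
  obtain ⟨s, rfl⟩ := hpf
  -- from a non-free site to the curve
  have reach : ∀ x : ℤ × ℤ, x ∉ Λ n → dist (centre (δ n) x) (γ s) ≤ ρ →
      ∃ z ∈ cell (δ n) x, ∃ t, |t - s| ≤ 4 * ρ / cc ∧ |t - s| ≤ Real.pi ∧
        segment ℝ z (c n t) ⊆ (O n)ᶜ ∩ closedBall (γ s) (2 * ρ) := by
    intro x hx hxd
    obtain ⟨z, hz, hzO⟩ := hS2 n x hx
    obtain ⟨w, hw, hwf, hseg⟩ := first_entry (hO n) hzO hqO
    rw [← hr n] at hwf
    obtain ⟨t', rfl⟩ := hwf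
    have hzd : dist z (γ s) ≤ 2 * ρ := by
      have h3 := mem_closedBall.1 (cell_subset_ball hδ x hz)
      have h4 := dist_triangle z (centre (δ n) x) (γ s)
      linarith
    have hzb : z ∈ closedBall (γ s) (2 * ρ) := mem_closedBall.2 hzd
    have hqb : q ∈ closedBall (γ s) (2 * ρ) := mem_closedBall.2 (by linarith)
    have hwb : c n t' ∈ closedBall (γ s) (2 * ρ) :=
      (convex_closedBall (γ s) (2 * ρ)).segment_subset hzb hqb hw
    obtain ⟨k, hk⟩ : ∃ k : ℤ, |t' - k * (2 * Real.pi) - s| ≤ Real.pi := by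
      have h5 := Real.two_pi_pos
      refine ⟨⌊(t' - s + Real.pi) / (2 * Real.pi)⌋, ?_⟩
      have h6 := Int.floor_le ((t' - s + Real.pi) / (2 * Real.pi))
      have h7 := Int.lt_floor_add_one ((t' - s + Real.pi) / (2 * Real.pi))
      rw [le_div_iff₀ h5] at h6
      rw [div_lt_iff₀ h5] at h7
      rw [abs_le]
      constructor <;> linarith
    have hct : c n (t' - k * (2 * Real.pi)) = c n t' := by
      have := (hp n).sub_zsmul_eq (x := t') k
      rwa [zsmul_eq_mul] at this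
    refine ⟨z, hz, t' - k * (2 * Real.pi), ?_, hk, ?_⟩
    · have h8 := hm.chord s (t' - k * (2 * Real.pi)) hk
      have h9 := hn3 (t' - k * (2 * Real.pi))
      rw [hct] at h9
      have h10 := dist_triangle (γ (t' - k * (2 * Real.pi))) (c n t') (γ s)
      rw [mem_closedBall] at hwb
      rw [← dist_eq_norm] at h8
      rw [le_div_iff₀ hcc]
      linarith [mul_comm cc |t' - k * (2 * Real.pi) - s|]
    · rw [hct]
      exact subset_inter hseg ((convex_closedBall (γ s) (2 * ρ)).segment_subset hzb hwb)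
  obtain ⟨zu, hzu, tu, htu, -, hsu⟩ := reach u hu' hud
  obtain ⟨zv, hzv, tv, htv, -, hsv⟩ := reach v hv' hvd
  -- the connected set
  set L : Set ℂ := segment ℝ zu (c n tu) ∪ c n '' uIcc tu tv ∪ segment ℝ zv (c n tv) with hL
  have hLc : IsPreconnected L := by
    have e1 : IsPreconnected (segment ℝ zu (c n tu)) := (convex_segment _ _).isPreconnected
    have e2 : IsPreconnected (c n '' uIcc tu tv) :=
      isPreconnected_uIcc.image _ (hc n).continuousOn
    have e3 : IsPreconnected (segment ℝ zv (c n tv)) := (convex_segment _ _).isPreconnected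
    have m1 : c n tu ∈ c n '' uIcc tu tv := ⟨tu, left_mem_uIcc, rfl⟩
    have m2 : c n tv ∈ c n '' uIcc tu tv := ⟨tv, right_mem_uIcc, rfl⟩
    have e4 := e1.union (c n tu) (right_mem_segment ℝ _ _) m1 e2
    exact e4.union (c n tv) (mem_union_right _ m2) (right_mem_segment ℝ _ _) e3
  have hLO : L ⊆ (O n)ᶜ := by
    rintro y ((hy | ⟨t, -, rfl⟩) | hy)
    · exact (hsu hy).1
    · have h3 : c n t ∈ frontier (O n) := by rw [← hr n]; exact ⟨t, rfl⟩
      rw [frontier, (hO n).interior_eq] at h3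
      exact h3.2
    · exact (hsv hy).1
  have hLb : L ⊆ closedBall (γ s) ((4 * M / cc + 4) * ρ) := by
    have hb2 : (2 : ℝ) * ρ ≤ (4 * M / cc + 4) * ρ := by
      apply mul_le_mul_of_nonneg_right _ hρ.le
      have : 0 ≤ 4 * M / cc := by positivity
      linarith
    rintro y ((hy | ⟨t, ht, rfl⟩) | hy)
    · exact closedBall_subset_closedBall hb2 (hsu hy).2
    · have h3 : |t - s| ≤ 4 * ρ / cc := by
        have hconv : Convex ℝ (Icc (s - 4 * ρ / cc) (s + 4 * ρ / cc)) := convex_Icc _ _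
        have h4 : uIcc tu tv ⊆ Icc (s - 4 * ρ / cc) (s + 4 * ρ / cc) := by
          refine uIcc_subset_Icc ?_ ?_
          · rw [abs_le] at htu
            exact ⟨by linarith [htu.1], by linarith [htu.2]⟩
          · rw [abs_le] at htv
            exact ⟨by linarith [htv.1], by linarith [htv.2]⟩
        have h5 := h4 ht
        rw [abs_le]
        exact ⟨by linarith [h5.1], by linarith [h5.2]⟩
      have h5 : dist (γ t) (γ s) ≤ M * |t - s| := by
        have h6 := (convex_univ (𝕜 := ℝ) (E := ℝ)).norm_image_sub_le_of_norm_deriv_le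
          (f := γ) (C := M) (fun x _ => hD.reg.diff x) (fun x _ => hm.up x) (mem_univ s)
          (mem_univ t)
        rw [Real.norm_eq_abs] at h6
        rw [dist_eq_norm]
        exact h6
      have h7 := hn3 t
      have h8 := dist_triangle (c n t) (γ t) (γ s)
      rw [dist_comm (c n t) (γ t)] at h8
      rw [mem_closedBall]
      have h9 : M * |t - s| ≤ M * (4 * ρ / cc) := mul_le_mul_of_nonneg_left h3 hM.le
      have h10 : M * (4 * ρ / cc) = 4 * M / cc * ρ := by ring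
      have h11 : (4 * M / cc + 4) * ρ = 4 * M / cc * ρ + 4 * ρ := by ring
      linarith
    · exact closedBall_subset_closedBall hb2 (hsv hy).2
  have hzuL : zu ∈ L := Or.inl (Or.inl (left_mem_segment ℝ _ _))
  have hzvL : zv ∈ L := Or.inr (left_mem_segment ℝ _ _)
  refine join_of_preconn hδ hLc ?_ ⟨zu, hzu, hzuL⟩ ⟨zv, hzv, hzvL⟩
  rintro w ⟨y, hy1, hy2⟩
  refine ⟨hS1 n y w (hLO hy2) hy1, ?_⟩
  have h3 := mem_closedBall.1 (cell_subset_ball hδ w hy1)
  have h4 := mem_closedBall.1 (hLb hy2)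
  have h5 := dist_triangle_left (centre (δ n) w) (γ s) y
  have h6 : (4 * M / cc + 5) * ρ = (4 * M / cc + 4) * ρ + ρ := by ring
  linarith

/-- **S0195** -/
theorem lc_hex {D : Set ℂ} {γ : ℝ → ℂ} {δ : ℕ → ℝ} {F : ℕ → Finset (ℤ × ℤ)}
    (hD : IsC2JordanDomain D γ) (hA : IsInsideApprox D γ δ F) :
    LC D δ (fun n => intF (F n)) := by
  obtain ⟨c, hc, hu⟩ := hA.2.2.2.2
  have hmem : ∀ n z, z ∉ approxDomain (δ n) (F n) ↔ ∃ w, w ∉ F n ∧ z ∈ cell (δ n) w := by
    intro n z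
    have h1 := (HexTil353.tiling (hA.1 n)).compl_U ((F n : Set (ℤ × ℤ))ᶜ)
    rw [compl_compl] at h1
    rw [Crest.Agent.R144.HexDom353.approx_eq, ← h1, notMem_compl_iff,
      Crest.Agent.R144.Til353.mem_U]
    simp
  refine lc_of_curves (dom_of_C2 hD) hD.2.2.2.1 hA.1 hA.2.1 (O := fun n => approxDomain (δ n) (F n))
    (fun n => isOpen_interior) (c := c) (fun n => (hc n).1) (fun n => (hc n).2.1)
    (fun n => (hc n).2.2.2) hu hA.2.2.2.1 ?_ ?_
  · intro n z u hz hzu hu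
    obtain ⟨w, hw, hzw⟩ := (hmem n z).1 hz
    rw [Crest.Agent.R144.Cov353.mem_intF_iff] at hu
    rcases touch (hA.1 n) ⟨z, hzu, hzw⟩ with h | h
    · exact hw (h ▸ hu.1)
    · exact hw (hu.2 w h)
  · intro n u hu
    rw [Crest.Agent.R144.Cov353.mem_intF_iff] at hu
    by_cases h1 : u ∈ F n
    · push Not at hu
      obtain ⟨w, hw, hwF⟩ := hu h1
      obtain ⟨m, h3, h4, -⟩ := Crest.Agent.R144.HexDom353.glued_of_adj (hA.1 n) hw
      exact ⟨m, h3, (hmem n m).2 ⟨w, hwF, h4⟩⟩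
    · have h2 : centre (δ n) u ∈ cell (δ n) u := ball_subset_cell (hA.1 n) u
        (mem_ball_self (by have := hA.1 n; positivity))
      exact ⟨_, h2, (hmem n _).2 ⟨u, h1, h2⟩⟩

/-- a point of a closed triangle lies only in the cells of its corners -/
theorem corner_of_cell {δ : ℝ} (hδ : 0 < δ) {t : Tri} {z : ℂ} (hz : z ∈ triRegion δ t)
    {u : ℤ × ℤ} (hu : z ∈ cell δ u) : u ∈ corners t := by
  rw [mem_cell_coord hδ] at hu
  rw [mem_triRegion hδ] at hz
  obtain ⟨h1, h2, h3⟩ := hu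
  rw [abs_le] at h1 h2 h3
  simp only at h1 h2 h3
  obtain ⟨⟨i, j⟩, b⟩ := t
  obtain ⟨u1, u2⟩ := u
  set A := ca δ z
  set B := cb δ z
  simp only at h1 h2 h3
  have ha1 : A - u1 ≤ 2 / 3 := by linarith [h1.2, h3.2]
  have ha2 : -(2 / 3) ≤ A - u1 := by linarith [h1.1, h3.1]
  have hb1 : B - u2 ≤ 2 / 3 := by linarith [h2.2, h3.1]
  have hb2 : -(2 / 3) ≤ B - u2 := by linarith [h2.1, h3.2]
  have hc1 : A + B - (u1 + u2) ≤ 2 / 3 := by linarith [h1.2, h2.2]
  have hc2 : -(2 / 3) ≤ A + B - (u1 + u2) := by linarith [h1.1, h2.1]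
  cases b
  · rw [InT_dn] at hz
    obtain ⟨g1, g2, g3⟩ := hz
    simp only at g1 g2 g3
    have e1 : u1 ≤ i + 1 := by
      have : (u1 : ℝ) < ((i + 2 : ℤ) : ℝ) := by push_cast; linarith
      have := Int.cast_lt.1 this; omega
    have e2 : u2 ≤ j + 1 := by
      have : (u2 : ℝ) < ((j + 2 : ℤ) : ℝ) := by push_cast; linarith
      have := Int.cast_lt.1 this; omega
    have e3 : i + j + 1 ≤ u1 + u2 := by
      have : ((i + j : ℤ) : ℝ) < ((u1 + u2 : ℤ) : ℝ) := by push_cast; linarith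
      have := Int.cast_lt.1 this; omega
    rw [mem_corners_false]
    simp only
    omega
  · rw [InT_up] at hz
    obtain ⟨g1, g2, g3⟩ := hz
    simp only at g1 g2 g3
    have e1 : i ≤ u1 := by
      have : ((i - 1 : ℤ) : ℝ) < (u1 : ℝ) := by push_cast; linarith
      have := Int.cast_lt.1 this; omega
    have e2 : j ≤ u2 := by
      have : ((j - 1 : ℤ) : ℝ) < (u2 : ℝ) := by push_cast; linarith
      have := Int.cast_lt.1 this; omega
    have e3 : u1 + u2 ≤ i + j + 1 := by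
      have : ((u1 + u2 : ℤ) : ℝ) < ((i + j + 2 : ℤ) : ℝ) := by push_cast; linarith
      have := Int.cast_lt.1 this; omega
    rw [mem_corners_true]
    simp only
    omega

/-- **S0196 / S0197** -/
theorem lc_tri {D : Set ℂ} {γ : ℝ → ℂ} {θ : ℝ} {δ : ℕ → ℝ} {T : ℕ → Finset Tri}
    {ea eb : ℕ → (ℤ × ℤ) × (ℤ × ℤ)} {c : ℕ → ℝ → ℂ}
    (hD : IsSmoothMarkedDomain D γ θ) (hA : IsMarkedApprox γ θ δ T ea eb c) :
    LC D δ
      (fun n => freeVerts (T n) (arcPlus (δ n) (T n) (c n) θ) (arcMinus (δ n) (T n) (c n) θ)) := by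
  have hmem : ∀ n z, z ∉ polygon (δ n) (T n) ↔ ∃ t, t ∉ T n ∧ z ∈ triRegion (δ n) t := by
    intro n z
    have h1 := (TriTil353.tiling (hA.1 n)).compl_U ((T n : Set Tri)ᶜ)
    rw [compl_compl] at h1
    have h2 : polygon (δ n) (T n) =
        interior (Crest.Agent.R144.Til353.U (triRegion (δ n)) (T n : Set Tri)) := by
      unfold polygon Crest.Agent.R144.Til353.U
      simp
    rw [h2, ← h1, notMem_compl_iff, Crest.Agent.R144.Til353.mem_U]
    simp
  refine lc_of_curves (dom_of_marked hD) (contDiff_infty.1 hD.2.2.2.1 2) hA.1 hA.2.1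
    (O := fun n => polygon (δ n) (T n)) (fun n => isOpen_interior) (c := c)
    (fun n => (hA.2.2.2.1 n).1) (fun n => (hA.2.2.2.1 n).2.1)
    (fun n => (hA.2.2.2.1 n).2.2.2.1) hA.2.2.2.2 
    (fun K hK hKD => Crest.Agent.R144.Cov353.tri_cover hD hA hK hKD) ?_ ?_
  · intro n z u hz hzu hu
    rw [mem_free_iff hA n u, centre_mem_polygon (hA.1 n)] at hu
    obtain ⟨t, ht, hzt⟩ := (hmem n z).1 hz
    exact ht (hu t (corner_of_cell (hA.1 n) hzt hzu))
  · intro n u hu
    rw [mem_free_iff hA n u] at hu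
    exact ⟨centre (δ n) u, ball_subset_cell (hA.1 n) u
        (mem_ball_self (by have := hA.1 n; positivity)), hu⟩

end Crest.Agent.R144.Lc830
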