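import Mathlib
import Crest.Agent.R144.Fin2_268
import Crest.Agent.R144.Env1_702
import Crest.Agent.R144.Lc1_830

/-! R144 (helper830): helper268's FIN block (files Fin1, Fin2) with the extended setup
`Setup + Env (702) + LC (830)`: literal S0195 / S0196 from
`Setup → Env → LC → Inputs`. The proofs are helper268's, verbatim up to the two extra hypotheses. -/

set_option autoImplicit false

open Set Topology Filter Metric MeasureTheory
open scoped ContDiff Laplacian

namespace Crest.Agent.R144.Fin830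

open Crest.ProbabilityR.HexHeights Crest.ProbabilityR.TriHeights Crest.Agent.R144.HexTil353
  Crest.Agent.R144.Geo268 Crest.Agent.R144.Cnt268 Crest.Agent.R144.Set268 Crest.Agent.R144.Fin268
open Crest.Agent.R144.It844 (intF xi Lip ex conf extF extT upT mu ex_add ex_smul ex_const ex_congr)
open Crest.Agent.R144.Con549 (IsTest Bih)
open Crest.Agent.R144.Pst967 (integral_mu isProb_mu integrable_mu)
open Crest.Agent.R144.Cw643 (Dop Near six)
open Crest.Agent.R144.End938 (rr rad end_char char_sub_le)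
open Crest.Agent.R144.Env702 (Env env_hex env_tri)
open Crest.Agent.R144.Lc830 (LC lc_hex lc_tri)

/-- the law half for the extended setup -/
def MainLawE (x κ : ℝ) : Prop :=
  ∀ (D : Set ℂ) (γ : ℝ → ℂ) (P : Finset ℂ) (δ : ℕ → ℝ) (Λ : ℕ → Finset (ℤ × ℤ))
    (τ : ℕ → ℤ × ℤ → ℤ), Setup D γ P δ Λ τ → Env D δ Λ → LC D δ Λ →
    ∀ φ : ℂ → ℂ, DifferentiableOn ℂ φ D →
    BijOn φ D (ball (0 : ℂ) 1) → ∀ K : ℝ × ℝ → ℝ, Ker K →
    ∀ f : ℂ → ℝ, ContDiff ℝ ∞ f → HasCompactSupport f → tsupport f ⊆ D → ∀ t : ℝ,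
    Tendsto (fun n => ex x (Λ n) (τ n) (fun h => Complex.exp (Complex.I *
      (t * (LX K (δ n) (Λ n) f h - mX x K (δ n) (Λ n) (τ n) f) : ℝ)))) atTop
      (𝓝 (Complex.exp (-(κ * domainGreenForm φ f * t ^ 2 / 2 : ℝ))))

/-- **S0195 from the law half (extended setup)** -/
theorem fin195E {x κ : ℝ} (hx0 : 0 < x) (hx1 : x ≤ 1) (hκ : 0 < κ) (hM : MainLawE x κ) :
    ∃ σ : ℝ, 0 < σ ∧ ∀ (D : Set ℂ) (γ : ℝ → ℂ) (φ : ℂ → ℂ),
      IsC2JordanDomain D γ → DifferentiableOn ℂ φ D →
      Set.BijOn φ D (Metric.ball (0 : ℂ) 1) →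
      ∀ (δ : ℕ → ℝ) (F : ℕ → Finset (ℤ × ℤ)),
        IsInsideApprox D γ δ F →
      ∀ f : ℂ → ℝ, ContDiff ℝ ∞ f → HasCompactSupport f → tsupport f ⊆ D →
        (∀ t : ℝ, Filter.Tendsto (fun n : ℕ => heightExpect (F n) x
            (fun h => Complex.exp (Complex.I *
              (t * pairing (δ n) f h / σ : ℝ))))
          Filter.atTop
          (nhds (Complex.exp
            (-(domainGreenForm φ f * t ^ 2 / 2 : ℝ))))) ∧
        ∀ k : ℕ, Filter.Tendsto (fun n : ℕ => heightExpect (F n) x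
            (fun h => ((pairing (δ n) f h / σ) ^ k : ℝ)))
          Filter.atTop
          (nhds ((if Even k then domainGreenForm φ f ^ (k / 2) *
              ((k - 1).doubleFactorial : ℝ) else 0 : ℝ) : ℂ)) := by
  refine ⟨Real.sqrt κ, Real.sqrt_pos.2 hκ, fun D γ φ hD hφ hb δ F hA f hf hfc hfs => ?_⟩
  have hT : Tst D f := ⟨hf.continuous, hfc, hfs⟩
  have hs := Real.sqrt_pos.2 hκ
  have hlaw : ∀ t : ℝ, Tendsto (fun n : ℕ => heightExpect (F n) x
      (fun h => Complex.exp (Complex.I * (t * pairing (δ n) f h / Real.sqrt κ : ℝ)))) atTop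
      (𝓝 (Complex.exp (-(domainGreenForm φ f * t ^ 2 / 2 : ℝ)))) := by
    intro t
    have h1 := hM D γ ∅ δ (fun n => intF (F n)) (fun _ _ => 0) (setup_hex hD hA) (env_hex hD hA) (lc_hex hD hA) φ hφ hb hexK ker_hex
      f hf hfc hfs (t / Real.sqrt κ)
    have h2 : κ * domainGreenForm φ f * (t / Real.sqrt κ) ^ 2 / 2 =
        domainGreenForm φ f * t ^ 2 / 2 := by
      rw [div_pow, Real.sq_sqrt hκ.le]
      field_simp
    rw [h2] at h1
    refine h1.congr' ?_
    filter_upwards [hex_bridge x hD hA hT] with n hn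
    have h3 := hn (fun r => Complex.exp (Complex.I * (t * r / Real.sqrt κ : ℝ)))
    rw [h3]
    refine Crest.Agent.R144.It844.ex_congr fun h _ => ?_
    rw [mX_zero, sub_zero]
    congr 3
    ring
  refine ⟨hlaw, fun k => ?_⟩
  exact Crest.Agent.R144.Dpl702.height_moments' hx0 hx1 hA.1 hT.integrable _ hlaw k

/-- **S0196 from the law half (extended setup)** -/
theorem fin196E {κ : ℝ} (hκ : 0 < κ) (hM : MainLawE 1 κ) :
    ∃ σ : ℝ, 0 < σ ∧ ∀ (D : Set ℂ) (γ : ℝ → ℂ) (θ : ℝ) (φ : ℂ → ℂ),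
      IsSmoothMarkedDomain D γ θ → DifferentiableOn ℂ φ D →
      Set.BijOn φ D (Metric.ball (0 : ℂ) 1) →
      ∀ (δ : ℕ → ℝ) (T : ℕ → Finset Tri) (ea eb : ℕ → (ℤ × ℤ) × (ℤ × ℤ)) (c : ℕ → ℝ → ℂ),
        IsMarkedApprox γ θ δ T ea eb c →
      ∀ f : ℂ → ℝ, ContDiff ℝ ∞ f → HasCompactSupport f → tsupport f ⊆ D →
        (∀ t : ℝ, Filter.Tendsto (fun n : ℕ => twoArcExpect (T n) (arcPlus (δ n) (T n) (c n) θ) (arcMinus (δ n) (T n) (c n) θ)
            (fun H => Complex.exp (Complex.I *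
              (t * (affinePairing (δ n) (T n) f (oddHeight H) -
              (twoArcExpect (T n) (arcPlus (δ n) (T n) (c n) θ) (arcMinus (δ n) (T n) (c n) θ) (fun H' => (affinePairing (δ n) (T n) f (oddHeight H') : ℂ))).re) / σ : ℝ))))
          Filter.atTop
          (nhds (Complex.exp (-(domainGreenForm φ f * t ^ 2 / 2 : ℝ))))) ∧
        ∀ k : ℕ, Filter.Tendsto (fun n : ℕ => twoArcExpect (T n) (arcPlus (δ n) (T n) (c n) θ) (arcMinus (δ n) (T n) (c n) θ)
            (fun H => (((affinePairing (δ n) (T n) f (oddHeight H) -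
              (twoArcExpect (T n) (arcPlus (δ n) (T n) (c n) θ) (arcMinus (δ n) (T n) (c n) θ) (fun H' => (affinePairing (δ n) (T n) f (oddHeight H') : ℂ))).re) / σ) ^ k : ℝ)))
          Filter.atTop
          (nhds ((if Even k then domainGreenForm φ f ^ (k / 2) *
              ((k - 1).doubleFactorial : ℝ) else 0 : ℝ) : ℂ)) := by
  have hs := Real.sqrt_pos.2 hκ
  refine ⟨2 * Real.sqrt κ, by positivity, fun D γ θ φ hD hφ hb δ T ea eb c hA f hf hfc hfs => ?_⟩
  have hT : Tst D f := ⟨hf.continuous, hfc, hfs⟩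
  set K : ℝ × ℝ → ℝ := fun p => tent p.1 p.2 with hK
  set Λ : ℕ → Finset (ℤ × ℤ) := fun n =>
    freeVerts (T n) (arcPlus (δ n) (T n) (c n) θ) (arcMinus (δ n) (T n) (c n) θ) with hΛ
  set τ : ℕ → ℤ × ℤ → ℤ := fun n => xi (arcMinus (δ n) (T n) (c n) θ) with hτ
  have hbr := tri_bridge hD hA hT
  -- the mean
  have hmean : ∀ᶠ n in atTop,
      (twoArcExpect (T n) (arcPlus (δ n) (T n) (c n) θ) (arcMinus (δ n) (T n) (c n) θ)
        (fun H' => (affinePairing (δ n) (T n) f (oddHeight H') : ℂ))).re =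
      2 * mX 1 K (δ n) (Λ n) (τ n) f + ∑ v ∈ Λ n, wK K (δ n) f v := by
    filter_upwards [hbr] with n hn
    rw [hn (fun r => (r : ℂ))]
    have hL : Lip (τ n) := Crest.Agent.R144.It844.lip_xi _
    have e1 : ex 1 (Λ n) (τ n) (fun h => ((2 * LX K (δ n) (Λ n) f h +
        ∑ v ∈ Λ n, wK K (δ n) f v : ℝ) : ℂ)) =
        ((2 * mX 1 K (δ n) (Λ n) (τ n) f + ∑ v ∈ Λ n, wK K (δ n) f v : ℝ) : ℂ) := by
      rw [← Crest.Agent.R144.Pst967.integral_mu one_pos hL, integral_complex_ofReal,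
        Crest.Agent.R144.Pst967.integral_mu one_pos hL]
      congr 1
      rw [Crest.Agent.R144.It844.ex_add, Crest.Agent.R144.It844.ex_const one_pos hL]
      congr 1
      have := Crest.Agent.R144.It844.ex_smul (x := 1) (Λ := Λ n) (τ := τ n) (2 : ℝ)
        (LX K (δ n) (Λ n) f)
      simp only [smul_eq_mul] at this
      exact this
    rw [e1, Complex.ofReal_re]
  have hlaw : ∀ t : ℝ, Tendsto (fun n : ℕ => twoArcExpect (T n) (arcPlus (δ n) (T n) (c n) θ)
      (arcMinus (δ n) (T n) (c n) θ) (fun H => Complex.exp (Complex.I *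
        (t * (affinePairing (δ n) (T n) f (oddHeight H) -
          (twoArcExpect (T n) (arcPlus (δ n) (T n) (c n) θ) (arcMinus (δ n) (T n) (c n) θ)
            (fun H' => (affinePairing (δ n) (T n) f (oddHeight H') : ℂ))).re) /
          (2 * Real.sqrt κ) : ℝ)))) atTop
      (𝓝 (Complex.exp (-(domainGreenForm φ f * t ^ 2 / 2 : ℝ)))) := by
    intro t
    have h1 := hM D γ {γ 0, γ θ} δ Λ τ (setup_tri hD hA) (env_tri hD hA) (lc_tri hD hA) φ hφ hb K ker_tent f hf hfc hfs
      (t / Real.sqrt κ)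
    have h2 : κ * domainGreenForm φ f * (t / Real.sqrt κ) ^ 2 / 2 =
        domainGreenForm φ f * t ^ 2 / 2 := by
      rw [div_pow, Real.sq_sqrt hκ.le]
      field_simp
    rw [h2] at h1
    refine h1.congr' ?_
    filter_upwards [hbr, hmean] with n hn hm
    rw [hm]
    have h3 := hn (fun r => Complex.exp (Complex.I * (t * (r - (2 * mX 1 K (δ n) (Λ n) (τ n) f +
      ∑ v ∈ Λ n, wK K (δ n) f v)) / (2 * Real.sqrt κ) : ℝ)))
    rw [h3]
    refine Crest.Agent.R144.It844.ex_congr fun h _ => ?_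
    congr 3
    field_simp
    ring
  refine ⟨hlaw, fun k => ?_⟩
  exact Crest.Agent.R144.Dpl702.twoArc_moments'
    (fun n => Crest.Agent.R144.TriTil353.tiling (hA.1 n))
    (fun n => freeSet hA hD.2.2.2.2.2.2.2.2.1 hD.2.2.2.2.2.2.2.2.2 n) hT.integrable _ _ hlaw k

/-- **the law half from the lattice inputs** -/
theorem main_of_inputsE {x κ : ℝ} (hx0 : 0 < x) (hx1 : x ≤ 1)
    (H : ∀ (D : Set ℂ) (γ : ℝ → ℂ) (P : Finset ℂ) (δ : ℕ → ℝ) (Λ : ℕ → Finset (ℤ × ℤ))
      (τ : ℕ → ℤ × ℤ → ℤ), Setup D γ P δ Λ τ → Env D δ Λ → LC D δ Λ → Inputs x κ D P δ Λ τ) : MainLawE x κ := by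
  intro D γ P δ Λ τ hS hEnv hLC φ hφ hb K hK f hf hfc hfs t
  have hI := H D γ P δ Λ τ hS hEnv hLC
  have hop := hS.dom.op
  have hδ := hS.sites.pos
  have hδ0 := hS.sites.lim
  have hτ : ∀ n, Lip (τ n) := fun n => lip_of_data (hS.data n)
  obtain ⟨ψ, B⟩ := Crest.Agent.R144.Con549.exists_bih hop hφ hb
  have : ∀ n, IsProbabilityMeasure (mu x (Λ n) (τ n)) := fun n => isProb_mu hx0 (hτ n)
  set Y : ∀ n : ℕ, (ℂ → ℝ) → (ℤ × ℤ → ℤ) → ℝ := fun n g => cS x (Λ n) (τ n) (wK K (δ n) g) with hY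
  have hP : ∀ m ∈ P, m ∉ D := by
    intro m hm hmD
    have h1 := hS.marks m hm
    rw [frontier, hop.interior_eq] at h1
    exact h1.2 hmD
  have hbdd : ∀ g, IsTest D g → ∃ M, ∀ z, |g z| ≤ M := by
    intro g hg
    obtain ⟨M, hM⟩ := hg.comp.exists_bound_of_continuous hg.smooth.continuous
    exact ⟨M, fun z => by simpa using hM z⟩
  have hLp : ∀ n b, MemLp (cS x (Λ n) (τ n) b) 2 (mu x (Λ n) (τ n)) := by
    intro n b
    have h1 := integrable_mu x (Λ n) (τ n) (cS x (Λ n) (τ n) b)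
    refine (memLp_two_iff_integrable_sq h1.aestronglyMeasurable).2 ?_
    exact integrable_mu x (Λ n) (τ n) _
  have hwadd : ∀ n f g, IsTest D f → IsTest D g →
      ∀ v, wK K (δ n) (fun z => f z + g z) v = wK K (δ n) f v + wK K (δ n) g v := by
    intro n f g hf hg v
    exact wK_add (δ n) v (hK.integrable hf.smooth.continuous (hbdd f hf) v)
      (hK.integrable hg.smooth.continuous (hbdd g hg) v)
  have hadd : ∀ n f g, IsTest D f → IsTest D g →
      Y n (fun z => f z + g z) =ᵐ[mu x (Λ n) (τ n)] fun o => Y n f o + Y n g o := by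
    intro n f g hf hg
    refine Eventually.of_forall fun o => ?_
    simp only [hY]
    rw [cS_congr (hwadd n f g hf hg), cS_add]
  have hsmul : ∀ n (c : ℝ) f, IsTest D f →
      Y n (fun z => c * f z) =ᵐ[mu x (Λ n) (τ n)] fun o => c * Y n f o := by
    intro n c f _
    refine Eventually.of_forall fun o => ?_
    simp only [hY]
    rw [cS_congr (fun v => wK_smul (δ n) c f v), cS_smul]
  -- integrals are expectations
  have hcv : ∀ n b g, ∫ o, cS x (Λ n) (τ n) b o * cS x (Λ n) (τ n) g o ∂(mu x (Λ n) (τ n)) =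
      Cv x (Λ n) (τ n) b g := fun n b g => integral_mu hx0 (hτ n) _
  -- supports
  have hsup : ∀ r > 0, ∀ g, IsTest D g → ∀ᶠ n in atTop, ∀ v, wK K (δ n) g v ≠ 0 →
      centre (δ n) v ∈ cthickening r (tsupport g) := by
    intro r hr g _
    filter_upwards [hS.sites.small (show 0 < r / 2 by positivity)] with n hn v hv
    exact w_support hK (hδ n).le (by linarith) hv
  have hover : ∀ K0, IsCompact K0 → K0 ⊆ D → ∃ K1, IsCompact K1 ∧ K1 ⊆ D ∧ ∀ g, IsTest D g →
      tsupport g ⊆ K0 → ∀ M, (∀ z, |g z| ≤ M) → ∀ᶠ n in atTop, Over K1 (δ n) M (wK K (δ n) g) := by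
    intro K0 hK0 hK0D
    obtain ⟨r, hr, hrc, hrs⟩ := Crest.Agent.R144.Cov353.exists_thick hK0 hop hK0D
    refine ⟨_, hrc, hrs, fun g hg hgK M hM => ?_⟩
    filter_upwards [hsup r hr g hg] with n hn
    refine ⟨fun v hv => cthickening_subset_of_subset r hgK (hn v hv), fun v => ?_⟩
    have h1 : |wK K (δ n) g v| ≤ vc (δ n) * M := hK.w_le hM v
    have hM0 : 0 ≤ M := (abs_nonneg _).trans (hM 0)
    refine h1.trans ?_
    rw [mul_comm M]
    exact mul_le_mul_of_nonneg_right (vc_le _) hM0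
  -- the characteristic functions of Laplacians
  have hcf : ∀ u, IsTest D u → ∀ t : ℝ, Tendsto
      (fun n => ∫ o, Complex.exp (Complex.I * (t * Y n (fun z => -(Δ u) z) o : ℝ))
        ∂(mu x (Λ n) (τ n))) atTop
      (𝓝 (Complex.exp (-(κ * (∫ z, ‖fderiv ℝ u z‖ ^ 2) * t ^ 2 / 2 : ℝ)))) := by
    intro u hu t
    have h1 := hI.p1 u hu t
    set g : ℂ → ℝ := fun z => -(Δ u) z with hg
    have hgT : IsTest D g := hu.lap.neg
    set dd : ℕ → ℤ × ℤ → ℝ := fun n => Dop (fun v => u (centre (δ n) v)) with hdd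
    set cc : ℕ → ℤ × ℤ → ℝ := fun n v => wK K (δ n) g v - dd n v with hcc
    have hnear : Near δ cc (fun z => g z - g z) :=
      (near_wK hK hδ hδ0 hgT.smooth.continuous hgT.comp).sub
        (Crest.Agent.R144.Cw643.near_Dop hδ hδ0 hu.smooth hu.comp)
    -- a compact set containing the supports
    obtain ⟨r, hr, hrc, hrs⟩ := Crest.Agent.R144.Cov353.exists_thick hu.comp.isCompact hop hu.supp
    have hsupc : ∀ᶠ n in atTop, ∀ v, cc n v ≠ 0 →
        centre (δ n) v ∈ cthickening r (tsupport u) := by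
      filter_upwards [hsup r hr g hgT, hS.sites.small (show 0 < r by positivity)] with n h2 h3 v hv
      by_cases h4 : wK K (δ n) g v = 0
      · have h5 : dd n v ≠ 0 := by
          intro h6
          apply hv
          simp only [hcc, h4, h6, sub_zero]
        by_contra hcon
        apply h5
        have z1 : u (centre (δ n) v) = 0 := by
          by_contra h7
          exact hcon (self_subset_cthickening _ (subset_tsupport _ h7))
        have z0 : ∀ e ∈ six, u (centre (δ n) (v - e)) = 0 := by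
          intro e he
          by_contra h7
          apply hcon
          refine mem_cthickening_of_dist_le _ _ r _ (subset_tsupport _ h7) ?_
          rw [dist_eq_norm, Crest.Agent.R144.Cw643.centre_sub, sub_sub_cancel]
          exact (Crest.Agent.R144.Cw643.norm_centre_six (hδ n).le he).trans h3.le
        simp only [hdd]
        unfold Dop
        beta_reduce
        rw [z1, z0 _ (by decide), z0 _ (by decide), z0 _ (by decide), z0 _ (by decide),
          z0 _ (by decide), z0 _ (by decide)]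
        ring
      · refine cthickening_subset_of_subset r ?_ (h2 v h4)
        exact (closure_mono (by
          intro z hz
          simp only [hg, Function.mem_support, ne_eq, neg_eq_zero] at hz ⊢
          exact hz)).trans (Crest.Agent.R161.Green722.tsupport_lapC u)
    obtain ⟨C, hC⟩ := hI.bd _ hrc hrs
    have hdiff : ∀ ε > 0, ∀ᶠ n in atTop, Vr x (Λ n) (τ n) (cc n) ≤ C * ε ^ 2 := by
      intro ε hε
      filter_upwards [hnear.near ε hε, hsupc, hC] with n h2 h3 h4
      refine h4 ε (cc n) ⟨h3, fun v => ?_⟩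
      have h5 := h2 v
      simpa using h5
    have hev : Tendsto (fun n => (∫ o, Complex.exp (Complex.I * (t * Y n g o : ℝ))
        ∂(mu x (Λ n) (τ n))) - ex x (Λ n) (τ n) (fun h => Complex.exp (Complex.I *
          (t * cS x (Λ n) (τ n) (dd n) h : ℝ)))) atTop (𝓝 0) := by
      rw [Metric.tendsto_nhds]
      intro ε hε
      set ε' := ε / ((|t| + 1) * (Real.sqrt |C| + 1)) with hε'
      have hε'p : 0 < ε' := by positivity
      filter_upwards [hdiff ε' hε'p] with n hn
      rw [dist_zero_right, ← integral_mu hx0 (hτ n)]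
      have hsum : Y n g =ᵐ[mu x (Λ n) (τ n)] fun o =>
          cS x (Λ n) (τ n) (dd n) o + cS x (Λ n) (τ n) (cc n) o := by
        refine Eventually.of_forall fun o => ?_
        simp only [hY]
        rw [← cS_add]
        congr 1
        funext v
        simp only [hcc]
        ring
      refine (char_sub_le (hLp n _) (hLp n _) (hLp n _) hsum t).trans_lt ?_
      rw [hcv]
      have h5 : Real.sqrt (Cv x (Λ n) (τ n) (cc n) (cc n)) ≤ Real.sqrt |C| * ε' := by
        refine Real.sqrt_le_iff.2 ⟨by positivity, ?_⟩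
        rw [mul_pow, Real.sq_sqrt (abs_nonneg C)]
        exact hn.trans (mul_le_mul_of_nonneg_right (le_abs_self C) (by positivity))
      calc |t| * Real.sqrt (Cv x (Λ n) (τ n) (cc n) (cc n)) ≤ |t| * (Real.sqrt |C| * ε') :=
            mul_le_mul_of_nonneg_left h5 (abs_nonneg _)
        _ < (|t| + 1) * ((Real.sqrt |C| + 1) * ε') := by
            have h6 : 0 < (Real.sqrt |C| + 1) * ε' := by positivity
            have h7 : Real.sqrt |C| * ε' ≤ (Real.sqrt |C| + 1) * ε' := by nlinarith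
            have h8 := mul_le_mul_of_nonneg_left h7 (abs_nonneg t)
            nlinarith
        _ = ε := by rw [hε']; field_simp
    have h9 := hev.add h1
    rw [zero_add] at h9
    exact h9.congr fun n => by ring
  -- the variances of Laplacians
  have hp1 : ∀ u, IsTest D u → Tendsto (fun n => ∫ o, Y n (Δ u) o * Y n (Δ u) o
      ∂(mu x (Λ n) (τ n))) atTop (𝓝 (κ * ∫ z, ‖fderiv ℝ u z‖ ^ 2)) := by
    intro u hu
    set g : ℂ → ℝ := fun z => -(Δ u) z with hg
    have hgT : IsTest D g := hu.lap.neg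
    obtain ⟨M, hM⟩ := hbdd g hgT
    obtain ⟨R, hR⟩ := hgT.comp.isBounded.exists_norm_le
    have hM0 : 0 ≤ M := (abs_nonneg _).trans (hM 0)
    have hmid : ∀ᶠ n in atTop, Crest.Agent.R144.Dpl702.MidLin (conf (Λ n) (τ n)) (Y n g)
        (Real.pi * (max R 0 + 3) ^ 2 * M) := by
      filter_upwards [hS.sites.small one_pos] with n hn
      refine ((Crest.Agent.R144.Dpl702.midLin_sum (conf (Λ n) (τ n)) (Λ n)
        (wK K (δ n) g)).mono ?_).sub_const _
      exact sum_wK_le hK (hδ n) hn.le (le_max_right _ _) hM0 hM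
        (fun z hz => (hR z (subset_tsupport _ hz)).trans (le_max_left _ _)) _
    have h1 := Crest.Agent.R144.Dpl702.ex_moments hx0 hx1 hτ (v := κ * ∫ z, ‖fderiv ℝ u z‖ ^ 2)
      (X := fun n => Y n g) (by positivity) hmid (fun t => by
        have := hcf u hu t
        refine this.congr fun n => ?_
        exact integral_mu hx0 (hτ n) _) 2
    have h2 : Crest.Agent.R144.Mom353.gm (κ * ∫ z, ‖fderiv ℝ u z‖ ^ 2) 2 =
        κ * ∫ z, ‖fderiv ℝ u z‖ ^ 2 := by
      unfold Crest.Agent.R144.Mom353.gm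
      simp [Nat.doubleFactorial]
    rw [h2] at h1
    have h3 : ∀ n, ex x (Λ n) (τ n) (fun h => ((Y n g h ^ 2 : ℝ) : ℂ)) =
        ((∫ o, Y n (Δ u) o * Y n (Δ u) o ∂(mu x (Λ n) (τ n)) : ℝ) : ℂ) := by
      intro n
      rw [← integral_mu hx0 (hτ n), integral_complex_ofReal]
      congr 1
      refine integral_congr_ae (Eventually.of_forall fun o => ?_)
      have h4 : Y n g o = -1 * Y n (Δ u) o := by
        simp only [hY]
        rw [← cS_smul]
        congr 1
        funext v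
        rw [← wK_smul]
        congr 1
        funext z
        simp only [hg]
        ring
      simp only [h4]
      ring
    simp only [h3] at h1
    have h5 := (Complex.continuous_re.tendsto _).comp h1
    simpa only [Function.comp_def, Complex.ofReal_re] using h5
  -- bumps
  obtain ⟨M0, hM0⟩ : ∃ M, ∀ w, Crest.Agent.R144.End938.rho w ≤ M := by
    have hc : HasCompactSupport Crest.Agent.R144.End938.rho := by
      refine HasCompactSupport.of_support_subset_isCompact (isCompact_closedBall (0 : ℂ) 1) ?_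
      intro w hw
      rw [mem_closedBall, dist_zero_right]
      by_contra hcon
      push Not at hcon
      exact hw (Crest.Agent.R144.End938.rho_zero hcon.le)
    obtain ⟨M, hM⟩ := hc.exists_bound_of_continuous
      Crest.Agent.R144.End938.contDiff_rho.continuous
    exact ⟨M, fun w => (le_abs_self _).trans (by simpa using hM w)⟩
  have hM00 : 0 ≤ M0 := (Crest.Agent.R144.End938.rho_nonneg 0).trans (hM0 0)
  have hbump : ∀ z ∈ D, ∀ᶠ n in atTop, Bump D (δ n) (4 * M0) z (wK K (δ n) (rr z (rad D z))) := by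
    intro z hz
    have hr := Crest.Agent.R144.End938.rad_pos hop hS.dom.bdd hz
    have hrad : infDist z Dᶜ = 2 * rad D z := by
      unfold Crest.Agent.R144.End938.rad
      ring
    filter_upwards [hS.sites.small (show 0 < rad D z / 4 by positivity)] with n hn
    refine ⟨fun v => wK_nonneg hK _ (Crest.Agent.R144.End938.rr_nonneg z _) v, fun v hv => ?_,
      fun v => ?_⟩
    · by_contra hcon
      push Not at hcon
      apply hv
      refine hK.w_eq_zero (hδ n).le fun w hw => ?_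
      refine Crest.Agent.R144.End938.rr_zero hr ?_
      have h1 := dist_triangle_left (centre (δ n) v) z w
      rw [← dist_eq_norm] at hw
      rw [hrad] at hcon
      linarith
    · have h1 : ∀ w, |rr z (rad D z) w| ≤ (1 / rad D z) ^ 2 * M0 := by
        intro w
        rw [abs_of_nonneg (Crest.Agent.R144.End938.rr_nonneg z _ w)]
        unfold Crest.Agent.R144.End938.rr
        exact mul_le_mul_of_nonneg_left (hM0 _) (by positivity)
      have h2 : |wK K (δ n) (rr z (rad D z)) v| ≤ vc (δ n) * ((1 / rad D z) ^ 2 * M0) :=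
        hK.w_le h1 v
      have h3 := (le_abs_self _).trans h2
      calc wK K (δ n) (rr z (rad D z)) v * infDist z Dᶜ ^ 2
          ≤ vc (δ n) * ((1 / rad D z) ^ 2 * M0) * infDist z Dᶜ ^ 2 :=
            mul_le_mul_of_nonneg_right h3 (by positivity)
        _ = 4 * M0 * vc (δ n) := by
            rw [hrad]
            field_simp
            ring
        _ ≤ 4 * M0 * δ n ^ 2 := mul_le_mul_of_nonneg_left (vc_le _) (by positivity)
  -- the conclusion
  have hend := end_char hS.dom.bdd hP B (fun n => mu x (Λ n) (τ n)) Y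
    (fun n f _ => hLp n _) hadd hsmul hp1 ?_ ?_ ?_ hcf f ⟨hf, hfc, hfs⟩
  · refine (hend.2 t).congr fun n => ?_
    exact integral_mu hx0 (hτ n) _
  · -- bd
    intro K0 hK0 hK0D
    obtain ⟨K1, hK1, hK1D, hov⟩ := hover K0 hK0 hK0D
    obtain ⟨C, hC⟩ := hI.bd K1 hK1 hK1D
    refine ⟨C, fun g hg hgK M hM => ?_⟩
    filter_upwards [hov g hg hgK M hM, hC] with n h1 h2
    rw [hcv]
    exact h2 M _ h1
  · -- c1
    obtain ⟨C, hC⟩ := hI.c1 (4 * M0)
    refine ⟨C, fun z hz => ?_⟩
    filter_upwards [hC z hz, hbump z hz] with n h1 h2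
    rw [hcv]
    exact h1 _ h2
  · -- c2
    intro g hg p hp hpP ε hε
    obtain ⟨K1, hK1, hK1D, hov⟩ := hover (tsupport g) hg.comp.isCompact hg.supp
    obtain ⟨Mg, hMg⟩ := hbdd g hg
    obtain ⟨η, hη, hev⟩ := hI.c2 (max (4 * M0) Mg) K1 hK1 hK1D p hp hpP ε hε
    refine ⟨η, hη, fun z hz hzp => ?_⟩
    filter_upwards [hev z hz hzp, hbump z hz, hov g hg subset_rfl (max (4 * M0) Mg)
      (fun z => (hMg z).trans (le_max_right _ _))] with n h1 h2 h3
    rw [hcv]
    exact h1 _ _ (h2.mono (le_max_left _ _)) h3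

/-- **S0195 (literal conclusion) from the four lattice inputs over the extended setup** -/
theorem s0195_of_inputs {x κ : ℝ} (hx0 : 0 < x) (hx1 : x ≤ 1) (hκ : 0 < κ)
    (H : ∀ (D : Set ℂ) (γ : ℝ → ℂ) (P : Finset ℂ) (δ : ℕ → ℝ) (Λ : ℕ → Finset (ℤ × ℤ))
      (τ : ℕ → ℤ × ℤ → ℤ), Setup D γ P δ Λ τ → Env D δ Λ → LC D δ Λ →
      Inputs x κ D P δ Λ τ) :
    ∃ σ : ℝ, 0 < σ ∧ ∀ (D : Set ℂ) (γ : ℝ → ℂ) (φ : ℂ → ℂ),
      Crest.ProbabilityR.HexHeights.IsC2JordanDomain D γ → DifferentiableOn ℂ φ D →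
      Set.BijOn φ D (Metric.ball (0 : ℂ) 1) →
      ∀ (δ : ℕ → ℝ) (F : ℕ → Finset (ℤ × ℤ)),
        Crest.ProbabilityR.HexHeights.IsInsideApprox D γ δ F →
      ∀ f : ℂ → ℝ, ContDiff ℝ ∞ f → HasCompactSupport f → tsupport f ⊆ D →
        (∀ t : ℝ, Filter.Tendsto (fun n : ℕ => Crest.ProbabilityR.HexHeights.heightExpect (F n) x
            (fun h => Complex.exp (Complex.I *
              (t * Crest.ProbabilityR.HexHeights.pairing (δ n) f h / σ : ℝ))))
          Filter.atTop
          (nhds (Complex.exp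
            (-(Crest.ProbabilityR.HexHeights.domainGreenForm φ f * t ^ 2 / 2 : ℝ))))) ∧
        ∀ k : ℕ, Filter.Tendsto (fun n : ℕ => Crest.ProbabilityR.HexHeights.heightExpect (F n) x
            (fun h => ((Crest.ProbabilityR.HexHeights.pairing (δ n) f h / σ) ^ k : ℝ)))
          Filter.atTop
          (nhds ((if Even k then Crest.ProbabilityR.HexHeights.domainGreenForm φ f ^ (k / 2) *
              ((k - 1).doubleFactorial : ℝ) else 0 : ℝ) : ℂ)) :=
  fin195E hx0 hx1 hκ (main_of_inputsE hx0 hx1 H)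

/-- **S0196 (literal statement) from the four lattice inputs over the extended setup** -/
theorem s0196_of_inputs {κ : ℝ} (hκ : 0 < κ)
    (H : ∀ (D : Set ℂ) (γ : ℝ → ℂ) (P : Finset ℂ) (δ : ℕ → ℝ) (Λ : ℕ → Finset (ℤ × ℤ))
      (τ : ℕ → ℤ × ℤ → ℤ), Setup D γ P δ Λ τ → Env D δ Λ → LC D δ Λ →
      Inputs 1 κ D P δ Λ τ) :
    ∃ σ : ℝ, 0 < σ ∧ ∀ (D : Set ℂ) (γ : ℝ → ℂ) (θ : ℝ) (φ : ℂ → ℂ),
      Crest.ProbabilityR.TriHeights.IsSmoothMarkedDomain D γ θ → DifferentiableOn ℂ φ D →
      Set.BijOn φ D (Metric.ball (0 : ℂ) 1) →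
      ∀ (δ : ℕ → ℝ) (T : ℕ → Finset Crest.ProbabilityR.TriHeights.Tri) (ea eb : ℕ → (ℤ × ℤ) × (ℤ × ℤ)) (c : ℕ → ℝ → ℂ),
        Crest.ProbabilityR.TriHeights.IsMarkedApprox γ θ δ T ea eb c →
      ∀ f : ℂ → ℝ, ContDiff ℝ ∞ f → HasCompactSupport f → tsupport f ⊆ D →
        (∀ t : ℝ, Filter.Tendsto (fun n : ℕ => Crest.ProbabilityR.TriHeights.twoArcExpect (T n) (Crest.ProbabilityR.TriHeights.arcPlus (δ n) (T n) (c n) θ) (Crest.ProbabilityR.TriHeights.arcMinus (δ n) (T n) (c n) θ)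
            (fun H => Complex.exp (Complex.I *
              (t * (Crest.ProbabilityR.TriHeights.affinePairing (δ n) (T n) f (Crest.ProbabilityR.TriHeights.oddHeight H) -
              (Crest.ProbabilityR.TriHeights.twoArcExpect (T n) (Crest.ProbabilityR.TriHeights.arcPlus (δ n) (T n) (c n) θ) (Crest.ProbabilityR.TriHeights.arcMinus (δ n) (T n) (c n) θ) (fun H' => (Crest.ProbabilityR.TriHeights.affinePairing (δ n) (T n) f (Crest.ProbabilityR.TriHeights.oddHeight H') : ℂ))).re) / σ : ℝ))))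
          Filter.atTop
          (nhds (Complex.exp (-(Crest.ProbabilityR.HexHeights.domainGreenForm φ f * t ^ 2 / 2 : ℝ))))) ∧
        ∀ k : ℕ, Filter.Tendsto (fun n : ℕ => Crest.ProbabilityR.TriHeights.twoArcExpect (T n) (Crest.ProbabilityR.TriHeights.arcPlus (δ n) (T n) (c n) θ) (Crest.ProbabilityR.TriHeights.arcMinus (δ n) (T n) (c n) θ)
            (fun H => (((Crest.ProbabilityR.TriHeights.affinePairing (δ n) (T n) f (Crest.ProbabilityR.TriHeights.oddHeight H) -
              (Crest.ProbabilityR.TriHeights.twoArcExpect (T n) (Crest.ProbabilityR.TriHeights.arcPlus (δ n) (T n) (c n) θ) (Crest.ProbabilityR.TriHeights.arcMinus (δ n) (T n) (c n) θ) (fun H' => (Crest.ProbabilityR.TriHeights.affinePairing (δ n) (T n) f (Crest.ProbabilityR.TriHeights.oddHeight H') : ℂ))).re) / σ) ^ k : ℝ)))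
          Filter.atTop
          (nhds ((if Even k then Crest.ProbabilityR.HexHeights.domainGreenForm φ f ^ (k / 2) *
              ((k - 1).doubleFactorial : ℝ) else 0 : ℝ) : ℂ)) :=
  fin196E hκ (main_of_inputsE one_pos le_rfl H)

end Crest.Agent.R144.Fin830
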