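import Crest.Agent.R144.Pst3_967
import Crest.Agent.R144.Ps1_643
import Crest.Agent.R144.TorD_95

/-!
# R144, block S2 (helper712): the variogram of the plane state of the integer models is `Two`

* `vg_toR` : `vg (P.map toR) p = ∫ (h p)²`;
* `two_vg` : `Two (vg (P.map toR))` for every zero-boundary limit `P`;
* `vg_growth` : linear growth (used by the spectral representation).
-/

set_option autoImplicit false

noncomputable section

namespace Crest.Agent.R144.Two712

open MeasureTheory Filter Topology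
open Crest.Agent.R144.It844
open Crest.Agent.R144.Pst967
open Crest.Agent.R144.Tp952 (Two)
open Crest.Agent.R144.Ps643 hiding P2

variable {x : ℝ} {𝓒 : Set (Finset P2)} {P : Measure Hz}

theorem vg_toR (P : Measure Hz) (p : P2) :
    PlaneState.vg (P.map toR) p = ∫ h, ((h p : ℝ)) ^ 2 ∂P := by
  unfold PlaneState.vg
  rw [integral_map measurable_toR.aemeasurable
    ((measurable_pi_apply p).pow_const 2).aestronglyMeasurable]
  rfl

/-- **S2**: the variogram of the plane state is of class `Two`. -/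
theorem two_vg (hx : 0 < x) (h𝓒 : Cls 𝓒) (hZ : PinnedZ P) (hP : ZeroLim x 𝓒 P) :
    Two (PlaneState.vg (P.map toR)) :=
  (hP.planeState hx h𝓒 hZ).two_of_plane

theorem two_vgZ (hx : 0 < x) (h𝓒 : Cls 𝓒) (hZ : PinnedZ P) (hP : ZeroLim x 𝓒 P) :
    Two (fun p => ∫ h, ((h p : ℝ)) ^ 2 ∂P) := by
  have h := two_vg hx h𝓒 hZ hP
  have e : PlaneState.vg (P.map toR) = fun p => ∫ h, ((h p : ℝ)) ^ 2 ∂P := funext (vg_toR P)
  rwa [e] at h

/-- linear growth of the variogram -/
theorem vg_growth (hx : 0 < x) (h𝓒 : Cls 𝓒) (hZ : PinnedZ P) (hP : ZeroLim x 𝓒 P) :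
    ∃ C : ℝ, 0 ≤ C ∧ ∀ p : P2, PlaneState.vg (P.map toR) p ≤ C * (1 + |(p.1 : ℝ)| + |(p.2 : ℝ)|) :=
  Tor95.two_growth (two_vg hx h𝓒 hZ hP)

end Crest.Agent.R144.Two712
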