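import Mathlib
import Crest.Agent.R144.Fin3_830
import Crest.Agent.R144.Pst12_967
import Crest.Agent.R144.Cw10_643
import Crest.Agent.R144.Hf12_702
import Crest.Agent.R144.Two_712

/-! R144 (helper830): top wiring of S0195 / S0196.

`Plane x P κ` = the plane layer (plane state `P` of the weight `x`, stiffness `κ > 0`),
`exists_plane` : it follows from `RSWZ (x²)⁻¹`; `hyp` : helper702's `Hyp x`.
`s0195_of_top`, `s0196_of_top` : the literal statements from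
* `R : ∀ c, 1 ≤ c → c ≤ 2 → RSWZ c`  (RSW block),
* `P1 x` (interior Gaussianity under the domain law, field `p1` of `Inputs`),
* `C2 x` (boundary decay, field `c2` of `Inputs`). -/

set_option autoImplicit false

open Set Topology Filter Metric MeasureTheory
open scoped ContDiff Laplacian

namespace Crest.Agent.R144.Fin830

open Crest.ProbabilityR.HexHeights Crest.ProbabilityR.TriHeights
open Crest.Agent.R144.Set268 Crest.Agent.R144.Fin268
open Crest.Agent.R144.It844 (P2 ex)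
open Crest.Agent.R144.Con549 (IsTest)
open Crest.Agent.R144.Cw643 (Dop Lim2 lim2)
open Crest.Agent.R144.Env702 (Env)
open Crest.Agent.R144.Lc830 (LC)
open Crest.Agent.R144.Pst967 (Hz toR PinnedZ ZeroLim scs GObs FLim plane_of_rswz')
open Crest.Agent.R144.Ps643 (PlaneState)
open Crest.Agent.R144.Ps643.PlaneState (vg)
open Crest.Agent.R144.Rsw867 (RSWZ)

/-- the plane layer of the weight `x`: the infinite volume state `P` and its stiffness `κ` -/
structure Plane (x : ℝ) (P : Measure Hz) (κ : ℝ) : Prop where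
  x0 : 0 < x
  x1 : x ≤ 1
  rsw : RSWZ ((x ^ 2)⁻¹)
  pin : PinnedZ P
  zlim : ZeroLim x scs P
  st : PlaneState (P.map toR)
  flim : ∀ f : Hz → ℝ, GObs f → FLim ((x ^ 2)⁻¹) f (∫ h, f h ∂P)
  kpos : 0 < κ
  lim2 : Lim2 (vg (P.map toR)) κ

/-- **the plane layer from RSW** -/
theorem exists_plane {x : ℝ} (hx0 : 0 < x) (hx1 : x ≤ 1) (hR : RSWZ ((x ^ 2)⁻¹)) :
    ∃ (P : Measure Hz) (κ : ℝ), Plane x P κ := by
  obtain ⟨P, hpin, hz, hst, hF⟩ := plane_of_rswz' hx0 hx1 hR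
  have hc := Pst967.one_le_c hx0 hx1
  obtain ⟨c', hc', hlog⟩ := Pos561.eventually_log_lower hc hR hpin hF
  obtain ⟨κ, hκ, -, hk⟩ := lim2 hst.two_of_plane
  have h1 := hk c' hlog.frequently
  exact ⟨P, κ, hx0, hx1, hR, hpin, hz, hst, hF, lt_of_lt_of_le (by positivity) h1, hκ⟩

/-- helper702's hypotheses -/
theorem Plane.hyp {x : ℝ} {P : Measure Hz} {κ : ℝ} (h : Plane x P κ) : Hf702.Hyp x := by
  obtain ⟨K, p, hR⟩ := h.rsw.rsw (Pst967.one_le_c h.x0 h.x1)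
  exact ⟨h.x0, h.x1, K, p, P, hR, Hf702.psq_of h.st h.lim2, h.flim⟩

/-- interior Gaussianity under the domain laws (field `p1` of `Inputs`) -/
def P1 (x : ℝ) : Prop :=
  ∀ (P : Measure Hz) (κ : ℝ), Plane x P κ →
  ∀ (D : Set ℂ) (γ : ℝ → ℂ) (Q : Finset ℂ) (δ : ℕ → ℝ) (Λ : ℕ → Finset (ℤ × ℤ))
    (τ : ℕ → ℤ × ℤ → ℤ), Setup D γ Q δ Λ τ → Env D δ Λ → LC D δ Λ →
    ∀ u, IsTest D u → ∀ t : ℝ, Tendsto (fun n => ex x (Λ n) (τ n) (fun h =>
      Complex.exp (Complex.I * (t * cS x (Λ n) (τ n)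
        (Dop (fun v => u (centre (δ n) v))) h : ℝ)))) atTop
      (𝓝 (Complex.exp (-(κ * (∫ z, ‖fderiv ℝ u z‖ ^ 2) * t ^ 2 / 2 : ℝ))))

/-- boundary decay (field `c2` of `Inputs`) -/
def C2 (x : ℝ) : Prop :=
  ∀ (P : Measure Hz) (κ : ℝ), Plane x P κ →
  ∀ (D : Set ℂ) (γ : ℝ → ℂ) (Q : Finset ℂ) (δ : ℕ → ℝ) (Λ : ℕ → Finset (ℤ × ℤ))
    (τ : ℕ → ℤ × ℤ → ℤ), Setup D γ Q δ Λ τ → Env D δ Λ → LC D δ Λ →
    ∀ M K, IsCompact K → K ⊆ D → ∀ p ∈ frontier D, p ∉ Q → ∀ ε > 0, ∃ η > 0, ∀ z ∈ D,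
      dist z p < η → ∀ᶠ n in atTop, ∀ b g, Bump D (δ n) M z b → Over K (δ n) M g →
        |Cv x (Λ n) (τ n) b g| ≤ ε

/-- the four inputs -/
theorem inputs_of {x κ : ℝ} {P : Measure Hz} (hP : Plane x P κ) (h1 : P1 x) (h2 : C2 x)
    (D : Set ℂ) (γ : ℝ → ℂ) (Q : Finset ℂ) (δ : ℕ → ℝ) (Λ : ℕ → Finset (ℤ × ℤ))
    (τ : ℕ → ℤ × ℤ → ℤ) (hS : Setup D γ Q δ Λ τ) (hE : Env D δ Λ) (hL : LC D δ Λ) :
    Inputs x κ D Q δ Λ τ where
  p1 := h1 P κ hP D γ Q δ Λ τ hS hE hL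
  bd := fun _ hK hKD => Hf702.bd_of hP.hyp hS hE hK hKD
  c1 := fun M => Hf702.c1_of hP.hyp hS hE M
  c2 := h2 P κ hP D γ Q δ Λ τ hS hE hL

theorem c_range {x : ℝ} (hx : 1 / Real.sqrt 2 ≤ x) (hx1 : x ≤ 1) :
    0 < x ∧ 1 ≤ (x ^ 2)⁻¹ ∧ (x ^ 2)⁻¹ ≤ 2 := by
  have h2 : (0 : ℝ) < Real.sqrt 2 := by positivity
  have hx0 : 0 < x := lt_of_lt_of_le (by positivity) hx
  refine ⟨hx0, Pst967.one_le_c hx0 hx1, ?_⟩
  have h3 : (1 / Real.sqrt 2) ^ 2 ≤ x ^ 2 := pow_le_pow_left₀ (by positivity) hx 2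
  rw [div_pow, one_pow, Real.sq_sqrt (by norm_num)] at h3
  rw [inv_le_comm₀ (by positivity) (by norm_num)]
  linarith

/-- **S0195 from the three top blocks** -/
theorem s0195_of_top (R : ∀ c : ℝ, 1 ≤ c → c ≤ 2 → RSWZ c) {x : ℝ} (hx : 1 / Real.sqrt 2 ≤ x)
    (hx1 : x ≤ 1) (h1 : P1 x) (h2 : C2 x) :
    ∃ σ : ℝ, 0 < σ ∧ ∀ (D : Set ℂ) (γ : ℝ → ℂ) (φ : ℂ → ℂ),
      Crest.ProbabilityR.HexHeights.IsC2JordanDomain D γ → DifferentiableOn ℂ φ D →
      Set.BijOn φ D (Metric.ball (0 : ℂ) 1) →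
      ∀ (δ : ℕ → ℝ) (F : ℕ → Finset (ℤ × ℤ)),
        Crest.ProbabilityR.HexHeights.IsInsideApprox D γ δ F →
      ∀ f : ℂ → ℝ, ContDiff ℝ ∞ f → HasCompactSupport f → tsupport f ⊆ D →
        (∀ t : ℝ, Filter.Tendsto (fun n : ℕ => Crest.ProbabilityR.HexHeights.heightExpect (F n) x
            (fun h => Complex.exp (Complex.I *
              (t * Crest.ProbabilityR.HexHeights.pairing (δ n) f h / σ : ℝ))))
          Filter.atTop
          (nhds (Complex.exp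
            (-(Crest.ProbabilityR.HexHeights.domainGreenForm φ f * t ^ 2 / 2 : ℝ))))) ∧
        ∀ k : ℕ, Filter.Tendsto (fun n : ℕ => Crest.ProbabilityR.HexHeights.heightExpect (F n) x
            (fun h => ((Crest.ProbabilityR.HexHeights.pairing (δ n) f h / σ) ^ k : ℝ)))
          Filter.atTop
          (nhds ((if Even k then Crest.ProbabilityR.HexHeights.domainGreenForm φ f ^ (k / 2) *
              ((k - 1).doubleFactorial : ℝ) else 0 : ℝ) : ℂ)) := by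
  obtain ⟨hx0, hc1, hc2⟩ := c_range hx hx1
  obtain ⟨P, κ, hP⟩ := exists_plane hx0 hx1 (R _ hc1 hc2)
  exact s0195_of_inputs hx0 hx1 hP.kpos (inputs_of hP h1 h2)

/-- **S0196 (literal) from the three top blocks** -/
theorem s0196_of_top (R : ∀ c : ℝ, 1 ≤ c → c ≤ 2 → RSWZ c) (h1 : P1 1) (h2 : C2 1) :
    ∃ σ : ℝ, 0 < σ ∧ ∀ (D : Set ℂ) (γ : ℝ → ℂ) (θ : ℝ) (φ : ℂ → ℂ),
      Crest.ProbabilityR.TriHeights.IsSmoothMarkedDomain D γ θ → DifferentiableOn ℂ φ D →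
      Set.BijOn φ D (Metric.ball (0 : ℂ) 1) →
      ∀ (δ : ℕ → ℝ) (T : ℕ → Finset Crest.ProbabilityR.TriHeights.Tri) (ea eb : ℕ → (ℤ × ℤ) × (ℤ × ℤ)) (c : ℕ → ℝ → ℂ),
        Crest.ProbabilityR.TriHeights.IsMarkedApprox γ θ δ T ea eb c →
      ∀ f : ℂ → ℝ, ContDiff ℝ ∞ f → HasCompactSupport f → tsupport f ⊆ D →
        (∀ t : ℝ, Filter.Tendsto (fun n : ℕ => Crest.ProbabilityR.TriHeights.twoArcExpect (T n) (Crest.ProbabilityR.TriHeights.arcPlus (δ n) (T n) (c n) θ) (Crest.ProbabilityR.TriHeights.arcMinus (δ n) (T n) (c n) θ)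
            (fun H => Complex.exp (Complex.I *
              (t * (Crest.ProbabilityR.TriHeights.affinePairing (δ n) (T n) f (Crest.ProbabilityR.TriHeights.oddHeight H) -
              (Crest.ProbabilityR.TriHeights.twoArcExpect (T n) (Crest.ProbabilityR.TriHeights.arcPlus (δ n) (T n) (c n) θ) (Crest.ProbabilityR.TriHeights.arcMinus (δ n) (T n) (c n) θ) (fun H' => (Crest.ProbabilityR.TriHeights.affinePairing (δ n) (T n) f (Crest.ProbabilityR.TriHeights.oddHeight H') : ℂ))).re) / σ : ℝ))))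
          Filter.atTop
          (nhds (Complex.exp (-(Crest.ProbabilityR.HexHeights.domainGreenForm φ f * t ^ 2 / 2 : ℝ))))) ∧
        ∀ k : ℕ, Filter.Tendsto (fun n : ℕ => Crest.ProbabilityR.TriHeights.twoArcExpect (T n) (Crest.ProbabilityR.TriHeights.arcPlus (δ n) (T n) (c n) θ) (Crest.ProbabilityR.TriHeights.arcMinus (δ n) (T n) (c n) θ)
            (fun H => (((Crest.ProbabilityR.TriHeights.affinePairing (δ n) (T n) f (Crest.ProbabilityR.TriHeights.oddHeight H) -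
              (Crest.ProbabilityR.TriHeights.twoArcExpect (T n) (Crest.ProbabilityR.TriHeights.arcPlus (δ n) (T n) (c n) θ) (Crest.ProbabilityR.TriHeights.arcMinus (δ n) (T n) (c n) θ) (fun H' => (Crest.ProbabilityR.TriHeights.affinePairing (δ n) (T n) f (Crest.ProbabilityR.TriHeights.oddHeight H') : ℂ))).re) / σ) ^ k : ℝ)))
          Filter.atTop
          (nhds ((if Even k then Crest.ProbabilityR.HexHeights.domainGreenForm φ f ^ (k / 2) *
              ((k - 1).doubleFactorial : ℝ) else 0 : ℝ) : ℂ)) := by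
  obtain ⟨P, κ, hP⟩ := exists_plane one_pos le_rfl (R _ (Pst967.one_le_c one_pos le_rfl)
    (by norm_num))
  exact s0196_of_inputs hP.kpos (inputs_of hP h1 h2)

end Crest.Agent.R144.Fin830
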