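import Crest.Agent.R144.Gi1_643
import Crest.Agent.R144.Dom2_136
import Crest.Agent.R144.Fin4_830

/-!
# R144 (helper643): the functionals `XX` are the statistics `LS`; `Mdl` from `Plane`
-/

set_option autoImplicit false

noncomputable section

namespace Crest.Agent.R144.Gi643

open Finset Filter Topology MeasureTheory
open Crest.ProbabilityR.HexHeights (Adj centre)
open Crest.Agent.R144.Ps643
open Crest.Agent.R144.Cw643
open Crest.Agent.R144.Ga5885 (Mdl Tst)
open Crest.Agent.R144.Mix880 (gσ)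
open Crest.Agent.R144.Pst967 (Hz toR)
open Crest.Agent.R144.Dom136 (Du)
open Crest.Agent.R144.Fin268 (LS)

/-- `XX` of an integer configuration -/
theorem XX_toR {d : ℝ} {u : ℂ → ℝ} {S : Finset P2} (hS : ∀ v, v ∉ S → Du u d v = 0) (h : Hz) :
    XX d u (toR h) = LS S (Du u d) h := XX_eq hS (toR h)

/-- 349's `IsLap` -/
theorem isLap (δ : ℕ → ℝ) (u : ℂ → ℝ) (_ : Tst u) : ∀ᶠ n in atTop, ∀ (h : Hz) (S : Finset P2),
    (∀ v, v ∉ S → Du u (δ n) v = 0) → XX (δ n) u (toR h) = LS S (Du u (δ n)) h :=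
  Eventually.of_forall fun _ h _ hS => XX_toR hS h

/-- the plane state is an instance of `Mdl` -/
theorem mdl_plane {x κ : ℝ} {P : Measure Hz} (h : Fin830.Plane x P κ) {δ : ℕ → ℝ}
    (hδ : ∀ n, 0 < δ n) (hδ0 : Tendsto δ atTop (𝓝 0)) :
    Mdl atTop (fun _ => P.map toR) (fun n φ h => XX (δ n) φ h)
      (fun n U => gσ {v | centre (δ n) v ∈ U}) κ := by
  obtain ⟨K, p, hR⟩ := h.rsw.rsw (Pst967.one_le_c h.x0 h.x1)
  exact mdl h.x0 h.x1 hR h.pin h.zlim h.st h.flim h.kpos.le h.lim2 hδ hδ0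

end Crest.Agent.R144.Gi643
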