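import Crest.Agent.R144.Lev_830
import Crest.Agent.R144.Ccw7_435

/-!
# R144 (helper830), CCW: `lev` is a level functional in the sense of helper435
-/

set_option autoImplicit false

noncomputable section

namespace Crest.Agent.R144.Lev830

open Crest.Agent.R144.Ps643
open Crest.Agent.R144.Pst967 (subset_hexB)
open Crest.Agent.R144.Rsw867 (ball ball_zero_eq)

theorem lev_Lev {W : Finset P2} (hW : W.Nonempty) : Ccw435.Lev W (lev W) where
  loc := lev_loc W
  shift := lev_add hW
  bdd := by
    classical
    obtain ⟨n, hn⟩ := subset_hexB (insert 0 W)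
    rw [← ball_zero_eq] at hn
    refine ⟨4 * n, fun h hl => ?_⟩
    have := lev_lip' hW (fun v hv => hn (Finset.mem_insert_of_mem hv)) hl
      (hn (Finset.mem_insert_self 0 W))
    push_cast
    exact this

end Crest.Agent.R144.Lev830
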