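import Crest.Agent.R144.Rsw0_867
import Crest.Agent.R144.It3_844

/-!
# R144, S5 (contiguity), uniform form, part 1 (helper867)

* `one A` : indicator of a set of heights;
* `Vs T k h` : sites off `T` and the sites reached from off `T` through `{k + 1 ≤ h}`; `Df T k h` : the rest
  without its boundary; the boundary values of `Df T k h` are `≤ k`;
* `Fk T T' k` : no path from off `T` to `T'` in `{k + 1 ≤ h}`;
* `Climb x K q` : one climbing step in a ball, arbitrary finite domain;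
* `step` : `E[G 1_{Fk T T' k}] ≤ q^{-J} E[G 1_{Fk T T' k} 1_{Fk T' T'' (k-1)}]`.
-/

set_option autoImplicit false

noncomputable section

namespace Crest.Agent.R144.Cu867

open Finset
open Crest.Agent.R144.It844
open Crest.Agent.R144.Zg349 (StepIn)
open Crest.Agent.R144.Rsw867 (ball mem_ball ball_mono adj_ball path_mono Sepr)
open Crest.ProbabilityR.HexHeights (Adj)
open Relation (ReflTransGen)

/-- heights -/
abbrev Hz : Type := P2 → ℤ

open Classical in
/-- indicator of a set of heights -/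
def one (A : Set Hz) (h : Hz) : ℝ := if h ∈ A then 1 else 0

theorem one_nonneg (A : Set Hz) (h : Hz) : 0 ≤ one A h := by unfold one; split_ifs <;> norm_num
theorem one_le_one (A : Set Hz) (h : Hz) : one A h ≤ 1 := by unfold one; split_ifs <;> norm_num
theorem one_of_mem {A : Set Hz} {h : Hz} (hh : h ∈ A) : one A h = 1 := if_pos hh
theorem one_of_not_mem {A : Set Hz} {h : Hz} (hh : h ∉ A) : one A h = 0 := if_neg hh
theorem one_le_one_of {A B : Set Hz} {h g : Hz} (hh : h ∈ A → g ∈ B) : one A h ≤ one B g := by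
  by_cases h1 : h ∈ A
  · rw [one_of_mem h1, one_of_mem (hh h1)]
  · rw [one_of_not_mem h1]; exact one_nonneg _ _
theorem one_congr {A B : Set Hz} {h g : Hz} (hh : h ∈ A ↔ g ∈ B) : one A h = one B g :=
  le_antisymm (one_le_one_of hh.1) (one_le_one_of hh.2)
theorem one_compl (A : Set Hz) (h : Hz) : one Aᶜ h = 1 - one A h := by
  by_cases h1 : h ∈ A
  · rw [one_of_mem h1, one_of_not_mem (show h ∉ Aᶜ from fun h2 => h2 h1)]; ring
  · rw [one_of_not_mem h1, one_of_mem (show h ∈ Aᶜ from h1)]; ring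
theorem one_inter (A B : Set Hz) (h : Hz) : one (A ∩ B) h = one A h * one B h := by
  by_cases h1 : h ∈ A
  · by_cases h2 : h ∈ B
    · rw [one_of_mem h1, one_of_mem h2, one_of_mem (show h ∈ A ∩ B from ⟨h1, h2⟩), mul_one]
    · rw [one_of_not_mem h2, one_of_not_mem (show h ∉ A ∩ B from fun h3 => h2 h3.2), mul_zero]
  · rw [one_of_not_mem h1, one_of_not_mem (show h ∉ A ∩ B from fun h3 => h1 h3.1), zero_mul]

/-- `G` depends only on the heights off `T` -/
def Off (T : Finset P2) (G : Hz → ℝ) : Prop := ∀ a b : Hz, (∀ v, v ∉ T → a v = b v) → G a = G b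

theorem Off.mono {T T' : Finset P2} (h : T' ⊆ T) {G : Hz → ℝ} (hG : Off T G) : Off T' G :=
  fun a b hab => hG a b fun v hv => hab v fun h1 => hv (h h1)

theorem Off.mul {T : Finset P2} {G G' : Hz → ℝ} (hG : Off T G) (hG' : Off T G') :
    Off T (fun h => G h * G' h) := fun a b hab => by
  show G a * G' a = G b * G' b
  rw [hG a b hab, hG' a b hab]

/-! ### the reach set -/

/-- allowed sites -/
def Al (T : Finset P2) (k : ℤ) (h : Hz) : Set P2 := {v | v ∉ T ∨ k + 1 ≤ h v}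

/-- the sites reached from off `T` through `{k + 1 ≤ h}` -/
def Vs (T : Finset P2) (k : ℤ) (h : Hz) : Set P2 :=
  {v | ∃ u, u ∉ T ∧ ReflTransGen (StepIn (Al T k h)) u v}

theorem off_Vs {T : Finset P2} {k : ℤ} {h : Hz} {v : P2} (hv : v ∉ T) : v ∈ Vs T k h :=
  ⟨v, hv, ReflTransGen.refl⟩

theorem Vs_sub_Al {T : Finset P2} {k : ℤ} {h : Hz} {v : P2} (hv : v ∈ Vs T k h) : v ∈ Al T k h := by
  obtain ⟨u, hu, p⟩ := hv
  induction p with
  | refl => exact Or.inl hu
  | tail _ hbd _ => exact hbd.2.1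

theorem Vs_step {T : Finset P2} {k : ℤ} {h : Hz} {v w : P2} (hv : v ∈ Vs T k h) (hvw : Adj v w)
    (hw : w ∈ Al T k h) : w ∈ Vs T k h := by
  have hvA := Vs_sub_Al hv
  obtain ⟨u, hu, p⟩ := hv
  exact ⟨u, hu, p.tail ⟨hvA, hw, hvw⟩⟩

open Classical in
/-- the sites whose closed neighbourhood avoids the reach set -/
def Df (T : Finset P2) (k : ℤ) (h : Hz) : Finset P2 :=
  T.filter fun v => v ∉ Vs T k h ∧ ∀ w, Adj w v → w ∉ Vs T k h

open Classical in
theorem mem_Df {T : Finset P2} {k : ℤ} {h : Hz} {v : P2} :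
    v ∈ Df T k h ↔ v ∉ Vs T k h ∧ ∀ w, Adj w v → w ∉ Vs T k h := by
  unfold Df
  rw [Finset.mem_filter, and_iff_right_iff_imp]
  intro h1
  by_contra h2
  exact h1.1 (off_Vs h2)

open Classical in
theorem Df_sub (T : Finset P2) (k : ℤ) (h : Hz) : Df T k h ⊆ T := by
  unfold Df
  exact Finset.filter_subset _ _

theorem Vs_congr {T : Finset P2} {k : ℤ} {h g : Hz} (hg : ∀ v, v ∉ Df T k h → g v = h v) :
    Vs T k g = Vs T k h := by
  ext v
  constructor
  · rintro ⟨u, hu, p⟩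
    induction p with
    | refl => exact off_Vs hu
    | @tail b d _ hbd ih =>
      refine Vs_step ih hbd.2.2 ?_
      rcases hbd.2.1 with h1 | h1
      · exact Or.inl h1
      · refine Or.inr ?_
        have h2 : d ∉ Df T k h := fun h3 => (mem_Df.1 h3).2 b hbd.2.2 ih
        rwa [hg d h2] at h1
  · rintro ⟨u, hu, p⟩
    -- every site of the path is in the reach set
    have key : ∀ w, ReflTransGen (StepIn (Al T k h)) u w → w ∈ Vs T k h ∧ w ∈ Vs T k g := by
      intro w q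
      induction q with
      | refl => exact ⟨off_Vs hu, off_Vs hu⟩
      | @tail b d _ hbd ih =>
        have h1 : d ∈ Vs T k h := Vs_step ih.1 hbd.2.2 hbd.2.1
        refine ⟨h1, Vs_step ih.2 hbd.2.2 ?_⟩
        rcases hbd.2.1 with h2 | h2
        · exact Or.inl h2
        · refine Or.inr ?_
          have h3 : d ∉ Df T k h := fun h4 => (mem_Df.1 h4).1 h1
          rwa [hg d h3]
    exact (key v p).2

theorem Df_congr {T : Finset P2} {k : ℤ} {h g : Hz} (hg : ∀ v, v ∉ Df T k h → g v = h v) :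
    Df T k g = Df T k h := by
  ext v
  rw [mem_Df, mem_Df, Vs_congr hg]

/-- **boundary values** -/
theorem bd_le {T : Finset P2} {k : ℤ} {h : Hz} {v : P2} (hv : v ∉ Df T k h)
    (hvD : ∃ w ∈ Df T k h, Adj w v) : h v ≤ k := by
  obtain ⟨w, hw, hwv⟩ := hvD
  have h1 : v ∉ Vs T k h := (mem_Df.1 hw).2 v (adj_symm hwv)
  rw [mem_Df] at hv
  push Not at hv
  obtain ⟨z, hzv, hz⟩ := hv h1
  by_contra h2
  exact h1 (Vs_step hz hzv (Or.inr (by omega)))

/-! ### no path -/

/-- no path from off `T` to `T'` through `{k + 1 ≤ h}` -/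
def Fk (T T' : Finset P2) (k : ℤ) : Set Hz := {h | ∀ v ∈ T', v ∉ Vs T k h}

theorem Vs_mono {T : Finset P2} {k : ℤ} {a b : Hz} (hab : ∀ v ∈ T, a v ≤ b v) :
    Vs T k a ⊆ Vs T k b := by
  rintro v ⟨u, hu, p⟩
  refine ⟨u, hu, path_mono ?_ p⟩
  intro w hw
  by_cases hwT : w ∈ T
  · rcases hw with h1 | h1
    · exact Or.inl h1
    · exact Or.inr (h1.trans (hab w hwT))
  · exact Or.inl hwT

theorem Fk_anti {T T' : Finset P2} {k : ℤ} {a b : Hz} (hab : ∀ v ∈ T, a v ≤ b v)
    (hb : b ∈ Fk T T' k) : a ∈ Fk T T' k := fun v hv h1 => hb v hv (Vs_mono hab h1)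

theorem Fk_congr {T T' : Finset P2} {k : ℤ} {a b : Hz} (hab : ∀ v ∈ T, a v = b v) :
    a ∈ Fk T T' k ↔ b ∈ Fk T T' k :=
  ⟨Fk_anti fun v hv => (hab v hv).symm.le, Fk_anti fun v hv => (hab v hv).le⟩

/-- `Fk T T' k` depends on the heights of `T` -/
theorem off_Fk {T T' S : Finset P2} {k : ℤ} (hTS : Disjoint T S) : Off S (one (Fk T T' k)) :=
  fun _ _ hab => one_congr (Fk_congr fun v hv => hab v (Finset.disjoint_left.1 hTS hv))

/-! ### one climbing step -/

/-- one climbing step in a ball, arbitrary finite domain -/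
def Climb (x : ℝ) (K : ℕ) (q : ℝ) : Prop :=
  ∀ n : ℕ, 1 ≤ n → ∀ (y : P2) (Λ' : Finset P2), ball y (K * n) ⊆ Λ' → ∀ τ : Hz, Lip τ → ∀ k : ℤ,
    (∀ v, v ∉ Λ' → (∃ w ∈ Λ', Adj w v) → τ v ≤ k) →
      q ≤ ex x Λ' τ (one {h | Sepr {v | h v ≤ k - 1} y n (2 * n)})

theorem sepr_anti {k : ℤ} {y : P2} {m N : ℕ} {a b : Hz} (hab : a ≤ b)
    (hb : b ∈ {h : Hz | Sepr {v | h v ≤ k} y m N}) : a ∈ {h : Hz | Sepr {v | h v ≤ k} y m N} :=
  Sepr.mono (fun v (hv : b v ≤ k) => (hab v).trans hv) hb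

/-- FKG for decreasing events -/
theorem fkg_one {x : ℝ} (hx0 : 0 < x) (hx1 : x ≤ 1) {Λ : Finset P2} {τ : Hz} (hτ : Lip τ)
    {ι : Type*} (S : Finset ι) (A : ι → Set Hz)
    (hA : ∀ i ∈ S, ∀ a b : Hz, a ≤ b → b ∈ A i → a ∈ A i) {q : ℝ} (hq : 0 ≤ q)
    (hp : ∀ i ∈ S, q ≤ ex x Λ τ (one (A i))) :
    q ^ S.card ≤ ex x Λ τ (one {h | ∀ i ∈ S, h ∈ A i}) := by
  classical
  induction S using Finset.induction_on with
  | empty =>
    have : ex x Λ τ (one {h | ∀ i ∈ (∅ : Finset ι), h ∈ A i}) = 1 := by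
      rw [← ex_const hx0 hτ (x := x) (Λ := Λ) (1 : ℝ)]
      exact ex_congr fun a _ => one_of_mem (by simp)
    rw [this]; simp
  | insert i S hi ih =>
    rw [Finset.card_insert_of_notMem hi, pow_succ]
    have h1 := ih (fun j hj => hA j (Finset.mem_insert_of_mem hj))
      (fun j hj => hp j (Finset.mem_insert_of_mem hj))
    have h2 := hp i (Finset.mem_insert_self i S)
    have h3 := fkg hx0 hx1 hτ (Λ := Λ) (f := fun h => - one {h | ∀ i ∈ S, h ∈ A i} h)
      (g := fun h => - one (A i) h)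
      (fun a _ b _ hab => neg_le_neg (one_le_one_of fun hb j hj =>
        hA j (Finset.mem_insert_of_mem hj) a b hab (hb j hj)))
      (fun a _ b _ hab => neg_le_neg (one_le_one_of fun hb =>
        hA i (Finset.mem_insert_self i S) a b hab hb))
    have en : ∀ f : Hz → ℝ, ex x Λ τ (fun h => - f h) = - ex x Λ τ f := by
      intro f
      have := ex_smul (x := x) (Λ := Λ) (τ := τ) (-1 : ℝ) f
      simpa using this
    rw [en, en, neg_mul_neg] at h3
    have h4 : ex x Λ τ (fun h => - one {h | ∀ i ∈ S, h ∈ A i} h * - one (A i) h) =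
        ex x Λ τ (one {h | ∀ j ∈ insert i S, h ∈ A j}) := by
      refine ex_congr fun a _ => ?_
      rw [neg_mul_neg, ← one_inter]
      refine one_congr ?_
      simp only [Set.mem_inter_iff, Set.mem_ofPred_eq, Finset.forall_mem_insert]
      tauto
    rw [h4] at h3
    exact (mul_le_mul h1 h2 hq (ex_nonneg fun a _ => one_nonneg _ _)).trans h3

/-- the cover property of a finite set of balls: if all of them are blocked, no path from off `T'` to `T''` -/
def Cover (T' T'' : Finset P2) (S : Finset (P2 × ℕ)) : Prop :=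
  ∀ S' : Set P2, (∀ y ∈ S, Sepr S' y.1 y.2 (2 * y.2)) → ∀ u v, u ∉ T' → v ∈ T'' →
    ¬ ReflTransGen (StepIn S'ᶜ) u v

/-- **one step** -/
theorem step {x : ℝ} (hx0 : 0 < x) (hx1 : x ≤ 1) {K : ℕ} {q : ℝ} (hq : 0 < q) (hC : Climb x K q)
    (hK : 2 ≤ K) {T T' T'' Λ : Finset P2} (hTΛ : T ⊆ Λ) {S : Finset (P2 × ℕ)}
    (hS : ∀ y ∈ S, 1 ≤ y.2 ∧ ball y.1 (K * y.2 + 1) ⊆ T') (hcov : Cover T' T'' S) {τ : Hz} {k : ℤ}
    {G : Hz → ℝ} (hG0 : ∀ h, 0 ≤ G h) (hG : Off T G) :
    q ^ S.card * ex x Λ τ (fun h => G h * one (Fk T T' k) h) ≤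
      ex x Λ τ (fun h => G h * one (Fk T T' k) h * one (Fk T' T'' (k - 1)) h) := by
  classical
  have hφ : ∀ h : Hz, ∀ g ∈ conf (Df T k h) h, G g * one (Fk T T' k) g = G h * one (Fk T T' k) h := by
    intro h g hg
    have hg2 := (mem_conf.1 hg).2
    have h1 : G g = G h := hG g h fun v hv => hg2 v fun h2 => hv (Df_sub T k h h2)
    have h2 : one (Fk T T' k) g = one (Fk T T' k) h := by
      refine one_congr ?_
      show (∀ v ∈ T', v ∉ Vs T k g) ↔ (∀ v ∈ T', v ∉ Vs T k h)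
      rw [Vs_congr hg2]
    rw [h1, h2]
  have key := ex_tower_smul hx0 (Λ := Λ) (τ := τ) (fun h => Df T k h)
    (fun h _ => (Df_sub T k h).trans hTΛ)
    (fun h _ g hg => Df_congr (mem_conf.1 hg).2)
    (fun h => G h * one (Fk T T' k) h) (fun h _ g hg => hφ h g hg) (one (Fk T' T'' (k - 1)))
  simp only [smul_eq_mul] at key
  rw [key, ← smul_eq_mul, ← ex_smul]
  refine ex_mono fun h hh => ?_
  have hhL := (mem_conf.1 hh).1
  rw [smul_eq_mul]
  by_cases hF : h ∈ Fk T T' k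
  · rw [one_of_mem hF, mul_one, mul_comm]
    refine mul_le_mul_of_nonneg_left ?_ (hG0 h)
    have hball : ∀ y ∈ S, ball y.1 (K * y.2) ⊆ Df T k h := by
      intro y hy v hv
      rw [mem_Df]
      exact ⟨hF v ((hS y hy).2 (ball_mono y.1 (Nat.le_succ _) hv)), fun w hw =>
        hF w ((hS y hy).2 (adj_ball hv (adj_symm hw)))⟩
    have h1 := fkg_one hx0 hx1 hhL (Λ := Df T k h) S
      (fun y => {g : Hz | Sepr {v | g v ≤ k - 1} y.1 y.2 (2 * y.2)})
      (fun y _ a b hab hb => sepr_anti hab hb) hq.le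
      (fun y hy => hC y.2 (hS y hy).1 y.1 _ (hball y hy) h hhL k fun v hv hv' => bd_le hv hv')
    refine h1.trans (ex_mono fun g _ => one_le_one_of fun hg => ?_)
    -- blocked balls block the path
    intro v hv ⟨u, hu, p⟩
    set S' : Set P2 := {w | w ∈ T' ∧ g w ≤ k - 1} with hS'
    refine hcov S' (fun y hy => ?_) u v hu hv (path_mono (fun w hw => ?_) p)
    · refine Sepr.congr (S := {w | g w ≤ k - 1}) (by omega) (fun t ht _ ht' => ⟨?_, ht'⟩) (hg y hy)
      refine (hS y hy).2 (ball_mono y.1 ?_ ht)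
      have := Nat.mul_le_mul_right y.2 hK
      omega
    · rintro ⟨h2, h3⟩
      rcases hw with h4 | h4
      · exact h4 h2
      · omega
  · rw [one_of_not_mem hF]
    simp

end Crest.Agent.R144.Cu867
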