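import Crest.Agent.R144.Clb2_617
import Crest.Agent.R144.Cu1_867

/-!
# R144, S5: 867's `Climb x K q` from `RSW` (helper617)
-/

set_option autoImplicit false

noncomputable section

namespace Crest.Agent.R144.Clb617

open Crest.Agent.R144.It844
open Crest.Agent.R144.Rsw867 (ball Sepr RSW)
open Crest.ProbabilityR.HexHeights (Adj)

/-- `Climb` of `Cu1_867` -/
theorem climb_prop {x : ℝ} (hx0 : 0 < x) (hx1 : x ≤ 1) {K : ℕ} {p : ℝ} (hR : RSW (x ^ 2)⁻¹ K p) :
    Cu867.Climb x K (p / 2) := by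
  intro n hn y Λ' hB τ hτ k hτk
  have h1 := climb1_dn_pr hx0 hx1 hR hn hB hτ hτk
  refine h1.trans (le_of_eq ?_)
  unfold pr Cu867.one
  rfl

end Crest.Agent.R144.Clb617
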