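import Crest.Agent.R144.Cu1_867

/-!
# R144, S5 (contiguity), uniform form, part 2 (helper867): one shell

* `nb K0 r`, `sh K0 a b = nb K0 b \ nb K0 a`;
* `COV K` (geometry of covers), `TightHi x` (tightness of crossing heights);
* `p1` : conditionally on all heights off the shell `sh K0 r (r + s)`, outside an `η`-set the shell is not
  crossed by `{1 ≤ h}` with probability `≥ c(η)`, in the form `E G ≤ η + C E[G 1_A]`.
-/

set_option autoImplicit false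

noncomputable section

namespace Crest.Agent.R144.Cu867

open Finset
open Crest.Agent.R144.It844
open Crest.Agent.R144.Zg349 (StepIn)
open Crest.Agent.R144.Pst967 (path_symm)
open Crest.Agent.R144.Rsw867 (ball mem_ball ball_mono adj_ball path_mono Sepr)
open Crest.ProbabilityR.HexHeights (Adj)
open Relation (ReflTransGen)

/-- `r`-neighbourhood -/
def nb (S : Finset P2) (r : ℕ) : Finset P2 := S.biUnion fun v => ball v r

theorem mem_nb {S : Finset P2} {r : ℕ} {v : P2} : v ∈ nb S r ↔ ∃ w ∈ S, v ∈ ball w r := by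
  unfold nb
  rw [Finset.mem_biUnion]

theorem nb_mono (S : Finset P2) {r r' : ℕ} (h : r ≤ r') : nb S r ⊆ nb S r' := fun v hv => by
  rw [mem_nb] at *
  obtain ⟨w, hw, h1⟩ := hv
  exact ⟨w, hw, ball_mono w h h1⟩

theorem adj_nb {S : Finset P2} {r : ℕ} {v w : P2} (hv : v ∈ nb S r) (h : Adj v w) :
    w ∈ nb S (r + 1) := by
  rw [mem_nb] at *
  obtain ⟨z, hz, h1⟩ := hv
  exact ⟨z, hz, adj_ball h1 h⟩

/-- shell -/
def sh (K0 : Finset P2) (a b : ℕ) : Finset P2 := nb K0 b \ nb K0 a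

theorem mem_sh {K0 : Finset P2} {a b : ℕ} {v : P2} : v ∈ sh K0 a b ↔ v ∈ nb K0 b ∧ v ∉ nb K0 a := by
  unfold sh
  rw [Finset.mem_sdiff]

theorem sh_mono (K0 : Finset P2) {a a' b b' : ℕ} (ha : a ≤ a') (hb : b' ≤ b) :
    sh K0 a' b' ⊆ sh K0 a b := fun v hv => by
  rw [mem_sh] at *
  exact ⟨nb_mono K0 hb hv.1, fun h => hv.2 (nb_mono K0 ha h)⟩

theorem sh_disj (K0 : Finset P2) {a b a' b' : ℕ} (h : b ≤ a') : Disjoint (sh K0 a b) (sh K0 a' b') := by
  rw [Finset.disjoint_left]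
  intro v hv hv'
  rw [mem_sh] at *
  exact hv'.2 (nb_mono K0 h hv.1)

/-- **geometry of covers** (input) -/
def COV (K : ℕ) : Prop :=
  ∀ R w : ℕ, 1 ≤ R → 1 ≤ w → ∃ J s0 : ℕ, ∀ s ≥ s0, ∀ (a : P2) (K0 : Finset P2), K0.Nonempty →
    K0 ⊆ ball a (R * s) → ∀ r d : ℕ, r + d ≤ R * s → s ≤ w * d → ∃ (n : ℕ) (S : Finset P2),
      1 ≤ n ∧ s ≤ J * n ∧ S.card ≤ J ∧ (∀ y ∈ S, ball y (K * n + 1) ⊆ nb K0 (r + d) \ nb K0 r) ∧
      ∀ S' : Set P2, (∀ y ∈ S, Sepr S' y n (2 * n)) → ∀ u ∈ nb K0 r, ∀ v, v ∉ nb K0 (r + d) →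
        ¬ ReflTransGen (StepIn S'ᶜ) u v

/-- **tightness of crossing heights** (input) -/
def TightHi (x : ℝ) : Prop :=
  ∀ (A : ℕ) (ε : ℝ), 0 < ε → ∃ M : ℕ, ∀ n : ℕ, 1 ≤ n → ∀ (o a : P2) (Λ : Finset P2),
    Λ ⊆ ball o (A * n) → ∀ τ : Hz, Lip τ → (∀ v, v ∉ Λ → τ v ≤ 1) →
      ex x Λ τ (one {h | ¬ Sepr {v | h v < (M : ℤ)} a n (2 * n)}) ≤ ε

/-- cover of the two sides of a shell -/
theorem two_sided {K : ℕ} {J R s w : ℕ} {K0 : Finset P2} {d α β : ℕ}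
    (hcov : ∀ r d : ℕ, r + d ≤ R * s → s ≤ w * d → ∃ (n : ℕ) (S : Finset P2),
      1 ≤ n ∧ s ≤ J * n ∧ S.card ≤ J ∧ (∀ y ∈ S, ball y (K * n + 1) ⊆ nb K0 (r + d) \ nb K0 r) ∧
      ∀ S' : Set P2, (∀ y ∈ S, Sepr S' y n (2 * n)) → ∀ u ∈ nb K0 r, ∀ v, v ∉ nb K0 (r + d) →
        ¬ ReflTransGen (StepIn S'ᶜ) u v)
    (hd : s ≤ w * d) (hαβ : α + d ≤ β) (hβ : β ≤ R * s) :
    ∃ S : Finset (P2 × ℕ), S.card ≤ 2 * J ∧ (∀ y ∈ S, 1 ≤ y.2 ∧ s ≤ J * y.2 ∧
      ball y.1 (K * y.2 + 1) ⊆ sh K0 α β) ∧ Cover (sh K0 α β) (sh K0 (α + d) (β - d)) S := by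
  classical
  obtain ⟨n1, S1, h1, h2, h3, h4, h5⟩ := hcov α d (by omega) hd
  obtain ⟨n2, S2, k1, k2, k3, k4, k5⟩ := hcov (β - d) d (by omega) hd
  have eβ : β - d + d = β := by omega
  rw [eβ] at k4 k5
  refine ⟨S1.image (fun y => (y, n1)) ∪ S2.image (fun y => (y, n2)), ?_, ?_, ?_⟩
  · refine (Finset.card_union_le _ _).trans ?_
    have := Finset.card_image_le (s := S1) (f := fun y => (y, n1))
    have := Finset.card_image_le (s := S2) (f := fun y => (y, n2))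
    omega
  · intro y hy
    rw [Finset.mem_union, Finset.mem_image, Finset.mem_image] at hy
    rcases hy with ⟨z, hz, rfl⟩ | ⟨z, hz, rfl⟩
    · exact ⟨h1, h2, (h4 z hz).trans (sh_mono K0 le_rfl hαβ)⟩
    · exact ⟨k1, k2, (k4 z hz).trans (sh_mono K0 (by omega) le_rfl)⟩
  · intro S' hS' u v hu hv p
    rw [mem_sh] at hu hv
    by_cases hu' : u ∈ nb K0 α
    · refine h5 S' (fun y hy => hS' (y, n1) ?_) u hu' v hv.2 p
      exact Finset.mem_union_left _ (Finset.mem_image_of_mem _ hy)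
    · refine k5 S' (fun y hy => hS' (y, n2) ?_) v hv.1 u (fun h => hu ⟨h, hu'⟩) (path_symm p)
      exact Finset.mem_union_right _ (Finset.mem_image_of_mem _ hy)

/-- no path through `{1 ≤ h}` across the shell -/
def Up (K0 : Finset P2) (a b : ℕ) : Set Hz :=
  {h | ∀ u ∈ nb K0 a, ∀ v, v ∉ nb K0 b → ¬ ReflTransGen (StepIn {v | 1 ≤ h v}) u v}

/-- no path through `{h ≤ 0}` across the shell -/
def Dn (K0 : Finset P2) (a b : ℕ) : Set Hz :=
  {h | ∀ u ∈ nb K0 a, ∀ v, v ∉ nb K0 b → ¬ ReflTransGen (StepIn {v | h v ≤ 0}) u v}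

theorem up_of_Fk {K0 : Finset P2} {a a' a'' b'' b' b : ℕ} (h1 : a ≤ a') (h2 : a' ≤ a'')
    (h3 : a'' + 1 ≤ b'') (h4 : b'' ≤ b') (h5 : b' ≤ b) :
    Fk (sh K0 a' b') (sh K0 a'' b'') 0 ⊆ Up K0 a b := by
  intro h hh u hu v hv p
  have huT : u ∉ sh K0 a' b' := fun h6 => (mem_sh.1 h6).2 (nb_mono K0 h1 hu)
  have key : ∀ w, ReflTransGen (StepIn {v | 1 ≤ h v}) u w →
      w ∈ Vs (sh K0 a' b') 0 h ∧ w ∈ nb K0 a'' := by
    intro w q
    induction q with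
    | refl => exact ⟨off_Vs huT, nb_mono K0 (h1.trans h2) hu⟩
    | @tail c d _ hcd ih =>
      have h6 : d ∈ Vs (sh K0 a' b') 0 h := Vs_step ih.1 hcd.2.2 (Or.inr (by
        have : 1 ≤ h d := hcd.2.1
        omega))
      refine ⟨h6, ?_⟩
      by_contra h7
      refine hh d (mem_sh.2 ⟨?_, h7⟩) h6
      exact nb_mono K0 h3 (adj_nb ih.2 hcd.2.2)
  exact hv (nb_mono K0 (by omega) (key v p).2)

/-- iteration of the climbing step -/
theorem iter {x : ℝ} (hx0 : 0 < x) (hx1 : x ≤ 1) {K : ℕ} {q : ℝ} (hq : 0 < q) (hq1 : q ≤ 1)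
    (hC : Climb x K q) (hK : 2 ≤ K) {Λ : Finset P2} {T : ℕ → Finset P2} {M J : ℕ}
    (hT0 : T 0 ⊆ Λ) (hT : ∀ i, T (i + 1) ⊆ T i)
    (hS : ∀ i < M, ∃ S : Finset (P2 × ℕ), S.card ≤ J ∧
      (∀ y ∈ S, 1 ≤ y.2 ∧ ball y.1 (K * y.2 + 1) ⊆ T (i + 1)) ∧ Cover (T (i + 1)) (T (i + 2)) S)
    {τ : Hz} {G : Hz → ℝ} (hG0 : ∀ h, 0 ≤ G h) (hG : Off (T 0) G) :
    ∀ i ≤ M, (q ^ J) ^ i * ex x Λ τ (fun h => G h * one (Fk (T 0) (T 1) M) h) ≤
      ex x Λ τ (fun h => G h * one (Fk (T i) (T (i + 1)) (M - i : ℤ)) h) := by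
  have hTi : ∀ i, T i ⊆ T 0 := by
    intro i
    induction i with
    | zero => exact Finset.Subset.refl _
    | succ i ih => exact (hT i).trans ih
  intro i
  induction i with
  | zero =>
    intro _
    simp
  | succ i ih =>
    intro hi
    have ih' := ih (by omega)
    obtain ⟨S, hS1, hS2, hS3⟩ := hS i (by omega)
    have h1 := step hx0 hx1 hq hC hK ((hTi i).trans hT0) hS2 hS3 (τ := τ) (k := (M - i : ℤ)) hG0
      (hG.mono (hTi i))
    have h2 : q ^ J ≤ q ^ S.card := pow_le_pow_of_le_one hq.le hq1 hS1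
    have h3 : 0 ≤ ex x Λ τ (fun h => G h * one (Fk (T i) (T (i + 1)) (M - i : ℤ)) h) :=
      ex_nonneg fun h _ => mul_nonneg (hG0 h) (one_nonneg _ _)
    have h4 : ex x Λ τ (fun h => G h * one (Fk (T i) (T (i + 1)) (M - i : ℤ)) h *
        one (Fk (T (i + 1)) (T (i + 2)) ((M - i : ℤ) - 1)) h) ≤
        ex x Λ τ (fun h => G h * one (Fk (T (i + 1)) (T (i + 1 + 1)) (M - (i + 1 : ℕ) : ℤ)) h) := by
      refine ex_mono fun h _ => ?_
      have e : ((M : ℤ) - i) - 1 = (M : ℤ) - ((i + 1 : ℕ) : ℤ) := by push_cast; ring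
      rw [e]
      refine mul_le_mul_of_nonneg_right ?_ (one_nonneg _ _)
      exact mul_le_of_le_one_right (hG0 h) (one_le_one _ _)
    calc (q ^ J) ^ (i + 1) * ex x Λ τ (fun h => G h * one (Fk (T 0) (T 1) M) h)
        = q ^ J * ((q ^ J) ^ i * ex x Λ τ (fun h => G h * one (Fk (T 0) (T 1) M) h)) := by ring
      _ ≤ q ^ J * ex x Λ τ (fun h => G h * one (Fk (T i) (T (i + 1)) (M - i : ℤ)) h) :=
          mul_le_mul_of_nonneg_left ih' (by positivity)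
      _ ≤ q ^ S.card * ex x Λ τ (fun h => G h * one (Fk (T i) (T (i + 1)) (M - i : ℤ)) h) :=
          mul_le_mul_of_nonneg_right h2 h3
      _ ≤ _ := h1
      _ ≤ _ := h4

theorem ex_sum {x : ℝ} (hx0 : 0 < x) {Λ : Finset P2} {τ : Hz} (hτ : Lip τ) {ι : Type*} (S : Finset ι)
    (f : ι → Hz → ℝ) : ex x Λ τ (fun h => ∑ i ∈ S, f i h) = ∑ i ∈ S, ex x Λ τ (f i) := by
  classical
  induction S using Finset.induction_on with
  | empty =>
    simp only [Finset.sum_empty]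
    exact ex_const hx0 hτ (0 : ℝ)
  | insert y S hy ih =>
    simp only [Finset.sum_insert hy]
    rw [ex_add, ih]

/-- union bound for the first shell -/
theorem first {x : ℝ} (hx0 : 0 < x) {K : ℕ} (hK : 2 ≤ K) {Λ T T' : Finset P2}
    {S : Finset (P2 × ℕ)} (hS : ∀ y ∈ S, 1 ≤ y.2 ∧ ball y.1 (K * y.2 + 1) ⊆ T)
    (hcov : Cover T T' S) {τ : Hz} (hτ : Lip τ) {M : ℕ} {ε : ℝ}
    (hM : ∀ y ∈ S, ex x Λ τ (one {h | ¬ Sepr {v | h v < (M : ℤ)} y.1 y.2 (2 * y.2)}) ≤ ε) :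
    ex x Λ τ (one (Fk T T' M)ᶜ) ≤ S.card * ε := by
  classical
  have h1 : ex x Λ τ (one (Fk T T' M)ᶜ) ≤
      ∑ y ∈ S, ex x Λ τ (one {h | ¬ Sepr {v | h v < (M : ℤ)} y.1 y.2 (2 * y.2)}) := by
    rw [← ex_sum hx0 hτ]
    refine ex_mono fun h _ => ?_
    by_cases hF : h ∈ Fk T T' M
    · rw [one_of_not_mem (show h ∉ (Fk T T' M)ᶜ from fun h2 => h2 hF)]
      exact Finset.sum_nonneg fun y _ => one_nonneg _ _
    · have h2 : ∃ y ∈ S, ¬ Sepr {v | h v < (M : ℤ)} y.1 y.2 (2 * y.2) := by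
        by_contra hcon
        push Not at hcon
        apply hF
        intro v hv ⟨u, hu, p⟩
        refine hcov {w | w ∈ T ∧ h w < (M : ℤ)} (fun y hy => ?_) u v hu hv
          (path_mono (fun w hw => ?_) p)
        · refine Sepr.congr (S := {v | h v < (M : ℤ)}) (by omega) (fun t ht _ ht' => ⟨?_, ht'⟩) (hcon y hy)
          refine (hS y hy).2 (ball_mono y.1 ?_ ht)
          have := Nat.mul_le_mul_right y.2 hK
          omega
        · rintro ⟨h3, h4⟩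
          rcases hw with h5 | h5
          · exact h5 h3
          · omega
      obtain ⟨y, hy, hy'⟩ := h2
      have h3 := Finset.single_le_sum (s := S) (f := fun y => one {h : Hz | ¬ Sepr {v | h v < (M : ℤ)} y.1
        y.2 (2 * y.2)} h) (fun z _ => one_nonneg _ _) hy
      refine le_trans (one_le_one _ _) (le_trans (le_of_eq ?_) h3)
      exact (one_of_mem (show h ∈ {h : Hz | ¬ Sepr {v | h v < (M : ℤ)} y.1 y.2 (2 * y.2)} from hy')).symm
  refine h1.trans ((Finset.sum_le_sum hM).trans (le_of_eq ?_))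
  rw [Finset.sum_const, nsmul_eq_mul]

/-- **one shell** -/
theorem p1 {x : ℝ} (hx0 : 0 < x) (hx1 : x ≤ 1) {K : ℕ} {q : ℝ} (hq : 0 < q) (hq1 : q ≤ 1)
    (hC : Climb x K q) (hK : 2 ≤ K) (hcov : COV K) (hT : TightHi x) {R : ℕ} (hR : 1 ≤ R) {η : ℝ}
    (hη : 0 < η) : ∃ (C : ℝ) (s0 : ℕ), 1 ≤ C ∧ ∀ s ≥ s0, ∀ (o : P2) (Λ K0 : Finset P2), K0.Nonempty →
      Λ ⊆ ball o (R * s) → ∀ r : ℕ, r + s ≤ R * s → nb K0 (r + s) ⊆ Λ → ∃ A : Set Hz,
        A ⊆ Up K0 r (r + s) ∧ (∀ S, Disjoint (sh K0 r (r + s)) S → Off S (one A)) ∧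
        ∀ τ : Hz, Lip τ → (∀ v, v ∉ Λ → τ v ≤ 1) → ∀ G : Hz → ℝ, (∀ h, 0 ≤ G h) → (∀ h, G h ≤ 1) →
          Off (sh K0 r (r + s)) G → ex x Λ τ G ≤ η + C * ex x Λ τ (fun h => G h * one A h) := by
  classical
  obtain ⟨J0, s00, hJ0⟩ := hcov R 16 hR (by norm_num)
  obtain ⟨M, hM⟩ := hT (R * J0) (η / (2 * J0 + 1)) (by positivity)
  obtain ⟨J1, s01, hJ1⟩ := hcov R (16 * (M + 1)) hR (by omega)
  refine ⟨((q ^ (2 * J1)) ^ M)⁻¹, max (max s00 s01) (16 * (M + 1)), ?_, ?_⟩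
  · refine (one_le_inv₀ (by positivity)).2 ?_
    exact pow_le_one₀ (by positivity) (pow_le_one₀ hq.le hq1)
  intro s hs o Λ K0 hK0 hΛ r hr hnb
  have hs0 : s00 ≤ s := (le_max_left _ _).trans ((le_max_left _ _).trans hs)
  have hs1 : s01 ≤ s := (le_max_right _ _).trans ((le_max_left _ _).trans hs)
  have hs2 : 16 * (M + 1) ≤ s := (le_max_right _ _).trans hs
  have hK0b : K0 ⊆ ball o (R * s) := fun v hv => hΛ (hnb (mem_nb.2 ⟨v, hv, by
    rw [mem_ball]; simp; positivity⟩))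
  have c0 := hJ0 s hs0 o K0 hK0 hK0b
  have c1 := hJ1 s hs1 o K0 hK0 hK0b
  set w0 := s / 8 with hw0
  set d := s / (8 * (M + 1)) with hd
  have hw1 : s ≤ 16 * w0 := by omega
  have hw2 : 8 * w0 ≤ s := by omega
  have hd2 : 8 * (M + 1) * d ≤ s := Nat.mul_div_le s _
  have hd1 : s ≤ 16 * (M + 1) * d := by
    have h1 := Nat.lt_mul_div_succ s (show 0 < 8 * (M + 1) by omega)
    rw [← hd] at h1
    have e1 : 8 * (M + 1) * (d + 1) = 8 * (M + 1) * d + 8 * (M + 1) := by ring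
    have e2 : 16 * (M + 1) * d = 2 * (8 * (M + 1) * d) := by ring
    omega
  have hMd : ∀ i ≤ M + 1, 8 * (i * d) ≤ s := by
    intro i hi
    have h1 : i * d ≤ (M + 1) * d := Nat.mul_le_mul_right d hi
    have e1 : 8 * (M + 1) * d = 8 * ((M + 1) * d) := by ring
    omega
  set T : ℕ → Finset P2 := fun i => Nat.casesOn i (sh K0 r (r + s))
    (fun i => sh K0 (r + w0 + i * d) (r + s - w0 - i * d)) with hTdef
  have T0 : T 0 = sh K0 r (r + s) := rfl
  have TS : ∀ i, T (i + 1) = sh K0 (r + w0 + i * d) (r + s - w0 - i * d) := fun i => rfl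
  have hTm : ∀ i, T (i + 1) ⊆ T i := by
    intro i
    rcases i with _ | i
    · rw [T0, TS]
      exact sh_mono K0 (by omega) (by omega)
    · rw [TS, TS]
      have e1 : i * d ≤ (i + 1) * d := Nat.mul_le_mul_right d (Nat.le_succ i)
      exact sh_mono K0 (Nat.add_le_add_left e1 _) (Nat.sub_le_sub_left e1 _)
  have hTi : ∀ i, T i ⊆ T 0 := by
    intro i
    induction i with
    | zero => exact Finset.Subset.refl _
    | succ i ih => exact (hTm i).trans ih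
  have hT0 : T 0 ⊆ Λ := fun v hv => hnb (mem_sh.1 hv).1
  have hSi : ∀ i < M, ∃ S : Finset (P2 × ℕ), S.card ≤ 2 * J1 ∧
      (∀ y ∈ S, 1 ≤ y.2 ∧ ball y.1 (K * y.2 + 1) ⊆ T (i + 1)) ∧
        Cover (T (i + 1)) (T (i + 2)) S := by
    intro i hi
    have h1 := hMd (i + 1) (by omega)
    have e1 : (i + 1) * d = i * d + d := by ring
    have h2 : i * d ≤ (i + 1) * d := Nat.mul_le_mul_right d (Nat.le_succ i)
    rw [e1] at h1 h2
    obtain ⟨S, k1, k2, k3⟩ := two_sided (α := r + w0 + i * d) (β := r + s - w0 - i * d) c1 hd1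
      (by omega) (by omega)
    refine ⟨S, k1, fun y hy => ⟨(k2 y hy).1, (k2 y hy).2.2⟩, ?_⟩
    rw [TS, TS]
    rw [e1]
    have e2 : r + w0 + (i * d + d) = r + w0 + i * d + d := by omega
    have e3 : r + s - w0 - (i * d + d) = r + s - w0 - i * d - d := by omega
    rw [e2, e3]
    exact k3
  refine ⟨Fk (T M) (T (M + 1)) 0, ?_, fun S hS => off_Fk ?_, ?_⟩
  · rw [TS]
    have h1 := hMd M (by omega)
    rcases M with _ | M'
    · rw [T0]
      exact up_of_Fk le_rfl (by omega) (by omega) (by omega) le_rfl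
    · rw [TS]
      have e1 : (M' + 1) * d = M' * d + d := by ring
      have h2 : M' * d ≤ (M' + 1) * d := Nat.mul_le_mul_right d (Nat.le_succ M')
      rw [e1] at h1 h2 ⊢
      exact up_of_Fk (by omega) (by omega) (by omega) (by omega) (by omega)
  · exact Finset.disjoint_of_subset_left (hTi M) hS
  · intro τ hτ hτ1 G hG0 hG1 hGo
    -- first shell
    obtain ⟨S, k1, k2, k3⟩ := two_sided (α := r) (β := r + s) (d := w0) c0 hw1 (by omega) (by omega)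
    have hfirst : ex x Λ τ (one (Fk (T 0) (T 1) M)ᶜ) ≤ η := by
      have h1 := first (x := x) hx0 hK (Λ := Λ) (T := T 0) (T' := T 1) (S := S)
        (fun y hy => ⟨(k2 y hy).1, (k2 y hy).2.2⟩) (by
          have e1 : T 1 = sh K0 (r + w0) (r + s - w0) := by
            refine (TS 0).trans ?_
            rw [zero_mul, add_zero, Nat.sub_zero]
          rw [e1]; exact k3) hτ (M := M) (ε := η / (2 * J0 + 1)) (fun y hy => by
          refine hM y.2 (k2 y hy).1 o y.1 Λ (hΛ.trans (ball_mono o ?_)) τ hτ hτ1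
          rw [mul_assoc]
          exact Nat.mul_le_mul_left R (k2 y hy).2.1)
      refine h1.trans ?_
      have h2 : (S.card : ℝ) ≤ 2 * J0 := by exact_mod_cast k1
      calc (S.card : ℝ) * (η / (2 * J0 + 1)) ≤ (2 * J0) * (η / (2 * J0 + 1)) :=
            mul_le_mul_of_nonneg_right h2 (by positivity)
        _ ≤ η := by
            rw [mul_div_assoc', div_le_iff₀ (by positivity)]
            nlinarith
    have hit := iter hx0 hx1 hq hq1 hC hK hT0 hTm hSi (τ := τ) hG0 hGo M le_rfl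
    rw [sub_self] at hit
    have hpos : 0 < (q ^ (2 * J1)) ^ M := by positivity
    have h3 : ex x Λ τ (fun h => G h * one (Fk (T 0) (T 1) M) h) ≤
        ((q ^ (2 * J1)) ^ M)⁻¹ * ex x Λ τ (fun h => G h * one (Fk (T M) (T (M + 1)) 0) h) := by
      rw [inv_mul_eq_div, le_div_iff₀ hpos, mul_comm]
      exact hit
    have h4 : ex x Λ τ G ≤ ex x Λ τ (one (Fk (T 0) (T 1) M)ᶜ) +
        ex x Λ τ (fun h => G h * one (Fk (T 0) (T 1) M) h) := by
      rw [← ex_add]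
      refine ex_mono fun h _ => ?_
      rw [one_compl]
      have h5 := one_nonneg (Fk (T 0) (T 1) M) h
      have h6 := one_le_one (Fk (T 0) (T 1) M) h
      nlinarith [hG0 h, hG1 h, mul_nonneg (sub_nonneg.2 (hG1 h)) (sub_nonneg.2 h6)]
    linarith

end Crest.Agent.R144.Cu867
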