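import Crest.Agent.R144.Cov_792
import Crest.Agent.R144.Cu2_867

/-!
# R144, S5, leaf COV with `s ≤ J n` (helper792): 867's Prop `Cu867.COV K` for every `K ≥ 1`
-/

set_option autoImplicit false

noncomputable section

namespace Crest.Agent.R144.Cov2792

open Crest.Agent.R144.It844 (P2 adj_iff adj_symm)
open Crest.Agent.R144.Zg349 (StepIn)
open Crest.Agent.R144.Rsw867
open Crest.Agent.R144.Cov356
open Crest.Agent.R144.Cov792
open Crest.ProbabilityR.HexHeights (Adj)

/-- **COV**, with `s ≤ J n`. -/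
theorem cov2 (R K w : ℕ) (_hR : 1 ≤ R) (hK : 1 ≤ K) (hw : 1 ≤ w) : ∃ J s0 : ℕ, ∀ s, s0 ≤ s →
    ∀ (a : P2) (K0 : Finset P2), K0 ⊆ ball a (R * s) → ∀ r d : ℕ, r + d ≤ R * s → s ≤ w * d →
    ∃ n : ℕ, 1 ≤ n ∧ s ≤ J * n ∧ ∃ S : Finset P2, S.card ≤ J ∧
      (∀ y ∈ S, ball y (K * n + 2) ⊆ nb K0 (r + d) \ nb K0 r) ∧
      ∀ S' : Set P2, (∀ y ∈ S, Sepr S' y n (2 * n)) →
        ∀ u ∈ nb K0 r, ∀ v, v ∉ nb K0 (r + d) → ¬ Relation.ReflTransGen (StepIn S'ᶜ) u v := by
  classical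
  set q : ℕ := 4 * K + 8 with hq
  refine ⟨(2 * (4 * R * w * q) + 3) ^ 2 + 2 * w * q, w * (16 * q), fun s hs a K0 hK0 r d hrd hsd => ?_⟩
  have hq0 : 0 < q := by omega
  -- `d` is large
  have hd : 16 * q ≤ d := by
    have : w * (16 * q) ≤ w * d := hs.trans hsd
    exact Nat.le_of_mul_le_mul_left this (by omega)
  set n : ℕ := d / q with hn
  have hn1 : 16 ≤ n := (Nat.le_div_iff_mul_le hq0).2 hd
  have hnq : n * q ≤ d := Nat.div_mul_le_self _ _
  have hnq' : d < (n + 1) * q := by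
    have h1 := Nat.div_add_mod d q
    have h2 := Nat.mod_lt d hq0
    rw [← hn] at h1
    nlinarith
  set e : ℕ := d / 2 with he
  have he1 : 2 * e ≤ d := by omega
  have he2 : d ≤ 2 * e + 1 := by omega
  -- `(K + 1) n + 2 < e`
  have hKn : (K + 1) * n + n + 3 ≤ e := by
    have h1 : n * (4 * K + 8) ≤ d := hnq
    nlinarith
  obtain ⟨Z, hZc, -, hZ⟩ := cov1 a (2 * (R * s)) n (by omega)
  -- level set
  set lv : Set P2 := {p | p ∈ nb K0 (r + e) ∧ p ∉ nb K0 (r + e - 1)} with hlv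
  have hsJ : s ≤ ((2 * (4 * R * w * q) + 3) ^ 2 + 2 * w * q) * n := by
    have h2 : s ≤ w * ((n + 1) * q) := hsd.trans (Nat.mul_le_mul_left _ hnq'.le)
    have h3 : n + 1 ≤ 2 * n := by omega
    have h4 : w * ((n + 1) * q) ≤ w * ((2 * n) * q) :=
      Nat.mul_le_mul_left _ (Nat.mul_le_mul_right _ h3)
    have h5 : w * ((2 * n) * q) = (2 * w * q) * n := by ring
    rw [h5] at h4
    exact h2.trans (h4.trans (Nat.mul_le_mul_right _ (Nat.le_add_left _ _)))
  refine ⟨n, by omega, hsJ, Z.filter fun y => ∃ p ∈ lv, p ∈ ball y n, ?_, ?_, ?_⟩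
  · -- number of centres
    refine le_trans ?_ (Nat.le_add_right _ _)
    refine (Finset.card_filter_le _ _).trans (hZc.trans (Nat.pow_le_pow_left ?_ 2))
    have h1 : 2 * (R * s) / n ≤ 4 * R * w * q := by
      rw [Nat.div_le_iff_le_mul_add_pred (by omega)]
      have h2 : s ≤ w * ((n + 1) * q) := hsd.trans (Nat.mul_le_mul_left _ hnq'.le)
      have h3 : n + 1 ≤ 2 * n := by omega
      have h4 : w * ((n + 1) * q) ≤ w * ((2 * n) * q) :=
        Nat.mul_le_mul_left _ (Nat.mul_le_mul_right _ h3)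
      have h5 : 2 * (R * s) ≤ 2 * (R * (w * ((2 * n) * q))) := by
        have := Nat.mul_le_mul_left R (h2.trans h4)
        omega
      have h6 : 2 * (R * (w * ((2 * n) * q))) = n * (4 * R * w * q) := by ring
      rw [h6] at h5
      exact h5.trans (Nat.le_add_right _ _)
    omega
  · -- small balls in the collar
    intro y hy
    rw [Finset.mem_filter] at hy
    obtain ⟨-, p, ⟨hp1, hp2⟩, hpy⟩ := hy
    intro z hz
    rw [Finset.mem_sdiff]
    have hyp := ball_symm hpy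
    have hzp : z ∈ ball p (n + (K * n + 2)) := ball_trans hyp hz le_rfl
    have hsum : n + (K * n + 2) ≤ e - 1 := by
      have : (K + 1) * n = K * n + n := by ring
      omega
    constructor
    · exact nb_ball hp1 hzp (by omega)
    · intro hzr
      exact hp2 (nb_ball hzr (ball_symm hzp) (by omega))
  · -- blocking
    intro S' hS' u hu v hv hp
    have hu' : u ∈ ((nb K0 (r + e - 1) : Finset P2) : Set P2) := nb_mono (by omega) hu
    have hv' : v ∉ ((nb K0 (r + e - 1) : Finset P2) : Set P2) := fun h =>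
      hv (nb_mono (by omega) (Finset.mem_coe.1 h))
    obtain ⟨b, p, hb, hpn, hbp, hup⟩ := first_exit hp hu' hv'
    have hp1 : p ∈ nb K0 (r + e) := by
      have := adj_nb (Finset.mem_coe.1 hb) hbp
      rwa [show r + e - 1 + 1 = r + e by omega] at this
    have hp2 : p ∉ nb K0 (r + e - 1) := fun h => hpn (Finset.mem_coe.2 h)
    -- a centre near `p`
    have hpa : p ∈ ball a (2 * (R * s)) := by
      obtain ⟨k, hk, hpk⟩ := mem_nb.1 hp1
      exact ball_trans (hK0 hk) hpk (by omega)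
    have hpZ := hZ hpa
    rw [Finset.mem_biUnion] at hpZ
    obtain ⟨y, hyZ, hpy⟩ := hpZ
    have hyS : y ∈ Z.filter fun y => ∃ p ∈ lv, p ∈ ball y n :=
      Finset.mem_filter.2 ⟨hyZ, p, ⟨hp1, hp2⟩, hpy⟩
    refine hS' y hyS u p ?_ hpy hup
    intro huy
    -- `u` would be too close to `p`
    have h1 : p ∈ ball u (2 * n + n) := ball_trans (ball_symm huy) hpy le_rfl
    refine hp2 (nb_ball hu h1 ?_)
    have : n ≤ (K + 1) * n := Nat.le_mul_of_pos_left _ (by omega)
    have h2 : (K + 1) * n = K * n + n := by ring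
    have h3 : n ≤ K * n := Nat.le_mul_of_pos_left _ (by omega)
    omega

/-- 867's Prop `COV` -/
theorem cov_prop {K : ℕ} (hK : 1 ≤ K) : Cu867.COV K := by
  intro R w hR hw
  obtain ⟨J, s0, h⟩ := cov2 R K w hR hK hw
  refine ⟨J, s0, fun s hs a K0 _ hK0 r d hrd hsd => ?_⟩
  obtain ⟨n, hn, hsn, S, hS, hb, hc⟩ := h s hs a K0 hK0 r d hrd hsd
  exact ⟨n, S, hn, hsn, hS, fun y hy => (ball_mono y (by omega)).trans (hb y hy), hc⟩

end Crest.Agent.R144.Cov2792
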