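import Crest.Agent.R144.Cmp2_880

/-!
# R144, two-patch density (helper435), part 0: the interface `LAYF`

`LAYF c` : for the maximal laws `E c F`, `F` large, and every `0 ≤ f ≤ 1` which does not see the collar
`nb K0 (2 s) \ nb K0 s`, `E f ≤ η + C E (f 1{plus-closed layer in the collar})`.
-/

set_option autoImplicit false

noncomputable section

namespace Crest.Agent.R144.Den435

open Crest.Agent.R144.It844 (P2)
open Crest.Agent.R144.Zg349 Crest.Agent.R144.Zd349 Crest.Agent.R144.Zm349 Crest.Agent.R144.Ze349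
open Crest.Agent.R144.Rsw867
open Crest.Agent.R144.CuP880 (nb)
open Crest.Agent.R144.Cmp880 (LayE)

/-- `f` does not see the heights in `Q` nor `z` on the triangles touching `Q` -/
def OffC (Q : Finset P2) (f : Cfg → ℝ) : Prop :=
  ∀ ω ω' : Cfg, (∀ v, v ∉ Q → ω.1 v = ω'.1 v) → (∀ t, (∀ v ∈ up t, v ∉ Q) → ω.2 t = ω'.2 t) →
    f ω = f ω'

/-- layers in one collar, uniformly -/
def LAYF (c : ℝ) : Prop := ∀ (R : ℕ) (η : ℝ), 0 < η → ∃ (C : ℝ) (R' s0 : ℕ), 0 < C ∧ ∀ s ≥ s0,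
  ∀ (a : P2) (K0 : Finset P2), K0.Nonempty → K0 ⊆ ball a (R * s) → ∀ F : Finset P2, SC F →
    ball a (R' * s) ⊆ F → ∀ f : Cfg → ℝ, (∀ ω, 0 ≤ f ω) → (∀ ω, f ω ≤ 1) →
      OffC (nb K0 (2 * s) \ nb K0 s) f →
        E c F f ≤ η + C * E c F (fun ω => f ω * ind (LayE (nb K0 s) (nb K0 (2 * s))) ω)

end Crest.Agent.R144.Den435
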