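import Crest.Agent.R144.Hf9_702

/-!
# R144, block HALF (helper702), part 10: from the F-type laws to the laws with data in `{-1, 0}`

* `ex_le_EI` : `ex x Λ 0 f ≤ EI x F Λ f` for increasing `f`, `upT Λ ⊆ F`;
* `ex_sq_le` : `E^ξ[X²] ≤ 4 E_F[Y²] + 5 (∑ w)²`, `ξ ∈ {-1, 0}`, `w ≥ 0`;
* `hf_ex` : **uniform second moments near the boundary for `ex x Λ ξ`**.
-/

set_option autoImplicit false
set_option linter.unusedVariables false

noncomputable section

namespace Crest.Agent.R144.Hf702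

open Finset Filter Topology MeasureTheory
open Crest.Agent.R144.It844 (P2 Lip Cst tw E3 E3_eq_tw lsm_E3 upT mem_upT ex wt Z conf mem_conf
  ex_mono_bc ex_neg ex_add_const holley lip_const ex_congr ex_mono ex_add ex_smul ex_const ex_nonneg)
open Crest.Agent.R161.Lsm375 (LSM)
open Crest.Agent.R144.Zg349 Crest.Agent.R144.Zk349 Crest.Agent.R144.Zd349
open Crest.Agent.R144.Zm349 hiding conf mem_conf wt Z
open Crest.Agent.R144.Pst967
open Crest.Agent.R144.Rsw867 hiding ball_zero_eq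

theorem iv_of_upT {Λ F : Finset P2} (h : upT Λ ⊆ F) : Λ ⊆ IV F := by
  intro v hv
  rw [mem_IV']
  intro t ht
  apply h
  rw [mem_upT]
  rw [Zg349.mem_up] at ht
  rcases ht with rfl | rfl | rfl
  · exact Or.inl hv
  · exact Or.inr (Or.inl hv)
  · exact Or.inr (Or.inr hv)

/-- **Upper comparison**: zero data against data free in `{0, 1}`. -/
theorem ex_le_EI {x : ℝ} (hx0 : 0 < x) (hx1 : x ≤ 1) {Λ F : Finset P2} (hΛ : upT Λ ⊆ F)
    {f : (P2 → ℤ) → ℝ} (hf : ∀ a b : P2 → ℤ, a ≤ b → f a ≤ f b) :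
    ex x Λ (fun _ => 0) f ≤ EI x F Λ f := by
  classical
  set μ : (P2 → ℤ) → ℝ := fun h => ∏ t ∈ F, E3 x h t with hμ
  have hμl : LSM μ := LSM.prod _ fun _ _ => lsm_E3 hx0.le hx1 _
  have e1 : ∀ h ∈ conf Λ (fun _ => 0), μ h = wt x Λ h := by
    intro h hh
    rw [mem_conf] at hh
    simp only [hμ, wt]
    rw [← Finset.prod_sdiff hΛ]
    have h1 : ∏ t ∈ F \ upT Λ, E3 x h t = 1 := by
      refine Finset.prod_eq_one fun t ht => ?_
      have ht' := (Finset.mem_sdiff.1 ht).2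
      rw [mem_upT] at ht'
      push Not at ht'
      rw [E3_eq_tw x hh.1]
      unfold tw
      rw [if_pos]
      exact ⟨by rw [hh.2 _ ht'.1, hh.2 _ ht'.2.1], by rw [hh.2 _ ht'.1, hh.2 _ ht'.2.2]⟩
    rw [h1, one_mul]
    exact Finset.prod_congr rfl fun t _ => E3_eq_tw x hh.1 t
  have e2 : ∀ h ∈ htsI F Λ, μ h = ∏ t ∈ F, tw x h t := fun h hh =>
    Finset.prod_congr rfl fun t _ => E3_eq_tw x (mem_htsI.1 hh).1.toLip t
  have z1 : ∑ h ∈ conf Λ (fun _ => 0), μ h = Z x Λ (fun _ => 0) := Finset.sum_congr rfl e1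
  have z2 : ∑ h ∈ htsI F Λ, μ h = SI x F Λ fun _ => 1 := by
    unfold SI
    exact Finset.sum_congr rfl fun h hh => by rw [e2 h hh, mul_one]
  have hl0 : Lip (fun _ : P2 => (0 : ℤ)) := lip_const 0
  have p1 := Crest.Agent.R144.It844.Z_pos hx0 hl0 (Λ := Λ)
  have key := holley hμl (conf Λ (fun _ => 0)) (htsI F Λ) (by rw [z1]; exact p1)
    (by rw [z2]; exact SI_one_pos x F Λ) (fun a ha b hb => ?_) (f := f) (fun a _ b _ h => hf a b h)
  · have l1 : ex x Λ (fun _ => 0) f =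
        (∑ a ∈ conf Λ (fun _ => 0), μ a * f a) / ∑ a ∈ conf Λ (fun _ => 0), μ a := by
      unfold ex
      rw [smul_eq_mul, inv_mul_eq_div, z1]
      congr 1
      exact Finset.sum_congr rfl fun h hh => by rw [e1 h hh, smul_eq_mul]
    have l2 : EI x F Λ f = (∑ b ∈ htsI F Λ, μ b * f b) / ∑ b ∈ htsI F Λ, μ b := by
      unfold EI
      rw [z2]
      congr 1
      unfold SI
      exact Finset.sum_congr rfl fun h hh => by rw [e2 h hh]
    rw [l1, l2]
    exact key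
  · rw [mem_conf] at ha
    rw [mem_htsI] at hb
    have hbL := hb.1.toLip
    refine ⟨mem_conf.2 ⟨ha.1.inf hbL, fun v hv => ?_⟩, mem_htsI.2 ⟨⟨fun t _ i j => ?_, fun v hv => ?_,
      fun v hv => ?_⟩, fun v hv => ?_⟩⟩
    · simp only [Pi.inf_apply, ha.2 v hv]
      rcases hb.2 v hv with h | h <;> rw [h] <;> decide
    · have hsup := ha.1.sup hbL
      rw [Crest.Agent.R144.It844.lip_iff] at hsup
      obtain ⟨h1, h2, h3⟩ := hsup t
      fin_cases i <;> fin_cases j <;>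
        simp only [Fin.zero_eta, Fin.mk_one, Fin.reduceFinMk, cr0, cr1, cr2, sub_self, abs_zero,
          zero_le_one] <;> first | assumption | (rw [abs_sub_comm]; assumption)
    · have hv' : v ∉ Λ := fun h => hv (iv_of_upT hΛ h)
      simp only [Pi.sup_apply, ha.2 v hv']
      rcases hb.2 v hv' with h | h <;> rw [h] <;> decide
    · have hv' : v ∉ Λ := fun h => hv (IV_sub_VF F (iv_of_upT hΛ h))
      simp only [Pi.sup_apply, ha.2 v hv', hb.1.off v hv]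
      decide
    · simp only [Pi.sup_apply, ha.2 v hv]
      rcases hb.2 v hv with h | h <;> rw [h] <;> decide

theorem Ln_mono {S : Finset P2} {w : P2 → ℝ} (hw : ∀ v, 0 ≤ w v) {a b : P2 → ℤ} (h : a ≤ b) :
    Ln S w a ≤ Ln S w b :=
  Finset.sum_le_sum fun v _ => mul_le_mul_of_nonneg_left (by exact_mod_cast h v) (hw v)

/-- **Second moments for data in `{-1, 0}`.** -/
theorem ex_sq_le {x : ℝ} (hx0 : 0 < x) (hx1 : x ≤ 1) {Λ F : Finset P2} (hΛ : upT Λ ⊆ F)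
    {ξ : P2 → ℤ} (hξ : ∀ v, ξ v = -1 ∨ ξ v = 0) {S : Finset P2} {w : P2 → ℝ} (hw : ∀ v, 0 ≤ w v) :
    ex x Λ ξ (fun h => Ln S w h ^ 2) ≤
      4 * EI x F Λ (fun h => Yn S w h ^ 2) + 5 * (∑ v ∈ S, w v) ^ 2 := by
  set W := ∑ v ∈ S, w v with hW
  have hW0 : 0 ≤ W := Finset.sum_nonneg fun v _ => hw v
  have hl0 : Lip (fun _ : P2 => (0 : ℤ)) := lip_const 0
  have hl1 : Lip (fun _ : P2 => (-1 : ℤ)) := lip_const (-1)
  have hlξ : Lip ξ := by
    intro u v _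
    rcases hξ u with h | h <;> rcases hξ v with h' | h' <;> rw [h, h'] <;> decide
  set pp : ℝ → ℝ := fun t => max t 0 ^ 2 with hpp
  have ppm : ∀ s t : ℝ, s ≤ t → pp s ≤ pp t := fun s t hst =>
    pow_le_pow_left₀ (le_max_right _ _) (max_le_max_right 0 hst) 2
  have ppl : ∀ t : ℝ, pp t ≤ t ^ 2 := fun t => by
    simp only [hpp]
    rcases le_total t 0 with h | h
    · rw [max_eq_right h]; nlinarith [sq_nonneg t]
    · rw [max_eq_left h]
  have split : ∀ t : ℝ, t ^ 2 = pp t + pp (-t) := fun t => by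
    simp only [hpp]
    rcases le_total t 0 with h | h
    · rw [max_eq_right h, max_eq_left (by linarith)]; ring
    · rw [max_eq_left h, max_eq_right (by linarith)]; ring
  -- upper part
  have u1 : ex x Λ ξ (fun h => pp (Ln S w h)) ≤ ex x Λ (fun _ => 0) (fun h => pp (Ln S w h)) :=
    ex_mono_bc hx0 hx1 hlξ hl0 (fun v _ => by rcases hξ v with h | h <;> rw [h] <;> decide)
      fun a _ b _ hab => ppm _ _ (Ln_mono hw hab)
  -- lower part
  have l1 : ex x Λ ξ (fun h => pp (-Ln S w h)) ≤ ex x Λ (fun _ => -1) (fun h => pp (-Ln S w h)) := by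
    have := ex_mono_bc hx0 hx1 hl1 hlξ (Λ := Λ) (f := fun h => -pp (-Ln S w h))
      (fun v _ => by rcases hξ v with h | h <;> rw [h] <;> decide)
      (fun a _ b _ hab => neg_le_neg (ppm _ _ (neg_le_neg (Ln_mono hw hab))))
    have e : ∀ τ : P2 → ℤ, ex x Λ τ (fun h => -pp (-Ln S w h)) = -ex x Λ τ (fun h => pp (-Ln S w h)) := by
      intro τ
      have := ex_smul (x := x) (Λ := Λ) (τ := τ) (-1 : ℝ) (fun h => pp (-Ln S w h))
      simp only [smul_eq_mul, neg_one_mul] at this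
      exact this
    rw [e, e] at this
    linarith
  have l2 : ex x Λ (fun _ => -1) (fun h => pp (-Ln S w h)) =
      ex x Λ (fun _ => 0) (fun h => pp (Ln S w h + W)) := by
    have h1 := ex_add_const x Λ (fun _ => (0 : ℤ)) (-1) (fun h => pp (-Ln S w h))
    simp only [zero_add] at h1
    rw [h1]
    have h2 := ex_neg x Λ (fun _ => (0 : ℤ)) (fun h => pp (-Ln S w (fun v => h v + -1)))
    simp only [neg_zero] at h2
    rw [h2]
    refine ex_congr fun h _ => ?_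
    show pp (-Ln S w (fun v => -h v + -1)) = pp (Ln S w h + W)
    congr 1
    unfold Ln
    rw [hW, ← Finset.sum_neg_distrib, ← Finset.sum_add_distrib]
    refine Finset.sum_congr rfl fun v _ => ?_
    push_cast
    ring
  have k1 := ex_le_EI hx0 hx1 hΛ (f := fun h => pp (Ln S w h)) fun a b hab => ppm _ _ (Ln_mono hw hab)
  have k2 := ex_le_EI hx0 hx1 hΛ (f := fun h => pp (Ln S w h + W)) fun a b hab =>
    ppm _ _ (by have := Ln_mono (S := S) hw hab; linarith)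
  have s1 : ex x Λ ξ (fun h => Ln S w h ^ 2) =
      ex x Λ ξ (fun h => pp (Ln S w h)) + ex x Λ ξ (fun h => pp (-Ln S w h)) := by
    rw [← ex_add]
    exact ex_congr fun h _ => split _
  have f1 : EI x F Λ (fun h => pp (Ln S w h)) + EI x F Λ (fun h => pp (Ln S w h + W)) ≤
      4 * EI x F Λ (fun h => Yn S w h ^ 2) + 5 * W ^ 2 := by
    rw [← EI_add, ← EI_smul, ← EI_const x F Λ (5 * W ^ 2), ← EI_add]
    refine EI_le fun h _ => ?_
    have hy := Yn_eq S w h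
    rw [← hW] at hy
    have a1 := ppl (Ln S w h)
    have a2 := ppl (Ln S w h + W)
    rw [hy]
    nlinarith [sq_nonneg (Ln S w h - W / 2 - W / 2), sq_nonneg (Ln S w h - W / 2 - 3 * W / 2)]
  rw [s1]
  linarith

/-- **(V), nonnegative weights, data in `{-1, 0}`.** -/
theorem hf_ex_pos {x : ℝ} (hx0 : 0 < x) (hx1 : x ≤ 1) {K : ℕ} {p : ℝ} (hR : RSW ((x ^ 2)⁻¹) K p)
    {P : Measure Hz} (hPS : PSq P)
    (hFL : ∀ f : Hz → ℝ, GObs f → FLim ((x ^ 2)⁻¹) f (∫ h, f h ∂P)) (A : ℕ) :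
    ∃ C : ℝ, 0 ≤ C ∧ ∀ n : ℕ, 1 ≤ n → ∀ (b : P2) (Λ F : Finset P2), SC F → upT Λ ⊆ F → b ∉ F →
      ∀ ξ : P2 → ℤ, (∀ v, ξ v = -1 ∨ ξ v = 0) → ∀ (S : Finset P2) (w : P2 → ℝ), S ⊆ Λ →
      InB b (n - 1) S → (∀ v, 0 ≤ w v) → (∀ v ∈ S, w v ≤ A / (n : ℝ) ^ 2) →
        ex x Λ ξ (fun h => Ln S w h ^ 2) ≤ C := by
  obtain ⟨C, hC, h⟩ := fvar_pos hx0 hx1 hR hPS hFL A
  refine ⟨4 * C + 5 * (9 * A) ^ 2, by positivity, fun n hn b Λ F hF hΛ hb ξ hξ S w hSΛ hS hw hwA => ?_⟩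
  have hnR : (1 : ℝ) ≤ n := by exact_mod_cast hn
  have hW0 : 0 ≤ ∑ v ∈ S, w v := Finset.sum_nonneg fun v _ => hw v
  have hWA : ∑ v ∈ S, w v ≤ 9 * A := by
    have h1 : ∑ v ∈ S, w v ≤ S.card • ((A : ℝ) / (n : ℝ) ^ 2) :=
      Finset.sum_le_card_nsmul _ _ _ hwA
    have h2 : (S.card : ℝ) ≤ (2 * n + 1) ^ 2 := by
      have h3 : S ⊆ ball b n := hS.sub.trans (ball_mono b (Nat.sub_le n 1))
      exact le_trans (by exact_mod_cast Finset.card_le_card h3) (card_ball_le b n)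
    rw [nsmul_eq_mul] at h1
    have h4 : (2 * (n : ℝ) + 1) ^ 2 ≤ 9 * (n : ℝ) ^ 2 := by nlinarith
    have h5 : (S.card : ℝ) * (A / (n : ℝ) ^ 2) ≤ (9 * (n : ℝ) ^ 2) * (A / (n : ℝ) ^ 2) :=
      mul_le_mul_of_nonneg_right (h2.trans h4) (by positivity)
    have h6 : (9 * (n : ℝ) ^ 2) * (A / (n : ℝ) ^ 2) = 9 * A := by field_simp
    linarith
  have hI := iv_of_upT hΛ
  have h1 := ex_sq_le hx0 hx1 hΛ hξ (S := S) hw
  have h2 : EI x F Λ (fun h => Yn S w h ^ 2) ≤ EI x F (IV F) (fun h => Yn S w h ^ 2) :=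
    EI_mono hx0.le hx1 (Finset.Subset.refl F) hI (Finset.Subset.refl _) hI
      (Yn_sq_inc ((hSΛ.trans hI).trans (IV_sub_VF F)) hw)
  have h3 : EI x F (IV F) (fun h => Yn S w h ^ 2) ≤ C := by
    rw [EI_self, ← E_eq_EH hx0.ne']
    exact h n hn b S w hS hw hwA F hF hb
  have h4 : (∑ v ∈ S, w v) ^ 2 ≤ (9 * (A : ℝ)) ^ 2 := pow_le_pow_left₀ hW0 hWA 2
  linarith

/-- **(V): uniform second moments near the boundary, data in `{-1, 0}`, signed weights.** -/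
theorem hf_ex {x : ℝ} (hx0 : 0 < x) (hx1 : x ≤ 1) {K : ℕ} {p : ℝ} (hR : RSW ((x ^ 2)⁻¹) K p)
    {P : Measure Hz} (hPS : PSq P)
    (hFL : ∀ f : Hz → ℝ, GObs f → FLim ((x ^ 2)⁻¹) f (∫ h, f h ∂P)) (A : ℕ) :
    ∃ C : ℝ, 0 ≤ C ∧ ∀ n : ℕ, 1 ≤ n → ∀ (b : P2) (Λ F : Finset P2), SC F → upT Λ ⊆ F → b ∉ F →
      ∀ ξ : P2 → ℤ, (∀ v, ξ v = -1 ∨ ξ v = 0) → ∀ (S : Finset P2) (w : P2 → ℝ), S ⊆ Λ →
      InB b (n - 1) S → (∀ v ∈ S, |w v| ≤ A / (n : ℝ) ^ 2) →
        ex x Λ ξ (fun h => Ln S w h ^ 2) ≤ C := by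
  obtain ⟨C, hC, h⟩ := hf_ex_pos hx0 hx1 hR hPS hFL A
  refine ⟨4 * C, by positivity, fun n hn b Λ F hF hΛ hb ξ hξ S w hSΛ hS hwA => ?_⟩
  have hA : (0 : ℝ) ≤ A / (n : ℝ) ^ 2 := by positivity
  have h1 := h n hn b Λ F hF hΛ hb ξ hξ S (fun v => max (w v) 0) hSΛ hS (fun v => le_max_right _ _)
    fun v hv => max_le ((le_abs_self _).trans (hwA v hv)) hA
  have h2 := h n hn b Λ F hF hΛ hb ξ hξ S (fun v => max (-w v) 0) hSΛ hS (fun v => le_max_right _ _)
    fun v hv => max_le ((neg_le_abs _).trans (hwA v hv)) hA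
  have e : ∀ h : P2 → ℤ, Ln S w h =
      Ln S (fun v => max (w v) 0) h - Ln S (fun v => max (-w v) 0) h := by
    intro h
    unfold Ln
    rw [← Finset.sum_sub_distrib]
    refine Finset.sum_congr rfl fun v _ => ?_
    have : w v = max (w v) 0 - max (-w v) 0 := by
      rcases le_total (w v) 0 with h | h
      · rw [max_eq_right h, max_eq_left (by linarith)]; ring
      · rw [max_eq_left h, max_eq_right (by linarith)]; ring
    rw [← sub_mul, ← this]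
  calc ex x Λ ξ (fun h => Ln S w h ^ 2)
      ≤ ex x Λ ξ (fun h => (2 : ℝ) • (Ln S (fun v => max (w v) 0) h ^ 2) +
          (2 : ℝ) • (Ln S (fun v => max (-w v) 0) h ^ 2)) := by
        refine ex_mono fun g _ => ?_
        rw [e g]
        simp only [smul_eq_mul]
        nlinarith [sq_nonneg (Ln S (fun v => max (w v) 0) g + Ln S (fun v => max (-w v) 0) g)]
    _ = 2 * ex x Λ ξ (fun h => Ln S (fun v => max (w v) 0) h ^ 2) +
          2 * ex x Λ ξ (fun h => Ln S (fun v => max (-w v) 0) h ^ 2) := by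
        rw [ex_add, ex_smul, ex_smul, smul_eq_mul, smul_eq_mul]
    _ ≤ _ := by linarith

end Crest.Agent.R144.Hf702
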