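import Crest.Agent.R144.Tig2_425
import Crest.Agent.R144.Hf10_702
import Crest.Agent.R144.Rw2_146

/-!
# R144, integer chain S5 (contiguity), block TIGHT, part 3: uniform tightness of the heights (helper425)

`RSW ((x^2)⁻¹) K p`, `0 < x ≤ 1`.  For `A : ℕ`, `ε > 0` there is `M`, such that for all `n ≥ 1`, all `o`, `a`:
* `tight_hi` : `Λ ⊆ ball o (A n)`, `τ ≤ 1` off `Λ`: a layer of `{h < M}` separates `ball a n` from the outside of
  `ball a (2 n)` with probability `≥ 1 - ε` under `ex x Λ τ`;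
* `tight_lo` : the same for `τ ≥ -1` and `{h > -M}`;
* `tight_F` : the same for `E c F`, `F ⊆ ball o (A n)`, `{-M < h < M}`.
No connectivity of `Λ`, `F` is needed.  (`tight_hi'`, `tight_lo'`, `tight_F'`: every `M ≥ M0`.)
-/

set_option autoImplicit false
set_option linter.unusedSectionVars false
set_option linter.unusedVariables false

noncomputable section

namespace Crest.Agent.R144.Tig425

open Finset
open Crest.Agent.R144.It844 (P2 adj_symm adj_iff adj_comm Lip ex pr upT mem_upT ex_mono_bc ex_neg ex_add_const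
  lip_const ex_congr ex_mono mem_conf)
open Crest.ProbabilityR.HexHeights (Adj)
open Crest.Agent.R144.Zg349 Crest.Agent.R144.Zd349
open Crest.Agent.R144.Zm349 hiding conf mem_conf wt Z pr
open Crest.Agent.R144.Rsw867
open Crest.Agent.R144.Hf702 (kof EH SH Inc MPos E_eq_EH EH_mono EH_congr EH_le EI htsI mem_htsI EI_mono EI_self
  EI_le EH_const ex_le_EI iv_of_upT)

/-! ### small scales: deterministic bound -/

theorem VF_ball {o v : P2} {N : ℕ} (h : v ∈ VF (ball o N)) : v ∈ ball o (N + 1) := by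
  obtain ⟨t, ht, hvt⟩ := mem_VF.1 h
  rw [mem_ball] at ht ⊢
  obtain ⟨h1, h2, h3⟩ := ht
  rw [abs_le] at h1 h2 h3
  simp only [abs_le]
  push_cast
  obtain ⟨x, y⟩ := t
  rcases mem_up.1 hvt with e | e | e <;> subst e <;> dsimp only at * <;> omega

theorem kof_ball {o : P2} {N : ℕ} {h : P2 → ℤ} (hh : HV (ball o N) h) (v : P2) : kof (h v) ≤ 2 * N + 3 := by
  by_cases hv : v ∈ VF (ball o N)
  · have h1 := hh.toLip.row v (2 * N + 3)
    have h2 : (v.1 + ((2 * N + 3 : ℕ) : ℤ), v.2) ∉ VF (ball o N) := by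
      intro hc
      have h3 := mem_ball.1 (VF_ball hc)
      have h4 := mem_ball.1 (VF_ball hv)
      obtain ⟨a1, -, -⟩ := h3
      obtain ⟨b1, -, -⟩ := h4
      rw [abs_le] at a1 b1
      push_cast at a1 b1
      omega
    rw [hh.off _ h2, sub_zero, abs_le] at h1
    push_cast at h1
    unfold kof
    split_ifs <;> omega
  · rw [hh.off v hv, kof_zero]
    omega

theorem X_small {o : P2} {N m R : ℕ} (hm : 2 * N + 4 ≤ m) {h : P2 → ℤ} (hh : HV (ball o N) h) :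
    ¬ X m R h := by
  rintro ⟨u, v, h1, h2⟩
  have h3 : m ≤ kof (h u) := start_in h1 h2
  have := kof_ball hh u
  omega

/-! ### the cover -/

open Crest.Agent.R144.Rw146 in
theorem cover (A : ℕ) (o : P2) {n s : ℕ} (hs : 1 ≤ s) (hn : n ≤ 15 * s) :
    ∃ Y : Finset P2, Y.card ≤ (2 * (15 * A + 1) + 1) ^ 2 ∧ ∀ t ∈ ball o (A * n), ∃ y ∈ Y, t ∈ ball y (2 * s) := by
  classical
  set L : ℕ := 15 * A + 1 with hL
  set B : Finset P2 := Finset.Icc (-(L : ℤ)) L ×ˢ Finset.Icc (-(L : ℤ)) L with hB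
  refine ⟨B.image (gp o s), ?_, fun t ht => ?_⟩
  · refine Finset.card_image_le.trans ?_
    rw [hB, Finset.card_product, Int.card_Icc]
    have : (L + 1 - (-(L : ℤ))).toNat = 2 * L + 1 := by omega
    rw [this]
    exact le_of_eq (by ring)
  · obtain ⟨k, h1, -, h3, h4⟩ := exists_gp hs ht
    have hs' : (0 : ℤ) < s := by exact_mod_cast hs
    have key : ∀ z : ℤ, (s : ℤ) * |z| ≤ ((A * n : ℕ) : ℤ) + s → |z| ≤ L := by
      intro z hz
      have h5 : ((A * n : ℕ) : ℤ) ≤ 15 * A * s := by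
        push_cast
        have : (n : ℤ) ≤ 15 * s := by exact_mod_cast hn
        nlinarith
      have h6 : (s : ℤ) * |z| ≤ s * (15 * A + 1) := by nlinarith
      have h7 := le_of_mul_le_mul_left h6 hs'
      rw [hL]
      push_cast
      exact h7
    refine ⟨gp o s k, Finset.mem_image.2 ⟨k, ?_, rfl⟩, h1⟩
    rw [hB, Finset.mem_product, Finset.mem_Icc, Finset.mem_Icc]
    exact ⟨abs_le.1 (key _ h3), abs_le.1 (key _ h4)⟩

/-! ### uniform bound in hexagonal balls -/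

/-- **uniform tightness in balls**, `|h - 1/2|` form -/
theorem X_unif {x : ℝ} (hx0 : 0 < x) (hx1 : x ≤ 1) {K : ℕ} {p : ℝ} (hR : RSW ((x ^ 2)⁻¹) K p) (A : ℕ)
    {ε : ℝ} (hε : 0 < ε) : ∃ M0 : ℕ, ∀ M, M0 ≤ M → ∀ n : ℕ, 1 ≤ n → ∀ o : P2,
      EH x (ball o (A * n)) (iX M n) ≤ ε := by
  have hp0 := hR.p0
  have hp1 := hR.p1
  set J : ℕ := (2 * (15 * A + 1) + 1) ^ 2 with hJ
  have hq0 : 0 < p ^ J := pow_pos hp0 _
  have hq1 : p ^ J ≤ 1 := pow_le_one₀ hp0.le (by linarith)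
  obtain ⟨j, hj⟩ := exists_pow_lt_of_lt_one hε (show 1 - p ^ J < 1 by linarith)
  refine ⟨max (2 * j + 1) (14 * A + 4), fun M hM n hn o => ?_⟩
  have hM1 : 2 * j + 1 ≤ M := (le_max_left _ _).trans hM
  have hM2 : 14 * A + 4 ≤ M := (le_max_right _ _).trans hM
  by_cases h8 : 8 ≤ n
  · have hs : 1 ≤ n / 8 := by omega
    obtain ⟨Y, hY1, hY2⟩ := cover A o (n := n) (s := n / 8) hs (by omega)
    have h1 := X_iter hx0 hx1 hR (sc_ball o (A * n)) (Y := Y) (s := 2 * (n / 8)) (R := n) (by omega)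
      (by omega) hY2 j
    rw [E_eq_EH hx0.ne' _ (iX (2 * j + 1) n)] at h1
    have h2 : EH x (ball o (A * n)) (iX M n) ≤ EH x (ball o (A * n)) (iX (2 * j + 1) n) :=
      EH_le fun h _ => by
        unfold iX
        by_cases H : X M n h
        · rw [if_pos H, if_pos (H.anti hM1)]
        · rw [if_neg H]; split_ifs <;> norm_num
    have h3 : (1 - p ^ Y.card) ^ j ≤ (1 - p ^ J) ^ j := by
      have h4 : p ^ J ≤ p ^ Y.card := pow_le_pow_of_le_one hp0.le (by linarith) hY1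
      have h5 : p ^ Y.card ≤ 1 := pow_le_one₀ hp0.le (by linarith)
      exact pow_le_pow_left₀ (by linarith) (by linarith) j
    linarith
  · have h1 : EH x (ball o (A * n)) (iX M n) ≤ EH x (ball o (A * n)) (fun _ => 0) := EH_le fun h hh => by
      unfold iX
      rw [if_neg]
      refine X_small ?_ hh
      have : A * n ≤ A * 7 := Nat.mul_le_mul_left A (by omega)
      omega
    rw [EH_const] at h1
    linarith

/-! ### separating layers -/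

/-- a site of `ball a n` and a site off `ball a (2 n)` are at distance more than `n` -/
theorem far_pt {a u v : P2} {n : ℕ} (hu : u ∉ ball a (2 * n)) (hv : v ∈ ball a n) : v ∉ ball u n := by
  intro h
  apply hu
  rw [mem_ball] at *
  obtain ⟨a1, a2, a3⟩ := hv
  obtain ⟨b1, b2, b3⟩ := h
  rw [abs_le] at *
  simp only [abs_le]
  push_cast at *
  omega

theorem X_of_not_sepr {S : Set P2} {a : P2} {n m : ℕ} {h : P2 → ℤ} (hs : ¬ Sepr S a n (2 * n))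
    (hS : ∀ v, v ∉ S → m ≤ kof (h v)) : X m n h := by
  unfold Sepr at hs
  push Not at hs
  obtain ⟨u, v, hu, hv, hp⟩ := hs
  exact ⟨u, v, far_pt hu hv, path_mono (fun w hw => hS w hw) hp⟩

theorem upT_ball {Λ : Finset P2} {o : P2} {A n : ℕ} (hn : 1 ≤ n) (h : Λ ⊆ ball o (A * n)) :
    upT Λ ⊆ ball o ((A + 1) * n) := by
  intro t ht
  have h0 : A * n + 1 ≤ (A + 1) * n := by nlinarith
  have key : t ∈ ball o (A * n + 1) := by
    rw [mem_upT] at ht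
    rcases ht with h1 | h1 | h1
    · exact ball_mono o (Nat.le_succ _) (h h1)
    · exact adj_ball (h h1) (by rw [adj_iff]; simp)
    · exact adj_ball (h h1) (by rw [adj_iff]; simp)
  exact ball_mono o h0 key

open Classical in
/-- indicator of the absence of a separating layer below height `M` -/
def nL (M : ℤ) (a : P2) (n : ℕ) (h : P2 → ℤ) : ℝ := if ¬ Sepr {v | h v < M} a n (2 * n) then 1 else 0

theorem nL_mono {M : ℤ} {a : P2} {n : ℕ} {g h : P2 → ℤ} (hgh : g ≤ h) : nL M a n g ≤ nL M a n h := by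
  unfold nL
  by_cases H : ¬ Sepr {v | g v < M} a n (2 * n)
  · rw [if_pos H, if_pos]
    exact fun hs => H (Sepr.mono (fun v hv => lt_of_le_of_lt (hgh v) hv) hs)
  · rw [if_neg H]; split_ifs <;> norm_num

theorem pr_eq_nL {x : ℝ} {Λ : Finset P2} {τ : P2 → ℤ} (M : ℤ) (a : P2) (n : ℕ) :
    pr x Λ τ {h | ¬ Sepr {v | h v < M} a n (2 * n)} = ex x Λ τ (nL M a n) := by
  unfold It844.pr nL
  exact ex_congr fun h _ => by
    by_cases H : ¬ Sepr {v | h v < M} a n (2 * n)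
    · rw [if_pos H, if_pos (show h ∈ {h | ¬ Sepr {v | h v < M} a n (2 * n)} from H)]
    · rw [if_neg H, if_neg (show h ∉ {h | ¬ Sepr {v | h v < M} a n (2 * n)} from H)]

/-- **TIGHT, upper side**, every `M ≥ M0`. -/
theorem tight_hi' {x : ℝ} (hx0 : 0 < x) (hx1 : x ≤ 1) {K : ℕ} {p : ℝ} (hR : RSW ((x ^ 2)⁻¹) K p) (A : ℕ)
    {ε : ℝ} (hε : 0 < ε) : ∃ M0 : ℕ, ∀ M : ℕ, M0 ≤ M → ∀ n : ℕ, 1 ≤ n → ∀ (o a : P2) (Λ : Finset P2),
      Λ ⊆ ball o (A * n) → ∀ τ : P2 → ℤ, Lip τ → (∀ v, v ∉ Λ → τ v ≤ 1) →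
        pr x Λ τ {h | ¬ Sepr {v | h v < M} a n (2 * n)} ≤ ε := by
  obtain ⟨M1, hM1⟩ := X_unif hx0 hx1 hR (A + 1) hε
  refine ⟨M1 + 3, fun M hM n hn o a Λ hΛ τ hτ hτ1 => ?_⟩
  rw [pr_eq_nL]
  have hl1 : Lip (fun _ : P2 => (1 : ℤ)) := lip_const 1
  have s1 : ex x Λ τ (nL M a n) ≤ ex x Λ (fun _ => 1) (nL M a n) :=
    ex_mono_bc hx0 hx1 hτ hl1 hτ1 fun g _ h _ hgh => nL_mono hgh
  have s2 : ex x Λ (fun _ => 1) (nL M a n) =
      ex x Λ (fun _ => 0) (fun h => nL M a n (fun v => h v + 1)) := by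
    have := ex_add_const x Λ (fun _ => (0 : ℤ)) 1 (nL M a n)
    simp only [zero_add] at this
    exact this
  have hU := upT_ball hn hΛ
  have s3 := ex_le_EI hx0 hx1 hU (f := fun h => nL M a n (fun v => h v + 1)) fun g h hgh =>
    nL_mono fun v => add_le_add_left (hgh v) 1
  have s4 : EI x (ball o ((A + 1) * n)) Λ (fun h => nL M a n (fun v => h v + 1)) ≤
      EI x (ball o ((A + 1) * n)) Λ (iX (M - 2) n) := EI_le fun h _ => by
    unfold nL iX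
    by_cases H : ¬ Sepr {v | h v + 1 < M} a n (2 * n)
    · rw [if_pos H, if_pos]
      refine X_of_not_sepr H fun v hv => ?_
      have hv' : ¬ h v + 1 < M := hv
      unfold kof
      split_ifs <;> omega
    · rw [if_neg H]; split_ifs <;> norm_num
  have s5 : EI x (ball o ((A + 1) * n)) Λ (iX (M - 2) n) ≤
      EH x (ball o ((A + 1) * n)) (iX (M - 2) n) :=
    EI_X_le hx0.le hx1 (iv_of_upT hU) (by omega)
  have s6 := hM1 (M - 2) (by omega) n hn o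
  linarith

/-- **TIGHT, upper side.** -/
theorem tight_hi {x : ℝ} (hx0 : 0 < x) (hx1 : x ≤ 1) {K : ℕ} {p : ℝ} (hR : RSW ((x ^ 2)⁻¹) K p) (A : ℕ)
    {ε : ℝ} (hε : 0 < ε) : ∃ M : ℕ, ∀ n : ℕ, 1 ≤ n → ∀ (o a : P2) (Λ : Finset P2),
      Λ ⊆ ball o (A * n) → ∀ τ : P2 → ℤ, Lip τ → (∀ v, v ∉ Λ → τ v ≤ 1) →
        pr x Λ τ {h | ¬ Sepr {v | h v < M} a n (2 * n)} ≤ ε := by
  obtain ⟨M, hM⟩ := tight_hi' hx0 hx1 hR A hε
  exact ⟨M, hM M le_rfl⟩

/-- reflection of a probability -/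
theorem pr_neg {x : ℝ} {Λ : Finset P2} {τ : P2 → ℤ} (Q : Set (P2 → ℤ)) :
    pr x Λ (fun v => -τ v) Q = pr x Λ τ {h | (fun v => -h v) ∈ Q} := by
  classical
  unfold It844.pr
  have h := ex_neg x Λ τ (fun h => if h ∈ Q then (1 : ℝ) else 0)
  have e1 : ∀ (i j : DecidablePred fun h : P2 → ℤ => h ∈ Q) (h : P2 → ℤ),
      (@ite ℝ (h ∈ Q) (i h) 1 0) = @ite ℝ (h ∈ Q) (j h) 1 0 := fun i j h => by
    congr
  rw [ex_congr (fun h _ => e1 _ _ h), h]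
  exact ex_congr fun h _ => by
    by_cases H : (fun v => -h v) ∈ Q
    · rw [if_pos H, if_pos (show h ∈ {h : P2 → ℤ | (fun v => -h v) ∈ Q} from H)]
    · rw [if_neg H, if_neg (show h ∉ {h : P2 → ℤ | (fun v => -h v) ∈ Q} from H)]

/-- **TIGHT, lower side**, every `M ≥ M0`. -/
theorem tight_lo' {x : ℝ} (hx0 : 0 < x) (hx1 : x ≤ 1) {K : ℕ} {p : ℝ} (hR : RSW ((x ^ 2)⁻¹) K p) (A : ℕ)
    {ε : ℝ} (hε : 0 < ε) : ∃ M0 : ℕ, ∀ M : ℕ, M0 ≤ M → ∀ n : ℕ, 1 ≤ n → ∀ (o a : P2) (Λ : Finset P2),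
      Λ ⊆ ball o (A * n) → ∀ τ : P2 → ℤ, Lip τ → (∀ v, v ∉ Λ → 0 ≤ τ v + 1) →
        pr x Λ τ {h | ¬ Sepr {v | -(M : ℤ) < h v} a n (2 * n)} ≤ ε := by
  obtain ⟨M0, hM0⟩ := tight_hi' hx0 hx1 hR A hε
  refine ⟨M0, fun M hM n hn o a Λ hΛ τ hτ hτ1 => ?_⟩
  have h1 := hM0 M hM n hn o a Λ hΛ (fun v => -τ v) hτ.neg fun v hv => by
    have := hτ1 v hv
    omega
  rw [pr_neg] at h1
  have e : {h : P2 → ℤ | ¬ Sepr {v | -(M : ℤ) < h v} a n (2 * n)} =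
      {h : P2 → ℤ | (fun v => -h v) ∈ {h : P2 → ℤ | ¬ Sepr {v | h v < (M : ℤ)} a n (2 * n)}} := by
    ext h
    show ¬ Sepr {v | -(M : ℤ) < h v} a n (2 * n) ↔ ¬ Sepr {v | -h v < (M : ℤ)} a n (2 * n)
    have : {v : P2 | -(M : ℤ) < h v} = {v : P2 | -h v < (M : ℤ)} := by
      ext v
      show -(M : ℤ) < h v ↔ -h v < (M : ℤ)
      omega
    rw [this]
  rw [e]
  exact h1

/-- **TIGHT, lower side.** -/
theorem tight_lo {x : ℝ} (hx0 : 0 < x) (hx1 : x ≤ 1) {K : ℕ} {p : ℝ} (hR : RSW ((x ^ 2)⁻¹) K p) (A : ℕ)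
    {ε : ℝ} (hε : 0 < ε) : ∃ M : ℕ, ∀ n : ℕ, 1 ≤ n → ∀ (o a : P2) (Λ : Finset P2),
      Λ ⊆ ball o (A * n) → ∀ τ : P2 → ℤ, Lip τ → (∀ v, v ∉ Λ → 0 ≤ τ v + 1) →
        pr x Λ τ {h | ¬ Sepr {v | -(M : ℤ) < h v} a n (2 * n)} ≤ ε := by
  obtain ⟨M, hM⟩ := tight_lo' hx0 hx1 hR A hε
  exact ⟨M, hM M le_rfl⟩

/-- **TIGHT, F-type laws**, every `M ≥ M0`. -/
theorem tight_F' {x : ℝ} (hx0 : 0 < x) (hx1 : x ≤ 1) {K : ℕ} {p : ℝ} (hR : RSW ((x ^ 2)⁻¹) K p) (A : ℕ)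
    {ε : ℝ} (hε : 0 < ε) : ∃ M0 : ℕ, ∀ M : ℕ, M0 ≤ M → ∀ n : ℕ, 1 ≤ n → ∀ (o a : P2) (F : Finset P2),
      F ⊆ ball o (A * n) →
        E ((x ^ 2)⁻¹) F (ind {ω | ¬ Sepr {v | -(M : ℤ) < ω.1 v ∧ ω.1 v < M} a n (2 * n)}) ≤ ε := by
  classical
  obtain ⟨M1, hM1⟩ := X_unif hx0 hx1 hR A hε
  have hc : 1 ≤ (x ^ 2)⁻¹ := (one_le_inv₀ (by positivity)).2 (pow_le_one₀ hx0.le hx1)
  refine ⟨M1 + 2, fun M hM n hn o a F hF => ?_⟩
  have s1 : E ((x ^ 2)⁻¹) F (ind {ω | ¬ Sepr {v | -(M : ℤ) < ω.1 v ∧ ω.1 v < M} a n (2 * n)}) ≤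
      E ((x ^ 2)⁻¹) F (fun ω => iX (M - 1) n ω.1) := E_mono hc fun ω _ => by
    unfold iX
    by_cases H : ω ∈ {ω : Cfg | ¬ Sepr {v | -(M : ℤ) < ω.1 v ∧ ω.1 v < M} a n (2 * n)}
    · rw [ind_of_mem H, if_pos]
      have H' : ¬ Sepr {v | -(M : ℤ) < ω.1 v ∧ ω.1 v < M} a n (2 * n) := H
      refine X_of_not_sepr H' fun v hv => ?_
      have hv' : ¬ (-(M : ℤ) < ω.1 v ∧ ω.1 v < M) := hv
      unfold kof
      split_ifs <;> omega
    · rw [ind_of_not_mem H]; split_ifs <;> norm_num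
  rw [E_eq_EH hx0.ne' F (iX (M - 1) n)] at s1
  have s2 := EH_X_mono hx0.le hx1 hF (m := M - 1) (R := n) (by omega)
  have s3 := hM1 (M - 1) (by omega) n hn o
  linarith

/-- **TIGHT, F-type laws.** -/
theorem tight_F {x : ℝ} (hx0 : 0 < x) (hx1 : x ≤ 1) {K : ℕ} {p : ℝ} (hR : RSW ((x ^ 2)⁻¹) K p) (A : ℕ)
    {ε : ℝ} (hε : 0 < ε) : ∃ M : ℕ, ∀ n : ℕ, 1 ≤ n → ∀ (o a : P2) (F : Finset P2),
      F ⊆ ball o (A * n) →
        E ((x ^ 2)⁻¹) F (ind {ω | ¬ Sepr {v | -(M : ℤ) < ω.1 v ∧ ω.1 v < M} a n (2 * n)}) ≤ ε := by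
  obtain ⟨M, hM⟩ := tight_F' hx0 hx1 hR A hε
  exact ⟨M, hM M le_rfl⟩

end Crest.Agent.R144.Tig425
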