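import Crest.Agent.R144.Lyf2_792
import Crest.Agent.R144.Den0_435
import Crest.Agent.R144.Cov2_792
import Crest.Agent.R144.Clb3_617
import Crest.Agent.R144.Tig3_425

/-!
# R144, S5: `CU x` and `LAYF (x²)⁻¹` from `RSW` (helper792)

All inputs of 867's `cu` : `climb_prop` (617), `cov_prop` (792), `tight_hi` (425).
-/

set_option autoImplicit false

noncomputable section

namespace Crest.Agent.R144.Lyf792

open Crest.Agent.R144.It844 (P2 Lip)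
open Crest.Agent.R144.Zd349 (Cfg)
open Crest.Agent.R144.Rsw867 (RSW ball Sepr ind)

theorem tightHi {x : ℝ} (hx0 : 0 < x) (hx1 : x ≤ 1) {K : ℕ} {p : ℝ} (hR : RSW ((x ^ 2)⁻¹) K p) :
    Cu867.TightHi x := by
  intro A ε hε
  obtain ⟨M, h⟩ := Tig425.tight_hi hx0 hx1 hR A hε
  refine ⟨M, fun n hn o a Λ hΛ τ hτ hb => ?_⟩
  refine le_trans (le_of_eq ?_) (h n hn o a Λ hΛ τ hτ hb)
  rw [pr_hI]
  rfl

theorem cu0 {x : ℝ} (hx0 : 0 < x) (hx1 : x ≤ 1) {K : ℕ} {p : ℝ} (hR : RSW ((x ^ 2)⁻¹) K p) :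
    Cu867.CU0 x :=
  Cu867.cu0 hx0 hx1 (half_pos hR.p0) (by linarith [hR.p1]) (Clb617.climb_prop hx0 hx1 hR)
    (by have := hR.K4; omega) (Cov2792.cov_prop (by have := hR.K4; omega)) (tightHi hx0 hx1 hR)

theorem cu {x : ℝ} (hx0 : 0 < x) (hx1 : x ≤ 1) {K : ℕ} {p : ℝ} (hR : RSW ((x ^ 2)⁻¹) K p) :
    Cu867.CU x :=
  Cu867.cu hx0 hx1 (half_pos hR.p0) (by linarith [hR.p1]) (Clb617.climb_prop hx0 hx1 hR)
    (by have := hR.K4; omega) (Cov2792.cov_prop (by have := hR.K4; omega)) (tightHi hx0 hx1 hR)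

/-- 880's `CU` -/
theorem cuP {x : ℝ} (hx0 : 0 < x) (hx1 : x ≤ 1) {K : ℕ} {p : ℝ} (hR : RSW ((x ^ 2)⁻¹) K p) :
    CuP880.CU x := cuP_of_cu (cu hx0 hx1 hR)

/-- **435's `LAYF`.** -/
theorem layf {x : ℝ} (hx0 : 0 < x) (hx1 : x ≤ 1) {K : ℕ} {p : ℝ} (hR : RSW ((x ^ 2)⁻¹) K p) :
    Den435.LAYF ((x ^ 2)⁻¹) := layf_of_cu867 hx0 hx1 hR (cu hx0 hx1 hR)

end Crest.Agent.R144.Lyf792
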