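import Crest.Agent.R144.Cd1_169
import Crest.Agent.R144.Den2_435
import Crest.Agent.R144.Lyf3_792
import Crest.Agent.R144.Lev2_830
import Crest.Agent.R144.Ca1_867
import Crest.Agent.R144.Gi2_643

/-!
# R144 (CCW, cell theorem), step A for the strips `gp` (helper169)

`stepA` : for functions `Y` of the gradients over the two layers of the strip, `|Y| ≤ 1`,
`|∫ XX(δ n) u * Y| ≤ ε` for all large `n` (helper435's `joint_seq3`, the density bound `ui_rct`, helper830's levels,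
helper867's / helper643's `a1_inst`).
-/

set_option autoImplicit false
set_option linter.unusedSectionVars false
set_option linter.unusedSimpArgs false

noncomputable section

namespace Crest.Agent.R144.Cd169

open Finset Filter Topology MeasureTheory
open Crest.Agent.R144.It844 (P2 Lip adj_iff adj_symm nbhd)
open Crest.ProbabilityR.HexHeights (Adj centre)
open Crest.Agent.R144.Zg349 Crest.Agent.R144.Zk349 Crest.Agent.R144.Zd349 Crest.Agent.R144.Zm349
open Crest.Agent.R144.Ze349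
open Crest.Agent.R144.Pst967 (Hz LocZ NeutZ GObs toR measurable_toR)
open Crest.Agent.R144.HexTil353 (ca cb cen)
open Crest.Agent.R144.Cgeo311 (GP Box mem_Box col row)
open Crest.Agent.R144.Rsw867 (ball mem_ball)
open Crest.Agent.R144.Den435 (rct mem_rct)
open Crest.Agent.R144.Tp952
open Crest.Agent.R144.Cw643
open Crest.Agent.R144.Ps643 (lin lin_loc)
open Crest.Agent.R144.Gi643 (XX XX_eq XX_box wt_Dop exists_R Dop_ne_zero gobs_lin)
open Crest.Agent.R144.Ga5885 (Tst)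
open Crest.Agent.R144.Lev830 (lev lev_Lev lev_tight)
open Crest.Agent.R144.Ccw435 (Lev joint_seq3 ChgZ DLR pat pats)

/-! ### rectangles around the lower layer -/

/-- rectangle around the lower layer, enlarged by `e` -/
def rr (K L m : ℕ) (a : P2) (s e : ℕ) : Finset P2 :=
  rct (a.1 - (128 * (len K L m * s) + 2) - (e : ℤ)) (a.1 + (128 * (len K L m * s) + 2) + (e : ℤ))
    (a.2 - 512 * s - (e : ℤ)) (a.2 + (e : ℤ))

/-- contour -/
def Lc (K L m : ℕ) (a : P2) (s : ℕ) : Finset P2 := rr K L m a s (16 * s) \ rr K L m a s (8 * s)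

theorem mem_rr {K L m : ℕ} {a : P2} {s e : ℕ} {v : P2} : v ∈ rr K L m a s e ↔
    |v.1 - a.1| ≤ 128 * (len K L m * s : ℤ) + 2 + e ∧ -(512 * (s : ℤ)) - e ≤ v.2 - a.2 ∧
      v.2 - a.2 ≤ e := by
  unfold rr
  rw [mem_rct, abs_le]
  constructor
  · intro h; omega
  · intro h; omega

theorem disj_Lc (K L m : ℕ) (a : P2) (s : ℕ) : Disjoint (Lc K L m a s) (rr K L m a s (8 * s)) :=
  Finset.sdiff_disjoint

theorem nbhd_rr (K L m : ℕ) (a : P2) {s : ℕ} (hs : 1 ≤ s) :
    nbhd (rr K L m a s (8 * s)) ⊆ rr K L m a s (8 * s) ∪ Lc K L m a s := by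
  intro v hv
  by_cases h : v ∈ rr K L m a s (8 * s)
  · exact Or.inl h
  · rcases hv with hv | ⟨u, hu, huv⟩
    · exact Or.inl hv
    · refine Or.inr ?_
      rw [Finset.mem_coe]
      unfold Lc
      rw [Finset.mem_sdiff]
      refine ⟨?_, h⟩
      rw [mem_rr] at hu ⊢
      rw [abs_le] at hu ⊢
      rw [adj_iff] at huv
      push_cast at *
      rcases huv with h1 | h1 | h1 | h1 | h1 | h1 <;> subst h1 <;> simp only <;> omega

section
variable {K L : ℕ} {hK : 4 ≤ K} {hL : 1 ≤ L} {m : ℕ} {η d : ℝ} {z0 : ℂ}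

theorem S1_sub_rr : S1 (gp hK hL m η d z0) ⊆ rr K L m (gp hK hL m η d z0).a (sc η d) 0 := by
  intro v hv
  rw [mem_rr]
  have := mem_S1 hv
  push_cast
  omega

theorem rr_mono {K L m : ℕ} {a : P2} {s e e' : ℕ} (h : e ≤ e') : rr K L m a s e ⊆ rr K L m a s e' := by
  intro v hv
  rw [mem_rr] at *
  omega

theorem disj_S2r : Disjoint (S2 (gp hK hL m η d z0))
    (rr K L m (gp hK hL m η d z0).a (sc η d) (8 * sc η d)) := by
  rw [Finset.disjoint_left]
  intro v h1 h2
  have h3 := mem_S2 h1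
  rw [mem_rr] at h2
  have := sc_pos η d
  push_cast at h2
  omega

theorem disj_TTr : Disjoint (TT (gp hK hL m η d z0) (sc η d))
    (rr K L m (gp hK hL m η d z0).a (sc η d) (8 * sc η d)) := by
  rw [Finset.disjoint_left]
  intro v h1 h2
  rw [mem_rr] at h2
  unfold TT at h1
  rw [mem_Box] at h1
  unfold row at h1
  have := sc_pos η d
  push_cast at h2
  omega

theorem bo_subr : bo (gp hK hL m η d z0) (sc η d) ⊆ Lc K L m (gp hK hL m η d z0).a (sc η d) := by
  intro v hv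
  unfold bo at hv
  rw [mem_ball] at hv
  have hs := sc_pos η d
  have hl := len_ge η d K L m
  unfold Lc
  rw [Finset.mem_sdiff, mem_rr, mem_rr]
  simp only [abs_le] at hv ⊢
  push_cast
  omega

/-- conditions of `a1_inst` for the contour -/
theorem Lc_low (hd : 0 < d) {v : P2} (hv : v ∈ Lc K L m (gp hK hL m η d z0).a (sc η d)) :
    d * v.2 ≤ cb 1 z0 - 2 * (4 * η) ∧ |d * v.1 - ca 1 z0| ≤ (200 * len K L m) * (d * sc η d) ∧
      |d * v.2 - cb 1 z0| ≤ 1000 * (d * sc η d) := by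
  have h0 : v ∈ rr K L m (gp hK hL m η d z0).a (sc η d) (16 * sc η d) := (Finset.mem_sdiff.1 hv).1
  obtain ⟨h1, h2, h3⟩ := mem_rr.1 h0
  obtain ⟨p1, p2⟩ := a_1 (hK := hK) (hL := hL) (m := m) (η := η) (z0 := z0) hd
  obtain ⟨q1, q2⟩ := a_2 (hK := hK) (hL := hL) (m := m) (η := η) (z0 := z0) hd
  have hge := sc_ge (η := η) hd
  have hlen : (1 : ℝ) ≤ len K L m := by exact_mod_cast len_pos K L m
  have hs0 : (1 : ℝ) ≤ sc η d := by exact_mod_cast sc_pos η d
  have hs1 : d ≤ d * sc η d := by nlinarith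
  have hs2 : d * sc η d ≤ len K L m * (d * sc η d) := by
    have : 0 ≤ d * (sc η d : ℝ) := by positivity
    nlinarith
  rw [abs_le] at h1
  obtain ⟨h1a, h1b⟩ := h1
  have r1 : (((-(128 * (len K L m * sc η d : ℤ) + 2 + (16 * sc η d : ℕ)) : ℤ)) : ℝ) ≤
      ((v.1 - (gp hK hL m η d z0).a.1 : ℤ) : ℝ) := by exact_mod_cast h1a
  have r2 : ((v.1 - (gp hK hL m η d z0).a.1 : ℤ) : ℝ) ≤
      (((128 * (len K L m * sc η d : ℤ) + 2 + (16 * sc η d : ℕ)) : ℤ) : ℝ) := by exact_mod_cast h1b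
  have r3 : (((-(512 * (sc η d : ℤ)) - (16 * sc η d : ℕ) : ℤ)) : ℝ) ≤
      ((v.2 - (gp hK hL m η d z0).a.2 : ℤ) : ℝ) := by exact_mod_cast h2
  have r4 : ((v.2 - (gp hK hL m η d z0).a.2 : ℤ) : ℝ) ≤ (((16 * sc η d : ℕ) : ℤ) : ℝ) := by
    exact_mod_cast h3
  push_cast at r1 r2 r3 r4
  have m1 := mul_le_mul_of_nonneg_left r1 hd.le
  have m2 := mul_le_mul_of_nonneg_left r2 hd.le
  have m3 := mul_le_mul_of_nonneg_left r3 hd.le
  have m4 := mul_le_mul_of_nonneg_left r4 hd.le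
  refine ⟨?_, ?_, ?_⟩
  · nlinarith
  · rw [abs_le]
    constructor <;> nlinarith
  · rw [abs_le]
    constructor <;> nlinarith

/-! ### the functional -/

theorem near_supp {u : ℂ → ℝ} (supp : tsupport u ⊆ Metric.closedBall z0 (2 * η)) {z : ℂ} (hz : u z ≠ 0) :
    ‖z - z0‖ ≤ 2 * η := by
  have := supp (subset_tsupport _ hz)
  rwa [Metric.mem_closedBall, dist_eq_norm] at this

theorem Dop_TT (_hη : 0 < η) (hd : 0 < d) (hsm : 1024 * d ≤ η) {u : ℂ → ℝ}
    (supp : tsupport u ⊆ Metric.closedBall z0 (2 * η)) {v : P2}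
    (hv : v ∉ TT (gp hK hL m η d z0) (sc η d)) : Dop (fun v => u (centre d v)) v = 0 := by
  by_contra h
  apply hv
  obtain ⟨w, hw, hw'⟩ := Dop_ne_zero hd.le h
  have h1 := near_supp supp hw
  have h2 : ‖centre d v - z0‖ ≤ d + 2 * η := by
    have e : centre d v - z0 = (centre d v - w) + (w - z0) := by ring
    rw [e]
    exact (norm_add_le _ _).trans (add_le_add hw' h1)
  obtain ⟨h3, h4⟩ := abs_cab_sub (centre d v) z0
  rw [ca1_centre] at h3
  rw [cb1_centre] at h4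
  exact mem_TT hd (h3.trans (by linarith)) (h4.trans (by linarith))

theorem XX_loc (hη : 0 < η) (hd : 0 < d) (hsm : 1024 * d ≤ η) {u : ℂ → ℝ}
    (supp : tsupport u ⊆ Metric.closedBall z0 (2 * η)) :
    LocZ (TT (gp hK hL m η d z0) (sc η d) : Set P2) (fun h => XX d u (toR h)) := by
  intro h g hg
  have e := fun (f : Hz) => XX_eq (d := d) (φ := u) (s := TT (gp hK hL m η d z0) (sc η d))
    (fun v hv => Dop_TT hη hd hsm supp hv) (toR f)
  simp only [e]
  refine lin_loc _ _ _ _ fun v hv => ?_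
  show ((h v : ℤ) : ℝ) = g v
  rw [hg v hv]

theorem XX_gobs (hd : 0 < d) {u : ℂ → ℝ} (hu : Tst u) : GObs (fun h : Hz => XX d u (toR h)) := by
  obtain ⟨R, hR0, hR⟩ := exists_R hu
  have e : (fun h : Hz => XX d u (toR h)) =
      fun h => lin (BX (mm R d)) (Dop fun v => u (centre d v)) (toR h) := by
    funext h
    exact XX_box hd hR _
  rw [e]
  exact gobs_lin (wt_Dop hd hR).2

end

/-! ### levels -/

theorem Lev.mono {S S' : Finset P2} {l : Hz → ℤ} (h : Lev S l) (hS : S ⊆ S') : Lev S' l :=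
  ⟨h.loc.mono (Finset.coe_subset.2 hS), h.shift, h.bdd⟩

theorem ball_ne (a : P2) (r : ℕ) : (ball a r).Nonempty := ⟨a, self_mem_ball a r⟩

/-! ### step A -/

set_option maxHeartbeats 1000000 in
/-- **step A** -/
theorem stepA {x κ : ℝ} {P : Measure Hz} (h : Fin830.Plane x P κ) {δ : ℕ → ℝ} (hδ : ∀ n, 0 < δ n)
    (hδ0 : Tendsto δ atTop (𝓝 0)) {K L : ℕ} (hK : 4 ≤ K) (hL : 1 ≤ L) (m : ℕ) {η : ℝ} (hη : 0 < η)
    {z0 : ℂ} {u : ℂ → ℝ} (hu : Tst u) (supp : tsupport u ⊆ Metric.closedBall z0 (2 * η)) :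
    ∀ ε > 0, ∀ᶠ n in atTop, ∀ Y : Hz → ℝ, LocZ (VF (gp hK hL m η (δ n) z0).Lay : Set P2) Y →
      NeutZ Y → (∀ h, |Y h| ≤ 1) → |∫ h, XX (δ n) u (toR h) * Y h ∂P| ≤ ε := by
  have hc := Pst967.one_le_c h.x0 h.x1
  obtain ⟨K', p, hR⟩ := h.rsw.rsw hc
  have hLF := Lyf792.layf h.x0 h.x1 hR
  have hD : DLR x P := fun Λ F hF => Pst967.ZeroLim.dlr h.x0 Pst967.cls_scs h.pin h.zlim Λ hF
  obtain ⟨V, hV0, hV⟩ := Ca1867.sq_bdd h.st h.lim2 hδ hδ0 hu
  have hsm : ∀ᶠ n in atTop, 1024 * δ n ≤ η := by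
    filter_upwards [hδ0.eventually (gt_mem_nhds (show (0 : ℝ) < η / 1024 by positivity))] with n hn
    linarith
  obtain ⟨N0, hN0⟩ := eventually_atTop.1 (hV.and hsm)
  set δ' : ℕ → ℝ := fun n => δ (n + N0) with hδ'
  have hδ'p : ∀ n, 0 < δ' n := fun n => hδ _
  have hδ'0 : Tendsto δ' atTop (𝓝 0) := hδ0.comp (tendsto_add_atTop_nat N0)
  have hδ's : ∀ n, 1024 * δ' n ≤ η := fun n => (hN0 (n + N0) (Nat.le_add_left _ _)).2
  have hδ'V : ∀ n, ∫ h, XX (δ' n) u h ^ 2 ∂(P.map toR) ≤ V :=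
    fun n => (hN0 (n + N0) (Nat.le_add_left _ _)).1
  set g : ℕ → GP := fun n => gp hK hL m η (δ' n) z0 with hg
  set s : ℕ → ℕ := fun n => sc η (δ' n) with hs
  have hs1 : ∀ n, 1 ≤ s n := fun n => sc_pos _ _
  -- the lattice unit tends to infinity
  have hsinf : ∀ s0 : ℕ, ∀ᶠ n in atTop, s0 ≤ s n := by
    intro s0
    filter_upwards [hδ'0.eventually (gt_mem_nhds (show (0 : ℝ) < η / (4 * (s0 + 1)) by positivity))]
      with n hn
    have h1 := sc_ge (η := η) (hδ'p n)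
    rw [lt_div_iff₀ (by positivity)] at hn
    by_contra h2
    push Not at h2
    have h3 : (s n : ℝ) ≤ s0 + 1 := by
      have : (s n : ℝ) < s0 := by exact_mod_cast h2
      linarith
    have h4 : δ' n * s n ≤ δ' n * (s0 + 1) := mul_le_mul_of_nonneg_left h3 (hδ'p n).le
    have h5 : 4 * (δ' n * s n) < η := by linarith
    linarith
  have key := joint_seq3 h.x0 h.pin hD (Λ := fun n => rr K L m (g n).a (s n) (8 * s n))
    (S1 := fun n => S1 (g n)) (L := fun n => Lc K L m (g n).a (s n)) (S2 := fun n => S2 (g n))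
    (T := fun n => TT (g n) (s n)) (lo := fun n => lev (bo (g n) (s n)))
    (lb := fun n => lev (b2 (g n) (s n))) (l1 := fun n => lev (b1 (g n) (s n)))
    (o1 := fun n => ((g n).a.1, (g n).a.2 - 2 * s n))
    (fun n => Lev.mono (lev_Lev (ball_ne _ _)) bo_subr)
    (fun n => Lev.mono (lev_Lev (ball_ne _ _)) b2_sub)
    (fun n => Lev.mono (lev_Lev (ball_ne _ _)) b1_sub)
    (fun n => b1_sub (self_mem_ball _ _))
    (fun n => disj_Lc K L m (g n).a (s n))
    (fun n => S1_sub_rr.trans (rr_mono (Nat.zero_le _)))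
    (fun n => nbhd_rr K L m (g n).a (hs1 n))
    (fun n => disj_S2r) (fun n => disj_TTr)
    (X := fun n h => XX (δ' n) u (toR h))
    (fun n => XX_loc hη (hδ'p n) (hδ's n) supp)
    (fun n => (XX_gobs (hδ'p n) hu).neut) (V := V) ?_ ?_ ?_ ?_ ?_
  · intro ε hε
    obtain ⟨n1, hn1⟩ := eventually_atTop.1 (key ε hε)
    refine eventually_atTop.2 ⟨n1 + N0, fun n hn Y hY hYn hY1 => ?_⟩
    have h1 := hn1 (n - N0) (by omega) Y
    have e : n - N0 + N0 = n := by omega
    simp only [hg, hδ', e] at h1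
    refine h1 ?_ hYn hY1
    rw [VF_Lay, Finset.coe_union] at hY
    exact hY
  · -- second moments
    intro n
    have hm : Measurable fun h : Ps643.Ht => XX (δ' n) u h := (Gi643.mdl_plane h hδ'p hδ'0).meas n u hu
    have e2 : ∫ ω, XX (δ' n) u ω ^ 2 ∂(P.map toR) = ∫ h, XX (δ' n) u (toR h) ^ 2 ∂P :=
      integral_map measurable_toR.aemeasurable (hm.pow_const 2).aestronglyMeasurable
    rw [← e2]
    exact hδ'V n
  · -- density bound
    intro η' hη'
    obtain ⟨C, s0, hC, H⟩ := Den435.ui_rct hc hR hLF h.pin h.flim (128 * len K L m + 1024) hη'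
    refine ⟨C, hC, ?_⟩
    filter_upwards [hsinf s0] with n hn B hB1 hB2
    refine H (s n) hn (g n).a ((g n).a.1 - (128 * (len K L m * s n) + 2))
      ((g n).a.1 + (128 * (len K L m * s n) + 2)) ((g n).a.2 - 512 * s n) (g n).a.2 ?_ ?_ ?_
      (Lc K L m (g n).a (s n)) ?_ (S1 (g n)) ?_ _ (b1_sub (self_mem_ball _ _)) B hB1 hB2
    · have : (0 : ℤ) ≤ len K L m * s n := by positivity
      omega
    · omega
    · intro v hv
      rw [mem_rct] at hv
      have h1 := hs1 n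
      have e : ((((128 * len K L m + 1024) * s n : ℕ)) : ℤ) =
          128 * ((len K L m : ℤ) * (s n : ℤ)) + 1024 * (s n : ℤ) := by
        push_cast
        ring
      rw [mem_ball, e]
      simp only [abs_le]
      omega
    · intro v hv
      exact (Finset.mem_sdiff.1 hv).2
    · intro v hv
      have h2 : v ∈ rr K L m (g n).a (s n) 0 := S1_sub_rr hv
      rw [mem_rr, abs_le] at h2
      rw [mem_rct]
      push_cast at h2
      omega
  · -- tightness, lower level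
    intro η' hη'
    obtain ⟨M, hM⟩ := lev_tight h.pin h.st h.lim2 256 η' hη'
    refine ⟨M, Eventually.of_forall fun n => hM (s n) (hs1 n) _ _ ?_⟩
    have h1 := hs1 n
    rw [mem_ball]
    simp only [abs_le]
    push_cast
    omega
  · -- tightness, upper level
    intro η' hη'
    obtain ⟨M, hM⟩ := lev_tight h.pin h.st h.lim2 256 η' hη'
    refine ⟨M, Eventually.of_forall fun n => hM (s n) (hs1 n) _ _ ?_⟩
    have h1 := hs1 n
    rw [mem_ball]
    simp only [abs_le]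
    push_cast
    omega
  · -- charged functionals
    intro ε hε
    have hlen0 : (0 : ℝ) ≤ len K L m := by positivity
    have hA := Ca1867.a1_inst h.pin h.st h.lim2 hδ'p hδ'0 hu (s0 := ca 1 z0) (t0 := cb 1 z0)
      (ρ := 4 * η) (L := |ca 1 z0| + |cb 1 z0| + (100 * len K L m + 1000) * η) (by positivity)
      (fun z hz => by
        have h1 := near_supp supp hz
        obtain ⟨h2, h3⟩ := abs_cab_sub z z0
        exact ⟨h2.trans (by linarith), h3.trans (by linarith)⟩)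
      (by nlinarith) ε hε
    have hb : ∀ n (v : P2), (|δ' n * v.1 - ca 1 z0| ≤ (200 * len K L m) * (δ' n * s n)) →
        (|δ' n * v.2 - cb 1 z0| ≤ 1000 * (δ' n * s n)) →
        |δ' n * v.1| ≤ |ca 1 z0| + |cb 1 z0| + (100 * len K L m + 1000) * η ∧
        |δ' n * v.2| ≤ |ca 1 z0| + |cb 1 z0| + (100 * len K L m + 1000) * η := by
      intro n v h1 h2
      have hle := sc_le hη (hδ'p n) (hδ's n)
      have h3 : (200 * (len K L m : ℝ)) * (δ' n * s n) ≤ (200 * len K L m) * (η / 2) :=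
        mul_le_mul_of_nonneg_left (by linarith) (by positivity)
      have h4 : |δ' n * (v.1 : ℝ)| ≤ |δ' n * v.1 - ca 1 z0| + |ca 1 z0| := by
        have := abs_add_le (δ' n * (v.1 : ℝ) - ca 1 z0) (ca 1 z0)
        rwa [sub_add_cancel] at this
      have h5 : |δ' n * (v.2 : ℝ)| ≤ |δ' n * v.2 - cb 1 z0| + |cb 1 z0| := by
        have := abs_add_le (δ' n * (v.2 : ℝ) - cb 1 z0) (cb 1 z0)
        rwa [sub_add_cancel] at this
      have h6 := abs_nonneg (ca 1 z0)
      have h7 := abs_nonneg (cb 1 z0)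
      have h8 : 0 ≤ len K L m * η := by positivity
      constructor <;> nlinarith
    filter_upwards [hA] with n hn α Z1 Z2 a1 a2 a3 a4 a5 a6
    refine hn (Lc K L m (g n).a (s n)) (S2 (g n)) ((ball_ne _ _).mono bo_subr)
      ((ball_ne _ _).mono b2_sub) ?_ ?_ α Z1 Z2 a1 a2 a3 a4 a5 a6
    · intro v hv
      obtain ⟨b1, b2, b3⟩ := Lc_low (hδ'p n) hv
      obtain ⟨b4, b5⟩ := hb n v b2 b3
      exact ⟨b4, b5, b1⟩
    · intro v hv
      obtain ⟨b1, b2, b3⟩ := S2_high (hδ'p n) hv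
      obtain ⟨b4, b5⟩ := hb n v b2 b3
      exact ⟨b4, b5, b1⟩

end Crest.Agent.R144.Cd169
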