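import Crest.Agent.R144.Cd3a_617
import Crest.Agent.R144.Gi2_643

/-!
# R144, CCW (C2CCW) (helper617)

`CellBd P δ` : the cell bound (helper169, msg 12271); `ccw_of_cell` : the closed contour Ward identity of
the plane law from the cell bound.
-/

set_option autoImplicit false

open MeasureTheory Metric Filter Topology

noncomputable section

namespace Crest.Agent.R144.Cd617

open Crest.Agent.R144.It844 (P2)
open Crest.ProbabilityR.HexHeights (Adj centre)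
open Crest.Agent.R144.Ps643 (Ht)
open Crest.Agent.R144.Ga5885 (Mdl CCW Tst)
open Crest.Agent.R144.Mix880 (gσ filt gσ_le_iSup locZ_toR neutZ_toR gσ_le)
open Crest.Agent.R144.Pst967 (Hz hexB LocZ NeutZ GObs toR measurable_toR)

/-- the bound for one cell -/
def CellBd (P : Measure Hz) (δ : ℕ → ℝ) : Prop :=
  ∃ a0 a1 C α : ℝ, 0 < a0 ∧ 0 < a1 ∧ 0 < C ∧ 0 < α ∧
    ∀ (m : ℕ) (η : ℝ) (z0 : ℂ) (u : ℂ → ℝ), 1 ≤ m → 0 < η → Tst u →
      tsupport u ⊆ closedBall z0 (2 * η) → ∀ ε > 0, ∀ᶠ n in atTop, ∀ Y : Hz → ℝ, GObs Y →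
        LocZ {v | centre (δ n) v ∉ ball z0 ((a0 + a1 * m) * η)} Y → (∀ h, |Y h| ≤ 1) →
          ∀ t : ℝ, 0 < t →
            |∫ h, Gi643.XX (δ n) u (toR h) * Y h ∂P| ≤
              t * (C * Real.exp (-(α * m))) + t⁻¹ * ∫ h, Gi643.XX (δ n) u (toR h) ^ 2 ∂P + ε

/-- **`CCW` from the cell bound** -/
theorem ccw_of_cell {x κ : ℝ} {P : Measure Hz} (h : Fin830.Plane x P κ) {δ : ℕ → ℝ}
    (hδ : ∀ n, 0 < δ n) (hδ0 : Tendsto δ atTop (𝓝 0)) (hC : CellBd P δ) :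
    CCW atTop (fun _ => P.map toR) (fun n φ h => Gi643.XX (δ n) φ h)
      (fun n U => gσ {v | centre (δ n) v ∈ U}) := by
  have hM := Gi643.mdl_plane h hδ hδ0
  obtain ⟨a0, a1, C, α, ha0, ha1, hC0, hα, hcell⟩ := hC
  refine ccw_abs hM (fun n V => filt {v | centre (δ n) v ∈ V}) (fun n V => gσ_le_iSup _) ha0 ha1 hC0
    hα ?_
  intro m η z0 u hm hη hu hsupp ε hε
  filter_upwards [hcell m η z0 u hm hη hu hsupp ε hε] with n hn V hV k G hG hG1 t ht
  have hGm : Measurable G := hG.mono (gσ_le _) le_rfl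
  have hXm : Measurable (fun ω : Ht => Gi643.XX (δ n) u ω) := hM.meas n u hu
  have hl := locZ_toR hG
  have h1 := hn (fun h => G (toR h)) ⟨⟨hexB k, hl.mono Set.inter_subset_right⟩, neutZ_toR hG⟩
    (hl.mono fun v hv => hV hv.1) (fun h => hG1 _) t ht
  have e1 : ∫ ω, Gi643.XX (δ n) u ω * G ω ∂(P.map toR) =
      ∫ h, Gi643.XX (δ n) u (toR h) * G (toR h) ∂P :=
    integral_map measurable_toR.aemeasurable (hXm.mul hGm).aestronglyMeasurable
  have e2 : ∫ ω, Gi643.XX (δ n) u ω ^ 2 ∂(P.map toR) =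
      ∫ h, Gi643.XX (δ n) u (toR h) ^ 2 ∂P :=
    integral_map measurable_toR.aemeasurable (hXm.pow_const 2).aestronglyMeasurable
  rw [e1, e2]
  exact h1

end Crest.Agent.R144.Cd617
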