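import Crest.Agent.R144.Cpl_311
import Crest.Agent.R144.Cd1_169
import Crest.Agent.R144.Cd3_617

/-!
# R144, CCW: the cell bound from step A (helper311)

`StepA P δ` : the functional `XX (δ n) u` is asymptotically uncorrelated with the gradient functions of the layers of
helper169's strips `gp`; `cellBd_of_stepA` : helper617's `CellBd` (by `planeB`).
-/

set_option autoImplicit false
set_option linter.unusedSectionVars false

noncomputable section

namespace Crest.Agent.R144.Cell311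

open Finset Filter Topology MeasureTheory Metric
open Crest.Agent.R144.It844 (P2)
open Crest.ProbabilityR.HexHeights (Adj centre)
open Crest.Agent.R144.HexTil353 (ca cb)
open Crest.Agent.R144.Zg349
open Crest.Agent.R144.Pst967 (Hz LocZ NeutZ GObs toR PinnedZ FLim)
open Crest.Agent.R144.Gi643 (XX XX_eq XX_box exists_R wt_Dop Dop_ne_zero gobs_lin)
open Crest.Agent.R144.Ga5885 (Tst)
open Crest.Agent.R144.Cw643
open Crest.Agent.R144.Ps643 (lin lin_loc)
open Crest.Agent.R144.Cgeo311 Crest.Agent.R144.Cpl311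
open Crest.Agent.R144.Rsw867 (RSW RSWZ)
open Crest.Agent.R144.Cd169 (gp sc abs_cab_sub ca1_centre cb1_centre mem_TT TT_sub SL_disc)

/-- **Step (A)** along the strips `gp` -/
def StepA (P : Measure Hz) (δ : ℕ → ℝ) : Prop :=
  ∀ (K L : ℕ) (hK : 4 ≤ K) (hL : 1 ≤ L) (m : ℕ) (η : ℝ) (z0 : ℂ) (u : ℂ → ℝ), 0 < η → Tst u →
    tsupport u ⊆ closedBall z0 (2 * η) → ∀ ε > 0, ∀ᶠ n in atTop,
      ∀ Y : Hz → ℝ, LocZ (VF (gp hK hL m η (δ n) z0).Lay : Set P2) Y → NeutZ Y → (∀ h, |Y h| ≤ 1) →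
        |∫ h, XX (δ n) u (toR h) * Y h ∂P| ≤ ε

/-- support of the weights -/
theorem dop_v0 {K L : ℕ} (hK : 4 ≤ K) (hL : 1 ≤ L) (m : ℕ) {η d : ℝ} {z0 : ℂ} {u : ℂ → ℝ} (hd : 0 < d)
    (hsm : 1024 * d ≤ η) (hs : tsupport u ⊆ closedBall z0 (2 * η)) {v : P2}
    (hv : v ∉ (gp hK hL m η d z0).V0) : Dop (fun v => u (centre d v)) v = 0 := by
  by_contra h
  obtain ⟨w, hw, hdw⟩ := Dop_ne_zero hd.le h
  have h1 := Metric.mem_closedBall.1 (hs (subset_tsupport _ hw))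
  have h2 : ‖centre d v - z0‖ ≤ 3 * η := by
    rw [dist_eq_norm] at h1
    have h3 : centre d v - z0 = (centre d v - w) + (w - z0) := by ring
    rw [h3]
    exact (norm_add_le _ _).trans (by linarith)
  obtain ⟨h3, h4⟩ := abs_cab_sub (centre d v) z0
  rw [ca1_centre] at h3
  rw [cb1_centre] at h4
  exact hv (TT_sub (mem_TT hd (by linarith) (by linarith)))

/-- the functional only sees the strip -/
theorem xx_loc {K L : ℕ} (hK : 4 ≤ K) (hL : 1 ≤ L) (m : ℕ) {η d : ℝ} {z0 : ℂ} {u : ℂ → ℝ} (hd : 0 < d)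
    (hsm : 1024 * d ≤ η) (hs : tsupport u ⊆ closedBall z0 (2 * η)) :
    LocZ (VF (gp hK hL m η d z0).V0 : Set P2) (fun h : Hz => XX d u (toR h)) := by
  intro h h' hh'
  simp only
  rw [XX_eq (s := (gp hK hL m η d z0).V0) (fun p hp => dop_v0 hK hL m hd hsm hs hp),
    XX_eq (s := (gp hK hL m η d z0).V0) (fun p hp => dop_v0 hK hL m hd hsm hs hp)]
  refine lin_loc _ _ _ _ fun v hv => ?_
  show ((h v : ℤ) : ℝ) = h' v
  rw [hh' v (Finset.mem_coe.2 (mem_VF'.2 (Or.inl hv)))]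

/-- `XX` is a gradient observable -/
theorem xx_gobs {d : ℝ} (hd : 0 < d) {u : ℂ → ℝ} (hu : Tst u) : GObs (fun h : Hz => XX d u (toR h)) := by
  obtain ⟨R, _, hR⟩ := exists_R hu
  have h1 := gobs_lin (wt_Dop hd hR).2
  have e : (fun h : Hz => XX d u (toR h)) =
      fun h : Hz => lin (BX (mm R d)) (Dop fun v => u (centre d v)) (toR h) :=
    funext fun h => XX_box hd hR (toR h)
  rw [e]
  exact h1

/-- **the cell bound from step A** -/
theorem cellBd_of_stepA {x κ : ℝ} {P : Measure Hz} (h : Fin830.Plane x P κ) {δ : ℕ → ℝ}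
    (hδ : ∀ n, 0 < δ n) (hδ0 : Tendsto δ atTop (𝓝 0)) (hA : StepA P δ) : Cd617.CellBd P δ := by
  have hc := Pst967.one_le_c h.x0 h.x1
  have hcx := Pst967.c_mul h.x0
  have hB := Pos561.block_of_rswz hc h.rsw
  obtain ⟨K, p, hR⟩ := h.rsw.rsw hc
  obtain ⟨L, C, α, hL, hC, hα, key⟩ := planeB h.x0 hc hcx hR hB h.pin h.flim 4
  refine ⟨500, 64 * ((2 * K + 3) + (2 * L + 1) * (2 * K + 1)), C, α, by norm_num,
    by positivity, hC, hα, ?_⟩
  intro m η z0 u hm hη hu hs ε hε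
  have hsm : ∀ᶠ n in atTop, 1024 * δ n ≤ η := by
    filter_upwards [hδ0.eventually (gt_mem_nhds (show (0 : ℝ) < η / 1024 by positivity))] with n hn
    linarith
  filter_upwards [hsm, hA K L hR.K4 hL m η z0 u hη hu hs ε hε] with n hn hAn
  intro Y hY hYl hY1 t ht
  have h1 := key (gp hR.K4 hL m η (δ n) z0) rfl rfl rfl (fun h => XX (δ n) u (toR h))
    (xx_loc hR.K4 hL m (hδ n) hn hs) (xx_gobs (hδ n) hu).neut Y hY (hYl.mono fun v hv => ?_)
    hY1 ε (fun Y' a1 a2 a3 => hAn Y' a2 a1 a3) t ht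
  · have e : (gp hR.K4 hL m η (δ n) z0).m = m := rfl
    rw [e] at h1
    linarith
  · intro hv'
    refine hv ?_
    rw [Metric.mem_ball, dist_eq_norm]
    have := SL_disc hη (hδ n) hn hv'
    linarith

/-- the literal of `Fin830.Cell x` from step A -/
theorem cell_of {x : ℝ} (hA : ∀ (P : Measure Hz) (κ : ℝ), Fin830.Plane x P κ → ∀ δ : ℕ → ℝ,
    (∀ n, 0 < δ n) → Tendsto δ atTop (𝓝 0) → StepA P δ) :
    ∀ (P : Measure Hz) (κ : ℝ), Fin830.Plane x P κ → ∀ δ : ℕ → ℝ, (∀ n, 0 < δ n) →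
      Tendsto δ atTop (𝓝 0) → Cd617.CellBd P δ := fun P κ h δ hδ hδ0 =>
  cellBd_of_stepA h hδ hδ0 (hA P κ h δ hδ hδ0)

end Crest.Agent.R144.Cell311
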