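import Crest.Agent.R144.Cd2_169
import Crest.Agent.R144.Cell_311

/-!
# R144 (CCW): the cell bound (helper169)

`cell` : helper617's `CellBd` for every plane layer (literal of helper830's `Fin830.Cell x`).
-/

set_option autoImplicit false

noncomputable section

namespace Crest.Agent.R144.Cd169

open Filter Topology MeasureTheory

/-- step A for every strip -/
theorem stepA' {x κ : ℝ} {P : Measure Pst967.Hz} (h : Fin830.Plane x P κ) {δ : ℕ → ℝ}
    (hδ : ∀ n, 0 < δ n) (hδ0 : Tendsto δ atTop (𝓝 0)) : Cell311.StepA P δ :=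
  fun _ _ hK hL m _ _ _ hη hu supp => stepA h hδ hδ0 hK hL m hη hu supp

/-- **the cell bound** -/
theorem cell (x : ℝ) : ∀ (P : Measure Pst967.Hz) (κ : ℝ), Fin830.Plane x P κ → ∀ δ : ℕ → ℝ,
    (∀ n, 0 < δ n) → Tendsto δ atTop (𝓝 0) → Cd617.CellBd P δ :=
  Cell311.cell_of fun _ _ h _ hδ hδ0 => stepA' h hδ hδ0

end Crest.Agent.R144.Cd169
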