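import Crest.Agent.R144.Cgeo_311

/-!
# R144, CCW step B: good blocks and barriers, deterministic part (helper311)

* `BallC C w` : plus-closed layers around all balls `ball b w`, `b ∈ C` (between radii `w` and `2 w`);
* `stk x` : column of centres, `sid j` : centres along the two sides of the strip;
* `g.Gp j := BallC (sid j)`, `gp_sub_gd`; `g.Xj j`, `xj_sub_nc`, `xm_sub_ncm`;
* `incE_gd`, `incE_gp`, `incE_xj` : increasing events of the block box `g.Bj j`.
-/

set_option autoImplicit false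
set_option linter.unusedSectionVars false
set_option linter.unusedSimpArgs false

noncomputable section

namespace Crest.Agent.R144.Cgeo311

open Finset
open Crest.Agent.R144.It844 (P2 adj_iff adj_symm)
open Crest.ProbabilityR.HexHeights (Adj)
open Crest.Agent.R144.Zg349 Crest.Agent.R144.Zk349 Crest.Agent.R144.Zd349 Crest.Agent.R144.Zm349
open Crest.Agent.R144.Ze349 Crest.Agent.R144.Zf349
open Crest.Agent.R144.Rsw867 (ball mem_ball BlkP Blk Sepr RSW ball_mono)
open Crest.Agent.R144.Cb2169 (Ex Cl Bar Stp InE mem_Ex mem_Cl Ex_sub R_sub_Ex Ex_step)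
open Crest.Agent.R144.Ccnt311 Crest.Agent.R144.Ccn2311

/-! ### families of balls -/

/-- all the balls of radius `w` with centre in `C` are surrounded by plus-closed layers -/
def BallC (C : Finset P2) (w : ℕ) : Set Cfg := {ω | ∀ b ∈ C, ω ∈ BlkP b w (2 * w)}

theorem ind_BallC (C : Finset P2) (w : ℕ) :
    (ind (BallC C w) : Cfg → ℝ) = fun ω => ∏ b ∈ C, ind (BlkP b w (2 * w)) ω := by
  classical
  funext ω
  by_cases h : ω ∈ BallC C w
  · rw [ind_mem h, Finset.prod_eq_one]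
    intro b hb
    exact ind_mem (h b hb)
  · rw [ind_not h]
    have h1 : ∃ b ∈ C, ω ∉ BlkP b w (2 * w) := by
      by_contra h2
      push Not at h2
      exact h h2
    obtain ⟨b, hb, h2⟩ := h1
    exact (Finset.prod_eq_zero hb (ind_not h2)).symm

theorem incE_blkP {B : Finset P2} {b : P2} {w : ℕ} (hB : ball b (2 * w + 2) ⊆ B) :
    IncE B (BlkP b w (2 * w)) :=
  ⟨Crest.Agent.R144.Rsw867.incP_blkP b w (2 * w),
    Crest.Agent.R144.Rsw867.inTZ_blkP b (by omega) hB⟩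

theorem incE_univ (B : Finset P2) {G : Set Cfg} (hG : ∀ ω, ω ∈ G) : IncE B G := by
  have e : (ind G : Cfg → ℝ) = fun _ => 1 := funext fun ω => ind_mem (hG ω)
  exact ⟨by rw [e]; exact incP_one, by rw [e]; exact inTZ_one B⟩

theorem incE_BallC {B C : Finset P2} {w : ℕ} (hB : ∀ b ∈ C, ball b (2 * w + 2) ⊆ B) :
    IncE B (BallC C w) := by
  classical
  induction C using Finset.induction_on with
  | empty => exact incE_univ B fun ω b hb => absurd hb (Finset.notMem_empty b)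
  | insert b C hb ih =>
    have e : BallC (insert b C) w = BlkP b w (2 * w) ∩ BallC C w := by
      ext ω
      simp only [BallC, Finset.mem_insert, forall_eq_or_imp, Set.mem_inter_iff, Set.mem_ofPred_eq]
    rw [e]
    exact (incE_blkP (hB b (Finset.mem_insert_self _ _))).inter
      (ih fun b' hb' => hB b' (Finset.mem_insert_of_mem hb'))

/-! ### exploration -/

theorem Ex_anti {D R : Finset P2} {ω ω' : Cfg} (h : ∀ t, pC ω t → pC ω' t) :
    Ex D R ω' ⊆ Ex D R ω := by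
  intro t ht
  obtain ⟨h1, r, hr, hp⟩ := mem_Ex.1 ht
  refine mem_Ex.2 ⟨h1, r, hr, ?_⟩
  exact Relation.ReflTransGen.mono (fun a b hab => ⟨hab.1, hab.2.1, fun hz => hab.2.2 (h _ hz)⟩) _ _ hp

/-- an explored triangle is a source or is reached by a path of not closed-plus triangles which starts
next to a source -/
theorem ex_path {D R : Finset P2} {ω : Cfg} {s : P2} (hs : s ∈ Ex D R ω) :
    s ∈ R ∨ ∃ r ∈ R, ∃ u, Adj r u ∧ Relation.ReflTransGen (StepIn {t | pC ω t}ᶜ) u s := by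
  obtain ⟨hsD, r, hr, hp⟩ := mem_Ex.1 hs
  clear hs hsD
  have key : s = r ∨ (¬ pC ω s ∧ ∃ u, Adj r u ∧ Relation.ReflTransGen (StepIn {t | pC ω t}ᶜ) u s) := by
    induction hp with
    | refl => exact Or.inl rfl
    | @tail b d _ hd ih =>
      right
      refine ⟨hd.2.2, ?_⟩
      rcases ih with ih | ⟨h1, u, h2, h3⟩
      · subst ih
        exact ⟨d, hd.1, .refl⟩
      · exact ⟨u, h2, h3.tail ⟨h1, hd.2.2, hd.1⟩⟩
  rcases key with h | ⟨_, u, h2, h3⟩
  · exact Or.inl (h ▸ hr)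
  · exact Or.inr ⟨r, hr, u, h2, h3⟩

/-! ### centres -/

/-- point with signed column `± x` and row `y` -/
def pt (a : P2) (σ : Bool) (x y : ℤ) : P2 := (a.1 + (if σ then x else -x), a.2 + y)

theorem col_pt {a : P2} {σ : Bool} {x y : ℤ} (hx : 0 ≤ x) : col a (pt a σ x y) = x := by
  unfold col pt
  cases σ
  · simp only [Bool.false_eq_true, if_false, add_sub_cancel_left, abs_neg]
    exact abs_of_nonneg hx
  · simp only [if_true, add_sub_cancel_left]
    exact abs_of_nonneg hx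

theorem row_pt {a : P2} {σ : Bool} {x y : ℤ} : row a (pt a σ x y) = y := by
  unfold row pt
  simp

/-- columns and rows of a ball -/
theorem col_ball {a b t : P2} {n : ℕ} (h : t ∈ ball b n) :
    col a t ≤ col a b + n ∧ col a b ≤ col a t + n ∧ row a t ≤ row a b + n ∧ row a b ≤ row a t + n := by
  rw [mem_ball] at h
  obtain ⟨h1, h2, _⟩ := h
  rw [abs_le] at h1 h2
  unfold col row
  rcases abs_cases (t.1 - a.1) with h3 | h3 <;> rcases abs_cases (b.1 - a.1) with h4 | h4 <;>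
    refine ⟨?_, ?_, ?_, ?_⟩ <;> omega

theorem ball_sub_box {a b : P2} {n : ℕ} {lo hi r1 r2 : ℤ} (h1 : lo + n ≤ col a b)
    (h2 : col a b + n < hi) (h3 : r1 + n ≤ row a b) (h4 : row a b + n < r2) :
    ball b n ⊆ Box a lo hi r1 r2 := by
  intro t ht
  have := col_ball (a := a) ht
  rw [mem_Box]
  omega

namespace GP

variable (g : GP)

open Classical in
/-- column of centres at distance `x` (both signs) -/
def stk (x : ℤ) : Finset P2 :=
  ((Finset.univ : Finset Bool) ×ˢ Finset.range (2 * g.h + 1)).image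
    fun q => pt g.a q.1 x (-g.H + q.2 * g.w)

open Classical in
/-- centres along the two sides of the strip -/
def sid (j : ℕ) : Finset P2 :=
  (((Finset.univ : Finset Bool) ×ˢ (Finset.univ : Finset Bool)) ×ˢ
    Finset.range ((2 * g.L + 1) * g.un + 2)).image
    fun q => pt g.a q.1.1 ((g.vn j - 1 + q.2 : ℕ) * g.w) (if q.1.2 then 0 else g.w - 1)

/-- number of balls in a column -/
def nstk : ℕ := 2 * (2 * g.h + 1)
/-- number of balls along the sides -/
def nsid : ℕ := 4 * ((2 * g.L + 1) * g.un + 2)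

theorem card_stk (x : ℤ) : (g.stk x).card ≤ g.nstk := by
  classical
  refine Finset.card_image_le.trans ?_
  rw [Finset.card_product, Finset.card_univ, Finset.card_range, Fintype.card_bool]
  exact le_rfl

theorem card_sid (j : ℕ) : (g.sid j).card ≤ g.nsid := by
  classical
  refine Finset.card_image_le.trans ?_
  rw [Finset.card_product, Finset.card_product, Finset.card_univ, Finset.card_range,
    Fintype.card_bool]
  exact le_rfl

/-- centre column of the outer sub-block `l` -/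
def xo (j l : ℕ) : ℤ := g.vo j + (l * g.un + g.K : ℕ) * g.w
/-- centre column of the inner sub-block `l` -/
def xi (j l : ℕ) : ℤ := g.v j + (l * g.un + g.K : ℕ) * g.w
/-- centre column of the middle sub-block -/
def xm (j : ℕ) : ℤ := g.vi j + g.K * g.w

/-- ball events along the sides -/
def Gp (j : ℕ) : Set Cfg := BallC (g.sid j) g.w

/-- barrier events -/
def Xo (j : ℕ) : Set Cfg := ⋃ l ∈ Finset.range g.L, BallC (g.stk (g.xo j l)) g.w
def Xi (j : ℕ) : Set Cfg := ⋃ l ∈ Finset.range g.L, BallC (g.stk (g.xi j l)) g.w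
def Xj (j : ℕ) : Set Cfg := g.Xo j ∩ g.Xi j
def Xm (j : ℕ) : Set Cfg := BallC (g.stk (g.xm j)) g.w

variable {g}

theorem mem_stk {x : ℤ} {b : P2} (hb : b ∈ g.stk x) : ∃ (σ : Bool) (k : ℕ), k < 2 * g.h + 1 ∧
    b = pt g.a σ x (-g.H + k * g.w) := by
  classical
  unfold stk at hb
  rw [Finset.mem_image] at hb
  obtain ⟨q, hq, rfl⟩ := hb
  rw [Finset.mem_product, Finset.mem_range] at hq
  exact ⟨q.1, q.2, hq.2, rfl⟩

theorem stk_mem {x : ℤ} (σ : Bool) {k : ℕ} (hk : k < 2 * g.h + 1) :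
    pt g.a σ x (-g.H + k * g.w) ∈ g.stk x := by
  classical
  unfold stk
  rw [Finset.mem_image]
  exact ⟨(σ, k), Finset.mem_product.2 ⟨Finset.mem_univ _, Finset.mem_range.2 hk⟩, rfl⟩

theorem mem_sid {j : ℕ} {b : P2} (hb : b ∈ g.sid j) : ∃ (σ ρ : Bool) (k : ℕ),
    k < (2 * g.L + 1) * g.un + 2 ∧
      b = pt g.a σ ((g.vn j - 1 + k : ℕ) * g.w) (if ρ then 0 else g.w - 1) := by
  classical
  unfold sid at hb
  rw [Finset.mem_image] at hb
  obtain ⟨q, hq, rfl⟩ := hb
  rw [Finset.mem_product, Finset.mem_range] at hq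
  exact ⟨q.1.1, q.1.2, q.2, hq.2, rfl⟩

theorem sid_mem {j : ℕ} (σ ρ : Bool) {k : ℕ} (hk : k < (2 * g.L + 1) * g.un + 2) :
    pt g.a σ ((g.vn j - 1 + k : ℕ) * g.w) (if ρ then 0 else g.w - 1) ∈ g.sid j := by
  classical
  unfold sid
  rw [Finset.mem_image]
  exact ⟨((σ, ρ), k), Finset.mem_product.2 ⟨Finset.mem_univ _, Finset.mem_range.2 hk⟩, rfl⟩

/-- a column of balls covers a column of `SL` -/
theorem stk_cover {x lo hi : ℤ} (_hx : 0 ≤ x) {t : P2} (ht : t ∈ Box g.a lo hi (-g.H) (g.w + g.H))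
    (htx : col g.a t = x) : ∃ b ∈ (g.stk x : Set P2), t ∈ ball b g.w := by
  have hw := g.w_pos
  rw [mem_Box] at ht
  -- sign
  obtain ⟨σ, hσ⟩ : ∃ σ : Bool, t.1 = g.a.1 + (if σ then x else -x) := by
    unfold col at htx
    rcases abs_cases (t.1 - g.a.1) with h | h
    · exact ⟨true, by simp only [if_true]; omega⟩
    · exact ⟨false, by simp only [Bool.false_eq_true, if_false]; omega⟩
  -- index of the row
  have h0 : 0 ≤ row g.a t + g.H := by omega
  set q : ℤ := (row g.a t + g.H) / g.w with hq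
  have hq0 : 0 ≤ q := Int.ediv_nonneg h0 (by omega)
  have hdm := Int.mul_ediv_add_emod (row g.a t + g.H) g.w
  have hr0 := Int.emod_nonneg (row g.a t + g.H) (show (g.w : ℤ) ≠ 0 by omega)
  have hr1 := Int.emod_lt_of_pos (row g.a t + g.H) (show (0 : ℤ) < g.w by omega)
  rw [← hq] at hdm
  have hq1 : q.toNat < 2 * g.h + 1 := by
    have h1 : (g.w : ℤ) * q < g.w * (2 * g.h + 1) := by
      have h2 : row g.a t + g.H < g.w + 2 * g.H := by omega
      have h3 : (g.w : ℤ) + 2 * g.H = g.w * (2 * g.h + 1) := by unfold H; ring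
      linarith
    have h2 : q < 2 * g.h + 1 := lt_of_mul_lt_mul_left h1 (by omega)
    omega
  refine ⟨_, Finset.mem_coe.2 (stk_mem (x := x) σ hq1), ?_⟩
  rw [mem_ball]
  unfold pt
  have hqn : ((q.toNat : ℕ) : ℤ) = q := Int.toNat_of_nonneg hq0
  simp only [hqn]
  have e1 : t.1 - (g.a.1 + (if σ then x else -x)) = 0 := by rw [hσ]; ring
  have e2 : t.2 - (g.a.2 + (-g.H + q * g.w)) = (row g.a t + g.H) % g.w := by
    have h3 : t.2 - g.a.2 = row g.a t := rfl
    have h4 : q * (g.w : ℤ) = g.w * q := by ring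
    linarith
  rw [e1, e2]
  simp only [abs_zero, zero_add]
  rw [abs_of_nonneg hr0]
  omega

/-- a blocked column of balls forbids crossings -/
theorem nc_of_stk {x lo hi : ℤ} (h0 : 0 ≤ lo) (h1 : lo + 2 * g.w < x) (h2 : x ≤ hi - 1) {ω : Cfg}
    (hω : ω ∈ BallC (g.stk x) g.w) : ω ∈ NC g.a lo hi (-g.H) (g.w + g.H) := by
  have hw := g.w_pos
  refine nc_of_blk (w := g.w) (x := x) (C := (g.stk x : Set P2)) h1 h2 ?_
    (fun b hb => hω b (Finset.mem_coe.1 hb)) (fun t ht htx => stk_cover (by omega) ht htx)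
  intro b hb
  obtain ⟨σ, k, _, rfl⟩ := mem_stk (Finset.mem_coe.1 hb)
  exact col_pt (by omega)

theorem xcol {l : ℕ} (hl : l < g.L) : (4 : ℤ) * g.w ≤ (l * g.un + g.K : ℕ) * g.w ∧
    ((l * g.un + g.K : ℕ) : ℤ) * g.w + (g.K + 1) * g.w ≤ (g.L * g.un) * g.w ∧
    (l * g.un : ℤ) * g.w + g.K * g.w = (l * g.un + g.K : ℕ) * g.w := by
  have hw := g.w_pos
  have hK : (4 : ℤ) ≤ g.K := by exact_mod_cast g.hK
  have hl' : (l : ℤ) + 1 ≤ g.L := by exact_mod_cast hl
  have hu := g.un_eq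
  have hl0 : (0 : ℤ) ≤ l := by positivity
  have hun0 : (0 : ℤ) ≤ g.un := by positivity
  refine ⟨?_, ?_, ?_⟩
  · push_cast
    have : (0 : ℤ) ≤ l * g.un := by positivity
    nlinarith
  · push_cast
    have h1 : ((l : ℤ) + 1) * g.un ≤ g.L * g.un := mul_le_mul_of_nonneg_right hl' hun0
    have h2 : (l : ℤ) * g.un + g.K + (g.K + 1) ≤ g.L * g.un := by
      have : ((l : ℤ) + 1) * g.un = l * g.un + g.un := by ring
      omega
    have h3 : ((l : ℤ) * g.un + g.K + (g.K + 1)) * g.w ≤ (g.L * g.un) * g.w :=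
      mul_le_mul_of_nonneg_right h2 (by omega)
    linarith
  · push_cast; ring

theorem v_nonneg (j : ℕ) : 0 ≤ g.v j := by
  have := g.W_pos j
  have := g.w_pos
  have := (g.order j).1
  have hKw : (0 : ℤ) ≤ g.K * g.w := by positivity
  nlinarith

theorem xo_sub {j : ℕ} {ω : Cfg} (h : ω ∈ g.Xo j) :
    ω ∈ NC g.a (g.vo j) (g.v' j) (-g.H) (g.w + g.H) := by
  unfold Xo at h
  simp only [Set.mem_iUnion, Finset.mem_range] at h
  obtain ⟨l, hl, h⟩ := h
  have hw := g.w_pos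
  have h1 := xcol (g := g) hl
  have h2 := g.v'_eq j
  have h3 := v_nonneg (g := g) j
  obtain ⟨o1, o2, o3, o4, o5⟩ := g.order j
  have hKw : (0 : ℤ) ≤ g.K * g.w := by positivity
  refine nc_of_stk (by omega) ?_ ?_ h
  · unfold xo; omega
  · unfold xo; nlinarith

theorem xi_sub {j : ℕ} {ω : Cfg} (h : ω ∈ g.Xi j) :
    ω ∈ NC g.a (g.v j) (g.vi j) (-g.H) (g.w + g.H) := by
  unfold Xi at h
  simp only [Set.mem_iUnion, Finset.mem_range] at h
  obtain ⟨l, hl, h⟩ := h
  have hw := g.w_pos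
  have h1 := xcol (g := g) hl
  have h2 := g.vi_eq j
  have h3 := v_nonneg (g := g) j
  have hKw : (0 : ℤ) ≤ g.K * g.w := by positivity
  refine nc_of_stk (by omega) ?_ ?_ h
  · unfold xi; omega
  · unfold xi; nlinarith

/-- the barrier events forbid the crossings of the outer and inner thirds -/
theorem xj_sub_nc {j : ℕ} : g.Xj j ⊆ g.NCj j := fun _ h => ⟨xo_sub h.1, xi_sub h.2⟩

theorem xm_sub_nc {j : ℕ} : g.Xm j ⊆ g.NCm j := by
  intro ω h
  have hw := g.w_pos
  have hK : (4 : ℤ) ≤ g.K := by exact_mod_cast g.hK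
  have h2 := g.vo_eq j
  have h3 := v_nonneg (g := g) j
  obtain ⟨o1, o2, o3, o4, o5⟩ := g.order j
  have hu := g.un_eq
  refine nc_of_stk (x := g.xm j) (by omega) ?_ ?_ h
  · unfold xm; nlinarith
  · unfold xm
    rw [h2, hu]
    have hKw : (0 : ℤ) ≤ g.K * g.w := by positivity
    nlinarith

/-! ### good blocks -/

/-- geometry of a layer triangle next to the core of the strip -/
theorem near_core {j : ℕ} {s t : P2} (ht : t ∈ g.V' j \ g.V j) (htL : t ∉ g.Lay) (hj : j < g.m)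
    (hs : s ∈ g.Lay) (hst : Adj s t) : g.v j - 1 ≤ col g.a s ∧ col g.a s ≤ g.v' j ∧
      (row g.a s = -1 ∨ row g.a s = g.w) := by
  obtain ⟨o1, o2, o3, o4, o5⟩ := g.order j
  have hw := g.w_pos
  have hH := H_ge (g := g)
  have hKw : (0 : ℤ) ≤ g.K * g.w := by positivity
  have hW := g.W_le (show j + 1 ≤ g.m by omega)
  obtain ⟨h1, h2⟩ := Finset.mem_sdiff.1 ht
  unfold V' at h1
  unfold V at h2
  rw [mem_Box] at h1 h2
  have hc0 : 0 ≤ col g.a t := abs_nonneg _
  have h3 : g.v j ≤ col g.a t := by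
    by_contra h
    exact h2 ⟨⟨hc0, by omega⟩, h1.2⟩
  have hSL : t ∈ g.SL := by
    unfold SL
    rw [mem_Box]
    exact ⟨⟨hc0, by nlinarith⟩, h1.2⟩
  have h4 : ¬ (row g.a t < 0 ∨ (g.w : ℤ) ≤ row g.a t) := fun h => htL (mem_Lay.2 ⟨hSL, h⟩)
  have h5 := (mem_Lay.1 hs).2
  have h6 := col_adj (a := g.a) hst
  have h7 := row_adj (a := g.a) hst
  refine ⟨by omega, by omega, by omega⟩

/-- the position of the walls -/
theorem wall_far {i j : ℕ} : g.W i ≤ g.v j - (g.K + 2) * g.w ∨ g.v' j + (g.K + 1) * g.w ≤ g.W i := by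
  obtain ⟨o1, o2, o3, o4, o5⟩ := g.order j
  rcases Nat.lt_or_ge j i with h | h
  · right
    have := g.W_le (show j + 1 ≤ i from h)
    omega
  · left
    have := g.W_le h
    omega

/-- layer triangles around the core are not revealed sources -/
theorem not_rw {j : ℕ} {s : P2} (h1 : g.v j - 1 ≤ col g.a s) (h2 : col g.a s ≤ g.v' j)
    (h3 : row g.a s = -1 ∨ row g.a s = g.w) : s ∉ g.RW := by
  have hw := g.w_pos
  have hH := H_ge (g := g)
  have hKw : 4 * (g.w : ℤ) ≤ g.K * g.w := by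
    have hK : (4 : ℤ) ≤ g.K := by exact_mod_cast g.hK
    exact mul_le_mul_of_nonneg_right hK (by omega)
  intro h
  rcases (mem_RW.1 h).2 with h4 | h4 | ⟨i, _, h4, h5⟩
  · omega
  · omega
  · rcases wall_far (g := g) (i := i) (j := j) with h6 | h6 <;> nlinarith

/-- **Balls along the sides make a good block.** -/
theorem gp_sub_gd {j : ℕ} (hj : j < g.m) : g.Gp j ⊆ g.Gd j := by
  intro ω hω t ht htL s hs hst
  have hw := g.w_pos
  have hH := H_ge (g := g)
  have hKw : 4 * (g.w : ℤ) ≤ g.K * g.w := by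
    have hK : (4 : ℤ) ≤ g.K := by exact_mod_cast g.hK
    exact mul_le_mul_of_nonneg_right hK (by omega)
  have hsL : s ∈ g.Lay := Ex_sub _ _ _ hs
  obtain ⟨c1, c2, c3⟩ := near_core ht htL hj hsL hst
  rcases ex_path hs with h | ⟨r, hr, u, hru, hp⟩
  · exact not_rw c1 c2 c3 h
  -- the ball
  have hvn : 1 ≤ g.vn j := by unfold vn; omega
  have hcol0 : 0 ≤ col g.a s := abs_nonneg _
  set q : ℤ := col g.a s / g.w with hq
  have hq0 : 0 ≤ q := Int.ediv_nonneg hcol0 (by omega)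
  have hdm := Int.mul_ediv_add_emod (col g.a s) g.w
  have hr0 := Int.emod_nonneg (col g.a s) (show (g.w : ℤ) ≠ 0 by omega)
  have hr1 := Int.emod_lt_of_pos (col g.a s) (show (0 : ℤ) < g.w by omega)
  rw [← hq] at hdm
  set r0 : ℤ := col g.a s % g.w with hr0def
  have hqa : (g.vn j : ℤ) - 1 ≤ q := by
    have h1 : (g.vn j : ℤ) * g.w - 1 ≤ col g.a s := c1
    have h2 : (g.w : ℤ) * ((g.vn j : ℤ) - 1) < g.w * (q + 1) := by nlinarith
    have h3 := lt_of_mul_lt_mul_left h2 (by omega)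
    omega
  have hqb : q ≤ g.vn j + (2 * g.L + 1) * g.un := by
    have h1 : col g.a s ≤ ((g.vn j : ℤ) + (2 * g.L + 1) * g.un) * g.w := by
      have : g.v' j = ((g.vn j : ℤ) + (2 * g.L + 1) * g.un) * g.w := by
        unfold v'; push_cast; ring
      omega
    have h2 : (g.w : ℤ) * q < g.w * ((g.vn j : ℤ) + (2 * g.L + 1) * g.un + 1) := by nlinarith
    have h3 := lt_of_mul_lt_mul_left h2 (by omega)
    omega
  obtain ⟨k, hk⟩ : ∃ k : ℕ, (g.vn j - 1 + k : ℕ) = q.toNat := ⟨q.toNat - (g.vn j - 1), by omega⟩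
  have hkq : (((g.vn j - 1 + k : ℕ)) : ℤ) = q := by rw [hk]; exact Int.toNat_of_nonneg hq0
  have hkr : k < (2 * g.L + 1) * g.un + 2 := by
    have h1 : ((g.vn j - 1 + k : ℕ) : ℤ) ≤ g.vn j + (2 * g.L + 1) * g.un := by rw [hkq]; exact hqb
    have h2 : g.vn j - 1 + k ≤ g.vn j + (2 * g.L + 1) * g.un := by exact_mod_cast h1
    omega
  obtain ⟨σ, hσ⟩ : ∃ σ : Bool, s.1 = g.a.1 + (if σ then col g.a s else -col g.a s) := by
    unfold col
    rcases abs_cases (s.1 - g.a.1) with h | h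
    · exact ⟨true, by simp only [if_true]; omega⟩
    · exact ⟨false, by simp only [Bool.false_eq_true, if_false]; omega⟩
  obtain ⟨ρ, hρ⟩ : ∃ ρ : Bool, (ρ = true ∧ row g.a s = -1) ∨ (ρ = false ∧ row g.a s = g.w) := by
    rcases c3 with h | h
    · exact ⟨true, Or.inl ⟨rfl, h⟩⟩
    · exact ⟨false, Or.inr ⟨rfl, h⟩⟩
  set b : P2 := pt g.a σ ((g.vn j - 1 + k : ℕ) * g.w) (if ρ then 0 else g.w - 1) with hb
  have hbm : b ∈ g.sid j := sid_mem σ ρ hkr
  have hrow : t.2 - g.a.2 = row g.a t := rfl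
  -- `s` in the small ball
  have hsb : s ∈ ball b g.w := by
    rw [mem_ball, hb]
    unfold pt
    simp only [hkq]
    have hqw : q * (g.w : ℤ) = col g.a s - r0 := by
      have : q * (g.w : ℤ) = g.w * q := by ring
      omega
    have e2 : s.2 - (g.a.2 + (if ρ then 0 else (g.w : ℤ) - 1)) =
        row g.a s - (if ρ then 0 else (g.w : ℤ) - 1) := by
      unfold row; ring
    rw [e2, hσ, hqw]
    rcases hρ with ⟨h1, h2⟩ | ⟨h1, h2⟩ <;> rw [h1, h2] <;> cases σ <;>
      simp only [Bool.false_eq_true, if_false, if_true, abs_le] <;> omega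
  -- `u` outside the large ball
  have hub : u ∉ ball b (2 * g.w) := by
    intro hub
    have h1 := col_ball (a := g.a) hub
    have hbc : col g.a b = q * g.w := by
      rw [hb, hkq]
      exact col_pt (by positivity)
    have hbr : row g.a b = if ρ then 0 else (g.w : ℤ) - 1 := by rw [hb]; exact row_pt
    have hbr' : 0 ≤ row g.a b ∧ row g.a b ≤ g.w - 1 := by
      rw [hbr]; cases ρ <;> simp only [Bool.false_eq_true, if_false, if_true] <;> omega
    have hqv : g.v j - g.w ≤ q * g.w ∧ q * g.w ≤ g.v' j := by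
      constructor
      · have : g.v j - g.w = ((g.vn j : ℤ) - 1) * g.w := by unfold v; ring
        rw [this]
        exact mul_le_mul_of_nonneg_right hqa (by omega)
      · have : g.v' j = ((g.vn j : ℤ) + (2 * g.L + 1) * g.un) * g.w := by
          unfold v'; push_cast; ring
        rw [this]
        exact mul_le_mul_of_nonneg_right hqb (by omega)
    have h5 := col_adj (a := g.a) hru
    have h6 := row_adj (a := g.a) hru
    push_cast at h1
    rcases (mem_RW.1 hr).2 with h4 | h4 | ⟨i, _, h4, h4'⟩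
    · omega
    · omega
    · rcases wall_far (g := g) (i := i) (j := j) with h7 | h7 <;> nlinarith
  exact hω b hbm u s hub hsb hp

/-! ### locality -/

/-- the layer triangles strictly inside a block -/
theorem zone_IV {j : ℕ} {e : P2} (h1 : g.W j + 1 < col g.a e) (h2 : col g.a e < g.W (j + 1) - 1)
    (h3 : -g.H ≤ row g.a e) (h4 : row g.a e < g.w + g.H) : e ∈ g.Bj j ∧ e ∈ IV (g.Bj j) := by
  have hw := g.w_pos
  have hKw : 4 * (g.w : ℤ) ≤ g.K * g.w := by
    have hK : (4 : ℤ) ≤ g.K := by exact_mod_cast g.hK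
    exact mul_le_mul_of_nonneg_right hK (by omega)
  have a1 : Adj e (e.1 - 1, e.2) := adj_iff.2 (by simp)
  have a2 : Adj e (e.1, e.2 - 1) := adj_iff.2 (by simp)
  have b1 := col_adj (a := g.a) a1
  have b2 := col_adj (a := g.a) a2
  have b3 := row_adj (a := g.a) a1
  have b4 := row_adj (a := g.a) a2
  have he : e ∈ g.Bj j := by unfold Bj; rw [mem_Box]; omega
  refine ⟨he, mem_IV.2 ⟨he, ?_, ?_⟩⟩ <;> unfold Bj <;> rw [mem_Box] <;> omega

theorem pC_zone {j : ℕ} {ω ω' : Cfg} (h1 : ∀ v ∈ IV (g.Bj j), s1 (ω.1 v) = s1 (ω'.1 v))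
    (h2 : ∀ t ∈ g.Bj j, ω.2 t = ω'.2 t) {e : P2} (he : e ∈ g.Bj j ∧ e ∈ IV (g.Bj j)) :
    pC ω e ↔ pC ω' e := by
  unfold pC
  rw [h1 e he.2, h2 e he.1]

/-- exploration inside a block only depends on the block -/
theorem ex_zone {j : ℕ} (hj : j < g.m) {ω ω' : Cfg}
    (h1 : ∀ v ∈ IV (g.Bj j), s1 (ω.1 v) = s1 (ω'.1 v))
    (h2 : ∀ t ∈ g.Bj j, ω.2 t = ω'.2 t) {e : P2} (he : e ∈ Ex g.Lay g.RW ω')
    (h3 : g.W j + 1 < col g.a e) (h4 : col g.a e < g.W (j + 1) - 1) : e ∈ Ex g.Lay g.RW ω := by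
  obtain ⟨heD, r, hr, hp⟩ := mem_Ex.1 he
  clear he heD
  induction hp with
  | refl => exact R_sub_Ex RW_sub ω hr
  | @tail b d hb hd ih =>
    obtain ⟨hbd, hdL, hz⟩ := hd
    have hdr : -g.H ≤ row g.a d ∧ row g.a d < g.w + g.H := by
      have := Lay_sub hdL
      unfold SL at this
      rw [mem_Box] at this
      exact this.2
    have hz' : ¬ pC ω d := fun h => hz ((pC_zone h1 h2 (zone_IV h3 h4 hdr.1 hdr.2)).1 h)
    have hbL : b ∈ g.Lay := Crest.Agent.R144.Cb2169.mem_D_of_path RW_sub hr hb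
    have hc := col_adj (a := g.a) hbd
    by_cases hbR : b ∈ g.RW
    · exact Ex_step (R_sub_Ex RW_sub ω hbR) hbd hdL hz'
    · have hn : ∀ i ≤ g.m, ¬ (g.W i - 1 ≤ col g.a b ∧ col g.a b ≤ g.W i + 1) := fun i hi h =>
        hbR (mem_RW.2 ⟨hbL, Or.inr (Or.inr ⟨i, hi, h⟩)⟩)
      have n1 := hn j hj.le
      have n2 := hn (j + 1) hj
      exact Ex_step (ih (by omega) (by omega)) hbd hdL hz'

theorem incE_gd {j : ℕ} (hj : j < g.m) : IncE (g.Bj j) (g.Gd j) := by
  have hmono : ∀ ω ω' : Cfg, (∀ t ∈ g.V' j \ g.V j, t ∉ g.Lay → ∀ s ∈ Ex g.Lay g.RW ω', Adj s t →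
      s ∈ Ex g.Lay g.RW ω) → ω ∈ g.Gd j → ω' ∈ g.Gd j := by
    intro ω ω' h hω t ht htL s hs hst
    exact hω t ht htL s (h t ht htL s hs hst) hst
  constructor
  · intro ω ω' hle
    by_cases hω : ω ∈ g.Gd j
    · have h1 : ω' ∈ g.Gd j := hmono ω ω' (fun t _ _ s hs _ => Ex_anti (fun t h => hle.p t h) hs) hω
      rw [ind_mem hω, ind_mem h1]
    · rw [ind_not hω]; exact ind_nonneg _ _
  · have hloc : ∀ ω ω' : Cfg, (∀ v ∈ IV (g.Bj j), s1 (ω.1 v) = s1 (ω'.1 v)) →
        (∀ t ∈ g.Bj j, ω.2 t = ω'.2 t) → ω ∈ g.Gd j → ω' ∈ g.Gd j := by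
      intro ω ω' h1 h2
      refine hmono ω ω' fun t ht htL s hs hst => ?_
      have hw := g.w_pos
      obtain ⟨o1, o2, o3, o4, o5⟩ := g.order j
      have hKw : 4 * (g.w : ℤ) ≤ g.K * g.w := by
        have hK : (4 : ℤ) ≤ g.K := by exact_mod_cast g.hK
        exact mul_le_mul_of_nonneg_right hK (by omega)
      obtain ⟨c1, c2, _⟩ := near_core ht htL hj (Ex_sub _ _ _ hs) hst
      exact ex_zone hj h1 h2 hs (by nlinarith) (by nlinarith)
    intro ω ω' h1 h2
    by_cases hω : ω ∈ g.Gd j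
    · rw [ind_mem hω, ind_mem (hloc ω ω' h1 h2 hω)]
    · have : ω' ∉ g.Gd j := fun h => hω (hloc ω' ω (fun v hv => (h1 v hv).symm)
        (fun t ht => (h2 t ht).symm) h)
      rw [ind_not hω, ind_not this]

/-! ### balls inside the block box -/

theorem ball_stk_sub {x lo hi : ℤ} (h0 : 0 ≤ x) (h1 : lo + g.K * g.w ≤ x) (h2 : x + g.K * g.w < hi)
    {b : P2} (hb : b ∈ g.stk x) : ball b (g.K * g.w) ⊆
      Box g.a lo hi (-(g.H + g.K * g.w)) (g.w + g.H + g.K * g.w + 1) := by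
  obtain ⟨σ, k, hk, rfl⟩ := mem_stk hb
  have hw := g.w_pos
  have hkH : (0 : ℤ) ≤ k * g.w ∧ (k : ℤ) * g.w ≤ 2 * g.H := by
    constructor
    · positivity
    · unfold H
      have h3 : (k : ℤ) ≤ 2 * g.h := by omega
      have h4 : (k : ℤ) * g.w ≤ (2 * g.h) * g.w := mul_le_mul_of_nonneg_right h3 (by omega)
      linarith
  refine ball_sub_box ?_ ?_ ?_ ?_ <;> (try rw [col_pt h0]) <;> (try rw [row_pt]) <;> push_cast <;>
    omega

theorem ball_sid_sub {j : ℕ} {b : P2} (hb : b ∈ g.sid j) : ball b (g.K * g.w) ⊆ g.Bj j := by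
  obtain ⟨σ, ρ, k, hk, rfl⟩ := mem_sid hb
  have hw := g.w_pos
  have hH := H_ge (g := g)
  obtain ⟨o1, o2, o3, o4, o5⟩ := g.order j
  have hvn : 1 ≤ g.vn j := by unfold vn; omega
  have hx : g.v j - g.w ≤ ((g.vn j - 1 + k : ℕ) : ℤ) * g.w ∧
      ((g.vn j - 1 + k : ℕ) : ℤ) * g.w ≤ g.v' j := by
    constructor
    · have h1 : g.v j - g.w = ((g.vn j : ℤ) - 1) * g.w := by unfold v; ring
      rw [h1]
      exact mul_le_mul_of_nonneg_right (by omega) (by omega)
    · have h1 : g.v' j = ((g.vn j + (2 * g.L + 1) * g.un : ℕ) : ℤ) * g.w := rfl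
      rw [h1]
      refine mul_le_mul_of_nonneg_right ?_ (by omega)
      have : g.vn j - 1 + k ≤ g.vn j + (2 * g.L + 1) * g.un := by omega
      exact_mod_cast this
  have hrow : 0 ≤ (if ρ then 0 else (g.w : ℤ) - 1) ∧ (if ρ then 0 else (g.w : ℤ) - 1) ≤ g.w - 1 := by
    cases ρ <;> simp only [Bool.false_eq_true, if_false, if_true] <;> omega
  have hKw : 4 * (g.w : ℤ) ≤ g.K * g.w := by
    have hK : (4 : ℤ) ≤ g.K := by exact_mod_cast g.hK
    exact mul_le_mul_of_nonneg_right hK (by omega)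
  have e1 : ((g.K : ℤ) + 2) * g.w = g.K * g.w + 2 * g.w := by ring
  have e2 : ((g.K : ℤ) + 1) * g.w = g.K * g.w + g.w := by ring
  unfold Bj
  refine ball_sub_box ?_ ?_ ?_ ?_ <;> (try rw [col_pt (by positivity)]) <;> (try rw [row_pt]) <;>
    push_cast at * <;> omega

theorem ball_small {b : P2} : ball b (2 * g.w + 2) ⊆ ball b (g.K * g.w) :=
  Crest.Agent.R144.Rsw867.ball_sub_scale b g.hK g.hw

/-- sub-block of the outer third -/
def bo (g : GP) (j l : ℕ) : Finset P2 := Box g.a (g.vo j + (l * g.un : ℕ) * g.w)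
  (g.vo j + ((l + 1) * g.un : ℕ) * g.w) (-(g.H + g.K * g.w)) (g.w + g.H + g.K * g.w + 1)
/-- sub-block of the inner third -/
def bi (g : GP) (j l : ℕ) : Finset P2 := Box g.a (g.v j + (l * g.un : ℕ) * g.w)
  (g.v j + ((l + 1) * g.un : ℕ) * g.w) (-(g.H + g.K * g.w)) (g.w + g.H + g.K * g.w + 1)

theorem ub {l : ℕ} : ((l * g.un : ℕ) : ℤ) * g.w + (2 * g.K + 1) * g.w = ((l + 1) * g.un : ℕ) * g.w ∧
    ((l * g.un + g.K : ℕ) : ℤ) * g.w = ((l * g.un : ℕ) : ℤ) * g.w + g.K * g.w := by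
  have hu := g.un_eq
  constructor
  · push_cast
    rw [hu]; ring
  · push_cast; ring

theorem ball_bo {j l : ℕ} {b : P2} (hb : b ∈ g.stk (g.xo j l)) : ball b (g.K * g.w) ⊆ g.bo j l := by
  obtain ⟨o1, o2, o3, o4, o5⟩ := g.order j
  have h3 := v_nonneg (g := g) j
  have hw := g.w_pos
  obtain ⟨u1, u2⟩ := ub (g := g) (l := l)
  have hKw : (0 : ℤ) ≤ g.K * g.w := by positivity
  have hl : (0 : ℤ) ≤ ((l * g.un : ℕ) : ℤ) * g.w := by positivity
  refine ball_stk_sub (x := g.xo j l) ?_ ?_ ?_ hb <;> unfold xo <;> rw [u2] <;> nlinarith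

theorem ball_bi {j l : ℕ} {b : P2} (hb : b ∈ g.stk (g.xi j l)) : ball b (g.K * g.w) ⊆ g.bi j l := by
  have h3 := v_nonneg (g := g) j
  have hw := g.w_pos
  obtain ⟨u1, u2⟩ := ub (g := g) (l := l)
  have hKw : (0 : ℤ) ≤ g.K * g.w := by positivity
  have hl : (0 : ℤ) ≤ ((l * g.un : ℕ) : ℤ) * g.w := by positivity
  refine ball_stk_sub (x := g.xi j l) ?_ ?_ ?_ hb <;> unfold xi <;> rw [u2] <;> nlinarith

theorem lu {l : ℕ} (hl : l < g.L) : (((l + 1) * g.un : ℕ) : ℤ) * g.w ≤ (g.L * g.un) * g.w := by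
  refine mul_le_mul_of_nonneg_right ?_ (by positivity)
  have : (l + 1) * g.un ≤ g.L * g.un := Nat.mul_le_mul_right _ hl
  exact_mod_cast this

theorem bo_sub {j l : ℕ} (hlL : l < g.L) : g.bo j l ⊆ g.Bj j := by
  obtain ⟨o1, o2, o3, o4, o5⟩ := g.order j
  have hw := g.w_pos
  have h1 := lu (g := g) hlL
  have h2 := g.v'_eq j
  have hKw : (0 : ℤ) ≤ g.K * g.w := by positivity
  have hl : (0 : ℤ) ≤ ((l * g.un : ℕ) : ℤ) * g.w := by positivity
  refine Box_mono ?_ ?_ le_rfl le_rfl <;> nlinarith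

theorem bi_sub {j l : ℕ} (hlL : l < g.L) : g.bi j l ⊆ g.Bj j := by
  obtain ⟨o1, o2, o3, o4, o5⟩ := g.order j
  have hw := g.w_pos
  have h1 := lu (g := g) hlL
  have h2 := g.vi_eq j
  have hKw : (0 : ℤ) ≤ g.K * g.w := by positivity
  have hl : (0 : ℤ) ≤ ((l * g.un : ℕ) : ℤ) * g.w := by positivity
  refine Box_mono ?_ ?_ le_rfl le_rfl <;> nlinarith

theorem box_disj {a : P2} {x r1 r2 : ℤ} {u w l l' : ℕ} (h : l ≠ l') :
    Disjoint (Box a (x + (l * u : ℕ) * w) (x + ((l + 1) * u : ℕ) * w) r1 r2)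
      (Box a (x + (l' * u : ℕ) * w) (x + ((l' + 1) * u : ℕ) * w) r1 r2) := by
  rw [Finset.disjoint_left]
  intro t h1 h2
  rw [mem_Box] at h1 h2
  have key : ∀ k k' : ℕ, k < k' → (((k + 1) * u : ℕ) : ℤ) * w ≤ ((k' * u : ℕ) : ℤ) * w := by
    intro k k' hk
    refine mul_le_mul_of_nonneg_right ?_ (by positivity)
    have : (k + 1) * u ≤ k' * u := Nat.mul_le_mul_right _ hk
    exact_mod_cast this
  rcases lt_or_gt_of_ne h with h3 | h3
  · have := key _ _ h3; omega
  · have := key _ _ h3; omega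

theorem bj_disj {i j : ℕ} (h : i ≠ j) : Disjoint (g.Bj i) (g.Bj j) := by
  rw [Finset.disjoint_left]
  intro t h1 h2
  unfold Bj at h1 h2
  rw [mem_Box] at h1 h2
  rcases lt_or_gt_of_ne h with h3 | h3
  · have := g.W_le (show i + 1 ≤ j from h3); omega
  · have := g.W_le (show j + 1 ≤ i from h3); omega

theorem incE_gp {j : ℕ} : IncE (g.Bj j) (g.Gp j) :=
  incE_BallC fun _ hb => ball_small.trans (ball_sid_sub hb)

theorem incE_xo {j : ℕ} : IncE (g.Bj j) (g.Xo j) :=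
  IncE.biUnion _ fun _ hl => (incE_BallC fun _ hb => ball_small.trans (ball_bo hb)).mono
    (bo_sub (Finset.mem_range.1 hl))

theorem incE_xi {j : ℕ} : IncE (g.Bj j) (g.Xi j) :=
  IncE.biUnion _ fun _ hl => (incE_BallC fun _ hb => ball_small.trans (ball_bi hb)).mono
    (bi_sub (Finset.mem_range.1 hl))

theorem incE_xj {j : ℕ} : IncE (g.Bj j) (g.Xj j) := incE_xo.inter incE_xi

end GP

end Crest.Agent.R144.Cgeo311
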