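import Crest.Agent.R144.Cge2_311

/-!
# R144, CCW step B: probabilities of good blocks and of barriers, final count (helper311)

Hypothesis `RSW c K p` of helper867.
* `em_gd` : `p ^ nsid ≤ Em c (Bj j) (Gd j)`; `em_xj` : `(1 - (1 - p ^ nstk) ^ L) ^ 2 ≤ Em c (Bj j) (Xj j)`;
* `pr_bar` : `p ^ nstk ≤ Pr c D (Bar D (D \ Vo j) (D ∩ Vi j))` for every `SC` set `D ⊆ V' j \ V j`;
* `count` : the two counts for every law `E c F`; `kap` : the two-replica bound.
-/

set_option autoImplicit false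
set_option linter.unusedSectionVars false
set_option linter.unusedSimpArgs false

noncomputable section

namespace Crest.Agent.R144.Cgeo311

open Finset
open Crest.Agent.R144.It844 (P2 adj_iff adj_symm)
open Crest.ProbabilityR.HexHeights (Adj)
open Crest.Agent.R144.Zg349 Crest.Agent.R144.Zk349 Crest.Agent.R144.Zd349 Crest.Agent.R144.Zm349
open Crest.Agent.R144.Ze349 Crest.Agent.R144.Zf349
open Crest.Agent.R144.Rsw867 (ball mem_ball BlkP Blk Sepr RSW ball_mono)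
open Crest.Agent.R144.Cb2169 (Ex Cl Bar Stp InE mem_Ex mem_Cl Ex_sub R_sub_Ex Ex_step)
open Crest.Agent.R144.Ccnt311 Crest.Agent.R144.Ccn2311

variable {c : ℝ} {K : ℕ} {p : ℝ}

theorem ind_eq (A : Set Cfg) (ω : Cfg) : Crest.Agent.R144.Rsw867.ind A ω = ind A ω := rfl

/-- one ball, minimal law -/
theorem em_blkP (hc : 1 ≤ c) (h : RSW c K p) {w : ℕ} (hw : 1 ≤ w) {B : Finset P2} (hB : SC B) {b : P2}
    (hb : ball b (K * w) ⊆ B) : p ≤ Em c B (ind (BlkP b w (2 * w))) := by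
  have h1 := h.minus w hw b B hB hb (fun _ => 1) (fun _ => zero_le_one) (offTZ_const _ 1)
  rw [E_const hc B 1, mul_one] at h1
  simp only [one_mul] at h1
  refine h1.trans (le_of_eq ?_)
  unfold Em
  congr 1
  funext ω
  exact Crest.Agent.R144.Rsw867.ind_congr Crest.Agent.R144.Rsw867.blkP_addH2.symm

/-- family of balls, minimal law -/
theorem em_BallC (hc : 1 ≤ c) (h : RSW c K p) {w : ℕ} (hw : 1 ≤ w) {B : Finset P2} (hB : SC B)
    {C : Finset P2} (hC : ∀ b ∈ C, ball b (K * w) ⊆ B) {n : ℕ} (hn : C.card ≤ n) :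
    p ^ n ≤ Em c B (ind (BallC C w)) := by
  have h1 := (Em_prod hc hB C (f := fun b => ind (BlkP b w (2 * w)))
    (fun b _ => Crest.Agent.R144.Rsw867.incP_blkP b w (2 * w)) (fun _ _ ω => ind_nonneg _ ω)).2
  rw [ind_BallC]
  refine le_trans ?_ h1
  have h2 : p ^ C.card ≤ ∏ b ∈ C, Em c B (ind (BlkP b w (2 * w))) := by
    rw [← Finset.prod_const]
    exact Finset.prod_le_prod (fun _ _ => h.p0.le) fun b hb => em_blkP hc h hw hB (hC b hb)
  exact (pow_le_pow_of_le_one h.p0.le (by linarith [h.p1]) hn).trans h2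

/-- family of balls in any position, maximal law of any simply connected domain -/
theorem e_BallC (hc : 1 ≤ c) (h : RSW c K p) {w : ℕ} (hw : 1 ≤ w) {D : Finset P2} (hD : SC D)
    {C : Finset P2} {n : ℕ} (hn : C.card ≤ n) : p ^ n ≤ E c D (ind (BallC C w)) := by
  classical
  refine (pow_le_pow_of_le_one h.p0.le (by linarith [h.p1]) hn).trans ?_
  clear hn
  have key : IncP (fun ω => ∏ b ∈ C, ind (BlkP b w (2 * w)) ω) ∧
      p ^ C.card ≤ E c D (fun ω => ∏ b ∈ C, ind (BlkP b w (2 * w)) ω) := by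
    induction C using Finset.induction_on with
    | empty =>
      refine ⟨fun _ _ _ => by simp, ?_⟩
      simp only [Finset.prod_empty, Finset.card_empty, pow_zero]
      exact (E_const hc D 1).ge
    | insert b C hb ih =>
      obtain ⟨ih1, ih2⟩ := ih
      have hb1 : IncP (ind (BlkP b w (2 * w))) := Crest.Agent.R144.Rsw867.incP_blkP b w (2 * w)
      have h0 : ∀ ω : Cfg, 0 ≤ ∏ b ∈ C, ind (BlkP b w (2 * w)) ω := fun ω =>
        Finset.prod_nonneg fun b _ => ind_nonneg _ ω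
      simp only [Finset.prod_insert hb]
      refine ⟨incP_mul hb1 ih1 (ind_nonneg _) h0, ?_⟩
      have h1 := h.plus w hw b D hD (fun _ => 1) (fun _ => zero_le_one) (offTZ_const _ 1)
      rw [E_const hc D 1, mul_one] at h1
      simp only [one_mul] at h1
      rw [Finset.card_insert_of_notMem hb, pow_succ, mul_comm]
      exact (mul_le_mul h1 ih2 (pow_nonneg h.p0.le _) (h.p0.le.trans h1)).trans (assoc hc hD hb1 ih1)
  rw [ind_BallC]
  exact key.2

namespace GP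

variable {g : GP}

theorem sc_Bj (j : ℕ) : SC (g.Bj j) := sc_Box _ _ _ _ _

/-- probability of a good block -/
theorem em_gd (hc : 1 ≤ c) (h : RSW c K p) (hgK : g.K = K) {j : ℕ} (hj : j < g.m) :
    p ^ g.nsid ≤ Em c (g.Bj j) (ind (g.Gd j)) := by
  subst hgK
  refine (em_BallC hc h g.hw (sc_Bj j) (fun _ hb => ball_sid_sub hb) (g.card_sid j)).trans ?_
  exact (law_Em hc (g.Bj j)).mono _ _ trivial trivial fun ω => ind_mono (gp_sub_gd hj) ω

/-- probability of a barrier in the outer third -/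
theorem em_xo (hc : 1 ≤ c) (h : RSW c K p) (hgK : g.K = K) {j : ℕ} :
    1 - (1 - p ^ g.nstk) ^ g.L ≤ Em c (g.Bj j) (ind (g.Xo j)) := by
  subst hgK
  have h1 := Em_union hc (sc_Bj (g := g) j) (Finset.range g.L) (b := fun l => g.bo j l)
    (fun _ _ => sc_Box _ _ _ _ _) (fun l hl => bo_sub (Finset.mem_range.1 hl))
    (fun l _ l' _ hll => box_disj hll) (X := fun l => BallC (g.stk (g.xo j l)) g.w)
    (fun l _ => incE_BallC fun _ hb => ball_small.trans (ball_bo hb)) (p := p ^ g.nstk)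
    (pow_le_one₀ h.p0.le (by linarith [h.p1]))
    (fun l _ => em_BallC hc h g.hw (sc_Box _ _ _ _ _) (fun _ hb => ball_bo hb) (g.card_stk _))
  rwa [Finset.card_range] at h1

theorem em_xi (hc : 1 ≤ c) (h : RSW c K p) (hgK : g.K = K) {j : ℕ} :
    1 - (1 - p ^ g.nstk) ^ g.L ≤ Em c (g.Bj j) (ind (g.Xi j)) := by
  subst hgK
  have h1 := Em_union hc (sc_Bj (g := g) j) (Finset.range g.L) (b := fun l => g.bi j l)
    (fun _ _ => sc_Box _ _ _ _ _) (fun l hl => bi_sub (Finset.mem_range.1 hl))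
    (fun l _ l' _ hll => box_disj hll) (X := fun l => BallC (g.stk (g.xi j l)) g.w)
    (fun l _ => incE_BallC fun _ hb => ball_small.trans (ball_bi hb)) (p := p ^ g.nstk)
    (pow_le_one₀ h.p0.le (by linarith [h.p1]))
    (fun l _ => em_BallC hc h g.hw (sc_Box _ _ _ _ _) (fun _ hb => ball_bi hb) (g.card_stk _))
  rwa [Finset.card_range] at h1

/-- probability of barriers in both thirds -/
theorem em_xj (hc : 1 ≤ c) (h : RSW c K p) (hgK : g.K = K) {j : ℕ} :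
    1 - 2 * (1 - p ^ g.nstk) ^ g.L ≤ Em c (g.Bj j) (ind (g.Xj j)) := by
  have h1 := em_xo (g := g) hc h hgK (j := j)
  have h2 := em_xi (g := g) hc h hgK (j := j)
  have h3 := Em_assoc hc (sc_Bj (g := g) j) (incE_xo (g := g) (j := j)).inc
    (incE_xi (g := g) (j := j)).inc
  have e : (ind (g.Xj j) : Cfg → ℝ) = fun ω => ind (g.Xo j) ω * ind (g.Xi j) ω :=
    funext (ind_inter _ _)
  rw [e]
  have hp : 0 ≤ p ^ g.nstk := pow_nonneg h.p0.le _
  have hp1 : p ^ g.nstk ≤ 1 := pow_le_one₀ h.p0.le (by linarith [h.p1])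
  have hq0 : 0 ≤ (1 - p ^ g.nstk) ^ g.L := pow_nonneg (by linarith) _
  have hq1 : (1 - p ^ g.nstk) ^ g.L ≤ 1 := pow_le_one₀ (by linarith) (by linarith)
  have h4 : (1 - (1 - p ^ g.nstk) ^ g.L) * (1 - (1 - p ^ g.nstk) ^ g.L) ≤
      Em c (g.Bj j) (ind (g.Xo j)) * Em c (g.Bj j) (ind (g.Xi j)) :=
    mul_le_mul h1 h2 (by linarith) ((by linarith : (0 : ℝ) ≤ 1 - (1 - p ^ g.nstk) ^ g.L).trans h1)
  nlinarith

/-- **Middle barrier** (input `p ≤ Pr c D (Bar ..)` of helper169's `cross`) -/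
theorem pr_bar (hc : 1 ≤ c) (h : RSW c K p) {j : ℕ} {D : Finset P2} (hD : SC D)
    (hDV : D ⊆ g.V' j \ g.V j) : p ^ g.nstk ≤ Pr c D (Bar D (D \ g.Vo j) (D ∩ g.Vi j)) := by
  refine (e_BallC hc h g.hw hD (g.card_stk (g.xm j))).trans ?_
  have h1 : E c D (ind (BallC (g.stk (g.xm j)) g.w)) ≤
      E c D (ind (Bar D (D \ g.Vo j) (D ∩ g.Vi j))) :=
    E_mono hc fun ω _ => ind_mono (fun ω hω => bar_mid hDV (xm_sub_nc hω)) ω
  exact h1

/-- the barrier events of helper169 -/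
theorem bar_of_xj {N : Finset P2} (hN : Disjoint N g.RW) {j : ℕ} (hj : j < g.m) {ω : Cfg}
    (hω : ω ∈ g.Xj j) : Disjoint (Cl N (Ex N (N \ g.V' j) ω)) (g.Vo j) ∧
      Cl N (Ex N (N ∩ g.V j) ω) ⊆ g.Vi j :=
  ⟨bar_out hN hj (xj_sub_nc hω).1, bar_in hN hj (xj_sub_nc hω).2⟩

/-! ### counts -/

/-- number of good blocks -/
theorem few (hc : 1 ≤ c) (h : RSW c K p) (hgK : g.K = K) {F : Finset P2} (hF : SC F) {n : ℕ}
    (hn : (n : ℝ) ≤ p ^ g.nsid * g.m / 4) :
    E c F (ind {w | cnt (Finset.range g.m) g.Gd w ≤ n}) ≤ Real.exp (-(p ^ g.nsid * g.m / 4)) := by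
  have h1 := (lowB_E hc hF).few_good (Finset.range g.m) (B := g.Bj) (G := g.Gd)
    (fun j _ => sc_Bj j) (fun i _ j _ hij => bj_disj hij)
    (fun j hj => incE_gd (Finset.mem_range.1 hj)) (p := p ^ g.nsid) (pow_nonneg h.p0.le _)
    (pow_le_one₀ h.p0.le (by linarith [h.p1]))
    (fun j hj => em_gd hc h hgK (Finset.mem_range.1 hj)) (n := n) (by rwa [Finset.card_range])
  rwa [Finset.card_range] at h1

/-- number of good blocks without barrier -/
theorem bad (hc : 1 ≤ c) (h : RSW c K p) (hgK : g.K = K)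
    (hL : (1 - p ^ g.nstk) ^ g.L ≤ 1 / 64) {F : Finset P2} (hF : SC F) (n : ℕ) :
    E c F (ind {w | n ≤ cnt (Finset.range g.m) g.Gd w ∧ cnt (Finset.range g.m) g.Gd w ≤
      4 * cnt (Finset.range g.m) (fun j => g.Gd j ∩ (g.Xj j)ᶜ) w}) ≤ (3 / 4 : ℝ) ^ n := by
  refine (lowB_E hc hF).many_bad (Finset.range g.m) (B := g.Bj) (G := g.Gd) (X := g.Xj)
    (fun j _ => sc_Bj j) (fun i _ j _ hij => bj_disj hij)
    (fun j hj => incE_gd (Finset.mem_range.1 hj)) (fun _ _ => incE_xj) (ε := 1 / 32) (by norm_num)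
    (fun j _ => ?_) (K := 4) (by norm_num) n
  have := em_xj (g := g) hc h hgK (j := j)
  linarith

end GP

/-- the number of sub-blocks -/
theorem exists_L (h : RSW c K p) (n : ℕ) : ∃ L : ℕ, 1 ≤ L ∧ (1 - p ^ n) ^ L ≤ 1 / 64 := by
  have hp : 0 < p ^ n := pow_pos h.p0 _
  have hp1 : p ^ n ≤ 1 := pow_le_one₀ h.p0.le (by linarith [h.p1])
  obtain ⟨L, hL⟩ := exists_pow_lt_of_lt_one (show (0 : ℝ) < 1 / 64 by norm_num)
    (show 1 - p ^ n < 1 by linarith)
  refine ⟨L + 1, by omega, ?_⟩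
  rw [pow_succ]
  have h1 : 0 ≤ (1 - p ^ n) ^ L := pow_nonneg (by linarith) _
  nlinarith

/-- **Final two-replica bound.**  Constants `L`, `q`, `C`, `α` only depend on `c, K, p, h, r`; every law `E c F`,
`F` simply connected, every law `E2` of two replicas with marginals `E c F` carried by pairs with the
same good blocks. -/
theorem kap_geo (hc : 1 ≤ c) (h : RSW c K p) (hh : ℕ) {r : ℝ} (hr0 : 0 ≤ r) (hr1 : r < 1) :
    ∃ (L : ℕ) (C α : ℝ), 1 ≤ L ∧ 0 < C ∧ 0 < α ∧ ∀ g : GP, g.K = K → g.h = hh → g.L = L →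
      ∀ F : Finset P2, SC F → ∀ (A2 : (Cfg × Cfg → ℝ) → Prop) (E2 : (Cfg × Cfg → ℝ) → ℝ), Alg A2 →
      Law A2 E2 → (∀ f : Cfg → ℝ, A2 (fun w => f w.1) ∧ E2 (fun w => f w.1) = E c F f) →
      (∀ f : Cfg → ℝ, A2 (fun w => f w.2) ∧ E2 (fun w => f w.2) = E c F f) →
      ∀ Supp : Set (Cfg × Cfg), (∀ f g, A2 f → A2 g → (∀ w ∈ Supp, f w ≤ g w) → E2 f ≤ E2 g) →
      (∀ w ∈ Supp, ∀ j ∈ Finset.range g.m, (w.1 ∈ g.Gd j ↔ w.2 ∈ g.Gd j)) →
      A2 (fun w => r ^ cnt2 (Finset.range g.m) g.Gd g.Xj w) →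
      E2 (fun w => r ^ cnt2 (Finset.range g.m) g.Gd g.Xj w) ≤ C * Real.exp (-(α * g.m)) := by
  obtain ⟨L, hL1, hL⟩ := exists_L h (2 * (2 * hh + 1))
  set N : ℕ := 4 * ((2 * L + 1) * (2 * K + 1) + 2) with hN
  set q : ℝ := p ^ N with hq
  have hq0 : 0 < q := pow_pos h.p0 _
  have hq1 : q ≤ 1 := pow_le_one₀ h.p0.le (by linarith [h.p1])
  -- a common exponential rate
  set s : ℝ := max (max r (1 / 2)) (3 / 4) with hs
  have hs0 : 0 < s := lt_of_lt_of_le (by norm_num) (le_max_right _ _)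
  have hs1 : s < 1 := max_lt (max_lt hr1 (by norm_num)) (by norm_num)
  have hls : 0 < -Real.log s := by
    have := Real.log_neg hs0 hs1
    linarith
  set α : ℝ := min (q / 4) (-Real.log s * q / 16) with hα
  have hα0 : 0 < α := lt_min (by positivity) (by positivity)
  refine ⟨L, s⁻¹ * s⁻¹ + 3 * (s⁻¹ * s⁻¹), α, hL1, by positivity, hα0, ?_⟩
  intro g hgK hgh hgL F hF A2 E2 hA2 hE2 m1 m2 Supp hsupp hsame hCA
  have hnst : g.nstk = 2 * (2 * hh + 1) := by unfold GP.nstk; rw [hgh]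
  have hnsi : g.nsid = N := by
    unfold GP.nsid GP.un
    rw [hgL, hgK]
  -- the integer `n`
  set n : ℕ := ⌊q * g.m / 4⌋₊ with hn
  have hnle : (n : ℝ) ≤ q * g.m / 4 := Nat.floor_le (by positivity)
  have hnlt : q * g.m / 4 < n + 1 := Nat.lt_floor_add_one _
  set n1 : ℕ := n / 2 with hn1
  have hn1' : (n : ℝ) ≤ 2 * n1 + 1 := by
    have : n ≤ 2 * n1 + 1 := by omega
    exact_mod_cast this
  have hfew := GP.few (g := g) hc h hgK hF (n := n) (by rw [hnsi]; exact hnle)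
  rw [hnsi] at hfew
  have hbad := GP.bad (g := g) hc h hgK (by rw [hnst, hgL]; exact hL) hF n
  have hk := kap_two (A := fun _ => True) (E := E c F) hA2 hE2 (fun f _ => m1 f) (fun f _ => m2 f)
    hsupp (Finset.range g.m) (G := g.Gd) (X := g.Xj) hsame (K := 4) (n := n) (n1 := n1) (by norm_num)
    (by omega) trivial trivial hr0 hr1.le hCA
  -- numerical bounds
  have hexp : ∀ k : ℕ, (q * g.m / 4 : ℝ) ≤ 2 * k + 2 → s ^ k ≤ s⁻¹ * Real.exp (-(α * g.m)) := by
    intro k hk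
    have e1 : s ^ k = Real.exp (Real.log s * k) := by
      rw [Real.exp_mul, Real.exp_log hs0, Real.rpow_natCast]
    have e2 : s⁻¹ = Real.exp (-Real.log s) := by rw [Real.exp_neg, Real.exp_log hs0]
    rw [e1, e2, ← Real.exp_add]
    apply Real.exp_le_exp.2
    have h1 : α ≤ -Real.log s * q / 16 := min_le_right _ _
    have h2 : (0 : ℝ) ≤ g.m := Nat.cast_nonneg _
    have h3 : α * g.m ≤ -Real.log s * q / 16 * g.m := mul_le_mul_of_nonneg_right h1 h2
    nlinarith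
  have hs2 : 1 ≤ s⁻¹ := (one_le_inv₀ hs0).2 hs1.le
  have hE0 : 0 < Real.exp (-(α * g.m)) := Real.exp_pos _
  have b1 : r ^ n1 ≤ s⁻¹ * s⁻¹ * Real.exp (-(α * g.m)) := by
    have h1 : r ^ n1 ≤ s ^ n1 := pow_le_pow_left₀ hr0 ((le_max_left _ _).trans (le_max_left _ _)) _
    have h2 := hexp n1 (by linarith)
    have h3 : s⁻¹ * Real.exp (-(α * g.m)) ≤ s⁻¹ * s⁻¹ * Real.exp (-(α * g.m)) := by
      have := mul_le_mul_of_nonneg_right hs2 (mul_pos (inv_pos.2 hs0) hE0).le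
      nlinarith
    linarith
  have b2 : (3 / 4 : ℝ) ^ n ≤ s⁻¹ * s⁻¹ * Real.exp (-(α * g.m)) := by
    have h1 : (3 / 4 : ℝ) ^ n ≤ s ^ n := pow_le_pow_left₀ (by norm_num) (le_max_right _ _) _
    have h2 := hexp n (by
      have : (0 : ℝ) ≤ n := Nat.cast_nonneg _
      linarith)
    have h3 : s⁻¹ * Real.exp (-(α * g.m)) ≤ s⁻¹ * s⁻¹ * Real.exp (-(α * g.m)) := by
      have := mul_le_mul_of_nonneg_right hs2 (mul_pos (inv_pos.2 hs0) hE0).le
      nlinarith
    linarith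
  have b3 : Real.exp (-(q * g.m / 4)) ≤ s⁻¹ * s⁻¹ * Real.exp (-(α * g.m)) := by
    have h1 : Real.exp (-(q * g.m / 4)) ≤ Real.exp (-(α * g.m)) := by
      apply Real.exp_le_exp.2
      have h1 : α ≤ q / 4 := min_le_left _ _
      have h2 : (0 : ℝ) ≤ g.m := Nat.cast_nonneg _
      have := mul_le_mul_of_nonneg_right h1 h2
      linarith
    have h2 : (1 : ℝ) ≤ s⁻¹ * s⁻¹ := by nlinarith
    nlinarith
  calc _ ≤ _ := hk
    _ ≤ s⁻¹ * s⁻¹ * Real.exp (-(α * g.m)) + s⁻¹ * s⁻¹ * Real.exp (-(α * g.m)) +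
        2 * (s⁻¹ * s⁻¹ * Real.exp (-(α * g.m))) := by
        refine add_le_add (add_le_add b1 (hfew.trans b3)) ?_
        exact mul_le_mul_of_nonneg_left (hbad.trans b2) (by norm_num)
    _ = _ := by ring

end Crest.Agent.R144.Cgeo311
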