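import Crest.Agent.R144.Cc8_169
import Crest.Agent.R144.Cge3_311

/-!
# R144, CCW step B: instance of helper169's structures for the geometry `GP` (helper311)

* `g.InF F` : `SL ⊆ F` and all neighbours of `SL` are in `F`; `g.st F h : St`; `g.bk j : Bk`; `g.V0`;
* `bkOK` : `(g.st F h).BkOK (g.bk j)` for `j < m`; `chain` : `Chain (g.st F h) c (p ^ nstk) g.bk m V0`;
* `Kp_le` : `Kp ≤ kq ^ cnt2`; `E2_le` : `E2 c (Kp ^ 2) ≤ C exp (- α m)`.
-/

set_option autoImplicit false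
set_option linter.unusedSectionVars false
set_option linter.unusedSimpArgs false

noncomputable section

namespace Crest.Agent.R144.Cgeo311

open Finset
open Crest.Agent.R144.It844 (P2 adj_iff adj_symm)
open Crest.ProbabilityR.HexHeights (Adj)
open Crest.Agent.R144.Zg349 Crest.Agent.R144.Zk349 Crest.Agent.R144.Zd349 Crest.Agent.R144.Zm349
open Crest.Agent.R144.Ze349 Crest.Agent.R144.Zf349
open Crest.Agent.R144.Rsw867 (ball mem_ball BlkP Blk Sepr RSW ball_mono)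
open Crest.Agent.R144.Cb2169 (Ex Cl Stp InE mem_Ex mem_Cl Ex_sub R_sub_Ex Ex_step Apart)
open Crest.Agent.R144.Ccnt311 Crest.Agent.R144.Ccn2311
open Crest.Agent.R144.Cc169 (St Bk Lk kq)
open Crest.Agent.R144.Cc169.St (Chain)

namespace GP

variable (g : GP)

/-- the domain contains the strip, its layers and their neighbours -/
structure InF (F : Finset P2) : Prop where
  sub : g.SL ⊆ F
  nb : ∀ t ∈ g.SL, ∀ t', Adj t t' → t' ∈ F

/-- region data of helper169 -/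
def st (F : Finset P2) (h : g.InF F) : St := ⟨F, g.SL, g.Lay, g.RW, RW_sub, Lay_sub, h.sub, h.nb⟩

/-- middle line of a block -/
def vm (j : ℕ) : ℤ := g.vi j + g.K * g.w
def Vm (j : ℕ) : Finset P2 := Box g.a 0 (g.vm j) (-g.H) (g.w + g.H)

/-- block of helper169 -/
def bk (j : ℕ) : Bk := ⟨g.V j, g.Vi j, g.Vm j, g.Vo j, g.V' j⟩

/-- the strip between the first walls -/
def V0 : Finset P2 := Box g.a 0 (g.w0 * g.w) 0 g.w

variable {g}

theorem order_m (j : ℕ) : g.vi j + 4 ≤ g.vm j ∧ g.vm j + 4 ≤ g.vo j := by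
  have hw := g.w_pos
  have hK : (4 : ℤ) ≤ g.K := by exact_mod_cast g.hK
  have hKw : 4 * (g.w : ℤ) ≤ g.K * g.w := mul_le_mul_of_nonneg_right hK (by omega)
  have h2 := g.vo_eq j
  rw [g.un_eq] at h2
  have h3 : (2 * (g.K : ℤ) + 1) * g.w = g.K * g.w + g.K * g.w + g.w := by ring
  unfold vm
  omega

theorem v'_le {j : ℕ} (hj : j < g.m) : g.v' j + 5 ≤ g.W g.m := by
  obtain ⟨o1, o2, o3, o4, o5⟩ := g.order j
  have hw := g.w_pos
  have hK : (4 : ℤ) ≤ g.K := by exact_mod_cast g.hK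
  have hKw : 4 * (g.w : ℤ) ≤ g.K * g.w := mul_le_mul_of_nonneg_right hK (by omega)
  have hW := g.W_le (show j + 1 ≤ g.m by omega)
  have e : ((g.K : ℤ) + 1) * g.w = g.K * g.w + g.w := by ring
  omega

theorem sub_SL {j : ℕ} (hj : j < g.m) : g.V' j ⊆ g.SL :=
  Vset_sub (by have := v'_le (g := g) hj; omega)

theorem V'_sdiff (j : ℕ) : g.V' j \ g.V j = Box g.a (g.v j) (g.v' j) (-g.H) (g.w + g.H) := by
  have h0 := v_nonneg (g := g) j
  ext t
  unfold V' V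
  rw [Finset.mem_sdiff, mem_Box, mem_Box, mem_Box]
  have : 0 ≤ col g.a t := abs_nonneg _
  omega

theorem v_nb (j : ℕ) : g.W j + 6 ≤ g.v j := by
  have hw := g.w_pos
  have hK : (4 : ℤ) ≤ g.K := by exact_mod_cast g.hK
  have hKw : 4 * (g.w : ℤ) ≤ g.K * g.w := mul_le_mul_of_nonneg_right hK (by omega)
  have := g.v_eq j
  have e : ((g.K : ℤ) + 2) * g.w = g.K * g.w + 2 * g.w := by ring
  omega

/-- walls are outside the blocks -/
theorem row_of_rw {j : ℕ} {t : P2} (ht : t ∈ g.RW) (h : t ∈ g.V' j \ g.V j) :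
    row g.a t = -g.H ∨ row g.a t = g.w + g.H - 1 := by
  rw [V'_sdiff, mem_Box] at h
  rcases (mem_RW.1 ht).2 with h4 | h4 | ⟨i, _, h4, h5⟩
  · exact Or.inl h4
  · exact Or.inr h4
  · exfalso
    have hw := g.w_pos
    have hK : (4 : ℤ) ≤ g.K := by exact_mod_cast g.hK
    have hKw : 4 * (g.w : ℤ) ≤ g.K * g.w := mul_le_mul_of_nonneg_right hK (by omega)
    have e : ((g.K : ℤ) + 2) * g.w = g.K * g.w + 2 * g.w := by ring
    have e' : ((g.K : ℤ) + 1) * g.w = g.K * g.w + g.w := by ring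
    rcases wall_far (g := g) (i := i) (j := j) with h6 | h6 <;> omega

section
variable {F : Finset P2} {hF : g.InF F}

theorem disj_N (ω : Cfg) : Disjoint ((g.st F hF).N ω) g.RW := by
  rw [Finset.disjoint_left]
  intro t ht h
  exact ((g.st F hF).mem_N.1 ht).2 ((g.st F hF).X_sub_Rv ω (R_sub_Ex RW_sub ω h))

/-- first triangle of a column which is not in `N` -/
theorem first_not {N : Finset P2} {x : ℤ} {y0 : ℤ} (h0 : (x, y0) ∉ N) : ∀ (n : ℕ) (y : ℤ), y = y0 + n →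
    (x, y) ∈ N → ∃ y', y0 ≤ y' ∧ y' < y ∧ (x, y') ∉ N ∧ ∀ k, y' < k → k ≤ y → (x, k) ∈ N := by
  intro n
  induction n with
  | zero =>
    intro y hy h
    rw [Nat.cast_zero, add_zero] at hy
    exact absurd (hy ▸ h) h0
  | succ n ih =>
    intro y hy h
    by_cases h1 : (x, y - 1) ∈ N
    · obtain ⟨y', a1, a2, a3, a4⟩ := ih (y - 1) (by push_cast at hy; omega) h1
      refine ⟨y', a1, by omega, a3, fun k hk1 hk2 => ?_⟩
      rcases Int.lt_or_le (y - 1) k with h2 | h2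
      · have : k = y := by omega
        rw [this]; exact h
      · exact a4 k hk1 h2
    · refine ⟨y - 1, by push_cast at hy; omega, by omega, h1, fun k hk1 hk2 => ?_⟩
      have : k = y := by omega
      rw [this]; exact h

/-- links down a column -/
theorem lk_down {Z : Finset P2} {x : ℤ} (n : ℕ) : ∀ y : ℤ, (∀ k, y - n ≤ k → k ≤ y → (x, k) ∈ Z) →
    Lk Z (x, y) (x, y - n) := by
  induction n with
  | zero => intro y _; rw [Nat.cast_zero, sub_zero]; exact .refl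
  | succ n ih =>
    intro y h
    have h1 := ih y fun k hk1 hk2 => h k (by push_cast; omega) hk2
    refine h1.tail ⟨(x, y - (n + 1 : ℕ)), h _ le_rfl (by push_cast; omega), ?_, base_mem_up _⟩
    rw [mem_up]
    refine Or.inr (Or.inr ?_)
    push_cast
    simp only [Prod.mk.injEq, true_and]
    ring

theorem bk_col {j : ℕ} (hj : j < g.m) {ω : Cfg} (hg : (g.st F hF).Gd (g.bk j) ω) {v : P2}
    (h1 : v ∈ VF ((g.st F hF).N ω ∩ g.Vm j)) (h2 : v ∈ VF ((g.st F hF).N ω \ g.Vm j)) :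
    ∃ u, ∃ t1 ∈ (g.st F hF).N ω ∩ (g.Vo j \ g.Vi j), u ∈ up t1 ∧
      (∃ t' ∈ (g.st F hF).Rv ω, t' ∉ (g.st F hF).X ω ∧ u ∈ up t') ∧
      Lk ((g.st F hF).N ω ∩ (g.Vo j \ g.Vi j)) v u := by
  set s := g.st F hF with hs
  obtain ⟨o1, o2, o3, o4, o5⟩ := g.order j
  obtain ⟨p1, p2⟩ := order_m (g := g) j
  have hw := g.w_pos
  have hH := H_ge (g := g)
  have hv0 := v_nonneg (g := g) j
  have hv' := v'_le (g := g) hj
  have dj : Disjoint (s.N ω) g.RW := disj_N ω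
  obtain ⟨tm, htm, hvm⟩ := mem_VF.1 h1
  obtain ⟨tn, htn, hvn⟩ := mem_VF.1 h2
  obtain ⟨hm1, hm2⟩ := Finset.mem_inter.1 htm
  obtain ⟨hn1, hn2⟩ := Finset.mem_sdiff.1 htn
  have hne : tm ≠ tn := fun h => hn2 (h ▸ hm2)
  have hadj : Adj tm tn := Crest.Agent.R144.Cb2169.adj_of_share hne hvm hvn
  have c1 := col_adj (a := g.a) hadj
  have c2 := row_adj (a := g.a) hadj
  unfold Vm at hm2 hn2
  rw [mem_Box] at hm2 hn2
  have hmSL : tm ∈ g.SL := by
    unfold SL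
    rw [mem_Box]
    omega
  have r1 := inner_row dj hmSL hm1
  have hc0 : 0 ≤ col g.a tn := abs_nonneg _
  have hcm : col g.a tm = g.vm j - 1 := by omega
  -- the column of `tm`
  obtain ⟨x, y⟩ := tm
  have hcolx : ∀ k : ℤ, col g.a (x, k) = g.vm j - 1 := fun k => hcm
  have hrow : ∀ k : ℤ, row g.a (x, k) = k - g.a.2 := fun k => rfl
  rw [hrow] at r1
  set y0 : ℤ := g.a.2 - g.H with hy0
  have hSLk : ∀ k : ℤ, y0 ≤ k → k ≤ y → (x, k) ∈ g.SL := fun k hk1 hk2 => by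
    unfold SL
    rw [mem_Box, hcolx, hrow]
    omega
  have h0N : (x, y0) ∉ s.N ω := fun h => by
    have h3 := inner_row dj (hSLk y0 le_rfl (by omega)) h
    rw [hrow] at h3
    omega
  obtain ⟨y', a1, a2, a3, a4⟩ := first_not h0N (y - y0).toNat y
    (by rw [Int.toNat_of_nonneg (by omega)]; ring) hm1
  have hZ : ∀ k : ℤ, y' < k → k ≤ y → (x, k) ∈ s.N ω ∩ (g.Vo j \ g.Vi j) := by
    intro k hk1 hk2
    rw [Finset.mem_inter]
    refine ⟨a4 k hk1 hk2, ?_⟩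
    unfold Vo Vi
    rw [Finset.mem_sdiff, mem_Box, mem_Box, hcolx, hrow]
    omega
  have ht1 : (x, y' + 1) ∈ s.N ω := a4 _ (by omega) (by omega)
  have hadj' : Adj (x, y') (x, y' + 1) := adj_iff.2 (Or.inr (Or.inr (Or.inl rfl)))
  have ht'SL : (x, y') ∈ g.SL := hSLk y' a1 a2.le
  have ht'R : (x, y') ∈ s.Rv ω := by
    by_contra h
    exact a3 (s.mem_N.2 ⟨hF.sub ht'SL, h⟩)
  have ht'X : (x, y') ∉ s.X ω := by
    intro h
    by_cases hL : (x, y' + 1) ∈ g.Lay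
    · exact (s.mem_N.1 ht1).2 (mem_Cl.2 ⟨hL, Or.inr ⟨_, h, hadj'⟩⟩)
    · refine hg (x, y' + 1) ?_ hL (x, y') h hadj'
      show (x, y' + 1) ∈ g.V' j \ g.V j
      rw [V'_sdiff, mem_Box, hcolx, hrow]
      omega
  refine ⟨(x, y' + 1), (x, y' + 1), hZ _ (by omega) (by omega), base_mem_up _,
    ⟨(x, y'), ht'R, ht'X, ?_⟩, ?_⟩
  · rw [mem_up]
    exact Or.inr (Or.inr rfl)
  · have l1 : Lk (s.N ω ∩ (g.Vo j \ g.Vi j)) v (x, y) :=
      Relation.ReflTransGen.single ⟨(x, y), hZ y a2 le_rfl, hvm, base_mem_up _⟩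
    have l2 := lk_down (Z := s.N ω ∩ (g.Vo j \ g.Vi j)) (x := x) (y - (y' + 1)).toNat y
      (fun k hk1 hk2 => hZ k (by rw [Int.toNat_of_nonneg (by omega)] at hk1; omega) hk2)
    rw [Int.toNat_of_nonneg (by omega), show y - (y - (y' + 1)) = y' + 1 by ring] at l2
    exact l1.trans l2

/-- **geometric hypotheses on the blocks** -/
theorem bkOK {j : ℕ} (hj : j < g.m) : (g.st F hF).BkOK (g.bk j) := by
  obtain ⟨o1, o2, o3, o4, o5⟩ := g.order j
  obtain ⟨p1, p2⟩ := order_m (g := g) j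
  have hw := g.w_pos
  have hH := H_ge (g := g)
  have hv0 := v_nonneg (g := g) j
  refine ⟨Box_mono le_rfl (by omega) le_rfl le_rfl, Box_mono le_rfl (by omega) le_rfl le_rfl,
    Box_mono le_rfl (by omega) le_rfl le_rfl, Box_mono le_rfl (by omega) le_rfl le_rfl,
    sub_SL hj, ?_, ?_, sc_Box _ _ _ _ _, ?_, ?_⟩
  · intro t ht t' ht' v h1 h2
    change t ∈ g.V' j \ g.Vo j at ht
    change t' ∈ g.Vi j at ht'
    unfold V' Vo at ht
    unfold Vi at ht'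
    rw [Finset.mem_sdiff, mem_Box, mem_Box] at ht
    rw [mem_Box] at ht'
    by_cases hne : t = t'
    · subst hne
      omega
    · have hc := col_adj (a := g.a) (Crest.Agent.R144.Cb2169.adj_of_share hne h1 h2)
      omega
  · show SC (g.V' j \ g.V j)
    rw [V'_sdiff]
    exact sc_Box _ _ _ _ _
  · intro t ht h
    change t ∈ g.V' j \ g.V j at h
    show ∃ r, r ∉ g.V' j \ g.V j ∧ Adj r t
    rcases row_of_rw ht h with h1 | h1
    · refine ⟨(t.1, t.2 - 1), fun h2 => ?_, adj_iff.2 ?_⟩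
      · rw [V'_sdiff, mem_Box] at h2
        unfold row at h1 h2
        omega
      · refine Or.inr (Or.inr (Or.inl ?_))
        simp
    · refine ⟨(t.1, t.2 + 1), fun h2 => ?_, adj_symm (adj_iff.2 (Or.inr (Or.inr (Or.inl rfl))))⟩
      rw [V'_sdiff, mem_Box] at h2
      unfold row at h1 h2
      omega
  · intro ω _ hg v h1 h2
    exact bk_col hj hg h1 h2

theorem V0_sub (j : ℕ) : g.V0 ⊆ g.V j := by
  have h1 := v_nb (g := g) j
  have h2 := H_ge (g := g)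
  have hw := g.w_pos
  have h3 := g.W_le (Nat.zero_le j)
  have h4 : g.W 0 = g.w0 * g.w := by unfold W Wn; push_cast; ring
  exact Box_mono le_rfl (by omega) (by omega) (by omega)

theorem nest {i j : ℕ} (hij : i < j) : g.V' i ⊆ g.V j := by
  obtain ⟨o1, o2, o3, o4, o5⟩ := g.order i
  have h1 := v_nb (g := g) j
  have h3 := g.W_le (show i + 1 ≤ j from hij)
  have hw := g.w_pos
  have hKw : (0 : ℤ) ≤ g.K * g.w := by positivity
  have e : ((g.K : ℤ) + 1) * g.w = g.K * g.w + g.w := by ring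
  exact Box_mono le_rfl (by omega) le_rfl le_rfl

/-- **chain of blocks** -/
theorem chain {c : ℝ} {K : ℕ} {p : ℝ} (hc : 1 ≤ c) (h : RSW c K p) {V1 : Finset P2}
    (hV1 : ∀ i < g.m, V1 ⊆ g.V i) : Chain (g.st F hF) c (p ^ g.nstk) g.bk g.m V1 := by
  refine ⟨fun i hi => bkOK hi, fun i j hij _ => nest hij, hV1, fun i hi ω _ _ => ?_⟩
  have hsc : SC ((g.st F hF).Dm (g.bk i) ω) := by
    have h1 := Crest.Agent.R144.Cc169.St.sc_Dm (s := g.st F hF) (bkOK hi) ω ∅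
      (Crest.Agent.R144.Cc169.Anch.empty _)
    rwa [Finset.sdiff_empty] at h1
  exact pr_bar hc h hsc Finset.inter_subset_right

theorem chain0 {c : ℝ} {K : ℕ} {p : ℝ} (hc : 1 ≤ c) (h : RSW c K p) :
    Chain (g.st F hF) c (p ^ g.nstk) g.bk g.m g.V0 := chain hc h fun i _ => V0_sub i

/-- barriers of helper169 -/
theorem bar_bk {j : ℕ} (hj : j < g.m) {ω : Cfg} (hω : ω ∈ g.Xj j) : (g.st F hF).Bar (g.bk j) ω :=
  bar_of_xj (disj_N ω) hj hω

theorem gd_iff {j : ℕ} {ω : Cfg} : (g.st F hF).Gd (g.bk j) ω ↔ ω ∈ g.Gd j := Iff.rfl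

/-- **contraction factor and count** -/
theorem Kp_le {q : ℝ} (hq0 : 0 < q) (hq1 : q ≤ 1) (ξ ξ' : Cfg) :
    (g.st F hF).Kp q g.bk g.m ξ ξ' ≤ kq q ^ cnt2 (Finset.range g.m) g.Gd g.Xj (ξ, ξ') := by
  classical
  have k0 := Crest.Agent.R144.Cc169.kq_nonneg hq0 hq1
  have k1 := Crest.Agent.R144.Cc169.kq_le_one hq0
  have e : kq q ^ cnt2 (Finset.range g.m) g.Gd g.Xj (ξ, ξ') =
      ∏ i ∈ Finset.range g.m, if (ξ ∈ g.Gd i ∩ g.Xj i ∧ ξ' ∈ g.Gd i ∩ g.Xj i) then kq q else 1 := by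
    rw [Finset.prod_ite, Finset.prod_const, Finset.prod_const_one, mul_one]
    unfold cnt2 cnt
    congr 2
    ext x
    simp only [Finset.mem_filter, Set.mem_ofPred_eq]
  rw [e]
  unfold Crest.Agent.R144.Cc169.St.Kp
  refine Finset.prod_le_prod (fun i _ => Crest.Agent.R144.Cc169.St.kp_nonneg hq0 hq1 _ _ _) fun i hi => ?_
  unfold Crest.Agent.R144.Cc169.St.kp
  by_cases h1 : ξ ∈ g.Gd i ∩ g.Xj i ∧ ξ' ∈ g.Gd i ∩ g.Xj i
  · have hi' := Finset.mem_range.1 hi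
    rw [if_pos h1, if_pos ⟨⟨gd_iff.2 h1.1.1, gd_iff.2 h1.2.1⟩, bar_bk hi' h1.1.2, bar_bk hi' h1.2.2⟩]
  · rw [if_neg h1]
    split_ifs
    · exact k1
    · exact le_rfl

end

end GP

/-- **Two-replica bound.** -/
theorem E2_le {c : ℝ} {K : ℕ} {p : ℝ} (hc : 1 ≤ c) (h : RSW c K p) (hh : ℕ) :
    ∃ (L : ℕ) (C α : ℝ), 1 ≤ L ∧ 0 < C ∧ 0 < α ∧ ∀ g : GP, g.K = K → g.h = hh → g.L = L →
      ∀ (F : Finset P2) (hF : g.InF F), SC F →
        (g.st F hF).E2 c (fun ω ω' => (g.st F hF).Kp (p ^ g.nstk) g.bk g.m ω ω' ^ 2) ≤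
          C * Real.exp (-(α * g.m)) := by
  set q : ℝ := p ^ (2 * (2 * hh + 1)) with hq
  have hq0 : 0 < q := pow_pos h.p0 _
  have hq1 : q ≤ 1 := pow_le_one₀ h.p0.le (by linarith [h.p1])
  have k0 := Crest.Agent.R144.Cc169.kq_nonneg hq0 hq1
  have k1 := Crest.Agent.R144.Cc169.kq_lt_one hq0
  obtain ⟨L, C, α, hL, hC, hα, key⟩ := kap_geo hc h hh (r := kq q ^ 2) (by positivity)
    (pow_lt_one₀ k0 k1 (by norm_num))
  refine ⟨L, C, α, hL, hC, hα, fun g hgK hgh hgL F hF hSC => ?_⟩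
  have hnst : g.nstk = 2 * (2 * hh + 1) := by unfold GP.nstk; rw [hgh]
  set s := g.st F hF with hs
  set E2 : (Cfg × Cfg → ℝ) → ℝ := fun H => s.E2 c (fun ω ω' => H (ω, ω')) with hE2
  have hsupp : ∀ f f' : Cfg × Cfg → ℝ, (∀ w ∈ {w : Cfg × Cfg | w.1 ∈ s.CF ∧ w.2 ∈ s.CF ∧ s.Rel4 w.1 w.2},
      f w ≤ f' w) → E2 f ≤ E2 f' := fun f f' hff =>
    Crest.Agent.R144.Cc169.St.E2_mono hc fun ω hω ω' hω' hr => hff (ω, ω') ⟨hω, hω', hr⟩
  have m1 : ∀ f : Cfg → ℝ, E2 (fun w => f w.1) = E c F f := fun f =>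
    Crest.Agent.R144.Cc169.St.E2_fst hc f
  have m2 : ∀ f : Cfg → ℝ, E2 (fun w => f w.2) = E c F f := fun f =>
    Crest.Agent.R144.Cc169.St.E2_snd hc f
  have hlaw : Law (fun _ => True) E2 := by
    refine ⟨fun f f' _ _ => ?_, fun a f _ => ?_, fun f f' _ _ hff => ?_, ?_⟩
    · exact Crest.Agent.R144.Cc169.St.E2_add c _ _
    · exact Crest.Agent.R144.Cc169.St.E2_smul c a _
    · exact hsupp f f' fun w _ => hff w
    · have := m1 fun _ => 1
      rw [this, E_const hc F 1]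
  have h1 := key g hgK hgh hgL F hSC (fun _ => True) E2 alg_top hlaw (fun f => ⟨trivial, m1 f⟩)
    (fun f => ⟨trivial, m2 f⟩) {w | w.1 ∈ s.CF ∧ w.2 ∈ s.CF ∧ s.Rel4 w.1 w.2}
    (fun f f' _ _ hff => hsupp f f' hff) ?_ trivial
  · refine le_trans ?_ h1
    refine Crest.Agent.R144.Cc169.St.E2_mono hc fun ω _ ω' _ _ => ?_
    rw [hnst]
    have h2 := GP.Kp_le (g := g) (F := F) (hF := hF) hq0 hq1 ω ω'
    have h3 := Crest.Agent.R144.Cc169.St.Kp_nonneg (s := s) hq0 hq1 g.bk g.m ω ω'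
    calc s.Kp q g.bk g.m ω ω' ^ 2 ≤ (kq q ^ cnt2 (Finset.range g.m) g.Gd g.Xj (ω, ω')) ^ 2 :=
          pow_le_pow_left₀ h3 h2 2
      _ = (kq q ^ 2) ^ cnt2 (Finset.range g.m) g.Gd g.Xj (ω, ω') := by
          rw [← pow_mul, ← pow_mul, mul_comm]
  · intro w hw j _
    have hX : s.X w.2 = s.X w.1 := Crest.Agent.R144.Cc169.St.rel_X hw.2.2
    rw [← GP.gd_iff (F := F) (hF := hF), ← GP.gd_iff (F := F) (hF := hF)]
    exact ⟨Crest.Agent.R144.Cc169.St.gd_congr hX, Crest.Agent.R144.Cc169.St.gd_congr hX.symm⟩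

end Crest.Agent.R144.Cgeo311
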