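import Crest.Agent.R144.Cb2_169
import Crest.Agent.R144.Rsw0_867
import Crest.Agent.R144.Ccn2_311

/-!
# R144, CCW step B: geometry of the strip, of the layers and of the blocks (helper311)

Index coordinates around a centre `g.a`: `col = |t.1 - a.1|` (both signs at once, folding),
`row = t.2 - a.2`.  Parameters (structure `GP`): `w` width of the strip = radius of the balls, `K` the RSW
ratio, `H = h w` thickness of the layers, `L` number of unit sub-blocks per third, `w0` size of the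
middle part, `m` number of blocks.

* `S`, `Lay`, `SL`, `RW` (revealed: outermost rows of the layers and walls of thickness 3), `V`, `Vi`, `Vo`,
  `V'`, `Bj` (block box), `Gd j` (good block), `NC lo hi` (no crossing), `Xj`, `Gp j` (ball events);
* `gp_sub_gd` : `Gp j ⊆ Gd j`; `xj_sub_nc` : `Xj j ⊆ NC`; `bar_out`, `bar_in`, `bar_mid`: no crossing implies
  barriers for the exploration of helper169.
-/

set_option autoImplicit false
set_option linter.unusedSectionVars false
set_option linter.unusedSimpArgs false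

noncomputable section

namespace Crest.Agent.R144.Cgeo311

open Finset
open Crest.Agent.R144.It844 (P2 adj_iff adj_symm)
open Crest.ProbabilityR.HexHeights (Adj)
open Crest.Agent.R144.Zg349 Crest.Agent.R144.Zk349 Crest.Agent.R144.Zd349 Crest.Agent.R144.Zm349
open Crest.Agent.R144.Ze349 Crest.Agent.R144.Zf349
open Crest.Agent.R144.Rsw867 (ball mem_ball BlkP Blk Sepr RSW)
open Crest.Agent.R144.Cb2169 (Ex Cl Bar Stp InE mem_Ex mem_Cl Ex_sub)
open Crest.Agent.R144.Ccnt311 Crest.Agent.R144.Ccn2311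

/-! ### coordinates -/

/-- folded column coordinate -/
def col (a t : P2) : ℤ := |t.1 - a.1|
/-- row coordinate -/
def row (a t : P2) : ℤ := t.2 - a.2

theorem col_adj {a s t : P2} (h : Adj s t) : col a t ≤ col a s + 1 ∧ col a s ≤ col a t + 1 := by
  unfold col
  rcases adj_iff.1 h with h | h | h | h | h | h <;> subst h <;> simp only <;>
    rcases abs_cases (s.1 - a.1) with h1 | h1 <;>
    first
      | (rcases abs_cases (s.1 + 1 - a.1) with h2 | h2 <;> constructor <;> omega)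
      | (rcases abs_cases (s.1 - 1 - a.1) with h2 | h2 <;> constructor <;> omega)

theorem row_adj {a s t : P2} (h : Adj s t) : row a t ≤ row a s + 1 ∧ row a s ≤ row a t + 1 := by
  unfold row
  rcases adj_iff.1 h with h | h | h | h | h | h <;> subst h <;> simp only <;>
    constructor <;> omega

open Classical in
/-- `{lo ≤ col < hi, r1 ≤ row < r2}` -/
def Box (a : P2) (lo hi r1 r2 : ℤ) : Finset P2 :=
  ((Finset.Icc (a.1 - hi) (a.1 + hi)) ×ˢ (Finset.Icc (a.2 + r1) (a.2 + r2))).filter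
    fun t => (lo ≤ col a t ∧ col a t < hi) ∧ (r1 ≤ row a t ∧ row a t < r2)

theorem mem_Box {a t : P2} {lo hi r1 r2 : ℤ} : t ∈ Box a lo hi r1 r2 ↔
    (lo ≤ col a t ∧ col a t < hi) ∧ (r1 ≤ row a t ∧ row a t < r2) := by
  unfold Box
  rw [Finset.mem_filter, Finset.mem_product, Finset.mem_Icc, Finset.mem_Icc]
  constructor
  · exact fun h => h.2
  · intro h
    refine ⟨?_, h⟩
    obtain ⟨⟨h1, h2⟩, h3, h4⟩ := h
    unfold col at h1 h2
    unfold row at h3 h4
    have := abs_lt.1 h2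
    refine ⟨⟨by omega, by omega⟩, by omega, by omega⟩

theorem Box_mono {a : P2} {lo hi r1 r2 lo' hi' r1' r2' : ℤ} (h1 : lo' ≤ lo) (h2 : hi ≤ hi')
    (h3 : r1' ≤ r1) (h4 : r2 ≤ r2') : Box a lo hi r1 r2 ⊆ Box a lo' hi' r1' r2' := fun t ht => by
  rw [mem_Box] at ht ⊢
  omega

/-! ### boxes have connected complement -/

theorem rtg_up {S : Set P2} (i : ℤ) : ∀ (n : ℕ) (j : ℤ), (∀ k : ℤ, j ≤ k → k ≤ j + n → (i, k) ∈ S) →
    Relation.ReflTransGen (StepIn S) (i, j) (i, j + n) := by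
  intro n
  induction n with
  | zero => intro j _; simp only [Nat.cast_zero, add_zero]; exact .refl
  | succ n ih =>
    intro j h
    have h1 := ih j fun k h1 h2 => h k h1 (by push_cast; omega)
    refine h1.tail ⟨h _ (by omega) (by push_cast; omega), h _ (by push_cast; omega) (by push_cast; omega), ?_⟩
    rw [adj_iff]
    refine Or.inr (Or.inr (Or.inl ?_))
    push_cast
    simp only [Prod.mk.injEq, true_and]
    ring

theorem rtg_right {S : Set P2} (j : ℤ) : ∀ (n : ℕ) (i : ℤ), (∀ k : ℤ, i ≤ k → k ≤ i + n → (k, j) ∈ S) →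
    Relation.ReflTransGen (StepIn S) (i, j) (i + n, j) := by
  intro n
  induction n with
  | zero => intro j _; simp only [Nat.cast_zero, add_zero]; exact .refl
  | succ n ih =>
    intro i h
    have h1 := ih i fun k h1 h2 => h k h1 (by push_cast; omega)
    refine h1.tail ⟨h _ (by omega) (by push_cast; omega), h _ (by push_cast; omega) (by push_cast; omega), ?_⟩
    rw [adj_iff]
    refine Or.inl ?_
    push_cast
    simp only [Prod.mk.injEq, and_true]
    ring

theorem rtg_symm' {S : Set P2} {u v : P2} (h : Relation.ReflTransGen (StepIn S) u v) :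
    Relation.ReflTransGen (StepIn S) v u := Crest.Agent.R144.Cb2169.rtg_symm h

theorem rtg_col {S : Set P2} (i j k : ℤ) (hjk : j ≤ k) (h : ∀ l : ℤ, j ≤ l → l ≤ k → (i, l) ∈ S) :
    Relation.ReflTransGen (StepIn S) (i, j) (i, k) := by
  have h1 := rtg_up (S := S) i (k - j).toNat j fun l h1 h2 => h l h1 (by omega)
  rw [Int.toNat_of_nonneg (by omega)] at h1
  rwa [add_sub_cancel] at h1

theorem rtg_row {S : Set P2} (i j k : ℤ) (hik : i ≤ k) (h : ∀ l : ℤ, i ≤ l → l ≤ k → (l, j) ∈ S) :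
    Relation.ReflTransGen (StepIn S) (i, j) (k, j) := by
  have h1 := rtg_right (S := S) j (k - i).toNat i fun l h1 h2 => h l h1 (by omega)
  rw [Int.toNat_of_nonneg (by omega)] at h1
  rwa [add_sub_cancel] at h1

/-- a set of finitely many columns times a row interval has connected complement -/
theorem sc_of_cols {B : Finset P2} {I : Set ℤ} {r1 r2 N : ℤ} (hN : ∀ i ∈ I, i < N)
    (hB : ∀ t : P2, t ∈ B ↔ t.1 ∈ I ∧ r1 ≤ t.2 ∧ t.2 < r2) : SC B := by
  set S : Set P2 := ((B : Finset P2) : Set P2)ᶜ with hS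
  have hmem : ∀ t : P2, t ∈ S ↔ ¬ (t.1 ∈ I ∧ r1 ≤ t.2 ∧ t.2 < r2) := by
    intro t
    rw [hS, Set.mem_compl_iff, Finset.mem_coe, hB]
  -- every point reaches the column `N`
  have key : ∀ t ∈ S, ∃ k : ℤ, Relation.ReflTransGen (StepIn S) t (N, k) ∧ r2 ≤ k := by
    -- first for points of column `≥ N`
    have h0 : ∀ j : ℤ, ∃ k : ℤ, Relation.ReflTransGen (StepIn S) (N, j) (N, k) ∧ r2 ≤ k := by
      intro j
      refine ⟨max j r2, rtg_col N j _ (le_max_left _ _) fun l _ _ => ?_, le_max_right _ _⟩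
      rw [hmem]
      rintro ⟨h1, _⟩
      exact absurd (hN _ h1) (lt_irrefl _)
    -- horizontal motion in a free row
    have h1 : ∀ i j : ℤ, (∀ l : ℤ, (l, j) ∈ S) → ∃ k : ℤ,
        Relation.ReflTransGen (StepIn S) (i, j) (N, k) ∧ r2 ≤ k := by
      intro i j hj
      obtain ⟨k, hk1, hk2⟩ := h0 j
      refine ⟨k, ?_, hk2⟩
      rcases le_total i N with h | h
      · exact (rtg_row i j N h fun l _ _ => hj l).trans hk1
      · exact (rtg_symm' (rtg_row N j i h fun l _ _ => hj l)).trans hk1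
    rintro ⟨i, j⟩ ht
    by_cases hj : r1 ≤ j ∧ j < r2
    · have hi : i ∉ I := fun h => (hmem _).1 ht ⟨h, hj⟩
      obtain ⟨k, hk1, hk2⟩ := h1 i r2 fun l => (hmem _).2 fun h => by
        have := h.2.2
        simp only at this
        omega
      refine ⟨k, (rtg_col i j r2 hj.2.le fun l _ _ => (hmem _).2 fun h => hi h.1).trans hk1, hk2⟩
    · exact h1 i j fun l => (hmem _).2 fun h => hj h.2
  intro u hu v hv
  obtain ⟨k, hk1, hk2⟩ := key u hu
  obtain ⟨l, hl1, hl2⟩ := key v hv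
  have hkl : Relation.ReflTransGen (StepIn S) (N, k) (N, l) := by
    have h : ∀ x : ℤ, (N, x) ∈ S := fun x => (hmem _).2 fun h => absurd (hN _ h.1) (lt_irrefl _)
    rcases le_total k l with h1 | h1
    · exact rtg_col N k l h1 fun x _ _ => h x
    · exact rtg_symm' (rtg_col N l k h1 fun x _ _ => h x)
  exact hk1.trans (hkl.trans (rtg_symm' hl1))

theorem sc_Box (a : P2) (lo hi r1 r2 : ℤ) : SC (Box a lo hi r1 r2) := by
  refine sc_of_cols (I := {i : ℤ | lo ≤ |i - a.1| ∧ |i - a.1| < hi}) (r1 := a.2 + r1) (r2 := a.2 + r2)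
    (N := a.1 + hi) ?_ ?_
  · intro i hi'
    have := (abs_lt.1 hi'.2).2
    omega
  · intro t
    rw [mem_Box]
    unfold col row
    simp only [Set.mem_ofPred_eq]
    constructor
    · rintro ⟨h1, h2, h3⟩
      exact ⟨h1, by omega, by omega⟩
    · rintro ⟨h1, h2, h3⟩
      exact ⟨h1, by omega, by omega⟩

/-! ### no crossing -/

/-- no path of not closed-plus triangles of `Box a lo hi r1 r2` between the columns `lo` and `hi - 1` -/
def NC (a : P2) (lo hi r1 r2 : ℤ) : Set Cfg :=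
  {ω | ∀ u v, col a u = lo → col a v = hi - 1 →
    ¬ Relation.ReflTransGen (StepIn {t | t ∈ Box a lo hi r1 r2 ∧ ¬ pC ω t}) u v}

theorem NC.swap {a : P2} {lo hi r1 r2 : ℤ} {ω : Cfg} (h : ω ∈ NC a lo hi r1 r2) {u v : P2}
    (hu : col a u = hi - 1) (hv : col a v = lo) :
    ¬ Relation.ReflTransGen (StepIn {t | t ∈ Box a lo hi r1 r2 ∧ ¬ pC ω t}) u v := fun p =>
  h v u hv hu (rtg_symm' p)

/-- discrete intermediate value -/
theorem rtg_ivt {S : Set P2} (f : P2 → ℤ) (hf : ∀ s t, Adj s t → f t ≤ f s + 1) {u v : P2}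
    (p : Relation.ReflTransGen (StepIn S) u v) {k : ℤ} (hu : f u ≤ k) (hv : k ≤ f v) :
    ∃ t, f t = k ∧ Relation.ReflTransGen (StepIn S) u t ∧ (t = u ∨ t ∈ S) := by
  induction p with
  | refl => exact ⟨u, le_antisymm hu hv, .refl, Or.inl rfl⟩
  | @tail b d h1 h2 ih =>
    by_cases hb : k ≤ f b
    · exact ih hb
    · have := hf _ _ h2.2.2
      exact ⟨d, by omega, h1.tail h2, Or.inr h2.2.1⟩

/-- a blocked column of balls forbids crossings -/
theorem nc_of_blk {a : P2} {lo hi r1 r2 : ℤ} {ω : Cfg} {w : ℕ} {x : ℤ} {C : Set P2}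
    (hlo : lo + 2 * w < x) (hx : x ≤ hi - 1) (hcol : ∀ b ∈ C, col a b = x)
    (hC : ∀ b ∈ C, ω ∈ BlkP b w (2 * w))
    (hcov : ∀ t ∈ Box a lo hi r1 r2, col a t = x → ∃ b ∈ C, t ∈ ball b w) : ω ∈ NC a lo hi r1 r2 := by
  intro u v hu hv p
  obtain ⟨t, ht, hp, ht'⟩ := rtg_ivt (fun t => col a t) (fun s t h => (col_adj h).1) p
    (k := x) (by show col a u ≤ x; omega) (by show x ≤ col a v; omega)
  replace ht : col a t = x := ht
  have htu : t ≠ u := by
    rintro rfl
    omega
  have htB : t ∈ Box a lo hi r1 r2 := by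
    rcases ht' with h | h
    · exact absurd h htu
    · exact h.1
  obtain ⟨b, hb, htb⟩ := hcov t htB ht
  refine hC b hb u t ?_ htb (Crest.Agent.R144.Cb2169.rtg_mono (fun s hs => hs.2) hp)
  intro hub
  rw [mem_ball] at hub
  have h1 := hcol b hb
  unfold col at h1 hu
  have h2 := hub.1
  push_cast at h2
  rcases abs_cases (u.1 - b.1) with h3 | h3 <;> rcases abs_cases (b.1 - a.1) with h4 | h4 <;>
    rcases abs_cases (u.1 - a.1) with h5 | h5 <;> omega

/-! ### exploration and no crossing -/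

/-- general exploration lemma: `P` = side of the sources, `M` = middle region -/
theorem expl {N R0 : Finset P2} {ω : Cfg} {P M : P2 → Prop} {ent ext : P2 → Prop} (hR : R0 ⊆ N)
    (hsrc : ∀ r ∈ R0, P r)
    (h1 : ∀ b e, P b → b ∈ N → e ∈ N → Adj b e → P e ∨ (M e ∧ ent e))
    (h2 : ∀ b e, M b → b ∈ N → e ∈ N → Adj b e → P e ∨ M e ∨ ext b)
    (NC : ∀ u v, ent u → ext v → ¬ Relation.ReflTransGen (StepIn {t | M t ∧ ¬ pC ω t}) u v) :
    ∀ e ∈ Ex N R0 ω, P e ∨ (M e ∧ ¬ ext e) := by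
  have key : ∀ r ∈ R0, ∀ e, Relation.ReflTransGen (Stp N ω) r e →
      P e ∨ (M e ∧ ¬ pC ω e ∧ ∃ u, ent u ∧
        Relation.ReflTransGen (StepIn {t | M t ∧ ¬ pC ω t}) u e) := by
    intro r hr e p
    induction p with
    | refl => exact Or.inl (hsrc r hr)
    | @tail b d hb hd ih =>
      obtain ⟨hbd, hdN, hz⟩ := hd
      have hbN := Crest.Agent.R144.Cb2169.mem_D_of_path hR hr hb
      rcases ih with hP | ⟨hM, hz', u, hu, hp⟩
      · rcases h1 b d hP hbN hdN hbd with h | ⟨h, h'⟩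
        · exact Or.inl h
        · exact Or.inr ⟨h, hz, d, h', .refl⟩
      · rcases h2 b d hM hbN hdN hbd with h | h | h
        · exact Or.inl h
        · exact Or.inr ⟨h, hz, u, hu, hp.tail ⟨⟨hM, hz'⟩, ⟨h, hz⟩, hbd⟩⟩
        · exact absurd hp (NC u b hu h)
  intro e he
  obtain ⟨heN, r, hr, hp⟩ := mem_Ex.1 he
  rcases key r hr e hp with h | ⟨h, _, u, hu, hq⟩
  · exact Or.inl h
  · exact Or.inr ⟨h, fun hx => NC u e hu hx hq⟩

/-! ### the geometry -/

/-- geometric parameters -/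
structure GP where
  /-- centre -/
  a : P2
  /-- width of the strip and radius of the balls -/
  w : ℕ
  /-- RSW ratio -/
  K : ℕ
  /-- thickness of the layers in units of `w` -/
  h : ℕ
  /-- number of unit sub-blocks in the outer and in the inner third of a block -/
  L : ℕ
  /-- position of the first wall in units of `w` -/
  w0 : ℕ
  /-- number of blocks -/
  m : ℕ
  hw : 1 ≤ w
  hK : 4 ≤ K
  hh : 4 ≤ h
  hL : 1 ≤ L
  hw0 : 1 ≤ w0

namespace GP

variable (g : GP)

/-- length of a unit sub-block in units of `w` -/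
def un : ℕ := 2 * g.K + 1
/-- period of the walls in units of `w` -/
def per : ℕ := (2 * g.K + 3) + (2 * g.L + 1) * g.un
/-- wall `j`, in units of `w` -/
def Wn (j : ℕ) : ℕ := g.w0 + j * g.per
/-- start of the core of block `j`, in units of `w` -/
def vn (j : ℕ) : ℕ := g.Wn j + (g.K + 2)

/-- thickness of the layers -/
def H : ℤ := g.h * g.w
/-- column of the wall `j` -/
def W (j : ℕ) : ℤ := g.Wn j * g.w
/-- `V j = {col < v j}` -/
def v (j : ℕ) : ℤ := g.vn j * g.w
def vi (j : ℕ) : ℤ := (g.vn j + g.L * g.un : ℕ) * g.w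
def vo (j : ℕ) : ℤ := (g.vn j + (g.L + 1) * g.un : ℕ) * g.w
def v' (j : ℕ) : ℤ := (g.vn j + (2 * g.L + 1) * g.un : ℕ) * g.w

theorem w_pos : (1 : ℤ) ≤ g.w := by exact_mod_cast g.hw

theorem W_succ (j : ℕ) : g.W (j + 1) = g.v' j + (g.K + 1) * g.w := by
  unfold W v' vn Wn per
  push_cast
  ring

theorem v_eq (j : ℕ) : g.v j = g.W j + (g.K + 2) * g.w := by
  unfold W v vn
  push_cast
  ring

theorem vi_eq (j : ℕ) : g.vi j = g.v j + (g.L * g.un) * g.w := by
  unfold vi v
  push_cast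
  ring

theorem vo_eq (j : ℕ) : g.vo j = g.vi j + g.un * g.w := by
  unfold vi vo
  push_cast
  ring

theorem v'_eq (j : ℕ) : g.v' j = g.vo j + (g.L * g.un) * g.w := by
  unfold vo v'
  push_cast
  ring

theorem un_eq : (g.un : ℤ) = 2 * g.K + 1 := by unfold un; push_cast; ring

theorem Wn_le {i j : ℕ} (h : i ≤ j) : g.Wn i ≤ g.Wn j := by
  unfold Wn
  exact Nat.add_le_add_left (Nat.mul_le_mul_right _ h) _

theorem W_le {i j : ℕ} (h : i ≤ j) : g.W i ≤ g.W j := by
  unfold W
  have := g.Wn_le h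
  have h1 : (g.Wn i : ℤ) ≤ g.Wn j := by exact_mod_cast this
  exact mul_le_mul_of_nonneg_right h1 (by positivity)

theorem W_pos (j : ℕ) : (g.w : ℤ) ≤ g.W j := by
  unfold W Wn
  have h1 := g.hw0
  have h2 : (1 : ℤ) ≤ ((g.w0 + j * g.per : ℕ) : ℤ) := by
    have : 1 ≤ g.w0 + j * g.per := by omega
    exact_mod_cast this
  have h3 : (0 : ℤ) ≤ g.w := by positivity
  nlinarith

/-- order of the columns of one block -/
theorem order (j : ℕ) : g.W j + (g.K + 2) * g.w = g.v j ∧ g.v j + 9 * g.w ≤ g.vi j ∧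
    g.vi j + 9 * g.w ≤ g.vo j ∧ g.vo j + 9 * g.w ≤ g.v' j ∧
    g.v' j + (g.K + 1) * g.w = g.W (j + 1) := by
  have hK : (4 : ℤ) ≤ g.K := by exact_mod_cast g.hK
  have hL : (1 : ℤ) ≤ g.L := by exact_mod_cast g.hL
  have hw := g.w_pos
  have hu := g.un_eq
  have h1 : 9 * (g.w : ℤ) ≤ g.un * g.w := by rw [hu]; nlinarith
  have h2 : (g.un : ℤ) * g.w ≤ (g.L * g.un) * g.w := by
    have h3 : (0 : ℤ) ≤ g.un * g.w := by positivity
    nlinarith
  refine ⟨(g.v_eq j).symm, ?_, ?_, ?_, (g.W_succ j).symm⟩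
  · rw [vi_eq]; linarith
  · rw [vo_eq]; linarith
  · rw [v'_eq]; linarith

/-- strip triangles -/
def S : Finset P2 := Box g.a 0 (g.W g.m + 2) 0 g.w
/-- strip and layers -/
def SL : Finset P2 := Box g.a 0 (g.W g.m + 2) (-g.H) (g.w + g.H)
/-- layer triangles -/
def Lay : Finset P2 := g.SL.filter fun t => row g.a t < 0 ∨ (g.w : ℤ) ≤ row g.a t

open Classical in
/-- revealed sources: outermost rows of the layers, walls of thickness 3 -/
def RW : Finset P2 := g.Lay.filter fun t => row g.a t = -g.H ∨ row g.a t = g.w + g.H - 1 ∨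
  ∃ j ≤ g.m, g.W j - 1 ≤ col g.a t ∧ col g.a t ≤ g.W j + 1

def V (j : ℕ) : Finset P2 := Box g.a 0 (g.v j) (-g.H) (g.w + g.H)
def Vi (j : ℕ) : Finset P2 := Box g.a 0 (g.vi j) (-g.H) (g.w + g.H)
def Vo (j : ℕ) : Finset P2 := Box g.a 0 (g.vo j) (-g.H) (g.w + g.H)
def V' (j : ℕ) : Finset P2 := Box g.a 0 (g.v' j) (-g.H) (g.w + g.H)

/-- block box -/
def Bj (j : ℕ) : Finset P2 := Box g.a (g.W j + 1) (g.W (j + 1)) (-(g.H + g.K * g.w))
  (g.w + g.H + g.K * g.w + 1)

/-- good block (helper169) -/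
def Gd (j : ℕ) : Set Cfg := {ω | ∀ t ∈ g.V' j \ g.V j, t ∉ g.Lay → ∀ s ∈ Ex g.Lay g.RW ω, ¬ Adj s t}

/-- no crossing of the outer and of the inner third -/
def NCj (j : ℕ) : Set Cfg := NC g.a (g.vo j) (g.v' j) (-g.H) (g.w + g.H) ∩
  NC g.a (g.v j) (g.vi j) (-g.H) (g.w + g.H)

/-- no crossing of the middle third -/
def NCm (j : ℕ) : Set Cfg := NC g.a (g.vi j) (g.vo j) (-g.H) (g.w + g.H)

variable {g}

theorem mem_Lay {t : P2} : t ∈ g.Lay ↔ t ∈ g.SL ∧ (row g.a t < 0 ∨ (g.w : ℤ) ≤ row g.a t) := by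
  unfold Lay; rw [Finset.mem_filter]

theorem mem_RW {t : P2} : t ∈ g.RW ↔ t ∈ g.Lay ∧ (row g.a t = -g.H ∨ row g.a t = g.w + g.H - 1 ∨
    ∃ j ≤ g.m, g.W j - 1 ≤ col g.a t ∧ col g.a t ≤ g.W j + 1) := by
  unfold RW; rw [Finset.mem_filter]

theorem H_ge : 4 * (g.w : ℤ) ≤ g.H := by
  unfold H
  have h1 : (4 : ℤ) ≤ g.h := by exact_mod_cast g.hh
  exact mul_le_mul_of_nonneg_right h1 (by positivity)

theorem S_eq : g.S = g.SL \ g.Lay := by
  ext t
  rw [Finset.mem_sdiff, mem_Lay]
  unfold S SL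
  rw [mem_Box, mem_Box]
  have := H_ge (g := g)
  have := g.w_pos
  omega

theorem RW_sub : g.RW ⊆ g.Lay := Finset.filter_subset _ _
theorem Lay_sub : g.Lay ⊆ g.SL := Finset.filter_subset _ _

/-- a triangle of `SL` in an outermost row is revealed -/
theorem rw_of_row {t : P2} (ht : t ∈ g.SL) (h : row g.a t = -g.H ∨ row g.a t = g.w + g.H - 1) :
    t ∈ g.RW := by
  have h1 := H_ge (g := g)
  have h2 := g.w_pos
  rw [mem_RW, mem_Lay]
  exact ⟨⟨ht, by omega⟩, by tauto⟩

theorem inner_row {N : Finset P2} (hN : Disjoint N g.RW) {t : P2} (ht : t ∈ g.SL) (htN : t ∈ N) :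
    -g.H < row g.a t ∧ row g.a t < g.w + g.H - 1 := by
  have h0 : t ∉ g.RW := fun h => Finset.disjoint_left.1 hN htN h
  have h1 : ¬ (row g.a t = -g.H ∨ row g.a t = g.w + g.H - 1) := fun h => h0 (rw_of_row ht h)
  unfold SL at ht
  rw [mem_Box] at ht
  omega

theorem Vset_sub {x : ℤ} (hx : x ≤ g.W g.m + 2) : Box g.a 0 x (-g.H) (g.w + g.H) ⊆ g.SL :=
  Box_mono le_rfl hx le_rfl le_rfl

/-- **outer barrier**: no crossing of the outer third keeps the exploration from outside `V' j`, with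
its layer, off `Vo j` -/
theorem bar_out {N : Finset P2} (hN : Disjoint N g.RW) {j : ℕ} (hj : j < g.m) {ω : Cfg}
    (hω : ω ∈ NC g.a (g.vo j) (g.v' j) (-g.H) (g.w + g.H)) :
    Disjoint (Cl N (Ex N (N \ g.V' j) ω)) (g.Vo j) := by
  obtain ⟨o1, o2, o3, o4, o5⟩ := g.order j
  have hw := g.w_pos
  have hKw : (0 : ℤ) ≤ g.K * g.w := by positivity
  have hW := g.W_le (show j + 1 ≤ g.m by omega)
  have hs' : g.v' j ≤ g.W g.m + 2 := by nlinarith
  have hV' : g.V' j ⊆ g.SL := Vset_sub hs'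
  have hV'm : ∀ t, t ∈ g.V' j ↔ (0 ≤ col g.a t ∧ col g.a t < g.v' j) ∧
      (-g.H ≤ row g.a t ∧ row g.a t < g.w + g.H) := fun t => mem_Box
  have h := expl (N := N) (R0 := N \ g.V' j) (ω := ω)
    (P := fun e => e ∉ g.V' j) (M := fun e => e ∈ Box g.a (g.vo j) (g.v' j) (-g.H) (g.w + g.H))
    (ent := fun e => col g.a e = g.v' j - 1) (ext := fun e => col g.a e = g.vo j)
    Finset.sdiff_subset (fun r hr => (Finset.mem_sdiff.1 hr).2)
    (fun b e hb hbN heN hbe => by
      by_cases he : e ∈ g.V' j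
      · right
        have h1 := inner_row hN (hV' he) heN
        have h2 := row_adj (a := g.a) hbe
        have h3 := col_adj (a := g.a) hbe
        rw [hV'm] at he hb
        have h4 : 0 ≤ col g.a b := abs_nonneg _
        rw [mem_Box]
        refine ⟨⟨⟨by omega, by omega⟩, by omega⟩, by omega⟩
      · exact Or.inl he)
    (fun b e hb hbN heN hbe => by
      by_cases he : e ∈ g.V' j
      · right
        have h3 := col_adj (a := g.a) hbe
        rw [hV'm] at he
        rw [mem_Box] at hb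
        by_cases h4 : g.vo j ≤ col g.a e
        · left
          rw [mem_Box]
          omega
        · right
          omega
      · exact Or.inl he)
    (fun u v hu hv => NC.swap hω hu hv)
  rw [Finset.disjoint_left]
  intro t ht hto
  obtain ⟨htN, ht2⟩ := mem_Cl.1 ht
  unfold Vo at hto
  rw [mem_Box] at hto
  have htV' : t ∈ g.V' j := by rw [hV'm]; omega
  rcases ht2 with ht2 | ⟨s, hs, hst⟩
  · rcases h t ht2 with h1 | ⟨h1, h2⟩
    · exact h1 htV'
    · rw [mem_Box] at h1; omega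
  · have h3 := col_adj (a := g.a) hst
    have h4 := row_adj (a := g.a) hst
    rcases h s hs with h1 | ⟨h1, h2⟩
    · have h5 := inner_row hN (hV' htV') htN
      have h6 : 0 ≤ col g.a s := abs_nonneg _
      apply h1
      rw [hV'm]
      omega
    · rw [mem_Box] at h1; omega

/-- **inner barrier** -/
theorem bar_in {N : Finset P2} (hN : Disjoint N g.RW) {j : ℕ} (hj : j < g.m) {ω : Cfg}
    (hω : ω ∈ NC g.a (g.v j) (g.vi j) (-g.H) (g.w + g.H)) :
    Cl N (Ex N (N ∩ g.V j) ω) ⊆ g.Vi j := by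
  obtain ⟨o1, o2, o3, o4, o5⟩ := g.order j
  have hw := g.w_pos
  have hKw : (0 : ℤ) ≤ g.K * g.w := by positivity
  have hW := g.W_le (show j + 1 ≤ g.m by omega)
  have hs' : g.vi j ≤ g.W g.m + 2 := by nlinarith
  have hSL : ∀ t, (0 ≤ col g.a t ∧ col g.a t < g.vi j + 1) ∧
      (-g.H ≤ row g.a t ∧ row g.a t < g.w + g.H) → t ∈ g.SL := fun t ht => by
    unfold SL
    rw [mem_Box]
    have : g.vi j + 1 ≤ g.W g.m + 2 := by nlinarith
    omega
  have hrow : ∀ b e, b ∈ N → Adj b e →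
      ((0 ≤ col g.a b ∧ col g.a b < g.vi j + 1) ∧
      (-g.H ≤ row g.a b ∧ row g.a b < g.w + g.H)) → -g.H ≤ row g.a e ∧ row g.a e < g.w + g.H := by
    intro b e hb hbe h
    have h1 := inner_row hN (hSL b h) hb
    have h2 := row_adj (a := g.a) hbe
    omega
  have h := expl (N := N) (R0 := N ∩ g.V j) (ω := ω)
    (P := fun e => e ∈ g.V j) (M := fun e => e ∈ Box g.a (g.v j) (g.vi j) (-g.H) (g.w + g.H))
    (ent := fun e => col g.a e = g.v j) (ext := fun e => col g.a e = g.vi j - 1)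
    Finset.inter_subset_left (fun r hr => (Finset.mem_inter.1 hr).2)
    (fun b e hb hbN heN hbe => by
      unfold V at hb ⊢
      rw [mem_Box] at hb ⊢
      rw [mem_Box]
      have h2 := hrow b e hbN hbe (by omega)
      have h3 := col_adj (a := g.a) hbe
      have h4 : 0 ≤ col g.a e := abs_nonneg _
      omega)
    (fun b e hb hbN heN hbe => by
      unfold V
      rw [mem_Box] at hb ⊢
      rw [mem_Box]
      have h4 : 0 ≤ col g.a e := abs_nonneg _
      have hv0 : 0 ≤ g.v j := by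
        have := g.W_pos j
        nlinarith
      have h2 := hrow b e hbN hbe (by omega)
      have h3 := col_adj (a := g.a) hbe
      omega)
    (fun u v hu hv => hω u v hu hv)
  intro t ht
  obtain ⟨htN, ht2⟩ := mem_Cl.1 ht
  unfold Vi
  rw [mem_Box]
  have h0 : 0 ≤ col g.a t := abs_nonneg _
  have hv0 : 0 ≤ g.v j := by
    have := g.W_pos j
    nlinarith
  rcases ht2 with ht2 | ⟨s, hs, hst⟩
  · rcases h t ht2 with h1 | ⟨h1, h2⟩
    · unfold V at h1; rw [mem_Box] at h1; omega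
    · rw [mem_Box] at h1; omega
  · have h3 := col_adj (a := g.a) hst
    have hsN : s ∈ N := Ex_sub _ _ _ hs
    rcases h s hs with h1 | ⟨h1, h2⟩
    · unfold V at h1
      rw [mem_Box] at h1
      have h5 := hrow s t hsN hst (by omega)
      omega
    · rw [mem_Box] at h1
      have h5 := hrow s t hsN hst (by omega)
      omega

/-- **middle barrier**, for every `D` inside the core of the block -/
theorem bar_mid {D : Finset P2} {j : ℕ} (hD : D ⊆ g.V' j \ g.V j) {ω : Cfg} (hω : ω ∈ g.NCm j) :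
    ω ∈ Bar D (D \ g.Vo j) (D ∩ g.Vi j) := by
  obtain ⟨o1, o2, o3, o4, o5⟩ := g.order j
  have hw := g.w_pos
  have hDm : ∀ t ∈ D, (0 ≤ col g.a t ∧ col g.a t < g.v' j) ∧
      (-g.H ≤ row g.a t ∧ row g.a t < g.w + g.H) := fun t ht => by
    have := (Finset.mem_sdiff.1 (hD ht)).1
    unfold V' at this
    rwa [mem_Box] at this
  have h := expl (N := D) (R0 := D \ g.Vo j) (ω := ω)
    (P := fun e => g.vo j ≤ col g.a e) (M := fun e => e ∈ Box g.a (g.vi j) (g.vo j) (-g.H) (g.w + g.H))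
    (ent := fun e => col g.a e = g.vo j - 1) (ext := fun e => col g.a e = g.vi j)
    Finset.sdiff_subset
    (fun r hr => by
      obtain ⟨h1, h2⟩ := Finset.mem_sdiff.1 hr
      have h3 := hDm r h1
      by_contra h4
      apply h2
      unfold Vo
      rw [mem_Box]
      omega)
    (fun b e hb hbN heN hbe => by
      have h1 := hDm e heN
      have h3 := col_adj (a := g.a) hbe
      rw [mem_Box]
      omega)
    (fun b e hb hbN heN hbe => by
      have h1 := hDm e heN
      have h3 := col_adj (a := g.a) hbe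
      rw [mem_Box] at hb ⊢
      omega)
    (fun u v hu hv => NC.swap (show ω ∈ NC _ _ _ _ _ from hω) hu hv)
  show Disjoint _ _
  rw [Finset.disjoint_left]
  intro t ht hto
  obtain ⟨htN, ht2⟩ := mem_Cl.1 ht
  have h5 := (Finset.mem_inter.1 hto).2
  unfold Vi at h5
  rw [mem_Box] at h5
  rcases ht2 with ht2 | ⟨s, hs, hst⟩
  · rcases h t ht2 with h1 | ⟨h1, h2⟩
    · omega
    · rw [mem_Box] at h1; omega
  · have h3 := col_adj (a := g.a) hst
    rcases h s hs with h1 | ⟨h1, h2⟩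
    · omega
    · rw [mem_Box] at h1; omega

end GP

end Crest.Agent.R144.Cgeo311
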