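import Crest.Agent.R144.Rsw0_867
import Crest.Agent.R144.Pst10_967

/-!
# R144, marked model, part 1: exploration from outside and unicoherence (helper696)

* `unico` : if a finite connected set `W` of triangles has connected complement and every triangle of `W` with
  a neighbour off `W` is in `P ∪ Q`, `P`, `Q` not adjacent, then all of them are in `P` or all of them are in `Q`;
* `Ex S K` : triangles joined to the outside of `K` by steps into `Sᶜ`; `Un S K` : unexplored triangles
  (not in `Ex`, no neighbour in `Ex`); `sc_Un`, `layer_Un`, `Un_congr`;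
* `sepr_un` : `Sepr S a (m+1) N → ball a m ⊆ Un S (ball a (N+1))`;
* `sepr_or` : a layer of `P ∪ Q` gives a layer of `P` or a layer of `Q`.
-/

set_option autoImplicit false
set_option linter.unusedSectionVars false

noncomputable section

namespace Crest.Agent.R144.Mk696

open Finset
open Crest.Agent.R144.It844 (P2 adj_symm adj_iff adj_comm)
open Crest.ProbabilityR.HexHeights (Adj)
open Crest.Agent.R144.Zg349
open Crest.Agent.R144.Rsw867
open Crest.Agent.R144.Pst967 (hexB mem_hexB hexB_mono conn_hexB stepIn_symm path_symm conn_in_hexB)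

/-! ### exactness -/

theorem conn_const {A : Type*} {S : Set P2} (hS : IsConn S) (σ : P2 → A)
    (h : ∀ u ∈ S, ∀ v ∈ S, Adj u v → σ u = σ v) {u v : P2} (hu : u ∈ S) (hv : v ∈ S) : σ u = σ v := by
  have hp := hS u hu v hv
  clear hv
  induction hp with
  | refl => rfl
  | @tail b d _ h2 ih => rw [ih, h b h2.1 d h2.2.1 h2.2.2]

/-- the edge function is `1` on edges between `Wᶜ` and `W ∩ P` -/
theorem unico {W : Finset P2} (hW : IsConn (W : Set P2)) (hW' : SC W) {P Q : Set P2}
    (hPQ : ∀ u ∈ W, ∀ v ∈ W, u ∈ P → v ∈ Q → ¬ Adj u v)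
    (hb : ∀ u ∈ W, ∀ v, v ∉ W → Adj u v → u ∈ P ∨ u ∈ Q) :
    (∀ u ∈ W, ∀ v, v ∉ W → Adj u v → u ∈ P) ∨ (∀ u ∈ W, ∀ v, v ∉ W → Adj u v → u ∉ P) := by
  classical
  -- edge function
  set q : P2 → P2 → ZMod 2 := fun u v =>
    (if u ∈ W ∧ v ∉ W ∧ u ∈ P then 1 else 0) + (if v ∈ W ∧ u ∉ W ∧ v ∈ P then 1 else 0) with hq
  have qsymm : ∀ u v, q u v = q v u := fun u v => by rw [hq]; simp only; rw [add_comm]
  have q_in : ∀ u v, u ∈ W → v ∈ W → q u v = 0 := fun u v hu hv => by simp [hq, hu, hv]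
  have q_out : ∀ u v, u ∉ W → v ∉ W → q u v = 0 := fun u v hu hv => by simp [hq, hu, hv]
  have q_P : ∀ u v, u ∈ W → v ∉ W → u ∈ P → q u v = 1 := fun u v hu hv hP => by simp [hq, hu, hv, hP]
  have q_nP : ∀ u v, u ∈ W → v ∉ W → u ∉ P → q u v = 0 := fun u v hu hv hP => by simp [hq, hu, hv, hP]
  -- two neighbours in `W` with a common neighbour off `W`
  have same : ∀ u v x, u ∈ W → v ∈ W → x ∉ W → Adj u v → Adj u x → Adj v x → (u ∈ P ↔ v ∈ P) := by
    intro u v x hu hv hx huv hux hvx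
    constructor
    · intro h
      rcases hb v hv x hx hvx with h1 | h1
      · exact h1
      · exact absurd huv (hPQ u hu v hv h h1)
    · intro h
      rcases hb u hu x hx hux with h1 | h1
      · exact h1
      · exact absurd (adj_symm huv) (hPQ v hv u hu h h1)
  have two : (1 : ZMod 2) + 1 = 0 := by decide
  -- closedness on lattice triangles
  have closed : ∀ u v x, Adj u v → Adj v x → Adj u x → q u v + q v x + q u x = 0 := by
    intro u v x huv hvx hux
    by_cases hu : u ∈ W <;> by_cases hv : v ∈ W <;> by_cases hx : x ∈ W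
    · rw [q_in _ _ hu hv, q_in _ _ hv hx, q_in _ _ hu hx]; decide
    · have hs := same u v x hu hv hx huv hux hvx
      rw [q_in _ _ hu hv]
      by_cases hP : u ∈ P
      · rw [q_P _ _ hu hx hP, q_P _ _ hv hx (hs.1 hP)]; decide
      · rw [q_nP _ _ hu hx hP, q_nP _ _ hv hx (fun h => hP (hs.2 h))]; decide
    · have hs := same u x v hu hx hv hux huv (adj_symm hvx)
      rw [q_in _ _ hu hx, qsymm v x]
      by_cases hP : u ∈ P
      · rw [q_P _ _ hu hv hP, q_P _ _ hx hv (hs.1 hP)]; decide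
      · rw [q_nP _ _ hu hv hP, q_nP _ _ hx hv (fun h => hP (hs.2 h))]; decide
    · rw [q_out _ _ hv hx]
      by_cases hP : u ∈ P
      · rw [q_P _ _ hu hv hP, q_P _ _ hu hx hP]; decide
      · rw [q_nP _ _ hu hv hP, q_nP _ _ hu hx hP]; decide
    · have hs := same v x u hv hx hu hvx (adj_symm huv) (adj_symm hux)
      rw [q_in _ _ hv hx, qsymm u v, qsymm u x]
      by_cases hP : v ∈ P
      · rw [q_P _ _ hv hu hP, q_P _ _ hx hu (hs.1 hP)]; decide
      · rw [q_nP _ _ hv hu hP, q_nP _ _ hx hu (fun h => hP (hs.2 h))]; decide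
    · rw [q_out _ _ hu hx, qsymm u v]
      by_cases hP : v ∈ P
      · rw [q_P _ _ hv hu hP, q_P _ _ hv hx hP]; decide
      · rw [q_nP _ _ hv hu hP, q_nP _ _ hv hx hP]; decide
    · rw [q_out _ _ hu hv, qsymm v x, qsymm u x]
      by_cases hP : x ∈ P
      · rw [q_P _ _ hx hv hP, q_P _ _ hx hu hP]; decide
      · rw [q_nP _ _ hx hv hP, q_nP _ _ hx hu hP]; decide
    · rw [q_out _ _ hu hv, q_out _ _ hv hx, q_out _ _ hu hx]; decide
  -- support
  set S : Finset P2 := W ∪ W.image (fun t => (t.1 + 1, t.2)) ∪ W.image (fun t => (t.1, t.2 + 1)) with hS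
  have hsupp : ∀ t, t ∉ S → (q t (t.1, t.2 - 1), q t (t.1 - 1, t.2)) = (0 : ZMod 2 × ZMod 2) := by
    intro t ht
    have h0 : t ∉ W := fun h => ht (by simp [hS, h])
    have h1 : (t.1 - 1, t.2) ∉ W := fun h => ht (by
      rw [hS, Finset.mem_union, Finset.mem_union, Finset.mem_image]
      exact Or.inl (Or.inr ⟨_, h, by simp⟩))
    have h2 : (t.1, t.2 - 1) ∉ W := fun h => ht (by
      rw [hS, Finset.mem_union, Finset.mem_image]
      exact Or.inr ⟨_, h, by simp⟩)
    rw [q_out _ _ h0 h1, q_out _ _ h0 h2]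
    rfl
  obtain ⟨σ, h1, -⟩ := poin (fun t => (q t (t.1, t.2 - 1), q t (t.1 - 1, t.2))) S hsupp (by
    rintro ⟨a, b⟩
    simp only [defect]
    have a1 : Adj ((a, b) : P2) (a, b - 1) := by rw [adj_iff]; simp
    have a2 : Adj ((a, b) : P2) (a - 1, b) := by rw [adj_iff]; simp
    have a3 : Adj ((a - 1, b) : P2) (a, b - 1) := by rw [adj_iff]; simp
    have a3' : Adj ((a, b - 1) : P2) (a - 1, b) := adj_symm a3
    have a4 : Adj ((a - 1, b) : P2) (a - 1, b - 1) := by rw [adj_iff]; simp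
    have a5 : Adj ((a, b - 1) : P2) (a - 1, b - 1) := by rw [adj_iff]; simp
    have e1 := closed (a, b) (a, b - 1) (a - 1, b) a1 a3' a2
    have e2 := closed (a, b - 1) (a - 1, b) (a - 1, b - 1) a3' a4 a5
    generalize q (a, b) (a, b - 1) = x1 at *
    generalize q (a, b) (a - 1, b) = x2 at *
    generalize q (a, b - 1) (a - 1, b) = x3 at *
    generalize q (a - 1, b) (a - 1, b - 1) = x4 at *
    generalize q (a, b - 1) (a - 1, b - 1) = x5 at *
    clear a1 a2 a3 a3' a4 a5
    revert x1 x2 x3 x4 x5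
    decide)
  have g1 : ∀ t : P2, σ t + σ (t.1, t.2 - 1) = q t (t.1, t.2 - 1) := fun t => congrArg Prod.fst (h1 t)
  have g2 : ∀ t : P2, σ t + σ (t.1 - 1, t.2) = q t (t.1 - 1, t.2) := fun t => congrArg Prod.snd (h1 t)
  have k1 : ∀ x y z : ZMod 2, x + y = z → y + x = z := by decide
  -- exactness on every edge
  have key : ∀ u v, Adj u v → σ u + σ v = q u v := by
    rintro ⟨a, b⟩ v huv
    rcases adj_iff.1 huv with rfl | rfl | rfl | rfl | rfl | rfl
    · have := g2 (a + 1, b)
      simp only [add_sub_cancel_right] at this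
      rw [qsymm]
      exact k1 _ _ _ this
    · exact g2 (a, b)
    · have := g1 (a, b + 1)
      simp only [add_sub_cancel_right] at this
      rw [qsymm]
      exact k1 _ _ _ this
    · exact g1 (a, b)
    · -- (a+1, b-1) : through (a+1, b)
      have e1 := g1 (a + 1, b)
      have e2 := g2 (a + 1, b)
      simp only [add_sub_cancel_right] at e1 e2
      have a1 : Adj ((a + 1, b) : P2) (a + 1, b - 1) := by rw [adj_iff]; simp
      have a2 : Adj ((a + 1, b) : P2) (a, b) := by rw [adj_iff]; simp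
      have e3 := closed (a + 1, b) (a, b) (a + 1, b - 1) a2 huv a1
      generalize q (a + 1, b) (a + 1, b - 1) = x1 at *
      generalize q (a + 1, b) (a, b) = x2 at *
      generalize q (a, b) (a + 1, b - 1) = x3 at *
      generalize σ (a + 1, b) = y1 at *
      generalize σ (a + 1, b - 1) = y2 at *
      generalize σ (a, b) = y3 at *
      clear a1 a2
      revert x1 x2 x3 y1 y2 y3
      decide
    · have e1 := g1 (a, b + 1)
      have e2 := g2 (a, b + 1)
      simp only [add_sub_cancel_right] at e1 e2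
      have a1 : Adj ((a, b + 1) : P2) (a, b) := by rw [adj_iff]; simp
      have a2 : Adj ((a, b + 1) : P2) (a - 1, b + 1) := by rw [adj_iff]; simp
      have e3 := closed (a, b + 1) (a, b) (a - 1, b + 1) a1 huv a2
      generalize q (a, b + 1) (a, b) = x1 at *
      generalize q (a, b + 1) (a - 1, b + 1) = x2 at *
      generalize q (a, b) (a - 1, b + 1) = x3 at *
      generalize σ (a, b + 1) = y1 at *
      generalize σ (a - 1, b + 1) = y2 at *
      generalize σ (a, b) = y3 at *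
      clear a1 a2
      revert x1 x2 x3 y1 y2 y3
      decide
  have kk : ∀ x y : ZMod 2, x + y = 0 → x = y := by decide
  have cW : ∀ u ∈ W, ∀ v ∈ W, σ u = σ v := fun u hu v hv =>
    conn_const hW σ (fun u hu v hv h => kk _ _ (by rw [key u v h, q_in u v hu hv])) hu hv
  have cW' : ∀ u, u ∉ W → ∀ v, v ∉ W → σ u = σ v := fun u hu v hv =>
    conn_const hW' σ (fun u hu v hv h => kk _ _ (by
      rw [key u v h, q_out u v (by simpa using hu) (by simpa using hv)]))
      (by simpa using hu) (by simpa using hv)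
  by_cases h : ∃ u ∈ W, ∃ v, v ∉ W ∧ Adj u v ∧ u ∈ P
  · left
    obtain ⟨u0, hu0, v0, hv0, ha0, hP0⟩ := h
    have e0 := key u0 v0 ha0
    rw [q_P _ _ hu0 hv0 hP0] at e0
    intro u hu v hv ha
    by_contra hP
    have e1 := key u v ha
    rw [q_nP _ _ hu hv hP, cW u hu u0 hu0, cW' v hv v0 hv0, e0] at e1
    exact absurd e1 (by decide)
  · right
    push Not at h
    exact h

/-! ### exploration from outside -/

/-- step into `Sᶜ` -/
def NStep (S : Set P2) (a b : P2) : Prop := Adj a b ∧ b ∉ S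

/-- explored set: joined to the outside of `K` by steps into `Sᶜ` -/
def Ex (S : Set P2) (K : Finset P2) : Set P2 := {t | ∃ t0, t0 ∉ K ∧ Relation.ReflTransGen (NStep S) t0 t}

theorem ex_of_notMem (S : Set P2) {K : Finset P2} {t : P2} (h : t ∉ K) : t ∈ Ex S K :=
  ⟨t, h, Relation.ReflTransGen.refl⟩

theorem ex_step {S : Set P2} {K : Finset P2} {t t' : P2} (h : t ∈ Ex S K) (h1 : Adj t t') (h2 : t' ∉ S) :
    t' ∈ Ex S K := by
  obtain ⟨t0, h3, h4⟩ := h
  exact ⟨t0, h3, h4.tail ⟨h1, h2⟩⟩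

theorem ex_anti {S T : Set P2} (h : S ⊆ T) {K : Finset P2} {t : P2} (ht : t ∈ Ex T K) : t ∈ Ex S K := by
  obtain ⟨t0, h3, h4⟩ := ht
  exact ⟨t0, h3, Relation.ReflTransGen.mono (fun a b hab => ⟨hab.1, fun h5 => hab.2 (h h5)⟩) _ _ h4⟩

open Classical in
/-- the unexplored domain -/
def Un (S : Set P2) (K : Finset P2) : Finset P2 :=
  K.filter fun t => t ∉ Ex S K ∧ ∀ t', Adj t t' → t' ∉ Ex S K

theorem mem_Un {S : Set P2} {K : Finset P2} {t : P2} :
    t ∈ Un S K ↔ t ∉ Ex S K ∧ ∀ t', Adj t t' → t' ∉ Ex S K := by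
  classical
  unfold Un
  rw [Finset.mem_filter]
  refine ⟨fun h => h.2, fun h => ⟨?_, h⟩⟩
  by_contra h1
  exact h.1 (ex_of_notMem S h1)

theorem notMem_Un {S : Set P2} {K : Finset P2} {t : P2} :
    t ∉ Un S K ↔ t ∈ Ex S K ∨ ∃ t', Adj t t' ∧ t' ∈ Ex S K := by
  rw [mem_Un]
  push Not
  constructor
  · intro h
    by_cases h1 : t ∈ Ex S K
    · exact Or.inl h1
    · exact Or.inr (h h1)
  · rintro (h | h) h1
    · exact absurd h h1
    · exact h

theorem Un_sub (S : Set P2) (K : Finset P2) : Un S K ⊆ K := by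
  classical
  exact Finset.filter_subset _ _

/-- the triangles next to the unexplored domain are in `S` and in `K` -/
theorem layer_Un {S : Set P2} {K : Finset P2} {t t' : P2} (h : t ∈ Un S K) (ht' : t' ∉ Un S K)
    (ha : Adj t t') : t' ∈ S ∧ t' ∈ K := by
  rw [mem_Un] at h
  rw [notMem_Un] at ht'
  have h1 : t' ∉ Ex S K := h.2 t' ha
  refine ⟨?_, ?_⟩
  · rcases ht' with h2 | ⟨u, hu, hux⟩
    · exact absurd h2 h1
    · by_contra h3
      exact h1 (ex_step hux (adj_symm hu) h3)
  · by_contra h3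
    exact h1 (ex_of_notMem S h3)

/-- the complement of the unexplored domain is connected -/
theorem sc_Un (S : Set P2) {K : Finset P2} (hK : SC K) : SC (Un S K) := by
  set T : Set P2 := ((Un S K : Finset P2) : Set P2)ᶜ with hT
  have hmem : ∀ t, t ∈ T ↔ t ∉ Un S K := fun t => by
    rw [hT, Set.mem_compl_iff, Finset.mem_coe]
  have hX : ∀ t, t ∈ Ex S K → t ∈ T := fun t ht => by
    rw [hmem, notMem_Un]; exact Or.inl ht
  have h1 : ∀ t0 t, t0 ∉ K → Relation.ReflTransGen (NStep S) t0 t →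
      Relation.ReflTransGen (StepIn T) t0 t := by
    intro t0 t h0 h
    induction h with
    | refl => exact Relation.ReflTransGen.refl
    | @tail b d h2 h3 ih =>
      exact ih.tail ⟨hX _ ⟨t0, h0, h2⟩, hX _ ⟨t0, h0, h2.tail h3⟩, h3.1⟩
  have h2 : ∀ t ∈ T, ∃ t0, t0 ∉ K ∧ Relation.ReflTransGen (StepIn T) t0 t := by
    intro t ht
    have ht' := ht
    rw [hmem, notMem_Un] at ht
    rcases ht with ⟨t0, h3, h4⟩ | ⟨u, hu, t0, h3, h4⟩
    · exact ⟨t0, h3, h1 t0 t h3 h4⟩
    · exact ⟨t0, h3, (h1 t0 u h3 h4).tail ⟨hX u ⟨t0, h3, h4⟩, ht', adj_symm hu⟩⟩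
  have h3 : ∀ t0 t1, t0 ∉ K → t1 ∉ K → Relation.ReflTransGen (StepIn T) t0 t1 := by
    intro t0 t1 ht0 ht1
    have := hK t0 (by simpa using ht0) t1 (by simpa using ht1)
    refine Relation.ReflTransGen.mono (fun a b hab => ?_) _ _ this
    exact ⟨hX a (ex_of_notMem S (by simpa using hab.1)), hX b (ex_of_notMem S (by simpa using hab.2.1)),
      hab.2.2⟩
  intro u hu v hv
  obtain ⟨t0, h4, h5⟩ := h2 u hu
  obtain ⟨t1, h6, h7⟩ := h2 v hv
  exact ((path_symm h5).trans (h3 t0 t1 h4 h6)).trans h7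

/-- the event `Un S K = B` depends only on `S` off `B` -/
theorem Un_congr {S S' : Set P2} {K B : Finset P2} (h : ∀ t, t ∉ B → (t ∈ S ↔ t ∈ S'))
    (hB : Un S K = B) : Un S' K = B := by
  have hX : Ex S' K = Ex S K := by
    ext t
    constructor
    · rintro ⟨t0, h3, h4⟩
      induction h4 with
      | refl => exact ex_of_notMem S h3
      | @tail b d _ h5 ih =>
        by_contra h6
        have h7 : d ∉ B := by
          rw [← hB, notMem_Un]
          exact Or.inr ⟨b, adj_symm h5.1, ih⟩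
        exact h6 (ex_step ih h5.1 fun h8 => h5.2 ((h d h7).1 h8))
    · rintro ⟨t0, h3, h4⟩
      induction h4 with
      | refl => exact ex_of_notMem S' h3
      | @tail b d h4 h5 ih =>
        refine ex_step ih h5.1 fun h6 => ?_
        have h7 : d ∉ B := by
          rw [← hB, notMem_Un]
          exact Or.inl ⟨t0, h3, h4.tail h5⟩
        exact h5.2 ((h d h7).2 h6)
  rw [← hB]
  ext t
  rw [mem_Un, mem_Un, hX]

/-! ### the plane is connected -/

theorem adj_x (a b : ℤ) : Adj ((a, b) : P2) (a + 1, b) := by rw [adj_iff]; simp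

theorem adj_y (a b : ℤ) : Adj ((a, b) : P2) (a, b + 1) := by rw [adj_iff]; simp

theorem path_x (a b : ℤ) (n : ℕ) : Relation.ReflTransGen Adj ((a, b) : P2) (a + n, b) := by
  induction n with
  | zero => simpa using Relation.ReflTransGen.refl
  | succ n ih =>
    refine ih.tail ?_
    have := adj_x (a + n) b
    push_cast
    rwa [add_assoc] at this

theorem path_y (a b : ℤ) (n : ℕ) : Relation.ReflTransGen Adj ((a, b) : P2) (a, b + n) := by
  induction n with
  | zero => simpa using Relation.ReflTransGen.refl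
  | succ n ih =>
    refine ih.tail ?_
    have := adj_y a (b + n)
    push_cast
    rwa [add_assoc] at this

theorem rtg_symm {u v : P2} (h : Relation.ReflTransGen Adj u v) : Relation.ReflTransGen Adj v u := by
  induction h with
  | refl => exact Relation.ReflTransGen.refl
  | tail _ h2 ih => exact Relation.ReflTransGen.head (adj_symm h2) ih

theorem plane_conn (u v : P2) : Relation.ReflTransGen Adj u v := by
  have hx : ∀ a a' b : ℤ, Relation.ReflTransGen Adj ((a, b) : P2) (a', b) := by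
    intro a a' b
    rcases le_total a a' with h | h
    · have := path_x a b (a' - a).toNat
      rwa [Int.toNat_of_nonneg (by omega), add_sub_cancel] at this
    · have := path_x a' b (a - a').toNat
      rw [Int.toNat_of_nonneg (by omega), add_sub_cancel] at this
      exact rtg_symm this
  have hy : ∀ a b b' : ℤ, Relation.ReflTransGen Adj ((a, b) : P2) (a, b') := by
    intro a b b'
    rcases le_total b b' with h | h
    · have := path_y a b (b' - b).toNat
      rwa [Int.toNat_of_nonneg (by omega), add_sub_cancel] at this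
    · have := path_y a b' (b - b').toNat
      rw [Int.toNat_of_nonneg (by omega), add_sub_cancel] at this
      exact rtg_symm this
  obtain ⟨a, b⟩ := u
  obtain ⟨x, y⟩ := v
  exact (hx a x b).trans (hy x b y)

/-! ### unicoherence for explorations -/

/-- If the exploration through the complement of `P ∪ Q` does not reach the connected set `A`, and `P`, `Q` are
not adjacent in `K`, then the exploration through `Pᶜ` or the one through `Qᶜ` does not reach `A`. -/
theorem ex_or {K : Finset P2} (hK : SC K) {P Q A : Set P2} (hA : IsConn A)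
    (hPQ : ∀ u ∈ K, ∀ v ∈ K, u ∈ P → v ∈ Q → ¬ Adj u v)
    (h : ∀ t ∈ A, t ∉ Ex (P ∪ Q) K) : (∀ t ∈ A, t ∉ Ex P K) ∨ (∀ t ∈ A, t ∉ Ex Q K) := by
  classical
  rcases A.eq_empty_or_nonempty with hA0 | ⟨a0, ha0⟩
  · left
    intro t ht
    rw [hA0] at ht
    exact absurd ht (by simp)
  set X : Set P2 := Ex (P ∪ Q) K with hX
  set W : Finset P2 := K.filter fun w => Relation.ReflTransGen (StepIn Xᶜ) a0 w with hWdef
  have hXK : ∀ t, t ∉ X → t ∈ K := fun t ht => by
    by_contra h1
    exact ht (ex_of_notMem _ h1)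
  have ha0X : a0 ∉ X := h a0 ha0
  have stepX : ∀ w, Relation.ReflTransGen (StepIn Xᶜ) a0 w → w ∉ X := by
    intro w hw
    cases hw with
    | refl => exact ha0X
    | tail _ h2 => exact h2.2.1
  have mW : ∀ w, w ∈ W ↔ Relation.ReflTransGen (StepIn Xᶜ) a0 w := fun w => by
    rw [hWdef, Finset.mem_filter]
    exact ⟨fun h1 => h1.2, fun h1 => ⟨hXK w (stepX w h1), h1⟩⟩
  have WX : ∀ w ∈ W, w ∉ X := fun w hw => stepX w ((mW w).1 hw)
  have WK : ∀ w ∈ W, w ∈ K := fun w hw => hXK w (WX w hw)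
  have Wstep : ∀ u v, u ∈ W → v ∉ X → Adj u v → v ∈ W := by
    intro u v hu hv ha
    rw [mW] at *
    exact hu.tail ⟨stepX u hu, hv, ha⟩
  -- `W` connected
  have hpre : ∀ w, Relation.ReflTransGen (StepIn Xᶜ) a0 w →
      Relation.ReflTransGen (StepIn (W : Set P2)) a0 w := by
    intro w hw
    induction hw with
    | refl => exact Relation.ReflTransGen.refl
    | @tail b d h1 h2 ih =>
      exact ih.tail ⟨(mW b).2 h1, (mW d).2 (h1.tail h2), h2.2.2⟩
  have hWc : IsConn (W : Set P2) := by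
    intro u hu v hv
    exact (path_symm (hpre u ((mW u).1 hu))).trans (hpre v ((mW v).1 hv))
  -- complement connected
  have hXW : ∀ t, t ∈ X → t ∉ W := fun t ht hw => WX t hw ht
  have hXpath : ∀ t0 t, t0 ∉ K → Relation.ReflTransGen (NStep (P ∪ Q)) t0 t →
      Relation.ReflTransGen (StepIn ((W : Finset P2) : Set P2)ᶜ) t0 t := by
    intro t0 t h0 h1
    induction h1 with
    | refl => exact Relation.ReflTransGen.refl
    | @tail b d h2 h3 ih =>
      exact ih.tail ⟨hXW _ ⟨t0, h0, h2⟩, hXW _ ⟨t0, h0, h2.tail h3⟩, h3.1⟩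
  have hto : ∀ y o, o ∉ K → Relation.ReflTransGen Adj y o → y ∉ W →
      ∃ x ∈ X, Relation.ReflTransGen (StepIn ((W : Finset P2) : Set P2)ᶜ) y x := by
    intro y o ho hyo
    induction hyo using Relation.ReflTransGen.head_induction_on with
    | refl => exact fun _ => ⟨o, ex_of_notMem _ ho, Relation.ReflTransGen.refl⟩
    | @head a b hab _ ih =>
      intro haW
      by_cases haX : a ∈ X
      · exact ⟨a, haX, Relation.ReflTransGen.refl⟩
      · have hbW : b ∉ W := fun hb => haW (Wstep b a hb haX (adj_symm hab))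
        obtain ⟨x, hx, hp⟩ := ih hbW
        exact ⟨x, hx, Relation.ReflTransGen.head ⟨haW, hbW, hab⟩ hp⟩
  obtain ⟨o, ho⟩ : ∃ o : P2, o ∉ K := by
    obtain ⟨w, _, hw⟩ := exists_far K 0
    exact ⟨w, hw⟩
  have hto' : ∀ y, y ∉ W → ∃ t0, t0 ∉ K ∧
      Relation.ReflTransGen (StepIn ((W : Finset P2) : Set P2)ᶜ) y t0 := by
    intro y hy
    obtain ⟨x, ⟨t0, h1, h2⟩, hp⟩ := hto y o ho (plane_conn y o) hy
    exact ⟨t0, h1, hp.trans (path_symm (hXpath t0 x h1 h2))⟩
  have hWsc : SC W := by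
    intro u hu v hv
    obtain ⟨t0, h1, h2⟩ := hto' u (by simpa using hu)
    obtain ⟨t1, h3, h4⟩ := hto' v (by simpa using hv)
    refine (h2.trans ?_).trans (path_symm h4)
    have := hK t0 (by simpa using h1) t1 (by simpa using h3)
    refine Relation.ReflTransGen.mono (fun a b hab => ?_) _ _ this
    exact ⟨fun h5 => hab.1 (WK a h5), fun h5 => hab.2.1 (WK b h5), hab.2.2⟩
  -- boundary
  have hbd : ∀ u ∈ W, ∀ v, v ∉ W → Adj u v → v ∈ X := by
    intro u hu v hv ha
    by_contra h1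
    exact hv (Wstep u v hu h1 ha)
  have hb : ∀ u ∈ W, ∀ v, v ∉ W → Adj u v → u ∈ P ∨ u ∈ Q := by
    intro u hu v hv ha
    by_contra h1
    exact WX u hu (ex_step (hbd u hu v hv ha) (adj_symm ha) h1)
  have hAW : ∀ t ∈ A, t ∈ W := by
    intro t ht
    rw [mW]
    refine Relation.ReflTransGen.mono (fun a b hab => ⟨h a hab.1, h b hab.2.1, hab.2.2⟩) _ _
      (hA a0 ha0 t ht)
  have hcl : ∀ S : Set P2, (∀ u ∈ W, ∀ v, v ∉ W → Adj u v → u ∈ S) → ∀ t ∈ A, t ∉ Ex S K := by
    intro S hS t ht hE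
    have key : ∀ t, t ∈ Ex S K → t ∉ W := by
      rintro t ⟨t0, h1, h2⟩
      induction h2 with
      | refl => exact fun h3 => h1 (WK t0 h3)
      | @tail b d _ h3 ih => exact fun h4 => h3.2 (hS d h4 b ih (adj_symm h3.1))
    exact key t hE (hAW t ht)
  rcases unico hWc hWsc (P := P) (Q := Q) (fun u hu v hv => hPQ u (WK u hu) v (WK v hv)) hb with h1 | h1
  · exact Or.inl (hcl P h1)
  · refine Or.inr (hcl Q fun u hu v hv ha => ?_)
    rcases hb u hu v hv ha with h2 | h2
    · exact absurd h2 (h1 u hu v hv ha)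
    · exact h2

/-! ### layers and explorations -/

theorem ex_ball {S : Set P2} {a : P2} {N : ℕ} {t : P2} (h : t ∈ Ex S (ball a (N + 1))) :
    t ∉ ball a (N + 1) ∨ ∃ u, u ∉ ball a N ∧ Relation.ReflTransGen (StepIn Sᶜ) u t := by
  obtain ⟨t0, h1, h2⟩ := h
  have key : t ∉ ball a (N + 1) ∨ (t ∉ S ∧ ∃ u, u ∉ ball a N ∧
      Relation.ReflTransGen (StepIn Sᶜ) u t) := by
    induction h2 with
    | refl => exact Or.inl h1
    | @tail b d _ h3 ih =>
      right
      refine ⟨h3.2, ?_⟩
      rcases ih with h4 | ⟨h4, u, h5, h6⟩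
      · exact ⟨d, fun h5 => h4 (adj_ball h5 (adj_symm h3.1)), Relation.ReflTransGen.refl⟩
      · exact ⟨u, h5, h6.tail ⟨h4, h3.2, h3.1⟩⟩
  rcases key with h3 | ⟨_, h3⟩
  · exact Or.inl h3
  · exact Or.inr h3

theorem sepr_ex {S : Set P2} {a : P2} {m N : ℕ} (hmN : m ≤ N) (h : Sepr S a m N) {t : P2}
    (ht : t ∈ ball a m) : t ∉ Ex S (ball a (N + 1)) := by
  intro hE
  rcases ex_ball hE with h1 | ⟨u, h1, h2⟩
  · exact h1 (ball_mono a (by omega) ht)
  · exact h u t h1 ht h2

/-- a layer bounds the exploration -/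
theorem sepr_un {S : Set P2} {a : P2} {m N : ℕ} (hmN : m + 1 ≤ N) (h : Sepr S a (m + 1) N) :
    ball a m ⊆ Un S (ball a (N + 1)) := by
  intro t ht
  rw [mem_Un]
  refine ⟨sepr_ex hmN h (ball_mono a (by omega) ht), fun t' ha => ?_⟩
  exact sepr_ex hmN h (adj_ball ht ha)

theorem conn_ball (a : P2) (n : ℕ) : IsConn ((ball a n : Finset P2) : Set P2) := by
  have h0 : IsConn ((hexB n : Finset P2) : Set P2) := fun u hu v hv =>
    (conn_in_hexB n (by simpa using hu)).trans (path_symm (conn_in_hexB n (by simpa using hv)))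
  have h := conn_shift a h0
  have e : {v : P2 | v - a ∈ ((hexB n : Finset P2) : Set P2)} = ((ball a n : Finset P2) : Set P2) := by
    ext v
    show (v - a ∈ ((hexB n : Finset P2) : Set P2)) ↔ v ∈ ((ball a n : Finset P2) : Set P2)
    simp only [Finset.mem_coe, mem_ball']
  rw [e] at h
  exact h

/-- a triangle off `ball a N` is off `ball a (N+1)` or has a neighbour off `ball a (N+1)` -/
theorem exists_out {a u : P2} {N : ℕ} (hu : u ∉ ball a N) :
    u ∉ ball a (N + 1) ∨ ∃ t, t ∉ ball a (N + 1) ∧ Adj t u := by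
  by_cases h : u ∈ ball a (N + 1)
  · right
    rw [mem_ball] at hu h
    obtain ⟨h1, h2, h3⟩ := h
    rw [abs_le] at h1 h2 h3
    simp only [abs_le] at hu
    push_cast at h1 h2 h3
    obtain ⟨x, y⟩ := u
    simp only at hu h1 h2 h3
    by_cases c1 : x - a.1 = N + 1
    · refine ⟨(x + 1, y), fun h => ?_, by rw [adj_iff]; simp⟩
      rw [mem_ball] at h
      obtain ⟨h4, h5, h6⟩ := h
      rw [abs_le] at h4
      push_cast at h4
      omega
    by_cases c2 : x - a.1 = -(N + 1)
    · refine ⟨(x - 1, y), fun h => ?_, by rw [adj_iff]; simp⟩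
      rw [mem_ball] at h
      obtain ⟨h4, h5, h6⟩ := h
      rw [abs_le] at h4
      push_cast at h4
      omega
    by_cases c3 : y - a.2 = N + 1
    · refine ⟨(x, y + 1), fun h => ?_, by rw [adj_iff]; simp⟩
      rw [mem_ball] at h
      obtain ⟨h4, h5, h6⟩ := h
      rw [abs_le] at h5
      push_cast at h5
      omega
    by_cases c4 : y - a.2 = -(N + 1)
    · refine ⟨(x, y - 1), fun h => ?_, by rw [adj_iff]; simp⟩
      rw [mem_ball] at h
      obtain ⟨h4, h5, h6⟩ := h
      rw [abs_le] at h5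
      push_cast at h5
      omega
    by_cases c5 : x - a.1 + (y - a.2) = N + 1
    · refine ⟨(x + 1, y), fun h => ?_, by rw [adj_iff]; simp⟩
      rw [mem_ball] at h
      obtain ⟨h4, h5, h6⟩ := h
      rw [abs_le] at h6
      push_cast at h6
      omega
    · refine ⟨(x - 1, y), fun h => ?_, by rw [adj_iff]; simp⟩
      rw [mem_ball] at h
      obtain ⟨h4, h5, h6⟩ := h
      rw [abs_le] at h6
      push_cast at h6
      omega
  · exact Or.inl h

theorem sepr_iff_ex {S : Set P2} {a : P2} {m N : ℕ} (hmN : m ≤ N) :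
    Sepr S a m N ↔ ∀ t ∈ ball a m, t ∉ Ex S (ball a (N + 1)) := by
  refine ⟨fun h t ht => sepr_ex hmN h ht, fun h u v hu hv hp => ?_⟩
  by_cases huS : u ∈ S
  · -- the path is trivial or leaves `Sᶜ`
    rcases Relation.ReflTransGen.cases_head hp with h1 | ⟨w, h1, _⟩
    · subst h1
      exact hu (ball_mono a hmN hv)
    · exact h1.1 huS
  · have hp' : Relation.ReflTransGen (NStep S) u v :=
      Relation.ReflTransGen.mono (fun a b hab => ⟨hab.2.2, hab.2.1⟩) _ _ hp
    rcases exists_out hu with h1 | ⟨t, h1, h2⟩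
    · exact h v hv ⟨u, h1, hp'⟩
    · exact h v hv ⟨t, h1, Relation.ReflTransGen.head ⟨h2, huS⟩ hp'⟩

/-- **Janiszewski** : a layer of `P ∪ Q` is a layer of `P` or a layer of `Q` when `P`, `Q` are not adjacent. -/
theorem sepr_split {P Q : Set P2} {a : P2} {m N : ℕ} (hmN : m ≤ N)
    (hPQ : ∀ u ∈ ball a (N + 1), ∀ v ∈ ball a (N + 1), u ∈ P → v ∈ Q → ¬ Adj u v)
    (h : Sepr (P ∪ Q) a m N) : Sepr P a m N ∨ Sepr Q a m N := by
  rw [sepr_iff_ex hmN] at h
  rw [sepr_iff_ex hmN, sepr_iff_ex hmN]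
  exact ex_or (sc_ball a (N + 1)) (A := (ball a m : Set P2)) (conn_ball a m) hPQ h

theorem sepr_of_ex {S : Set P2} {a : P2} {m N : ℕ} (h : ∀ t ∈ ball a m, t ∉ Ex S (ball a N)) :
    Sepr S a m N := by
  intro u v hu hv hp
  refine h v hv ⟨u, hu, ?_⟩
  exact Relation.ReflTransGen.mono (fun a b hab => ⟨hab.2.2, hab.2.1⟩) _ _ hp

end Crest.Agent.R144.Mk696
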