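import Crest.Agent.R144.Pos1_561

/-!
# R144, block POS (helper561), part 2: logarithmic lower bound of the variance, finite volume

From the RSW interface `RSW c K p` (helper867), with the radii `rad K m` (`rad K 0 = 1`,
`rad K (m+1) = K (rad K m + 2)`):

* `var_lower` : `4 p m E g ≤ E [g (h_0 - 1/2)^2]` for `g ≥ 0` seen off `hexB (rad K m) ⊆ F`;
* `two_lower` : `(4 p m - 4) E g ≤ E [g (h_0 - h_x)^2]` if moreover `x` is not a site of `hexB (rad K m)`.
-/

set_option autoImplicit false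

noncomputable section

namespace Crest.Agent.R144.Pos561

open Finset
open Crest.Agent.R144.It844 (P2 Lip adj_iff)
open Crest.Agent.R144.Zg349 Crest.Agent.R144.Zk349 Crest.Agent.R144.Zd349 Crest.Agent.R144.Zm349
open Crest.Agent.R144.Ze349
open Crest.Agent.R144.Pst967 (MLay mLay_Bs adj_of_share E_pos_congr wt_ne_zero hexB mem_hexB hexB_mono
  Xs Bs mem_Bs Bs_sub sc_Bs Bs_congr BsI BsI_nonneg offTZ_BsI sum_BsI hexB_sub_Bs XStep)
open Crest.Agent.R144.Rsw867 (ball ball_zero_eq ball_mono adj_ball RSW offTZ_mul offTZ_mono offTZ_one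
  ind ind_of_mem ind_of_not_mem ind_nonneg)
open Crest.ProbabilityR.HexHeights (Adj)

variable {F B : Finset P2} {ω ω' : Cfg}

/-! ### expectations see compatible configurations only -/

theorem E_pos_mono {c : ℝ} (hc : 1 ≤ c) {f g : Cfg → ℝ}
    (h : ∀ ω, Valid F ω → Good F ω → f ω ≤ g ω) : E c F f ≤ E c F g := by
  rw [E_eq_S, E_eq_S]
  refine div_le_div_of_nonneg_right ?_ (Z_pos hc F).le
  unfold S
  refine Finset.sum_le_sum fun ω hω => ?_
  by_cases hw : wt c F ω = 0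
  · rw [hw, zero_mul, zero_mul]
  · exact mul_le_mul_of_nonneg_left (h ω (mem_conf.1 hω) (good_of_wt hw)) (wt_nonneg hc F ω)

theorem E_pos_congr' {c : ℝ} {f g : Cfg → ℝ}
    (h : ∀ ω, Valid F ω → Good F ω → f ω = g ω) : E c F f = E c F g :=
  E_pos_congr fun ω h1 h2 => h ω h1 h2

/-! ### the reflection `h ↦ 1 - h` -/

/-- reflected configuration -/
def rf (B : Finset P2) (ω : Cfg) : Cfg := (fun v => if v ∈ VF B then 1 - ω.1 v else 0, ω.2)

theorem rf_of_mem {v : P2} (hv : v ∈ VF B) : (rf B ω).1 v = 1 - ω.1 v := if_pos hv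
theorem rf_of_notMem {v : P2} (hv : v ∉ VF B) : (rf B ω).1 v = 0 := if_neg hv

theorem rf_rf (h : Valid B ω) : rf B (rf B ω) = ω := by
  refine Prod.ext ?_ rfl
  funext v
  by_cases hv : v ∈ VF B
  · rw [rf_of_mem hv, rf_of_mem hv]; ring
  · rw [rf_of_notMem hv, h.ht.off v hv]

theorem rf_valid (h : Valid B ω) : Valid B (rf B ω) := by
  refine ⟨⟨fun t ht i j => ?_, fun v hv => ?_, fun v hv => rf_of_notMem hv⟩, h.cl⟩
  · rw [rf_of_mem (mem_VF.2 ⟨t, ht, cr_mem_up t i⟩), rf_of_mem (mem_VF.2 ⟨t, ht, cr_mem_up t j⟩)]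
    have h1 := h.ht.lip t ht j i
    have e : 1 - ω.1 (cr t i) - (1 - ω.1 (cr t j)) = ω.1 (cr t j) - ω.1 (cr t i) := by ring
    rw [e]
    exact h1
  · by_cases hV : v ∈ VF B
    · rw [rf_of_mem hV]
      rcases h.ht.bd v hv with h1 | h1 <;> rw [h1] <;> simp
    · rw [rf_of_notMem hV]; exact Or.inl rfl

theorem ew_rf (c : ℝ) {t : P2} (ht : t ∈ B) : ew c (rf B ω) t = ew c ω t := by
  have e : ∀ i, (rf B ω).1 (cr t i) = 1 - ω.1 (cr t i) := fun i =>
    rf_of_mem (mem_VF.2 ⟨t, ht, cr_mem_up t i⟩)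
  have e1 : C1 (rf B ω).1 t ↔ C1 ω.1 t := by
    unfold C1
    rw [e, e, e, s1_refl, s1_refl, s1_refl]
  have e2 : C2 (rf B ω).1 t ↔ C2 ω.1 t := by
    unfold C2
    rw [e, e, e, s2_refl, s2_refl, s2_refl]
    cases s2 (ω.1 (cr t 0)) <;> cases s2 (ω.1 (cr t 1)) <;> cases s2 (ω.1 (cr t 2)) <;> simp
  have e3 : (rf B ω).2 = ω.2 := rfl
  unfold ew
  simp only [e1, e2, e3]

/-- invariance under the reflection -/
theorem E_rf (c : ℝ) (B : Finset P2) (Φ : Cfg → ℝ) : E c B (fun ω => Φ (rf B ω)) = E c B Φ := by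
  rw [E_eq_S, E_eq_S]
  congr 1
  unfold S
  refine Finset.sum_nbij' (rf B) (rf B) (fun ω hω => mem_conf.2 (rf_valid (mem_conf.1 hω)))
    (fun ω hω => mem_conf.2 (rf_valid (mem_conf.1 hω))) (fun ω hω => rf_rf (mem_conf.1 hω))
    (fun ω hω => rf_rf (mem_conf.1 hω)) fun ω hω => ?_
  congr 1
  unfold wt
  exact Finset.prod_congr rfl fun t ht => (ew_rf c ht).symm

/-- the mean height is `1/2` -/
theorem E_half {c : ℝ} (hc : 1 ≤ c) {v : P2} (hv : v ∈ VF B) :
    E c B (fun ω => (ω.1 v : ℝ) - 1 / 2) = 0 := by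
  have h1 := E_rf c B fun ω => (ω.1 v : ℝ) - 1 / 2
  have h2 : E c B (fun ω => ((rf B ω).1 v : ℝ) - 1 / 2) =
      E c B (fun ω => (-1) * ((ω.1 v : ℝ) - 1 / 2)) := by
    refine E_congr fun ω _ => ?_
    rw [rf_of_mem hv]
    push_cast
    ring
  rw [h2, E_smul] at h1
  linarith

/-- variance of the height -/
def Var (c : ℝ) (B : Finset P2) (v : P2) : ℝ := E c B (fun ω => ((ω.1 v : ℝ) - 1 / 2) ^ 2)

theorem Var_nonneg {c : ℝ} (hc : 1 ≤ c) (B : Finset P2) (v : P2) : 0 ≤ Var c B v :=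
  E_nonneg hc fun _ _ => sq_nonneg _

theorem E_shift {c : ℝ} (hc : 1 ≤ c) {v : P2} (hv : v ∈ VF B) (a : ℝ) :
    E c B (fun ω => (a + (ω.1 v : ℝ)) ^ 2) = Var c B v + (a + 1 / 2) ^ 2 := by
  have e : (fun ω : Cfg => (a + (ω.1 v : ℝ)) ^ 2) = fun ω => (((ω.1 v : ℝ) - 1 / 2) ^ 2 +
      (2 * a + 1) * ((ω.1 v : ℝ) - 1 / 2)) + (a + 1 / 2) ^ 2 := by
    funext ω; ring
  rw [e, E_add, E_add, E_smul, E_half hc hv, E_const hc]
  unfold Var
  ring

/-! ### one minus closed layer -/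

theorem okI_of (h : Ok F B ω) : okI F B ω = 1 := if_pos h
theorem okI_not (h : ¬ Ok F B ω) : okI F B ω = 0 := if_neg h

/-- outside observables do not see the swap -/
theorem offTZ_sw (h : Ok F B ω) (hin : ∃ g, IsIn B ω.1 g) (h' : HV B ω'.1) {g : Cfg → ℝ}
    (hg : OffTZ B g) : g (Sw B ω ω') = g ω := by
  refine hg _ _ (fun v hv => ?_) (fun t ht => sw2_of_notMem ht)
  by_cases hV : v ∈ VF B
  · rw [h.s1_bdry hV hv, sw_of_mem hV, s1_false]
    have h1 := lev_mod hin hV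
    have h2 := h'.bd v hv
    omega
  · rw [sw_of_notMem hV]

/-- **one layer**: for `g` seen off `B` and supported on the event that `B` is surrounded by a minus closed
layer, and `Z` not changed by the inside. -/
theorem layer_dec {c : ℝ} (hc : 1 ≤ c) (hB : SC B) (hBF : B ⊆ F) {g : Cfg → ℝ} (hg : OffTZ B g)
    (hgl : ∀ ω, g ω ≠ 0 → MLay B ω) {v : P2} (hv : v ∈ VF B) (Z : Cfg → ℝ)
    (hZ : ∀ ω ω', Ok F B ω → Valid B ω' → Z (Sw B ω ω') = Z ω) :
    E c F (fun ω => g ω * ((ω.1 v : ℝ) - Z ω) ^ 2) =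
      E c F (fun ω => g ω * (Var c B v + ((lev B ω v : ℝ) + 1 / 2 - Z ω) ^ 2)) := by
  have e1 : E c F (fun ω => g ω * ((ω.1 v : ℝ) - Z ω) ^ 2) =
      E c F (fun ω => okI F B ω * (g ω * ((ω.1 v : ℝ) - Z ω) ^ 2)) := by
    refine E_pos_congr' fun ω h1 h2 => ?_
    by_cases h3 : g ω = 0
    · rw [h3]; ring
    · rw [okI_of ⟨h1, h2, hgl ω h3⟩]; ring
  rw [e1, dec hc hB hBF fun ω => g ω * ((ω.1 v : ℝ) - Z ω) ^ 2]
  refine E_pos_congr' fun ω h1 h2 => ?_
  by_cases h3 : Ok F B ω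
  · have hin := exists_in hB hBF h3
    rw [okI_of h3, one_mul]
    have e2 : E c B (fun ω' => g (Sw B ω ω') * (((Sw B ω ω').1 v : ℝ) - Z (Sw B ω ω')) ^ 2) =
        E c B (fun ω' => g ω * (((lev B ω v : ℝ) - Z ω) + (ω'.1 v : ℝ)) ^ 2) := by
      refine E_congr fun ω' h4 => ?_
      rw [offTZ_sw h3 hin h4.ht hg, hZ ω ω' h3 h4, sw_of_mem hv]
      push_cast
      ring
    rw [e2, E_smul, E_shift hc hv]
    ring
  · rw [okI_not h3, zero_mul]
    by_cases h4 : g ω = 0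
    · rw [h4, zero_mul]
    · exact absurd ⟨h1, h2, hgl ω h4⟩ h3

/-- constant centre: a gain of `4` -/
theorem layer_var {c : ℝ} (hc : 1 ≤ c) (hB : SC B) (hBF : B ⊆ F) {g : Cfg → ℝ} (hg0 : ∀ ω, 0 ≤ g ω)
    (hg : OffTZ B g) (hgl : ∀ ω, g ω ≠ 0 → MLay B ω) {v : P2} (hv : v ∈ VF B) :
    (Var c B v + 4) * E c F g ≤ E c F (fun ω => g ω * ((ω.1 v : ℝ) - 1 / 2) ^ 2) := by
  rw [layer_dec hc hB hBF hg hgl hv (fun _ => 1 / 2) (fun _ _ _ _ => rfl), ← E_smul]
  refine E_pos_mono hc fun ω h1 h2 => ?_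
  by_cases h3 : g ω = 0
  · rw [h3]; simp
  · have h4 : Ok F B ω := ⟨h1, h2, hgl ω h3⟩
    have h5 := lev_mod (exists_in hB hBF h4) hv
    have h6 : (2 : ℝ) ≤ |(lev B ω v : ℝ)| := by
      have : (2 : ℤ) ≤ |lev B ω v| := by
        rcases abs_cases (lev B ω v) with h | h <;> omega
      exact_mod_cast this
    have h7 : (4 : ℝ) ≤ (lev B ω v : ℝ) ^ 2 := by
      rw [← sq_abs]; nlinarith
    have e : (lev B ω v : ℝ) + 1 / 2 - 1 / 2 = lev B ω v := by ring
    rw [e, mul_comm]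
    exact mul_le_mul_of_nonneg_left (by linarith) (hg0 ω)

/-- outer centre: no loss -/
theorem layer_two {c : ℝ} (hc : 1 ≤ c) (hB : SC B) (hBF : B ⊆ F) {g : Cfg → ℝ} (hg0 : ∀ ω, 0 ≤ g ω)
    (hg : OffTZ B g) (hgl : ∀ ω, g ω ≠ 0 → MLay B ω) {v : P2} (hv : v ∈ VF B) {x : P2}
    (hx : x ∉ VF B) :
    Var c B v * E c F g ≤ E c F (fun ω => g ω * ((ω.1 v : ℝ) - ω.1 x) ^ 2) := by
  rw [layer_dec hc hB hBF hg hgl hv (fun ω => (ω.1 x : ℝ)) (fun ω ω' _ _ => by rw [sw_of_notMem hx]),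
    ← E_smul]
  refine E_mono hc fun ω _ => ?_
  rw [mul_comm]
  exact mul_le_mul_of_nonneg_left (by nlinarith [sq_nonneg ((lev B ω v : ℝ) + 1 / 2 - ω.1 x)]) (hg0 ω)

/-! ### one scale -/

/-- blocking in the sense of 867 gives blocking in the sense of 967 -/
theorem hexB_sub_of_blk {M : ℕ} (h : ω ∈ Rsw867.Blk 0 (M + 2) (2 * (M + 2))) :
    hexB M ⊆ Bs (2 * (M + 2) + 1) ω := by
  refine hexB_sub_Bs fun t ht hX => ?_
  obtain ⟨t0, h0, h1⟩ := hX
  rw [← ball_zero_eq] at h0 ht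
  -- the part of the path after the first step
  have key : ∀ t, Relation.ReflTransGen (XStep ω) t0 t → t = t0 ∨ ∃ u, u ∉ ball 0 (2 * (M + 2)) ∧
      Relation.ReflTransGen (StepIn {t | mC ω t}ᶜ) u t ∧ ¬ mC ω t := by
    intro t h
    induction h with
    | refl => exact Or.inl rfl
    | @tail b d _ h2 ih =>
      right
      rcases ih with rfl | ⟨u, hu, hp, hb⟩
      · exact ⟨d, fun hd => h0 (adj_ball hd (Crest.Agent.R144.It844.adj_symm h2.1)),
          Relation.ReflTransGen.refl, h2.2⟩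
      · exact ⟨u, hu, hp.tail ⟨hb, h2.2, h2.1⟩, h2.2⟩
  rcases key t h1 with rfl | ⟨u, hu, hp, _⟩
  · exact h0 (ball_mono 0 (by omega) ht)
  · exact h u t hu ht hp

open Classical in
/-- indicator of `hexB M ⊆ Bs N ω` -/
def AI (M N : ℕ) (ω : Cfg) : ℝ := if hexB M ⊆ Bs N ω then 1 else 0

theorem AI_nonneg (M N : ℕ) (ω : Cfg) : 0 ≤ AI M N ω := by unfold AI; split_ifs <;> norm_num
theorem AI_le (M N : ℕ) (ω : Cfg) : AI M N ω ≤ 1 := by unfold AI; split_ifs <;> norm_num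

theorem offTZ_AI (M N : ℕ) : OffTZ (hexB M) (AI M N) := by
  have key : ∀ ω ω' : Cfg, (∀ v, v ∉ IV (hexB M) → s1 (ω.1 v) = s1 (ω'.1 v)) →
      (∀ t, t ∉ hexB M → ω.2 t = ω'.2 t) → hexB M ⊆ Bs N ω → hexB M ⊆ Bs N ω' := by
    intro ω ω' h1 h2 h
    rw [Bs_congr (ω := ω) (ω' := ω') (fun v hv => h1 v fun h3 => hv (IV_mono h h3))
      (fun t ht => h2 t fun h3 => ht (h h3)) rfl]
    exact h
  intro ω ω' h1 h2
  unfold AI
  by_cases h : hexB M ⊆ Bs N ω
  · rw [if_pos h, if_pos (key ω ω' h1 h2 h)]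
  · rw [if_neg h, if_neg fun h' => h (key ω' ω (fun v hv => (h1 v hv).symm)
      (fun t ht => (h2 t ht).symm) h')]

open Classical in
theorem AI_eq_sum (M N : ℕ) (ω : Cfg) :
    AI M N ω = ∑ B ∈ (hexB N).powerset.filter (fun B => hexB M ⊆ B), BsI N B ω := by
  unfold AI BsI
  rw [Finset.sum_ite_eq]
  have : Bs N ω ∈ (hexB N).powerset.filter (fun B => hexB M ⊆ B) ↔ hexB M ⊆ Bs N ω := by
    rw [Finset.mem_filter, Finset.mem_powerset]
    exact ⟨fun h => h.2, fun h => ⟨Bs_sub ω, h⟩⟩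
  simp only [this]

/-- **one scale**: a gain of `4 p` -/
theorem scale_gain {c : ℝ} (hc : 1 ≤ c) {K : ℕ} {p : ℝ} (h : RSW c K p) (hF : SC F) {M : ℕ}
    (hFB : hexB (K * (M + 2)) ⊆ F) {Y : Cfg → ℝ} {A : ℝ}
    (h1 : ∀ g : Cfg → ℝ, (∀ ω, 0 ≤ g ω) → OffTZ (hexB M) g →
      A * E c F g ≤ E c F (fun ω => g ω * Y ω))
    (h2 : ∀ B, SC B → hexB M ⊆ B → B ⊆ hexB (K * (M + 2)) → ∀ g : Cfg → ℝ, (∀ ω, 0 ≤ g ω) →
      OffTZ B g → (∀ ω, g ω ≠ 0 → MLay B ω) → (A + 4) * E c F g ≤ E c F (fun ω => g ω * Y ω))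
    {g : Cfg → ℝ} (hg0 : ∀ ω, 0 ≤ g ω) (hg : OffTZ (hexB (K * (M + 2))) g) :
    (A + 4 * p) * E c F g ≤ E c F (fun ω => g ω * Y ω) := by
  classical
  set N := 2 * (M + 2) + 1 with hN
  have hK := h.K4
  have hNK : N ≤ K * (M + 2) := by
    rw [hN]
    have : 4 * (M + 2) ≤ K * (M + 2) := Nat.mul_le_mul_right _ hK
    omega
  have hMN : M ≤ K * (M + 2) := by
    have : 1 * (M + 2) ≤ K * (M + 2) := Nat.mul_le_mul_right _ (by omega)
    omega
  set T := (hexB N).powerset.filter (fun B => hexB M ⊆ B) with hT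
  -- the good part
  have good : (A + 4) * E c F (fun ω => g ω * AI M N ω) ≤
      E c F (fun ω => g ω * AI M N ω * Y ω) := by
    have e1 : E c F (fun ω => g ω * AI M N ω) = ∑ B ∈ T, E c F (fun ω => g ω * BsI N B ω) := by
      rw [← E_sum]
      refine E_congr fun ω _ => ?_
      rw [AI_eq_sum, Finset.mul_sum]
    have e2 : E c F (fun ω => g ω * AI M N ω * Y ω) =
        ∑ B ∈ T, E c F (fun ω => g ω * BsI N B ω * Y ω) := by
      rw [← E_sum]
      refine E_congr fun ω _ => ?_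
      rw [AI_eq_sum, Finset.mul_sum, Finset.sum_mul]
    rw [e1, e2, Finset.mul_sum]
    refine Finset.sum_le_sum fun B hB => ?_
    rw [hT, Finset.mem_filter, Finset.mem_powerset] at hB
    by_cases hsc : SC B
    · have hBK : B ⊆ hexB (K * (M + 2)) := hB.1.trans (hexB_mono hNK)
      refine h2 B hsc hB.2 hBK (fun ω => g ω * BsI N B ω)
        (fun ω => mul_nonneg (hg0 ω) (BsI_nonneg N B ω)) (offTZ_mul (offTZ_mono hBK hg) (offTZ_BsI N B))
        fun ω hω => ?_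
      have h3 : Bs N ω = B := by
        by_contra h4
        exact hω (by unfold BsI; rw [if_neg h4, mul_zero])
      rw [← h3]
      exact mLay_Bs N ω
    · have h3 : ∀ ω, BsI N B ω = 0 := fun ω => by
        unfold BsI
        rw [if_neg]
        rintro rfl
        exact hsc (sc_Bs N ω)
      have e3 : (fun ω => g ω * BsI N B ω) = fun _ => (0 : ℝ) := by
        funext ω; rw [h3, mul_zero]
      have e4 : (fun ω => g ω * BsI N B ω * Y ω) = fun _ => (0 : ℝ) := by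
        funext ω; rw [h3, mul_zero, zero_mul]
      rw [e3, e4, E_const hc, mul_zero]
  -- the bad part
  have bad := h1 (fun ω => g ω * (1 - AI M N ω))
    (fun ω => mul_nonneg (hg0 ω) (by have := AI_le M N ω; linarith))
    (offTZ_mul (offTZ_mono (hexB_mono hMN) hg) fun ω ω' h3 h4 => by
      show 1 - AI M N ω = 1 - AI M N ω'
      rw [offTZ_AI M N ω ω' h3 h4])
  -- RSW
  have rsw : p * E c F g ≤ E c F (fun ω => g ω * AI M N ω) := by
    have h3 := h.minus (M + 2) (by omega) 0 F hF (by rw [ball_zero_eq]; exact hFB) g hg0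
      (by rw [ball_zero_eq]; exact hg)
    refine h3.trans (E_mono hc fun ω _ => mul_le_mul_of_nonneg_left ?_ (hg0 ω))
    by_cases hω : ω ∈ Rsw867.Blk 0 (M + 2) (2 * (M + 2))
    · rw [ind_of_mem hω]
      unfold AI
      rw [if_pos (hexB_sub_of_blk hω)]
    · rw [ind_of_not_mem hω]
      exact AI_nonneg _ _ _
  have e5 : E c F (fun ω => g ω * (1 - AI M N ω)) = E c F g - E c F (fun ω => g ω * AI M N ω) := by
    rw [← E_sub]
    exact E_congr fun ω _ => by ring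
  have e6 : E c F (fun ω => g ω * Y ω) = E c F (fun ω => g ω * (1 - AI M N ω) * Y ω) +
      E c F (fun ω => g ω * AI M N ω * Y ω) := by
    rw [← E_add]
    exact E_congr fun ω _ => by ring
  rw [e5] at bad
  rw [e6]
  linarith

/-! ### several scales -/

/-- the radii -/
def rad (K : ℕ) : ℕ → ℕ
  | 0 => 1
  | m + 1 => K * (rad K m + 2)

theorem rad_zero (K : ℕ) : rad K 0 = 1 := rfl
theorem rad_succ (K m : ℕ) : rad K (m + 1) = K * (rad K m + 2) := rfl

theorem rad_mono_succ {K : ℕ} (hK : 4 ≤ K) (m : ℕ) : rad K m ≤ rad K (m + 1) := by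
  rw [rad_succ]
  have : 1 * (rad K m + 2) ≤ K * (rad K m + 2) := Nat.mul_le_mul_right _ (by omega)
  omega

theorem rad_pos {K : ℕ} (hK : 4 ≤ K) (m : ℕ) : 1 ≤ rad K m := by
  induction m with
  | zero => exact le_rfl
  | succ m ih => exact ih.trans (rad_mono_succ hK m)

theorem rad_le {K : ℕ} (hK : 4 ≤ K) (m : ℕ) : rad K m ≤ (3 * K) ^ m := by
  induction m with
  | zero => simp [rad_zero]
  | succ m ih =>
    rw [rad_succ, pow_succ]
    have h1 := rad_pos hK m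
    calc K * (rad K m + 2) ≤ K * (3 * rad K m) := Nat.mul_le_mul_left _ (by omega)
      _ ≤ K * (3 * (3 * K) ^ m) := Nat.mul_le_mul_left _ (Nat.mul_le_mul_left _ ih)
      _ = (3 * K) ^ m * (3 * K) := by ring

theorem zero_mem_VF {n : ℕ} {B : Finset P2} (h : hexB n ⊆ B) : (0 : P2) ∈ VF B := by
  refine mem_VF'.2 (Or.inl (h ?_))
  rw [mem_hexB]
  simp

/-- **variance lower bound**, finite volume -/
theorem var_lower {c : ℝ} (hc : 1 ≤ c) {K : ℕ} {p : ℝ} (h : RSW c K p) (m : ℕ) :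
    ∀ F : Finset P2, SC F → hexB (rad K m) ⊆ F → ∀ g : Cfg → ℝ, (∀ ω, 0 ≤ g ω) →
      OffTZ (hexB (rad K m)) g →
      4 * p * m * E c F g ≤ E c F (fun ω => g ω * ((ω.1 0 : ℝ) - 1 / 2) ^ 2) := by
  induction m with
  | zero =>
    intro F _ _ g hg0 _
    simp only [Nat.cast_zero, mul_zero, zero_mul]
    exact E_nonneg hc fun ω _ => mul_nonneg (hg0 ω) (sq_nonneg _)
  | succ m ih =>
    intro F hF hFB g hg0 hg
    rw [rad_succ] at hFB hg
    have hsub : hexB (rad K m) ⊆ hexB (K * (rad K m + 2)) :=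
      hexB_mono (by rw [← rad_succ]; exact rad_mono_succ h.K4 m)
    have key := scale_gain hc h hF hFB (Y := fun ω => ((ω.1 0 : ℝ) - 1 / 2) ^ 2) (A := 4 * p * m)
      (ih F hF (hsub.trans hFB)) (fun B hB hMB hBK g hg0 hg hgl => by
        have h1 := layer_var hc hB (hBK.trans hFB) hg0 hg hgl (zero_mem_VF hMB)
        have h2 : 4 * p * m ≤ Var c B 0 := by
          have h3 := ih B hB hMB (fun _ => 1) (fun _ => zero_le_one) (offTZ_one _)
          rw [E_const hc, mul_one] at h3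
          simpa [Var] using h3
        have h4 : 0 ≤ E c F g := E_nonneg hc fun ω _ => hg0 ω
        refine le_trans ?_ h1
        exact mul_le_mul_of_nonneg_right (by linarith) h4) hg0 hg
    refine le_trans (le_of_eq ?_) key
    push_cast
    ring

/-- **two-point lower bound**, finite volume -/
theorem two_lower {c : ℝ} (hc : 1 ≤ c) {K : ℕ} {p : ℝ} (h : RSW c K p) (m : ℕ) :
    ∀ F : Finset P2, SC F → hexB (rad K m) ⊆ F → ∀ x : P2, x ∉ VF (hexB (rad K m)) →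
      ∀ g : Cfg → ℝ, (∀ ω, 0 ≤ g ω) → OffTZ (hexB (rad K m)) g →
      (4 * p * m - 4) * E c F g ≤ E c F (fun ω => g ω * ((ω.1 0 : ℝ) - ω.1 x) ^ 2) := by
  induction m with
  | zero =>
    intro F _ _ x _ g hg0 _
    have h1 : 0 ≤ E c F g := E_nonneg hc fun ω _ => hg0 ω
    have h2 : 0 ≤ E c F (fun ω => g ω * ((ω.1 0 : ℝ) - ω.1 x) ^ 2) :=
      E_nonneg hc fun ω _ => mul_nonneg (hg0 ω) (sq_nonneg _)
    simp only [Nat.cast_zero, mul_zero, zero_sub]
    linarith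
  | succ m ih =>
    intro F hF hFB x hx g hg0 hg
    rw [rad_succ] at hFB hg hx
    have hsub : hexB (rad K m) ⊆ hexB (K * (rad K m + 2)) :=
      hexB_mono (by rw [← rad_succ]; exact rad_mono_succ h.K4 m)
    have key := scale_gain hc h hF hFB (Y := fun ω => ((ω.1 0 : ℝ) - ω.1 x) ^ 2) (A := 4 * p * m - 4)
      (ih F hF (hsub.trans hFB) x fun h1 => hx (VF_mono hsub h1)) (fun B hB hMB hBK g hg0 hg hgl => by
        have h1 := layer_two hc hB (hBK.trans hFB) hg0 hg hgl (zero_mem_VF hMB)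
          (fun h1 => hx (VF_mono hBK h1))
        have h2 : 4 * p * m ≤ Var c B 0 := by
          have h3 := var_lower hc h m B hB hMB (fun _ => 1) (fun _ => zero_le_one) (offTZ_one _)
          rw [E_const hc, mul_one] at h3
          simpa [Var] using h3
        have h4 : 0 ≤ E c F g := E_nonneg hc fun ω _ => hg0 ω
        refine le_trans ?_ h1
        exact mul_le_mul_of_nonneg_right (by linarith) h4) hg0 hg
    refine le_trans (le_of_eq ?_) key
    push_cast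
    ring

end Crest.Agent.R144.Pos561
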