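import Crest.Agent.R144.Bx3_695
import Crest.Agent.R144.Mk1_696
import Crest.Agent.R144.Pos2_561

/-!
# R144, integer models, contiguity (S5), block (B): CLIMB, part 1 (helper617)

* `Jup k a m N` : heights `h` such that the sites `{k ≤ h}` block every path from off `ball a N` to `ball a m`;
  `Jdn k a m N` : the same with `{h ≤ k}`;
* `one_step_F` : under the F-type law (with `s1 = +` on `N`), `{2 ≤ h}` blocks with probability `≥ p / 2`;
* `one_step` : for every `Λ` with connected complement, every ball `ball a (K n) ⊆ Λ`, boundary data `≥ k`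
  on the outer boundary of `Λ` : `p / 2 ≤ ex x Λ τ 1[{k + 1 ≤ h} blocks ball a n | ball a (2 n)]`;
* `un_of_sepr` : the exploration from outside of `Λ` does not enter a blocked ball;
* **`climb`** : `m` steps.
-/

set_option autoImplicit false
set_option linter.unusedSectionVars false
set_option linter.unusedVariables false

noncomputable section

namespace Crest.Agent.R144.Clb617

open Finset
open Crest.Agent.R144.It844 (P2 Lip adj_iff adj_symm upT mem_upT ex nbhd lip_const ex_mono_bc ex_add_const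
  ex_neg ex_tower_random ex_mono ex_nonneg ex_congr ex_const ex_smul)
open Crest.Agent.R144.Zg349 Crest.Agent.R144.Zk349 Crest.Agent.R144.Zd349
open Crest.Agent.R144.Zm349 (Valid E E_add E_mono E_congr E_smul E_const E_nonneg E_eq_S S flat valid_flat
  wt_flat Z_pos mem_conf pr_nonneg pr_of_valid)
open Crest.Agent.R144.Ze349
open Crest.Agent.R144.Bnd991 (Cn Kn Cn_of Cn_of_not Cn_nonneg Cn_congr offTZ_Cn Anc Kn_of)
open Crest.Agent.R144.Bx695 (KI KI_of KI_of_not KI_nonneg KI_le_one)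
open Crest.Agent.R144.Rsw867 (ball mem_ball ball_mono adj_ball sc_ball Sepr Blk BlkP ind ind_nonneg ind_le_one
  ind_of_mem ind_of_not_mem RSW path_mono ball_zero_eq)
open Crest.Agent.R144.Pos561 (rf rf_of_mem rf_of_notMem E_rf)
open Crest.Agent.R144.Mk696 (Un Ex mem_Un notMem_Un Un_sub layer_Un sc_Un Un_congr NStep ex_of_notMem sepr_split)
open Crest.Agent.R144.Pst967 (hexB mem_hexB)
open Crest.ProbabilityR.HexHeights (Adj)

/-! ### events -/

/-- the sites `{k ≤ h}` block every path from off `ball a N` to `ball a m` -/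
def Jup (k : ℤ) (a : P2) (m N : ℕ) : Set (P2 → ℤ) := {h | Sepr {v | k ≤ h v} a m N}

/-- the sites `{h ≤ k}` block every path from off `ball a N` to `ball a m` -/
def Jdn (k : ℤ) (a : P2) (m N : ℕ) : Set (P2 → ℤ) := {h | Sepr {v | h v ≤ k} a m N}

theorem mem_Jup {k : ℤ} {a : P2} {m N : ℕ} {h : P2 → ℤ} : h ∈ Jup k a m N ↔ Sepr {v | k ≤ h v} a m N := Iff.rfl
theorem mem_Jdn {k : ℤ} {a : P2} {m N : ℕ} {h : P2 → ℤ} : h ∈ Jdn k a m N ↔ Sepr {v | h v ≤ k} a m N := Iff.rfl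

theorem neg_mem_Jup {k : ℤ} {a : P2} {m N : ℕ} {h : P2 → ℤ} :
    (fun v => - h v) ∈ Jup k a m N ↔ h ∈ Jdn (-k) a m N := by
  rw [mem_Jup, mem_Jdn]
  have e : {v : P2 | k ≤ - h v} = {v | h v ≤ -k} := by
    ext v
    simp only [Set.mem_ofPred_eq]
    omega
  rw [e]

theorem add_mem_Jup {k s : ℤ} {a : P2} {m N : ℕ} {h : P2 → ℤ} :
    (fun v => h v + s) ∈ Jup (k + s) a m N ↔ h ∈ Jup k a m N := by
  rw [mem_Jup, mem_Jup]
  have e : {v : P2 | k + s ≤ h v + s} = {v | k ≤ h v} := by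
    ext v
    simp only [Set.mem_ofPred_eq]
    omega
  rw [e]

theorem Jup_mono {k k' : ℤ} {a : P2} {m m' N N' : ℕ} (hk : k' ≤ k) (hm : m' ≤ m) (hN : N ≤ N') :
    Jup k a m N ⊆ Jup k' a m' N' := fun h hh =>
  (Sepr.mono (fun v (hv : k ≤ h v) => hk.trans hv) hh).mono_ball hm hN

theorem upper_Jup {k : ℤ} {a : P2} {m N : ℕ} {g h : P2 → ℤ} (hgh : g ≤ h) (hg : g ∈ Jup k a m N) :
    h ∈ Jup k a m N := Sepr.mono (fun v (hv : k ≤ g v) => hv.trans (hgh v)) hg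

theorem KI_mono {A : Set (P2 → ℤ)} (hA : ∀ a b : P2 → ℤ, a ≤ b → a ∈ A → b ∈ A) : Monotone (KI A) := by
  intro a b hab
  by_cases h : a ∈ A
  · rw [KI_of h, KI_of (hA a b hab h)]
  · rw [KI_of_not h]; exact KI_nonneg _ _

theorem monotone_Jup (k : ℤ) (a : P2) (m N : ℕ) : Monotone (KI (Jup k a m N)) :=
  KI_mono fun _ _ h1 h2 => upper_Jup h1 h2

theorem KI_sub {A B : Set (P2 → ℤ)} (h : A ⊆ B) (g : P2 → ℤ) : KI A g ≤ KI B g := by
  by_cases hg : g ∈ A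
  · rw [KI_of hg, KI_of (h hg)]
  · rw [KI_of_not hg]; exact KI_nonneg _ _

/-- only the sites of `ball a (N + 1)` matter -/
theorem Jup_congr {k : ℤ} {a : P2} {m N : ℕ} (hmN : m ≤ N) {g h : P2 → ℤ}
    (hgh : ∀ v ∈ ball a (N + 1), g v = h v) (hg : g ∈ Jup k a m N) : h ∈ Jup k a m N := by
  refine Sepr.congr hmN (fun t ht _ h1 => ?_) hg
  show k ≤ h t
  rw [← hgh t ht]
  exact h1

theorem KI_Jup_local {k : ℤ} {a : P2} {m N : ℕ} (hmN : m ≤ N) {Λ : Finset P2} (hΛ : ball a (N + 1) ⊆ Λ)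
    (g h : P2 → ℤ) (hgh : ∀ v ∈ Λ, g v = h v) : KI (Jup k a m N) g = KI (Jup k a m N) h := by
  by_cases h1 : g ∈ Jup k a m N
  · rw [KI_of h1, KI_of (Jup_congr hmN (fun v hv => hgh v (hΛ hv)) h1)]
  · rw [KI_of_not h1, KI_of_not fun h2 => h1 (Jup_congr hmN (fun v hv => (hgh v (hΛ hv)).symm) h2)]

/-! ### the F-type law -/

theorem E_cn_pos {c : ℝ} (hc : 1 ≤ c) (F : Finset P2) (N : Set P2) : 0 < E c F (Cn N) := by
  unfold E
  refine Finset.sum_pos' (fun ω _ => mul_nonneg (pr_nonneg hc F ω) (Cn_nonneg _ _))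
    ⟨flat, mem_conf.2 (valid_flat F), ?_⟩
  rw [pr_of_valid c (valid_flat F), wt_flat, Cn_of fun v _ => by
    show s1 0 = true
    decide, mul_one]
  exact div_pos one_pos (Z_pos hc F)

/-- one step under the F-type law -/
theorem one_step_F {c : ℝ} (hc : 1 ≤ c) {K : ℕ} {p : ℝ} (hR : RSW c K p) {n : ℕ} (hn : 1 ≤ n) {a : P2}
    {F : Finset P2} (hF : SC F) (hBF : ball a (K * n) ⊆ F) {N : Set P2}
    (hN : ∀ v ∈ ball a (K * n), v ∉ N) :
    p / 2 * E c F (Cn N) ≤ E c F (fun ω => Cn N ω * KI (Jup 2 a n (2 * n)) ω.1) := by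
  have h1 := hR.minus n hn a F hF hBF (Cn N) (Cn_nonneg N)
    (offTZ_Cn fun v hv hi => hN v (IV_sub _ hi) hv)
  have h2 : ∀ ω, Valid F ω → Cn N ω * ind (Blk a n (2 * n)) ω ≤
      Cn N ω * KI (Jup 2 a n (2 * n)) ω.1 + Cn N ω * KI (Jdn (-1) a n (2 * n)) ω.1 := by
    intro ω hω
    rw [← mul_add]
    refine mul_le_mul_of_nonneg_left ?_ (Cn_nonneg _ _)
    by_cases hb : ω ∈ Blk a n (2 * n)
    · rw [ind_of_mem hb]
      have h3 : Sepr ({v | 2 ≤ ω.1 v} ∪ {v | ω.1 v ≤ -1}) a n (2 * n) := by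
        refine Sepr.mono (fun t (ht : mC ω t) => ?_) hb
        have h4 := ht.2
        rw [s1_false] at h4
        simp only [Set.mem_union, Set.mem_ofPred_eq]
        omega
      have hl := hω.ht.toLip
      rcases sepr_split (by omega) (fun u _ v _ hu hv ha => by
        have h5 := abs_le.1 (Bnd991.lip_adj hl ha)
        simp only [Set.mem_ofPred_eq] at hu hv
        omega) h3 with h4 | h4
      · rw [KI_of (show ω.1 ∈ Jup 2 a n (2 * n) from h4)]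
        linarith [KI_nonneg (Jdn (-1) a n (2 * n)) ω.1]
      · rw [KI_of (show ω.1 ∈ Jdn (-1) a n (2 * n) from h4)]
        linarith [KI_nonneg (Jup 2 a n (2 * n)) ω.1]
    · rw [ind_of_not_mem hb]
      exact add_nonneg (KI_nonneg _ _) (KI_nonneg _ _)
  have h3 := E_mono hc h2
  rw [E_add] at h3
  have h4 : E c F (fun ω => Cn N ω * KI (Jdn (-1) a n (2 * n)) ω.1) =
      E c F (fun ω => Cn N ω * KI (Jup 2 a n (2 * n)) ω.1) := by
    rw [← E_rf c F (fun ω => Cn N ω * KI (Jup 2 a n (2 * n)) ω.1)]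
    refine E_congr fun ω hω => ?_
    have e1 : Cn N (rf F ω) = Cn N ω := by
      have e0 : ∀ v, s1 ((rf F ω).1 v) = s1 (ω.1 v) := by
        intro v
        by_cases hv : v ∈ VF F
        · rw [rf_of_mem hv, s1_refl]
        · rw [rf_of_notMem hv, hω.ht.off v hv]
      exact Cn_congr ⟨fun h v hv => by rw [← e0 v]; exact h v hv, fun h v hv => by rw [e0 v]; exact h v hv⟩
    have e2 : {v : P2 | 2 ≤ (rf F ω).1 v} = {v | ω.1 v ≤ -1} := by
      ext v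
      simp only [Set.mem_ofPred_eq]
      by_cases hv : v ∈ VF F
      · rw [rf_of_mem hv]; omega
      · rw [rf_of_notMem hv, hω.ht.off v hv]; omega
    have e3 : (rf F ω).1 ∈ Jup 2 a n (2 * n) ↔ ω.1 ∈ Jdn (-1) a n (2 * n) := by
      rw [mem_Jup, mem_Jdn, e2]
    rw [e1]
    congr 1
    by_cases h5 : ω.1 ∈ Jdn (-1) a n (2 * n)
    · rw [KI_of h5, KI_of (e3.2 h5)]
    · rw [KI_of_not h5, KI_of_not fun h6 => h5 (e3.1 h6)]
  rw [h4] at h3
  linarith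

/-! ### one step for fixed boundary data -/

theorem exists_hexB_sup (S : Finset P2) : ∃ l : ℕ, S ⊆ hexB l := by
  classical
  refine ⟨∑ v ∈ S, (v.1.natAbs + v.2.natAbs), fun v hv => ?_⟩
  have h : v.1.natAbs + v.2.natAbs ≤ ∑ v ∈ S, (v.1.natAbs + v.2.natAbs) :=
    Finset.single_le_sum (f := fun v : P2 => v.1.natAbs + v.2.natAbs) (fun _ _ => Nat.zero_le _) hv
  rw [mem_hexB]
  refine ⟨?_, ?_, ?_⟩ <;> rw [abs_le] <;> constructor <;> omega

theorem one_le_c {x : ℝ} (hx0 : 0 < x) (hx1 : x ≤ 1) : (1 : ℝ) ≤ (x ^ 2)⁻¹ := by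
  rw [one_le_inv₀ (by positivity)]
  exact pow_le_one₀ hx0.le hx1

theorem exists_notMem_IV (F : Finset P2) : ∃ v : P2, v ∉ F := by
  obtain ⟨l, hl⟩ := exists_hexB_sup F
  refine ⟨((l : ℤ) + 1, 0), fun h => ?_⟩
  have h1 := mem_hexB.1 (hl h)
  have h2 := abs_le.1 h1.1
  simp only at h2
  omega

/-- one step, boundary data `1` -/
theorem one_step_one {x : ℝ} (hx0 : 0 < x) (hx1 : x ≤ 1) {K : ℕ} {p : ℝ} (hR : RSW ((x ^ 2)⁻¹) K p) {n : ℕ}
    (hn : 1 ≤ n) {a : P2} {Λ : Finset P2} (hΛ : SC Λ) (hB : ball a (K * n) ⊆ Λ) :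
    p / 2 ≤ ex x Λ (fun _ => 1) (KI (Jup 2 a n (2 * n))) := by
  have hc := one_le_c hx0 hx1
  obtain ⟨l, hl⟩ := exists_hexB_sup (upT Λ)
  have hF : SC (hexB l) := by
    rw [← ball_zero_eq]; exact sc_ball 0 l
  have hΛF : Λ ⊆ hexB l := fun v hv => hl (mem_upT.2 (Or.inl hv))
  set N : Set P2 := ((Λ : Finset P2) : Set P2)ᶜ with hNdef
  have hNΛ : ∀ v, v ∈ N ↔ v ∉ Λ := fun v => by rw [hNdef, Set.mem_compl_iff, Finset.mem_coe]
  have hN : Anc N (hexB l) := by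
    refine ⟨hΛ, ?_⟩
    obtain ⟨v, hv⟩ := exists_notMem_IV (hexB l)
    exact ⟨v, (hNΛ v).2 fun h => hv (hΛF h), fun h => hv (IV_sub _ h)⟩
  have h1 := one_step_F hc hR hn hF (hB.trans hΛF) (N := N) fun v hv => fun h => (hNΛ v).1 h (hB hv)
  have h2 := Bx695.sandwich1 hx0 hx1 hl hN hNΛ (X := ∅) (fun t ht => absurd ht (Set.notMem_empty t))
    (monotone_Jup 2 a n (2 * n))
  have e0 : ∀ ω : Cfg, Kn ∅ ω = 1 := fun ω => Kn_of fun t ht => absurd ht (Set.notMem_empty t)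
  simp only [e0, mul_one] at h2
  have h3 := E_cn_pos hc (hexB l) N
  have h4 := h1.trans h2
  exact le_of_mul_le_mul_right h4 h3

/-- **One step.** -/
theorem one_step {x : ℝ} (hx0 : 0 < x) (hx1 : x ≤ 1) {K : ℕ} {p : ℝ} (hR : RSW ((x ^ 2)⁻¹) K p) {n : ℕ}
    (hn : 1 ≤ n) {a : P2} {Λ : Finset P2} (hΛ : SC Λ) (hB : ball a (K * n) ⊆ Λ) {k : ℤ} {τ : P2 → ℤ}
    (hτ : Lip τ) (hle : ∀ v, v ∉ Λ → v ∈ nbhd Λ → k ≤ τ v) :
    p / 2 ≤ ex x Λ τ (KI (Jup (k + 1) a n (2 * n))) := by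
  have hK := hR.K4
  have hB2 : ball a (2 * n + 1) ⊆ Λ := (ball_mono a (by nlinarith)).trans hB
  have h1 := one_step_one hx0 hx1 hR hn hΛ hB
  have h2 : ex x Λ (fun _ => 1) (KI (Jup 2 a n (2 * n))) =
      ex x Λ (fun _ => k) (KI (Jup (k + 1) a n (2 * n))) := by
    have e1 : (fun _ : P2 => k) = fun v => (fun _ : P2 => (1 : ℤ)) v + (k - 1) := by
      funext v; ring
    rw [e1, ex_add_const]
    refine ex_congr fun h _ => ?_
    have e2 := add_mem_Jup (k := 2) (s := k - 1) (a := a) (m := n) (N := 2 * n) (h := h)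
    have e3 : (2 : ℤ) + (k - 1) = k + 1 := by ring
    rw [e3] at e2
    by_cases h5 : h ∈ Jup 2 a n (2 * n)
    · rw [KI_of h5, KI_of (e2.2 h5)]
    · rw [KI_of_not h5, KI_of_not fun h6 => h5 (e2.1 h6)]
  rw [h2] at h1
  exact h1.trans (Bx695.ex_mono_loc hx0 hx1 (lip_const k) hτ hle (monotone_Jup _ _ _ _)
    (KI_Jup_local (by omega) hB2))

/-! ### explorations by sites -/

theorem nstep_path {S : Set P2} {Λ : Finset P2} {a : P2} {N : ℕ} (hΛ : ball a (N + 1) ⊆ Λ) {t : P2}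
    (h : t ∈ Ex S Λ) : t ∉ Λ ∨ (t ∉ S ∧ ∃ u, u ∉ ball a N ∧ Relation.ReflTransGen (StepIn Sᶜ) u t) := by
  obtain ⟨t0, h1, h2⟩ := h
  induction h2 with
  | refl => exact Or.inl h1
  | @tail b d _ h3 ih =>
    right
    refine ⟨h3.2, ?_⟩
    rcases ih with h4 | ⟨h4, u, h5, h6⟩
    · exact ⟨d, fun h5 => h4 (hΛ (adj_ball h5 (adj_symm h3.1))), Relation.ReflTransGen.refl⟩
    · exact ⟨u, h5, h6.tail ⟨h4, h3.2, h3.1⟩⟩

theorem notMem_ex_of_sepr {S : Set P2} {Λ : Finset P2} {a : P2} {m N : ℕ} (hmN : m ≤ N)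
    (hΛ : ball a (N + 1) ⊆ Λ) (h : Sepr S a m N) {t : P2} (ht : t ∈ ball a m) : t ∉ Ex S Λ := by
  intro hE
  rcases nstep_path hΛ hE with h1 | ⟨_, u, h1, h2⟩
  · exact h1 (hΛ (ball_mono a (by omega) ht))
  · exact h u t h1 ht h2

/-- **a blocked ball is unexplored** -/
theorem un_of_sepr {S : Set P2} {Λ : Finset P2} {a : P2} {m N : ℕ} (hmN : m + 1 ≤ N)
    (hΛ : ball a (N + 1) ⊆ Λ) (h : Sepr S a (m + 1) N) : ball a m ⊆ Un S Λ := by
  intro t ht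
  rw [mem_Un]
  exact ⟨notMem_ex_of_sepr hmN hΛ h (ball_mono a (by omega) ht), fun t' ha =>
    notMem_ex_of_sepr hmN hΛ h (adj_ball ht ha)⟩

/-- unexplored sites after the exploration of `{h < k}` from off `Λ` -/
def UnUp (k : ℤ) (Λ : Finset P2) (h : P2 → ℤ) : Finset P2 := Un {v | k ≤ h v} Λ

theorem UnUp_sub (k : ℤ) (Λ : Finset P2) (h : P2 → ℤ) : UnUp k Λ h ⊆ Λ := Un_sub _ _

theorem sc_UnUp (k : ℤ) {Λ : Finset P2} (hΛ : SC Λ) (h : P2 → ℤ) : SC (UnUp k Λ h) := sc_Un _ hΛ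

theorem UnUp_congr {k : ℤ} {Λ : Finset P2} {h g : P2 → ℤ} (hg : g ∈ It844.conf (UnUp k Λ h) h) :
    UnUp k Λ g = UnUp k Λ h := by
  refine Un_congr (fun t ht => ?_) rfl
  simp only [Set.mem_ofPred_eq]
  rw [(It844.mem_conf.1 hg).2 t ht]

/-- boundary values of the unexplored set -/
theorem UnUp_bd {k : ℤ} {Λ : Finset P2} {h : P2 → ℤ} {v : P2} (hv : v ∉ UnUp k Λ h)
    (hn : v ∈ nbhd (UnUp k Λ h)) : k ≤ h v ∧ v ∈ Λ := by
  rcases hn with h1 | ⟨w, hw, ha⟩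
  · exact absurd h1 hv
  · exact layer_Un hw hv ha

/-- the boundary values are exactly `k` when the data off `Λ` are `≤ k - 1`, or the neighbour is explored -/
theorem UnUp_bd_le {k : ℤ} {Λ : Finset P2} {τ h : P2 → ℤ} (hh : h ∈ It844.conf Λ τ)
    (hτ : ∀ v, v ∉ Λ → τ v ≤ k) {v : P2} (hv : v ∉ UnUp k Λ h) (hn : v ∈ nbhd (UnUp k Λ h)) :
    k ≤ h v ∧ h v ≤ k + 1 := by
  obtain ⟨h1, h2⟩ := UnUp_bd hv hn
  refine ⟨h1, ?_⟩
  rw [It844.mem_conf] at hh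
  unfold UnUp at hv
  rw [notMem_Un] at hv
  have key : ∀ t, t ∈ Ex {v | k ≤ h v} Λ → h t ≤ k := by
    rintro t ⟨t0, h3, h4⟩
    cases h4 with
    | refl => rw [hh.2 t h3]; exact hτ t h3
    | tail _ h5 =>
      have := h5.2
      simp only [Set.mem_ofPred_eq] at this
      omega
  rcases hv with h3 | ⟨t', h3, h4⟩
  · linarith [key v h3]
  · have h5 := key t' h4
    have h6 := abs_le.1 (hh.1 v t' h3)
    omega

/-- **Markov property at the exploration of `{h < k}`** -/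
theorem ex_UnUp {x : ℝ} (hx : 0 < x) (k : ℤ) (Λ : Finset P2) (τ : P2 → ℤ) (f : (P2 → ℤ) → ℝ) :
    ex x Λ τ f = ex x Λ τ (fun h => ex x (UnUp k Λ h) h f) :=
  ex_tower_random hx (UnUp k Λ) (fun h _ => UnUp_sub k Λ h) (fun h _ g hg => UnUp_congr hg) f

/-! ### climb -/

/-- ratio of scales for `m + 1` steps -/
def kap (K : ℕ) : ℕ → ℕ
  | 0 => K
  | m + 1 => K * (kap K m + 1)

theorem kap_ge {K : ℕ} (hK : 4 ≤ K) (m : ℕ) : 4 ≤ kap K m := by
  induction m with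
  | zero => exact hK
  | succ m ih =>
    show 4 ≤ K * (kap K m + 1)
    nlinarith

/-- **CLIMB**: `m + 1` steps up. -/
theorem climb {x : ℝ} (hx0 : 0 < x) (hx1 : x ≤ 1) {K : ℕ} {p : ℝ} (hR : RSW ((x ^ 2)⁻¹) K p) (m : ℕ) :
    ∀ {n : ℕ} (_ : 1 ≤ n) {a : P2} {Λ : Finset P2} (_ : SC Λ) (_ : ball a (kap K m * n) ⊆ Λ) {k : ℤ}
      {τ : P2 → ℤ} (_ : Lip τ) (_ : ∀ v, v ∉ Λ → v ∈ nbhd Λ → k ≤ τ v),
      (p / 2) ^ (m + 1) ≤ ex x Λ τ (KI (Jup (k + (m + 1)) a n (2 * n))) := by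
  have hK := hR.K4
  have hp := hR.p0
  induction m with
  | zero =>
    intro n hn a Λ hΛ hB k τ hτ hle
    have := one_step hx0 hx1 hR hn hΛ hB hτ hle
    simpa using this
  | succ m ih =>
    intro n hn a Λ hΛ hB k τ hτ hle
    have hk := kap_ge hK m
    set n' : ℕ := kap K m * n + 1 with hn'
    have hkn : 1 ≤ kap K m * n := by nlinarith
    have hBn : ball a (K * n') ⊆ Λ := by
      refine (ball_mono a ?_).trans hB
      show K * n' ≤ K * (kap K m + 1) * n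
      rw [hn']
      nlinarith
    have h1 := one_step hx0 hx1 hR (n := n') (by omega) hΛ hBn hτ hle
    have hB2 : ball a (2 * n' + 1) ⊆ Λ := (ball_mono a (by nlinarith)).trans hBn
    rw [ex_UnUp hx0 (k + 1)]
    have h2 : ∀ h ∈ It844.conf Λ τ, (p / 2) ^ (m + 1) * KI (Jup (k + 1) a n' (2 * n')) h ≤
        ex x (UnUp (k + 1) Λ h) h (KI (Jup (k + ((m + 1 : ℕ) + 1)) a n (2 * n))) := by
      intro h hh
      by_cases h3 : h ∈ Jup (k + 1) a n' (2 * n')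
      · rw [KI_of h3, mul_one]
        have h4 : ball a (kap K m * n) ⊆ UnUp (k + 1) Λ h :=
          un_of_sepr (by omega) hB2 h3
        have h5 := ih hn (sc_UnUp (k + 1) hΛ h) h4 (k := k + 1) (It844.mem_conf.1 hh).1
          (fun v hv hn => (UnUp_bd hv hn).1)
        have e : k + 1 + ((m : ℤ) + 1) = k + (((m + 1 : ℕ) : ℤ) + 1) := by push_cast; ring
        rw [e] at h5
        exact h5
      · rw [KI_of_not h3, mul_zero]
        exact ex_nonneg fun g _ => KI_nonneg _ _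
    refine le_trans ?_ (ex_mono h2)
    have h3 : ex x Λ τ (fun h => (p / 2) ^ (m + 1) * KI (Jup (k + 1) a n' (2 * n')) h) =
        (p / 2) ^ (m + 1) * ex x Λ τ (KI (Jup (k + 1) a n' (2 * n'))) :=
      ex_smul (V := ℝ) ((p / 2) ^ (m + 1)) (KI (Jup (k + 1) a n' (2 * n')))
    rw [h3, pow_succ (p / 2) (m + 1)]
    exact mul_le_mul_of_nonneg_left h1 (by positivity)

/-- the events above as probabilities -/
theorem pr_eq (x : ℝ) (Λ : Finset P2) (τ : P2 → ℤ) (A : Set (P2 → ℤ)) : It844.pr x Λ τ A = ex x Λ τ (KI A) := by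
  unfold It844.pr KI
  congr 1

/-! ### the mirror images -/

theorem lower_Jdn {k : ℤ} {a : P2} {m N : ℕ} {g h : P2 → ℤ} (hgh : g ≤ h) (hg : h ∈ Jdn k a m N) :
    g ∈ Jdn k a m N := Sepr.mono (fun v (hv : h v ≤ k) => (hgh v).trans hv) hg

theorem antitone_Jdn (k : ℤ) (a : P2) (m N : ℕ) : Antitone (KI (Jdn k a m N)) := by
  intro g h hgh
  by_cases h1 : h ∈ Jdn k a m N
  · rw [KI_of h1, KI_of (lower_Jdn hgh h1)]
  · rw [KI_of_not h1]; exact KI_nonneg _ _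

theorem Jdn_mono {k k' : ℤ} {a : P2} {m m' N N' : ℕ} (hk : k ≤ k') (hm : m' ≤ m) (hN : N ≤ N') :
    Jdn k a m N ⊆ Jdn k' a m' N' := fun h hh =>
  (Sepr.mono (fun v (hv : h v ≤ k) => hv.trans hk) hh).mono_ball hm hN

theorem Jdn_congr {k : ℤ} {a : P2} {m N : ℕ} (hmN : m ≤ N) {g h : P2 → ℤ}
    (hgh : ∀ v ∈ ball a (N + 1), g v = h v) (hg : g ∈ Jdn k a m N) : h ∈ Jdn k a m N := by
  refine Sepr.congr hmN (fun t ht _ h1 => ?_) hg
  show h t ≤ k
  rw [← hgh t ht]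
  exact h1

/-- unexplored sites after the exploration of `{k < h}` from off `Λ` -/
def UnDn (k : ℤ) (Λ : Finset P2) (h : P2 → ℤ) : Finset P2 := Un {v | h v ≤ k} Λ

theorem UnDn_eq (k : ℤ) (Λ : Finset P2) (h : P2 → ℤ) : UnDn k Λ h = UnUp (-k) Λ fun v => - h v := by
  unfold UnDn UnUp
  congr 1
  ext v
  simp only [Set.mem_ofPred_eq]
  omega

theorem UnDn_sub (k : ℤ) (Λ : Finset P2) (h : P2 → ℤ) : UnDn k Λ h ⊆ Λ := Un_sub _ _

theorem sc_UnDn (k : ℤ) {Λ : Finset P2} (hΛ : SC Λ) (h : P2 → ℤ) : SC (UnDn k Λ h) := sc_Un _ hΛ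

theorem UnDn_congr {k : ℤ} {Λ : Finset P2} {h g : P2 → ℤ} (hg : g ∈ It844.conf (UnDn k Λ h) h) :
    UnDn k Λ g = UnDn k Λ h := by
  refine Un_congr (fun t ht => ?_) rfl
  simp only [Set.mem_ofPred_eq]
  rw [(It844.mem_conf.1 hg).2 t ht]

theorem UnDn_bd {k : ℤ} {Λ : Finset P2} {h : P2 → ℤ} {v : P2} (hv : v ∉ UnDn k Λ h)
    (hn : v ∈ nbhd (UnDn k Λ h)) : h v ≤ k ∧ v ∈ Λ := by
  rcases hn with h1 | ⟨w, hw, ha⟩
  · exact absurd h1 hv
  · exact layer_Un hw hv ha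

/-- **Markov property at the exploration of `{k < h}`** -/
theorem ex_UnDn {x : ℝ} (hx : 0 < x) (k : ℤ) (Λ : Finset P2) (τ : P2 → ℤ) (f : (P2 → ℤ) → ℝ) :
    ex x Λ τ f = ex x Λ τ (fun h => ex x (UnDn k Λ h) h f) :=
  ex_tower_random hx (UnDn k Λ) (fun h _ => UnDn_sub k Λ h) (fun h _ g hg => UnDn_congr hg) f

theorem ex_Jdn (x : ℝ) (Λ : Finset P2) (τ : P2 → ℤ) (k : ℤ) (a : P2) (m N : ℕ) :
    ex x Λ τ (KI (Jdn k a m N)) = ex x Λ (fun v => - τ v) (KI (Jup (-k) a m N)) := by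
  rw [ex_neg]
  refine ex_congr fun h _ => ?_
  have e := neg_mem_Jup (k := -k) (a := a) (m := m) (N := N) (h := h)
  rw [neg_neg] at e
  by_cases h5 : h ∈ Jdn k a m N
  · rw [KI_of h5, KI_of (e.2 h5)]
  · rw [KI_of_not h5, KI_of_not fun h6 => h5 (e.1 h6)]

/-- **CLIMB DOWN**: `m + 1` steps. -/
theorem climb_dn {x : ℝ} (hx0 : 0 < x) (hx1 : x ≤ 1) {K : ℕ} {p : ℝ} (hR : RSW ((x ^ 2)⁻¹) K p) (m : ℕ)
    {n : ℕ} (hn : 1 ≤ n) {a : P2} {Λ : Finset P2} (hΛ : SC Λ) (hB : ball a (kap K m * n) ⊆ Λ) {k : ℤ}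
    {τ : P2 → ℤ} (hτ : Lip τ) (hle : ∀ v, v ∉ Λ → v ∈ nbhd Λ → τ v ≤ k) :
    (p / 2) ^ (m + 1) ≤ ex x Λ τ (KI (Jdn (k - (m + 1)) a n (2 * n))) := by
  rw [ex_Jdn]
  have h1 := climb hx0 hx1 hR m hn hΛ hB (k := -k) (τ := fun v => - τ v) hτ.neg
    (fun v hv hn => neg_le_neg (hle v hv hn))
  have e : -k + ((m : ℤ) + 1) = -(k - (m + 1)) := by ring
  rw [e] at h1
  exact h1

/-! ### finite families -/

/-- **FKG for a finite family of upper sets**, any volume, any boundary data -/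
theorem ex_inter_up {x : ℝ} (hx0 : 0 < x) (hx1 : x ≤ 1) {Λ : Finset P2} {τ : P2 → ℤ} (hτ : Lip τ)
    {ι : Type*} (s : Finset ι) (A : ι → Set (P2 → ℤ))
    (hA : ∀ i ∈ s, ∀ g h : P2 → ℤ, g ≤ h → g ∈ A i → h ∈ A i) (q : ι → ℝ) (hq : ∀ i ∈ s, 0 ≤ q i)
    (hle : ∀ i ∈ s, q i ≤ ex x Λ τ (KI (A i))) :
    ∏ i ∈ s, q i ≤ ex x Λ τ (KI {h | ∀ i ∈ s, h ∈ A i}) := by
  classical
  induction s using Finset.induction_on with
  | empty =>
    rw [Finset.prod_empty]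
    refine le_of_eq ?_
    rw [← ex_const (V := ℝ) hx0 hτ (Λ := Λ) (1 : ℝ)]
    exact ex_congr fun h _ => (KI_of (by simp)).symm
  | @insert i s hi ih =>
    rw [Finset.prod_insert hi]
    have h1 := ih (fun j hj => hA j (Finset.mem_insert_of_mem hj)) (fun j hj => hq j (Finset.mem_insert_of_mem hj))
      (fun j hj => hle j (Finset.mem_insert_of_mem hj))
    have hi' := Finset.mem_insert_self i s
    have h2 := It844.fkg hx0 hx1 (Λ := Λ) hτ (f := KI (A i)) (g := KI {h | ∀ j ∈ s, h ∈ A j})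
      (fun a _ b _ hab => KI_mono (hA i hi') hab)
      (fun a _ b _ hab => KI_mono (A := {h | ∀ j ∈ s, h ∈ A j})
        (fun g g' hg hg' j hj => hA j (Finset.mem_insert_of_mem hj) g g' hg (hg' j hj)) hab)
    have h3 : q i * ∏ j ∈ s, q j ≤ ex x Λ τ (KI (A i)) * ex x Λ τ (KI {h | ∀ j ∈ s, h ∈ A j}) :=
      mul_le_mul (hle i hi') h1 (Finset.prod_nonneg fun j hj => hq j (Finset.mem_insert_of_mem hj))
        (ex_nonneg fun _ _ => KI_nonneg _ _)
    refine h3.trans (h2.trans (le_of_eq (ex_congr fun h _ => ?_)))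
    rw [← Bx695.KI_inter]
    have e : A i ∩ {h | ∀ j ∈ s, h ∈ A j} = {h | ∀ j ∈ insert i s, h ∈ A j} := by
      ext g
      simp only [Set.mem_inter_iff, Set.mem_ofPred_eq, Finset.mem_insert, forall_eq_or_imp]
    rw [e]

/-- **FKG for a finite family of lower sets** -/
theorem ex_inter_dn {x : ℝ} (hx0 : 0 < x) (hx1 : x ≤ 1) {Λ : Finset P2} {τ : P2 → ℤ} (hτ : Lip τ)
    {ι : Type*} (s : Finset ι) (A : ι → Set (P2 → ℤ))
    (hA : ∀ i ∈ s, ∀ g h : P2 → ℤ, g ≤ h → h ∈ A i → g ∈ A i) (q : ι → ℝ) (hq : ∀ i ∈ s, 0 ≤ q i)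
    (hle : ∀ i ∈ s, q i ≤ ex x Λ τ (KI (A i))) :
    ∏ i ∈ s, q i ≤ ex x Λ τ (KI {h | ∀ i ∈ s, h ∈ A i}) := by
  have e : ∀ B : Set (P2 → ℤ), ex x Λ τ (KI B) =
      ex x Λ (fun v => - τ v) (KI {h | (fun v => - h v) ∈ B}) := by
    intro B
    rw [ex_neg]
    refine ex_congr fun h _ => ?_
    have e1 : (fun v => - (fun w => - h w) v) = h := by funext v; exact neg_neg _
    by_cases h1 : h ∈ B
    · rw [KI_of h1, KI_of]
      show (fun v => - (fun w => - h w) v) ∈ B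
      rw [e1]; exact h1
    · rw [KI_of_not h1, KI_of_not]
      intro h2
      apply h1
      have h3 : (fun v => - (fun w => - h w) v) ∈ B := h2
      rw [e1] at h3
      exact h3
  have h1 := ex_inter_up hx0 hx1 (Λ := Λ) hτ.neg s (fun i => {h | (fun v => - h v) ∈ A i})
    (fun i hi g h hgh hg => hA i hi _ _ (fun v => neg_le_neg (hgh v)) hg) q hq
    (fun i hi => by rw [← e]; exact hle i hi)
  rw [e]
  exact h1

end Crest.Agent.R144.Clb617
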