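import Crest.Agent.R144.Clb1_617
import Crest.Agent.R144.Hf10_702

/-!
# R144, integer models, contiguity (S5), block (B'): ONE CLIMB STEP IN AN ARBITRARY VOLUME (helper617)

* `inc_kof` : nonnegative increasing functions of `|h - 1/2|` are `Inc` (702);
* **`climb1_dn`** : for EVERY finite `Λ` (no connectivity hypothesis) with `ball a (K n) ⊆ Λ` and boundary data
  `≤ k` next to `Λ` : `p / 2 ≤ ex x Λ τ 1[{h ≤ k - 1} blocks ball a n | ball a (2 n)]`;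
* **`climb1_up`** : the mirror image.
-/

set_option autoImplicit false
set_option linter.unusedSectionVars false
set_option linter.unusedVariables false

noncomputable section

namespace Crest.Agent.R144.Clb617

open Finset
open Crest.Agent.R144.It844 (P2 Lip adj_iff adj_symm upT mem_upT ex nbhd lip_const ex_mono_bc ex_add_const
  ex_neg ex_tower_random ex_mono ex_nonneg ex_congr ex_const ex_smul)
open Crest.Agent.R144.Zg349 Crest.Agent.R144.Zk349 Crest.Agent.R144.Zd349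
open Crest.Agent.R144.Zm349 (Valid E E_add E_mono E_congr E_smul E_const E_nonneg hts)
open Crest.Agent.R144.Ze349
open Crest.Agent.R144.Bx695 (KI KI_of KI_of_not KI_nonneg KI_le_one)
open Crest.Agent.R144.Rsw867 (ball mem_ball ball_mono adj_ball sc_ball Sepr Blk BlkP ind ind_nonneg ind_le_one
  ind_of_mem ind_of_not_mem RSW path_mono ball_zero_eq)
open Crest.Agent.R144.Mk696 (sepr_split)
open Crest.Agent.R144.Hf702 (kof kof_hh MPos Inc EI EI_mono EI_self E_eq_EH EH EI_refl rfl1 EI_congr EI_add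
  EI_smul EI_le htsI mem_htsI ext ext_of ex_le_EI)
open Crest.Agent.R161.Gks375 (Pos)
open Crest.Agent.R144.Pst967 (hexB mem_hexB)
open Crest.ProbabilityR.HexHeights (Adj)

/-! ### functions of `|h - 1/2|` -/

theorem one_le_kof {z : ℤ} : 1 ≤ kof z ↔ z ≤ -1 ∨ 2 ≤ z := by
  unfold kof
  split_ifs <;> omega

theorem inc_kof {S : Finset P2} {G : (P2 → ℕ) → ℝ} (h0 : ∀ k, 0 ≤ G k) (hm : Monotone G)
    (hd : ∀ k k' : P2 → ℕ, (∀ v ∈ S, k v = k' v) → G k = G k') : Inc S fun h => G fun v => kof (h v) := by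
  classical
  refine ⟨fun h h' e => hd _ _ fun v hv => by rw [e v hv], fun W hW => ?_⟩
  set G' : (↥W → ℕ) → ℝ := fun k => G fun v => if hv : v ∈ W then k ⟨v, hv⟩ else 0 with hG'
  have e1 : ∀ (k : ↥W → ℕ) (σ : ↥W → ℤˣ), G (fun v => kof (ext W k σ v)) = G' k := by
    intro k σ
    rw [hG']
    congr 1
    funext v
    by_cases hv : v ∈ W
    · rw [dif_pos hv, ext_of hv]
      exact kof_hh _ _
    · rw [dif_neg hv]
      unfold Crest.Agent.R144.Hf702.ext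
      rw [dif_neg hv]
      rfl
  refine MPos.congr (Φ := fun k _ => G' k) ⟨fun k => Pos.const (h0 _), fun k k' hk => ?_⟩ e1
  refine Pos.const (sub_nonneg.2 (hm fun v => ?_))
  by_cases hv : v ∈ W
  · simp only [dif_pos hv]; exact hk _
  · simp only [dif_neg hv]; exact le_rfl

/-! ### the blocking event of `|h - 1/2|` -/

open Classical in
/-- indicator: the sites `{1 ≤ k}` block -/
def Gb (a : P2) (m N : ℕ) (k : P2 → ℕ) : ℝ := if Sepr {v | 1 ≤ k v} a m N then 1 else 0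

theorem Gb_nonneg (a : P2) (m N : ℕ) (k : P2 → ℕ) : 0 ≤ Gb a m N k := by
  unfold Gb; split_ifs <;> norm_num

theorem Gb_mono (a : P2) (m N : ℕ) : Monotone (Gb a m N) := by
  intro k k' hk
  unfold Gb
  by_cases h : Sepr {v | 1 ≤ k v} a m N
  · have h' : Sepr {v | 1 ≤ k' v} a m N := Sepr.mono (fun v (hv : 1 ≤ k v) => hv.trans (hk v)) h
    rw [if_pos h, if_pos h']
  · rw [if_neg h]; split_ifs <;> norm_num

theorem Gb_congr {a : P2} {m N : ℕ} (hmN : m ≤ N) {S : Finset P2} (hS : ball a (N + 1) ⊆ S) (k k' : P2 → ℕ)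
    (h : ∀ v ∈ S, k v = k' v) : Gb a m N k = Gb a m N k' := by
  have key : ∀ k k' : P2 → ℕ, (∀ v ∈ S, k v = k' v) → Sepr {v | 1 ≤ k v} a m N → Sepr {v | 1 ≤ k' v} a m N := by
    intro k k' h h1
    refine Sepr.congr hmN (fun t ht _ h2 => ?_) h1
    show 1 ≤ k' t
    rw [← h t (hS ht)]
    exact h2
  unfold Gb
  by_cases h1 : Sepr {v | 1 ≤ k v} a m N
  · rw [if_pos h1, if_pos (key k k' h h1)]
  · rw [if_neg h1, if_neg fun h2 => h1 (key k' k (fun v hv => (h v hv).symm) h2)]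

theorem set_kof (h : P2 → ℤ) : {v : P2 | 1 ≤ kof (h v)} = {v | 2 ≤ h v} ∪ {v | h v ≤ -1} := by
  ext v
  simp only [Set.mem_union, Set.mem_ofPred_eq, one_le_kof]
  tauto

/-- a blocking set of `|h - 1/2| > 1` is above or below -/
theorem Gb_le {a : P2} {m N : ℕ} (hmN : m ≤ N) {h : P2 → ℤ} (hl : Lip h) :
    Gb a m N (fun v => kof (h v)) ≤ KI (Jup 2 a m N) h + KI (Jdn (-1) a m N) h := by
  unfold Gb
  rw [set_kof]
  split_ifs with h1
  · rcases sepr_split hmN (fun u _ v _ hu hv ha => by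
      have h5 := abs_le.1 (hl u v ha)
      simp only [Set.mem_ofPred_eq] at hu hv
      omega) h1 with h4 | h4
    · rw [KI_of (show h ∈ Jup 2 a m N from h4)]
      linarith [KI_nonneg (Jdn (-1) a m N) h]
    · rw [KI_of (show h ∈ Jdn (-1) a m N from h4)]
      linarith [KI_nonneg (Jup 2 a m N) h]
  · exact add_nonneg (KI_nonneg _ _) (KI_nonneg _ _)

theorem sub_VF (F : Finset P2) : F ⊆ VF F := fun t ht => mem_VF.2 ⟨t, ht, base_mem_up t⟩

/-! ### one step -/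

/-- data `0` -/
theorem climb1_zero {x : ℝ} (hx0 : 0 < x) (hx1 : x ≤ 1) {K : ℕ} {p : ℝ} (hR : RSW ((x ^ 2)⁻¹) K p) {n : ℕ}
    (hn : 1 ≤ n) {a : P2} {Λ : Finset P2} (hB : ball a (K * n) ⊆ Λ) :
    p / 2 ≤ ex x Λ (fun _ => 0) (KI (Jdn (-1) a n (2 * n))) := by
  have hc := one_le_c hx0 hx1
  have hK := hR.K4
  obtain ⟨l, hl⟩ := exists_hexB_sup (upT Λ)
  have hΛF : Λ ⊆ hexB l := fun v hv => hl (mem_upT.2 (Or.inl hv))
  have hΛI : Λ ⊆ IV (hexB l) := Bx695.iv_of_upT hl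
  set B := ball a (K * n) with hBdef
  have hB2 : ball a (2 * n + 1) ⊆ B := ball_mono a (by nlinarith)
  -- the small ball
  have h1 := hR.minus n hn a B (sc_ball a (K * n)) (Finset.Subset.refl _) (fun _ => 1)
    (fun _ => zero_le_one) (fun _ _ _ _ => rfl)
  rw [E_const hc, mul_one] at h1
  have h2 : E ((x ^ 2)⁻¹) B (fun ω => 1 * ind (Blk a n (2 * n)) ω) ≤
      E ((x ^ 2)⁻¹) B (fun ω => (fun h => Gb a n (2 * n) fun v => kof (h v)) ω.1) := by
    refine E_mono hc fun ω _ => ?_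
    rw [one_mul]
    by_cases hb : ω ∈ Blk a n (2 * n)
    · have h3 : Sepr {v | 1 ≤ kof (ω.1 v)} a n (2 * n) := by
        refine Sepr.mono (fun t (ht : mC ω t) => ?_) hb
        have h4 := ht.2
        rw [s1_false] at h4
        simp only [Set.mem_ofPred_eq, one_le_kof]
        omega
      show _ ≤ Gb a n (2 * n) fun v => kof (ω.1 v)
      rw [ind_of_mem hb]
      unfold Gb
      rw [if_pos h3]
    · rw [ind_of_not_mem hb]
      exact Gb_nonneg _ _ _ _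
  have h2' := E_eq_EH hx0.ne' B (fun h => Gb a n (2 * n) fun v => kof (h v))
  have h2'' := h1.trans h2
  rw [h2', ← EI_self] at h2''
  -- monotonicity in the domain
  have hinc : Inc (VF B) fun h => Gb a n (2 * n) fun v => kof (h v) :=
    inc_kof (Gb_nonneg _ _ _) (Gb_mono _ _ _)
      (Gb_congr (by omega) (hB2.trans (sub_VF B)))
  have h3 := EI_mono hx0.le hx1 (F := B) (F' := hexB l) (I := IV B) (I' := Λ) (hB.trans hΛF)
    (Finset.Subset.refl _) hΛI ((IV_sub B).trans hB) hinc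
  -- reflection
  have h4 : EI x (hexB l) Λ (fun h => Gb a n (2 * n) fun v => kof (h v)) ≤
      EI x (hexB l) Λ (KI (Jup 2 a n (2 * n))) + EI x (hexB l) Λ (KI (Jdn (-1) a n (2 * n))) := by
    rw [← EI_add]
    exact EI_le fun h hh => Gb_le (by omega) (mem_htsI.1 hh).1.toLip
  have h5 : EI x (hexB l) Λ (KI (Jup 2 a n (2 * n))) = EI x (hexB l) Λ (KI (Jdn (-1) a n (2 * n))) := by
    rw [← EI_refl x (hexB l) Λ (KI (Jup 2 a n (2 * n)))]
    refine EI_congr fun h hh => ?_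
    have hoff := (mem_htsI.1 hh).1.off
    have e2 : {v : P2 | 2 ≤ rfl1 (hexB l) h v} = {v | h v ≤ -1} := by
      ext v
      simp only [Set.mem_ofPred_eq]
      unfold rfl1
      by_cases hv : v ∈ VF (hexB l)
      · rw [if_pos hv]; omega
      · rw [if_neg hv, hoff v hv]; omega
    have e3 : rfl1 (hexB l) h ∈ Jup 2 a n (2 * n) ↔ h ∈ Jdn (-1) a n (2 * n) := by
      rw [mem_Jup, mem_Jdn, e2]
    by_cases h6 : h ∈ Jdn (-1) a n (2 * n)
    · rw [KI_of h6, KI_of (e3.2 h6)]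
    · rw [KI_of_not h6, KI_of_not fun h7 => h6 (e3.1 h7)]
  -- comparison
  have h6 := ex_le_EI hx0 hx1 hl (f := fun h => -1 * KI (Jdn (-1) a n (2 * n)) h)
    (fun g h hgh => by linarith [antitone_Jdn (-1) a n (2 * n) hgh])
  rw [EI_smul] at h6
  have h7 : ex x Λ (fun _ => 0) (fun h => -1 * KI (Jdn (-1) a n (2 * n)) h) =
      -1 * ex x Λ (fun _ => 0) (KI (Jdn (-1) a n (2 * n))) :=
    ex_smul (V := ℝ) (-1) (KI (Jdn (-1) a n (2 * n)))
  rw [h7] at h6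
  rw [h5] at h4
  have h8 := h2''.trans (h3.trans h4)
  linarith

theorem KI_Jdn_local {k : ℤ} {a : P2} {m N : ℕ} (hmN : m ≤ N) {Λ : Finset P2} (hΛ : ball a (N + 1) ⊆ Λ)
    (g h : P2 → ℤ) (hgh : ∀ v ∈ Λ, g v = h v) : KI (Jdn k a m N) g = KI (Jdn k a m N) h := by
  by_cases h1 : g ∈ Jdn k a m N
  · rw [KI_of h1, KI_of (Jdn_congr hmN (fun v hv => hgh v (hΛ hv)) h1)]
  · rw [KI_of_not h1, KI_of_not fun h2 => h1 (Jdn_congr hmN (fun v hv => (hgh v (hΛ hv)).symm) h2)]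

/-- **(B') ONE STEP DOWN, ARBITRARY FINITE VOLUME.** -/
theorem climb1_dn {x : ℝ} (hx0 : 0 < x) (hx1 : x ≤ 1) {K : ℕ} {p : ℝ} (hR : RSW ((x ^ 2)⁻¹) K p) {n : ℕ}
    (hn : 1 ≤ n) {a : P2} {Λ : Finset P2} (hB : ball a (K * n) ⊆ Λ) {k : ℤ} {τ : P2 → ℤ} (hτ : Lip τ)
    (hle : ∀ v, v ∉ Λ → v ∈ nbhd Λ → τ v ≤ k) :
    p / 2 ≤ ex x Λ τ (KI (Jdn (k - 1) a n (2 * n))) := by
  have hK := hR.K4
  have hB2 : ball a (2 * n + 1) ⊆ Λ := (ball_mono a (by nlinarith)).trans hB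
  have h1 := climb1_zero hx0 hx1 hR hn hB
  have h2 : ex x Λ (fun _ => 0) (KI (Jdn (-1) a n (2 * n))) =
      ex x Λ (fun _ => k) (KI (Jdn (k - 1) a n (2 * n))) := by
    have e1 : (fun _ : P2 => k) = fun v => (fun _ : P2 => (0 : ℤ)) v + k := by
      funext v; ring
    rw [e1, ex_add_const]
    refine ex_congr fun h _ => ?_
    have e2 : (fun v => h v + k) ∈ Jdn (k - 1) a n (2 * n) ↔ h ∈ Jdn (-1) a n (2 * n) := by
      rw [mem_Jdn, mem_Jdn]
      have e : {v : P2 | h v + k ≤ k - 1} = {v | h v ≤ -1} := by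
        ext v
        simp only [Set.mem_ofPred_eq]
        omega
      rw [e]
    by_cases h5 : h ∈ Jdn (-1) a n (2 * n)
    · rw [KI_of h5, KI_of (e2.2 h5)]
    · rw [KI_of_not h5, KI_of_not fun h6 => h5 (e2.1 h6)]
  rw [h2] at h1
  refine h1.trans ?_
  have h3 := Bx695.ex_mono_loc hx0 hx1 hτ (lip_const k) hle (f := fun h => -1 * KI (Jdn (k - 1) a n (2 * n)) h)
    (fun g h hgh => by
      show -1 * KI (Jdn (k - 1) a n (2 * n)) g ≤ -1 * KI (Jdn (k - 1) a n (2 * n)) h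
      linarith [antitone_Jdn (k - 1) a n (2 * n) hgh])
    (fun g h hgh => by
      show -1 * KI (Jdn (k - 1) a n (2 * n)) g = -1 * KI (Jdn (k - 1) a n (2 * n)) h
      rw [KI_Jdn_local (by omega) hB2 g h hgh])
  have e : ∀ τ : P2 → ℤ, ex x Λ τ (fun h => -1 * KI (Jdn (k - 1) a n (2 * n)) h) =
      -1 * ex x Λ τ (KI (Jdn (k - 1) a n (2 * n))) := fun τ =>
    ex_smul (V := ℝ) (-1) (KI (Jdn (k - 1) a n (2 * n)))
  rw [e, e] at h3
  linarith

/-- **(B') ONE STEP UP, ARBITRARY FINITE VOLUME.** -/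
theorem climb1_up {x : ℝ} (hx0 : 0 < x) (hx1 : x ≤ 1) {K : ℕ} {p : ℝ} (hR : RSW ((x ^ 2)⁻¹) K p) {n : ℕ}
    (hn : 1 ≤ n) {a : P2} {Λ : Finset P2} (hB : ball a (K * n) ⊆ Λ) {k : ℤ} {τ : P2 → ℤ} (hτ : Lip τ)
    (hle : ∀ v, v ∉ Λ → v ∈ nbhd Λ → k ≤ τ v) :
    p / 2 ≤ ex x Λ τ (KI (Jup (k + 1) a n (2 * n))) := by
  have h1 := climb1_dn hx0 hx1 hR hn hB (k := -k) (τ := fun v => - τ v) hτ.neg
    (fun v hv hn => neg_le_neg (hle v hv hn))
  rw [ex_Jdn] at h1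
  have e1 : (fun v => - (fun v => - τ v) v) = τ := by funext v; exact neg_neg _
  have e2 : -(-k - 1) = k + 1 := by ring
  rw [e1, e2] at h1
  exact h1

/-- probability form -/
theorem climb1_dn_pr {x : ℝ} (hx0 : 0 < x) (hx1 : x ≤ 1) {K : ℕ} {p : ℝ} (hR : RSW ((x ^ 2)⁻¹) K p) {n : ℕ}
    (hn : 1 ≤ n) {a : P2} {Λ : Finset P2} (hB : ball a (K * n) ⊆ Λ) {k : ℤ} {τ : P2 → ℤ} (hτ : Lip τ)
    (hle : ∀ v, v ∉ Λ → (∃ w ∈ Λ, Adj w v) → τ v ≤ k) :
    p / 2 ≤ It844.pr x Λ τ {h | Sepr {v | h v ≤ k - 1} a n (2 * n)} := by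
  rw [pr_eq]
  exact climb1_dn hx0 hx1 hR hn hB hτ fun v hv hn => hle v hv (hn.resolve_left hv)

/-- probability form -/
theorem climb1_up_pr {x : ℝ} (hx0 : 0 < x) (hx1 : x ≤ 1) {K : ℕ} {p : ℝ} (hR : RSW ((x ^ 2)⁻¹) K p) {n : ℕ}
    (hn : 1 ≤ n) {a : P2} {Λ : Finset P2} (hB : ball a (K * n) ⊆ Λ) {k : ℤ} {τ : P2 → ℤ} (hτ : Lip τ)
    (hle : ∀ v, v ∉ Λ → (∃ w ∈ Λ, Adj w v) → k ≤ τ v) :
    p / 2 ≤ It844.pr x Λ τ {h | Sepr {v | k + 1 ≤ h v} a n (2 * n)} := by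
  rw [pr_eq]
  exact climb1_up hx0 hx1 hR hn hB hτ fun v hv hn => hle v hv (hn.resolve_left hv)

end Crest.Agent.R144.Clb617
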