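import Crest.Agent.R144.Tvp3_643
import Crest.Agent.R144.Hf4_702
import Crest.Agent.R144.Zo2_349

/-!
# R144, contiguity (helper880), part 1: comparison across two plus-closed layers

* `LvI K D` : the exploration from outside `D` leaves `K` unexplored;
* `lp_cmp` : `E_F(LvI K D) * E_v(layer of W) ≤ E_F(layer of W)` for `W ⊆ K ⊆ D ⊆ v`;
* `in_cmp` : `E_F(LvI K D) * E_v(In K B f) ≤ E_F f` for level-insensitive `f ≥ 0` seen from the seed;
* `dom_cmp` : the same under the law with fixed boundary heights, with an outer layer in `D'`.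
-/

set_option autoImplicit false

noncomputable section

namespace Crest.Agent.R144.Cmp880

open Finset
open Crest.Agent.R144.It844 (P2 Lip adj_iff adj_symm upT)
open Crest.Agent.R144.Zg349 Crest.Agent.R144.Zd349 Crest.Agent.R144.Zm349 Crest.Agent.R144.Ze349
open Crest.Agent.R144.Zf349 Crest.Agent.R144.Zs349 Crest.Agent.R144.Zo349
open Crest.Agent.R144.Pst967 (path_symm)
open Crest.Agent.R144.Rsw867
open Crest.Agent.R144.Rw146 (adj_iff_share)
open Crest.Agent.R144.Tvp643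
open Crest.Agent.R144.Hf702 (Xg Bg mem_Bg notMem_Bg layer_Bg Bg_sub sc_Bg PB PBI PLay PBI_nonneg
  pLay_PB pLay_of_PBI offTZ_PBI sum_PBI xg_of_notMem xg_step)
open Crest.ProbabilityR.HexHeights (Adj)

/-! ### the outer exploration -/

open Classical in
/-- the plus-closed exploration from outside `D` leaves `K` unexplored -/
def LvI (K D : Finset P2) (ω : Cfg) : ℝ := if K ⊆ PB D ω then 1 else 0

theorem LvI_nonneg (K D : Finset P2) (ω : Cfg) : 0 ≤ LvI K D ω := by
  unfold LvI; split_ifs <;> norm_num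

theorem LvI_le_one (K D : Finset P2) (ω : Cfg) : LvI K D ω ≤ 1 := by
  unfold LvI; split_ifs <;> norm_num

open Classical in
theorem LvI_eq_sum (K D : Finset P2) (ω : Cfg) :
    LvI K D ω = ∑ B ∈ D.powerset with K ⊆ B, PBI D B ω := by
  unfold LvI PBI
  rw [Finset.sum_ite_eq]
  by_cases h : K ⊆ PB D ω
  · rw [if_pos h, if_pos]
    exact Finset.mem_filter.2 ⟨Finset.mem_powerset.2 (Bg_sub _ D), h⟩
  · rw [if_neg h, if_neg]
    exact fun h' => h (Finset.mem_filter.1 h').2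

/-- a set with disconnected complement is never the unexplored domain -/
theorem sc_of_PBI {D B : Finset P2} (hD : SC D) {ω : Cfg} (h : PBI D B ω ≠ 0) : SC B := by
  unfold PBI at h
  by_cases h1 : PB D ω = B
  · rw [← h1]; exact sc_Bg _ hD
  · rw [if_neg h1] at h; exact absurd rfl h

theorem pC_touch_of_PBI {D B : Finset P2} {ω : Cfg} (h : PBI D B ω ≠ 0) {t : P2} (ht : t ∉ B)
    (h1 : ∃ v ∈ VF B, v ∈ up t) : pC ω t := by
  obtain ⟨t', ht', h2⟩ := adj_of_touch ht h1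
  exact pLay_of_PBI h t' ht' t ht h2

/-- layer of `W` inside `B` -/
def LPi (W B : Finset P2) : Set Cfg := {ω | ∀ t ∈ B, t ∉ W → (∃ v ∈ VF W, v ∈ up t) → pC ω t}

theorem inC_LPi (W B : Finset P2) : InC B (ind (LPi W B)) := by
  intro ω ω' h1 h2
  have key : ∀ t ∈ B, (pC ω t ↔ pC ω' t) := fun t ht => by
    unfold pC
    rw [h2 t ht, (h1 t (mem_VF.2 ⟨t, ht, base_mem_up t⟩)).1]
  exact ind_congr ⟨fun h t ht h3 h4 => (key t ht).1 (h t ht h3 h4),
    fun h t ht h3 h4 => (key t ht).2 (h t ht h3 h4)⟩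

theorem LP_iff_LPi {W B : Finset P2} (hWB : W ⊆ B) {ω : Cfg}
    (h : ∀ t, t ∉ B → (∃ v ∈ VF B, v ∈ up t) → pC ω t) : ω ∈ LP W ↔ ω ∈ LPi W B := by
  constructor
  · exact fun h1 t _ ht h2 => h1 t ht h2
  · intro h1 t ht h2
    by_cases htB : t ∈ B
    · exact h1 t htB ht h2
    · obtain ⟨v, hv, hvt⟩ := h2
      exact h t htB ⟨v, VF_mono hWB hv, hvt⟩

theorem lp_one {c : ℝ} (hc : 1 ≤ c) {F D B W : Finset P2} (hB : SC B) (hBF : B ⊆ F) (hWB : W ⊆ B) :
    E c F (fun ω => PBI D B ω * ind (LP W) ω) = E c F (PBI D B) * E c B (ind (LP W)) := by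
  have h1 := dec_plus hc hB hBF (g := PBI D B) (f := ind (LPi W B)) (offTZ_PBI D B)
    (fun ω h t ht h1 => pC_touch_of_PBI h (Finset.mem_sdiff.1 ht).2 h1) (inC_LPi W B)
  have e1 : (fun ω => PBI D B ω * ind (LP W) ω) = fun ω => PBI D B ω * ind (LPi W B) ω := by
    funext ω
    by_cases h : PBI D B ω = 0
    · rw [h, zero_mul, zero_mul]
    · rw [ind_congr (LP_iff_LPi hWB fun t ht h1 => pC_touch_of_PBI h ht h1)]
  have e2 : E c B (ind (LP W)) = E c B (ind (LPi W B)) := E_congr fun ω hω =>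
    ind_congr (LP_iff_LPi hWB fun t ht _ => pC_of_valid hω ht)
  rw [e1, h1, e2]

/-- **Comparison of the layer probabilities.** -/
theorem lp_cmp {c : ℝ} (hc : 1 ≤ c) {F v D K W : Finset P2} (hv : SC v) (hD : SC D) (hDv : D ⊆ v)
    (hDF : D ⊆ F) (hWK : W ⊆ K) :
    E c F (LvI K D) * E c v (ind (LP W)) ≤ E c F (ind (LP W)) := by
  classical
  have e1 : E c F (LvI K D) = ∑ B ∈ D.powerset with K ⊆ B, E c F (PBI D B) := by
    rw [← E_sum]
    exact E_congr fun ω _ => LvI_eq_sum K D ω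
  rw [e1, Finset.sum_mul]
  have e2 : ∀ B ∈ D.powerset.filter (fun B => K ⊆ B), E c F (PBI D B) * E c v (ind (LP W)) ≤
      E c F (fun ω => PBI D B ω * ind (LP W) ω) := by
    intro B hB
    obtain ⟨hBD, hKB⟩ := Finset.mem_filter.1 hB
    rw [Finset.mem_powerset] at hBD
    by_cases hsc : SC B
    · rw [lp_one hc hsc (hBD.trans hDF) (hWK.trans hKB)]
      refine mul_le_mul_of_nonneg_left ?_ (E_nonneg hc fun ω _ => PBI_nonneg D B ω)
      exact dom_mono hc hsc hv (hBD.trans hDv) fun ω ω' h => ind_le_ind fun h' => LP.mono h h'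
    · have h0 : ∀ ω, PBI D B ω = 0 := fun ω => by
        by_contra h
        exact hsc (sc_of_PBI hD h)
      have e3 : E c F (PBI D B) = 0 := by
        rw [show PBI D B = fun _ => (0 : ℝ) from funext h0]; exact E_const hc F 0
      have e4 : E c F (fun ω => PBI D B ω * ind (LP W) ω) = 0 := by
        rw [show (fun ω => PBI D B ω * ind (LP W) ω) = fun _ => (0 : ℝ) from
          funext fun ω => by rw [h0, zero_mul]]
        exact E_const hc F 0
      rw [e3, e4, zero_mul]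
  refine (Finset.sum_le_sum e2).trans ?_
  rw [← E_sum]
  refine E_mono hc fun ω _ => ?_
  rw [← Finset.sum_mul, ← LvI_eq_sum]
  exact mul_le_of_le_one_left (ind_nonneg _ _) (LvI_le_one K D ω)

/-! ### inner comparison -/

/-- `f` does not see the gluing: level-insensitive, seen from the seed `B0` -/
def Seen (B0 : Finset P2) (f : Cfg → ℝ) : Prop :=
  ∀ W, SC W → B0 ⊆ W → ∀ ω ω' : Cfg, Lip ω.1 → Lay true W ω → Valid W ω' →
    f (glue true W ω ω') = f ω'

/-- **Inner comparison.** -/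
theorem in_cmp {c : ℝ} (hc : 1 ≤ c) {F v D K B0 : Finset P2} (hv : SC v) (hD : SC D) (hDv : D ⊆ v)
    (hDF : D ⊆ F) (hK : SC K) (hKD : K ⊆ D) (hB : B0.Nonempty) (hBc : IsConn (B0 : Set P2))
    {f : Cfg → ℝ} (f0 : ∀ ω, 0 ≤ f ω) (hf : Seen B0 f) :
    E c F (LvI K D) * E c v (fun ω => ind (In K B0) ω * f ω) ≤ E c F f := by
  classical
  have hG : Gd K B0 (fun _ => Set.univ) = In K B0 := by
    ext ω
    exact ⟨fun h => h.1, fun h => ⟨h, Set.mem_univ _⟩⟩
  have e : ∀ ω, ind (In K B0) ω * f ω =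
      ∑ W ∈ K.powerset, ind (DW K B0 W) ω * ind (Set.univ : Set Cfg) ω * f ω := fun ω => by
    rw [← hG]; exact sum_DW (fun _ => Set.univ) f ω
  have ho : ∀ W, OffTZ W (ind (Set.univ : Set Cfg)) := fun W ω ω' _ _ => ind_congr Iff.rfl
  have hfs : ∀ G : Finset P2, ∀ W, Nice K B0 W → ∀ ω ω', Valid G ω → Lay true W ω → Valid W ω' →
      ω ∈ (Set.univ : Set Cfg) → f (glue true W ω ω') = f ω' := fun G W hN ω ω' h1 h2 h3 _ =>
    hf W hN.sc hN.seed ω ω' h1.ht.toLip h2 h3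
  have hFle : E c F (fun ω => ind (In K B0) ω * f ω) ≤ E c F f :=
    E_mono hc fun ω _ => mul_le_of_le_one_left (f0 ω) (ind_le_one _ _)
  refine le_trans ?_ hFle
  have ev : E c v (fun ω => ind (In K B0) ω * f ω) =
      ∑ W ∈ K.powerset, E c v (fun ω => ind (DW K B0 W) ω * ind (Set.univ : Set Cfg) ω * f ω) := by
    rw [← E_sum]; exact E_congr fun ω _ => e ω
  have eF : E c F (fun ω => ind (In K B0) ω * f ω) =
      ∑ W ∈ K.powerset, E c F (fun ω => ind (DW K B0 W) ω * ind (Set.univ : Set Cfg) ω * f ω) := by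
    rw [← E_sum]; exact E_congr fun ω _ => e ω
  rw [ev, eF, Finset.mul_sum]
  refine Finset.sum_le_sum fun W hW => ?_
  rw [Finset.mem_powerset] at hW
  by_cases hN : Nice K B0 W
  · rw [step hc hN (hW.trans (hKD.trans hDv)) (ho W) (hfs v W hN),
      step hc hN (hW.trans (hKD.trans hDF)) (ho W) (hfs F W hN)]
    have e1 : ∀ G : Finset P2, E c G (fun ω => ind (LP W) ω * ind (Set.univ : Set Cfg) ω) =
        E c G (ind (LP W)) := fun G => E_congr fun ω _ => by
      rw [ind_of_mem (Set.mem_univ ω), mul_one]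
    rw [e1, e1]
    have h0 : 0 ≤ E c W (fun ω' => ind (DW K B0 W) ω' * f ω') :=
      E_nonneg hc fun ω _ => mul_nonneg (ind_nonneg _ _) (f0 ω)
    calc E c F (LvI K D) * (E c W (fun ω' => ind (DW K B0 W) ω' * f ω') * E c v (ind (LP W)))
        = E c W (fun ω' => ind (DW K B0 W) ω' * f ω') *
          (E c F (LvI K D) * E c v (ind (LP W))) := by ring
      _ ≤ _ := mul_le_mul_of_nonneg_left (lp_cmp hc hv hD hDv hDF hW) h0
  · have key : ∀ ω, ind (DW K B0 W) ω = 0 := fun ω =>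
      ind_of_not_mem fun h => hN (nice_of_DW hK hB hBc h)
    simp only [key, zero_mul]
    exact le_of_eq (by rw [E_const hc, E_const hc, mul_zero])

/-! ### gluing along the outer layer -/

theorem pLay_glue {B : Finset P2} {ω ω' : Cfg} (hB : SC B) (hl : Lip ω.1) (hL : Lay true B ω)
    (hω' : Valid B ω') : ∀ t, t ∉ B → ∀ t' ∈ B, Adj t' t → pC (glue true B ω ω') t :=
  fun t ht _ ht' h => LP_of_lay (glue_lay hB hl hL hω') t ht (touch_of_adj ht' h)

theorem In_glue {B K B0 : Finset P2} {ω ω' : Cfg} (hB : SC B) (hB0 : B0 ⊆ B) (hl : Lip ω.1)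
    (hL : Lay true B ω) (hω' : Valid B ω') : glue true B ω ω' ∈ In K B0 ↔ ω' ∈ In K B0 := by
  have e : Xi B0 (glue true B ω ω') = Xi B0 ω' :=
    Xi_eq hB0 (pLay_glue hB hl hL hω') (fun t ht _ _ _ => pC_of_valid hω' ht)
      fun t ht => pC_glue hB hl hL ht
  unfold In
  rw [Set.mem_ofPred_eq, Set.mem_ofPred_eq, e]

/-- `In K B0 * f` is seen from any domain containing `B0` -/
theorem Seen.in {B0 K : Finset P2} {f : Cfg → ℝ} (hf : Seen B0 f) :
    Seen B0 fun ω => ind (In K B0) ω * f ω := fun W hW hB ω ω' h1 h2 h3 => by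
  show ind (In K B0) (glue true W ω ω') * f (glue true W ω ω') = ind (In K B0) ω' * f ω'
  rw [ind_congr (In_glue hW hB h1 h2 h3), hf W hW hB ω ω' h1 h2 h3]

/-- decoupling at the outer layer, fixed boundary heights, extra outer factor `g` -/
theorem outer_one {c : ℝ} (hc : 1 ≤ c) {Λ : Finset P2} {ξ : P2 → ℤ} {D' B B0 : Finset P2}
    (hB : SC B) (hBΛ : VF B ⊆ Λ) (hB0 : B0 ⊆ B) {f g : Cfg → ℝ} (hf : Seen B0 f)
    (hg : ∀ ω ω' : Cfg, g (glue true B ω ω') = g ω) :
    E0 c Λ ξ (fun ω => PBI D' B ω * (g ω * f ω)) =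
      E c B f * E0 c Λ ξ (fun ω => PBI D' B ω * g ω) := by
  have h := E0_dec (e := true) (ξ := ξ) hc hB hBΛ
    (Ψ := fun ω => PBI D' B ω * (g ω * f ω)) (g := fun ω => PBI D' B ω * g ω)
    (φ := fun _ ω' => f ω') ?_ ?_
  · rw [h, ← E0_smul]
    congr 1
    funext ω
    ring
  · intro ω _ hw hL
    have h0 : PBI D' B ω = 0 := by
      by_contra h0
      exact hL (lay_of' hBΛ hw fun t ht h1 => pC_touch_of_PBI h0 ht h1)
    exact ⟨by rw [h0, zero_mul], by rw [h0, zero_mul]⟩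
  · intro ω ω' hω _ hL hω'
    have hl : Lip ω.1 := (mem_cf.1 hω).1.1
    show PBI D' B (glue true B ω ω') * (g (glue true B ω ω') * f (glue true B ω ω')) =
      PBI D' B ω * g ω * f ω'
    rw [offTZ_glue hB hl hL hω' (offTZ_PBI D' B), hg, hf B hB hB0 ω ω' hl hL hω']
    ring

/-- **Comparison with the law with fixed boundary heights**, across an outer layer in `D'` and an
inner layer in `K`; `g` sees the outside of `D'`. -/
theorem dom_cmp {c : ℝ} (hc : 1 ≤ c) {Λ : Finset P2} {ξ : P2 → ℤ} (hξ : Lip ξ)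
    {F D' D K B0 : Finset P2} (hD' : SC D') (hD'Λ : VF D' ⊆ Λ) (hD : SC D) (hDF : D ⊆ F)
    (hK : SC K) (hKD : K ⊆ D) (hBK : B0 ⊆ K) (hB : B0.Nonempty) (hBc : IsConn (B0 : Set P2))
    {f g : Cfg → ℝ} (f0 : ∀ ω, 0 ≤ f ω) (hf : Seen B0 f) (g0 : ∀ ω, 0 ≤ g ω)
    (hg : ∀ B ⊆ D', ∀ ω ω' : Cfg, g (glue true B ω ω') = g ω) :
    E c F (LvI K D) * E0 c Λ ξ (fun ω => LvI D D' ω * (g ω * (ind (In K B0) ω * f ω))) ≤
      E c F f * E0 c Λ ξ g := by
  classical
  have e : E0 c Λ ξ (fun ω => LvI D D' ω * (g ω * (ind (In K B0) ω * f ω))) =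
      ∑ B ∈ D'.powerset with D ⊆ B,
        E0 c Λ ξ (fun ω => PBI D' B ω * (g ω * (ind (In K B0) ω * f ω))) := by
    rw [← E0_sum]
    congr 1
    funext ω
    rw [LvI_eq_sum, Finset.sum_mul]
  have hq : 0 ≤ E c F (LvI K D) := E_nonneg hc fun ω _ => LvI_nonneg K D ω
  have hEf : 0 ≤ E c F f := E_nonneg hc fun ω _ => f0 ω
  rw [e, Finset.mul_sum]
  have term : ∀ B ∈ D'.powerset.filter (fun B => D ⊆ B),
      E c F (LvI K D) * E0 c Λ ξ (fun ω => PBI D' B ω * (g ω * (ind (In K B0) ω * f ω))) ≤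
        E c F f * E0 c Λ ξ (fun ω => PBI D' B ω * g ω) := by
    intro B hBm
    obtain ⟨hBD, hDB⟩ := Finset.mem_filter.1 hBm
    rw [Finset.mem_powerset] at hBD
    by_cases hsc : SC B
    · rw [outer_one hc hsc ((VF_mono hBD).trans hD'Λ) (hBK.trans (hKD.trans hDB)) hf.in (hg B hBD),
        ← mul_assoc]
      refine mul_le_mul_of_nonneg_right ?_
        (E0_nonneg hc fun ω _ => mul_nonneg (PBI_nonneg D' B ω) (g0 ω))
      exact in_cmp hc hsc hD hDB hDF hK hKD hB hBc f0 hf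
    · have h0 : ∀ ω, PBI D' B ω = 0 := fun ω => by
        by_contra h
        exact hsc (sc_of_PBI hD' h)
      simp only [h0, zero_mul]
      rw [E0_const hc hξ, mul_zero, mul_zero]
  refine (Finset.sum_le_sum term).trans ?_
  rw [← Finset.mul_sum]
  refine mul_le_mul_of_nonneg_left ?_ hEf
  rw [← E0_sum]
  refine E0_mono hc fun ω _ _ => ?_
  rw [← Finset.sum_mul, ← LvI_eq_sum]
  exact mul_le_of_le_one_left (g0 ω) (LvI_le_one D D' ω)

end Crest.Agent.R144.Cmp880
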