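import Crest.Agent.R144.Rsw0_867

/-!
# R144, QRSW (doc 1941): covering of a hexagonal ball by smaller ones (helper356)
-/

set_option autoImplicit false

namespace Crest.Agent.R144.Cov356

open Crest.Agent.R144.It844 (P2)
open Crest.Agent.R144.Rsw867 (ball mem_ball)

/-- covering of `ball z r` by balls of radius `r'` (`r' = 0` allowed) -/
theorem cov (z : P2) (r r' : ℕ) : ∃ Z : Finset P2,
    Z.card ≤ (2 * ((r + r' / 2) / (2 * (r' / 2) + 1)) + 1) ^ 2 ∧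
    (∀ z' ∈ Z, |z'.1 - z.1| ≤ r + r' ∧ |z'.2 - z.2| ≤ r + r') ∧
    ball z r ⊆ Z.biUnion fun z' => ball z' r' := by
  classical
  set ρ : ℕ := r' / 2 with hρ
  set σ : ℕ := 2 * ρ + 1 with hσ
  set M : ℕ := (r + ρ) / σ with hM
  have hσ0 : 0 < σ := by omega
  have hMσ : M * σ ≤ r + ρ := Nat.div_mul_le_self _ _
  set I : Finset ℤ := Finset.Icc (-(M : ℤ)) M with hI
  have hIc : I.card = 2 * M + 1 := by
    rw [hI, Int.card_Icc]; omega
  refine ⟨(I ×ˢ I).image fun p => (z.1 + p.1 * σ, z.2 + p.2 * σ), ?_, ?_, ?_⟩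
  · refine Finset.card_image_le.trans ?_
    rw [Finset.card_product, hIc, sq]
  · intro z' hz'
    rw [Finset.mem_image] at hz'
    obtain ⟨⟨i, j⟩, hij, rfl⟩ := hz'
    rw [Finset.mem_product, hI, Finset.mem_Icc, Finset.mem_Icc] at hij
    have hb : ((M : ℤ)) * (σ : ℤ) ≤ r + ρ := by exact_mod_cast hMσ
    have hs : (0 : ℤ) < σ := by exact_mod_cast hσ0
    have hr : (ρ : ℤ) ≤ r' := by omega
    simp only at hij
    simp only [add_sub_cancel_left, abs_le]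
    refine ⟨⟨?_, ?_⟩, ⟨?_, ?_⟩⟩ <;> nlinarith [hij.1.1, hij.1.2, hij.2.1, hij.2.2]
  · intro v hv
    rw [mem_ball] at hv
    simp only [abs_le] at hv
    rw [Finset.mem_biUnion]
    have hs : (0 : ℤ) < σ := by exact_mod_cast hσ0
    -- the grid index of a coordinate
    have key : ∀ p : ℤ, -(r : ℤ) ≤ p → p ≤ r →
        ∃ i : ℤ, i ∈ I ∧ -(ρ : ℤ) ≤ p - i * σ ∧ p - i * σ ≤ ρ := by
      intro p h1 h2
      refine ⟨(p + ρ) / σ, ?_, ?_, ?_⟩
      · rw [hI, Finset.mem_Icc]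
        have hMe : (M : ℤ) = ((r : ℤ) + ρ) / σ := by rw [hM]; push_cast; rfl
        constructor
        · rw [Int.le_ediv_iff_mul_le hs]
          have h3 : (r : ℤ) + ρ < (M + 1) * σ := by
            have := Nat.lt_div_mul_add (a := r + ρ) hσ0
            rw [← hM] at this
            have h4 : ((r + ρ : ℕ) : ℤ) < ((M * σ + σ : ℕ) : ℤ) := by exact_mod_cast this
            push_cast at h4
            linarith
          have h5 : (σ : ℤ) = 2 * ρ + 1 := by rw [hσ]; push_cast; ring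
          nlinarith
        · rw [hMe]
          exact Int.ediv_le_ediv hs (by omega)
      · have h3 := Int.emod_nonneg (p + ρ) hs.ne'
        have h4 := Int.emod_add_mul_ediv (p + ρ) σ
        nlinarith
      · have h3 := Int.emod_lt_of_pos (p + ρ) hs
        have h4 := Int.emod_add_mul_ediv (p + ρ) σ
        have h5 : (σ : ℤ) = 2 * ρ + 1 := by rw [hσ]; push_cast; ring
        nlinarith
    obtain ⟨i, hi, hi1, hi2⟩ := key (v.1 - z.1) hv.1.1 hv.1.2
    obtain ⟨j, hj, hj1, hj2⟩ := key (v.2 - z.2) hv.2.1.1 hv.2.1.2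
    refine ⟨(z.1 + i * σ, z.2 + j * σ), Finset.mem_image.2 ⟨(i, j), Finset.mem_product.2 ⟨hi, hj⟩,
      rfl⟩, ?_⟩
    rw [mem_ball]
    simp only [abs_le]
    have hr : 2 * (ρ : ℤ) ≤ r' := by omega
    refine ⟨⟨?_, ?_⟩, ⟨?_, ?_⟩, ⟨?_, ?_⟩⟩ <;> linarith

/-- covering by balls of a radius `r' ≥ 1` -/
theorem cov1 (z : P2) (r r' : ℕ) (h : 1 ≤ r') : ∃ Z : Finset P2,
    Z.card ≤ (2 * (r / r') + 3) ^ 2 ∧
    (∀ z' ∈ Z, |z'.1 - z.1| ≤ r + r' ∧ |z'.2 - z.2| ≤ r + r') ∧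
    ball z r ⊆ Z.biUnion fun z' => ball z' r' := by
  obtain ⟨Z, h1, h2, h3⟩ := cov z r r'
  refine ⟨Z, h1.trans (Nat.pow_le_pow_left ?_ 2), h2, h3⟩
  have h4 : (r + r' / 2) / (2 * (r' / 2) + 1) ≤ (r + r') / r' :=
    Nat.div_le_div (by omega) (by omega) (by omega)
  rw [Nat.add_div_right _ (by omega)] at h4
  omega

/-- covering by points -/
theorem cov0 (z : P2) (r : ℕ) : ∃ Z : Finset P2, Z.card ≤ (2 * r + 1) ^ 2 ∧
    (∀ z' ∈ Z, |z'.1 - z.1| ≤ r ∧ |z'.2 - z.2| ≤ r) ∧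
    ball z r ⊆ Z.biUnion fun z' => ball z' 0 := by
  obtain ⟨Z, h1, h2, h3⟩ := cov z r 0
  refine ⟨Z, by simpa using h1, by simpa using h2, h3⟩

end Crest.Agent.R144.Cov356
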