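import Crest.Agent.R144.It3_844
import Crest.Agent.R144.Rsw0_867

/-!
# R144, S5 block (C) (helper792), part 1: probability toolkit for `It844.pr`

* `pr_mono`, `pr_compl`, `pr_union_le`, `pr_biUnion_le`, `pr_inter_ge`;
* `pr_tower` : `P_Λ(A) = E_Λ[P_Λ'(A | h off Λ')]`, `pr_tower_of` : the same with a factor seen off `Λ'`;
* `markov` : `P(t < f) ≤ E f / t`;
* `Inc A`, `pr_fkg`, `pr_fkg_fin` : FKG for increasing events.
-/

set_option autoImplicit false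

noncomputable section

namespace Crest.Agent.R144.Cu792

open Finset
open Crest.Agent.R144.It844

variable {x : ℝ} {Λ : Finset P2} {τ : P2 → ℤ}

open Classical in
/-- indicator -/
def ind (A : Set (P2 → ℤ)) (h : P2 → ℤ) : ℝ := if h ∈ A then 1 else 0

theorem ind_nonneg (A : Set (P2 → ℤ)) (h : P2 → ℤ) : 0 ≤ ind A h := by
  unfold ind; split_ifs <;> norm_num

theorem ind_le_one (A : Set (P2 → ℤ)) (h : P2 → ℤ) : ind A h ≤ 1 := by
  unfold ind; split_ifs <;> norm_num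

theorem ind_of {A : Set (P2 → ℤ)} {h : P2 → ℤ} (hh : h ∈ A) : ind A h = 1 := if_pos hh
theorem ind_not {A : Set (P2 → ℤ)} {h : P2 → ℤ} (hh : h ∉ A) : ind A h = 0 := if_neg hh

theorem ind_inter (A B : Set (P2 → ℤ)) (h : P2 → ℤ) : ind (A ∩ B) h = ind A h * ind B h := by
  by_cases h1 : h ∈ A <;> by_cases h2 : h ∈ B
  · rw [ind_of (A := A ∩ B) ⟨h1, h2⟩, ind_of h1, ind_of h2, one_mul]
  · rw [ind_not (A := A ∩ B) (fun h' => h2 h'.2), ind_not h2, mul_zero]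
  · rw [ind_not (A := A ∩ B) (fun h' => h1 h'.1), ind_not h1, zero_mul]
  · rw [ind_not (A := A ∩ B) (fun h' => h1 h'.1), ind_not h1, zero_mul]

theorem pr_eq (A : Set (P2 → ℤ)) : pr x Λ τ A = ex x Λ τ (ind A) := by
  unfold pr ind
  refine ex_congr fun h _ => ?_
  split_ifs <;> rfl

theorem pr_congr {A B : Set (P2 → ℤ)} (h : ∀ a ∈ conf Λ τ, (a ∈ A ↔ a ∈ B)) :
    pr x Λ τ A = pr x Λ τ B := by
  rw [pr_eq, pr_eq]
  refine ex_congr fun a ha => ?_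
  unfold ind
  by_cases h1 : a ∈ A
  · rw [if_pos h1, if_pos ((h a ha).1 h1)]
  · rw [if_neg h1, if_neg (fun h2 => h1 ((h a ha).2 h2))]

theorem pr_mono {A B : Set (P2 → ℤ)} (h : ∀ a ∈ conf Λ τ, a ∈ A → a ∈ B) :
    pr x Λ τ A ≤ pr x Λ τ B := by
  rw [pr_eq, pr_eq]
  refine ex_mono fun a ha => ?_
  by_cases h1 : a ∈ A
  · rw [ind_of h1, ind_of (h a ha h1)]
  · rw [ind_not h1]; exact ind_nonneg _ _

theorem pr_nonneg (A : Set (P2 → ℤ)) : 0 ≤ pr x Λ τ A := by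
  rw [pr_eq]; exact ex_nonneg fun a _ => ind_nonneg _ _

theorem pr_univ (hx : 0 < x) (hτ : Lip τ) : pr x Λ τ Set.univ = 1 := by
  rw [pr_eq, ← ex_const hx hτ (1 : ℝ) (Λ := Λ)]
  exact ex_congr fun a _ => ind_of trivial

theorem pr_le_one (hx : 0 < x) (hτ : Lip τ) (A : Set (P2 → ℤ)) : pr x Λ τ A ≤ 1 := by
  rw [← pr_univ hx hτ (Λ := Λ)]
  exact pr_mono fun _ _ _ => trivial

theorem pr_compl (hx : 0 < x) (hτ : Lip τ) (A : Set (P2 → ℤ)) : pr x Λ τ Aᶜ = 1 - pr x Λ τ A := by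
  have h1 : pr x Λ τ A + pr x Λ τ Aᶜ = 1 := by
    rw [pr_eq, pr_eq, ← ex_add, ← ex_const hx hτ (1 : ℝ) (Λ := Λ)]
    refine ex_congr fun a _ => ?_
    by_cases h : a ∈ A
    · rw [ind_of h, ind_not (fun h' : a ∈ Aᶜ => h' h), add_zero]
    · rw [ind_not h, ind_of (show a ∈ Aᶜ from h), zero_add]
  linarith

theorem pr_union_le (A B : Set (P2 → ℤ)) : pr x Λ τ (A ∪ B) ≤ pr x Λ τ A + pr x Λ τ B := by
  rw [pr_eq, pr_eq, pr_eq, ← ex_add]
  refine ex_mono fun a _ => ?_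
  have h1 := ind_nonneg A a
  have h2 := ind_nonneg B a
  by_cases h : a ∈ A ∪ B
  · rw [ind_of h]
    rcases h with h | h
    · rw [ind_of h]; linarith
    · rw [ind_of h]; linarith
  · rw [ind_not h]; linarith

theorem pr_empty : pr x Λ τ ∅ = 0 := by
  rw [pr_eq]
  have : ex x Λ τ (ind ∅) = ex x Λ τ (fun _ => (0 : ℝ) • (0 : ℝ)) :=
    ex_congr fun a _ => by rw [ind_not (fun h : a ∈ (∅ : Set (P2 → ℤ)) => h)]; simp
  rw [this, ex_smul]
  simp

theorem pr_biUnion_le {ι : Type*} (I : Finset ι) (A : ι → Set (P2 → ℤ)) :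
    pr x Λ τ (⋃ i ∈ I, A i) ≤ ∑ i ∈ I, pr x Λ τ (A i) := by
  classical
  induction I using Finset.induction_on with
  | empty => simp [pr_empty]
  | @insert a s ha ih =>
    rw [Finset.set_biUnion_insert, Finset.sum_insert ha]
    exact (pr_union_le _ _).trans (by linarith)

theorem pr_inter_ge (A B : Set (P2 → ℤ)) :
    pr x Λ τ A - pr x Λ τ Bᶜ ≤ pr x Λ τ (A ∩ B) := by
  have h1 : pr x Λ τ A ≤ pr x Λ τ ((A ∩ B) ∪ Bᶜ) := pr_mono fun a _ h => by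
    by_cases hb : a ∈ B
    · exact Or.inl ⟨h, hb⟩
    · exact Or.inr hb
  have h2 := pr_union_le (x := x) (Λ := Λ) (τ := τ) (A ∩ B) Bᶜ
  linarith

/-- Markov's inequality -/
theorem markov {f : (P2 → ℤ) → ℝ} (hf : ∀ a ∈ conf Λ τ, 0 ≤ f a) {t : ℝ} (ht : 0 < t) :
    pr x Λ τ {h | t < f h} ≤ ex x Λ τ f / t := by
  rw [le_div_iff₀ ht, pr_eq]
  have h1 : t • ex x Λ τ (ind {h | t < f h}) ≤ ex x Λ τ f := by
    rw [← ex_smul]
    refine ex_mono fun a ha => ?_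
    by_cases h : a ∈ {h | t < f h}
    · rw [ind_of h]
      have h2 : t < f a := h
      simp only [smul_eq_mul, mul_one]
      exact h2.le
    · rw [ind_not h]
      simpa using hf a ha
  rw [smul_eq_mul] at h1
  linarith

theorem ex_le_one {f : (P2 → ℤ) → ℝ} (hx : 0 < x) (hτ : Lip τ) (hf : ∀ a ∈ conf Λ τ, f a ≤ 1) :
    ex x Λ τ f ≤ 1 := by
  rw [← ex_const hx hτ (1 : ℝ) (Λ := Λ)]
  exact ex_mono hf

/-- tower property for events -/
theorem pr_tower (hx : 0 < x) {Λ' : Finset P2} (hs : Λ' ⊆ Λ) (τ : P2 → ℤ) (A : Set (P2 → ℤ)) :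
    pr x Λ τ A = ex x Λ τ (fun h => pr x Λ' h A) := by
  rw [pr_eq, ex_tower hx hs]
  exact ex_congr fun h _ => (pr_eq A).symm

/-- seen off `Λ'` -/
def Off (Λ' : Finset P2) (A : Set (P2 → ℤ)) : Prop :=
  ∀ h g : P2 → ℤ, (∀ v, v ∉ Λ' → h v = g v) → (h ∈ A ↔ g ∈ A)

/-- tower property with a second event seen off `Λ'` -/
theorem pr_tower_inter (hx : 0 < x) {Λ' : Finset P2} (hs : Λ' ⊆ Λ) (τ : P2 → ℤ)
    {A B : Set (P2 → ℤ)} (hA : Off Λ' A) :
    pr x Λ τ (A ∩ B) = ex x Λ τ (fun h => ind A h * pr x Λ' h B) := by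
  rw [pr_tower hx hs]
  refine ex_congr fun h _ => ?_
  rw [pr_eq, pr_eq, ← smul_eq_mul, ← ex_smul]
  refine ex_congr fun g hg => ?_
  rw [ind_inter, smul_eq_mul]
  congr 1
  have h1 := hA g h fun v hv => (mem_conf.1 hg).2 v hv
  unfold ind
  by_cases h2 : g ∈ A
  · rw [if_pos h2, if_pos (h1.1 h2)]
  · rw [if_neg h2, if_neg (fun h3 => h2 (h1.2 h3))]

/-- increasing events -/
def Inc (A : Set (P2 → ℤ)) : Prop := ∀ a b : P2 → ℤ, a ≤ b → a ∈ A → b ∈ A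

theorem Inc.ind {A : Set (P2 → ℤ)} (hA : Inc A) {a b : P2 → ℤ} (hab : a ≤ b) :
    Cu792.ind A a ≤ Cu792.ind A b := by
  by_cases h : a ∈ A
  · rw [ind_of h, ind_of (hA a b hab h)]
  · rw [ind_not h]; exact ind_nonneg _ _

theorem Inc.inter {A B : Set (P2 → ℤ)} (hA : Inc A) (hB : Inc B) : Inc (A ∩ B) :=
  fun a b hab h => ⟨hA a b hab h.1, hB a b hab h.2⟩

theorem Inc.biInter {ι : Type*} {I : Finset ι} {A : ι → Set (P2 → ℤ)} (hA : ∀ i ∈ I, Inc (A i)) :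
    Inc (⋂ i ∈ I, A i) := fun a b hab h => by
  simp only [Set.mem_iInter] at h ⊢
  exact fun i hi => hA i hi a b hab (h i hi)

theorem Inc.univ : Inc Set.univ := fun _ _ _ _ => trivial

theorem pr_fkg (hx0 : 0 < x) (hx1 : x ≤ 1) (hτ : Lip τ) {A B : Set (P2 → ℤ)} (hA : Inc A)
    (hB : Inc B) : pr x Λ τ A * pr x Λ τ B ≤ pr x Λ τ (A ∩ B) := by
  rw [pr_eq, pr_eq, pr_eq]
  refine (fkg hx0 hx1 hτ (fun a _ b _ hab => hA.ind hab) (fun a _ b _ hab => hB.ind hab)).trans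
    (le_of_eq (ex_congr fun h _ => (ind_inter A B h).symm))

/-- FKG for finitely many increasing events of probability `≥ c` -/
theorem pr_fkg_fin (hx0 : 0 < x) (hx1 : x ≤ 1) (hτ : Lip τ) {ι : Type*} (I : Finset ι)
    {A : ι → Set (P2 → ℤ)} (hA : ∀ i ∈ I, Inc (A i)) {c : ℝ} (hc : 0 ≤ c)
    (h : ∀ i ∈ I, c ≤ pr x Λ τ (A i)) : c ^ I.card ≤ pr x Λ τ (⋂ i ∈ I, A i) := by
  classical
  induction I using Finset.induction_on with
  | empty =>
    have : (⋂ i ∈ (∅ : Finset ι), A i) = Set.univ := by simp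
    rw [this, pr_univ hx0 hτ]
    simp
  | @insert a s ha ih =>
    rw [Finset.card_insert_of_notMem ha, Finset.set_biInter_insert, pow_succ, mul_comm]
    have h1 := ih (fun i hi => hA i (Finset.mem_insert_of_mem hi))
      (fun i hi => h i (Finset.mem_insert_of_mem hi))
    have h2 := h a (Finset.mem_insert_self _ _)
    have h3 := pr_fkg hx0 hx1 hτ (Λ := Λ) (hA a (Finset.mem_insert_self _ _))
      (Inc.biInter fun i hi => hA i (Finset.mem_insert_of_mem hi))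
    exact (mul_le_mul h2 h1 (pow_nonneg hc _) (pr_nonneg _)).trans h3

/-- monotonicity in the data for increasing events -/
theorem pr_mono_bc (hx0 : 0 < x) (hx1 : x ≤ 1) {τ' : P2 → ℤ} (hτ : Lip τ) (hτ' : Lip τ')
    (hle : ∀ v, v ∉ Λ → τ v ≤ τ' v) {A : Set (P2 → ℤ)} (hA : Inc A) :
    pr x Λ τ A ≤ pr x Λ τ' A := by
  rw [pr_eq, pr_eq]
  exact ex_mono_bc hx0 hx1 hτ hτ' hle fun a _ b _ hab => hA.ind hab

end Crest.Agent.R144.Cu792
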