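import Crest.Agent.R144.Cmp2_880
import Crest.Agent.R144.Cu1_792
import Crest.Agent.R144.Pst11_967

/-!
# R144, contiguity (helper880), part 3: the domain form

`dom_main` : `ex x Λ τ A ≤ η + C * E c F A` for neutral `0 ≤ A ≤ 1` seen from `K0`, uniformly in the
domain, from `CU x` and the RSW input.
-/

set_option autoImplicit false

noncomputable section

namespace Crest.Agent.R144.Cmp880

open Finset
open Crest.Agent.R144.It844 (P2 Lip adj_iff adj_symm upT ex pr conf ex_congr ex_mono ex_nonneg ex_add)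
open Crest.Agent.R144.Zg349 Crest.Agent.R144.Zd349 Crest.Agent.R144.Ze349
open Crest.Agent.R144.Zm349 (Valid E E_const E_nonneg E_mono E_congr wt Z_pos)
open Crest.Agent.R144.Zf349 Crest.Agent.R144.Zs349 Crest.Agent.R144.Zo349
open Crest.Agent.R144.Pst967 (path_symm Hz LocZ NeutZ GObs)
open Crest.Agent.R144.Rsw867
open Crest.Agent.R144.Rw146 (adj_iff_share)
open Crest.Agent.R144.Tvp643
open Crest.Agent.R144.CuP880
open Crest.ProbabilityR.HexHeights (Adj)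

/-! ### neutral functions are seen from the seed -/

theorem lev_const_on {W B0 : Finset P2} (hW : SC W) (hBW : B0 ⊆ W) (hBc : IsConn (B0 : Set P2))
    {ω : Cfg} (hl : Lip ω.1) (hL : Lay true W ω) {v w : P2} (hv : v ∈ B0) (hw : w ∈ B0) :
    lev true W ω v = lev true W ω w := by
  have tri : ∀ s ∈ W, ∀ x ∈ up s, ∀ y ∈ up s, lev true W ω x = lev true W ω y := by
    intro s hs x hx y hy
    obtain ⟨i, rfl⟩ := mem_up_iff.1 hx
    obtain ⟨j, rfl⟩ := mem_up_iff.1 hy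
    exact lev_tri hW hl hL hs i j
  have h := hBc v hv w hw
  induction h with
  | refl => rfl
  | @tail b d _ hbd ih =>
    have hb : b ∈ W := hBW hbd.1
    have hd : d ∈ W := hBW hbd.2.1
    obtain ⟨_, y, hy1, hy2⟩ := adj_iff_share.1 hbd.2.2
    rw [ih hbd.1, tri b hb b (base_mem_up b) y hy1, tri d hd y hy2 d (base_mem_up d)]

theorem seen_of {B0 : Finset P2} (hB : B0.Nonempty) (hBc : IsConn (B0 : Set P2)) {A : (P2 → ℤ) → ℝ}
    (hA : LocZ (B0 : Set P2) A) (hn : NeutZ A) : Seen B0 fun ω => A ω.1 := by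
  intro W hW hBW ω ω' hl hL hω'
  obtain ⟨b, hb⟩ := hB
  show A (glue true W ω ω').1 = A ω'.1
  rw [← hn ω'.1 (lev true W ω b)]
  refine hA _ _ fun v hv => ?_
  have hvV : v ∈ VF W := mem_VF.2 ⟨v, hBW hv, base_mem_up v⟩
  rw [glue_in hvV, lev_const_on hW hBW hBc hl hL hv hb]
  exact add_comm _ _

/-! ### fillings inside the domain -/

theorem VF_fl_sub {F₁ S Λ : Finset P2} (hΛ : SC Λ) (hS : ∀ t ∈ S, ∀ v ∈ up t, v ∈ Λ)
    (hΛF : Λ ⊆ F₁) : VF (fl F₁ S) ⊆ Λ := by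
  intro v hv
  obtain ⟨t, ht, hvt⟩ := mem_VF.1 hv
  by_contra hvΛ
  obtain ⟨u0, -, hu0⟩ := exists_far F₁ 0
  have hSΛ : S ⊆ Λ := fun t ht => hS t ht t (base_mem_up t)
  have q := hΛ v (fun h => hvΛ h) u0 (fun h => hu0 (hΛF h))
  have hc : ((Λ : Finset P2) : Set P2)ᶜ ⊆ ((S : Finset P2) : Set P2)ᶜ :=
    Set.compl_subset_compl.2 (Finset.coe_subset.2 hSΛ)
  have q' := path_mono hc q
  have htS : t ∉ S := fun h => hvΛ (hS t h v hvt)
  refine notMem_fl.2 ⟨u0, hu0, ?_⟩ ht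
  rcases base_adj hvt with rfl | h
  · exact q'
  · exact Relation.ReflTransGen.head ⟨fun h' => htS h', fun h' => hvΛ (hSΛ h'), h⟩ q'

/-! ### the Markov step -/

theorem cu_step {x : ℝ} (hx0 : 0 < x) {Λ Col : Finset P2} {τ : P2 → ℤ} (hCol : Col ⊆ Λ)
    {H : Set (P2 → ℤ)} {c0 η : ℝ} (hc0 : 0 < c0)
    (h : pr x Λ τ {h | pr x Col h H < c0} ≤ η) {G : (P2 → ℤ) → ℝ} (G0 : ∀ h, 0 ≤ G h)
    (G1 : ∀ h, G h ≤ 1) (hG : ∀ a b : P2 → ℤ, (∀ v, v ∉ Col → a v = b v) → G a = G b) :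
    ex x Λ τ G ≤ η + c0⁻¹ * ex x Λ τ (fun h => G h * Cu792.ind H h) := by
  have e1 : ex x Λ τ (fun h => G h * Cu792.ind H h) =
      ex x Λ τ (fun h => G h * ex x Col h (Cu792.ind H)) := by
    have := It844.ex_tower_smul (V := ℝ) hx0 (Λ := Λ) (τ := τ) (fun _ => Col) (fun _ _ => hCol)
      (fun _ _ _ _ => rfl) G (fun h _ g hg => hG g h (It844.mem_conf.1 hg).2) (Cu792.ind H)
    simpa only [smul_eq_mul] using this
  rw [e1]
  have e2 : c0⁻¹ * ex x Λ τ (fun h => G h * ex x Col h (Cu792.ind H)) =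
      ex x Λ τ (fun h => c0⁻¹ * (G h * ex x Col h (Cu792.ind H))) := by
    have := It844.ex_smul (x := x) (Λ := Λ) (τ := τ) c0⁻¹ (fun h => G h * ex x Col h (Cu792.ind H))
    simpa only [smul_eq_mul] using this.symm
  rw [e2]
  rw [Cu792.pr_eq] at h
  refine le_trans ?_ (add_le_add_left h _)
  rw [← ex_add]
  refine ex_mono fun g _ => ?_
  by_cases hg : pr x Col g H < c0
  · rw [Cu792.ind_of (A := {h | pr x Col h H < c0}) hg]
    have h1 : 0 ≤ ex x Col g (Cu792.ind H) := ex_nonneg fun _ _ => Cu792.ind_nonneg _ _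
    have : 0 ≤ c0⁻¹ * (G g * ex x Col g (Cu792.ind H)) :=
      mul_nonneg (inv_nonneg.2 hc0.le) (mul_nonneg (G0 g) h1)
    linarith [G1 g]
  · rw [Cu792.ind_not (A := {h | pr x Col h H < c0}) hg, zero_add]
    rw [Cu792.pr_eq] at hg
    push Not at hg
    have h1 : 1 ≤ c0⁻¹ * ex x Col g (Cu792.ind H) := by
      rw [← div_eq_inv_mul, le_div_iff₀ hc0, one_mul]; exact hg
    calc G g = G g * 1 := (mul_one _).symm
      _ ≤ G g * (c0⁻¹ * ex x Col g (Cu792.ind H)) := mul_le_mul_of_nonneg_left h1 (G0 g)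
      _ = _ := by ring

/-! ### locality of the height events -/

theorem NoP_congr {S T : Set P2} {X Y Y' : Finset P2} (hXY : X ⊆ Y) (hY : Y ⊆ Y')
    (hadj : ∀ t ∈ Y, ∀ u, Adj t u → u ∈ Y') (h : ∀ v ∈ Y', v ∈ S → v ∈ T) (hT : NoP T X Y) :
    NoP S X Y := by
  intro u v hu hv p
  have key : ∀ w, Relation.ReflTransGen (StepIn S) u w →
      w ∉ Y ∨ ∃ u', u' ∉ Y ∧ Relation.ReflTransGen (StepIn T) u' w := by
    intro w hw
    induction hw with
    | refl => exact Or.inl hu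
    | @tail b d _ hbd ih =>
      by_cases hd : d ∈ Y
      · right
        have hdT : d ∈ T := h d (hY hd) hbd.2.1
        by_cases hb : b ∈ Y
        · rcases ih with h1 | ⟨u', h1, h2⟩
          · exact absurd hb h1
          · exact ⟨u', h1, h2.tail ⟨h b (hY hb) hbd.1, hdT, hbd.2.2⟩⟩
        · exact ⟨b, hb, Relation.ReflTransGen.single
            ⟨h b (hadj d hd b (adj_symm hbd.2.2)) hbd.1, hdT, hbd.2.2⟩⟩
      · exact Or.inl hd
  rcases key v p with h1 | ⟨u', h1, h2⟩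
  · exact h1 (hXY hv)
  · exact hT u' v h1 hv h2

theorem hh_congr {K : Finset P2} {s : ℕ} {a b : P2 → ℤ} (h : ∀ v ∈ nb K (5 * s + 1), a v = b v)
    (ha : a ∈ HH K s) : b ∈ HH K s := by
  obtain ⟨h1, h2, h3, h4⟩ := ha
  have key : ∀ r r' : ℕ, r ≤ r' → r' ≤ 5 * s → ∀ Q : ℤ → Prop,
      NoP {v | Q (a v)} (nb K r) (nb K r') → NoP {v | Q (b v)} (nb K r) (nb K r') := by
    intro r r' hr hr' Q hN
    refine NoP_congr (nb_mono_r hr) (Y' := nb K (5 * s + 1)) (nb_mono_r (by omega))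
      (fun t ht u hu => adj_nb (by omega) ht hu) (fun v hv hQ => ?_) hN
    show Q (a v)
    rw [h v hv]; exact hQ
  exact ⟨key _ _ (by omega) (by omega) (fun z => z ≤ 0) h1,
    key _ _ (by omega) (by omega) (fun z => 1 ≤ z) h2,
    key _ _ (by omega) (by omega) (fun z => z ≤ 0) h3,
    key _ _ (by omega) (by omega) (fun z => 1 ≤ z) h4⟩

theorem lay_of_hh {ω : Cfg} (hl : Lip ω.1) (hO : OpC ω) {K : Finset P2} {s : ℕ}
    (h : ω.1 ∈ HH K s) : ω ∈ LayE (nb K s) (nb K (3 * s)) :=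
  lay_lemma hl hO (nb_mono_r (by omega)) (nb_mono_r (by omega)) h.1 h.2.1

/-! ### the domain form -/

theorem ind_eq_ite (H : Set (P2 → ℤ)) (h : P2 → ℤ) : 0 ≤ Cu792.ind H h := Cu792.ind_nonneg H h

theorem dom_main {x : ℝ} (hx0 : 0 < x) (hx1 : x ≤ 1) {Kr : ℕ} {p : ℝ}
    (hR : RSW ((x ^ 2)⁻¹) Kr p) (hCU : CU x) (R : ℕ) {η : ℝ} (hη : 0 < η) :
    ∃ (C : ℝ) (s0 : ℕ), 0 < C ∧ ∀ s ≥ s0, ∀ (a : P2) (Λ : Finset P2), SC Λ → Λ ⊆ ball a (R * s) →
      ∀ τ : P2 → ℤ, Lip τ → (∀ v, v ∉ Λ → τ v = 0 ∨ τ v = 1) → ∀ K0 : Finset P2, K0.Nonempty →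
        IsConn (K0 : Set P2) → nb K0 (12 * s) ⊆ Λ → ∀ A : (P2 → ℤ) → ℝ, LocZ (K0 : Set P2) A →
          NeutZ A → (∀ h, 0 ≤ A h) → (∀ h, A h ≤ 1) → ∀ F : Finset P2, SC F → ball a (R * s) ⊆ F →
            ex x Λ τ A ≤ η + C * E ((x ^ 2)⁻¹) F (fun ω => A ω.1) := by
  have hx2 : 0 < x ^ 2 := by positivity
  have hc : 1 ≤ (x ^ 2)⁻¹ := (one_le_inv₀ hx2).2 (pow_le_one₀ hx0.le hx1)
  have hcx : (x ^ 2)⁻¹ * x ^ 2 = 1 := inv_mul_cancel₀ hx2.ne'
  have hp0 := hR.p0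
  have hp1 := hR.p1
  obtain ⟨c1, s1, hc1, h1⟩ := hCU R (η / 2) (by positivity)
  obtain ⟨c2, s2, hc2, h2⟩ := hCU R (c1 * η / 2) (by positivity)
  set q : ℝ := p ^ ((4 * R + 3) ^ 2) with hq
  have hq0 : 0 < q := by positivity
  refine ⟨(c1 * c2 * q)⁻¹, max (max s1 s2) 4, by positivity, ?_⟩
  intro s hs a Λ hΛ hΛb τ hτ hτd K0 hK0 hK0c hKΛ A hAl hAn A0 A1 F hF hbF
  have hs1 : s1 ≤ s := le_trans (le_max_left _ _) ((le_max_left _ _).trans hs)
  have hs2 : s2 ≤ s := le_trans (le_max_right _ _) ((le_max_left _ _).trans hs)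
  have hs4 : 4 ≤ s := (le_max_right _ _).trans hs
  set c : ℝ := (x ^ 2)⁻¹ with hcdef
  set K' : Finset P2 := nb K0 (6 * s) with hK'
  have hK'r : ∀ r, nb K' r ⊆ nb K0 (6 * s + r) := fun r v hv => by
    obtain ⟨w, hw, hvw⟩ := mem_nb.1 hv
    exact nb_nb hw hvw
  have hK'ne : K'.Nonempty := hK0.mono (sub_nb K0 _)
  have hΛ1 : ∀ r, r ≤ 12 * s → nb K0 r ⊆ Λ := fun r hr => (nb_mono_r hr).trans hKΛ
  -- the two Markov steps
  have m1 := cu_step hx0 (Λ := Λ) (τ := τ) (Col := nb K0 (5 * s) \ nb K0 s)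
    (Finset.sdiff_subset.trans (hΛ1 _ (by omega))) hc1
    (h1 s hs1 a Λ hΛ hΛb τ hτ hτd K0 hK0 (hΛ1 _ (by omega))) A0 A1 (fun g g' hg =>
      hAl g g' fun v hv => hg v fun h' => (Finset.mem_sdiff.1 h').2 (sub_nb K0 s hv))
  set G : (P2 → ℤ) → ℝ := fun h => A h * Cu792.ind (HH K0 s) h with hG
  have G0 : ∀ h, 0 ≤ G h := fun h => mul_nonneg (A0 h) (Cu792.ind_nonneg _ _)
  have G1 : ∀ h, G h ≤ 1 := fun h => mul_le_one₀ (A1 h) (Cu792.ind_nonneg _ _) (Cu792.ind_le_one _ _)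
  have hGo : ∀ g g' : P2 → ℤ, (∀ v, v ∉ nb K' (5 * s) \ nb K' s → g v = g' v) → G g = G g' := by
    intro g g' hg
    have hin : ∀ v ∈ nb K0 (5 * s + 1), g v = g' v := fun v hv => hg v fun h' =>
      (Finset.mem_sdiff.1 h').2 (sub_nb K' s (nb_mono_r (by omega) hv))
    have e1 : A g = A g' := hAl g g' fun v hv => hin v (sub_nb K0 _ hv)
    have e2 : Cu792.ind (HH K0 s) g = Cu792.ind (HH K0 s) g' := by
      by_cases hh : g ∈ HH K0 s
      · rw [Cu792.ind_of hh, Cu792.ind_of (hh_congr hin hh)]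
      · rw [Cu792.ind_not hh, Cu792.ind_not fun h' => hh (hh_congr (fun v hv => (hin v hv).symm) h')]
    simp only [hG]
    rw [e1, e2]
  have m2 := cu_step hx0 (Λ := Λ) (τ := τ) (Col := nb K' (5 * s) \ nb K' s)
    (Finset.sdiff_subset.trans ((hK'r _).trans (hΛ1 _ (by omega)))) hc2
    (h2 s hs2 a Λ hΛ hΛb τ hτ hτd K' hK'ne ((hK'r _).trans (hΛ1 _ (by omega)))) G0 G1 hGo
  -- geometry
  set F₁ : Finset P2 := ball a (R * s) with hF₁
  have hF₁sc : SC F₁ := sc_ball a _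
  set Kk := fl F₁ (nb K0 (3 * s)) with hKk
  set D := fl F₁ (nb K0 (6 * s)) with hD
  set D' := fl F₁ (nb K' (3 * s + 1)) with hD'
  have hK3 : nb K0 (3 * s) ⊆ F₁ := (hΛ1 _ (by omega)).trans hΛb
  have hK6 : nb K0 (6 * s) ⊆ F₁ := (hΛ1 _ (by omega)).trans hΛb
  have hK9 : nb K' (3 * s + 1) ⊆ nb K0 (9 * s + 1) := (hK'r _).trans (nb_mono_r (by omega))
  have hK9' : nb K' (3 * s + 1) ⊆ F₁ := hK9.trans ((hΛ1 _ (by omega)).trans hΛb)
  have hD'Λ : VF D' ⊆ Λ := by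
    refine VF_fl_sub hΛ (fun t ht v hv => ?_) hΛb
    refine hΛ1 (9 * s + 2) (by omega) ?_
    have ht' := hK9 ht
    rcases base_adj hv with rfl | h
    · exact nb_mono_r (by omega) ht'
    · exact adj_nb (by omega) ht' h
  -- the layer in `F`
  have hqF : q ≤ E c F (LvI Kk D) := by
    have l1 := rsw_layer_nb hc hR hF (m := s - 1) (by omega) (a := a) (R := R * s) (K0 := K0)
      (r := 3 * s + 1) ((hΛ1 _ (by omega)).trans hΛb)
    have l2 : q ≤ p ^ ((2 * ((R * s + (s - 1) / 2) / (2 * ((s - 1) / 2) + 1)) + 1) ^ 2) := by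
      refine pow_le_pow_of_le_one hp0.le (by linarith) (Nat.pow_le_pow_left ?_ 2)
      have : (R * s + (s - 1) / 2) / (2 * ((s - 1) / 2) + 1) ≤ 2 * R + 1 := by
        rw [Nat.div_le_iff_le_mul_add_pred (by omega)]
        have e : s ≤ 2 * (2 * ((s - 1) / 2) + 1) := by omega
        nlinarith [Nat.mul_le_mul_left R e]
      omega
    refine l2.trans (l1.trans (E_mono hc fun ω _ => ?_))
    by_cases hω : ω ∈ LayE (nb K0 (3 * s + 1)) (nb K0 (3 * s + 1 + 3 * (s - 1)))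
    · rw [LvI_of (F₁ := F₁) (A0 := nb K0 (3 * s)) (A := nb K0 (3 * s + 1))
        (A' := nb K0 (3 * s + 1 + 3 * (s - 1))) (A'' := nb K0 (6 * s)) (nb_mono_r (by omega))
        (fun t ht u hu => adj_nb (by omega) ht hu) (nb_mono_r (by omega)) (nb_mono_r (by omega))
        (fun t ht u hu => adj_nb (by omega) ht hu) hK6 hω]
      exact ind_le_one _ _
    · rw [ind_of_not_mem hω]
      exact LvI_nonneg _ _ _
  -- the event
  have hpt : ∀ ω ∈ cf Λ τ, wt c (upT Λ) ω ≠ 0 →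
      G ω.1 * Cu792.ind (HH K' s) ω.1 ≤ LvI D D' ω * (1 * (ind (In Kk K0) ω * A ω.1)) := by
    intro ω hω hw
    have hl : Lip ω.1 := (mem_cf.1 hω).1.1
    have hO : OpC ω := opC_of_wt (mem_cf.1 hω).2 hw
    have hR0 : 0 ≤ LvI D D' ω * (1 * (ind (In Kk K0) ω * A ω.1)) :=
      mul_nonneg (LvI_nonneg _ _ _) (mul_nonneg zero_le_one (mul_nonneg (ind_nonneg _ _) (A0 _)))
    by_cases i1 : ω.1 ∈ HH K0 s
    · by_cases i2 : ω.1 ∈ HH K' s
      · have L1 := lay_of_hh hl hO i1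
        have L2 := lay_of_hh hl hO i2
        have j1 : ω ∈ In Kk K0 := In_of (A := nb K0 s) (sub_nb K0 _)
          (fun t ht u hu => by
            have h0 : t ∈ nb K0 0 := mem_nb.2 ⟨t, ht, by rw [mem_ball]; simp⟩
            exact adj_nb (by omega) h0 hu) hK3 L1
        have j2 : LvI D D' ω = 1 := by
          refine LvI_of (A0 := nb K0 (6 * s)) (A := nb K' s) (A' := nb K' (3 * s)) (sub_nb K' s)
            (fun t ht u hu => ?_) (nb_mono_r (by omega)) (nb_mono_r (by omega))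
            (fun t ht u hu => adj_nb (by omega) ht hu) hK9' L2
          have h0 : t ∈ nb K' 0 := mem_nb.2 ⟨t, ht, by rw [mem_ball]; simp⟩
          exact adj_nb (by omega) h0 hu
        rw [j2, ind_of_mem j1, Cu792.ind_of i2]
        simp only [hG]
        rw [Cu792.ind_of i1]
        simp
      · rw [Cu792.ind_not i2, mul_zero]; exact hR0
    · simp only [hG]
      rw [Cu792.ind_not i1, mul_zero, zero_mul]; exact hR0
  have e0 : ex x Λ τ (fun h => G h * Cu792.ind (HH K' s) h) =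
      E0 c Λ τ (fun ω => G ω.1 * Cu792.ind (HH K' s) ω.1) :=
    (E0_height hcx Λ τ fun h => G h * Cu792.ind (HH K' s) h).symm
  have hcmp := dom_cmp hc (Λ := Λ) (ξ := τ) hτ (F := F) (D' := D') (D := D) (K := Kk) (B0 := K0)
    (sc_fl hF₁sc hK9') hD'Λ (sc_fl hF₁sc hK6) ((fl_sub _ _).trans hbF) (sc_fl hF₁sc hK3)
    (fl_mono (nb_mono_r (by omega))) ((sub_nb K0 _).trans (sub_fl hK3)) hK0 hK0c
    (f := fun ω => A ω.1) (g := fun _ => 1) (fun ω => A0 ω.1) (seen_of hK0 hK0c hAl hAn)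
    (fun _ => zero_le_one) (fun _ _ _ _ => rfl)
  rw [E0_const hc hτ, mul_one] at hcmp
  set X0 : ℝ := E0 c Λ τ (fun ω => LvI D D' ω * (1 * (ind (In Kk K0) ω * A ω.1))) with hX0
  have hX0n : 0 ≤ X0 := E0_nonneg hc fun ω _ =>
    mul_nonneg (LvI_nonneg _ _ _) (mul_nonneg zero_le_one (mul_nonneg (ind_nonneg _ _) (A0 _)))
  have hle : ex x Λ τ (fun h => G h * Cu792.ind (HH K' s) h) ≤ X0 := by
    rw [e0]; exact E0_mono hc hpt
  have hEA : 0 ≤ E c F (fun ω => A ω.1) := E_nonneg hc fun ω _ => A0 ω.1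
  have hX1 : X0 ≤ q⁻¹ * E c F (fun ω => A ω.1) := by
    rw [← div_eq_inv_mul, le_div_iff₀ hq0]
    calc X0 * q = q * X0 := mul_comm _ _
      _ ≤ E c F (LvI Kk D) * X0 := mul_le_mul_of_nonneg_right hqF hX0n
      _ ≤ _ := hcmp
  calc ex x Λ τ A ≤ η / 2 + c1⁻¹ * ex x Λ τ G := m1
    _ ≤ η / 2 + c1⁻¹ * (c1 * η / 2 + c2⁻¹ * (q⁻¹ * E c F (fun ω => A ω.1))) := by
        have h3 : ex x Λ τ G ≤ c1 * η / 2 + c2⁻¹ * (q⁻¹ * E c F (fun ω => A ω.1)) :=
          m2.trans (add_le_add_right (mul_le_mul_of_nonneg_left (hle.trans hX1)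
            (inv_nonneg.2 hc2.le)) _)
        have := mul_le_mul_of_nonneg_left h3 (inv_nonneg.2 hc1.le)
        linarith
    _ = η + (c1 * c2 * q)⁻¹ * E c F (fun ω => A ω.1) := by
        field_simp
        ring

end Crest.Agent.R144.Cmp880
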