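import Crest.Agent.R144.Dom2_136
import Crest.Agent.R144.Cw8_643

/-!
# R144 (helper136), block D1 (DOM), file 3: the field `p1` of `Fin268.Inputs`

`p1_of` : conditional Gaussianity of the plane law + contiguity + bounded variances give the
characteristic functions of the centred lattice Laplacians in the domain.
-/

set_option autoImplicit false

noncomputable section

namespace Crest.Agent.R144.Dom136

open MeasureTheory Filter Topology Set Metric
open scoped ContDiff Laplacian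
open Crest.ProbabilityR.HexHeights (Adj centre)
open Crest.Agent.R144.It844 (P2 Lip adj_symm adj_iff adj_comm ex nbhd conf mem_conf pr mu)
open Crest.Agent.R144.Pst967 (Hz LocZ NeutZ GObs scs cls_scs gobs_bounded integrable_gobs PinnedZ
  ZeroLim nbhd_finite integral_mu isProb_mu integrable_mu re_ex im_ex)
open Crest.Agent.R144.Mix880 (bdS mem_bdS)
open Crest.Agent.R144.Cw643 (Dop six Sup7 sum_Dop near_Dop)
open Crest.Agent.R144.Fin268 (LS cS Cv Vr Over lip_of_data)
open Crest.Agent.R144.Con549 (IsTest)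
open Crest.Agent.R144.Set268 (Setup)

variable {x κ : ℝ} {D : Set ℂ} {γ : ℝ → ℂ} {P' : Finset ℂ} {δ : ℕ → ℝ} {Λ : ℕ → Finset P2}
  {τ : ℕ → P2 → ℤ}

theorem gau_nonneg (κ : ℝ) (u : ℂ → ℝ) (t : ℝ) : 0 ≤ gau κ u t := Real.exp_nonneg _

theorem gau_le_one {κ : ℝ} (hκ : 0 ≤ κ) (u : ℂ → ℝ) (t : ℝ) : gau κ u t ≤ 1 := by
  unfold gau
  rw [Real.exp_le_one_iff]
  have h1 : 0 ≤ ∫ z, ‖fderiv ℝ u z‖ ^ 2 := integral_nonneg fun z => by positivity
  have : 0 ≤ κ * (∫ z, ‖fderiv ℝ u z‖ ^ 2) * t ^ 2 / 2 := by positivity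
  linarith

/-- the centre of a neighbour is within `d` -/
theorem dist_adj {d : ℝ} (hd : 0 ≤ d) {v w : P2} (h : Adj w v) : dist (centre d w) (centre d v) ≤ d := by
  rw [dist_eq_norm, ← Cw643.centre_sub]
  refine Cw643.norm_centre_six hd ?_
  have hw : (w - v : P2) = (w.1 - v.1, w.2 - v.2) := rfl
  rw [hw]
  rcases adj_iff.1 h with h | h | h | h | h | h <;> rw [h] <;> simp [six]

/-- **asymptotics of one bounded functional** -/
theorem bounded_limit (hx : 0 < x) {P : Measure Hz} (hZ : PinnedZ P) (hL : ZeroLim x scs P)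
    (hS : Setup D γ P' δ Λ τ) (hC : Contig x P D δ Λ τ) {u : ℂ → ℝ} (hu : IsTest D u)
    {φ : ℝ → ℝ} (hφ : ∀ y, |φ y| ≤ 1) {b : ℝ} (hb : |b| ≤ 1)
    (hG : ∀ U : Set ℂ, IsOpen U → tsupport u ⊆ U → ∀ ε : ℝ, 0 < ε →
      ∀ᶠ n in atTop, ∀ S : Finset P2, (∀ v, v ∉ S → Du u (δ n) v = 0) →
      ∀ (T : Finset P2) (g : Hz → ℝ), (∀ v ∈ T, centre (δ n) v ∉ U) → LocZ (T : Set P2) g →
        NeutZ g → (∀ h, |g h| ≤ 1) →
        |∫ h, g h * φ (LS S (Du u (δ n)) h) ∂P - b * ∫ h, g h ∂P| ≤ ε) :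
    Tendsto (fun n => ex x (Λ n) (τ n) (fun h => φ (LS (Λ n) (Du u (δ n)) h))) atTop (𝓝 b) := by
  classical
  have hδ := hS.sites.pos
  have hδ0 := hS.sites.lim
  obtain ⟨r, hr, hKc, hKD⟩ := Cov353.exists_thick (K := tsupport u) hu.comp hS.dom.op hu.supp
  set K : Set ℂ := cthickening r (tsupport u) with hK
  set U : Set ℂ := thickening (r / 2) (tsupport u) with hU
  have hUo : IsOpen U := isOpen_thickening
  have hsU : tsupport u ⊆ U := self_subset_thickening (half_pos hr) _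
  rw [Metric.tendsto_atTop]
  intro ε hε
  -- parameters
  set s : ℝ := ε / 4 with hs
  have hs0 : 0 < s := by positivity
  obtain ⟨C, hC0, hCev⟩ := hC K hKc hKD (ε / 16) (by positivity)
  set e : ℝ := ε * s / (16 * C) with he
  have he0 : 0 < e := by positivity
  have hGev := hG U hUo hsU e he0
  have hfree := hS.sites.inn K hKc hKD
  have hsm := hS.sites.small (half_pos hr)
  obtain ⟨N, hN⟩ := eventually_atTop.1 (((hCev.and hGev).and hfree).and hsm)
  refine ⟨N, fun n hn => ?_⟩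
  obtain ⟨⟨⟨h1, h2⟩, h3⟩, h4⟩ := hN n hn
  have hdn := hδ n
  -- the inner volume
  set Λ' : Finset P2 := (Λ n).filter (fun v => centre (δ n) v ∈ U) with hΛ'
  have hUK : U ⊆ K := (thickening_subset_cthickening _ _).trans
    (cthickening_mono (by linarith) _)
  have hmem : ∀ v, v ∈ Λ' ↔ centre (δ n) v ∈ U := fun v => by
    rw [hΛ', Finset.mem_filter]
    exact ⟨fun h => h.2, fun h => ⟨h3 v (hUK h), h⟩⟩
  have hsub : Λ' ⊆ Λ n := Finset.filter_subset _ _
  have hbdK : ∀ v ∈ bdS Λ', centre (δ n) v ∈ K := by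
    intro v hv
    obtain ⟨hv1, hv2⟩ := mem_bdS.1 hv
    rcases hv1 with hv1 | ⟨w, hw, hwv⟩
    · exact absurd hv1 hv2
    · have h5 := (hmem w).1 hw
      rw [hU, mem_thickening_iff] at h5
      obtain ⟨z, hz, hzd⟩ := h5
      have h6 := dist_adj hdn.le hwv
      refine mem_cthickening_of_dist_le _ z r _ hz ?_
      have := dist_triangle_left (centre (δ n) v) z (centre (δ n) w)
      linarith
  have hbdU : ∀ v ∈ bdS Λ', centre (δ n) v ∉ U := fun v hv h =>
    (mem_bdS.1 hv).2 ((hmem v).2 h)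
  have hnear : ∀ v, (∃ z ∈ tsupport u, dist (centre (δ n) v) z ≤ δ n) → v ∈ Λ' := by
    rintro v ⟨z, hz, hd⟩
    rw [hmem, hU, mem_thickening_iff]
    exact ⟨z, hz, by linarith⟩
  have hsup := sup7_of hdn.le hnear
  have hzero : ∀ v, v ∉ Λ' → Du u (δ n) v = 0 := by
    intro v hv
    by_contra h5
    exact hv (hnear v (Du_supp hdn.le h5))
  have hzero' : ∀ v, v ∉ Λ n → Du u (δ n) v = 0 := fun v hv => hzero v fun h => hv (hsub h)
  have hfe : ∀ h, φ (LS (Λ n) (Du u (δ n)) h) = φ (LS Λ' (Du u (δ n)) h) := fun h => by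
    rw [LS_eq hzero' hzero]
  have hneut : NeutZ (LS Λ' (Du u (δ n))) := neutZ_LS (sum_Dop hsup)
  have key := transfer hx hZ hL (Λ' := Λ') (Λ := Λ n) hsub (τ := τ n) (lip_of_data (hS.data n))
    (f := fun h => φ (LS Λ' (Du u (δ n)) h)) ((locZ_LS Λ' _).comp φ)
    (fun h c => by simp only [hneut h c]) (fun h => hφ _) (b := b) (ε := e) (s := s)
    (η := ε / 16) (C := C) hb hs0 hC0.le
    (fun g hg hgN hg1 => h2 Λ' hzero (bdS Λ') g hbdU hg hgN hg1)
    (fun A hA hAN => h1 (bdS Λ') A hbdK hA hAN)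
  rw [Real.dist_eq]
  have e1 : ex x (Λ n) (τ n) (fun h => φ (LS (Λ n) (Du u (δ n)) h)) =
      ex x (Λ n) (τ n) (fun h => φ (LS Λ' (Du u (δ n)) h)) := It844.ex_congr fun h _ => hfe h
  rw [e1]
  refine key.trans_lt ?_
  have e2 : C * (e / s) = ε / 16 := by
    rw [he]
    field_simp
  rw [e2, hs]
  linarith

/-- lattice Laplacians are admissible weights -/
theorem over_Du (hS : Setup D γ P' δ Λ τ) {u : ℂ → ℝ} (hu : IsTest D u) :
    ∃ K : Set ℂ, IsCompact K ∧ K ⊆ D ∧ ∃ M : ℝ, ∀ᶠ n in atTop, Over K (δ n) M (Du u (δ n)) := by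
  obtain ⟨r, hr, hKc, hKD⟩ := Cov353.exists_thick (K := tsupport u) hu.comp hS.dom.op hu.supp
  have hcl : Continuous (Δ u) := Cw643.continuous_lap hu.smooth
  have hcs : HasCompactSupport (Δ u) := Cw643.hasCompactSupport_lap hu.comp
  obtain ⟨A, hA⟩ := hcs.exists_bound_of_continuous hcl
  have hnear := near_Dop hS.sites.pos hS.sites.lim hu.smooth hu.comp
  have hb := hnear.bdd (A := A) (fun z => by
    have := hA z
    rwa [Real.norm_eq_abs, ← abs_neg] at this)
  refine ⟨_, hKc, hKD, A + 1, ?_⟩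
  filter_upwards [hb, hS.sites.small hr] with n h1 h2
  refine ⟨fun v hv => ?_, fun v => h1 v⟩
  obtain ⟨z, hz, hd⟩ := Du_supp (hS.sites.pos n).le hv
  exact mem_cthickening_of_dist_le _ z r _ hz (hd.trans h2.le)

/-- **THE FIELD `p1`** -/
theorem p1_of (hx : 0 < x) (hκ : 0 ≤ κ) {P : Measure Hz} (hZ : PinnedZ P) (hL : ZeroLim x scs P)
    (hG : GaussZ κ P) (hS : Setup D γ P' δ Λ τ) (hC : Contig x P D δ Λ τ)
    (hbd : ∀ K, IsCompact K → K ⊆ D → ∃ C : ℝ, ∀ᶠ n in atTop, ∀ M g, Over K (δ n) M g →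
      Vr x (Λ n) (τ n) g ≤ C * M ^ 2) :
    ∀ u, IsTest D u → ∀ t : ℝ, Tendsto (fun n => ex x (Λ n) (τ n) (fun h =>
      Complex.exp (Complex.I * (t * cS x (Λ n) (τ n)
        (Dop (fun v => u (centre (δ n) v))) h : ℝ)))) atTop
      (𝓝 (Complex.exp (-(κ * (∫ z, ‖fderiv ℝ u z‖ ^ 2) * t ^ 2 / 2 : ℝ)))) := by
  intro u hu t
  have hδ := hS.sites.pos
  have hδ0 := hS.sites.lim
  have hτ : ∀ n, Lip (τ n) := fun n => lip_of_data (hS.data n)
  -- cosines and sines
  have hcos : ∀ t : ℝ, Tendsto (fun n => ex x (Λ n) (τ n)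
      (fun h => Real.cos (t * LS (Λ n) (Du u (δ n)) h))) atTop (𝓝 (gau κ u t)) := by
    intro t
    refine bounded_limit hx hZ hL hS hC hu (φ := fun y => Real.cos (t * y))
      (fun y => Real.abs_cos_le_one _) (b := gau κ u t) ?_ ?_
    · rw [abs_of_nonneg (gau_nonneg _ _ _)]
      exact gau_le_one hκ u t
    · intro U hU hsU ε hε
      filter_upwards [hG δ hδ hδ0 u hu.smooth hu.comp U hU hsU t ε hε] with n hn S hSz T g h1 h2 h3 h4
      exact (hn S hSz T g h1 h2 h3 h4).1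
  have hsin : ∀ t : ℝ, Tendsto (fun n => ex x (Λ n) (τ n)
      (fun h => Real.sin (t * LS (Λ n) (Du u (δ n)) h))) atTop (𝓝 0) := by
    intro t
    refine bounded_limit hx hZ hL hS hC hu (φ := fun y => Real.sin (t * y))
      (fun y => Real.abs_sin_le_one _) (b := 0) (by simp) ?_
    intro U hU hsU ε hε
    filter_upwards [hG δ hδ hδ0 u hu.smooth hu.comp U hU hsU t ε hε] with n hn S hSz T g h1 h2 h3 h4
    rw [zero_mul, sub_zero]
    exact (hn S hSz T g h1 h2 h3 h4).2
  -- means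
  set X : ℕ → Hz → ℝ := fun n h => LS (Λ n) (Du u (δ n)) h with hX
  set m : ℕ → ℝ := fun n => ex x (Λ n) (τ n) (X n) with hm
  have hmean : Tendsto m atTop (𝓝 0) := by
    obtain ⟨K, hKc, hKD, M, hov⟩ := over_Du hS hu
    obtain ⟨C, hCe⟩ := hbd K hKc hKD
    have h1 := mean_tendsto_zero (ν := fun n => mu x (Λ n) (τ n)) (X := X) (C := C * M ^ 2)
      (s := κ * ∫ z, ‖fderiv ℝ u z‖ ^ 2) (fun n => isProb_mu hx (hτ n)) (fun n => by
        have h1 := integrable_mu x (Λ n) (τ n) (X n)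
        refine (memLp_two_iff_integrable_sq h1.aestronglyMeasurable).2 ?_
        exact integrable_mu x (Λ n) (τ n) _) ?_ ?_ ?_
    · refine h1.congr fun n => ?_
      rw [integral_mu hx (hτ n)]
    · filter_upwards [hCe, hov] with n h2 h3
      have h4 := h2 M _ h3
      have e1 : ∫ o, (X n o - ∫ o, X n o ∂(mu x (Λ n) (τ n))) ^ 2 ∂(mu x (Λ n) (τ n)) =
          Vr x (Λ n) (τ n) (Du u (δ n)) := by
        rw [integral_mu hx (hτ n) (X n), integral_mu hx (hτ n)]
        unfold Vr Cv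
        refine It844.ex_congr fun h _ => ?_
        unfold cS
        rw [sq]
      rw [e1]
      exact h4
    · intro t
      refine (hcos t).congr fun n => ?_
      rw [integral_mu hx (hτ n)]
    · intro t
      refine (hsin t).congr fun n => ?_
      rw [integral_mu hx (hτ n)]
  -- the characteristic function
  have hexp : ∀ n, ex x (Λ n) (τ n) (fun h => Complex.exp (Complex.I * (t * cS x (Λ n) (τ n)
      (Dop (fun v => u (centre (δ n) v))) h : ℝ))) =
      Complex.exp (-(Complex.I * (t * m n : ℝ))) *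
      (((ex x (Λ n) (τ n) (fun h => Real.cos (t * X n h)) : ℝ) : ℂ) +
        ((ex x (Λ n) (τ n) (fun h => Real.sin (t * X n h)) : ℝ) : ℂ) * Complex.I) := by
    intro n
    have e1 : ((ex x (Λ n) (τ n) (fun h => Real.cos (t * X n h)) : ℝ) : ℂ) +
        ((ex x (Λ n) (τ n) (fun h => Real.sin (t * X n h)) : ℝ) : ℂ) * Complex.I =
        ex x (Λ n) (τ n) (fun h => Complex.exp (Complex.I * (t * X n h : ℝ))) := by
      have a1 : ∀ h, (Complex.exp (Complex.I * (t * X n h : ℝ))).re = Real.cos (t * X n h) := by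
        intro h
        rw [mul_comm, Complex.exp_ofReal_mul_I_re]
      have a2 : ∀ h, (Complex.exp (Complex.I * (t * X n h : ℝ))).im = Real.sin (t * X n h) := by
        intro h
        rw [mul_comm, Complex.exp_ofReal_mul_I_im]
      have a3 := re_ex x (Λ n) (τ n) (fun h => Complex.exp (Complex.I * (t * X n h : ℝ)))
      have a4 := im_ex x (Λ n) (τ n) (fun h => Complex.exp (Complex.I * (t * X n h : ℝ)))
      simp only [a1] at a3
      simp only [a2] at a4
      rw [← a3, ← a4]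
      exact Complex.re_add_im _
    have hpt : ∀ h, Complex.exp (Complex.I * (t * cS x (Λ n) (τ n)
        (Dop (fun v => u (centre (δ n) v))) h : ℝ)) =
        Complex.exp (-(Complex.I * (t * m n : ℝ))) * Complex.exp (Complex.I * (t * X n h : ℝ)) := by
      intro h
      rw [← Complex.exp_add]
      congr 1
      have : cS x (Λ n) (τ n) (Dop (fun v => u (centre (δ n) v))) h = X n h - m n := rfl
      rw [this]
      push_cast
      ring
    rw [e1]
    simp only [hpt]
    unfold ex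
    rw [mul_smul_comm, Finset.mul_sum]
    congr 1
    refine Finset.sum_congr rfl fun h _ => ?_
    rw [mul_smul_comm]
  have hlim1 : Tendsto (fun n => Complex.exp (-(Complex.I * (t * m n : ℝ)))) atTop (𝓝 1) := by
    have h1 : Tendsto (fun n => Complex.exp (-(Complex.I * ((t * m n : ℝ) : ℂ)))) atTop
        (𝓝 (Complex.exp (-(Complex.I * ((t * 0 : ℝ) : ℂ))))) := by
      have h2 : Continuous fun y : ℝ => Complex.exp (-(Complex.I * ((t * y : ℝ) : ℂ))) := by
        fun_prop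
      exact (h2.tendsto 0).comp hmean
    simpa using h1
  have hlim2 : Tendsto (fun n => ((ex x (Λ n) (τ n) (fun h => Real.cos (t * X n h)) : ℝ) : ℂ) +
        ((ex x (Λ n) (τ n) (fun h => Real.sin (t * X n h)) : ℝ) : ℂ) * Complex.I) atTop
        (𝓝 (((gau κ u t : ℝ) : ℂ) + ((0 : ℝ) : ℂ) * Complex.I)) :=
    ((Complex.continuous_ofReal.tendsto _).comp (hcos t)).add
      (((Complex.continuous_ofReal.tendsto _).comp (hsin t)).mul_const _)
  have hfin := hlim1.mul hlim2
  have e5 : (1 : ℂ) * (((gau κ u t : ℝ) : ℂ) + ((0 : ℝ) : ℂ) * Complex.I) =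
      Complex.exp (-(κ * (∫ z, ‖fderiv ℝ u z‖ ^ 2) * t ^ 2 / 2 : ℝ)) := by
    rw [one_mul, Complex.ofReal_zero, zero_mul, add_zero]
    unfold gau
    rw [Complex.ofReal_exp, Complex.ofReal_neg]
  rw [e5] at hfin
  exact hfin.congr fun n => (hexp n).symm

end Crest.Agent.R144.Dom136
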