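import Crest.Agent.R144.Fin4_830
import Crest.Agent.R144.Dom3_136

/-!
# R144 (helper136), block D1 (DOM), file 4: `Fin830.P1` from the plane law and contiguity
-/

set_option autoImplicit false

noncomputable section

namespace Crest.Agent.R144.Dom136

open MeasureTheory Filter Topology Set Metric
open scoped ContDiff Laplacian
open Crest.ProbabilityR.HexHeights (Adj centre)
open Crest.Agent.R144.It844 (P2 Lip ex)
open Crest.Agent.R144.Pst967 (Hz)
open Crest.Agent.R144.Set268 (Setup)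
open Crest.Agent.R144.Env702 (Env)
open Crest.Agent.R144.Lc830 (LC)
open Crest.Agent.R144.Fin830 (Plane P1)

/-- the plane half: conditional Gaussianity of every plane layer -/
def PlaneGauss (x : ℝ) : Prop := ∀ (P : Measure Hz) (κ : ℝ), Plane x P κ → GaussZ κ P

/-- the domain half: contiguity of every setup -/
def DomContig (x : ℝ) : Prop :=
  ∀ (P : Measure Hz) (κ : ℝ), Plane x P κ →
  ∀ (D : Set ℂ) (γ : ℝ → ℂ) (Q : Finset ℂ) (δ : ℕ → ℝ) (Λ : ℕ → Finset (ℤ × ℤ))
    (τ : ℕ → ℤ × ℤ → ℤ), Setup D γ Q δ Λ τ → Env D δ Λ → LC D δ Λ → Contig x P D δ Λ τ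

/-- **`P1` from the two halves** -/
theorem P1_of {x : ℝ} (hG : PlaneGauss x) (hC : DomContig x) : P1 x := by
  intro P κ hP D γ Q δ Λ τ hS hE hL
  exact p1_of hP.x0 hP.kpos.le hP.pin hP.zlim (hG P κ hP) hS (hC P κ hP D γ Q δ Λ τ hS hE hL)
    fun K hK hKD => Hf702.bd_of hP.hyp hS hE hK hKD

end Crest.Agent.R144.Dom136
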