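import Mathlib
import Crest.Agent.R144.Lc1_830
import Crest.Agent.R144.Rsw0_867

/-! R144 (helper830): the geometric shell of the contiguity statement (S5): a compact part of the
domain is contained in connected finite sets `K0 n` of sites with a macroscopic neighbourhood inside
`Λ n`; everything at the scale `s n → ∞`. -/

set_option autoImplicit false

open Set Topology Filter
open Metric hiding ball mem_ball

namespace Crest.Agent.R144.Shl830

open Crest.ProbabilityR.HexHeights Crest.Agent.R144.HexTil353 Crest.Agent.R144.TriTil353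
  Crest.Agent.R144.Geo268 Crest.Agent.R144.Cnt268 Crest.Agent.R144.Set268
open Crest.Agent.R144.It844 (P2)
open Crest.Agent.R144.Zg349 (IsConn SC StepIn)
open Crest.Agent.R144.Rsw867 (ball mem_ball)

/-- a compact subset of an open connected set is contained in a compact connected subset -/
theorem exists_hull {D K : Set ℂ} (hop : IsOpen D) (hc : IsConnected D) (hK : IsCompact K)
    (hKD : K ⊆ D) : ∃ K' : Set ℂ, IsCompact K' ∧ IsConnected K' ∧ K ⊆ K' ∧ K' ⊆ D := by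
  obtain ⟨z0, hz0⟩ := hc.nonempty
  have hpc := hop.isConnected_iff_isPathConnected.1 hc
  have key : ∀ z : ℂ, z ∈ D → ∃ S : Set ℂ, IsCompact S ∧ IsPreconnected S ∧ z0 ∈ S ∧ S ⊆ D ∧
      S ∈ 𝓝 z := by
    intro z hz
    obtain ⟨r, hr, hrD⟩ := Metric.nhds_basis_closedBall.mem_iff.1 (hop.mem_nhds hz)
    have hj := hpc.joinedIn z0 hz0 z hz
    set p := hj.somePath with hp
    refine ⟨range p ∪ closedBall z r, (isCompact_range p.continuous).union
      (isCompact_closedBall z r), ?_, Or.inl ⟨0, p.source⟩, union_subset ?_ hrD, ?_⟩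
    · exact (isPreconnected_range p.continuous).union z ⟨1, p.target⟩
        (mem_closedBall_self hr.le) (convex_closedBall z r).isPreconnected
    · rintro _ ⟨t, rfl⟩
      exact hj.somePath_mem t
    · exact mem_of_superset (closedBall_mem_nhds z hr) subset_union_right
  choose! S hS using key
  obtain ⟨t, htK, ht⟩ := hK.elim_nhds_subcover S fun z hz => (hS z (hKD hz)).2.2.2.2
  refine ⟨{z0} ∪ ⋃ z ∈ t, S z, isCompact_singleton.union
    (t.finite_toSet.isCompact_biUnion fun z hz => (hS z (hKD (htK z hz))).1),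
    ⟨⟨z0, Or.inl rfl⟩, ?_⟩, fun z hz => Or.inr (ht hz), ?_⟩
  · have h1 : {z0} ∪ ⋃ z ∈ t, S z = ⋃₀ (insert {z0} (S '' (t : Set ℂ))) := by
      rw [sUnion_insert, sUnion_image]
      rfl
    rw [h1]
    refine isPreconnected_sUnion z0 _ ?_ ?_
    · rintro s (rfl | ⟨z, hz, rfl⟩)
      · rfl
      · exact (hS z (hKD (htK z hz))).2.2.1
    · rintro s (rfl | ⟨z, hz, rfl⟩)
      · exact isPreconnected_singleton
      · exact (hS z (hKD (htK z hz))).2.1
  · rintro z (hz | hz)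
    · rw [mem_singleton_iff] at hz
      rw [hz]; exact hz0
    · simp only [mem_iUnion] at hz
      obtain ⟨w, hw, hzw⟩ := hz
      exact (hS w (hKD (htK w hw))).2.2.2.1 hzw

/-- a hexagonal ball is contained in a euclidean ball -/
theorem dist_of_mem_ball {δ : ℝ} (hδ : 0 ≤ δ) {u v : P2} {m : ℕ} (h : v ∈ ball u m) :
    dist (centre δ v) (centre δ u) ≤ 2 * (δ * m) := by
  rw [mem_ball] at h
  obtain ⟨h1, h2, h3⟩ := h
  have h1' : |((v.1 - u.1 : ℤ) : ℝ)| ≤ m := by exact_mod_cast h1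
  have h2' : |((v.2 - u.2 : ℤ) : ℝ)| ≤ m := by exact_mod_cast h2
  rw [abs_le] at h1' h2'
  have hm : (0 : ℝ) ≤ m := Nat.cast_nonneg m
  have h5 : dist (centre δ v) (centre δ u) ^ 2 ≤ (2 * (δ * m)) ^ 2 := by
    rw [dist_comm, dist_centre_sq]
    push_cast at h1' h2' ⊢
    have h6 : ((v.1 : ℝ) - u.1) ^ 2 + ((v.1 : ℝ) - u.1) * ((v.2 : ℝ) - u.2) +
        ((v.2 : ℝ) - u.2) ^ 2 ≤ 4 * (m : ℝ) ^ 2 := by nlinarith
    calc δ ^ 2 * (((v.1 : ℝ) - u.1) ^ 2 + ((v.1 : ℝ) - u.1) * ((v.2 : ℝ) - u.2) +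
        ((v.2 : ℝ) - u.2) ^ 2) ≤ δ ^ 2 * (4 * (m : ℝ) ^ 2) :=
          mul_le_mul_of_nonneg_left h6 (sq_nonneg δ)
      _ = _ := by ring
  exact (abs_le_of_sq_le_sq' h5 (by positivity)).2

/-- sites at euclidean distance `B` are in a hexagonal ball -/
theorem mem_ball_of_norm {δ B : ℝ} (hδ : 0 < δ) {v : P2} (h : ‖centre δ v‖ ≤ B) {m : ℕ}
    (hm : 4 * B ≤ δ * m) : v ∈ ball 0 m := by
  have h1 := abs_ca_le hδ (centre δ v)
  have h2 := abs_cb_le hδ (centre δ v)
  rw [TriTil353.ca_centre hδ] at h1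
  rw [TriTil353.cb_centre hδ] at h2
  have hb : 2 * ‖centre δ v‖ / δ ≤ (m : ℝ) / 2 := by
    rw [div_le_div_iff₀ hδ (by norm_num)]
    linarith
  have h3 : |(v.1 : ℝ)| ≤ (m : ℝ) / 2 := h1.trans hb
  have h4 : |(v.2 : ℝ)| ≤ (m : ℝ) / 2 := h2.trans hb
  have hm0 : (0 : ℝ) ≤ m := Nat.cast_nonneg m
  rw [mem_ball]
  simp only [Prod.fst_zero, Prod.snd_zero, sub_zero]
  refine ⟨?_, ?_, ?_⟩
  · have : |(v.1 : ℝ)| ≤ m := by linarith
    exact_mod_cast this
  · have : |(v.2 : ℝ)| ≤ m := by linarith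
    exact_mod_cast this
  · have h5 := abs_add_le (v.1 : ℝ) (v.2 : ℝ)
    have : |(v.1 : ℝ) + v.2| ≤ m := by linarith
    exact_mod_cast this

/-- the sites whose closed cell meets `K` -/
noncomputable def meet (δ : ℝ) (K : Set ℂ) (N : ℕ) : Finset P2 :=
  haveI := Classical.decPred fun v : P2 => (cell δ v ∩ K).Nonempty
  (ball 0 N).filter fun v => (cell δ v ∩ K).Nonempty

theorem mem_meet {δ : ℝ} {K : Set ℂ} {N : ℕ} {v : P2} :
    v ∈ meet δ K N ↔ v ∈ ball 0 N ∧ (cell δ v ∩ K).Nonempty := by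
  classical
  unfold meet
  rw [Finset.mem_filter]

/-- **the shell** -/
theorem shell {D : Set ℂ} {γ : ℝ → ℂ} {P : Finset ℂ} {δ : ℕ → ℝ} {Λ : ℕ → Finset (ℤ × ℤ)}
    {τ : ℕ → ℤ × ℤ → ℤ} (h : Setup D γ P δ Λ τ) {K : Set ℂ} (hK : IsCompact K) (hKD : K ⊆ D)
    (J : ℕ) : ∃ (R : ℕ) (s : ℕ → ℕ), 1 ≤ R ∧ Tendsto s atTop atTop ∧ ∃ K0 : ℕ → Finset P2,
      ∀ᶠ n in atTop, (∀ v, centre (δ n) v ∈ K → v ∈ K0 n) ∧ (K0 n).Nonempty ∧
        IsConn (K0 n : Set P2) ∧ ((K0 n).biUnion fun v => ball v (J * s n)) ⊆ Λ n ∧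
        Λ n ⊆ ball 0 (R * s n) ∧ SC (Λ n) := by
  have hop := h.dom.op
  obtain ⟨K', hK'c, hK'con, hKK', hK'D⟩ := exists_hull hop h.dom.conn hK hKD
  obtain ⟨r, hr, hrc, hrs⟩ := Crest.Agent.R144.Cov353.exists_thick hK'c hop hK'D
  obtain ⟨B, hB⟩ := (h.sites.compact_cth 1).isBounded.exists_norm_le
  have hB0 : 0 ≤ |B| := abs_nonneg B
  set θ : ℝ := r / (4 * (J + 1)) with hθ
  have hJ : (0 : ℝ) < J + 1 := by positivity
  have hθpos : 0 < θ := by positivity
  set s : ℕ → ℕ := fun n => ⌊θ / δ n⌋₊ with hs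
  set R : ℕ := ⌈8 * (|B| + 1) / θ⌉₊ + 1 with hR
  have hRle : 8 * (|B| + 1) / θ ≤ R := by
    rw [hR]
    push_cast
    linarith [Nat.le_ceil (8 * (|B| + 1) / θ)]
  have hR1 : 1 ≤ R := by rw [hR]; omega
  have hlim : Tendsto (fun n => θ / δ n) atTop atTop := by
    have h1 : Tendsto δ atTop (𝓝[>] 0) :=
      tendsto_nhdsWithin_iff.2 ⟨h.sites.lim, Eventually.of_forall fun n => h.sites.pos n⟩
    simpa [div_eq_mul_inv] using (tendsto_inv_nhdsGT_zero.comp h1).const_mul_atTop hθpos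
  refine ⟨R, s, hR1, tendsto_nat_floor_atTop.comp hlim, fun n => meet (δ n) K' (R * s n), ?_⟩
  filter_upwards [h.sites.inn _ hrc hrs, h.sites.out 1 one_pos,
    h.sites.small (show 0 < θ / 2 by positivity), h.sites.small (show 0 < r / 4 by positivity),
    h.sites.small one_pos] with n h1 h2 h3 h4 h4'
  have hδ := h.sites.pos n
  -- scales
  have hs1 : θ / δ n / 2 ≤ s n := by
    have h5 := Nat.lt_floor_add_one (θ / δ n)
    have h6 : 2 ≤ θ / δ n := by
      rw [le_div_iff₀ hδ]; linarith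
    have h7 : θ / δ n < (s n : ℝ) + 1 := h5
    linarith
  have hs2 : δ n * s n ≤ θ := by
    have h5 : (s n : ℝ) ≤ θ / δ n := Nat.floor_le (by positivity)
    rw [le_div_iff₀ hδ] at h5
    linarith
  have hRs : 4 * (|B| + 1) ≤ δ n * ((R * s n : ℕ) : ℝ) := by
    push_cast
    have h5 : θ / 2 ≤ δ n * s n := by
      have h6 := mul_le_mul_of_nonneg_left hs1 hδ.le
      have h7 : δ n * (θ / δ n / 2) = θ / 2 := by field_simp
      linarith
    rw [div_le_iff₀ hθpos] at hRle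
    have hR0 : (0 : ℝ) ≤ R := Nat.cast_nonneg R
    nlinarith
  have hin : ∀ v : P2, ‖centre (δ n) v‖ ≤ |B| + 1 → v ∈ ball 0 (R * s n) := fun v hv =>
    mem_ball_of_norm hδ hv hRs
  have hmeet : ∀ v : P2, (cell (δ n) v ∩ K').Nonempty → v ∈ meet (δ n) K' (R * s n) := by
    intro v hv
    refine mem_meet.2 ⟨hin v ?_, hv⟩
    obtain ⟨z, hz1, hz2⟩ := hv
    have h5 := hB z (self_subset_cthickening D (hK'D hz2))
    have h6 := mem_closedBall.1 (cell_subset_ball hδ v hz1)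
    rw [dist_comm, dist_eq_norm] at h6
    have h7 := norm_add_le (centre (δ n) v - z) z
    rw [sub_add_cancel] at h7
    linarith [le_abs_self B]
  refine ⟨fun v hv => hmeet v ⟨centre (δ n) v, ball_subset_cell hδ v
    (mem_ball_self (by positivity)), hKK' hv⟩, ?_, ?_, ?_, ?_, ?_⟩
  · obtain ⟨z, hz⟩ := hK'con.nonempty
    obtain ⟨v, hv⟩ := exists_cell hδ z
    exact ⟨v, hmeet v ⟨z, hv, hz⟩⟩
  · intro u hu v hv
    exact Crest.Agent.R144.Lc830.join_of_preconn hδ hK'con.isPreconnected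
      (S := (meet (δ n) K' (R * s n) : Set P2)) (fun w hw => hmeet w hw)
      (mem_meet.1 hu).2 (mem_meet.1 hv).2
  · intro v hv
    rw [Finset.mem_biUnion] at hv
    obtain ⟨u, hu, hvu⟩ := hv
    obtain ⟨z, hz1, hz2⟩ := (mem_meet.1 hu).2
    apply h1
    refine mem_cthickening_of_dist_le _ z r _ hz2 ?_
    have h5 := dist_of_mem_ball hδ.le hvu
    have h6 := mem_closedBall.1 (cell_subset_ball hδ u hz1)
    rw [dist_comm] at h6
    have h7 := dist_triangle (centre (δ n) v) (centre (δ n) u) z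
    have h8 : 2 * (δ n * ((J * s n : ℕ) : ℝ)) ≤ r / 2 := by
      push_cast
      have h9 : δ n * (J * s n) = J * (δ n * s n) := by ring
      rw [h9]
      have h10 : (J : ℝ) * (δ n * s n) ≤ J * θ :=
        mul_le_mul_of_nonneg_left hs2 (Nat.cast_nonneg J)
      have h11 : (J : ℝ) * θ ≤ r / 4 := by
        rw [hθ, mul_div_assoc', div_le_div_iff₀ (by positivity) (by norm_num)]
        nlinarith
      linarith
    linarith
  · intro v hv
    refine hin v ((hB _ (h2 v hv)).trans ?_)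
    linarith [le_abs_self B]
  · exact h.compl n

end Crest.Agent.R144.Shl830
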