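import Crest.Agent.R144.Cmp3_880
import Crest.Agent.R144.Dom4_136
import Crest.Agent.R144.Shl_830

/-!
# R144, contiguity (helper880), part 4: `Dom136.DomContig` from `CU`
-/

set_option autoImplicit false

noncomputable section

namespace Crest.Agent.R144.Cmp880

open Finset MeasureTheory Filter Topology
open Crest.Agent.R144.It844 (P2 Lip ex pr ex_congr)
open Crest.Agent.R144.Zg349 Crest.Agent.R144.Zd349
open Crest.Agent.R144.Zm349 (E)
open Crest.Agent.R144.Pst967 (Hz LocZ NeutZ GObs FLim lC mem_lC scs cls_scs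
  measurable_of_loc)
open Crest.Agent.R144.Rsw867
open Crest.Agent.R144.CuP880
open Crest.Agent.R144.Fin830 (Plane)
open Crest.Agent.R144.Set268 (Setup)
open Crest.ProbabilityR.HexHeights (Adj centre)

theorem loc_ind {S : Set P2} {A : Set Hz} (hA : LocZ S (fun h => h ∈ A)) :
    LocZ S (Cu792.ind A) := by
  intro h g hg
  have e : (h ∈ A) = (g ∈ A) := hA h g hg
  by_cases h1 : h ∈ A
  · rw [Cu792.ind_of h1, Cu792.ind_of (e ▸ h1)]
  · rw [Cu792.ind_not h1, Cu792.ind_not (e ▸ h1)]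

theorem neut_ind {A : Set Hz} (hA : NeutZ (fun h => h ∈ A)) : NeutZ (Cu792.ind A) := by
  intro h m
  have e : ((fun v => h v + m) ∈ A) = (h ∈ A) := hA h m
  by_cases h1 : h ∈ A
  · rw [Cu792.ind_of h1, Cu792.ind_of (e.symm ▸ h1)]
  · rw [Cu792.ind_not h1, Cu792.ind_not (e.symm ▸ h1)]

/-- **Contiguity of the domain laws with respect to the plane law, from `CU`.** -/
theorem domContig {x : ℝ} (hCU : CU x) : Dom136.DomContig x := by
  intro P κ hP D γ Q δ Λ τ hS _ _ K hK hKD η hη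
  have hx0 := hP.x0
  have hx1 := hP.x1
  have hx2 : 0 < x ^ 2 := by have := hx0; positivity
  have hc : 1 ≤ (x ^ 2)⁻¹ := (one_le_inv₀ hx2).2 (pow_le_one₀ hx0.le hx1)
  obtain ⟨Kr, p, hR⟩ := RSWZ.rsw hc hP.rsw
  obtain ⟨R, s, -, hs, K0, hev⟩ := Shl830.shell hS hK hKD 12
  obtain ⟨C, s0, hC, hmain⟩ := dom_main hx0 hx1 hR hCU R hη
  have := hP.pin.prob
  refine ⟨C, hC, ?_⟩
  filter_upwards [hev, hs.eventually_ge_atTop s0] with n hn hsn T A hT hAl hAn
  obtain ⟨h1, h2, h3, h4, h5, h6⟩ := hn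
  have hTK : (T : Set P2) ⊆ K0 n := fun v hv => h1 v (hT v hv)
  have hl : LocZ (K0 n : Set P2) (Cu792.ind A) := (loc_ind hAl).mono hTK
  have hn' : NeutZ (Cu792.ind A) := neut_ind hAn
  set τ' : P2 → ℤ := fun v => τ n v + 1 with hτ'
  have hτ01 : ∀ v, τ' v = 0 ∨ τ' v = 1 := fun v => by
    rcases hS.data n v with h | h <;> simp [hτ', h]
  have hτL : Lip τ' := fun u v _ => by
    rcases hτ01 u with h | h <;> rcases hτ01 v with h' | h' <;> rw [h, h'] <;> norm_num
  have e1 : pr x (Λ n) (τ n) A = ex x (Λ n) τ' (Cu792.ind A) := by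
    rw [Cu792.pr_eq, hτ', It844.ex_add_const]
    exact ex_congr fun h _ => (hn' h 1).symm
  rw [e1]
  have e2 : ∫ h, Cu792.ind A h ∂P = P.real A := by
    have hm : MeasurableSet A := by
      have hm' : Measurable (Cu792.ind A) := measurable_of_loc ⟨K0 n, hl⟩
      have : A = Cu792.ind A ⁻¹' {1} := by
        ext h
        constructor
        · intro hh; exact Cu792.ind_of hh
        · intro hh
          by_contra h'
          have : Cu792.ind A h = 1 := hh
          rw [Cu792.ind_not h'] at this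
          exact absurd this (by norm_num)
      rw [this]; exact hm' (measurableSet_singleton 1)
    have : Cu792.ind A = Set.indicator A 1 := by
      funext h
      by_cases hh : h ∈ A
      · rw [Cu792.ind_of hh, Set.indicator_of_mem hh]; rfl
      · rw [Cu792.ind_not hh, Set.indicator_of_notMem hh]
    rw [this, integral_indicator_one hm]
  have hF := hP.flim (Cu792.ind A) ⟨⟨K0 n, hl⟩, hn'⟩
  rw [e2] at hF
  have hne := cls_scs.neBot
  have hlim : Tendsto (fun F : Finset P2 => η + C * E ((x ^ 2)⁻¹) F (fun ω => Cu792.ind A ω.1))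
      (lC scs) (𝓝 (η + C * P.real A)) := (hF.const_mul C).const_add η
  refine ge_of_tendsto hlim (mem_lC.2 ⟨ball 0 (R * s n), fun F hFs hbF => ?_⟩)
  exact hmain (s n) hsn 0 (Λ n) h6 h5 τ' hτL (fun v _ => hτ01 v) (K0 n) h2 h3 h4 (Cu792.ind A) hl hn'
    (Cu792.ind_nonneg A) (Cu792.ind_le_one A) F hFs hbF

end Crest.Agent.R144.Cmp880
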