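import Crest.Agent.R144.Cu3_867
import Crest.Agent.R144.Cov2_792
import Crest.Agent.R144.CuP_880
import Crest.Agent.R144.Clb3_617
import Crest.Agent.R144.Tig3_425

/-!
# R144, S5 (contiguity), uniform form, part 4 (helper867): `CU0 x`, `CU x` and 880's `CuP880.CU x` from
`RSW`; inputs: cover (792), climbing step (617), tightness (425).
-/

set_option autoImplicit false

noncomputable section

namespace Crest.Agent.R144.Cu867

open Finset
open Crest.Agent.R144.It844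
open Crest.Agent.R144.Zg349 (StepIn SC)
open Crest.Agent.R144.Rsw867 (ball mem_ball ball_mono adj_ball path_mono Sepr RSW)
open Crest.Agent.R144.Pst967 (path_symm)
open Crest.ProbabilityR.HexHeights (Adj)
open Relation (ReflTransGen)

theorem pr_eq_one (x : ℝ) (Λ : Finset P2) (τ : Hz) (A : Set Hz) : pr x Λ τ A = ex x Λ τ (one A) := by
  classical
  unfold pr one
  rfl

theorem tightHi {x : ℝ} (hx0 : 0 < x) (hx1 : x ≤ 1) {K : ℕ} {p : ℝ} (hR : RSW (x ^ 2)⁻¹ K p) :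
    TightHi x := by
  intro A ε hε
  obtain ⟨M, hM⟩ := Tig425.tight_hi hx0 hx1 hR A hε
  refine ⟨M, fun n hn o a Λ hΛ τ hτ hτ1 => ?_⟩
  rw [← pr_eq_one]
  exact hM n hn o a Λ hΛ τ hτ hτ1

/-- **the uniform contiguity input, product form** -/
theorem cu0_of_rsw {x : ℝ} (hx0 : 0 < x) (hx1 : x ≤ 1) {K : ℕ} {p : ℝ} (hR : RSW (x ^ 2)⁻¹ K p) :
    CU0 x :=
  cu0 hx0 hx1 (half_pos hR.p0) (by linarith [hR.p1]) (Clb617.climb_prop hx0 hx1 hR)
    (le_trans (by norm_num) hR.K4) (Cov2792.cov_prop (le_trans (by norm_num) hR.K4))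
    (tightHi hx0 hx1 hR)

theorem HH_eq (K0 : Finset P2) (s : ℕ) : CuP880.HH K0 s = H4 K0 s := by
  ext h
  constructor
  · rintro ⟨h1, h2, h3, h4⟩
    exact ⟨⟨⟨fun u hu v hv p => h1 v u hv hu (path_symm p), fun u hu v hv p =>
      h2 v u hv hu (path_symm p)⟩, fun u hu v hv p => h3 v u hv hu (path_symm p)⟩,
      fun u hu v hv p => h4 v u hv hu (path_symm p)⟩
  · rintro ⟨⟨⟨h1, h2⟩, h3⟩, h4⟩
    exact ⟨fun u v hu hv p => h1 v hv u hu (path_symm p), fun u v hu hv p =>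
      h2 v hv u hu (path_symm p), fun u v hu hv p => h3 v hv u hu (path_symm p),
      fun u v hu hv p => h4 v hv u hu (path_symm p)⟩

/-- **the uniform contiguity input, 880's conditional form** -/
theorem cu_of_rsw {x : ℝ} (hx0 : 0 < x) (hx1 : x ≤ 1) {K : ℕ} {p : ℝ} (hR : RSW (x ^ 2)⁻¹ K p) :
    CuP880.CU x := by
  classical
  intro R η hη
  obtain ⟨c0, s0, hc0, H⟩ := cu_of_cu0 hx0 (cu0_of_rsw hx0 hx1 hR) R η hη
  refine ⟨c0, s0, hc0, fun s hs a Λ _ hΛ τ hτ hτ' K0 hK0 hnb => ?_⟩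
  have h1 := H s hs a Λ hΛ τ hτ hτ' K0 hK0 hnb
  rw [pr_eq_one]
  refine le_trans (le_of_eq (ex_congr fun h _ => ?_)) h1
  have e : pr x (CuP880.nb K0 (5 * s) \ CuP880.nb K0 s) h (CuP880.HH K0 s) =
      ex x (sh K0 s (5 * s)) h (one (H4 K0 s)) := by
    rw [pr_eq_one, HH_eq]
    rfl
  unfold one
  simp only [Set.mem_setOf_eq, e]
  rfl

end Crest.Agent.R144.Cu867
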