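import Crest.Agent.R144.Cmp4_880
import Crest.Agent.R144.Cu4_867
import Crest.Agent.R144.Dom4_136

/-!
# R144 (helper880): contiguity of every setup, no hypothesis (S5 closed)
-/

set_option autoImplicit false

noncomputable section

namespace Crest.Agent.R144.Cmp880

open Crest.Agent.R144.Dom136 (DomContig PlaneGauss P1_of)

/-- **domain contiguity, unconditional** -/
theorem domContig_all (x : ℝ) : DomContig x := by
  intro P κ hP
  obtain ⟨K, p, hR⟩ := hP.rsw.rsw (Pst967.one_le_c hP.x0 hP.x1)
  exact domContig (Cu867.cu_of_rsw hP.x0 hP.x1 hR) P κ hP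

/-- **`P1` from the plane half only** -/
theorem p1_of_planeGauss {x : ℝ} (hG : PlaneGauss x) : Fin830.P1 x := P1_of hG (domContig_all x)

end Crest.Agent.R144.Cmp880
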