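import Crest.Agent.R144.Con9_549

/-!
# R144, continuum side, part 10 (helper549)

The sharp flow: `div J = f` near `D`, `∫ |J|² ≤ domainGreenForm φ f + ε`, and the variational formula
`domainGreenForm φ f = sup (2 ∫ f u - ∫ |∇u|²)`.
-/

set_option autoImplicit false

open MeasureTheory Metric Set Filter Topology Laplacian InnerProductSpace
open scoped ComplexConjugate ContDiff

namespace Crest.Agent.R144.Con549

open Crest.Agent.R161.Green722
open Crest.ProbabilityR.HexHeights (domainGreenForm)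

noncomputable section

section var

variable {D : Set ℂ} {φ ψ : ℂ → ℂ}

/-- polarised form of `G_D(f + Δu, f + Δu)` -/
theorem greenForm_add_lap (B : Bih D (ball 0 1) φ ψ) {u f : ℂ → ℝ} (hu : IsTest D u)
    (hf : IsTest D f) : domainGreenForm φ (fun z => f z + (Δ u) z) =
      domainGreenForm φ f - (2 * (∫ z, u z * f z) - ∫ z, ‖fderiv ℝ u z‖ ^ 2) := by
  have hl := hu.lap
  rw [← DG_self, ← DG_self, DG_add_left B hf hl (hf.add hl), DG_add_right B hf hf hl,
    DG_add_right B hl hf hl, DG_symm B hf hl]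
  have e : ∀ g : ℂ → ℝ, IsTest D g → DG φ (Δ u) g = -∫ z, u z * g z := by
    intro g hg
    rw [← DG_neg_lap B hu hg, show (Δ u) = fun z => (-1 : ℝ) * (-(Δ u) z) by funext z; ring,
      DG_const_mul_left]
    simp only [neg_mul, one_mul, neg_neg]
  rw [e f hf, e _ hl, ← energy_eq hu]
  have h1 : ∫ z, u z * (-(Δ u) z) = -∫ z, u z * (Δ u) z := by
    rw [← integral_neg]
    congr 1
    funext z
    ring
  rw [h1]
  ring

/-- Dirichlet principle, upper bound -/
theorem dirichlet_le (B : Bih D (ball 0 1) φ ψ) {u f : ℂ → ℝ} (hu : IsTest D u)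
    (hf : IsTest D f) :
    2 * (∫ z, f z * u z) - ∫ z, ‖fderiv ℝ u z‖ ^ 2 ≤ domainGreenForm φ f := by
  have h := DG_nonneg B (hf.add hu.lap)
  rw [DG_self, greenForm_add_lap B hu hf] at h
  have : ∫ z, f z * u z = ∫ z, u z * f z := by congr 1; funext z; ring
  rw [this]
  linarith

/-- Dirichlet principle, approximate attainment, with the remainder and the energy -/
theorem exists_dirichlet (B : Bih D (ball 0 1) φ ψ) {f : ℂ → ℝ} (hf : IsTest D f) {ε : ℝ}
    (hε : 0 < ε) : ∃ u : ℂ → ℝ, IsTest D u ∧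
      domainGreenForm φ f - ε ≤ 2 * (∫ z, f z * u z) - ∫ z, ‖fderiv ℝ u z‖ ^ 2 ∧
      |domainGreenForm φ (fun z => f z + (Δ u) z)| < ε ∧
      |domainGreenForm φ f - ∫ z, ‖fderiv ℝ u z‖ ^ 2| < ε := by
  obtain ⟨u, hu, h1, h2⟩ := exists_approx B hf hε
  refine ⟨u, hu, ?_, h1, h2⟩
  have h := (abs_lt.1 h1).2
  rw [greenForm_add_lap B hu hf] at h
  have : ∫ z, f z * u z = ∫ z, u z * f z := by congr 1; funext z; ring
  rw [this]
  linarith

end var

/-- the sharp version of (C3) -/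
theorem exists_flow_sharp {D : Set ℂ} {γ : ℝ → ℂ} (h : Crest.Agent.R144.Geo268.Dom D γ)
    {φ : ℂ → ℂ} (hφ : DifferentiableOn ℂ φ D) (hbij : BijOn φ D (ball 0 1)) {f : ℂ → ℝ}
    (hf : IsTest D f) {ε : ℝ} (hε : 0 < ε) :
    ∃ (r : ℝ) (J : ℂ → ℂ), 0 < r ∧ ContDiff ℝ ∞ J ∧ (∀ z ∈ thickening r D, dv J z = f z) ∧
        ∫ z in thickening r D, ‖J z‖ ^ 2 ≤ domainGreenForm φ f + ε := by
  obtain ⟨ψ, B⟩ := exists_bih h.op hφ hbij
  obtain ⟨C, hC, H⟩ := exists_flow h hφ hbij
  set G := domainGreenForm φ f with hG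
  have hG0 : 0 ≤ G := DG_nonneg B hf
  -- choice of the constants
  set s : ℝ := ε / (2 * (G + 1)) with hs
  have hs0 : 0 < s := by positivity
  set η : ℝ := min 1 (ε / (2 * ((1 + s) + (1 + 1 / s) * (C + 1)))) with hη
  have hη0 : 0 < η := lt_min one_pos (by positivity)
  have hkey : (1 + s) * (G + η) + (1 + 1 / s) * ((C + 1) * η) ≤ G + ε := by
    have h1 : s * G ≤ ε / 2 := by
      rw [hs]
      calc ε / (2 * (G + 1)) * G = (ε / 2) * (G / (G + 1)) := by field_simp
        _ ≤ (ε / 2) * 1 := by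
            gcongr
            rw [div_le_one (by linarith)]
            linarith
        _ = ε / 2 := by ring
    have h2 : ((1 + s) + (1 + 1 / s) * (C + 1)) * η ≤ ε / 2 := by
      have h3 : η ≤ ε / (2 * ((1 + s) + (1 + 1 / s) * (C + 1))) := min_le_right _ _
      have h4 : 0 < (1 + s) + (1 + 1 / s) * (C + 1) := by positivity
      calc ((1 + s) + (1 + 1 / s) * (C + 1)) * η ≤ ((1 + s) + (1 + 1 / s) * (C + 1)) *
            (ε / (2 * ((1 + s) + (1 + 1 / s) * (C + 1)))) := by gcongr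
        _ = ε / 2 := by field_simp
    nlinarith
  obtain ⟨u, hu, hu1, hu2⟩ := exists_approx B hf hη0
  obtain ⟨r, J', hr, hJ', hdv, hen⟩ := H _ (hf.add hu.lap) η hη0
  have hus : ContDiff ℝ ∞ (gr u) := contDiff_iff_contDiffAt.2 fun z =>
    contDiffAt_gr hu.smooth.contDiffAt
  refine ⟨r, fun z => J' z - gr u z, hr, hJ'.sub hus, fun z hz => ?_, ?_⟩
  · rw [dv_sub (hJ'.differentiable (by simp) z) (hus.differentiable (by simp) z), hdv z hz,
      dv_gr hu.smooth.contDiffAt]
    ring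
  · have hbd : Bornology.IsBounded (thickening r D) := h.bdd.thickening
    have hcc : IsCompact (closure (thickening r D)) := hbd.isCompact_closure
    have i1 : IntegrableOn (fun z => ‖J' z‖ ^ 2) (thickening r D) :=
      ((hJ'.continuous.norm.pow 2).continuousOn.integrableOn_compact hcc).mono_set subset_closure
    have i2 : IntegrableOn (fun z => ‖fderiv ℝ u z‖ ^ 2) (thickening r D) :=
      (integrable_energy hu).integrableOn
    have h1 : ∫ z in thickening r D, ‖J' z - gr u z‖ ^ 2 ≤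
        ∫ z in thickening r D, ((1 + s) * ‖fderiv ℝ u z‖ ^ 2 + (1 + 1 / s) * ‖J' z‖ ^ 2) := by
      refine integral_mono_of_nonneg (Eventually.of_forall fun z => by positivity)
        ((i2.const_mul _).add (i1.const_mul _)) (Eventually.of_forall fun z => ?_)
      simp only
      have h2 : ‖J' z - gr u z‖ ≤ ‖J' z‖ + ‖fderiv ℝ u z‖ := by
        rw [← norm_gr]
        exact norm_sub_le _ _
      have h3 := pow_le_pow_left₀ (norm_nonneg _) h2 2
      have h4 : 2 * ‖J' z‖ * ‖fderiv ℝ u z‖ ≤ s * ‖fderiv ℝ u z‖ ^ 2 + (1 / s) * ‖J' z‖ ^ 2 := by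
        have h5 : 0 ≤ (s * ‖fderiv ℝ u z‖ - ‖J' z‖) ^ 2 / s := by positivity
        have h6 : (s * ‖fderiv ℝ u z‖ - ‖J' z‖) ^ 2 / s =
          s * ‖fderiv ℝ u z‖ ^ 2 + (1 / s) * ‖J' z‖ ^ 2 - 2 * ‖J' z‖ * ‖fderiv ℝ u z‖ := by
          field_simp
          ring
        linarith
      nlinarith
    have h2 : ∫ z in thickening r D, ((1 + s) * ‖fderiv ℝ u z‖ ^ 2 + (1 + 1 / s) * ‖J' z‖ ^ 2) =
        (1 + s) * (∫ z in thickening r D, ‖fderiv ℝ u z‖ ^ 2) +
        (1 + 1 / s) * ∫ z in thickening r D, ‖J' z‖ ^ 2 := by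
      rw [integral_add (i2.const_mul _) (i1.const_mul _), integral_const_mul, integral_const_mul]
    have h3 : ∫ z in thickening r D, ‖fderiv ℝ u z‖ ^ 2 ≤ G + η := by
      have h4 : ∫ z in thickening r D, ‖fderiv ℝ u z‖ ^ 2 ≤ ∫ z, ‖fderiv ℝ u z‖ ^ 2 :=
        setIntegral_le_integral (integrable_energy hu)
          (Eventually.of_forall fun z => by positivity)
      have h5 := (abs_lt.1 hu2).1
      linarith
    have h4 : ∫ z in thickening r D, ‖J' z‖ ^ 2 ≤ (C + 1) * η := by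
      have h5 := (abs_lt.1 hu1).2
      have h6 := mul_le_mul_of_nonneg_left h5.le hC
      nlinarith
    have h5 : 0 ≤ 1 + 1 / s := by positivity
    calc ∫ z in thickening r D, ‖J' z - gr u z‖ ^ 2
        ≤ (1 + s) * (∫ z in thickening r D, ‖fderiv ℝ u z‖ ^ 2) +
          (1 + 1 / s) * ∫ z in thickening r D, ‖J' z‖ ^ 2 := h1.trans h2.le
      _ ≤ (1 + s) * (G + η) + (1 + 1 / s) * ((C + 1) * η) := by gcongr
      _ ≤ G + ε := hkey

end

end Crest.Agent.R144.Con549
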