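import Crest.Agent.R161.Green4_722
import Crest.Agent.Lib.InjHolo
import Crest.Prelude.Def_HexHeights

/-!
# R144, continuum side, part 1 (helper549)

Conformal transfer of Laplacians, Dirichlet forms and Green forms along a holomorphic bijection
`φ : D → disc`.
-/

set_option autoImplicit false

open MeasureTheory Metric Set Filter Topology Laplacian InnerProductSpace
open scoped ComplexConjugate ContDiff

namespace Crest.Agent.R144.Con549

open Crest.Agent.R161.Green722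

noncomputable section

/-! ### Laplacian of `u ∘ h`, `h` holomorphic -/

theorem lap_eq_dir {F : ℂ → ℝ} {z : ℂ} (hF : ContDiffAt ℝ 2 F z) :
    (Δ F) z = fderiv ℝ (fun w => fderiv ℝ F w 1) z 1 +
      fderiv ℝ (fun w => fderiv ℝ F w Complex.I) z Complex.I := by
  have h1 : DifferentiableAt ℝ (fderiv ℝ F) z :=
    (hF.fderiv_right (m := 1) (by norm_num)).differentiableAt (by norm_num)
  have h2 : ∀ e : ℂ, fderiv ℝ (fun w => fderiv ℝ F w e) z = (fderiv ℝ (fderiv ℝ F) z).flip e := by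
    intro e
    ext v
    have := (h1.hasFDerivAt.clm_apply (hasFDerivAt_const e z)).fderiv
    rw [this]
    simp
  rw [laplacian_eq_iteratedFDeriv_complexPlane]
  simp only [iteratedFDeriv_two_apply, h2]
  simp

theorem lap_comp_holo {u : ℂ → ℝ} {h : ℂ → ℂ} {z : ℂ} (hu : ContDiffAt ℝ 2 u (h z))
    (hh : AnalyticAt ℂ h z) :
    (Δ (fun w => u (h w))) z = (Δ u) (h z) * ‖deriv h z‖ ^ 2 := by
  have hhc : ContDiffAt ℝ 2 h z := (hh.contDiffAt (n := 2)).restrict_scalars ℝ
  have hcomp : ContDiffAt ℝ 2 (fun w => u (h w)) z := hu.comp z hhc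
  rw [lap_eq_dir hcomp]
  have hnear : ∀ᶠ w in 𝓝 z, ∀ e : ℂ, fderiv ℝ (fun w => u (h w)) w e
      = fderiv ℝ u (h w) (deriv h w * e) := by
    have h1 : ∀ᶠ w in 𝓝 z, AnalyticAt ℂ h w := hh.eventually_analyticAt
    have h2 : ∀ᶠ w in 𝓝 z, ContDiffAt ℝ 2 u (h w) :=
      hh.continuousAt.eventually (hu.eventually (by simp))
    filter_upwards [h1, h2] with w hw1 hw2 e
    have d1 : HasFDerivAt h ((ContinuousLinearMap.toSpanSingleton ℂ (deriv h w)).restrictScalars ℝ) w :=
      (hw1.differentiableAt.hasDerivAt.hasFDerivAt).restrictScalars ℝ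
    have d2 : HasFDerivAt u (fderiv ℝ u (h w)) (h w) :=
      (hw2.differentiableAt (by norm_num)).hasFDerivAt
    have d3 := d2.comp w d1
    have d4 : fderiv ℝ (fun w => u (h w)) w = (fderiv ℝ u (h w)).comp
      ((ContinuousLinearMap.toSpanSingleton ℂ (deriv h w)).restrictScalars ℝ) := d3.fderiv
    rw [d4]
    simp [mul_comm]
  have key : ∀ e : ℂ, fderiv ℝ (fun w => fderiv ℝ (fun w => u (h w)) w e) z e =
      fderiv ℝ (fderiv ℝ u) (h z) (deriv h z * e) (deriv h z * e) +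
        fderiv ℝ u (h z) (deriv (deriv h) z * (e * e)) := by
    intro e
    have h1 : (fun w => fderiv ℝ (fun w => u (h w)) w e) =ᶠ[𝓝 z]
        fun w => fderiv ℝ u (h w) (deriv h w * e) := hnear.mono fun w hw => hw e
    rw [h1.fderiv_eq]
    have d1 : HasFDerivAt h ((ContinuousLinearMap.toSpanSingleton ℂ (deriv h z)).restrictScalars ℝ) z :=
      (hh.differentiableAt.hasDerivAt.hasFDerivAt).restrictScalars ℝ
    have d3 : HasFDerivAt (fderiv ℝ u) (fderiv ℝ (fderiv ℝ u) (h z)) (h z) :=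
      ((hu.fderiv_right (m := 1) (by norm_num)).differentiableAt (by norm_num)).hasFDerivAt
    have d4 := d3.comp z d1
    have d5 : HasFDerivAt (fun w => deriv h w * e)
        ((ContinuousLinearMap.toSpanSingleton ℂ (deriv (deriv h) z * e)).restrictScalars ℝ) z :=
      ((hh.deriv.differentiableAt.hasDerivAt.mul_const e).hasFDerivAt).restrictScalars ℝ
    have d6 := (d4.clm_apply d5).fderiv
    have d7 : fderiv ℝ (fun w => fderiv ℝ u (h w) (deriv h w * e)) z = _ := d6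
    rw [d7]
    simp only [Function.comp_apply, add_apply, ContinuousLinearMap.comp_apply,
      ContinuousLinearMap.flip_apply, ContinuousLinearMap.coe_restrictScalars',
      ContinuousLinearMap.toSpanSingleton_apply, smul_eq_mul]
    rw [add_comm, mul_comm e (deriv h z)]
    congr 2
    ring
  rw [key, key]
  have e1 : fderiv ℝ u (h z) (deriv (deriv h) z * (1 * 1)) +
      fderiv ℝ u (h z) (deriv (deriv h) z * (Complex.I * Complex.I)) = 0 := by
    rw [← map_add, ← mul_add]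
    simp
  set B := fderiv ℝ (fderiv ℝ u) (h z) with hB
  set p := deriv h z with hp
  have e2 : p * 1 = (p.re : ℝ) • (1 : ℂ) + (p.im : ℝ) • Complex.I := by
    apply Complex.ext <;> simp
  have e3 : p * Complex.I = (-p.im : ℝ) • (1 : ℂ) + (p.re : ℝ) • Complex.I := by
    apply Complex.ext <;> simp
  have e4 : (Δ u) (h z) = B 1 1 + B Complex.I Complex.I := by
    rw [laplacian_eq_iteratedFDeriv_complexPlane]
    simp only [iteratedFDeriv_two_apply]
    simp [hB]
  have e5 : ‖p‖ ^ 2 = p.re * p.re + p.im * p.im := by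
    rw [← Complex.normSq_eq_norm_sq, Complex.normSq_apply]
  rw [e4, e5, e2, e3]
  simp only [map_add, map_smul, add_apply, smul_apply,
    smul_eq_mul] at *
  linear_combination e1

/-! ### gradient of `u ∘ h` -/

theorem fderiv_comp_holo {u : ℂ → ℝ} {h : ℂ → ℂ} {z : ℂ} (hu : DifferentiableAt ℝ u (h z))
    (hh : DifferentiableAt ℂ h z) (e : ℂ) :
    fderiv ℝ (fun w => u (h w)) z e = fderiv ℝ u (h z) (deriv h z * e) := by
  have d1 : HasFDerivAt h ((ContinuousLinearMap.toSpanSingleton ℂ (deriv h z)).restrictScalars ℝ) z :=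
    (hh.hasDerivAt.hasFDerivAt).restrictScalars ℝ
  have d3 := hu.hasFDerivAt.comp z d1
  have d4 : fderiv ℝ (fun w => u (h w)) z = (fderiv ℝ u (h z)).comp
    ((ContinuousLinearMap.toSpanSingleton ℂ (deriv h z)).restrictScalars ℝ) := d3.fderiv
  rw [d4]
  simp [mul_comm]

theorem norm_fderiv_comp_holo_le {u : ℂ → ℝ} {h : ℂ → ℂ} {z : ℂ} (hu : DifferentiableAt ℝ u (h z))
    (hh : DifferentiableAt ℂ h z) :
    ‖fderiv ℝ (fun w => u (h w)) z‖ ≤ ‖fderiv ℝ u (h z)‖ * ‖deriv h z‖ := by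
  refine ContinuousLinearMap.opNorm_le_bound _ (by positivity) fun e => ?_
  rw [fderiv_comp_holo hu hh]
  calc ‖fderiv ℝ u (h z) (deriv h z * e)‖ ≤ ‖fderiv ℝ u (h z)‖ * ‖deriv h z * e‖ :=
        (fderiv ℝ u (h z)).le_opNorm _
    _ = ‖fderiv ℝ u (h z)‖ * ‖deriv h z‖ * ‖e‖ := by rw [norm_mul]; ring

theorem norm_fderiv_comp_holo {u : ℂ → ℝ} {h : ℂ → ℂ} {z : ℂ} (hu : DifferentiableAt ℝ u (h z))
    (hh : DifferentiableAt ℂ h z) :
    ‖fderiv ℝ (fun w => u (h w)) z‖ = ‖fderiv ℝ u (h z)‖ * ‖deriv h z‖ := by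
  refine le_antisymm (norm_fderiv_comp_holo_le hu hh) ?_
  by_cases h0 : deriv h z = 0
  · rw [h0, norm_zero, mul_zero]
    exact norm_nonneg _
  have hp : 0 < ‖deriv h z‖ := norm_pos_iff.2 h0
  rw [← le_div_iff₀ hp]
  refine ContinuousLinearMap.opNorm_le_bound _ (by positivity) fun e => ?_
  have h1 : fderiv ℝ u (h z) e = fderiv ℝ (fun w => u (h w)) z ((deriv h z)⁻¹ * e) := by
    rw [fderiv_comp_holo hu hh, ← mul_assoc, mul_inv_cancel₀ h0, one_mul]
  rw [h1]
  calc ‖fderiv ℝ (fun w => u (h w)) z ((deriv h z)⁻¹ * e)‖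
      ≤ ‖fderiv ℝ (fun w => u (h w)) z‖ * ‖(deriv h z)⁻¹ * e‖ := ContinuousLinearMap.le_opNorm _ _
    _ = ‖fderiv ℝ (fun w => u (h w)) z‖ / ‖deriv h z‖ * ‖e‖ := by
        rw [norm_mul, norm_inv]; ring

/-- determinant of multiplication by `p` -/
theorem det_mul (p : ℂ) :
    ((ContinuousLinearMap.toSpanSingleton ℂ p).restrictScalars ℝ : ℂ →L[ℝ] ℂ).det = ‖p‖ ^ 2 := by
  have e1 : (((ContinuousLinearMap.toSpanSingleton ℂ p).restrictScalars ℝ :
      ℂ →L[ℝ] ℂ) : ℂ →ₗ[ℝ] ℂ) = LinearMap.mulLeft ℝ p := by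
    ext <;> simp [mul_comm]
  rw [ContinuousLinearMap.det, e1]
  rw [← LinearMap.det_toMatrix Complex.basisOneI]
  rw [Matrix.det_fin_two]
  simp only [LinearMap.toMatrix_apply, Complex.coe_basisOneI, LinearMap.mulLeft_apply,
    Complex.coe_basisOneI_repr, Matrix.cons_val_zero, Matrix.cons_val_one, mul_one]
  rw [← Complex.normSq_eq_norm_sq, Complex.normSq_apply]
  simp

/-! ### biholomorphic pairs -/

/-- `h : U → V` and `g : V → U` are mutually inverse holomorphic maps of open sets. -/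
structure Bih (U V : Set ℂ) (h g : ℂ → ℂ) : Prop where
  oU : IsOpen U
  oV : IsOpen V
  dh : DifferentiableOn ℂ h U
  dg : DifferentiableOn ℂ g V
  mh : ∀ z ∈ U, h z ∈ V
  mg : ∀ w ∈ V, g w ∈ U
  gh : ∀ z ∈ U, g (h z) = z
  hg : ∀ w ∈ V, h (g w) = w

namespace Bih

variable {U V : Set ℂ} {h g : ℂ → ℂ}

theorem symm (B : Bih U V h g) : Bih V U g h :=
  ⟨B.oV, B.oU, B.dg, B.dh, B.mg, B.mh, B.hg, B.gh⟩

theorem injOn (B : Bih U V h g) : InjOn h U := fun a ha b hb hab => by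
  rw [← B.gh a ha, ← B.gh b hb, hab]

theorem image (B : Bih U V h g) : h '' U = V := by
  ext w
  constructor
  · rintro ⟨z, hz, rfl⟩
    exact B.mh z hz
  · intro hw
    exact ⟨g w, B.mg w hw, B.hg w hw⟩

theorem dhAt (B : Bih U V h g) {z : ℂ} (hz : z ∈ U) : DifferentiableAt ℂ h z :=
  (B.dh z hz).differentiableAt (B.oU.mem_nhds hz)

theorem anAt (B : Bih U V h g) {z : ℂ} (hz : z ∈ U) : AnalyticAt ℂ h z :=
  B.dh.analyticAt (B.oU.mem_nhds hz)

theorem deriv_mul (B : Bih U V h g) {z : ℂ} (hz : z ∈ U) : deriv g (h z) * deriv h z = 1 := by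
  have h1 : HasDerivAt g (deriv g (h z)) (h z) := (B.symm.dhAt (B.mh z hz)).hasDerivAt
  have h2 : HasDerivAt h (deriv h z) z := (B.dhAt hz).hasDerivAt
  have h3 : HasDerivAt (fun w => g (h w)) (deriv g (h z) * deriv h z) z := h1.comp z h2
  have h4 : (fun w => g (h w)) =ᶠ[𝓝 z] fun w => w := by
    filter_upwards [B.oU.mem_nhds hz] with w hw
    exact B.gh w hw
  have h5 : HasDerivAt (fun w => g (h w)) 1 z := (hasDerivAt_id z).congr_of_eventuallyEq h4
  exact h3.unique h5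

theorem deriv_ne (B : Bih U V h g) {z : ℂ} (hz : z ∈ U) : deriv h z ≠ 0 := fun h0 => by
  have := B.deriv_mul hz
  rw [h0, mul_zero] at this
  exact zero_ne_one this

theorem norm_deriv_mul (B : Bih U V h g) {z : ℂ} (hz : z ∈ U) :
    ‖deriv g (h z)‖ * ‖deriv h z‖ = 1 := by
  rw [← norm_mul, B.deriv_mul hz, norm_one]

/-- change of variables -/
theorem integral_comp (B : Bih U V h g) (F : ℂ → ℝ) :
    ∫ z in U, F (h z) * ‖deriv h z‖ ^ 2 = ∫ w in V, F w := by
  have h1 := integral_image_eq_integral_abs_det_fderiv_smul (volume : Measure ℂ)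
    B.oU.measurableSet (f := h)
    (f' := fun z => (ContinuousLinearMap.toSpanSingleton ℂ (deriv h z)).restrictScalars ℝ)
    (fun z hz => ((B.dhAt hz).hasDerivAt.hasFDerivAt.restrictScalars ℝ).hasFDerivWithinAt)
    B.injOn F
  rw [B.image] at h1
  rw [h1]
  refine setIntegral_congr_fun B.oU.measurableSet fun z _ => ?_
  simp only [det_mul, smul_eq_mul, abs_of_nonneg (sq_nonneg ‖deriv h z‖)]
  ring

end Bih

/-- a holomorphic bijection onto the disc gives a biholomorphic pair -/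
theorem exists_bih {D : Set ℂ} {φ : ℂ → ℂ} (hD : IsOpen D) (hd : DifferentiableOn ℂ φ D)
    (hb : BijOn φ D (ball 0 1)) : ∃ ψ : ℂ → ℂ, Bih D (ball 0 1) φ ψ := by
  obtain ⟨g, h1, h2, h3, h4, h5⟩ :=
    Crest.Agent.Lib.exists_holomorphic_inverse hD hd hb.injOn
  rw [hb.image_eq] at h1 h2 h3 h5
  refine ⟨g, hD, isOpen_ball, hd, h1, fun z hz => hb.mapsTo hz, fun w hw => ?_, h4, h5⟩
  rw [← h3]
  exact mem_image_of_mem g hw

end

end Crest.Agent.R144.Con549
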