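import Crest.Agent.R144.Con1_549

/-!
# R144, continuum side, part 2 (helper549)

Transfer of test functions along a biholomorphic pair; Green form of a domain.
-/

set_option autoImplicit false

open MeasureTheory Metric Set Filter Topology Laplacian InnerProductSpace
open scoped ComplexConjugate ContDiff

namespace Crest.Agent.R144.Con549

open Crest.Agent.R161.Green722
open Crest.ProbabilityR.HexHeights (domainGreenForm)
open Crest.ProbabilityR.DiscGreen (discGreen discGreenForm)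

noncomputable section

/-- smooth functions with compact support inside `U` -/
structure IsTest (U : Set ℂ) (u : ℂ → ℝ) : Prop where
  smooth : ContDiff ℝ ∞ u
  comp : HasCompactSupport u
  supp : tsupport u ⊆ U

namespace IsTest

variable {U : Set ℂ} {u v : ℂ → ℝ}

theorem eq_zero (hu : IsTest U u) {z : ℂ} (hz : z ∉ U) : u z = 0 :=
  image_eq_zero_of_notMem_tsupport fun h => hz (hu.supp h)

theorem lap_eq_zero (hu : IsTest U u) {z : ℂ} (hz : z ∉ U) : (Δ u) z = 0 :=
  lapC_eq_zero fun h => hz (hu.supp h)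

theorem mono (hu : IsTest U u) {V : Set ℂ} (h : U ⊆ V) : IsTest V u :=
  ⟨hu.smooth, hu.comp, hu.supp.trans h⟩

theorem add (hu : IsTest U u) (hv : IsTest U v) : IsTest U (fun z => u z + v z) :=
  ⟨hu.smooth.add hv.smooth, hu.comp.add hv.comp,
    (tsupport_add u v).trans (union_subset hu.supp hv.supp)⟩

theorem neg (hu : IsTest U u) : IsTest U (fun z => -u z) := by
  have h : (fun z => -u z) = -u := rfl
  refine ⟨hu.smooth.neg, h ▸ hu.comp.neg, ?_⟩
  rw [h, tsupport, Function.support_neg]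
  exact hu.supp

theorem const_mul (hu : IsTest U u) (c : ℝ) : IsTest U (fun z => c * u z) := by
  refine ⟨contDiff_const.mul hu.smooth, hu.comp.mul_left, ?_⟩
  refine subset_trans (closure_mono ?_) hu.supp
  intro z hz hz'
  exact hz (by simp [hz'])

theorem contDiff_lap (hu : IsTest U u) : ContDiff ℝ ∞ (Δ u) := by
  have h1 : (Δ u) = fun z => fderiv ℝ (fun w => fderiv ℝ u w 1) z 1 +
      fderiv ℝ (fun w => fderiv ℝ u w Complex.I) z Complex.I :=
    funext fun z => lap_eq_dir (hu.smooth.of_le (by norm_cast)).contDiffAt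
  rw [h1]
  have h2 : ∀ e : ℂ, ContDiff ℝ ∞ (fun w => fderiv ℝ u w e) := fun e =>
    ((contDiff_infty_iff_fderiv.1 hu.smooth).2).clm_apply contDiff_const
  exact (((contDiff_infty_iff_fderiv.1 (h2 1)).2).clm_apply contDiff_const).add
    (((contDiff_infty_iff_fderiv.1 (h2 Complex.I)).2).clm_apply contDiff_const)

theorem lap (hu : IsTest U u) : IsTest U (Δ u) :=
  ⟨hu.contDiff_lap, hasCompactSupport_lapC hu.comp, (tsupport_lapC u).trans hu.supp⟩

end IsTest

/-- transfer of functions -/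
def tr (U : Set ℂ) (h : ℂ → ℂ) (u : ℂ → ℝ) : ℂ → ℝ := U.indicator fun z => u (h z)

/-- transfer of densities -/
def td (U : Set ℂ) (h : ℂ → ℂ) (u : ℂ → ℝ) : ℂ → ℝ :=
  U.indicator fun z => u (h z) * ‖deriv h z‖ ^ 2

theorem tr_mem {U : Set ℂ} {h : ℂ → ℂ} {u : ℂ → ℝ} {z : ℂ} (hz : z ∈ U) : tr U h u z = u (h z) :=
  indicator_of_mem hz _

theorem tr_not {U : Set ℂ} {h : ℂ → ℂ} {u : ℂ → ℝ} {z : ℂ} (hz : z ∉ U) : tr U h u z = 0 :=
  indicator_of_notMem hz _

theorem td_mem {U : Set ℂ} {h : ℂ → ℂ} {u : ℂ → ℝ} {z : ℂ} (hz : z ∈ U) :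
    td U h u z = u (h z) * ‖deriv h z‖ ^ 2 :=
  indicator_of_mem hz _

theorem td_not {U : Set ℂ} {h : ℂ → ℂ} {u : ℂ → ℝ} {z : ℂ} (hz : z ∉ U) : td U h u z = 0 :=
  indicator_of_notMem hz _

section transfer

variable {U V : Set ℂ} {h g : ℂ → ℂ} {u : ℂ → ℝ}

theorem isCompact_K (B : Bih U V h g) (hu : IsTest V u) : IsCompact (g '' tsupport u) :=
  hu.comp.isCompact.image_of_continuousOn (B.dg.continuousOn.mono hu.supp)

theorem K_sub (B : Bih U V h g) (hu : IsTest V u) : g '' tsupport u ⊆ U := by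
  rintro _ ⟨w, hw, rfl⟩
  exact B.mg w (hu.supp hw)

theorem u_eq_zero_off (B : Bih U V h g) {z : ℂ} (hz : z ∈ U) (hK : z ∉ g '' tsupport u) :
    u (h z) = 0 :=
  image_eq_zero_of_notMem_tsupport fun hh => hK ⟨h z, hh, B.gh z hz⟩

theorem isTest_indicator (B : Bih U V h g) (hu : IsTest V u) {F : ℂ → ℝ}
    (hF : ∀ z ∈ U, ContDiffAt ℝ ∞ F z) (hF0 : ∀ z ∈ U, u (h z) = 0 → F z = 0) :
    IsTest U (U.indicator F) := by
  have hzero : ∀ z, z ∉ g '' tsupport u → U.indicator F z = 0 := by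
    intro z hz
    by_cases hzU : z ∈ U
    · rw [indicator_of_mem hzU]
      exact hF0 z hzU (u_eq_zero_off B hzU hz)
    · exact indicator_of_notMem hzU _
  have hK := isCompact_K B hu
  refine ⟨?_, HasCompactSupport.intro hK fun z hz => hzero z hz, ?_⟩
  · rw [contDiff_iff_contDiffAt]
    intro z
    by_cases hzU : z ∈ U
    · refine (hF z hzU).congr_of_eventuallyEq ?_
      filter_upwards [B.oU.mem_nhds hzU] with w hw
      exact indicator_of_mem hw _
    · have hz : z ∉ g '' tsupport u := fun h' => hzU (K_sub B hu h')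
      have : U.indicator F =ᶠ[𝓝 z] fun _ => (0 : ℝ) := by
        filter_upwards [hK.isClosed.isOpen_compl.mem_nhds hz] with w hw
        exact hzero w hw
      exact contDiffAt_const.congr_of_eventuallyEq this
  · refine (closure_minimal ?_ hK.isClosed).trans (K_sub B hu)
    intro z hz
    by_contra hz'
    exact hz (hzero z hz')

theorem contDiffAt_h (B : Bih U V h g) {z : ℂ} (hz : z ∈ U) : ContDiffAt ℝ ∞ h z :=
  ((B.anAt hz).contDiffAt (n := ∞)).restrict_scalars ℝ

theorem contDiffAt_normsq (B : Bih U V h g) {z : ℂ} (hz : z ∈ U) :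
    ContDiffAt ℝ ∞ (fun w => ‖deriv h w‖ ^ 2) z :=
  (((B.anAt hz).deriv.contDiffAt (n := ∞)).restrict_scalars ℝ).norm_sq ℝ

theorem isTest_tr (B : Bih U V h g) (hu : IsTest V u) : IsTest U (tr U h u) :=
  isTest_indicator B hu
    (fun z hz => (hu.smooth.contDiffAt (x := h z)).comp z (contDiffAt_h B hz)) fun _ _ h0 => h0

theorem isTest_td (B : Bih U V h g) (hu : IsTest V u) : IsTest U (td U h u) :=
  isTest_indicator B hu
    (fun z hz => ((hu.smooth.contDiffAt (x := h z)).comp z (contDiffAt_h B hz)).mul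
      (contDiffAt_normsq B hz)) fun _ _ h0 => by rw [h0, zero_mul]

theorem lap_tr (B : Bih U V h g) (hu : IsTest V u) : (Δ (tr U h u)) = td U h (Δ u) := by
  funext z
  by_cases hz : z ∈ U
  · have h1 : tr U h u =ᶠ[𝓝 z] fun w => u (h w) := by
      filter_upwards [B.oU.mem_nhds hz] with w hw
      exact tr_mem hw
    rw [(laplacian_congr_nhds h1).eq_of_nhds, td_mem hz]
    exact lap_comp_holo (hu.smooth.of_le (by norm_cast)).contDiffAt (B.anAt hz)
  · rw [td_not hz]
    exact (isTest_tr B hu).lap_eq_zero hz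

theorem norm_fderiv_tr (B : Bih U V h g) (hu : IsTest V u) {z : ℂ} (hz : z ∈ U) :
    ‖fderiv ℝ (tr U h u) z‖ = ‖fderiv ℝ u (h z)‖ * ‖deriv h z‖ := by
  have h1 : tr U h u =ᶠ[𝓝 z] fun w => u (h w) := by
    filter_upwards [B.oU.mem_nhds hz] with w hw
    exact tr_mem hw
  rw [h1.fderiv_eq]
  exact norm_fderiv_comp_holo (hu.smooth.differentiable (by simp) _) (B.dhAt hz)

theorem tr_tr (B : Bih U V h g) (hu : IsTest U u) : tr U h (tr V g u) = u := by
  funext z
  by_cases hz : z ∈ U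
  · rw [tr_mem hz, tr_mem (B.mh z hz), B.gh z hz]
  · rw [tr_not hz, hu.eq_zero hz]

theorem td_td (B : Bih U V h g) (hu : IsTest U u) : td U h (td V g u) = u := by
  funext z
  by_cases hz : z ∈ U
  · rw [td_mem hz, td_mem (B.mh z hz), B.gh z hz, mul_assoc, ← mul_pow, B.norm_deriv_mul hz]
    ring
  · rw [td_not hz, hu.eq_zero hz]

theorem td_add (U : Set ℂ) (h : ℂ → ℂ) (u v : ℂ → ℝ) :
    td U h (fun z => u z + v z) = fun z => td U h u z + td U h v z := by
  funext z
  by_cases hz : z ∈ U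
  · simp only [td_mem hz]; ring
  · simp only [td_not hz, add_zero]

/-- pairing -/
theorem integral_tr_td (B : Bih U V h g) (a b : ℂ → ℝ) (hb : ∀ w, w ∉ V → b w = 0) :
    ∫ z, tr U h a z * td U h b z = ∫ w, a w * b w := by
  have h1 : ∫ z, tr U h a z * td U h b z = ∫ z in U, (a (h z) * b (h z)) * ‖deriv h z‖ ^ 2 := by
    rw [← integral_indicator B.oU.measurableSet]
    congr 1
    funext z
    by_cases hz : z ∈ U
    · rw [tr_mem hz, td_mem hz, indicator_of_mem hz]; ring
    · rw [tr_not hz, indicator_of_notMem hz, zero_mul]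
  rw [h1, B.integral_comp (fun w => a w * b w)]
  refine setIntegral_eq_integral_of_forall_compl_eq_zero fun w hw => ?_
  rw [hb w hw, mul_zero]

theorem integral_td (B : Bih U V h g) (b : ℂ → ℝ) (hb : ∀ w, w ∉ V → b w = 0) :
    ∫ z, td U h b z = ∫ w, b w := by
  have h1 := integral_tr_td B (fun _ => 1) b hb
  simp only [one_mul] at h1
  rw [← h1]
  congr 1
  funext z
  by_cases hz : z ∈ U
  · rw [tr_mem hz, one_mul]
  · rw [tr_not hz, td_not hz, zero_mul]

end transfer

/-! ### Green form of a domain -/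

/-- bilinear Green form in the chart `φ` -/
def DG (φ : ℂ → ℂ) (f g : ℂ → ℝ) : ℝ := ∫ z : ℂ, ∫ w : ℂ, f z * discGreen (φ z) (φ w) * g w

theorem DG_self (φ : ℂ → ℂ) (f : ℂ → ℝ) : DG φ f f = domainGreenForm φ f := rfl

theorem DG_td {D : Set ℂ} {φ ψ : ℂ → ℂ} (B : Bih D (ball 0 1) φ ψ) (a b : ℂ → ℝ)
    (ha : ∀ w, w ∉ ball (0 : ℂ) 1 → a w = 0) (hb : ∀ w, w ∉ ball (0 : ℂ) 1 → b w = 0) :
    DG φ (td D φ a) (td D φ b) = Gf 1 a b := by
  have h1 : ∀ z, ∫ w : ℂ, td D φ a z * discGreen (φ z) (φ w) * td D φ b w =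
      td D φ (fun ζ => ∫ y, a ζ * discGreen ζ y * b y) z := by
    intro z
    by_cases hz : z ∈ D
    · have h2 := integral_td B (fun y => discGreen (φ z) y * b y)
        (fun w hw => by rw [hb w hw, mul_zero])
      have h3 : ∀ w, td D φ a z * discGreen (φ z) (φ w) * td D φ b w =
          td D φ a z * td D φ (fun y => discGreen (φ z) y * b y) w := by
        intro w
        by_cases hw : w ∈ D
        · rw [td_mem hw, td_mem hw]; ring
        · rw [td_not hw, td_not hw, mul_zero, mul_zero]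
      simp only [h3]
      rw [integral_const_mul, h2, td_mem hz, td_mem hz]
      have h4 : ∀ y, a (φ z) * discGreen (φ z) y * b y = a (φ z) * (discGreen (φ z) y * b y) :=
        fun y => by ring
      simp only [h4]
      rw [integral_const_mul]
      ring
    · rw [td_not hz, td_not hz]
      simp
  unfold DG
  simp only [h1]
  rw [integral_td B _ (fun w hw => by simp [ha w hw])]
  unfold Gf
  simp only [G_one]

theorem DG_eq {D : Set ℂ} {φ ψ : ℂ → ℂ} (B : Bih D (ball 0 1) φ ψ) {f g : ℂ → ℝ}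
    (hf : IsTest D f) (hg : IsTest D g) :
    DG φ f g = Gf 1 (td (ball 0 1) ψ f) (td (ball 0 1) ψ g) := by
  have h1 := DG_td B (td (ball 0 1) ψ f) (td (ball 0 1) ψ g) (fun w hw => td_not hw)
    (fun w hw => td_not hw)
  rw [td_td B hf, td_td B hg] at h1
  exact h1

end

end Crest.Agent.R144.Con549
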