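import Crest.Agent.R144.Con2_549

/-!
# R144, continuum side, part 3 (helper549)

Green representation, Dirichlet energy, approximation of test functions by Laplacians of test
functions in the Green norm (C1), (C2).
-/

set_option autoImplicit false

open MeasureTheory Metric Set Filter Topology Laplacian InnerProductSpace
open scoped ComplexConjugate ContDiff

namespace Crest.Agent.R144.Con549

open Crest.Agent.R161.Green722
open Crest.ProbabilityR.HexHeights (domainGreenForm)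

noncomputable section

/-! ### Dirichlet energy -/

theorem integral_lap {U : Set ℂ} {u : ℂ → ℝ} (hu : IsTest U u) : ∫ z, (Δ u) z = 0 := by
  have h := green_onC (U := univ) (v := fun _ => (1 : ℝ)) isOpen_univ contDiffOn_const hu.smooth
    hu.comp (subset_univ _)
  have h1 : (Δ (fun _ : ℂ => (1 : ℝ))) = fun _ => 0 := laplacian_const
  rw [h1] at h
  simpa using h

theorem lap_sq {u : ℂ → ℝ} {z : ℂ} (hu : ContDiffAt ℝ 2 u z) :
    (Δ (fun w => u w ^ 2)) z = 2 * ‖fderiv ℝ u z‖ ^ 2 + 2 * (u z * (Δ u) z) := by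
  have h1 := lapC_comp (φ := fun t : ℝ => t ^ 2) (q := u) (z := z) (by fun_prop) hu
  rw [h1]
  have h2 : deriv (fun t : ℝ => t ^ 2) = fun t => 2 * t := by
    funext t
    simp
  have h3 : deriv (fun t : ℝ => 2 * t) = fun _ => 2 := by
    funext t
    have := (hasDerivAt_id t).const_mul (2 : ℝ)
    simpa using this.deriv
  rw [h2, h3]
  ring

theorem continuous_fderiv_norm_sq {U : Set ℂ} {u : ℂ → ℝ} (hu : IsTest U u) :
    Continuous fun z => ‖fderiv ℝ u z‖ ^ 2 :=
  ((hu.smooth.continuous_fderiv (by simp)).norm).pow 2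

theorem fderiv_eq_zero' {U : Set ℂ} {u : ℂ → ℝ} (_hu : IsTest U u) {z : ℂ} (hz : z ∉ tsupport u) :
    fderiv ℝ u z = 0 := by
  have h1 : u =ᶠ[𝓝 z] fun _ => (0 : ℝ) := by
    filter_upwards [(isClosed_tsupport u).isOpen_compl.mem_nhds hz] with y hy
    exact image_eq_zero_of_notMem_tsupport hy
  rw [h1.fderiv_eq]
  simp

theorem integrable_of_continuous_comp {F : ℂ → ℝ} {K : Set ℂ} (hF : Continuous F)
    (hK : IsCompact K) (h0 : ∀ z, z ∉ K → F z = 0) : Integrable F :=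
  hF.integrable_of_hasCompactSupport (HasCompactSupport.intro hK h0)

theorem integrable_energy {U : Set ℂ} {u : ℂ → ℝ} (hu : IsTest U u) :
    Integrable fun z => ‖fderiv ℝ u z‖ ^ 2 :=
  integrable_of_continuous_comp (continuous_fderiv_norm_sq hu) hu.comp.isCompact
    fun z hz => by rw [fderiv_eq_zero' hu hz]; simp

theorem integrable_mul {U : Set ℂ} {u f : ℂ → ℝ} (hu : IsTest U u) (hf : Continuous f) :
    Integrable fun z => u z * f z :=
  integrable_of_continuous_comp (hu.smooth.continuous.mul hf) hu.comp.isCompact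
    fun z hz => by rw [image_eq_zero_of_notMem_tsupport hz, zero_mul]

/-- `∫ u (-Δ u) = ∫ |∇u|²` -/
theorem energy_eq {U : Set ℂ} {u : ℂ → ℝ} (hu : IsTest U u) :
    ∫ z, u z * (-(Δ u) z) = ∫ z, ‖fderiv ℝ u z‖ ^ 2 := by
  have hsq : IsTest U (fun z => u z ^ 2) := by
    refine ⟨hu.smooth.pow 2, ?_, ?_⟩
    · exact hu.comp.comp_left (g := fun t : ℝ => t ^ 2) (by simp)
    · refine (closure_mono ?_).trans hu.supp
      intro z hz hz'
      exact hz (by simp [hz'])
  have h1 := integral_lap hsq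
  have h2 : ∀ z, (Δ (fun w => u w ^ 2)) z = 2 * ‖fderiv ℝ u z‖ ^ 2 + 2 * (u z * (Δ u) z) :=
    fun z => lap_sq (hu.smooth.of_le (by norm_cast)).contDiffAt
  simp only [h2] at h1
  rw [integral_add ((integrable_energy hu).const_mul 2)
    ((integrable_mul hu hu.lap.smooth.continuous).const_mul 2), integral_const_mul,
    integral_const_mul] at h1
  have h3 : ∫ z, u z * (-(Δ u) z) = -∫ z, u z * (Δ u) z := by
    rw [← integral_neg]
    congr 1
    funext z
    ring
  rw [h3]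
  linarith

theorem energy_nonneg {U : Set ℂ} {u : ℂ → ℝ} (hu : IsTest U u) : 0 ≤ ∫ z, u z * (-(Δ u) z) := by
  rw [energy_eq hu]
  exact integral_nonneg fun z => by positivity

/-! ### Green representation in the disc -/

theorem isTest_Tst {g : ℂ → ℝ} (hg : IsTest (ball (0 : ℂ) 1) g) :
    ∃ r, 0 ≤ r ∧ r < 1 ∧ Tst r g := exists_Tst one_pos hg.smooth.continuous hg.comp hg.supp

theorem Gf_neg_lap {u g : ℂ → ℝ} (hu : IsTest (ball (0 : ℂ) 1) u)
    (hg : IsTest (ball (0 : ℂ) 1) g) : Gf 1 (fun w => -(Δ u) w) g = ∫ w, u w * g w := by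
  obtain ⟨r, hr, hr1, hT⟩ := isTest_Tst hg
  rw [Gf_eq_U]
  have h1 : ∀ w, -(Δ u) w * U 1 g w = -(Ue 1 g w * (Δ u) w) := by
    intro w
    by_cases hw : w ∈ ball (0 : ℂ) 1
    · rw [U_eq_Ue one_pos hr hr1 hT (mem_ball_zero_iff.1 hw).le]; ring
    · rw [hu.lap_eq_zero hw]; ring
  simp only [h1]
  rw [integral_neg]
  have h2 : ContDiffOn ℝ 2 (Ue 1 g) (Dm 1 r) := fun w hw =>
    ((contDiffAt_Ue hr hT hg.smooth hg.comp hw).of_le (by norm_cast)).contDiffWithinAt
  have h3 : tsupport u ⊆ Dm 1 r := fun w hw =>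
    mem_Dm one_pos hr hr1 (mem_ball_zero_iff.1 (hu.supp hw)).le
  rw [green_onC (isOpen_Dm 1 r) h2 hu.smooth hu.comp h3, ← integral_neg]
  congr 1
  funext w
  by_cases hw : w ∈ ball (0 : ℂ) 1
  · rw [lap_Ue hr hT hg.smooth hg.comp (mem_Dm one_pos hr hr1 (mem_ball_zero_iff.1 hw).le)]
    ring
  · rw [hu.eq_zero hw]; ring

theorem Gf_symm' {f g : ℂ → ℝ} (hf : IsTest (ball (0 : ℂ) 1) f) (hg : IsTest (ball (0 : ℂ) 1) g) :
    Gf 1 f g = Gf 1 g f := by
  obtain ⟨r, hr, hr1, hT⟩ := isTest_Tst hf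
  obtain ⟨r', hr', hr1', hT'⟩ := isTest_Tst hg
  exact Gf_symm one_pos (r := max r r') (max_lt hr1 hr1') (hT.mono (le_max_left _ _))
    (hT'.mono (le_max_right _ _))

theorem Gf_add_left' {f1 f2 g : ℂ → ℝ} (hf1 : IsTest (ball (0 : ℂ) 1) f1)
    (hf2 : IsTest (ball (0 : ℂ) 1) f2) (hg : IsTest (ball (0 : ℂ) 1) g) :
    Gf 1 (fun z => f1 z + f2 z) g = Gf 1 f1 g + Gf 1 f2 g := by
  obtain ⟨r, hr, hr1, hT⟩ := isTest_Tst hf1
  obtain ⟨r', hr', hr1', hT'⟩ := isTest_Tst hf2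
  obtain ⟨r2, hr2, hr12, hT2⟩ := isTest_Tst hg
  exact Gf_add_left one_pos (r := max (max r r') r2) (max_lt (max_lt hr1 hr1') hr12)
    (hT.mono (le_max_of_le_left (le_max_left _ _)))
    (hT'.mono (le_max_of_le_left (le_max_right _ _))) (hT2.mono (le_max_right _ _))

theorem Gf_add_right' {g f1 f2 : ℂ → ℝ} (hg : IsTest (ball (0 : ℂ) 1) g)
    (hf1 : IsTest (ball (0 : ℂ) 1) f1) (hf2 : IsTest (ball (0 : ℂ) 1) f2) :
    Gf 1 g (fun z => f1 z + f2 z) = Gf 1 g f1 + Gf 1 g f2 := by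
  rw [Gf_symm' hg (hf1.add hf2), Gf_add_left' hf1 hf2 hg, Gf_symm' hf1 hg, Gf_symm' hf2 hg]

/-! ### the Green form of a domain on test functions -/

section domain

variable {D : Set ℂ} {φ ψ : ℂ → ℂ}

theorem DG_symm (B : Bih D (ball 0 1) φ ψ) {f g : ℂ → ℝ} (hf : IsTest D f) (hg : IsTest D g) :
    DG φ f g = DG φ g f := by
  rw [DG_eq B hf hg, DG_eq B hg hf, Gf_symm' (isTest_td B.symm hf) (isTest_td B.symm hg)]

theorem DG_add_left (B : Bih D (ball 0 1) φ ψ) {f1 f2 g : ℂ → ℝ} (hf1 : IsTest D f1)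
    (hf2 : IsTest D f2) (hg : IsTest D g) :
    DG φ (fun z => f1 z + f2 z) g = DG φ f1 g + DG φ f2 g := by
  rw [DG_eq B (hf1.add hf2) hg, DG_eq B hf1 hg, DG_eq B hf2 hg, td_add,
    Gf_add_left' (isTest_td B.symm hf1) (isTest_td B.symm hf2) (isTest_td B.symm hg)]

theorem DG_add_right (B : Bih D (ball 0 1) φ ψ) {g f1 f2 : ℂ → ℝ} (hg : IsTest D g)
    (hf1 : IsTest D f1) (hf2 : IsTest D f2) :
    DG φ g (fun z => f1 z + f2 z) = DG φ g f1 + DG φ g f2 := by
  rw [DG_symm B hg (hf1.add hf2), DG_add_left B hf1 hf2 hg, DG_symm B hf1 hg, DG_symm B hf2 hg]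

theorem DG_const_mul_left (φ : ℂ → ℂ) (c : ℝ) (f g : ℂ → ℝ) :
    DG φ (fun z => c * f z) g = c * DG φ f g := by
  unfold DG
  rw [← integral_const_mul]
  congr 1
  funext z
  rw [← integral_const_mul]
  congr 1
  funext w
  ring

theorem DG_const_mul_right (φ : ℂ → ℂ) (c : ℝ) (f g : ℂ → ℝ) :
    DG φ f (fun z => c * g z) = c * DG φ f g := by
  unfold DG
  rw [← integral_const_mul]
  congr 1
  funext z
  rw [← integral_const_mul]
  congr 1
  funext w
  ring

/-- Green representation: `G(-Δu, f) = ∫ u f` -/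
theorem DG_neg_lap (B : Bih D (ball 0 1) φ ψ) {u f : ℂ → ℝ} (hu : IsTest D u) (hf : IsTest D f) :
    DG φ (fun z => -(Δ u) z) f = ∫ z, u z * f z := by
  have hl : IsTest D (fun z => -(Δ u) z) := hu.lap.neg
  rw [DG_eq B hl hf]
  have h1 : td (ball 0 1) ψ (fun z => -(Δ u) z) = fun w => -(Δ (tr (ball 0 1) ψ u)) w := by
    rw [lap_tr B.symm hu]
    funext w
    by_cases hw : w ∈ ball (0 : ℂ) 1
    · rw [td_mem hw, td_mem hw]; ring
    · rw [td_not hw, td_not hw, neg_zero]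
  rw [h1, Gf_neg_lap (isTest_tr B.symm hu) (isTest_td B.symm hf),
    integral_tr_td B.symm u f (fun w hw => hf.eq_zero hw)]

/-- (C1): `domainGreenForm φ (-Δu) = ∫ |∇u|²` -/
theorem greenForm_neg_lap (B : Bih D (ball 0 1) φ ψ) {u : ℂ → ℝ} (hu : IsTest D u) :
    domainGreenForm φ (fun z => -(Δ u) z) = ∫ z, ‖fderiv ℝ u z‖ ^ 2 := by
  rw [← DG_self, DG_neg_lap B hu hu.lap.neg, energy_eq hu]

/-- (C2): approximation -/
theorem exists_approx (B : Bih D (ball 0 1) φ ψ) {f : ℂ → ℝ} (hf : IsTest D f) {ε : ℝ}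
    (hε : 0 < ε) : ∃ u : ℂ → ℝ, IsTest D u ∧ |domainGreenForm φ (fun z => f z + (Δ u) z)| < ε ∧
      |domainGreenForm φ f - ∫ z, ‖fderiv ℝ u z‖ ^ 2| < ε := by
  have hg := isTest_td B.symm hf
  set g := td (ball 0 1) ψ f with hgdef
  obtain ⟨C, η0, hC, hη0, H⟩ := dirichlet_approx one_pos hg.smooth hg.comp hg.supp
  obtain ⟨η, hη, hη1, hη2⟩ : ∃ η : ℝ, 0 < η ∧ η < η0 ∧ 3 * (C * η) < ε := by
    refine ⟨min (η0 / 2) (ε / (6 * (C + 1))), lt_min (by linarith) (by positivity),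
      (min_le_left _ _).trans_lt (by linarith), ?_⟩
    have h1 : min (η0 / 2) (ε / (6 * (C + 1))) ≤ ε / (6 * (C + 1)) := min_le_right _ _
    calc 3 * (C * min (η0 / 2) (ε / (6 * (C + 1)))) ≤ 3 * (C * (ε / (6 * (C + 1)))) := by gcongr
      _ = (C / (C + 1)) * (ε / 2) := by field_simp; ring
      _ ≤ 1 * (ε / 2) := by
          gcongr
          rw [div_le_one (by linarith)]
          linarith
      _ < ε := by linarith
  obtain ⟨v, hv1, hv2, hv3, _, _, _, hv7, hv8⟩ := H η hη hη1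
  have hv : IsTest (ball (0 : ℂ) 1) v := by
    refine ⟨hv1, hv2, ?_⟩
    have h1 : tsupport v ⊆ closedBall 0 (1 - η) := by
      refine closure_minimal (fun z hz => ?_) isClosed_closedBall
      rw [mem_closedBall_zero_iff]
      by_contra h
      exact hz (hv3 z (not_le.1 h).le)
    exact h1.trans (closedBall_subset_ball (by linarith))
  have hvl := hv.lap
  have e1 : Gf 1 (Δ v) g = -∫ w, v w * g w := by
    have := Gf_neg_lap hv hg
    rw [← this]
    have h1 : (Δ v) = fun w => (-1 : ℝ) * (-(Δ v) w) := by funext w; ring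
    conv_lhs => rw [h1]
    rw [Gf_const_mul_left]
    ring
  have e2 : Gf 1 (Δ v) (Δ v) = -∫ w, v w * (Δ v) w := by
    have := Gf_neg_lap hv hvl
    rw [← this]
    have h1 : (Δ v) = fun w => (-1 : ℝ) * (-(Δ v) w) := by funext w; ring
    conv_lhs => rw [h1]
    rw [Gf_const_mul_left]
    rw [← h1]
    ring
  have e3 : Gf 1 (fun w => g w + (Δ v) w) (fun w => g w + (Δ v) w) =
      (Gf 1 g g - ∫ w, v w * (-(Δ v) w)) - 2 * ∫ w, v w * (g w + (Δ v) w) := by
    rw [Gf_add_left' hg hvl (hg.add hvl), Gf_add_right' hg hg hvl, Gf_add_right' hvl hg hvl,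
      Gf_symm' hg hvl, e1, e2]
    have i1 : ∫ w, v w * (g w + (Δ v) w) = (∫ w, v w * g w) + ∫ w, v w * (Δ v) w := by
      rw [← integral_add (integrable_mul hv hg.smooth.continuous)
        (integrable_mul hv hvl.smooth.continuous)]
      congr 1
      funext w
      ring
    have i2 : ∫ w, v w * (-(Δ v) w) = -∫ w, v w * (Δ v) w := by
      rw [← integral_neg]
      congr 1
      funext w
      ring
    rw [i1, i2]
    ring
  have hu := isTest_tr B hv
  refine ⟨tr D φ v, hu, ?_, ?_⟩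
  · have h1 : (fun z => f z + (Δ (tr D φ v)) z) = td D φ (fun w => g w + (Δ v) w) := by
      rw [td_add, lap_tr B hv, hgdef, td_td B hf]
    rw [h1, ← DG_self, DG_td B _ _ (fun w hw => (hg.add hvl).eq_zero hw)
      (fun w hw => (hg.add hvl).eq_zero hw), e3]
    have hv8' : |Gf 1 g g - ∫ w, v w * (-(Δ v) w)| ≤ C * η := by rw [abs_sub_comm]; exact hv8
    calc |(Gf 1 g g - ∫ w, v w * (-(Δ v) w)) - 2 * ∫ w, v w * (g w + (Δ v) w)|
        ≤ |Gf 1 g g - ∫ w, v w * (-(Δ v) w)| + |2 * ∫ w, v w * (g w + (Δ v) w)| := abs_sub _ _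
      _ ≤ C * η + 2 * (C * η) := by
          rw [abs_mul, abs_two]
          gcongr
      _ < ε := by linarith
  · have h1 : ∫ z, ‖fderiv ℝ (tr D φ v) z‖ ^ 2 = ∫ w, v w * (-(Δ v) w) := by
      rw [← energy_eq hu]
      have h2 : ∀ z, tr D φ v z * (-(Δ (tr D φ v)) z) = tr D φ v z * td D φ (fun w => -(Δ v) w) z := by
        intro z
        rw [lap_tr B hv]
        by_cases hz : z ∈ D
        · rw [td_mem hz, td_mem hz]; ring
        · rw [tr_not hz]; ring
      simp only [h2]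
      exact integral_tr_td B v _ (fun w hw => by rw [hv.lap_eq_zero hw, neg_zero])
    rw [h1, ← DG_self, DG_eq B hf hf, ← hgdef, abs_sub_comm]
    have := mul_nonneg hC hη.le
    linarith

end domain

end

end Crest.Agent.R144.Con549
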