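import Crest.Agent.R144.Con3_549

/-!
# R144, continuum side, part 4 (helper549)

Positivity and Cauchy–Schwarz for the Green form of a domain; gradient fields; energy of the Dirichlet
potential; a flow `J₀` on `D` with `div J₀ = r` and `∫_D |J₀|² ≤ G_D(r, r)`.
-/

set_option autoImplicit false

open MeasureTheory Metric Set Filter Topology Laplacian InnerProductSpace
open scoped ComplexConjugate ContDiff

namespace Crest.Agent.R144.Con549

open Crest.Agent.R161.Green722
open Crest.ProbabilityR.HexHeights (domainGreenForm)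

noncomputable section

section domain

variable {D : Set ℂ} {φ ψ : ℂ → ℂ}

theorem DG_nonneg (B : Bih D (ball 0 1) φ ψ) {f : ℂ → ℝ} (hf : IsTest D f) : 0 ≤ DG φ f f := by
  rw [DG_self]
  by_contra h
  rw [not_le] at h
  obtain ⟨u, _, _, h2⟩ := exists_approx B hf (ε := -domainGreenForm φ f) (by linarith)
  have h3 : 0 ≤ ∫ z, ‖fderiv ℝ u z‖ ^ 2 := integral_nonneg fun z => by positivity
  have h4 := (abs_lt.1 h2).1
  linarith

theorem DG_quad (B : Bih D (ball 0 1) φ ψ) {f g : ℂ → ℝ} (hf : IsTest D f) (hg : IsTest D g)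
    (t : ℝ) : DG φ (fun z => f z + t * g z) (fun z => f z + t * g z) =
      DG φ f f + 2 * t * DG φ f g + t ^ 2 * DG φ g g := by
  have htg := hg.const_mul t
  rw [DG_add_left B hf htg (hf.add htg), DG_add_right B hf hf htg, DG_add_right B htg hf htg,
    DG_const_mul_right, DG_const_mul_left, DG_const_mul_left, DG_const_mul_right,
    DG_symm B hg hf]
  ring

theorem DG_cs (B : Bih D (ball 0 1) φ ψ) {f g : ℂ → ℝ} (hf : IsTest D f) (hg : IsTest D g) :
    DG φ f g ^ 2 ≤ DG φ f f * DG φ g g := by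
  have h : ∀ t : ℝ, 0 ≤ DG φ g g * (t * t) + 2 * DG φ f g * t + DG φ f f := by
    intro t
    have h1 := DG_nonneg B (hf.add (hg.const_mul t))
    rw [DG_quad B hf hg t] at h1
    nlinarith
  have h2 := discrim_le_zero h
  unfold discrim at h2
  nlinarith

/-- triangle inequality for the Green norm -/
theorem sqrt_DG_add_le (B : Bih D (ball 0 1) φ ψ) {f g : ℂ → ℝ} (hf : IsTest D f)
    (hg : IsTest D g) :
    Real.sqrt (domainGreenForm φ (fun z => f z + g z)) ≤
      Real.sqrt (domainGreenForm φ f) + Real.sqrt (domainGreenForm φ g) := by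
  have h1 := DG_quad B hf hg 1
  simp only [one_mul] at h1
  rw [← DG_self, ← DG_self, ← DG_self, h1]
  have hff := DG_nonneg B hf
  have hgg := DG_nonneg B hg
  have h2 : DG φ f g ≤ Real.sqrt (DG φ f f) * Real.sqrt (DG φ g g) := by
    rw [← Real.sqrt_mul hff]
    exact Real.le_sqrt_of_sq_le (DG_cs B hf hg)
  refine Real.sqrt_le_iff.2 ⟨by positivity, ?_⟩
  nlinarith [Real.sq_sqrt hff, Real.sq_sqrt hgg]

end domain

/-! ### gradient fields and divergence -/

/-- divergence of a planar vector field -/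
def dv (J : ℂ → ℂ) (z : ℂ) : ℝ := (fderiv ℝ J z 1).re + (fderiv ℝ J z Complex.I).im

/-- gradient of a function as a complex number -/
def gr (u : ℂ → ℝ) (z : ℂ) : ℂ := ⟨fderiv ℝ u z 1, fderiv ℝ u z Complex.I⟩

theorem gr_eq (u : ℂ → ℝ) (z : ℂ) :
    gr u z = (fderiv ℝ u z 1 : ℂ) + (fderiv ℝ u z Complex.I : ℂ) * Complex.I := by
  apply Complex.ext <;> simp [gr]

theorem fderiv_apply_eq (u : ℂ → ℝ) (z v : ℂ) :
    fderiv ℝ u z v = v.re * fderiv ℝ u z 1 + v.im * fderiv ℝ u z Complex.I := by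
  have h1 : v = v.re • (1 : ℂ) + v.im • Complex.I := by
    apply Complex.ext <;> simp
  conv_lhs => rw [h1]
  rw [map_add, map_smul, map_smul, smul_eq_mul, smul_eq_mul]

theorem norm_gr (u : ℂ → ℝ) (z : ℂ) : ‖gr u z‖ = ‖fderiv ℝ u z‖ := by
  refine le_antisymm ?_ ?_
  · -- test with `v = gr u z`
    have h1 := (fderiv ℝ u z).le_opNorm (gr u z)
    rw [fderiv_apply_eq, Real.norm_eq_abs] at h1
    have h2 : (gr u z).re * fderiv ℝ u z 1 + (gr u z).im * fderiv ℝ u z Complex.I
        = ‖gr u z‖ ^ 2 := by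
      rw [← Complex.normSq_eq_norm_sq, Complex.normSq_apply]
      simp [gr]
    rw [h2, abs_of_nonneg (by positivity)] at h1
    rcases (norm_nonneg (gr u z)).eq_or_lt with h0 | h0
    · rw [← h0]; exact norm_nonneg _
    · nlinarith
  · refine ContinuousLinearMap.opNorm_le_bound _ (norm_nonneg _) fun v => ?_
    rw [fderiv_apply_eq, Real.norm_eq_abs]
    have h2 : v.re * fderiv ℝ u z 1 + v.im * fderiv ℝ u z Complex.I
        = (v * conj (gr u z)).re := by
      simp [gr]
    rw [h2]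
    refine (Complex.abs_re_le_norm _).trans ?_
    rw [norm_mul, RCLike.norm_conj, mul_comm]

theorem dv_congr {J K : ℂ → ℂ} {z : ℂ} (h : J =ᶠ[𝓝 z] K) : dv J z = dv K z := by
  unfold dv
  rw [h.fderiv_eq]

theorem dv_add {J K : ℂ → ℂ} {z : ℂ} (hJ : DifferentiableAt ℝ J z) (hK : DifferentiableAt ℝ K z) :
    dv (fun w => J w + K w) z = dv J z + dv K z := by
  unfold dv
  rw [fderiv_fun_add hJ hK]
  simp
  ring

theorem dv_sub {J K : ℂ → ℂ} {z : ℂ} (hJ : DifferentiableAt ℝ J z) (hK : DifferentiableAt ℝ K z) :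
    dv (fun w => J w - K w) z = dv J z - dv K z := by
  unfold dv
  rw [fderiv_fun_sub hJ hK]
  simp
  ring

theorem dv_neg {J : ℂ → ℂ} {z : ℂ} : dv (fun w => -J w) z = -dv J z := by
  unfold dv
  rw [fderiv_fun_neg]
  simp
  ring

theorem dv_sum {ι : Type*} (s : Finset ι) {J : ι → ℂ → ℂ} {z : ℂ}
    (hJ : ∀ i ∈ s, DifferentiableAt ℝ (J i) z) :
    dv (fun w => ∑ i ∈ s, J i w) z = ∑ i ∈ s, dv (J i) z := by
  unfold dv
  rw [fderiv_fun_sum hJ]
  simp [Finset.sum_add_distrib]

/-- product rule -/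
theorem dv_smul {c : ℂ → ℝ} {J : ℂ → ℂ} {z : ℂ} (hc : DifferentiableAt ℝ c z)
    (hJ : DifferentiableAt ℝ J z) :
    dv (fun w => c w • J w) z = c z * dv J z + (conj (gr c z) * J z).re := by
  unfold dv
  rw [fderiv_fun_smul hc hJ]
  simp [gr]
  ring

theorem abs_dv_smul_sub_le {c : ℂ → ℝ} {J : ℂ → ℂ} {z : ℂ} (hc : DifferentiableAt ℝ c z)
    (hJ : DifferentiableAt ℝ J z) :
    |dv (fun w => c w • J w) z - c z * dv J z| ≤ ‖fderiv ℝ c z‖ * ‖J z‖ := by
  rw [dv_smul hc hJ]
  have : c z * dv J z + (conj (gr c z) * J z).re - c z * dv J z = (conj (gr c z) * J z).re := by ring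
  rw [this]
  refine (Complex.abs_re_le_norm _).trans ?_
  rw [norm_mul, RCLike.norm_conj, norm_gr]

theorem contDiffAt_gr {u : ℂ → ℝ} {z : ℂ} (hu : ContDiffAt ℝ ∞ u z) : ContDiffAt ℝ ∞ (gr u) z := by
  have h1 : gr u = fun w => (fderiv ℝ u w 1 : ℂ) + (fderiv ℝ u w Complex.I : ℂ) * Complex.I :=
    funext fun w => gr_eq u w
  rw [h1]
  have h2 : ∀ e : ℂ, ContDiffAt ℝ ∞ (fun w => ((fderiv ℝ u w e : ℝ) : ℂ)) z := fun e =>
    (Complex.ofRealCLM.contDiff.contDiffAt).comp z
      ((hu.fderiv_right (m := ∞) (by simp)).clm_apply contDiffAt_const)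
  exact (h2 1).add ((h2 Complex.I).mul contDiffAt_const)

theorem dv_gr {u : ℂ → ℝ} {z : ℂ} (hu : ContDiffAt ℝ ∞ u z) : dv (gr u) z = (Δ u) z := by
  rw [lap_eq_dir (hu.of_le (by norm_cast))]
  have hd : DifferentiableAt ℝ (gr u) z := (contDiffAt_gr hu).differentiableAt (by simp)
  have h2 : ∀ e : ℂ, DifferentiableAt ℝ (fun w => fderiv ℝ u w e) z := fun e =>
    (((hu.fderiv_right (m := ∞) (by simp)).clm_apply contDiffAt_const)).differentiableAt (by simp)
  unfold dv
  have h3 : ∀ v : ℂ, (fderiv ℝ (gr u) z v).re = fderiv ℝ (fun w => fderiv ℝ u w 1) z v := by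
    intro v
    have h4 : HasFDerivAt (fun w => (gr u w).re) (Complex.reCLM.comp (fderiv ℝ (gr u) z)) z :=
      Complex.reCLM.hasFDerivAt.comp z hd.hasFDerivAt
    have h5 : (fun w => (gr u w).re) = fun w => fderiv ℝ u w 1 := rfl
    rw [h5] at h4
    rw [h4.fderiv]
    rfl
  have h3' : ∀ v : ℂ, (fderiv ℝ (gr u) z v).im = fderiv ℝ (fun w => fderiv ℝ u w Complex.I) z v := by
    intro v
    have h4 : HasFDerivAt (fun w => (gr u w).im) (Complex.imCLM.comp (fderiv ℝ (gr u) z)) z :=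
      Complex.imCLM.hasFDerivAt.comp z hd.hasFDerivAt
    have h5 : (fun w => (gr u w).im) = fun w => fderiv ℝ u w Complex.I := rfl
    rw [h5] at h4
    rw [h4.fderiv]
    rfl
  rw [h3, h3']

/-! ### Caccioppoli identity -/

/-- `2 ∫ χ |∇v|² = ∫ v² Δχ - 2 ∫ χ v Δv` for `v` smooth near the support of `χ` -/
theorem cacc {O : Set ℂ} (hO : IsOpen O) {v : ℂ → ℝ} (hv : ∀ z ∈ O, ContDiffAt ℝ ∞ v z)
    {χ : ℂ → ℝ} (hχ : IsTest O χ) :
    2 * ∫ z, χ z * ‖fderiv ℝ v z‖ ^ 2 =
      (∫ z, v z ^ 2 * (Δ χ) z) - 2 * ∫ z, χ z * (v z * (Δ v) z) := by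
  have hsq : ContDiffOn ℝ 2 (fun z => v z ^ 2) O := fun z hz =>
    ((hv z hz).of_le (by norm_cast)).contDiffWithinAt.pow 2
  have h1 := green_onC hO hsq hχ.smooth hχ.comp hχ.supp
  have h2 : ∀ z, (Δ (fun w => v w ^ 2)) z * χ z =
      2 * (χ z * ‖fderiv ℝ v z‖ ^ 2) + 2 * (χ z * (v z * (Δ v) z)) := by
    intro z
    by_cases hz : z ∈ O
    · rw [lap_sq ((hv z hz).of_le (by norm_cast))]; ring
    · rw [hχ.eq_zero hz]; ring
  simp only [h2] at h1
  have hcont : ∀ {F : ℂ → ℝ}, (∀ z ∈ O, ContinuousAt F z) → Integrable fun z => χ z * F z := by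
    intro F hF
    have hc : Continuous fun z => χ z * F z := by
      rw [continuous_iff_continuousAt]
      intro z
      by_cases hz : z ∈ tsupport χ
      · exact hχ.smooth.continuous.continuousAt.mul (hF z (hχ.supp hz))
      · have : (fun z => χ z * F z) =ᶠ[𝓝 z] fun _ => 0 := by
          filter_upwards [(isClosed_tsupport χ).isOpen_compl.mem_nhds hz] with y hy
          rw [image_eq_zero_of_notMem_tsupport hy, zero_mul]
        exact continuousAt_const.congr this.symm
    exact integrable_of_continuous_comp hc hχ.comp.isCompact fun z hz => by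
      rw [image_eq_zero_of_notMem_tsupport hz, zero_mul]
  have i1 : Integrable fun z => χ z * ‖fderiv ℝ v z‖ ^ 2 := hcont fun z hz =>
    (((hv z hz).fderiv_right (m := ∞) (by simp)).continuousAt.norm).pow 2
  have i2 : Integrable fun z => χ z * (v z * (Δ v) z) := hcont fun z hz => by
    have h3 : ContinuousAt (Δ v) z := by
      have h4 : (Δ v) =ᶠ[𝓝 z] fun z => fderiv ℝ (fun w => fderiv ℝ v w 1) z 1 +
          fderiv ℝ (fun w => fderiv ℝ v w Complex.I) z Complex.I := by
        filter_upwards [hO.mem_nhds hz] with y hy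
        exact lap_eq_dir ((hv y hy).of_le (by norm_cast))
      refine ContinuousAt.congr ?_ h4.symm
      have h5 : ∀ e : ℂ, ContDiffAt ℝ ∞ (fun w => fderiv ℝ v w e) z := fun e =>
        ((hv z hz).fderiv_right (m := ∞) (by simp)).clm_apply contDiffAt_const
      have h6 : ∀ e : ℂ, ContDiffAt ℝ ∞ (fun w => fderiv ℝ (fun w => fderiv ℝ v w e) w e) z :=
        fun e => ((h5 e).fderiv_right (m := ∞) (by simp)).clm_apply contDiffAt_const
      exact ((h6 1).add (h6 Complex.I)).continuousAt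
    exact (hv z hz).continuousAt.mul h3
  rw [integral_add (i1.const_mul 2) (i2.const_mul 2), integral_const_mul, integral_const_mul] at h1
  linarith

end

end Crest.Agent.R144.Con549
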