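import Crest.Agent.R144.Con5_549

/-!
# R144, continuum side, part 6 (helper549)

`L²` bound for the gradient of the logarithmic potential on discs.
-/

set_option autoImplicit false

open MeasureTheory Metric Set Filter Topology Laplacian InnerProductSpace
open scoped ComplexConjugate ContDiff

namespace Crest.Agent.R144.Con549

open Crest.Agent.R161.Green722

noncomputable section

/-- Cauchy–Schwarz for integrals -/
theorem integral_cs {α : Type*} [MeasurableSpace α] {μ : Measure α} {a b : α → ℝ}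
    (ha : Integrable (fun x => a x ^ 2) μ) (hb : Integrable (fun x => b x ^ 2) μ)
    (hab : Integrable (fun x => a x * b x) μ) :
    (∫ x, a x * b x ∂μ) ^ 2 ≤ (∫ x, a x ^ 2 ∂μ) * ∫ x, b x ^ 2 ∂μ := by
  have h : ∀ t : ℝ, 0 ≤ (∫ x, b x ^ 2 ∂μ) * (t * t) + 2 * (∫ x, a x * b x ∂μ) * t +
      ∫ x, a x ^ 2 ∂μ := by
    intro t
    have h1 : 0 ≤ ∫ x, (a x + t * b x) ^ 2 ∂μ := integral_nonneg fun x => sq_nonneg _
    have h2 : ∫ x, (a x + t * b x) ^ 2 ∂μ = ∫ x, (a x ^ 2 + (2 * t) * (a x * b x)) +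
        (t * t) * b x ^ 2 ∂μ := by
      congr 1
      funext x
      ring
    have h3 : Integrable (fun x => a x ^ 2 + (2 * t) * (a x * b x)) μ := ha.add (hab.const_mul _)
    rw [h2, integral_add h3 (hb.const_mul _),
      integral_add ha (hab.const_mul _), integral_const_mul, integral_const_mul] at h1
    linarith
  have h2 := discrim_le_zero h
  unfold discrim at h2
  nlinarith

theorem integrableOn_log_sq (R : ℝ) :
    IntegrableOn (fun z : ℂ => Real.log ‖z‖ ^ 2) (ball 0 R) := by
  have h1 : IntegrableOn (fun z : ℂ => 2 * ‖z‖ ^ 2 + 8 * ‖z‖ ^ (-1 : ℝ)) (ball 0 R) := by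
    refine IntegrableOn.add ?_ ?_
    · exact (((continuous_const.mul (continuous_norm.pow 2)).continuousOn).integrableOn_compact
        (isCompact_closedBall (0 : ℂ) R)).mono_set ball_subset_closedBall
    · exact (integrableOn_norm_rpow (s := 1) (by norm_num) R).const_mul 8
  refine Integrable.mono' h1
    ((Real.measurable_log.comp measurable_norm).pow_const 2).aestronglyMeasurable ?_
  have h2 : ∀ᵐ z : ℂ, z ≠ 0 := by
    rw [ae_iff]; simp
  filter_upwards [ae_restrict_of_ae h2] with z hz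
  have hz' : 0 < ‖z‖ := norm_pos_iff.mpr hz
  have h3 := abs_log_le hz'
  rw [Real.norm_eq_abs, abs_pow]
  have h4 : (‖z‖ ^ (-(1 / 2) : ℝ)) ^ 2 = ‖z‖ ^ (-1 : ℝ) := by
    rw [← Real.rpow_natCast, ← Real.rpow_mul hz'.le]
    norm_num
  calc |Real.log ‖z‖| ^ 2 ≤ (‖z‖ + 2 * ‖z‖ ^ (-(1 / 2) : ℝ)) ^ 2 :=
        pow_le_pow_left₀ (abs_nonneg _) h3 2
    _ ≤ 2 * ‖z‖ ^ 2 + 8 * (‖z‖ ^ (-(1 / 2) : ℝ)) ^ 2 := by
        nlinarith [sq_nonneg (‖z‖ - 2 * ‖z‖ ^ (-(1 / 2) : ℝ))]
    _ = 2 * ‖z‖ ^ 2 + 8 * ‖z‖ ^ (-1 : ℝ) := by rw [h4]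

theorem isTest_sq_integrable {U : Set ℂ} {f : ℂ → ℝ} (hf : IsTest U f) :
    Integrable fun z => f z ^ 2 := by
  have := integrable_mul hf hf.smooth.continuous
  refine this.congr (Eventually.of_forall fun z => ?_)
  simp only
  ring

/-- sup bound of the logarithmic potential by the `L²` norm -/
theorem LP_sup_bound (R : ℝ) (_hR : 0 < R) : ∃ C : ℝ, 0 ≤ C ∧ ∀ f : ℂ → ℝ, IsTest (ball 0 R) f →
    ∀ z : ℂ, ‖z‖ ≤ 2 * R → LP f z ^ 2 ≤ C * ∫ w, f w ^ 2 := by
  set A := ∫ w in ball (0 : ℂ) (3 * R), Real.log ‖w‖ ^ 2 with hA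
  have hA0 : 0 ≤ A := setIntegral_nonneg isOpen_ball.measurableSet fun w _ => sq_nonneg _
  refine ⟨(1 / (2 * Real.pi)) ^ 2 * A, by positivity, fun f hf z hz => ?_⟩
  have hmp : MeasurePreserving (fun w : ℂ => z - w) := (volume : Measure ℂ).measurePreserving_sub_left z
  have hemb : MeasurableEmbedding (fun w : ℂ => z - w) :=
    (Homeomorph.subLeft z).measurableEmbedding
  -- the kernel restricted to the ball
  set a : ℂ → ℝ := fun w => (ball (0 : ℂ) (3 * R)).indicator (fun y => Real.log ‖y‖) (z - w) with ha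
  have ha2 : Integrable (fun w => a w ^ 2) := by
    have h1 : Integrable (fun y : ℂ =>
        (ball (0 : ℂ) (3 * R)).indicator (fun y => Real.log ‖y‖ ^ 2) y) :=
      (integrable_indicator_iff isOpen_ball.measurableSet).2 (integrableOn_log_sq _)
    have h2 := hmp.integrable_comp_of_integrable h1
    refine h2.congr (Eventually.of_forall fun w => ?_)
    simp only [Function.comp_apply, ha]
    by_cases h : z - w ∈ ball (0 : ℂ) (3 * R)
    · rw [indicator_of_mem h, indicator_of_mem h]
    · rw [indicator_of_notMem h, indicator_of_notMem h]; simp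
  have ha3 : ∫ w, a w ^ 2 = A := by
    have h1 := hmp.integral_comp hemb
      (fun y : ℂ => (ball (0 : ℂ) (3 * R)).indicator (fun y => Real.log ‖y‖ ^ 2) y)
    rw [integral_indicator isOpen_ball.measurableSet] at h1
    rw [hA, ← h1]
    congr 1
    funext w
    simp only [ha]
    by_cases h : z - w ∈ ball (0 : ℂ) (3 * R)
    · rw [indicator_of_mem h, indicator_of_mem h]
    · rw [indicator_of_notMem h, indicator_of_notMem h]; simp
  have hf2 := isTest_sq_integrable hf
  have heq : ∀ w, Real.log ‖z - w‖ * f w = a w * f w := by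
    intro w
    by_cases hw : w ∈ ball (0 : ℂ) R
    · have h : z - w ∈ ball (0 : ℂ) (3 * R) := by
        rw [mem_ball_zero_iff] at hw ⊢
        calc ‖z - w‖ ≤ ‖z‖ + ‖w‖ := norm_sub_le _ _
          _ < 3 * R := by linarith
      simp only [ha]
      rw [indicator_of_mem h]
    · rw [hf.eq_zero hw, mul_zero, mul_zero]
  have hmeas : Measurable a := by
    have h1 : Measurable ((ball (0 : ℂ) (3 * R)).indicator (fun y : ℂ => Real.log ‖y‖)) :=
      (Real.measurable_log.comp measurable_norm).indicator isOpen_ball.measurableSet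
    exact h1.comp (measurable_const.sub measurable_id)
  have haf : Integrable (fun w => a w * f w) := by
    refine Integrable.mono' (ha2.add hf2)
      (hmeas.mul hf.smooth.continuous.measurable).aestronglyMeasurable
      (Eventually.of_forall fun w => ?_)
    rw [Real.norm_eq_abs, abs_le]
    simp only [Pi.add_apply]
    constructor <;> nlinarith [sq_nonneg (a w - f w), sq_nonneg (a w + f w)]
  have hcs := integral_cs ha2 hf2 haf
  unfold LP
  simp only [heq]
  rw [mul_pow, mul_assoc]
  rw [ha3] at hcs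
  gcongr

theorem integral_abs_sq_le {R : ℝ} (hR : 0 < R) {f : ℂ → ℝ} (hf : IsTest (ball 0 R) f) :
    (∫ w, |f w|) ^ 2 ≤ (Real.pi * R ^ 2) * ∫ w, f w ^ 2 := by
  have h1 : Integrable (fun w : ℂ => ((ball (0 : ℂ) R).indicator (fun _ => (1 : ℝ)) w) ^ 2) := by
    have h : Integrable ((ball (0 : ℂ) R).indicator (fun _ => (1 : ℝ))) :=
      (integrable_indicator_iff isOpen_ball.measurableSet).2
        (integrableOn_const (measure_ball_lt_top).ne)
    refine h.congr (Eventually.of_forall fun w => ?_)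
    by_cases hw : w ∈ ball (0 : ℂ) R
    · simp [indicator_of_mem hw]
    · simp [indicator_of_notMem hw]
  have h2 := isTest_sq_integrable hf
  have h2' : Integrable (fun w => |f w| ^ 2) := by simpa using h2
  have h3 : ∀ w, (ball (0 : ℂ) R).indicator (fun _ => (1 : ℝ)) w * |f w| = |f w| := by
    intro w
    by_cases hw : w ∈ ball (0 : ℂ) R
    · simp [indicator_of_mem hw]
    · rw [hf.eq_zero hw]; simp
  have h4 : Integrable (fun w => |f w|) := (hf.smooth.continuous.integrable_of_hasCompactSupport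
    hf.comp).abs
  have h5 := integral_cs h1 h2' (by simpa only [h3] using h4)
  simp only [h3, sq_abs] at h5
  refine h5.trans (mul_le_mul_of_nonneg_right ?_ (integral_nonneg fun w => sq_nonneg _))
  have h6 : ∫ w : ℂ, ((ball (0 : ℂ) R).indicator (fun _ => (1 : ℝ)) w) ^ 2 = Real.pi * R ^ 2 := by
    have h7 : (fun w : ℂ => ((ball (0 : ℂ) R).indicator (fun _ => (1 : ℝ)) w) ^ 2) =
        (ball (0 : ℂ) R).indicator (fun _ => (1 : ℝ)) := by
      funext w
      by_cases hw : w ∈ ball (0 : ℂ) R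
      · simp [indicator_of_mem hw]
      · simp [indicator_of_notMem hw]
    rw [h7, integral_indicator isOpen_ball.measurableSet, setIntegral_const, smul_eq_mul, mul_one,
      Measure.real, Complex.volume_ball]
    simp [ENNReal.toReal_ofReal hR.le, mul_comm]
  exact h6.le

/-- `L²` bound of the gradient of the logarithmic potential -/
theorem LP_grad_bound (R : ℝ) (hR : 0 < R) : ∃ C : ℝ, 0 ≤ C ∧ ∀ f : ℂ → ℝ, IsTest (ball 0 R) f →
    ∫ z in ball (0 : ℂ) R, ‖fderiv ℝ (LP f) z‖ ^ 2 ≤ C * ∫ w, f w ^ 2 := by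
  obtain ⟨C1, hC1, hsup⟩ := LP_sup_bound R hR
  set b := 3 / 2 * R with hb
  have hRb : R < b := by rw [hb]; linarith
  have hb2 : b < 2 * R := by rw [hb]; linarith
  have hχz : ∀ w, w ∉ closedBall (0 : ℂ) b → chi R b w = 0 := fun w hw => by
    rw [mem_closedBall_zero_iff, not_le] at hw
    exact chi_zero hR.le hRb hw.le
  have hχ : IsTest (ball (0 : ℂ) (2 * R)) (chi R b) := by
    refine ⟨contDiff_chi R b, HasCompactSupport.intro (isCompact_closedBall (0 : ℂ) b) hχz, ?_⟩
    refine (closure_minimal (fun w hw => ?_) (isClosed_closedBall (x := (0 : ℂ)) (ε := b))).trans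
      (closedBall_subset_ball hb2)
    by_contra h
    exact hw (hχz w h)
  set K1 := ∫ z, |(Δ (chi R b)) z| with hK1
  have hK10 : 0 ≤ K1 := integral_nonneg fun z => abs_nonneg _
  refine ⟨C1 * K1 + C1 + Real.pi * R ^ 2, by positivity, fun f hf => ?_⟩
  set S := ∫ w, f w ^ 2 with hS
  have hS0 : 0 ≤ S := integral_nonneg fun w => sq_nonneg _
  have hsm : ∀ z ∈ (univ : Set ℂ), ContDiffAt ℝ ∞ (LP f) z := fun z _ =>
    (contDiff_LP hf.smooth hf.comp).contDiffAt
  have hcc := cacc isOpen_univ hsm (hχ.mono (subset_univ _))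
  have hcd : ContDiff ℝ ∞ (LP f) := contDiff_LP hf.smooth hf.comp
  have hfc : Continuous fun z => ‖fderiv ℝ (LP f) z‖ ^ 2 :=
    ((hcd.continuous_fderiv (by simp)).norm).pow 2
  have h1 : ∫ z in ball (0 : ℂ) R, ‖fderiv ℝ (LP f) z‖ ^ 2 ≤
      ∫ z, chi R b z * ‖fderiv ℝ (LP f) z‖ ^ 2 := by
    rw [← integral_indicator isOpen_ball.measurableSet]
    refine integral_mono_of_nonneg (Eventually.of_forall fun z => indicator_nonneg
      (fun _ _ => by positivity) _) ?_ (Eventually.of_forall fun z => ?_)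
    · exact integrable_of_continuous_comp (hχ.smooth.continuous.mul hfc) hχ.comp.isCompact
        fun z hz => by rw [image_eq_zero_of_notMem_tsupport hz, zero_mul]
    · simp only
      by_cases hz : z ∈ ball (0 : ℂ) R
      · rw [indicator_of_mem hz, chi_one hR.le hRb (mem_ball_zero_iff.1 hz).le, one_mul]
      · rw [indicator_of_notMem hz]
        exact mul_nonneg (chi_mem R b z).1 (by positivity)
  have h2 : |∫ z, LP f z ^ 2 * (Δ (chi R b)) z| ≤ (C1 * S) * K1 := by
    rw [hK1, ← integral_const_mul, ← Real.norm_eq_abs]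
    refine (norm_integral_le_integral_norm _).trans ?_
    refine integral_mono_of_nonneg (Eventually.of_forall fun z => norm_nonneg _) ?_
      (Eventually.of_forall fun z => ?_)
    · exact ((hχ.lap.smooth.continuous.integrable_of_hasCompactSupport hχ.lap.comp).abs).const_mul _
    · simp only [norm_mul, Real.norm_eq_abs, abs_pow, sq_abs]
      by_cases hz : z ∈ ball (0 : ℂ) (2 * R)
      · have := hsup f hf z (mem_ball_zero_iff.1 hz).le
        gcongr
      · rw [hχ.lap_eq_zero hz]; simp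
  have h3 : |∫ z, chi R b z * (LP f z * (Δ (LP f)) z)| ≤ Real.sqrt (C1 * S) * ∫ w, |f w| := by
    rw [← integral_const_mul, ← Real.norm_eq_abs]
    refine (norm_integral_le_integral_norm _).trans ?_
    refine integral_mono_of_nonneg (Eventually.of_forall fun z => norm_nonneg _) ?_
      (Eventually.of_forall fun z => ?_)
    · exact ((hf.smooth.continuous.integrable_of_hasCompactSupport hf.comp).abs).const_mul _
    · simp only [norm_mul, Real.norm_eq_abs]
      rw [lap_LP hf.smooth hf.comp]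
      by_cases hz : z ∈ ball (0 : ℂ) R
      · have h4 := hsup f hf z ((mem_ball_zero_iff.1 hz).le.trans (by linarith))
        have h5 : |LP f z| ≤ Real.sqrt (C1 * S) := Real.abs_le_sqrt h4
        have h6 : |chi R b z| ≤ 1 := by
          rw [abs_of_nonneg (chi_mem R b z).1]; exact (chi_mem R b z).2
        calc |chi R b z| * (|LP f z| * |f z|) ≤ 1 * (Real.sqrt (C1 * S) * |f z|) := by gcongr
          _ = Real.sqrt (C1 * S) * |f z| := one_mul _
      · rw [hf.eq_zero hz]; simp
  have h7 : Real.sqrt (C1 * S) * ∫ w, |f w| ≤ (C1 * S + (Real.pi * R ^ 2) * S) / 2 := by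
    have h8 := integral_abs_sq_le hR hf
    have h9 : 0 ≤ C1 * S := by positivity
    nlinarith [sq_nonneg (Real.sqrt (C1 * S) - ∫ w, |f w|), Real.sq_sqrt h9]
  have h8 := (abs_le.1 h2).2
  have h9 := (abs_le.1 h3).1
  nlinarith [mul_nonneg (mul_nonneg hC1 hS0) hK10, mul_nonneg hC1 hS0,
    mul_nonneg (mul_nonneg Real.pi_pos.le (sq_nonneg R)) hS0]

end

end Crest.Agent.R144.Con549
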