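import Crest.Agent.R144.Seg_549
import Crest.Agent.R144.Con6_549

/-!
# R144, continuum side, part 7 (helper549)

Partition of unity adapted to the segment property.
-/

set_option autoImplicit false

open MeasureTheory Metric Set Filter Topology
open scoped ContDiff Manifold

namespace Crest.Agent.R144.Con549

noncomputable section

/-- finite partition of unity of `closure D` with inward directions -/
structure PushData (D : Set ℂ) where
  ι : Type
  fin : Fintype ι
  χ : ι → ℂ → ℝ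
  ν : ι → ℂ
  t0 : ℝ
  t0pos : 0 < t0
  smooth : ∀ i, ContDiff ℝ ∞ (χ i)
  comp : ∀ i, HasCompactSupport (χ i)
  nonneg : ∀ i z, 0 ≤ χ i z
  le_one : ∀ i z, χ i z ≤ 1
  sum : ∀ z ∈ closure D, ∑ i, χ i z = 1
  push : ∀ i, ∀ z ∈ closure D, z ∈ tsupport (χ i) → ∀ t : ℝ, 0 < t → t < t0 → z + t * ν i ∈ D

attribute [instance] PushData.fin

theorem exists_pushData {D : Set ℂ} {γ : ℝ → ℂ} (h : Crest.Agent.R144.Geo268.Dom D γ) :
    Nonempty (PushData D) := by
  classical
  have hfc : IsCompact (frontier D) :=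
    (Metric.isCompact_of_isClosed_isBounded isClosed_frontier
      (h.bdd.closure.subset frontier_subset_closure))
  have hseg : ∀ p : ℂ, ∃ (ν : ℂ) (ρ t0 : ℝ), 0 < ρ ∧ 0 < t0 ∧ (p ∈ frontier D →
      ∀ z ∈ closure D, z ∈ ball p ρ → ∀ t : ℝ, 0 < t → t < t0 → z + t * ν ∈ D) := by
    intro p
    by_cases hp : p ∈ frontier D
    · obtain ⟨ν, ρ, t0, h1, h2, h3⟩ := Crest.Agent.R144.Seg549.seg h hp
      exact ⟨ν, ρ, t0, h1, h2, fun _ => h3⟩
    · exact ⟨0, 1, 1, one_pos, one_pos, fun h' => absurd h' hp⟩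
  choose ν ρ t0 hρ ht0 hpush using hseg
  obtain ⟨F, hF1, hF2⟩ := hfc.elim_nhds_subcover (fun p => ball p (ρ p))
    fun p _ => ball_mem_nhds p (hρ p)
  let U : Option F → Set ℂ := fun o => o.elim D fun p => ball (p : ℂ) (ρ p)
  have hUo : ∀ i, IsOpen (U i) := by
    rintro (_ | p)
    · exact h.op
    · exact isOpen_ball
  have hUb : ∀ i, Bornology.IsBounded (U i) := by
    rintro (_ | p)
    · exact h.bdd
    · exact isBounded_ball
  have hcov : closure D ⊆ ⋃ i, U i := by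
    intro z hz
    by_cases hzD : z ∈ D
    · exact mem_iUnion.2 ⟨none, hzD⟩
    · have hzf : z ∈ frontier D := by
        rw [frontier, h.op.interior_eq]
        exact ⟨hz, hzD⟩
      obtain ⟨p, hp⟩ := mem_iUnion.1 (hF2 hzf)
      obtain ⟨hpF, hp2⟩ := mem_iUnion.1 hp
      exact mem_iUnion.2 ⟨some ⟨p, hpF⟩, hp2⟩
  obtain ⟨f, hf⟩ := SmoothPartitionOfUnity.exists_isSubordinate 𝓘(ℝ, ℂ) isClosed_closure U hUo hcov
  have htmin : ∃ t1 : ℝ, 0 < t1 ∧ ∀ p ∈ F, t1 ≤ t0 p := by
    by_cases hFn : F.Nonempty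
    · obtain ⟨p, hp, hpm⟩ := F.exists_min_image t0 hFn
      exact ⟨t0 p, ht0 p, hpm⟩
    · refine ⟨1, one_pos, fun p hp => absurd ⟨p, hp⟩ hFn⟩
  obtain ⟨t1, ht1, ht1F⟩ := htmin
  refine ⟨{
    ι := Option F
    fin := inferInstance
    χ := fun i => f i
    ν := fun o => o.elim 0 fun p => ν p
    t0 := t1
    t0pos := ht1
    smooth := fun i => (f i).contMDiff.contDiff
    comp := fun i => ?_
    nonneg := fun i z => f.nonneg i z
    le_one := fun i z => f.le_one i z
    sum := fun z hz => ?_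
    push := ?_ }⟩
  · exact Metric.isCompact_of_isClosed_isBounded (isClosed_tsupport _) ((hUb i).subset (hf i))
  · have := f.sum_eq_one hz
    rwa [finsum_eq_sum_of_fintype] at this
  · rintro (_ | p) z hz hzs t ht htt
    · have : z ∈ D := hf none hzs
      simpa using this
    · have h1 : z ∈ ball (p : ℂ) (ρ p) := hf (some p) hzs
      exact hpush p (hF1 p p.2) z hz h1 t ht (htt.trans_le (ht1F p p.2))

/-- a smooth cutoff: `1` on the `r₃`-neighbourhood, supported in the `r₂`-neighbourhood -/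
theorem exists_cutoff (S : Set ℂ) {r3 r2 : ℝ} (h32 : r3 < r2) (h3 : 0 < r3) :
    ∃ θ : ℂ → ℝ, ContDiff ℝ ∞ θ ∧ (∀ z, 0 ≤ θ z ∧ θ z ≤ 1) ∧ (∀ z ∈ thickening r3 S, θ z = 1) ∧
      ∀ z, z ∉ thickening r2 S → θ z = 0 := by
  have hd : Disjoint (thickening r2 S)ᶜ (cthickening r3 S) :=
    disjoint_compl_left_iff_subset.2 (cthickening_subset_thickening' (h3.trans h32) h32 S)
  obtain ⟨f, hf0, hf1, hf2⟩ := exists_contMDiffMap_zero_one_of_isClosed (n := ⊤) 𝓘(ℝ, ℂ)
    isOpen_thickening.isClosed_compl (isClosed_cthickening (δ := r3) (E := S)) hd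
  exact ⟨f, f.contMDiff.contDiff, fun z => ⟨(hf2 z).1, (hf2 z).2⟩,
    fun z hz => hf1 (thickening_subset_cthickening r3 S hz), fun z hz => hf0 hz⟩

end

end Crest.Agent.R144.Con549
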