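import Crest.Agent.R144.Con7_549

/-!
# R144, continuum side, part 8 (helper549)

Pushing a flow out of the domain: a flow on `D` is replaced by a smooth flow on a neighbourhood of
`closure D` with the same divergence and comparable energy.
-/

set_option autoImplicit false

open MeasureTheory Metric Set Filter Topology
open scoped ComplexConjugate ContDiff

namespace Crest.Agent.R144.Con549

open Crest.Agent.R161.Green722
open Crest.ProbabilityR.HexHeights (domainGreenForm)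

noncomputable section

namespace PushData

variable {D : Set ℂ} (P : PushData D)

/-- pushed field -/
def J (J0 : ℂ → ℂ) (t : ℝ) (z : ℂ) : ℂ :=
  ∑ i, P.χ i z • J0 (z + t * P.ν i)

/-- the set on which the pushed field is smooth -/
def N (t : ℝ) : Set ℂ := {z | ∀ i, z ∈ tsupport (P.χ i) → z + t * P.ν i ∈ D}

theorem isOpen_N (hD : IsOpen D) (t : ℝ) : IsOpen (P.N t) := by
  have h1 : P.N t = ⋂ i, (tsupport (P.χ i) ∩ (fun z => z + t * P.ν i) ⁻¹' Dᶜ)ᶜ := by
    ext z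
    simp only [N, Set.mem_ofPred_eq, mem_iInter, mem_compl_iff, mem_inter_iff, mem_preimage,
      not_and, not_not]
  rw [h1]
  refine isOpen_iInter_of_finite fun i => ?_
  exact ((isClosed_tsupport _).inter (hD.isClosed_compl.preimage (by fun_prop))).isOpen_compl

theorem closure_sub_N {t : ℝ} (ht : 0 < t) (ht0 : t < P.t0) : closure D ⊆ P.N t :=
  fun z hz i hzi => P.push i z hz hzi t ht ht0

theorem term_smooth {J0 : ℂ → ℂ} (hJ : ∀ z ∈ D, ContDiffAt ℝ ∞ J0 z) {t : ℝ} {z : ℂ}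
    (hz : z ∈ P.N t) (i : P.ι) : ContDiffAt ℝ ∞ (fun w => P.χ i w • J0 (w + t * P.ν i)) z := by
  by_cases h : z ∈ tsupport (P.χ i)
  · have h1 : ContDiffAt ℝ ∞ (fun w => J0 (w + t * P.ν i)) z :=
      (hJ _ (hz i h)).comp z (contDiffAt_id.add contDiffAt_const)
    exact (P.smooth i).contDiffAt.smul h1
  · have h1 : (fun w => P.χ i w • J0 (w + t * P.ν i)) =ᶠ[𝓝 z] fun _ => 0 := by
      filter_upwards [(isClosed_tsupport (P.χ i)).isOpen_compl.mem_nhds h] with y hy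
      rw [image_eq_zero_of_notMem_tsupport hy, zero_smul]
    exact contDiffAt_const.congr_of_eventuallyEq h1

theorem J_smooth {J0 : ℂ → ℂ} (hJ : ∀ z ∈ D, ContDiffAt ℝ ∞ J0 z) {t : ℝ} {z : ℂ}
    (hz : z ∈ P.N t) : ContDiffAt ℝ ∞ (P.J J0 t) z := by
  exact ContDiffAt.sum fun i _ => P.term_smooth hJ hz i

theorem term_dv {J0 : ℂ → ℂ} (hJ : ∀ z ∈ D, ContDiffAt ℝ ∞ J0 z) {f : ℂ → ℝ}
    (hdv : ∀ z ∈ D, dv J0 z = f z) {t : ℝ} {z : ℂ} (hz : z ∈ P.N t) (i : P.ι) :
    dv (fun w => P.χ i w • J0 (w + t * P.ν i)) z =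
      P.χ i z * f (z + t * P.ν i) + (conj (gr (P.χ i) z) * J0 (z + t * P.ν i)).re := by
  by_cases h : z ∈ tsupport (P.χ i)
  · have h1 : ContDiffAt ℝ ∞ (fun w => J0 (w + t * P.ν i)) z :=
      (hJ _ (hz i h)).comp z (contDiffAt_id.add contDiffAt_const)
    rw [dv_smul ((P.smooth i).differentiable (by simp) z) (h1.differentiableAt (by simp))]
    have h2 : dv (fun w => J0 (w + t * P.ν i)) z = dv J0 (z + t * P.ν i) := by
      unfold dv
      rw [fderiv_comp_add_right]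
    rw [h2, hdv _ (hz i h)]
  · have h1 : (fun w => P.χ i w • J0 (w + t * P.ν i)) =ᶠ[𝓝 z] fun _ => 0 := by
      filter_upwards [(isClosed_tsupport (P.χ i)).isOpen_compl.mem_nhds h] with y hy
      rw [image_eq_zero_of_notMem_tsupport hy, zero_smul]
    have h2 : P.χ i =ᶠ[𝓝 z] fun _ => (0 : ℝ) := by
      filter_upwards [(isClosed_tsupport (P.χ i)).isOpen_compl.mem_nhds h] with y hy
      exact image_eq_zero_of_notMem_tsupport hy
    rw [dv_congr h1, image_eq_zero_of_notMem_tsupport h]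
    have h3 : gr (P.χ i) z = 0 := by
      unfold gr
      rw [h2.fderiv_eq]
      apply Complex.ext <;> simp
    rw [h3]
    unfold dv
    simp

theorem dv_J {J0 : ℂ → ℂ} (hJ : ∀ z ∈ D, ContDiffAt ℝ ∞ J0 z) {f : ℂ → ℝ}
    (hdv : ∀ z ∈ D, dv J0 z = f z) {t : ℝ} {z : ℂ} (hz : z ∈ P.N t) :
      dv (P.J J0 t) z = ∑ i, (P.χ i z * f (z + t * P.ν i) +
      (conj (gr (P.χ i) z) * J0 (z + t * P.ν i)).re) := by
  have h1 : dv (P.J J0 t) z = ∑ i, dv (fun w => P.χ i w • J0 (w + t * P.ν i)) z :=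
    dv_sum Finset.univ (J := fun i w => P.χ i w • J0 (w + t * P.ν i)) fun i _ =>
      (P.term_smooth hJ hz i).differentiableAt (by simp)
  rw [h1]
  exact Finset.sum_congr rfl fun i _ => P.term_dv hJ hdv hz i

/-- square density of the field inside `D` -/
def G2 (D : Set ℂ) (J0 : ℂ → ℂ) : ℂ → ℝ := D.indicator fun z => ‖J0 z‖ ^ 2

theorem G2_nonneg (J0 : ℂ → ℂ) (z : ℂ) : 0 ≤ G2 D J0 z := indicator_nonneg (fun _ _ => by positivity) _

/-- number of patches -/
def n : ℝ := (Fintype.card P.ι : ℝ)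

theorem n_nonneg : 0 ≤ P.n := by unfold n; positivity

/-- the sum of the shifted square densities -/
def S (J0 : ℂ → ℂ) (t : ℝ) (z : ℂ) : ℝ := ∑ i, G2 D J0 (z + t * P.ν i)

theorem S_nonneg (J0 : ℂ → ℂ) (t : ℝ) (z : ℂ) : 0 ≤ P.S J0 t z := by
  exact Finset.sum_nonneg fun i _ => G2_nonneg _ _

theorem bound1 {J0 : ℂ → ℂ} {t : ℝ} (ht : 0 < t) (ht0 : t < P.t0) {z : ℂ} (hz : z ∈ closure D) :
    ‖P.J J0 t z‖ ^ 2 ≤ P.n * P.S J0 t z := by
  have h1 : ‖P.J J0 t z‖ ≤ ∑ i, ‖P.χ i z • J0 (z + t * P.ν i)‖ := norm_sum_le _ _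
  have h2 : (∑ i, ‖P.χ i z • J0 (z + t * P.ν i)‖) ^ 2 ≤
      P.n * ∑ i, ‖P.χ i z • J0 (z + t * P.ν i)‖ ^ 2 := by
    have := sq_sum_le_card_mul_sum_sq (s := (Finset.univ : Finset P.ι))
      (f := fun i => ‖P.χ i z • J0 (z + t * P.ν i)‖)
    simpa [n] using this
  refine (pow_le_pow_left₀ (norm_nonneg _) h1 2).trans (h2.trans ?_)
  refine mul_le_mul_of_nonneg_left (Finset.sum_le_sum fun i _ => ?_) P.n_nonneg
  by_cases h : z ∈ tsupport (P.χ i)
  · have h3 := P.push i z hz h t ht ht0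
    unfold G2
    rw [indicator_of_mem h3, norm_smul, mul_pow, Real.norm_eq_abs, abs_of_nonneg (P.nonneg i z)]
    have h4 : P.χ i z ^ 2 ≤ 1 := pow_le_one₀ (P.nonneg i z) (P.le_one i z)
    nlinarith [sq_nonneg ‖J0 (z + t * P.ν i)‖]
  · rw [image_eq_zero_of_notMem_tsupport h, zero_smul, norm_zero]
    simpa using G2_nonneg (D := D) J0 (z + t * P.ν i)

theorem exists_M : ∃ M : ℝ, 0 ≤ M ∧ ∀ i z, ‖fderiv ℝ (P.χ i) z‖ ≤ M := by
  have h1 : ∀ i, ∃ C : ℝ, ∀ z, ‖fderiv ℝ (P.χ i) z‖ ≤ C := fun i =>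
    ((P.smooth i).continuous_fderiv (by simp)).bounded_above_of_compact_support
      ((P.comp i).fderiv (𝕜 := ℝ))
  choose C hC using h1
  refine ⟨∑ i, |C i|, Finset.sum_nonneg fun i _ => abs_nonneg _, fun i z => ?_⟩
  exact ((hC i z).trans (le_abs_self _)).trans
    (Finset.single_le_sum (f := fun i => |C i|) (fun i _ => abs_nonneg _) (Finset.mem_univ i))

theorem bound2 {J0 : ℂ → ℂ} (hJ : ∀ z ∈ D, ContDiffAt ℝ ∞ J0 z) {f : ℂ → ℝ}
    (hdv : ∀ z ∈ D, dv J0 z = f z) {M : ℝ} (hM : ∀ i z, ‖fderiv ℝ (P.χ i) z‖ ≤ M)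
    {t : ℝ} (ht : 0 < t) (ht0 : t < P.t0) {om : ℝ}
    (hom : ∀ i z, |f (z + t * P.ν i) - f z| ≤ om) {z : ℂ} (hz : z ∈ closure D) :
    (dv (P.J J0 t) z - f z) ^ 2 ≤ 2 * om ^ 2 + 2 * M ^ 2 * (P.n * P.S J0 t z) := by
  have h1 := P.dv_J hJ hdv (P.closure_sub_N ht ht0 hz)
  have h2 : dv (P.J J0 t) z - f z = (∑ i, P.χ i z * (f (z + t * P.ν i) - f z)) +
      ∑ i, (conj (gr (P.χ i) z) * J0 (z + t * P.ν i)).re := by
    rw [h1, Finset.sum_add_distrib]
    simp only [mul_sub, Finset.sum_sub_distrib]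
    rw [← Finset.sum_mul, P.sum z hz]
    ring
  have h3 : |∑ i, P.χ i z * (f (z + t * P.ν i) - f z)| ≤ om := by
    calc |∑ i, P.χ i z * (f (z + t * P.ν i) - f z)|
        ≤ ∑ i, |P.χ i z * (f (z + t * P.ν i) - f z)| := Finset.abs_sum_le_sum_abs _ _
      _ ≤ ∑ i, P.χ i z * om := by
          refine Finset.sum_le_sum fun i _ => ?_
          rw [abs_mul, abs_of_nonneg (P.nonneg i z)]
          exact mul_le_mul_of_nonneg_left (hom i z) (P.nonneg i z)
      _ = om := by rw [← Finset.sum_mul, P.sum z hz, one_mul]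
  have h4 : (∑ i, (conj (gr (P.χ i) z) * J0 (z + t * P.ν i)).re) ^ 2 ≤
      M ^ 2 * (P.n * P.S J0 t z) := by
    have h5 := sq_sum_le_card_mul_sum_sq (s := (Finset.univ : Finset P.ι))
      (f := fun i => (conj (gr (P.χ i) z) * J0 (z + t * P.ν i)).re)
    have h6 : ∀ i, (conj (gr (P.χ i) z) * J0 (z + t * P.ν i)).re ^ 2 ≤
        M ^ 2 * G2 D J0 (z + t * P.ν i) := by
      intro i
      by_cases h : z ∈ tsupport (P.χ i)
      · have h7 := P.push i z hz h t ht ht0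
        unfold G2
        rw [indicator_of_mem h7, ← mul_pow, ← sq_abs]
        refine pow_le_pow_left₀ (abs_nonneg _) ((Complex.abs_re_le_norm _).trans ?_) 2
        rw [norm_mul, RCLike.norm_conj, norm_gr]
        exact mul_le_mul_of_nonneg_right (hM i z) (norm_nonneg _)
      · have h8 : P.χ i =ᶠ[𝓝 z] fun _ => (0 : ℝ) := by
          filter_upwards [(isClosed_tsupport (P.χ i)).isOpen_compl.mem_nhds h] with y hy
          exact image_eq_zero_of_notMem_tsupport hy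
        have h9 : gr (P.χ i) z = 0 := by
          unfold gr
          rw [h8.fderiv_eq]
          apply Complex.ext <;> simp
        rw [h9]
        simp only [map_zero, zero_mul, Complex.zero_re, ne_eq, OfNat.ofNat_ne_zero,
          not_false_eq_true, zero_pow]
        exact mul_nonneg (sq_nonneg _) (G2_nonneg _ _)
    refine h5.trans ?_
    have h10 : ∑ i, (conj (gr (P.χ i) z) * J0 (z + t * P.ν i)).re ^ 2 ≤ M ^ 2 * P.S J0 t z := by
      unfold S
      rw [Finset.mul_sum]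
      exact Finset.sum_le_sum fun i _ => h6 i
    calc ((Finset.univ : Finset P.ι).card : ℝ) *
        ∑ i, (conj (gr (P.χ i) z) * J0 (z + t * P.ν i)).re ^ 2
        ≤ P.n * (M ^ 2 * P.S J0 t z) := by
          unfold n
          rw [Finset.card_univ]
          exact mul_le_mul_of_nonneg_left h10 (Nat.cast_nonneg _)
      _ = M ^ 2 * (P.n * P.S J0 t z) := by ring
  have h11 : (∑ i, P.χ i z * (f (z + t * P.ν i) - f z)) ^ 2 ≤ om ^ 2 := by
    rw [← sq_abs]
    exact pow_le_pow_left₀ (abs_nonneg _) h3 2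
  rw [h2]
  nlinarith [sq_nonneg ((∑ i, P.χ i z * (f (z + t * P.ν i) - f z)) -
    ∑ i, (conj (gr (P.χ i) z) * J0 (z + t * P.ν i)).re)]

theorem integrable_S (hD : IsOpen D) {J0 : ℂ → ℂ} (hint : IntegrableOn (fun z => ‖J0 z‖ ^ 2) D)
    (t : ℝ) : Integrable (P.S J0 t) := by
  have h1 : Integrable (G2 D J0) := (integrable_indicator_iff hD.measurableSet).2 hint
  exact integrable_finsetSum _ fun i _ => h1.comp_add_right (t * P.ν i)

theorem integral_S (hD : IsOpen D) {J0 : ℂ → ℂ} (hint : IntegrableOn (fun z => ‖J0 z‖ ^ 2) D)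
    (t : ℝ) : ∫ z, P.S J0 t z = P.n * ∫ z in D, ‖J0 z‖ ^ 2 := by
  have h1 : Integrable (G2 D J0) := (integrable_indicator_iff hD.measurableSet).2 hint
  unfold S
  rw [integral_finsetSum _ fun i _ => h1.comp_add_right (t * P.ν i)]
  have h2 : ∀ i, ∫ z, G2 D J0 (z + t * P.ν i) = ∫ z in D, ‖J0 z‖ ^ 2 := fun i => by
    rw [integral_add_right_eq_self (fun z => G2 D J0 z)]
    unfold G2
    rw [integral_indicator hD.measurableSet]
  simp only [h2]
  rw [Finset.sum_const, nsmul_eq_mul, Finset.card_univ]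
  rfl

end PushData

end

end Crest.Agent.R144.Con549
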