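import Crest.Agent.R144.Con8_549

/-!
# R144, continuum side, part 9 (helper549)

(C3): for a test function `f` on a `C¹` Jordan domain `D` there is a smooth vector field on `ℂ` with
divergence `f` on a neighbourhood `thickening r D`, with energy there at most
`C_D * domainGreenForm φ f + ε`.
-/

set_option autoImplicit false

open MeasureTheory Metric Set Filter Topology
open scoped ComplexConjugate ContDiff

namespace Crest.Agent.R144.Con549

open Crest.Agent.R161.Green722
open Crest.ProbabilityR.HexHeights (domainGreenForm)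

noncomputable section

theorem contDiffAt_dv {J : ℂ → ℂ} {z : ℂ} (hJ : ContDiffAt ℝ ∞ J z) : ContDiffAt ℝ ∞ (dv J) z := by
  have h1 : ∀ e : ℂ, ContDiffAt ℝ ∞ (fun w => fderiv ℝ J w e) z := fun e =>
    (hJ.fderiv_right (m := ∞) (by simp)).clm_apply contDiffAt_const
  exact ((Complex.reCLM.contDiff.contDiffAt).comp z (h1 1)).add
    ((Complex.imCLM.contDiff.contDiffAt).comp z (h1 Complex.I))

theorem sq_norm_sub_le (a b : ℂ) : ‖a - b‖ ^ 2 ≤ 2 * ‖a‖ ^ 2 + 2 * ‖b‖ ^ 2 := by
  have h1 := norm_sub_le a b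
  have h2 := pow_le_pow_left₀ (norm_nonneg _) h1 2
  nlinarith [sq_nonneg (‖a‖ - ‖b‖)]

set_option maxHeartbeats 800000 in
theorem push_flow {D : Set ℂ} (hD : IsOpen D) (hb : Bornology.IsBounded D) (P : PushData D) :
    ∃ C : ℝ, 0 ≤ C ∧ ∀ f : ℂ → ℝ, IsTest D f → ∀ J0 : ℂ → ℂ, (∀ z ∈ D, ContDiffAt ℝ ∞ J0 z) →
      (∀ z ∈ D, dv J0 z = f z) → IntegrableOn (fun z => ‖J0 z‖ ^ 2) D → ∀ ε : ℝ, 0 < ε →
      ∃ (r : ℝ) (J : ℂ → ℂ), 0 < r ∧ ContDiff ℝ ∞ J ∧ (∀ z ∈ thickening r (closure D), dv J z = f z) ∧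
        ∫ z in thickening r (closure D), ‖J z‖ ^ 2 ≤ C * (∫ z in D, ‖J0 z‖ ^ 2) + ε := by
  obtain ⟨M, hM0, hM⟩ := P.exists_M
  have hSc : IsCompact (closure D) := hb.isCompact_closure
  obtain ⟨R, hR, hRsub⟩ : ∃ R : ℝ, 0 < R ∧ cthickening 1 (closure D) ⊆ ball 0 R := by
    obtain ⟨R, hR⟩ := (hSc.isBounded.cthickening (δ := 1)).subset_ball 0
    exact ⟨max R 1, by positivity, hR.trans (ball_subset_ball (le_max_left _ _))⟩
  obtain ⟨CR, hCR, hLP⟩ := LP_grad_bound R hR
  set S := closure D with hS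
  set V := (volume : Measure ℂ).real S with hV
  have hV0 : 0 ≤ V := measureReal_nonneg
  have hn0 := P.n_nonneg
  refine ⟨2 * P.n ^ 2 + 4 * CR * M ^ 2 * P.n ^ 2, by positivity,
    fun f hf J0 hJ hdv hint ε hε => ?_⟩
  set E0 := ∫ z in D, ‖J0 z‖ ^ 2 with hE0
  have hE00 : 0 ≤ E0 := setIntegral_nonneg hD.measurableSet fun z _ => by positivity
  -- Lipschitz constant of `f`
  obtain ⟨L, hL⟩ := ContDiff.lipschitzWith_of_hasCompactSupport hf.comp
    (hf.smooth.of_le (by norm_cast : (1 : WithTop ℕ∞) ≤ ∞)) (by simp)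
  set νm := ∑ i, ‖P.ν i‖ with hνm
  have hνm0 : 0 ≤ νm := Finset.sum_nonneg fun i _ => norm_nonneg _
  -- choice of `t`
  obtain ⟨t, ht, ht0, htε⟩ : ∃ t : ℝ, 0 < t ∧ t < P.t0 ∧
      4 * CR * ((L : ℝ) * (t * νm)) ^ 2 * V < ε / 2 := by
    have h1 : Tendsto (fun t : ℝ => 4 * CR * ((L : ℝ) * (t * νm)) ^ 2 * V) (𝓝 0)
        (𝓝 (4 * CR * ((L : ℝ) * (0 * νm)) ^ 2 * V)) := by
      have : Continuous fun t : ℝ => 4 * CR * ((L : ℝ) * (t * νm)) ^ 2 * V := by fun_prop
      exact this.tendsto 0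
    have h2 : 4 * CR * ((L : ℝ) * (0 * νm)) ^ 2 * V < ε / 2 := by
      simp only [zero_mul, mul_zero, ne_eq, OfNat.ofNat_ne_zero, not_false_eq_true, zero_pow]
      linarith
    have h3 := h1.eventually (gt_mem_nhds h2)
    have h4 : ∀ᶠ t in 𝓝[>] (0 : ℝ), 4 * CR * ((L : ℝ) * (t * νm)) ^ 2 * V < ε / 2 :=
      nhdsWithin_le_nhds h3
    have h5 : ∀ᶠ t in 𝓝[>] (0 : ℝ), t < P.t0 :=
      nhdsWithin_le_nhds (gt_mem_nhds P.t0pos)
    obtain ⟨t, ⟨h6, h7⟩, h8⟩ := ((h4.and h5).and self_mem_nhdsWithin).exists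
    exact ⟨t, h8, h7, h6⟩
  set om := (L : ℝ) * (t * νm) with hom
  have hom0 : 0 ≤ om := by positivity
  have homb : ∀ i z, |f (z + t * P.ν i) - f z| ≤ om := by
    intro i z
    have h1 := hL.dist_le_mul (z + t * P.ν i) z
    rw [Real.dist_eq, dist_eq_norm, add_sub_cancel_left, norm_mul, Complex.norm_real,
      Real.norm_eq_abs, abs_of_pos ht] at h1
    refine h1.trans ?_
    rw [hom]
    have h2 : ‖P.ν i‖ ≤ νm :=
      Finset.single_le_sum (f := fun i => ‖P.ν i‖) (fun i _ => norm_nonneg _) (Finset.mem_univ i)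
    gcongr
  -- the pushed field
  set Jt := P.J J0 t with hJt
  set e : ℂ → ℝ := fun z => dv Jt z - f z with he
  have hNo : IsOpen (P.N t) := P.isOpen_N hD t
  have hSN : S ⊆ P.N t := P.closure_sub_N ht ht0
  have hJts : ∀ z ∈ P.N t, ContDiffAt ℝ ∞ Jt z := fun z hz => P.J_smooth hJ hz
  have hes : ∀ z ∈ P.N t, ContDiffAt ℝ ∞ e z := fun z hz =>
    (contDiffAt_dv (hJts z hz)).sub hf.smooth.contDiffAt
  obtain ⟨r0, hr0, hr0N⟩ := hSc.exists_cthickening_subset_open hNo hSN
  set r1 := min r0 1 with hr1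
  have hr10 : 0 < r1 := lt_min hr0 one_pos
  set K1 := cthickening r1 S with hK1
  have hK1c : IsCompact K1 := hSc.cthickening
  have hK1N : K1 ⊆ P.N t := (cthickening_mono (min_le_left _ _) S).trans hr0N
  have hK1R : K1 ⊆ ball 0 R := (cthickening_mono (min_le_right _ _) S).trans hRsub
  obtain ⟨B, hB0, hB1, hB2⟩ : ∃ B : ℝ, 0 ≤ B ∧ (∀ z ∈ K1, ‖Jt z‖ ≤ B) ∧ ∀ z ∈ K1, |e z| ≤ B := by
    have c1 : ContinuousOn Jt K1 := fun z hz => (hJts z (hK1N hz)).continuousAt.continuousWithinAt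
    have c2 : ContinuousOn e K1 := fun z hz => (hes z (hK1N hz)).continuousAt.continuousWithinAt
    obtain ⟨B1, hB1⟩ := hK1c.exists_bound_of_continuousOn c1
    obtain ⟨B2, hB2⟩ := hK1c.exists_bound_of_continuousOn c2
    refine ⟨max (max B1 B2) 0, le_max_right _ _, fun z hz => (hB1 z hz).trans ?_,
      fun z hz => (hB2 z hz).trans ?_⟩
    · exact (le_max_left _ _).trans (le_max_left _ _)
    · exact (le_max_right _ _).trans (le_max_left _ _)
  -- choice of `r2`
  obtain ⟨r2, hr2, hr21, hr2A⟩ : ∃ r2 : ℝ, 0 < r2 ∧ r2 < r1 ∧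
      (2 + 2 * CR) * B ^ 2 * ((volume : Measure ℂ).real (cthickening r2 S \ S)) < ε / 2 := by
    have h1 := tendsto_measure_cthickening_of_isCompact (μ := (volume : Measure ℂ)) hSc
    have hfin : ∀ r : ℝ, (volume : Measure ℂ) (cthickening r S) ≠ ⊤ := fun r =>
      (hSc.cthickening (r := r)).measure_lt_top.ne
    have h2 : Tendsto (fun r => (volume : Measure ℂ).real (cthickening r S)) (𝓝 0) (𝓝 V) :=
      (ENNReal.tendsto_toReal hSc.measure_lt_top.ne).comp h1
    have h3 : Tendsto (fun r => (2 + 2 * CR) * B ^ 2 *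
        ((volume : Measure ℂ).real (cthickening r S) - V)) (𝓝 0) (𝓝 ((2 + 2 * CR) * B ^ 2 *
        (V - V))) := (h2.sub_const V).const_mul _
    rw [sub_self, mul_zero] at h3
    have h4 : ∀ᶠ r in 𝓝[>] (0 : ℝ), (2 + 2 * CR) * B ^ 2 *
        ((volume : Measure ℂ).real (cthickening r S) - V) < ε / 2 :=
      nhdsWithin_le_nhds (h3.eventually (gt_mem_nhds (by linarith)))
    have h5 : ∀ᶠ r in 𝓝[>] (0 : ℝ), r < r1 := nhdsWithin_le_nhds (gt_mem_nhds hr10)
    obtain ⟨r, ⟨h6, h7⟩, h8⟩ := ((h4.and h5).and self_mem_nhdsWithin).exists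
    refine ⟨r, h8, h7, ?_⟩
    rw [measureReal_sdiff (self_subset_cthickening S) hSc.isClosed.measurableSet (hfin r)]
    exact h6
  set A := cthickening r2 S \ S with hA
  have hAm : MeasurableSet A := isClosed_cthickening.measurableSet.diff hSc.isClosed.measurableSet
  have hAfin : (volume : Measure ℂ) A ≠ ⊤ :=
    ((measure_mono sdiff_subset).trans_lt (hSc.cthickening (r := r2)).measure_lt_top).ne
  set VA := (volume : Measure ℂ).real A with hVA
  set r3 := r2 / 2 with hr3
  have hr30 : 0 < r3 := by positivity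
  have hr32 : r3 < r2 := by rw [hr3]; linarith
  obtain ⟨θ, hθs, hθb, hθ1, hθ0⟩ := exists_cutoff S hr32 hr30
  have hθsupp : tsupport θ ⊆ cthickening r2 S := by
    refine closure_minimal (fun z hz => ?_) isClosed_cthickening
    by_contra h
    exact hz (hθ0 z fun h' => h (thickening_subset_cthickening r2 S h'))
  have hc2K : cthickening r2 S ⊆ K1 := cthickening_mono hr21.le S
  have hθc : HasCompactSupport θ :=
    (hSc.cthickening (r := r2)).of_isClosed_subset (isClosed_tsupport _) hθsupp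
  -- products with the cutoff are smooth
  have hprod : ∀ {F : Type} [NormedAddCommGroup F] [NormedSpace ℝ F] (u : ℂ → F),
      (∀ z ∈ P.N t, ContDiffAt ℝ ∞ u z) → ContDiff ℝ ∞ fun z => θ z • u z := by
    intro F _ _ u hu
    rw [contDiff_iff_contDiffAt]
    intro z
    by_cases hz : z ∈ tsupport θ
    · exact hθs.contDiffAt.smul (hu z (hK1N (hc2K (hθsupp hz))))
    · have : (fun z => θ z • u z) =ᶠ[𝓝 z] fun _ => 0 := by
        filter_upwards [(isClosed_tsupport θ).isOpen_compl.mem_nhds hz] with y hy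
        rw [image_eq_zero_of_notMem_tsupport hy, zero_smul]
      exact contDiffAt_const.congr_of_eventuallyEq this
  set g : ℂ → ℝ := fun z => θ z • e z with hg
  have hgt : IsTest (ball 0 R) g := by
    refine ⟨hprod e hes, hθc.smul_right, ?_⟩
    refine ((closure_mono fun z hz => ?_).trans hθsupp).trans (hc2K.trans hK1R)
    intro hz'
    exact hz (by simp only [hg, hz', zero_smul])
  set K : ℂ → ℂ := gr (LP g) with hK
  have hLPs : ContDiff ℝ ∞ (LP g) := contDiff_LP hgt.smooth hgt.comp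
  have hKs : ContDiff ℝ ∞ K := contDiff_iff_contDiffAt.2 fun z => contDiffAt_gr hLPs.contDiffAt
  have hdvK : ∀ z, dv K z = g z := fun z => by
    rw [hK, dv_gr hLPs.contDiffAt, lap_LP hgt.smooth hgt.comp]
  have hθJ : ContDiff ℝ ∞ fun z => θ z • Jt z := hprod Jt hJts
  have hthS : thickening r3 S ⊆ K1 :=
    (thickening_subset_cthickening r3 S).trans ((cthickening_mono hr32.le S).trans hc2K)
  refine ⟨r3, fun z => θ z • Jt z - K z, hr30, hθJ.sub hKs, fun z hz => ?_, ?_⟩
  · rw [dv_sub (hθJ.differentiable (by simp) z) (hKs.differentiable (by simp) z), hdvK]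
    have h1 : (fun z => θ z • Jt z) =ᶠ[𝓝 z] Jt := by
      filter_upwards [isOpen_thickening.mem_nhds hz] with y hy
      rw [hθ1 y hy, one_smul]
    rw [dv_congr h1]
    simp only [hg, he]
    rw [hθ1 z hz, one_smul]
    ring
  · -- energy of `g`
    have hSint := P.integrable_S hD hint t
    have hSeq := P.integral_S hD hint t
    have hindA : Integrable (A.indicator fun _ => B ^ 2) :=
      (integrable_indicator_iff hAm).2 (integrableOn_const hAfin)
    have hindS : Integrable (S.indicator fun _ => 2 * om ^ 2) :=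
      (integrable_indicator_iff hSc.isClosed.measurableSet).2
        (integrableOn_const hSc.measure_lt_top.ne)
    have iA : ∫ z, A.indicator (fun _ => B ^ 2) z = B ^ 2 * VA := by
      rw [integral_indicator hAm, setIntegral_const, smul_eq_mul, mul_comm]
    have iS : ∫ z, S.indicator (fun _ => 2 * om ^ 2) z = 2 * om ^ 2 * V := by
      rw [integral_indicator hSc.isClosed.measurableSet, setIntegral_const, smul_eq_mul, mul_comm]
    have hSn := fun z => P.S_nonneg J0 t z
    have hgE : ∫ z, g z ^ 2 ≤ 2 * om ^ 2 * V + 2 * M ^ 2 * (P.n * (P.n * E0)) + B ^ 2 * VA := by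
      have h1 : Integrable fun z => (S.indicator (fun _ => 2 * om ^ 2) z +
          2 * M ^ 2 * (P.n * P.S J0 t z)) + A.indicator (fun _ => B ^ 2) z :=
        (hindS.add ((hSint.const_mul _).const_mul _)).add hindA
      have h2 : ∫ z, ((S.indicator (fun _ => 2 * om ^ 2) z +
          2 * M ^ 2 * (P.n * P.S J0 t z)) + A.indicator (fun _ => B ^ 2) z) =
          2 * om ^ 2 * V + 2 * M ^ 2 * (P.n * (P.n * E0)) + B ^ 2 * VA := by
        have h3 : Integrable fun z => (S.indicator (fun _ => 2 * om ^ 2) z +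
          2 * M ^ 2 * (P.n * P.S J0 t z)) := hindS.add ((hSint.const_mul _).const_mul _)
        rw [integral_add h3 hindA, integral_add hindS ((hSint.const_mul _).const_mul _),
          integral_const_mul, integral_const_mul, iA, iS, hSeq]
      rw [← h2]
      refine integral_mono_of_nonneg (Eventually.of_forall fun z => sq_nonneg _) h1
        (Eventually.of_forall fun z => ?_)
      simp only
      have hgz : g z ^ 2 ≤ e z ^ 2 := by
        simp only [hg, smul_eq_mul]
        rw [mul_pow]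
        have : θ z ^ 2 ≤ 1 := pow_le_one₀ (hθb z).1 (hθb z).2
        nlinarith [sq_nonneg (e z)]
      by_cases hzS : z ∈ S
      · rw [indicator_of_mem hzS]
        have h4 := P.bound2 hJ hdv hM ht ht0 homb hzS
        have h5 : (0 : ℝ) ≤ A.indicator (fun _ => B ^ 2) z :=
          indicator_nonneg (fun _ _ => by positivity) _
        have h6 : e z ^ 2 ≤ 2 * om ^ 2 + 2 * M ^ 2 * (P.n * P.S J0 t z) := h4
        linarith
      · rw [indicator_of_notMem hzS]
        by_cases hzc : z ∈ cthickening r2 S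
        · rw [indicator_of_mem (show z ∈ A from ⟨hzc, hzS⟩)]
          have h4 := hB2 z (hc2K hzc)
          have h5 : e z ^ 2 ≤ B ^ 2 := by
            rw [← sq_abs]
            exact pow_le_pow_left₀ (abs_nonneg _) h4 2
          have h6 : 0 ≤ 2 * M ^ 2 * (P.n * P.S J0 t z) :=
            mul_nonneg (by positivity) (mul_nonneg hn0 (hSn z))
          linarith
        · have h4 : θ z = 0 := hθ0 z fun h' => hzc (thickening_subset_cthickening r2 S h')
          have h5 : g z = 0 := by simp only [hg, h4, zero_smul]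
          have h6 : 0 ≤ 2 * M ^ 2 * (P.n * P.S J0 t z) :=
            mul_nonneg (by positivity) (mul_nonneg hn0 (hSn z))
          have h7 : (0 : ℝ) ≤ A.indicator (fun _ => B ^ 2) z :=
            indicator_nonneg (fun _ _ => by positivity) _
          rw [h5]
          nlinarith
    have hKE := hLP g hgt
    -- energy of the final field
    have hKc : Continuous fun z => ‖fderiv ℝ (LP g) z‖ ^ 2 :=
      ((hLPs.continuous_fderiv (by simp)).norm).pow 2
    have hindK : Integrable ((ball (0 : ℂ) R).indicator fun z => ‖fderiv ℝ (LP g) z‖ ^ 2) :=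
      (integrable_indicator_iff isOpen_ball.measurableSet).2
        ((hKc.continuousOn.integrableOn_compact (isCompact_closedBall (0 : ℂ) R)).mono_set
          ball_subset_closedBall)
    have iK : ∫ z, (ball (0 : ℂ) R).indicator (fun z => ‖fderiv ℝ (LP g) z‖ ^ 2) z =
        ∫ z in ball (0 : ℂ) R, ‖fderiv ℝ (LP g) z‖ ^ 2 :=
      integral_indicator isOpen_ball.measurableSet
    have hfin : ∫ z in thickening r3 S, ‖θ z • Jt z - K z‖ ^ 2 ≤
        2 * (P.n * (P.n * E0) + B ^ 2 * VA) +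
          2 * ∫ z in ball (0 : ℂ) R, ‖fderiv ℝ (LP g) z‖ ^ 2 := by
      have h1 : Integrable fun z => 2 * (P.n * P.S J0 t z + A.indicator (fun _ => B ^ 2) z) +
          2 * (ball (0 : ℂ) R).indicator (fun z => ‖fderiv ℝ (LP g) z‖ ^ 2) z :=
        (((hSint.const_mul _).add hindA).const_mul 2).add (hindK.const_mul 2)
      have h2 : ∫ z, (2 * (P.n * P.S J0 t z + A.indicator (fun _ => B ^ 2) z) +
          2 * (ball (0 : ℂ) R).indicator (fun z => ‖fderiv ℝ (LP g) z‖ ^ 2) z) =
          2 * (P.n * (P.n * E0) + B ^ 2 * VA) +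
          2 * ∫ z in ball (0 : ℂ) R, ‖fderiv ℝ (LP g) z‖ ^ 2 := by
        have h3 : Integrable fun z => P.n * P.S J0 t z + A.indicator (fun _ => B ^ 2) z :=
          (hSint.const_mul _).add hindA
        rw [integral_add (h3.const_mul 2) (hindK.const_mul 2), integral_const_mul,
          integral_const_mul, integral_add (hSint.const_mul _) hindA, integral_const_mul, iA, iK,
          hSeq]
      rw [← h2, ← integral_indicator isOpen_thickening.measurableSet]
      refine integral_mono_of_nonneg (Eventually.of_forall fun z => indicator_nonneg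
        (fun _ _ => by positivity) _) h1 (Eventually.of_forall fun z => ?_)
      simp only
      have hA0 : (0 : ℝ) ≤ A.indicator (fun _ => B ^ 2) z :=
        indicator_nonneg (fun _ _ => by positivity) _
      have hK0 : (0 : ℝ) ≤ (ball (0 : ℂ) R).indicator (fun z => ‖fderiv ℝ (LP g) z‖ ^ 2) z :=
        indicator_nonneg (fun _ _ => by positivity) _
      have hS0 : 0 ≤ P.n * P.S J0 t z := mul_nonneg hn0 (hSn z)
      by_cases hz : z ∈ thickening r3 S
      · rw [indicator_of_mem hz, indicator_of_mem (hK1R (hthS hz))]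
        have h4 := sq_norm_sub_le (θ z • Jt z) (K z)
        have h5 : ‖θ z • Jt z‖ ^ 2 ≤ ‖Jt z‖ ^ 2 := by
          rw [norm_smul, mul_pow, Real.norm_eq_abs, abs_of_nonneg (hθb z).1]
          have : θ z ^ 2 ≤ 1 := pow_le_one₀ (hθb z).1 (hθb z).2
          nlinarith [sq_nonneg ‖Jt z‖]
        have h6 : ‖Jt z‖ ^ 2 ≤ P.n * P.S J0 t z + A.indicator (fun _ => B ^ 2) z := by
          by_cases hzS : z ∈ S
          · exact (P.bound1 ht ht0 hzS).trans (le_add_of_nonneg_right hA0)
          · have hzA : z ∈ A :=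
              ⟨(cthickening_mono hr32.le S) (thickening_subset_cthickening r3 S hz), hzS⟩
            rw [indicator_of_mem hzA]
            have := pow_le_pow_left₀ (norm_nonneg _) (hB1 z (hthS hz)) 2
            linarith
        have h7 : ‖K z‖ ^ 2 = ‖fderiv ℝ (LP g) z‖ ^ 2 := by rw [hK, norm_gr]
        rw [h7] at h4
        linarith
      · rw [indicator_of_notMem hz]
        linarith
    refine hfin.trans ?_
    have h8 : 2 * ∫ z in ball (0 : ℂ) R, ‖fderiv ℝ (LP g) z‖ ^ 2 ≤
        2 * (CR * (2 * om ^ 2 * V + 2 * M ^ 2 * (P.n * (P.n * E0)) + B ^ 2 * VA)) := by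
      have := mul_le_mul_of_nonneg_left hgE hCR
      linarith
    have h9 : 4 * CR * om ^ 2 * V < ε / 2 := htε
    have h10 : (2 + 2 * CR) * B ^ 2 * VA < ε / 2 := hr2A
    nlinarith

/-- (C3) -/
theorem exists_flow {D : Set ℂ} {γ : ℝ → ℂ} (h : Crest.Agent.R144.Geo268.Dom D γ) {φ : ℂ → ℂ}
    (hφ : DifferentiableOn ℂ φ D) (hbij : BijOn φ D (ball 0 1)) :
    ∃ C : ℝ, 0 ≤ C ∧ ∀ f : ℂ → ℝ, IsTest D f → ∀ ε : ℝ, 0 < ε →
      ∃ (r : ℝ) (J : ℂ → ℂ), 0 < r ∧ ContDiff ℝ ∞ J ∧ (∀ z ∈ thickening r D, dv J z = f z) ∧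
        ∫ z in thickening r D, ‖J z‖ ^ 2 ≤ C * domainGreenForm φ f + ε := by
  obtain ⟨P⟩ := exists_pushData h
  obtain ⟨ψ, B⟩ := exists_bih h.op hφ hbij
  obtain ⟨C, hC, H⟩ := push_flow h.op h.bdd P
  refine ⟨C, hC, fun f hf ε hε => ?_⟩
  obtain ⟨J0, h1, h2, h3, h4⟩ := exists_J0 B hf
  obtain ⟨r, J, h5, h6, h7, h8⟩ := H f hf J0 h1 h2 h3 ε hε
  rw [thickening_closure] at h7 h8
  refine ⟨r, J, h5, h6, h7, h8.trans ?_⟩
  have := mul_le_mul_of_nonneg_left h4 hC
  linarith

end

end Crest.Agent.R144.Con549
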