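import Crest.Agent.R144.Con6_549
import Crest.Agent.R144.Push_938

/-!
# R144, continuum side: flows on a neighbourhood of the closure, sharp constant (helper938)
-/

set_option autoImplicit false

open MeasureTheory Metric Set Filter Topology Laplacian InnerProductSpace
open scoped ComplexConjugate ContDiff

namespace Crest.Agent.R144.ConP938

open Crest.Agent.R144.Con549 Crest.Agent.R144.Push938
open Crest.ProbabilityR.HexHeights (domainGreenForm)

noncomputable section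

/-! ### divergence in coordinates -/

theorem hasFDerivAt_mk {p q : ℂ → ℝ} {P Q : ℂ →L[ℝ] ℝ} {z : ℂ} (hp : HasFDerivAt p P z)
    (hq : HasFDerivAt q Q z) :
    HasFDerivAt (fun w => (⟨p w, q w⟩ : ℂ)) (P.smulRight (1 : ℂ) + Q.smulRight Complex.I) z := by
  have h := (hp.smul_const (1 : ℂ)).add (hq.smul_const Complex.I)
  refine h.congr_of_eventuallyEq (Eventually.of_forall fun w => ?_)
  apply Complex.ext <;> simp

theorem dv_mk {p q : ℂ → ℝ} {P Q : ℂ →L[ℝ] ℝ} {z : ℂ} (hp : HasFDerivAt p P z)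
    (hq : HasFDerivAt q Q z) : dv (fun w => (⟨p w, q w⟩ : ℂ)) z = P 1 + Q Complex.I := by
  unfold dv
  rw [(hasFDerivAt_mk hp hq).fderiv]
  simp

theorem hasFDerivAt_cr {a b : ℂ → ℂ} {A B : ℂ →L[ℝ] ℂ} {z : ℂ} (ha : HasFDerivAt a A z)
    (hb : HasFDerivAt b B z) : ∃ L : ℂ →L[ℝ] ℝ, HasFDerivAt (fun w => cr (a w) (b w)) L z ∧
      ∀ v, L v = cr (A v) (b z) + cr (a z) (B v) := by
  have har := Complex.reCLM.hasFDerivAt.comp z ha
  have hai := Complex.imCLM.hasFDerivAt.comp z ha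
  have hbr := Complex.reCLM.hasFDerivAt.comp z hb
  have hbi := Complex.imCLM.hasFDerivAt.comp z hb
  have h := (har.mul hbi).sub (hai.mul hbr)
  refine ⟨_, h, fun v => ?_⟩
  simp [cr]
  ring

/-! ### Piola transform -/

/-- pull back of the 1-form `cr J ·` by `Θ`. -/
def pio (Θ J : ℂ → ℂ) (z : ℂ) : ℂ :=
  ⟨cr (J (Θ z)) (fderiv ℝ Θ z Complex.I), -cr (J (Θ z)) (fderiv ℝ Θ z 1)⟩

theorem cr_trace (L : ℂ →L[ℝ] ℂ) (a b : ℂ) :
    cr (L a) b + cr a (L b) = ((L 1).re + (L Complex.I).im) * cr a b := by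
  have h : ∀ v : ℂ, L v = v.re • L 1 + v.im • L Complex.I := fun v => by
    have : v = v.re • (1 : ℂ) + v.im • Complex.I := by
      apply Complex.ext <;> simp
    conv_lhs => rw [this]
    rw [map_add, map_smul, map_smul]
  rw [h a, h b]
  unfold cr
  simp
  ring

theorem dv_pio {Θ J : ℂ → ℂ} {z : ℂ} (hΘ : ContDiffAt ℝ ∞ Θ z)
    (hJ : DifferentiableAt ℝ J (Θ z)) :
    dv (pio Θ J) z = dv J (Θ z) * cr (fderiv ℝ Θ z 1) (fderiv ℝ Θ z Complex.I) := by
  have hΘd : HasFDerivAt Θ (fderiv ℝ Θ z) z := (hΘ.differentiableAt (by simp)).hasFDerivAt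
  have ha : HasFDerivAt (fun w => J (Θ w)) ((fderiv ℝ J (Θ z)).comp (fderiv ℝ Θ z)) z :=
    hJ.hasFDerivAt.comp z hΘd
  have hfd : DifferentiableAt ℝ (fderiv ℝ Θ) z :=
    (hΘ.fderiv_right (m := ∞) (by simp)).differentiableAt (by simp)
  have hb : ∀ e : ℂ, HasFDerivAt (fun w => fderiv ℝ Θ w e)
      ((fderiv ℝ (fderiv ℝ Θ) z).flip e) z := by
    intro e
    have := hfd.hasFDerivAt.clm_apply (hasFDerivAt_const e z)
    simpa using this
  obtain ⟨L1, hL1, hL1v⟩ := hasFDerivAt_cr ha (hb Complex.I)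
  obtain ⟨L2, hL2, hL2v⟩ := hasFDerivAt_cr ha (hb 1)
  have hsym : fderiv ℝ (fderiv ℝ Θ) z 1 Complex.I = fderiv ℝ (fderiv ℝ Θ) z Complex.I 1 := by
    have : IsSymmSndFDerivAt ℝ Θ z := (hΘ.of_le (by norm_cast : (2 : WithTop ℕ∞) ≤ ∞)).isSymmSndFDerivAt (by simp)
    exact this 1 Complex.I
  have this : dv (pio Θ J) z = L1 1 + (-L2) Complex.I := dv_mk hL1 hL2.neg
  rw [this]
  simp only [ContinuousLinearMap.neg_apply, hL1v, hL2v, ContinuousLinearMap.coe_comp',
    Function.comp_apply, ContinuousLinearMap.flip_apply]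
  rw [hsym]
  have ht := cr_trace (fderiv ℝ J (Θ z)) (fderiv ℝ Θ z 1) (fderiv ℝ Θ z Complex.I)
  unfold dv
  rw [← ht]
  unfold cr
  ring

theorem contDiffAt_pio {Θ J : ℂ → ℂ} {z : ℂ} (hΘ : ContDiffAt ℝ ∞ Θ z)
    (hJ : ContDiffAt ℝ ∞ J (Θ z)) : ContDiffAt ℝ ∞ (pio Θ J) z := by
  have hc : ContDiffAt ℝ ∞ (fun w => J (Θ w)) z := hJ.comp z hΘ
  have hb : ∀ e : ℂ, ContDiffAt ℝ ∞ (fun w => fderiv ℝ Θ w e) z := fun e =>
    (hΘ.fderiv_right (m := ∞) (by simp)).clm_apply contDiffAt_const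
  have hcr : ∀ e : ℂ, ContDiffAt ℝ ∞ (fun w => cr (J (Θ w)) (fderiv ℝ Θ w e)) z := fun e => by
    unfold cr
    have r1 := Complex.reCLM.contDiff.contDiffAt.comp z hc
    have i1 := Complex.imCLM.contDiff.contDiffAt.comp z hc
    have r2 := Complex.reCLM.contDiff.contDiffAt.comp z (hb e)
    have i2 := Complex.imCLM.contDiff.contDiffAt.comp z (hb e)
    exact (r1.mul i2).sub (i1.mul r2)
  have h := ((hcr Complex.I).smul (contDiffAt_const (c := (1 : ℂ)))).add
    (((hcr 1).neg).smul (contDiffAt_const (c := Complex.I)))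
  refine h.congr_of_eventuallyEq (Eventually.of_forall fun w => ?_)
  apply Complex.ext <;> simp [pio]

/-! ### determinants -/

theorem cr_eq_det (L : ℂ →L[ℝ] ℂ) : cr (L 1) (L Complex.I) = L.det := by
  rw [ContinuousLinearMap.det, ← LinearMap.det_toMatrix Complex.basisOneI, Matrix.det_fin_two]
  simp [LinearMap.toMatrix_apply, Complex.coe_basisOneI_repr, cr]
  ring

theorem abs_cr_sub_one_le {δ : ℝ} (hδ : 0 ≤ δ) (hδ1 : δ ≤ 1) {L : ℂ →L[ℝ] ℂ}
    (h : ‖L - ContinuousLinearMap.id ℝ ℂ‖ ≤ δ) :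
    |cr (L 1) (L Complex.I) - 1| ≤ 6 * δ := by
  have h1 : ‖L 1 - 1‖ ≤ δ := by
    have := (L - ContinuousLinearMap.id ℝ ℂ).le_opNorm 1
    simp at this
    exact this.trans h
  have h2 : ‖L Complex.I - Complex.I‖ ≤ δ := by
    have := (L - ContinuousLinearMap.id ℝ ℂ).le_opNorm Complex.I
    simp at this
    exact this.trans h
  have e : cr (L 1) (L Complex.I) - 1 = (L 1 - 1).re + (L Complex.I - Complex.I).im +
      cr (L 1 - 1) (L Complex.I - Complex.I) := by
    unfold cr; simp; ring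
  rw [e]
  have h3 := Complex.abs_re_le_norm (L 1 - 1)
  have h4 := Complex.abs_im_le_norm (L Complex.I - Complex.I)
  have h5 := abs_cr_le (L 1 - 1) (L Complex.I - Complex.I)
  have h6 : ‖L 1 - 1‖ * ‖L Complex.I - Complex.I‖ ≤ δ * 1 :=
    mul_le_mul h1 (h2.trans hδ1) (norm_nonneg _) hδ
  calc _ ≤ |(L 1 - 1).re + (L Complex.I - Complex.I).im| +
      |cr (L 1 - 1) (L Complex.I - Complex.I)| := abs_add_le _ _
    _ ≤ (|(L 1 - 1).re| + |(L Complex.I - Complex.I).im|) +
      |cr (L 1 - 1) (L Complex.I - Complex.I)| := by gcongr; exact abs_add_le _ _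
    _ ≤ 6 * δ := by linarith

theorem norm_pio_le {δ : ℝ} {Θ J : ℂ → ℂ} {z : ℂ}
    (h : ‖fderiv ℝ Θ z - ContinuousLinearMap.id ℝ ℂ‖ ≤ δ) :
    ‖pio Θ J z‖ ≤ (1 + 4 * δ) * ‖J (Θ z)‖ := by
  set L := fderiv ℝ Θ z with hL
  have h1 : ‖L 1 - 1‖ ≤ δ := by
    have := (L - ContinuousLinearMap.id ℝ ℂ).le_opNorm 1
    simp at this
    exact this.trans h
  have h2 : ‖L Complex.I - Complex.I‖ ≤ δ := by
    have := (L - ContinuousLinearMap.id ℝ ℂ).le_opNorm Complex.I
    simp at this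
    exact this.trans h
  set j := J (Θ z) with hj
  have e : pio Θ J z = j + (⟨cr j (L Complex.I - Complex.I), -cr j (L 1 - 1)⟩ : ℂ) := by
    unfold pio
    rw [← hL, ← hj]
    apply Complex.ext <;> simp [cr] <;> ring
  rw [e]
  have h5 := abs_cr_le j (L 1 - 1)
  have h6 := abs_cr_le j (L Complex.I - Complex.I)
  have h7 : ‖j‖ * ‖L 1 - 1‖ ≤ ‖j‖ * δ := by gcongr
  have h8 : ‖j‖ * ‖L Complex.I - Complex.I‖ ≤ ‖j‖ * δ := by gcongr
  have h9 := Complex.norm_le_abs_re_add_abs_im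
    (⟨cr j (L Complex.I - Complex.I), -cr j (L 1 - 1)⟩ : ℂ)
  simp only [abs_neg] at h9
  calc _ ≤ ‖j‖ + ‖(⟨cr j (L Complex.I - Complex.I), -cr j (L 1 - 1)⟩ : ℂ)‖ := norm_add_le _ _
    _ ≤ ‖j‖ + (|cr j (L Complex.I - Complex.I)| + |cr j (L 1 - 1)|) := by gcongr
    _ ≤ ‖j‖ + (2 * (‖j‖ * δ) + 2 * (‖j‖ * δ)) := by
        gcongr
        · linarith
        · linarith
    _ = _ := by ring

/-! ### Poincaré inequality and `L²` bound of the Green form -/

theorem poincare {R : ℝ} (hR : 0 < R) {u : ℂ → ℝ} (hu : IsTest (ball (0 : ℂ) R) u) :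
    ∫ z, u z ^ 2 ≤ 4 * R ^ 2 * ∫ z, ‖fderiv ℝ u z‖ ^ 2 := by
  have hud : Differentiable ℝ u := hu.smooth.differentiable (by simp)
  have hfc : Continuous (fderiv ℝ u) := hu.smooth.continuous_fderiv (by simp)
  have hfs : HasCompactSupport (fderiv ℝ u) := hu.comp.fderiv (𝕜 := ℝ)
  have hd : ∀ z, fderiv ℝ (fun w => u w ^ 2) z 1 = 2 * (u z * fderiv ℝ u z 1) := by
    intro z
    have := ((hud z).hasFDerivAt.pow 2).fderiv
    rw [this]
    simp
    ring
  have hre : ∀ z, fderiv ℝ (fun w : ℂ => w.re) z 1 = 1 := fun z => by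
    have : fderiv ℝ (fun w : ℂ => w.re) z = Complex.reCLM := Complex.reCLM.hasFDerivAt.fderiv
    rw [this]; simp
  have hcs1 : HasCompactSupport (fun z => u z ^ 2) := by
    have : (fun z => u z ^ 2) = fun z => u z * u z := by funext z; ring
    rw [this]; exact hu.comp.mul_left
  have hcs2 : HasCompactSupport (fun z => u z * fderiv ℝ u z 1) := hu.comp.mul_right
  have hc2 : Continuous (fun z => u z * fderiv ℝ u z 1) :=
    hu.smooth.continuous.mul (hfc.clm_apply continuous_const)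
  have key : ∫ z, u z ^ 2 * fderiv ℝ (fun w : ℂ => w.re) z 1 =
      -∫ z, fderiv ℝ (fun w => u w ^ 2) z 1 * z.re := by
    refine integral_mul_fderiv_eq_neg_fderiv_mul_of_integrable ?_ ?_ ?_
      (fun z _ => (hud z).pow 2) (fun z _ => Complex.reCLM.differentiableAt)
    · simp only [hd]
      refine Continuous.integrable_of_hasCompactSupport
        ((continuous_const.mul hc2).mul Complex.continuous_re) ?_
      exact (hcs2.mul_left (f := fun _ => (2 : ℝ))).mul_right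
    · simp only [hre, mul_one]
      exact (hu.smooth.continuous.pow 2).integrable_of_hasCompactSupport hcs1
    · exact ((hu.smooth.continuous.pow 2).mul
        Complex.continuous_re).integrable_of_hasCompactSupport hcs1.mul_right
  simp only [hre, mul_one, hd] at key
  have i1 : Integrable fun z => u z ^ 2 :=
    (hu.smooth.continuous.pow 2).integrable_of_hasCompactSupport hcs1
  have i2 : Integrable fun z => ‖fderiv ℝ u z‖ ^ 2 := integrable_energy hu
  have hle : -∫ z, 2 * (u z * fderiv ℝ u z 1) * z.re ≤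
      ∫ z, (u z ^ 2 / 2 + 2 * R ^ 2 * ‖fderiv ℝ u z‖ ^ 2) := by
    rw [← integral_neg]
    refine integral_mono ?_ ((i1.div_const 2).add (i2.const_mul _)) fun z => ?_
    · refine (Continuous.integrable_of_hasCompactSupport
        ((continuous_const.mul hc2).mul Complex.continuous_re) ?_).neg
      exact (hcs2.mul_left (f := fun _ => (2 : ℝ))).mul_right
    · simp only
      by_cases hz : z ∈ ball (0 : ℂ) R
      · have h1 : |z.re| ≤ R := (Complex.abs_re_le_norm z).trans (mem_ball_zero_iff.1 hz).le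
        have h2 : |fderiv ℝ u z 1| ≤ ‖fderiv ℝ u z‖ := by
          have := (fderiv ℝ u z).le_opNorm 1
          simpa using this
        have h3 : |u z * fderiv ℝ u z 1 * z.re| ≤ |u z| * ‖fderiv ℝ u z‖ * R := by
          rw [abs_mul, abs_mul]; gcongr
        have h4 := neg_abs_le (u z * fderiv ℝ u z 1 * z.re)
        have h5 : u z ^ 2 = |u z| ^ 2 := (sq_abs _).symm
        nlinarith [sq_nonneg (|u z| - 2 * (‖fderiv ℝ u z‖ * R))]
      · rw [hu.eq_zero hz]
        have : 0 ≤ ‖fderiv ℝ u z‖ ^ 2 := by positivity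
        simp
        positivity
  rw [integral_add (i1.div_const 2) (i2.const_mul _), integral_div, integral_const_mul] at hle
  linarith

section domain

variable {D : Set ℂ} {φ ψ : ℂ → ℂ}

theorem DG_le_L2 (B : Bih D (ball 0 1) φ ψ) {R : ℝ} (hR : 0 < R) (hDR : D ⊆ ball 0 R)
    {g : ℂ → ℝ} (hg : IsTest D g) : domainGreenForm φ g ≤ 4 * R ^ 2 * ∫ z, g z ^ 2 := by
  set G := domainGreenForm φ g with hG
  have hG0 : 0 ≤ G := by rw [hG, ← DG_self]; exact DG_nonneg B hg
  set M := 4 * R ^ 2 * ∫ z, g z ^ 2 with hM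
  have hN0 : 0 ≤ ∫ z, g z ^ 2 := integral_nonneg fun z => sq_nonneg _
  have hM0 : 0 ≤ M := by positivity
  have hkey : ∀ ε : ℝ, 0 < ε → G ≤ Real.sqrt (ε * G) + Real.sqrt (M * (G + ε)) := by
    intro ε hε
    obtain ⟨u, hu, h1, h2⟩ := exists_approx B hg hε
    have hk : IsTest D (fun z => g z + (Δ u) z) := hg.add hu.lap
    have e1 : G = DG φ (fun z => g z + (Δ u) z) g + DG φ (fun z => -(Δ u) z) g := by
      rw [← DG_add_left B hk hu.lap.neg hg, hG, ← DG_self]
      congr 1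
      funext z
      ring
    have hcs := DG_cs B hk hg
    rw [DG_self, DG_self, ← hG] at hcs
    have h3 : DG φ (fun z => g z + (Δ u) z) g ≤ Real.sqrt (ε * G) := by
      refine Real.le_sqrt_of_sq_le (hcs.trans ?_)
      exact mul_le_mul_of_nonneg_right ((le_abs_self _).trans h1.le) hG0
    have h4 : DG φ (fun z => -(Δ u) z) g ≤ Real.sqrt (M * (G + ε)) := by
      rw [DG_neg_lap B hu hg]
      refine Real.le_sqrt_of_sq_le ?_
      have hcs2 := integral_cs (μ := (volume : Measure ℂ)) (a := u) (b := g)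
        (isTest_sq_integrable hu) (isTest_sq_integrable hg) (integrable_mul hu hg.smooth.continuous)
      have hp := poincare hR (hu.mono hDR)
      have h5 : ∫ z, ‖fderiv ℝ u z‖ ^ 2 ≤ G + ε := by
        have := (abs_lt.1 h2).1
        linarith
      calc _ ≤ (∫ z, u z ^ 2) * ∫ z, g z ^ 2 := hcs2
        _ ≤ (4 * R ^ 2 * (G + ε)) * ∫ z, g z ^ 2 := by
            gcongr
            exact hp.trans (by gcongr)
        _ = M * (G + ε) := by rw [hM]; ring
    linarith
  have hlim : Tendsto (fun ε : ℝ => Real.sqrt (ε * G) + Real.sqrt (M * (G + ε))) (𝓝[>] 0)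
      (𝓝 (Real.sqrt (0 * G) + Real.sqrt (M * (G + 0)))) := by
    refine Tendsto.mono_left (Continuous.tendsto ?_ 0) nhdsWithin_le_nhds
    fun_prop
  have h6 : G ≤ Real.sqrt (0 * G) + Real.sqrt (M * (G + 0)) :=
    ge_of_tendsto hlim (by filter_upwards [self_mem_nhdsWithin] with ε hε using hkey ε hε)
  rw [zero_mul, Real.sqrt_zero, zero_add, add_zero] at h6
  have h7 : G ^ 2 ≤ M * G := by
    have := Real.sq_sqrt (mul_nonneg hM0 hG0)
    nlinarith [Real.sqrt_nonneg (M * G)]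
  rcases hG0.eq_or_lt with h8 | h8
  · rw [← h8]; exact hM0
  · have : G * G ≤ M * G := by nlinarith
    exact le_of_mul_le_mul_right this h8

end domain

end

end Crest.Agent.R144.ConP938
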