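import Crest.Agent.R144.ConP_938

/-!
# R144, continuum side: flows on a neighbourhood of the closure, sharp constant, part 2 (helper938)
-/

set_option autoImplicit false

open MeasureTheory Metric Set Filter Topology Laplacian InnerProductSpace
open scoped ComplexConjugate ContDiff Manifold

namespace Crest.Agent.R144.ConP938

open Crest.Agent.R144.Con549 Crest.Agent.R144.Push938
open Crest.ProbabilityR.HexHeights (domainGreenForm)

noncomputable section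

/-! ### a `C¹`-small diffeomorphism and its inverse -/

/-- data of a small diffeomorphism. -/
structure Small (δ : ℝ) (Ψ : ℂ ≃ₜ ℂ) : Prop where
  s1 : ContDiff ℝ ∞ (Ψ : ℂ → ℂ)
  s2 : ContDiff ℝ ∞ (Ψ.symm : ℂ → ℂ)
  c0 : ∀ z, ‖Ψ z - z‖ ≤ δ
  c1 : ∀ z, ‖fderiv ℝ (Ψ : ℂ → ℂ) z - ContinuousLinearMap.id ℝ ℂ‖ ≤ δ

namespace Small

variable {δ : ℝ} {Ψ : ℂ ≃ₜ ℂ}

/-- jacobian determinant. -/
def jd (Ψ : ℂ → ℂ) (z : ℂ) : ℝ := cr (fderiv ℝ Ψ z 1) (fderiv ℝ Ψ z Complex.I)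

theorem d1 (h : Small δ Ψ) (z : ℂ) : HasFDerivAt (Ψ : ℂ → ℂ) (fderiv ℝ (Ψ : ℂ → ℂ) z) z :=
  (h.s1.differentiable (by simp) z).hasFDerivAt

theorem d2 (h : Small δ Ψ) (z : ℂ) :
    HasFDerivAt (Ψ.symm : ℂ → ℂ) (fderiv ℝ (Ψ.symm : ℂ → ℂ) z) z :=
  (h.s2.differentiable (by simp) z).hasFDerivAt

theorem comp_eq (h : Small δ Ψ) (z : ℂ) :
    (fderiv ℝ (Ψ : ℂ → ℂ) (Ψ.symm z)).comp (fderiv ℝ (Ψ.symm : ℂ → ℂ) z) =
      ContinuousLinearMap.id ℝ ℂ := by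
  have h1 := (h.d1 (Ψ.symm z)).comp z (h.d2 z)
  have h2 : (Ψ : ℂ → ℂ) ∘ (Ψ.symm : ℂ → ℂ) = id := by funext w; simp
  rw [h2] at h1
  exact h1.unique (hasFDerivAt_id z)

theorem jd_mul (h : Small δ Ψ) (z : ℂ) : jd Ψ (Ψ.symm z) * jd Ψ.symm z = 1 := by
  unfold jd
  rw [cr_eq_det, cr_eq_det]
  have h1 := congrArg ContinuousLinearMap.det (h.comp_eq z)
  have h2 : ((fderiv ℝ (Ψ : ℂ → ℂ) (Ψ.symm z)).comp (fderiv ℝ (Ψ.symm : ℂ → ℂ) z)).det =
      (fderiv ℝ (Ψ : ℂ → ℂ) (Ψ.symm z)).det * (fderiv ℝ (Ψ.symm : ℂ → ℂ) z).det := by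
    unfold ContinuousLinearMap.det
    exact LinearMap.det_comp _ _
  rw [h2] at h1
  rw [h1]
  unfold ContinuousLinearMap.det
  exact LinearMap.det_id

theorem c1' (h : Small δ Ψ) (hδ : δ ≤ 1 / 2) (z : ℂ) :
    ‖fderiv ℝ (Ψ.symm : ℂ → ℂ) z - ContinuousLinearMap.id ℝ ℂ‖ ≤ 2 * δ := by
  set A := fderiv ℝ (Ψ : ℂ → ℂ) (Ψ.symm z) with hA
  set T := fderiv ℝ (Ψ.symm : ℂ → ℂ) z with hT
  have hc : A.comp T = ContinuousLinearMap.id ℝ ℂ := h.comp_eq z
  have h1 : T - ContinuousLinearMap.id ℝ ℂ = -((A - ContinuousLinearMap.id ℝ ℂ).comp T) := by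
    rw [ContinuousLinearMap.sub_comp, hc, ContinuousLinearMap.id_comp]
    abel
  have h2 : ‖A - ContinuousLinearMap.id ℝ ℂ‖ ≤ δ := h.c1 _
  have hδ0 : 0 ≤ δ := (norm_nonneg _).trans h2
  have h3 : ‖T‖ ≤ 1 + ‖T - ContinuousLinearMap.id ℝ ℂ‖ := by
    calc ‖T‖ = ‖ContinuousLinearMap.id ℝ ℂ + (T - ContinuousLinearMap.id ℝ ℂ)‖ := by
          rw [add_sub_cancel]
      _ ≤ ‖ContinuousLinearMap.id ℝ ℂ‖ + ‖T - ContinuousLinearMap.id ℝ ℂ‖ := norm_add_le _ _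
      _ ≤ _ := by gcongr; exact ContinuousLinearMap.norm_id_le
  have h4 : ‖T - ContinuousLinearMap.id ℝ ℂ‖ ≤ δ * ‖T‖ := by
    conv_lhs => rw [h1]
    rw [norm_neg]
    exact (ContinuousLinearMap.opNorm_comp_le _ _).trans (by gcongr)
  nlinarith [norm_nonneg (T - ContinuousLinearMap.id ℝ ℂ)]

theorem contDiff_jd {Φ : ℂ → ℂ} (h : ContDiff ℝ ∞ Φ) : ContDiff ℝ ∞ (jd Φ) := by
  have hb : ∀ e : ℂ, ContDiff ℝ ∞ (fun w => fderiv ℝ Φ w e) := fun e =>
    (h.fderiv_right (m := ∞) (by simp)).clm_apply contDiff_const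
  unfold jd cr
  have r1 := Complex.reCLM.contDiff.comp (hb 1)
  have i1 := Complex.imCLM.contDiff.comp (hb 1)
  have r2 := Complex.reCLM.contDiff.comp (hb Complex.I)
  have i2 := Complex.imCLM.contDiff.comp (hb Complex.I)
  exact (r1.mul i2).sub (i1.mul r2)

theorem abs_jd_sub_one (h : Small δ Ψ) (hδ0 : 0 ≤ δ) (hδ : δ ≤ 1) (z : ℂ) :
    |jd Ψ z - 1| ≤ 6 * δ := abs_cr_sub_one_le hδ0 hδ (h.c1 z)

end Small

open Crest.Agent.R144.ConP938.Small

/-- the transported source. -/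
def src (Ψ : ℂ → ℂ) (f : ℂ → ℝ) (w : ℂ) : ℝ := f (Ψ w) * jd Ψ w

theorem isTest_src {D : Set ℂ} {δ : ℝ} {Ψ : ℂ ≃ₜ ℂ} (h : Small δ Ψ) {f : ℂ → ℝ}
    (hf : IsTest D f) (hth : cthickening δ (tsupport f) ⊆ D) : IsTest D (src Ψ f) := by
  have hK : IsCompact (Ψ.symm '' tsupport f) := hf.comp.isCompact.image Ψ.symm.continuous
  have hz : ∀ w, w ∉ Ψ.symm '' tsupport f → src Ψ f w = 0 := by
    intro w hw
    have : Ψ w ∉ tsupport f := fun h1 => hw ⟨Ψ w, h1, by simp⟩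
    unfold src
    rw [image_eq_zero_of_notMem_tsupport this, zero_mul]
  refine ⟨(hf.smooth.comp h.s1).mul (contDiff_jd h.s1), HasCompactSupport.intro hK hz, ?_⟩
  have h1 : tsupport (src Ψ f) ⊆ Ψ.symm '' tsupport f := by
    refine closure_minimal (fun w hw => ?_) hK.isClosed
    by_contra h2
    exact hw (hz w h2)
  refine h1.trans ?_
  rintro _ ⟨z, hz, rfl⟩
  refine hth (mem_cthickening_of_dist_le _ z _ _ hz ?_)
  have h2 := h.c0 (Ψ.symm z)
  rw [Ψ.apply_symm_apply] at h2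
  rw [dist_comm, dist_eq_norm]
  exact h2

theorem abs_src_sub_le {δ : ℝ} {Ψ : ℂ ≃ₜ ℂ} (h : Small δ Ψ) (hδ0 : 0 ≤ δ)
    (hδ : δ ≤ 1) {f : ℂ → ℝ} {C : NNReal} (hC : LipschitzWith C f) {M : ℝ}
    (hM : ∀ z, |f z| ≤ M) (w : ℂ) :
    |src Ψ f w - f w| ≤ (7 * C + 6 * M) * δ := by
  have h1 := h.abs_jd_sub_one hδ0 hδ w
  have hj : |jd Ψ w| ≤ 7 := by
    have : |jd Ψ w| ≤ |jd Ψ w - 1| + |(1 : ℝ)| := by
      have := abs_add_le (jd Ψ w - 1) 1
      rwa [sub_add_cancel] at this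
    rw [abs_one] at this
    linarith
  have h2 : |f (Ψ w) - f w| ≤ C * δ := by
    have := hC.dist_le_mul (Ψ w) w
    rw [Real.dist_eq, dist_eq_norm] at this
    exact this.trans (mul_le_mul_of_nonneg_left (h.c0 w) C.coe_nonneg)
  have e : src Ψ f w - f w = (f (Ψ w) - f w) * jd Ψ w + f w * (jd Ψ w - 1) := by
    unfold src; ring
  have hM0 : 0 ≤ M := (abs_nonneg _).trans (hM w)
  rw [e]
  calc _ ≤ |(f (Ψ w) - f w) * jd Ψ w| + |f w * (jd Ψ w - 1)| := abs_add_le _ _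
    _ = |f (Ψ w) - f w| * |jd Ψ w| + |f w| * |jd Ψ w - 1| := by rw [abs_mul, abs_mul]
    _ ≤ (C * δ) * 7 + M * (6 * δ) := by
        gcongr
        exact hM w
    _ = _ := by ring

/-- the transported source has Green energy close to the one of `f`. -/
theorem green_src {D : Set ℂ} {φ ψ : ℂ → ℂ} (B : Bih D (ball 0 1) φ ψ) {R : ℝ} (hR : 0 < R)
    (hDR : D ⊆ ball 0 R) {f : ℂ → ℝ} (hf : IsTest D f) : ∃ C : ℝ, 0 ≤ C ∧ ∀ (δ : ℝ) (Ψ : ℂ ≃ₜ ℂ),
      0 ≤ δ → δ ≤ 1 → Small δ Ψ → cthickening δ (tsupport f) ⊆ D →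
      domainGreenForm φ (src Ψ f) ≤ (Real.sqrt (domainGreenForm φ f) + C * δ) ^ 2 := by
  obtain ⟨L, hL⟩ := ContDiff.lipschitzWith_of_hasCompactSupport hf.comp hf.smooth (by simp)
  obtain ⟨M, hM⟩ : ∃ M, ∀ z, ‖f z‖ ≤ M :=
    hf.comp.exists_bound_of_continuous hf.smooth.continuous
  have hM' : ∀ z, |f z| ≤ M := fun z => by simpa [Real.norm_eq_abs] using hM z
  have hM0 : 0 ≤ M := (abs_nonneg _).trans (hM' 0)
  set V : ℝ := (volume : Measure ℂ).real (ball 0 R) with hV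
  set K : ℝ := 4 * R ^ 2 * ((7 * L + 6 * M) ^ 2 * V) with hK
  have hV0 : 0 ≤ V := measureReal_nonneg
  have hK0 : 0 ≤ K := by positivity
  refine ⟨Real.sqrt K, Real.sqrt_nonneg _, fun δ Ψ hδ0 hδ1 h hth => ?_⟩
  have hs := isTest_src h hf hth
  have hg : IsTest D (fun z => src Ψ f z + -f z) := hs.add hf.neg
  have hgb : domainGreenForm φ (fun z => src Ψ f z + -f z) ≤ K * δ ^ 2 := by
    refine (DG_le_L2 B hR hDR hg).trans ?_
    have h1 : ∫ z, (src Ψ f z + -f z) ^ 2 ≤ (((7 * L + 6 * M) * δ) ^ 2) * V := by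
      have h2 : ∫ z, (src Ψ f z + -f z) ^ 2 =
          ∫ z in ball (0 : ℂ) R, (src Ψ f z + -f z) ^ 2 := by
        rw [setIntegral_eq_integral_of_forall_compl_eq_zero]
        intro z hz
        rw [hg.eq_zero fun h3 => hz (hDR h3)]
        simp
      rw [h2]
      have h3 : ∀ z ∈ ball (0 : ℂ) R, ‖(src Ψ f z + -f z) ^ 2‖ ≤ ((7 * L + 6 * M) * δ) ^ 2 := by
        intro z _
        rw [Real.norm_eq_abs, abs_pow]
        have := abs_src_sub_le h hδ0 hδ1 hL hM' z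
        rw [sub_eq_add_neg] at this
        gcongr
      have := norm_setIntegral_le_of_norm_le_const (μ := (volume : Measure ℂ))
        measure_ball_lt_top h3
      exact (le_abs_self _).trans this
    calc 4 * R ^ 2 * ∫ z, (src Ψ f z + -f z) ^ 2 ≤
        4 * R ^ 2 * ((((7 * L + 6 * M) * δ) ^ 2) * V) := by gcongr
      _ = K * δ ^ 2 := by rw [hK]; ring
  have htri := sqrt_DG_add_le B hf hg
  have e : (fun z => f z + (src Ψ f z + -f z)) = src Ψ f := by funext z; ring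
  rw [e] at htri
  have h4 : Real.sqrt (domainGreenForm φ (fun z => src Ψ f z + -f z)) ≤ Real.sqrt K * δ := by
    calc _ ≤ Real.sqrt (K * δ ^ 2) := Real.sqrt_le_sqrt hgb
      _ = Real.sqrt K * δ := by rw [Real.sqrt_mul hK0, Real.sqrt_sq hδ0]
  have h5 : 0 ≤ domainGreenForm φ (src Ψ f) := by rw [← DG_self]; exact DG_nonneg B hs
  calc domainGreenForm φ (src Ψ f) = Real.sqrt (domainGreenForm φ (src Ψ f)) ^ 2 :=
        (Real.sq_sqrt h5).symm
    _ ≤ _ := by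
        gcongr
        linarith

/-! ### the flow -/

/-- flow near the closure, for a given small diffeomorphism pushing `D` over its closure. -/
theorem flow_of_small {D : Set ℂ} {φ ψ : ℂ → ℂ} (B : Bih D (ball 0 1) φ ψ) {f : ℂ → ℝ}
    (hf : IsTest D f) {δ : ℝ} (hδ0 : 0 ≤ δ) (hδ : δ ≤ 1 / 2) {Ψ : ℂ ≃ₜ ℂ} (h : Small δ Ψ)
    (hth : cthickening δ (tsupport f) ⊆ D) :
    ∃ J : ℂ → ℂ, (∀ z ∈ Ψ '' D, ContDiffAt ℝ ∞ J z) ∧ (∀ z ∈ Ψ '' D, dv J z = f z) ∧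
      IntegrableOn (fun z => ‖J z‖ ^ 2) (Ψ '' D) ∧
      ∫ z in Ψ '' D, ‖J z‖ ^ 2 ≤
        (1 + 8 * δ) ^ 2 * ((1 + 6 * δ) * domainGreenForm φ (src Ψ f)) := by
  obtain ⟨J, hJ1, hJ2, hJ3, hJ4⟩ := exists_J0 B (isTest_src h hf hth)
  have hsm : ∀ z ∈ Ψ '' D, ContDiffAt ℝ ∞ (pio Ψ.symm J) z := by
    rintro _ ⟨w, hw, rfl⟩
    refine contDiffAt_pio h.s2.contDiffAt ?_
    rw [Ψ.symm_apply_apply]
    exact hJ1 w hw
  have hop : IsOpen (Ψ '' D) := Ψ.isOpenMap _ B.oU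
  have hI : IntegrableOn (fun w => |(fderiv ℝ (Ψ : ℂ → ℂ) w).det| • ‖J w‖ ^ 2) D := by
    have : IntegrableOn (fun w => (1 + 6 * δ) * ‖J w‖ ^ 2) D := hJ3.const_mul _
    refine Integrable.mono' this ?_ ?_
    · refine (ContinuousOn.mul ?_ ?_).aestronglyMeasurable B.oU.measurableSet
      · have : (fun w => |(fderiv ℝ (Ψ : ℂ → ℂ) w).det|) = fun w => |jd Ψ w| := by
          funext w; rw [jd, cr_eq_det]
        rw [this]
        exact (contDiff_jd h.s1).continuous.abs.continuousOn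
      · exact fun w hw => ((hJ1 w hw).continuousAt.norm.pow 2).continuousWithinAt
    · refine Eventually.of_forall fun w => ?_
      rw [smul_eq_mul, norm_mul, Real.norm_eq_abs, abs_abs, norm_pow, norm_norm]
      gcongr
      rw [← cr_eq_det]
      have h1 := h.abs_jd_sub_one hδ0 (by linarith) w
      have h2 := abs_add_le (jd Ψ w - 1) 1
      rw [sub_add_cancel, abs_one] at h2
      unfold jd at h1 h2
      linarith
  have himg : IntegrableOn (fun z => ‖J (Ψ.symm z)‖ ^ 2) (Ψ '' D) := by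
    rw [integrableOn_image_iff_integrableOn_abs_det_fderiv_smul volume B.oU.measurableSet
      (fun w _ => (h.d1 w).hasFDerivWithinAt) Ψ.injective.injOn]
    simpa using hI
  have hcv : ∫ z in Ψ '' D, ‖J (Ψ.symm z)‖ ^ 2 =
      ∫ w in D, |(fderiv ℝ (Ψ : ℂ → ℂ) w).det| • ‖J w‖ ^ 2 := by
    rw [integral_image_eq_integral_abs_det_fderiv_smul volume B.oU.measurableSet
      (fun w _ => (h.d1 w).hasFDerivWithinAt) Ψ.injective.injOn]
    simp
  have hpt : ∀ z, ‖pio Ψ.symm J z‖ ^ 2 ≤ (1 + 8 * δ) ^ 2 * ‖J (Ψ.symm z)‖ ^ 2 := by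
    intro z
    have h1 := norm_pio_le (J := J) (h.c1' hδ z)
    rw [← mul_pow]
    gcongr
    calc _ ≤ (1 + 4 * (2 * δ)) * ‖J (Ψ.symm z)‖ := h1
      _ = _ := by ring
  have hint : IntegrableOn (fun z => ‖pio Ψ.symm J z‖ ^ 2) (Ψ '' D) := by
    refine Integrable.mono' (himg.const_mul ((1 + 8 * δ) ^ 2)) ?_ ?_
    · refine ContinuousOn.aestronglyMeasurable (fun z hz => ?_) hop.measurableSet
      exact ((hsm z hz).continuousAt.norm.pow 2).continuousWithinAt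
    · refine Eventually.of_forall fun z => ?_
      rw [norm_pow, norm_norm]
      exact hpt z
  refine ⟨pio Ψ.symm J, hsm, ?_, hint, ?_⟩
  · rintro _ ⟨w, hw, rfl⟩
    rw [dv_pio h.s2.contDiffAt ((hJ1 _ (by simpa using hw)).differentiableAt (by simp))]
    rw [Ψ.symm_apply_apply, hJ2 w hw]
    have h1 := h.jd_mul (Ψ w)
    rw [Ψ.symm_apply_apply] at h1
    unfold src
    change f (Ψ w) * jd Ψ w * jd Ψ.symm (Ψ w) = f (Ψ w)
    rw [mul_assoc, h1, mul_one]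
  · calc ∫ z in Ψ '' D, ‖pio Ψ.symm J z‖ ^ 2 ≤
        ∫ z in Ψ '' D, (1 + 8 * δ) ^ 2 * ‖J (Ψ.symm z)‖ ^ 2 :=
          integral_mono hint (himg.const_mul _) hpt
      _ = (1 + 8 * δ) ^ 2 * ∫ w in D, |(fderiv ℝ (Ψ : ℂ → ℂ) w).det| • ‖J w‖ ^ 2 := by
          rw [integral_const_mul, hcv]
      _ ≤ (1 + 8 * δ) ^ 2 * ∫ w in D, (1 + 6 * δ) * ‖J w‖ ^ 2 := by
          refine mul_le_mul_of_nonneg_left ?_ (by positivity)
          refine integral_mono hI (hJ3.const_mul _) fun w => ?_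
          simp only [smul_eq_mul]
          refine mul_le_mul_of_nonneg_right ?_ (by positivity)
          rw [← cr_eq_det]
          have h1 := h.abs_jd_sub_one hδ0 (by linarith) w
          have h2 := abs_add_le (jd Ψ w - 1) 1
          rw [sub_add_cancel, abs_one] at h2
          unfold jd at h1 h2
          linarith
      _ ≤ _ := by
          rw [integral_const_mul]
          gcongr

/-- **(C3), sharp**: a smooth compactly supported flow with divergence `f` on a neighbourhood of the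
closure of `D` and energy at most the Green energy plus `ε`. -/
theorem exists_flow {D : Set ℂ} {γ : ℝ → ℂ} (hJor : Jor D γ) {φ ψ : ℂ → ℂ}
    (B : Bih D (ball 0 1) φ ψ) {f : ℂ → ℝ} (hf : IsTest D f) {ε : ℝ} (hε : 0 < ε) :
    ∃ (N : Set ℂ) (J : ℂ → ℂ), IsOpen N ∧ Bornology.IsBounded N ∧ closure D ⊆ N ∧
      ContDiff ℝ ∞ J ∧ HasCompactSupport J ∧ (∀ z ∈ N, dv J z = f z) ∧
      ∫ z in N, ‖J z‖ ^ 2 ≤ domainGreenForm φ f + ε := by
  obtain ⟨R, hR⟩ := hJor.bd.subset_ball (0 : ℂ)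
  obtain ⟨z₀, hz₀⟩ := hJor.conn.nonempty
  have hR0 : 0 < R := (dist_nonneg).trans_lt (mem_ball.1 (hR hz₀))
  obtain ⟨C, hC0, hC⟩ := green_src B hR0 hR hf
  obtain ⟨ρ, hρ, hρ2⟩ := hf.comp.isCompact.exists_cthickening_subset_open B.oU hf.supp
  have hG0 : 0 ≤ domainGreenForm φ f := by rw [← DG_self]; exact DG_nonneg B hf
  set G := domainGreenForm φ f with hG
  have hev : ∀ᶠ δ : ℝ in 𝓝[>] 0,
      (1 + 8 * δ) ^ 2 * ((1 + 6 * δ) * (Real.sqrt G + C * δ) ^ 2) < G + ε := by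
    have hc : Continuous fun δ : ℝ =>
        (1 + 8 * δ) ^ 2 * ((1 + 6 * δ) * (Real.sqrt G + C * δ) ^ 2) := by fun_prop
    have h0 := (hc.tendsto 0).mono_left (nhdsWithin_le_nhds (s := Ioi (0 : ℝ)))
    refine h0.eventually_lt_const ?_
    simp [Real.sq_sqrt hG0, hε]
  have hev2 : ∀ᶠ δ : ℝ in 𝓝[>] 0, δ < min ρ (1 / 2) :=
    nhdsWithin_le_nhds (Iio_mem_nhds (by positivity))
  obtain ⟨δ, ⟨h1, h2⟩, hδ⟩ := ((hev.and hev2).and self_mem_nhdsWithin).exists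
  have hδ0 : (0 : ℝ) < δ := hδ
  have hδρ : δ ≤ ρ := (h2.trans_le (min_le_left _ _)).le
  have hδ2 : δ ≤ 1 / 2 := (h2.trans_le (min_le_right _ _)).le
  obtain ⟨Ψ, p1, p2, -, p4, p5, p6⟩ := hJor.exists_push hδ0
  have hs : Small δ Ψ := ⟨p1, p2, p4, p5⟩
  have hth : cthickening δ (tsupport f) ⊆ D := (cthickening_mono hδρ _).trans hρ2
  obtain ⟨J, j1, j2, j3, j4⟩ := flow_of_small B hf hδ0.le hδ2 hs hth
  have hen : ∫ z in Ψ '' D, ‖J z‖ ^ 2 ≤ G + ε := by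
    refine j4.trans (le_trans ?_ h1.le)
    gcongr
    exact hC δ Ψ hδ0.le (by linarith) hs hth
  -- cut-off
  have hcD : IsCompact (closure D) := hJor.bd.isCompact_closure
  have hop : IsOpen (Ψ '' D) := Ψ.isOpenMap _ B.oU
  obtain ⟨η, hη, hη2⟩ := hcD.exists_cthickening_subset_open hop p6
  obtain ⟨χ, c1, c2, -⟩ := exists_contMDiffMap_one_nhds_of_subset_interior (n := (⊤ : ℕ∞))
    (𝓘(ℝ, ℂ)) (s := closure D) (t := cthickening η (closure D)) isClosed_closure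
    ((self_subset_thickening hη _).trans
      (interior_maximal (thickening_subset_cthickening _ _) isOpen_thickening))
  have hχ : ContDiff ℝ ∞ (χ : ℂ → ℝ) := χ.contMDiff.contDiff
  obtain ⟨N, hN1, hN2, hN3⟩ := eventually_nhdsSet_iff_exists.1 c1
  have hNt : N ⊆ cthickening η (closure D) := fun z hz => by
    by_contra h3
    have h4 := c2 z h3
    rw [hN3 z hz] at h4
    exact one_ne_zero h4
  have hNsub : N ⊆ Ψ '' D := hNt.trans hη2
  have hct : IsCompact (cthickening η (closure D)) := hcD.cthickening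
  have hz0 : ∀ z, z ∉ cthickening η (closure D) → χ z • J z = 0 := fun z hz => by
    rw [c2 z hz, zero_smul]
  refine ⟨N, fun z => χ z • J z, hN1, hct.isBounded.subset hNt, hN2, ?_, ?_, ?_, ?_⟩
  · rw [contDiff_iff_contDiffAt]
    intro z
    by_cases hz : z ∈ Ψ '' D
    · exact hχ.contDiffAt.smul (j1 z hz)
    · have h3 : z ∉ cthickening η (closure D) := fun h4 => hz (hη2 h4)
      have h5 : (fun z => χ z • J z) =ᶠ[𝓝 z] fun _ => (0 : ℂ) := by
        filter_upwards [isClosed_cthickening.isOpen_compl.mem_nhds h3] with w hw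
        exact hz0 w hw
      exact contDiffAt_const.congr_of_eventuallyEq h5
  · exact HasCompactSupport.intro hct hz0
  · intro z hz
    have h5 : (fun z => χ z • J z) =ᶠ[𝓝 z] J := by
      filter_upwards [hN1.mem_nhds hz] with w hw
      rw [hN3 w hw, one_smul]
    rw [dv_congr h5]
    exact j2 z (hNsub hz)
  · have h5 : ∫ z in N, ‖χ z • J z‖ ^ 2 = ∫ z in N, ‖J z‖ ^ 2 := by
      refine setIntegral_congr_fun hN1.measurableSet fun z hz => ?_
      show ‖χ z • J z‖ ^ 2 = ‖J z‖ ^ 2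
      rw [hN3 z hz, one_smul]
    rw [h5]
    refine le_trans ?_ hen
    exact setIntegral_mono_set j3 (Eventually.of_forall fun z => by positivity)
      (Eventually.of_forall hNsub)

end

end Crest.Agent.R144.ConP938
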