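import Crest.Agent.R144.ConQ_938

/-!
# R144, continuum side: killing a flow near finitely many marks (helper938)
-/

set_option autoImplicit false

open MeasureTheory Metric Set Filter Topology Laplacian InnerProductSpace
open scoped ComplexConjugate ContDiff Manifold

namespace Crest.Agent.R144.ConP938

open Crest.Agent.R144.Con549 Crest.Agent.R144.Push938
open Crest.ProbabilityR.HexHeights (domainGreenForm)

noncomputable section

/-- rotated gradient. -/
def pg (T : ℂ → ℝ) (z : ℂ) : ℂ := ⟨fderiv ℝ T z Complex.I, -fderiv ℝ T z 1⟩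

theorem dv_pg {T : ℂ → ℝ} {z : ℂ} (hT : ContDiffAt ℝ ∞ T z) : dv (pg T) z = 0 := by
  have hfd : DifferentiableAt ℝ (fderiv ℝ T) z :=
    (hT.fderiv_right (m := ∞) (by simp)).differentiableAt (by simp)
  have hb : ∀ e : ℂ, HasFDerivAt (fun w => fderiv ℝ T w e)
      ((fderiv ℝ (fderiv ℝ T) z).flip e) z := by
    intro e
    have := hfd.hasFDerivAt.clm_apply (hasFDerivAt_const e z)
    simpa using this
  have hsym : fderiv ℝ (fderiv ℝ T) z 1 Complex.I = fderiv ℝ (fderiv ℝ T) z Complex.I 1 := by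
    have : IsSymmSndFDerivAt ℝ T z := (hT.of_le (by norm_cast : (2 : WithTop ℕ∞) ≤ ∞)).isSymmSndFDerivAt (by simp)
    exact this 1 Complex.I
  have this : dv (pg T) z = _ := dv_mk (hb Complex.I) (hb 1).neg
  rw [this]
  simp [hsym]

theorem contDiffAt_pg {T : ℂ → ℝ} {z : ℂ} (hT : ContDiffAt ℝ ∞ T z) :
    ContDiffAt ℝ ∞ (pg T) z := by
  have hb : ∀ e : ℂ, ContDiffAt ℝ ∞ (fun w => fderiv ℝ T w e) z := fun e =>
    (hT.fderiv_right (m := ∞) (by simp)).clm_apply contDiffAt_const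
  have h := ((hb Complex.I).smul (contDiffAt_const (c := (1 : ℂ)))).add
    (((hb 1).neg).smul (contDiffAt_const (c := Complex.I)))
  refine h.congr_of_eventuallyEq (Eventually.of_forall fun w => ?_)
  apply Complex.ext <;> simp [pg]

/-- the 1-form of a flow. -/
def fm (J : ℂ → ℂ) (z : ℂ) : ℂ →L[ℝ] ℝ :=
  (J z).re • Complex.imCLM - (J z).im • Complex.reCLM

theorem fm_apply (J : ℂ → ℂ) (z v : ℂ) : fm J z v = cr (J z) v := by
  simp [fm, cr]

theorem hasFDerivAt_fm {J : ℂ → ℂ} {L : ℂ →L[ℝ] ℂ} {z : ℂ} (h : HasFDerivAt J L z) :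
    ∃ W : ℂ →L[ℝ] ℂ →L[ℝ] ℝ, HasFDerivAt (fm J) W z ∧ ∀ a b, W a b = cr (L a) b := by
  have h1 := (Complex.reCLM.hasFDerivAt.comp z h).smul_const Complex.imCLM
  have h2 := (Complex.imCLM.hasFDerivAt.comp z h).smul_const Complex.reCLM
  refine ⟨_, h1.sub h2, fun a b => ?_⟩
  simp [cr]

/-- a stream function on a ball where the divergence vanishes. -/
theorem exists_stream {J : ℂ → ℂ} (hJ : ContDiff ℝ ∞ J) {p : ℂ} {r : ℝ} (hr : 0 < r)
    (h0 : ∀ z ∈ ball p r, dv J z = 0) :
    ∃ S : ℂ → ℝ, S p = 0 ∧ (∀ z ∈ ball p r, HasFDerivAt S (fm J z) z) := by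
  have hJd : Differentiable ℝ J := hJ.differentiable (by simp)
  have hd1 : DifferentiableOn ℝ (fm J) (ball p r) := fun z _ => by
    obtain ⟨W, hW, -⟩ := hasFDerivAt_fm (hJd z).hasFDerivAt
    exact hW.differentiableAt.differentiableWithinAt
  have hd2 : ∀ z ∈ ball p r, ∀ a b : ℂ, fderiv ℝ (fm J) z a b = fderiv ℝ (fm J) z b a := by
    intro z hz a b
    obtain ⟨W, hW, hWv⟩ := hasFDerivAt_fm (hJd z).hasFDerivAt
    rw [hW.fderiv, hWv, hWv]
    have h1 := cr_trace (fderiv ℝ J z) a b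
    have h2 : (fderiv ℝ J z 1).re + (fderiv ℝ J z Complex.I).im = 0 := h0 z hz
    rw [h2, zero_mul] at h1
    have h3 : cr (fderiv ℝ J z b) a = -cr a (fderiv ℝ J z b) := by unfold cr; ring
    rw [h3]; linarith
  obtain ⟨S, hS⟩ := (convex_ball p r).exists_forall_hasFDerivAt_of_fderiv_symmetric isOpen_ball
    hd1 hd2
  refine ⟨fun z => S z - S p, by simp, fun z hz => ?_⟩
  have := (hS z hz).sub_const (S p)
  simpa using this

theorem contDiffAt_stream {J : ℂ → ℂ} (hJ : ContDiff ℝ ∞ J) {p : ℂ} {r : ℝ} {S : ℂ → ℝ}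
    (hS : ∀ z ∈ ball p r, HasFDerivAt S (fm J z) z) {z : ℂ} (hz : z ∈ ball p r) :
    ContDiffAt ℝ ∞ S z := by
  have hfm : ContDiff ℝ ∞ (fm J) := by
    unfold fm
    have h1 := Complex.reCLM.contDiff.comp hJ
    have h2 := Complex.imCLM.contDiff.comp hJ
    exact (h1.smul contDiff_const).sub (h2.smul contDiff_const)
  have h1 : ContDiffOn ℝ ∞ S (ball p r) := by
    rw [contDiffOn_infty_iff_fderiv_of_isOpen isOpen_ball]
    refine ⟨fun w hw => (hS w hw).differentiableAt.differentiableWithinAt, ?_⟩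
    exact hfm.contDiffOn.congr fun w hw => (hS w hw).fderiv
  exact h1.contDiffAt (isOpen_ball.mem_nhds hz)

theorem norm_fm_le (J : ℂ → ℂ) (z : ℂ) : ‖fm J z‖ ≤ 2 * ‖J z‖ := by
  refine ContinuousLinearMap.opNorm_le_bound _ (by positivity) fun v => ?_
  rw [fm_apply, Real.norm_eq_abs]
  have := abs_cr_le (J z) v
  linarith

theorem norm_pg_le (T : ℂ → ℝ) (z : ℂ) : ‖pg T z‖ ≤ 2 * ‖fderiv ℝ T z‖ := by
  have h1 : |fderiv ℝ T z Complex.I| ≤ ‖fderiv ℝ T z‖ := by
    have := (fderiv ℝ T z).le_opNorm Complex.I; simpa using this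
  have h2 : |fderiv ℝ T z 1| ≤ ‖fderiv ℝ T z‖ := by
    have := (fderiv ℝ T z).le_opNorm 1; simpa using this
  have h9 := Complex.norm_le_abs_re_add_abs_im (pg T z)
  simp only [pg, abs_neg] at h9 ⊢
  linarith

theorem int_sq {K : ℂ → ℂ} (hK : Continuous K) (hKc : HasCompactSupport K) :
    Integrable (fun z => ‖K z‖ ^ 2) := by
  have h1 : HasCompactSupport (fun z => ‖K z‖ ^ 2) :=
    HasCompactSupport.intro hKc.isCompact fun z hz => by
      rw [image_eq_zero_of_notMem_tsupport hz]; simp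
  exact (hK.norm.pow 2).integrable_of_hasCompactSupport h1

/-- killing a flow near one point where it has no divergence. -/
theorem kill_one {J : ℂ → ℂ} (hJ : ContDiff ℝ ∞ J) (hJc : HasCompactSupport J) {p : ℂ} {R : ℝ}
    (hR : 0 < R) (h0 : ∀ z ∈ ball p R, dv J z = 0) {ε : ℝ} (hε : 0 < ε) :
    ∃ J' : ℂ → ℂ, ContDiff ℝ ∞ J' ∧ HasCompactSupport J' ∧ (∀ z, dv J' z = dv J z) ∧
      (∀ᶠ z in 𝓝 p, J' z = 0) ∧ (∀ z ∉ ball p R, J' =ᶠ[𝓝 z] J) ∧
      ∀ N : Set ℂ, MeasurableSet N → ∫ z in N, ‖J' z‖ ^ 2 ≤ (∫ z in N, ‖J z‖ ^ 2) + ε := by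
  obtain ⟨S, hS0, hS⟩ := exists_stream hJ hR h0
  obtain ⟨M, hM⟩ : ∃ M, ∀ z, ‖J z‖ ≤ M := hJc.exists_bound_of_continuous hJ.continuous
  have hM0 : 0 ≤ M := (norm_nonneg _).trans (hM 0)
  let b : ContDiffBump (0 : ℂ) := ⟨1, 2, one_pos, one_lt_two⟩
  have hbs : ContDiff ℝ ∞ (b : ℂ → ℝ) := b.contDiff
  have hbc : HasCompactSupport (b : ℂ → ℝ) := b.hasCompactSupport
  obtain ⟨C, hC⟩ : ∃ C, ∀ z, ‖fderiv ℝ (b : ℂ → ℝ) z‖ ≤ C :=
    (hbc.fderiv (𝕜 := ℝ)).exists_bound_of_continuous (hbs.continuous_fderiv (by simp))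
  have hC0 : 0 ≤ C := (norm_nonneg _).trans (hC 0)
  -- the radius
  set Q : ℝ := M + 2 * (4 * M * C + 2 * M) with hQ
  have hQ0 : 0 ≤ Q := by positivity
  obtain ⟨r, hr, hr1, hr2⟩ : ∃ r : ℝ, 0 < r ∧ 4 * r < R ∧ Q ^ 2 * (Real.pi * (2 * r) ^ 2) ≤ ε := by
    refine ⟨min (R / 8) (min 1 (ε / (4 * Real.pi * (Q ^ 2 + 1)))), by positivity, ?_, ?_⟩
    · have := min_le_left (R / 8) (min 1 (ε / (4 * Real.pi * (Q ^ 2 + 1))))
      linarith
    · set m := min (R / 8) (min 1 (ε / (4 * Real.pi * (Q ^ 2 + 1)))) with hm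
      have h1 : m ≤ 1 := (min_le_right _ _).trans (min_le_left _ _)
      have h2 : m ≤ ε / (4 * Real.pi * (Q ^ 2 + 1)) := (min_le_right _ _).trans (min_le_right _ _)
      have h3 : 0 < m := by positivity
      rw [le_div_iff₀ (by positivity)] at h2
      have h4 : m ^ 2 ≤ m := by nlinarith
      have h5 : 0 ≤ Real.pi * 4 := by positivity
      calc Q ^ 2 * (Real.pi * (2 * m) ^ 2) = (4 * Real.pi * Q ^ 2) * m ^ 2 := by ring
        _ ≤ (4 * Real.pi * (Q ^ 2 + 1)) * m := by
            gcongr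
            linarith
        _ ≤ ε := by linarith
  -- the cut-off
  set χ : ℂ → ℝ := fun z => b ((1 / r) • (z - p)) with hχ
  have hχs : ContDiff ℝ ∞ χ := hbs.comp ((contDiff_id.sub contDiff_const).const_smul _)
  have hχ1 : ∀ z ∈ closedBall p r, χ z = 1 := fun z hz => by
    refine b.one_of_mem_closedBall ?_
    rw [mem_closedBall_zero_iff, norm_smul, Real.norm_of_nonneg (by positivity)]
    rw [mem_closedBall, dist_eq_norm] at hz
    show 1 / r * ‖z - p‖ ≤ 1
    rw [div_mul_eq_mul_div, one_mul, div_le_one hr]; exact hz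
  have hχ0 : ∀ z ∉ ball p (2 * r), χ z = 0 := fun z hz => by
    refine b.zero_of_le_dist ?_
    rw [dist_zero_right, norm_smul, Real.norm_of_nonneg (by positivity)]
    rw [mem_ball, dist_eq_norm, not_lt] at hz
    show 2 ≤ 1 / r * ‖z - p‖
    rw [div_mul_eq_mul_div, one_mul, le_div_iff₀ hr]; linarith
  have hχb : ∀ z, 0 ≤ χ z ∧ χ z ≤ 1 := fun z => ⟨b.nonneg, b.le_one⟩
  have hχd : ∀ z, ‖fderiv ℝ χ z‖ ≤ C / r := fun z => by
    have h1 : HasFDerivAt (fun z : ℂ => (1 / r) • (z - p))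
        ((1 / r) • ContinuousLinearMap.id ℝ ℂ) z :=
      ((hasFDerivAt_id (𝕜 := ℝ) z).sub_const p).const_smul (1 / r)
    have h2 := ((hbs.differentiable (by simp) ((1 / r) • (z - p))).hasFDerivAt).comp z h1
    have h3 : fderiv ℝ χ z = (fderiv ℝ (b : ℂ → ℝ) ((1 / r) • (z - p))).comp
      ((1 / r) • ContinuousLinearMap.id ℝ ℂ) := h2.fderiv
    rw [h3]
    refine (ContinuousLinearMap.opNorm_comp_le _ _).trans ?_
    rw [norm_smul, Real.norm_of_nonneg (by positivity)]
    calc _ ≤ C * (1 / r * 1) := by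
          gcongr
          · exact hC _
          · exact ContinuousLinearMap.norm_id_le
      _ = C / r := by ring
  -- the corrected stream function
  set T : ℂ → ℝ := fun z => χ z * S z with hT
  have hsub : ball p (2 * r) ⊆ ball p R := ball_subset_ball (by linarith)
  have hT0 : ∀ z ∉ closedBall p (2 * r), T =ᶠ[𝓝 z] fun _ => 0 := fun z hz => by
    filter_upwards [isClosed_closedBall.isOpen_compl.mem_nhds hz] with w hw
    rw [hT]
    simp only
    rw [hχ0 w fun h => hw (ball_subset_closedBall h), zero_mul]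
  have hcs : closedBall p (2 * r) ⊆ ball p R := closedBall_subset_ball (by linarith)
  have hTs : ContDiff ℝ ∞ T := by
    rw [contDiff_iff_contDiffAt]
    intro z
    by_cases hz : z ∈ ball p R
    · exact hχs.contDiffAt.mul (contDiffAt_stream hJ hS hz)
    · exact contDiffAt_const.congr_of_eventuallyEq (hT0 z fun h => hz (hcs h))
  have hpgs : ContDiff ℝ ∞ (pg T) := contDiff_iff_contDiffAt.2 fun z => contDiffAt_pg hTs.contDiffAt
  have hpg0 : ∀ z ∉ closedBall p (2 * r), pg T z = 0 := fun z hz => by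
    unfold pg
    rw [(hT0 z hz).fderiv_eq]
    apply Complex.ext <;> simp
  have hpgc : HasCompactSupport (pg T) := HasCompactSupport.intro (isCompact_closedBall _ _) hpg0
  have hSb : ∀ z ∈ ball p (2 * r), |S z| ≤ 2 * M * (2 * r) := by
    intro z hz
    have h1 := (convex_ball p (2 * r)).norm_image_sub_le_of_norm_hasFDerivWithin_le
      (f := S) (f' := fm J) (C := 2 * M)
      (fun w hw => (hS w (hsub hw)).hasFDerivWithinAt)
      (fun w _ => (norm_fm_le J w).trans (by gcongr; exact hM w))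
      (mem_ball_self (by positivity)) hz
    rw [hS0, sub_zero, Real.norm_eq_abs] at h1
    rw [mem_ball, dist_eq_norm] at hz
    exact h1.trans (by gcongr)
  have hTd : ∀ z ∈ ball p (2 * r), ‖fderiv ℝ T z‖ ≤ 4 * M * C + 2 * M := by
    intro z hz
    have h1 : HasFDerivAt T (χ z • fm J z + S z • fderiv ℝ χ z) z :=
      (hχs.differentiable (by simp) z).hasFDerivAt.mul (hS z (hsub hz))
    rw [h1.fderiv]
    calc _ ≤ ‖χ z • fm J z‖ + ‖S z • fderiv ℝ χ z‖ := norm_add_le _ _
      _ = |χ z| * ‖fm J z‖ + |S z| * ‖fderiv ℝ χ z‖ := by rw [norm_smul, norm_smul]; rfl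
      _ ≤ 1 * (2 * M) + (2 * M * (2 * r)) * (C / r) := by
          have h2 : |χ z| ≤ 1 := by rw [abs_of_nonneg (hχb z).1]; exact (hχb z).2
          have h3 : ‖fm J z‖ ≤ 2 * M := (norm_fm_le J z).trans (by gcongr; exact hM z)
          have h4 := hSb z hz
          have h5 := hχd z
          gcongr
      _ = _ := by field_simp; ring
  refine ⟨fun z => J z - pg T z, hJ.sub hpgs, hJc.sub hpgc, fun z => ?_, ?_, fun z hz => ?_, ?_⟩
  · rw [dv_sub (hJ.differentiable (by simp) z) (hpgs.differentiable (by simp) z),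
      dv_pg hTs.contDiffAt, sub_zero]
  · filter_upwards [ball_mem_nhds p hr] with z hz
    have h1 : T =ᶠ[𝓝 z] S := by
      filter_upwards [isOpen_ball.mem_nhds hz] with w hw
      rw [hT]
      simp only
      rw [hχ1 w (ball_subset_closedBall hw), one_mul]
    have h2 : z ∈ ball p R := ball_subset_ball (by linarith) hz
    have h3 : fderiv ℝ T z = fm J z := by rw [h1.fderiv_eq, (hS z h2).fderiv]
    unfold pg
    rw [h3, fm_apply, fm_apply]
    apply Complex.ext <;> simp [cr]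
  · have h1 : z ∉ closedBall p (2 * r) := fun h => hz (hcs h)
    filter_upwards [isClosed_closedBall.isOpen_compl.mem_nhds h1] with w hw
    rw [hpg0 w hw, sub_zero]
  · intro N hN
    have i1 : Integrable (fun z => ‖J z‖ ^ 2) := int_sq hJ.continuous hJc
    have i2 : Integrable (fun z => ‖J z - pg T z‖ ^ 2) :=
      int_sq (hJ.sub hpgs).continuous (hJc.sub hpgc)
    have hpt : ∀ z, ‖J z - pg T z‖ ^ 2 ≤ ‖J z‖ ^ 2 +
        (ball p (2 * r)).indicator (fun _ => Q ^ 2) z := by
      intro z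
      by_cases hz : z ∈ ball p (2 * r)
      · rw [indicator_of_mem hz]
        have h1 : ‖J z - pg T z‖ ≤ Q := by
          calc _ ≤ ‖J z‖ + ‖pg T z‖ := norm_sub_le _ _
            _ ≤ M + 2 * (4 * M * C + 2 * M) := by
                gcongr
                · exact hM z
                · exact (norm_pg_le T z).trans (by gcongr; exact hTd z hz)
        have h2 : ‖J z - pg T z‖ ^ 2 ≤ Q ^ 2 := by gcongr
        have h3 : 0 ≤ ‖J z‖ ^ 2 := by positivity
        linarith
      · rw [indicator_of_notMem hz, add_zero]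
        have h1 : pg T z = 0 := by
          have h2 : fderiv ℝ T z = 0 := by
            -- `T ≥`-type argument not available: use continuity from outside
            have hcl : z ∈ closure (ball p (2 * r))ᶜ := subset_closure hz
            have hz' : z ∉ interior (closedBall p (2 * r)) := by
              rw [interior_closedBall _ (by positivity)]; exact hz
            have hcl2 : z ∈ closure (closedBall p (2 * r))ᶜ := by
              rw [closure_compl]; exact hz'
            have hfc : Continuous (fderiv ℝ T) := hTs.continuous_fderiv (by simp)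
            have hset : IsClosed {w | fderiv ℝ T w = 0} := isClosed_eq hfc continuous_const
            refine (hset.closure_subset_iff.2 ?_) hcl2
            intro w hw
            show fderiv ℝ T w = 0
            rw [(hT0 w hw).fderiv_eq]
            simp
          unfold pg
          rw [h2]
          apply Complex.ext <;> simp
        rw [h1, sub_zero]
    have i3 : Integrable ((ball p (2 * r)).indicator fun _ : ℂ => Q ^ 2) :=
      (integrable_indicator_iff isOpen_ball.measurableSet).2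
        (integrableOn_const measure_ball_lt_top.ne)
    have st1 : ∫ z in N, ‖J z - pg T z‖ ^ 2 ≤
        ∫ z in N, (‖J z‖ ^ 2 + (ball p (2 * r)).indicator (fun _ => Q ^ 2) z) :=
      integral_mono i2.integrableOn (i1.integrableOn.add i3.integrableOn) hpt
    have st2 : ∫ z in N, (‖J z‖ ^ 2 + (ball p (2 * r)).indicator (fun _ => Q ^ 2) z) =
        (∫ z in N, ‖J z‖ ^ 2) + ∫ z in N, (ball p (2 * r)).indicator (fun _ => Q ^ 2) z :=
      integral_add i1.integrableOn i3.integrableOn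
    have st3 : ∫ z in N, (ball p (2 * r)).indicator (fun _ => Q ^ 2) z ≤
        ∫ z, (ball p (2 * r)).indicator (fun _ => Q ^ 2) z :=
      setIntegral_le_integral i3 (Eventually.of_forall fun z =>
        indicator_nonneg (fun _ _ => sq_nonneg Q) z)
    have st4 : ∫ z, (ball p (2 * r)).indicator (fun _ => Q ^ 2) z ≤ ε := by
      rw [integral_indicator isOpen_ball.measurableSet, setIntegral_const, smul_eq_mul,
        Measure.real, Complex.volume_ball]
      refine le_trans (le_of_eq ?_) hr2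
      rw [mul_comm]
      congr 1
      rw [ENNReal.toReal_mul, ENNReal.toReal_pow, ENNReal.toReal_ofReal (by positivity)]
      simp
      ring
    rw [st2] at st1
    linarith

/-- killing a flow near finitely many points off the support of the source. -/
theorem kill_marks {J : ℂ → ℂ} (hJ : ContDiff ℝ ∞ J) (hJc : HasCompactSupport J) {N : Set ℂ}
    (hN : IsOpen N) {f : ℂ → ℝ} (hdv : ∀ z ∈ N, dv J z = f z) (P : Finset ℂ)
    (hP : ∀ p ∈ P, p ∈ N ∧ p ∉ tsupport f) {ε : ℝ} (hε : 0 < ε) :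
    ∃ J' : ℂ → ℂ, ContDiff ℝ ∞ J' ∧ HasCompactSupport J' ∧ (∀ z ∈ N, dv J' z = f z) ∧
      (∀ p ∈ P, ∀ᶠ z in 𝓝 p, J' z = 0) ∧
      ∫ z in N, ‖J' z‖ ^ 2 ≤ (∫ z in N, ‖J z‖ ^ 2) + ε := by
  classical
  induction P using Finset.induction_on generalizing ε with
  | empty => exact ⟨J, hJ, hJc, hdv, by simp, by linarith⟩
  | insert p P hp ih =>
    obtain ⟨J1, a1, a2, a3, a4, a5⟩ := ih (fun q hq => hP q (Finset.mem_insert_of_mem hq))
      (half_pos hε)
    obtain ⟨hpN, hpf⟩ := hP p (Finset.mem_insert_self _ _)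
    have hO : IsOpen (N ∩ (tsupport f)ᶜ ∩ (↑P : Set ℂ)ᶜ) :=
      (hN.inter (isClosed_tsupport f).isOpen_compl).inter P.finite_toSet.isClosed.isOpen_compl
    obtain ⟨R, hR, hRs⟩ := Metric.isOpen_iff.1 hO p ⟨⟨hpN, hpf⟩, by simpa using hp⟩
    obtain ⟨J2, b1, b2, b3, b4, b5, b6⟩ := kill_one a1 a2 hR (fun z hz => by
      rw [a3 z (hRs hz).1.1]
      exact image_eq_zero_of_notMem_tsupport (hRs hz).1.2) (half_pos hε)
    refine ⟨J2, b1, b2, fun z hz => by rw [b3, a3 z hz], fun q hq => ?_, ?_⟩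
    · rcases Finset.mem_insert.1 hq with rfl | hq
      · exact b4
      · have h1 : q ∉ ball p R := fun h => (hRs h).2 hq
        filter_upwards [a4 q hq, b5 q h1] with z h2 h3
        rw [h3, h2]
    · have := b6 N hN.measurableSet
      linarith

/-- **(C3), sharp, with marks**. -/
theorem exists_flow_marks {D : Set ℂ} {γ : ℝ → ℂ} (hJor : Jor D γ) {φ ψ : ℂ → ℂ}
    (B : Bih D (ball 0 1) φ ψ) {f : ℂ → ℝ} (hf : IsTest D f) (P : Finset ℂ)
    (hP : ∀ p ∈ P, p ∈ frontier D) {ε : ℝ} (hε : 0 < ε) :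
    ∃ (N : Set ℂ) (J : ℂ → ℂ), IsOpen N ∧ Bornology.IsBounded N ∧ closure D ⊆ N ∧
      ContDiff ℝ ∞ J ∧ HasCompactSupport J ∧ (∀ z ∈ N, dv J z = f z) ∧
      (∀ p ∈ P, ∀ᶠ z in 𝓝 p, J z = 0) ∧
      ∫ z in N, ‖J z‖ ^ 2 ≤ domainGreenForm φ f + ε := by
  obtain ⟨N, J, h1, h2, h3, h4, h5, h6, h7⟩ := exists_flow hJor B hf (half_pos hε)
  obtain ⟨J', a1, a2, a3, a4, a5⟩ := kill_marks h4 h5 h1 h6 P (fun p hp => ⟨h3
    (frontier_subset_closure (hP p hp)), fun h => by
      have h8 := hP p hp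
      rw [frontier, hJor.op.interior_eq] at h8
      exact h8.2 (hf.supp h)⟩) (half_pos hε)
  exact ⟨N, J', h1, h2, h3, a1, a2, a3, a4, by linarith⟩

end

end Crest.Agent.R144.ConP938
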