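import Crest.Agent.R144.ConR_938
import Crest.Prelude.Def_TriHeights

/-!
# R144, continuum side: `Jor` from the statements; Green form as a supremum (helper938)
-/

set_option autoImplicit false

open MeasureTheory Metric Set Filter Topology Laplacian InnerProductSpace
open scoped ComplexConjugate ContDiff Manifold

namespace Crest.Agent.R144.ConP938

open Crest.Agent.R144.Con549 Crest.Agent.R144.Push938
open Crest.ProbabilityR.HexHeights (domainGreenForm IsC2JordanDomain)
open Crest.ProbabilityR.TriHeights (IsSmoothMarkedDomain)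

noncomputable section

theorem jor_of_C2 {D : Set ℂ} {γ : ℝ → ℂ} (h : IsC2JordanDomain D γ) : Jor D γ := by
  obtain ⟨h1, h2, h3, h4, h5, h6, h7, h8⟩ := h
  exact ⟨h1, h2, h3, h4.of_le (by norm_num), h5, h6, h7, h8⟩

theorem jor_of_marked {D : Set ℂ} {γ : ℝ → ℂ} {θ : ℝ} (h : IsSmoothMarkedDomain D γ θ) :
    Jor D γ := by
  obtain ⟨h1, h2, h3, h4, h5, h6, h7, h8, -, -⟩ := h
  exact ⟨h1, h2, h3, h4.of_le (by norm_cast), h5, h6, h7, h8⟩

theorem marks_mem {D : Set ℂ} {γ : ℝ → ℂ} (h : Jor D γ) (θ : ℝ) : γ θ ∈ frontier D :=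
  h.rng ▸ ⟨θ, rfl⟩

variable {D : Set ℂ} {φ ψ : ℂ → ℂ}

theorem green_expand (B : Bih D (ball 0 1) φ ψ) {f u : ℂ → ℝ} (hf : IsTest D f)
    (hu : IsTest D u) : domainGreenForm φ (fun z => f z + (Δ u) z) =
      domainGreenForm φ f - 2 * (∫ z, f z * u z) + ∫ z, ‖fderiv ℝ u z‖ ^ 2 := by
  have h1 := DG_quad B hf hu.lap.neg (-1)
  have h2 : (fun z => f z + (-1 : ℝ) * (-(Δ u) z)) = fun z => f z + (Δ u) z := by
    funext z; ring
  rw [h2, DG_self, DG_self, DG_self, greenForm_neg_lap B hu, DG_symm B hf hu.lap.neg,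
    DG_neg_lap B hu hf] at h1
  have h3 : ∫ z, u z * f z = ∫ z, f z * u z := by
    congr 1; funext z; ring
  rw [h1, h3]
  ring

/-- every test function gives a lower bound of the Green form. -/
theorem le_green (B : Bih D (ball 0 1) φ ψ) {f u : ℂ → ℝ} (hf : IsTest D f)
    (hu : IsTest D u) : 2 * (∫ z, f z * u z) - ∫ z, ‖fderiv ℝ u z‖ ^ 2 ≤ domainGreenForm φ f := by
  have h1 := green_expand B hf hu
  have h2 : 0 ≤ domainGreenForm φ (fun z => f z + (Δ u) z) := by
    rw [← DG_self]; exact DG_nonneg B (hf.add hu.lap)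
  linarith

/-- and the lower bounds are sharp. -/
theorem exists_le_green (B : Bih D (ball 0 1) φ ψ) {f : ℂ → ℝ} (hf : IsTest D f) {ε : ℝ}
    (hε : 0 < ε) : ∃ u : ℂ → ℝ, IsTest D u ∧
      domainGreenForm φ f - ε < 2 * (∫ z, f z * u z) - ∫ z, ‖fderiv ℝ u z‖ ^ 2 := by
  obtain ⟨u, hu, h1, -⟩ := exists_approx B hf hε
  refine ⟨u, hu, ?_⟩
  have h2 := green_expand B hf hu
  have h3 := (abs_lt.1 h1).2
  linarith

theorem isLUB_green (B : Bih D (ball 0 1) φ ψ) {f : ℂ → ℝ} (hf : IsTest D f) :
    IsLUB {x : ℝ | ∃ u : ℂ → ℝ, IsTest D u ∧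
      x = 2 * (∫ z, f z * u z) - ∫ z, ‖fderiv ℝ u z‖ ^ 2} (domainGreenForm φ f) := by
  constructor
  · rintro x ⟨u, hu, rfl⟩
    exact le_green B hf hu
  · intro b hb
    refine le_of_forall_pos_lt_add fun ε hε => ?_
    obtain ⟨u, hu, h1⟩ := exists_le_green B hf hε
    have h2 := hb ⟨u, hu, rfl⟩
    linarith

theorem green_nonneg (B : Bih D (ball 0 1) φ ψ) {f : ℂ → ℝ} (hf : IsTest D f) :
    0 ≤ domainGreenForm φ f := by
  rw [← DG_self]; exact DG_nonneg B hf

/-- upper bound of the dual functional for functions living near the closure, from a flow. -/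
theorem dual_le_flow {N : Set ℂ} (hN : IsOpen N) {J : ℂ → ℂ} (hJ : ContDiff ℝ ∞ J)
    (hJc : HasCompactSupport J) {f : ℂ → ℝ} (hdv : ∀ z ∈ N, dv J z = f z) {g : ℂ → ℝ}
    (hg : ContDiff ℝ 1 g) (hgc : HasCompactSupport g) (hgN : tsupport g ⊆ N) :
    2 * (∫ z, f z * g z) - ∫ z, ‖fderiv ℝ g z‖ ^ 2 ≤ ∫ z in N, ‖J z‖ ^ 2 := by
  have hgd : Differentiable ℝ g := hg.differentiable one_ne_zero
  have hJd : Differentiable ℝ J := hJ.differentiable (by simp)
  have hfg : Continuous (fderiv ℝ g) := hg.continuous_fderiv one_ne_zero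
  have hgfc : HasCompactSupport (fderiv ℝ g) := hgc.fderiv (𝕜 := ℝ)
  -- integration by parts in the two directions
  have hcomp : ∀ (e : ℂ) (l : ℂ →L[ℝ] ℝ),
      ∫ z, g z * fderiv ℝ (fun w => l (J w)) z e = -∫ z, fderiv ℝ g z e * l (J z) := by
    intro e l
    have hl : ContDiff ℝ ∞ fun w => l (J w) := l.contDiff.comp hJ
    refine integral_mul_fderiv_eq_neg_fderiv_mul_of_integrable ?_ ?_ ?_
      (fun z _ => hgd z) (fun z _ => (hl.differentiable (by simp)) z)
    · refine Continuous.integrable_of_hasCompactSupport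
        ((hfg.clm_apply continuous_const).mul hl.continuous) ?_
      exact HasCompactSupport.intro hgfc.isCompact fun z hz => by
        rw [image_eq_zero_of_notMem_tsupport hz]; simp
    · refine Continuous.integrable_of_hasCompactSupport (hg.continuous.mul
        ((hl.continuous_fderiv (by simp)).clm_apply continuous_const)) hgc.mul_right
    · exact (hg.continuous.mul hl.continuous).integrable_of_hasCompactSupport hgc.mul_right
  have hre : ∀ z, fderiv ℝ (fun w => Complex.reCLM (J w)) z 1 = (fderiv ℝ J z 1).re := fun z => by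
    have := (Complex.reCLM.hasFDerivAt.comp z (hJd z).hasFDerivAt).fderiv
    have h2 : fderiv ℝ (fun w => Complex.reCLM (J w)) z = Complex.reCLM.comp (fderiv ℝ J z) := this
    rw [h2]; rfl
  have him : ∀ z, fderiv ℝ (fun w => Complex.imCLM (J w)) z Complex.I =
      (fderiv ℝ J z Complex.I).im := fun z => by
    have := (Complex.imCLM.hasFDerivAt.comp z (hJd z).hasFDerivAt).fderiv
    have h2 : fderiv ℝ (fun w => Complex.imCLM (J w)) z = Complex.imCLM.comp (fderiv ℝ J z) := this
    rw [h2]; rfl
  have hc1 := hcomp 1 Complex.reCLM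
  have hc2 := hcomp Complex.I Complex.imCLM
  simp only [hre, him] at hc1 hc2
  have hfJ : Continuous (fderiv ℝ J) := hJ.continuous_fderiv (by simp)
  have hsum : ∫ z, f z * g z = -∫ z, (fderiv ℝ g z 1 * (J z).re + fderiv ℝ g z Complex.I * (J z).im) := by
    have e1 : ∀ z, f z * g z = g z * (fderiv ℝ J z 1).re + g z * (fderiv ℝ J z Complex.I).im := by
      intro z
      by_cases hz : z ∈ tsupport g
      · rw [← hdv z (hgN hz)]; unfold dv; ring
      · rw [image_eq_zero_of_notMem_tsupport hz]; ring
    simp only [e1]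
    rw [integral_add, hc1, hc2, integral_add]
    · simp only [Complex.reCLM_apply, Complex.imCLM_apply]; ring
    · refine Continuous.integrable_of_hasCompactSupport
        ((hfg.clm_apply continuous_const).mul (Complex.continuous_re.comp hJ.continuous)) ?_
      exact HasCompactSupport.intro hgfc.isCompact fun z hz => by
        rw [image_eq_zero_of_notMem_tsupport hz]; simp
    · refine Continuous.integrable_of_hasCompactSupport
        ((hfg.clm_apply continuous_const).mul (Complex.continuous_im.comp hJ.continuous)) ?_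
      exact HasCompactSupport.intro hgfc.isCompact fun z hz => by
        rw [image_eq_zero_of_notMem_tsupport hz]; simp
    · exact (hg.continuous.mul (Complex.continuous_re.comp
        (hfJ.clm_apply continuous_const))).integrable_of_hasCompactSupport hgc.mul_right
    · exact (hg.continuous.mul (Complex.continuous_im.comp
        (hfJ.clm_apply continuous_const))).integrable_of_hasCompactSupport hgc.mul_right
  have hi1 : Integrable fun z => fderiv ℝ g z 1 * (J z).re + fderiv ℝ g z Complex.I * (J z).im := by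
    refine Continuous.integrable_of_hasCompactSupport
      (((hfg.clm_apply continuous_const).mul (Complex.continuous_re.comp hJ.continuous)).add
      ((hfg.clm_apply continuous_const).mul (Complex.continuous_im.comp hJ.continuous))) ?_
    exact HasCompactSupport.intro hgfc.isCompact fun z hz => by
      rw [image_eq_zero_of_notMem_tsupport hz]; simp
  have hi2 : Integrable fun z => ‖fderiv ℝ g z‖ ^ 2 := by
    refine Continuous.integrable_of_hasCompactSupport (hfg.norm.pow 2) ?_
    exact HasCompactSupport.intro hgfc.isCompact fun z hz => by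
      rw [image_eq_zero_of_notMem_tsupport hz]; simp
  have hi3 : Integrable (N.indicator fun z => ‖J z‖ ^ 2) :=
    (int_sq hJ.continuous hJc).indicator hN.measurableSet
  have hpt : ∀ z, -2 * (fderiv ℝ g z 1 * (J z).re + fderiv ℝ g z Complex.I * (J z).im) -
      ‖fderiv ℝ g z‖ ^ 2 ≤ N.indicator (fun z => ‖J z‖ ^ 2) z := by
    intro z
    by_cases hz : z ∈ tsupport g
    · rw [indicator_of_mem (hgN hz), ← norm_gr g z, ← Complex.normSq_eq_norm_sq,
        ← Complex.normSq_eq_norm_sq, Complex.normSq_apply, Complex.normSq_apply]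
      unfold gr
      simp only
      nlinarith [sq_nonneg (fderiv ℝ g z 1 + (J z).re), sq_nonneg (fderiv ℝ g z Complex.I + (J z).im)]
    · have h0 : fderiv ℝ g z = 0 :=
        image_eq_zero_of_notMem_tsupport fun h => hz (tsupport_fderiv_subset ℝ h)
      rw [h0]
      simp
      exact indicator_nonneg (fun _ _ => by positivity) z
  have : ∫ z, (-2 * (fderiv ℝ g z 1 * (J z).re + fderiv ℝ g z Complex.I * (J z).im) -
      ‖fderiv ℝ g z‖ ^ 2) ≤ ∫ z, N.indicator (fun z => ‖J z‖ ^ 2) z :=
    integral_mono ((hi1.const_mul (-2)).sub hi2) hi3 hpt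
  rw [integral_sub (hi1.const_mul (-2)) hi2, integral_const_mul,
    integral_indicator hN.measurableSet] at this
  rw [hsum]
  linarith

end

end Crest.Agent.R144.ConP938
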