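import Crest.Agent.R144.Ph1_311
import Crest.Agent.R144.Cc9_169
import Crest.Agent.R144.Cge4_311

/-!
# R144 (CCW, step B), plane form (helper311)

* `uni_ph` : for `f` local neutral and a finite set `W`, `E_F (f Yb) - ∫ f mean4 Yb dP → 0` uniformly over the
  `4`-periodic functions `Yb` of the heights on `W` bounded by `1`;
* `planeB` : helper169's `stepB` for the plane state.
-/

set_option autoImplicit false

noncomputable section

namespace Crest.Agent.R144.Cpl311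

open Finset Filter Topology MeasureTheory
open Crest.Agent.R144.It844 (P2 Lip adj_symm adj_iff)
open Crest.ProbabilityR.HexHeights (Adj)
open Crest.Agent.R144.Zg349 Crest.Agent.R144.Zk349 Crest.Agent.R144.Zd349 Crest.Agent.R144.Zm349
open Crest.Agent.R144.Ze349
open Crest.Agent.R144.Pst967 (Hz LocZ NeutZ GObs PinnedZ FLim lC scs BLOCK cls_scs mem_lC mem_lC_of_subset
  integrable_gobs nrm lip_bound)
open Crest.Agent.R144.Ph311
open Crest.Agent.R144.Cgeo311
open Crest.Agent.R144.Rsw867 (RSW)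

/-! ### patterns modulo 4 -/

open Classical in
/-- heights on `W`, normalised modulo a multiple of `4` -/
def nm (W : Finset P2) (h : Hz) : Hz := fun v => if v ∈ W then h v - 4 * (h 0 / 4) else 0

theorem nm_mem {W : Finset P2} {h : Hz} {v : P2} (hv : v ∈ W) : nm W h v = h v - 4 * (h 0 / 4) := if_pos hv

theorem nm_loc (W : Finset P2) : LocZ ((insert 0 W : Finset P2) : Set P2) (nm W) := by
  intro h g hg
  funext v
  unfold nm
  have h0 : h 0 = g 0 := hg 0 (by simp)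
  by_cases hv : v ∈ W
  · rw [if_pos hv, if_pos hv, h0, hg v (by simp [hv])]
  · rw [if_neg hv, if_neg hv]

theorem nm_four (W : Finset P2) (h : Hz) : nm W (fun v => h v + 4) = nm W h := by
  funext v
  unfold nm
  by_cases hv : v ∈ W
  · rw [if_pos hv, if_pos hv]
    simp only
    omega
  · rw [if_neg hv, if_neg hv]

/-- a `4`-periodic function of the heights on `W` is a function of `nm` -/
theorem eq_nm {W : Finset P2} {Y : Hz → ℝ} (hl : LocZ (W : Set P2) Y)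
    (h4 : ∀ (h : Hz) (k : ℤ), Y (fun v => h v + 4 * k) = Y h) (h : Hz) : Y (nm W h) = Y h := by
  rw [← h4 h (-(h 0 / 4))]
  refine hl _ _ fun v hv => ?_
  rw [nm_mem hv]
  ring

/-- finitely many patterns -/
theorem finite_nm (W : Finset P2) : ∃ T : Finset Hz, ∀ h : Hz, Lip h → nm W h ∈ T := by
  classical
  set D : ℤ := ((∑ v ∈ W, nrm v : ℕ) : ℤ) with hD
  refine ⟨(W.pi fun _ => Finset.Icc (-D) (D + 3)).image
    fun p v => if hv : v ∈ W then p v hv else 0, fun h hl => ?_⟩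
  rw [Finset.mem_image]
  refine ⟨fun v _ => h v - 4 * (h 0 / 4), ?_, ?_⟩
  · rw [Finset.mem_pi]
    intro v hv
    have h1 := abs_le.1 (lip_bound hl v)
    have h2 : (nrm v : ℤ) ≤ D := by
      rw [hD]
      exact_mod_cast Finset.single_le_sum (f := fun v => nrm v) (fun _ _ => Nat.zero_le _) hv
    rw [Finset.mem_Icc]
    omega
  · funext v
    unfold nm
    by_cases hv : v ∈ W
    · rw [dif_pos hv, if_pos hv]
    · rw [dif_neg hv, if_neg hv]

/-! ### the mean over the phases -/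

theorem mean4_mul {f Y : Hz → ℝ} (hf : NeutZ f) (h : Hz) :
    mean4 (fun h => f h * Y h) h = f h * mean4 Y h := by
  unfold mean4
  have e : ∀ j ∈ Finset.range 4, f (fun v => h v + (j : ℤ)) * Y (fun v => h v + (j : ℤ)) =
      f h * Y (fun v => h v + (j : ℤ)) := fun j _ => by rw [hf]
  rw [Finset.sum_congr rfl e, ← Finset.mul_sum]
  ring

theorem mean4_abs {Y : Hz → ℝ} (hY : ∀ h, |Y h| ≤ 1) (h : Hz) : |mean4 Y h| ≤ 1 := by
  unfold mean4
  rw [abs_mul, abs_of_nonneg (by norm_num : (0 : ℝ) ≤ 1 / 4)]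
  have h1 : |∑ j ∈ Finset.range 4, Y (fun v => h v + (j : ℤ))| ≤ ∑ _j ∈ Finset.range 4, (1 : ℝ) :=
    (Finset.abs_sum_le_sum_abs _ _).trans (Finset.sum_le_sum fun j _ => hY _)
  simp only [Finset.sum_const, Finset.card_range, nsmul_eq_mul] at h1
  push_cast at h1
  linarith

theorem mean4_loc {S : Set P2} {Y : Hz → ℝ} (hY : LocZ S Y) : LocZ S (mean4 Y) := by
  intro h g hg
  unfold mean4
  congr 1
  refine Finset.sum_congr rfl fun j _ => hY _ _ fun v hv => ?_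
  rw [hg v hv]

theorem mean4_sum {ι : Type*} (T : Finset ι) (a : ι → ℝ) (F : ι → Hz → ℝ) {Y : Hz → ℝ}
    (hY : ∀ h, Lip h → Y h = ∑ q ∈ T, a q * F q h) {h : Hz} (hl : Lip h) :
    mean4 Y h = ∑ q ∈ T, a q * mean4 (F q) h := by
  unfold mean4
  have e : ∀ j ∈ Finset.range 4, Y (fun v => h v + (j : ℤ)) =
      ∑ q ∈ T, a q * F q (fun v => h v + (j : ℤ)) := fun j _ => hY _ (hl.add_const _)
  rw [Finset.sum_congr rfl e, Finset.sum_comm, Finset.mul_sum]
  refine Finset.sum_congr rfl fun q _ => ?_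
  rw [← Finset.mul_sum]
  ring

/-- **uniform convergence** -/
theorem uni_ph {c x : ℝ} (hc : 1 ≤ c) (hcx : c * x ^ 2 = 1) (hB : BLOCK c) {P : Measure Hz}
    (hP : PinnedZ P) (hF : ∀ f : Hz → ℝ, GObs f → FLim c f (∫ h, f h ∂P)) {f : Hz → ℝ} (hf : GObs f)
    (W : Finset P2) {ε : ℝ} (hε : 0 < ε) :
    ∀ᶠ F in lC scs, ∀ Y : Hz → ℝ, LocZ (W : Set P2) Y →
      (∀ (h : Hz) (k : ℤ), Y (fun v => h v + 4 * k) = Y h) → (∀ h, |Y h| ≤ 1) →
      |E c F (fun ω => f ω.1 * Y ω.1) - ∫ h, f h * mean4 Y h ∂P| ≤ ε := by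
  classical
  have := hP.prob
  obtain ⟨T, hT⟩ := finite_nm W
  obtain ⟨⟨S, hS⟩, hN⟩ := hf
  set G : Hz → Hz → ℝ := fun q h => (if nm W h = q then 1 else 0) * f h with hG
  have hG4 : ∀ q, Per4 (G q) := by
    intro q
    refine ⟨⟨insert 0 (W ∪ S), fun h g hg => ?_⟩, fun h => ?_⟩
    · simp only [hG]
      rw [nm_loc W h g fun v hv => hg v (by
        simp only [Finset.coe_insert, Set.mem_insert_iff, Finset.mem_coe, Finset.mem_union] at *
        tauto), hS h g fun v hv => hg v (by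
        simp only [Finset.coe_insert, Set.mem_insert_iff, Finset.mem_coe, Finset.mem_union] at *
        tauto)]
    · simp only [hG]
      rw [nm_four, hN]
  have hlim : ∀ q, FLim c (G q) (∫ h, mean4 (G q) h ∂P) := fun q => ph_per4 hc hcx hB hF (hG4 q)
  have hsum : Tendsto (fun F : Finset P2 => ∑ q ∈ T, |E c F (fun ω => G q ω.1) - ∫ h, mean4 (G q) h ∂P|)
      (lC scs) (𝓝 0) := by
    have h1 : Tendsto (fun F : Finset P2 => ∑ q ∈ T, |E c F (fun ω => G q ω.1) -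
        ∫ h, mean4 (G q) h ∂P|) (lC scs) (𝓝 (∑ _q ∈ T, (0 : ℝ))) := by
      refine tendsto_finsetSum _ fun q _ => ?_
      have h2 := (hlim q).sub_const (∫ h, mean4 (G q) h ∂P)
      rw [sub_self] at h2
      have h3 := h2.abs
      rwa [abs_zero] at h3
    rwa [Finset.sum_const_zero] at h1
  filter_upwards [hsum.eventually_le_const hε] with F hFε Y hl h4 hY1
  have hdec : ∀ h : Hz, Lip h → f h * Y h = ∑ q ∈ T, Y q * G q h := by
    intro h hh
    have e : ∀ q ∈ T, Y q * G q h = if nm W h = q then Y q * f h else 0 := by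
      intro q _
      simp only [hG]
      split_ifs <;> ring
    rw [Finset.sum_congr rfl e, Finset.sum_ite_eq, if_pos (hT h hh), eq_nm hl h4]
    ring
  have e1 : E c F (fun ω => f ω.1 * Y ω.1) = ∑ q ∈ T, Y q * E c F (fun ω => G q ω.1) := by
    rw [E_congr (g := fun ω => ∑ q ∈ T, Y q * G q ω.1) fun ω hω => hdec ω.1 hω.ht.toLip, E_sum]
    exact Finset.sum_congr rfl fun q _ => E_smul _ _ _ _
  have e2 : ∫ h, f h * mean4 Y h ∂P = ∑ q ∈ T, Y q * ∫ h, mean4 (G q) h ∂P := by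
    have e3 : ∫ h, f h * mean4 Y h ∂P = ∫ h, ∑ q ∈ T, Y q * mean4 (G q) h ∂P := by
      refine integral_congr_ae ?_
      filter_upwards [hP.lip] with h hh
      rw [← mean4_mul hN]
      exact mean4_sum T (fun q => Y q) G hdec hh
    rw [e3, integral_finsetSum _ fun q _ => (integrable_gobs (gobs_mean4 (hG4 q)) hP.lip).const_mul _]
    exact Finset.sum_congr rfl fun q _ => integral_const_mul _ _
  rw [e1, e2, ← Finset.sum_sub_distrib]
  refine le_trans ((Finset.abs_sum_le_sum_abs _ _).trans (Finset.sum_le_sum fun q _ => ?_)) hFε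
  rw [← mul_sub, abs_mul]
  exact mul_le_of_le_one_left (abs_nonneg _) (hY1 q)

/-- all large simply connected domains are good -/
theorem eventually_inF (g : GP) : ∀ᶠ F in lC scs, SC F ∧ g.InF F := by
  classical
  refine mem_lC.2 ⟨g.SL ∪ g.SL.biUnion fun t =>
    {(t.1 + 1, t.2), (t.1 - 1, t.2), (t.1, t.2 + 1), (t.1, t.2 - 1), (t.1 + 1, t.2 - 1),
      (t.1 - 1, t.2 + 1)}, fun F hF hs => ⟨hF, ⟨fun t ht => hs (Finset.mem_union_left _ ht),
      fun t ht t' ha => hs (Finset.mem_union_right _ (Finset.mem_biUnion.2 ⟨t, ht, ?_⟩))⟩⟩⟩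
  rcases adj_iff.1 ha with h | h | h | h | h | h <;> rw [h] <;> simp

/-- **Step B for the plane state.** -/
theorem planeB {c x : ℝ} {K : ℕ} {p : ℝ} (_hx : 0 < x) (hc : 1 ≤ c) (hcx : c * x ^ 2 = 1) (hR : RSW c K p)
    (hB : BLOCK c) {P : Measure Hz} (hP : PinnedZ P)
    (hF : ∀ f : Hz → ℝ, GObs f → FLim c f (∫ h, f h ∂P)) (hh : ℕ) :
    ∃ (L : ℕ) (C α : ℝ), 1 ≤ L ∧ 0 < C ∧ 0 < α ∧ ∀ g : GP, g.K = K → g.h = hh → g.L = L →
      ∀ f : Hz → ℝ, LocZ (VF g.V0 : Set P2) f → NeutZ f →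
      ∀ Y : Hz → ℝ, GObs Y → LocZ {v : P2 | v ∉ VF g.SL} Y → (∀ h, |Y h| ≤ 1) →
      ∀ ε : ℝ, (∀ Y' : Hz → ℝ, NeutZ Y' → LocZ (VF g.Lay : Set P2) Y' → (∀ h, |Y' h| ≤ 1) →
        |∫ h, f h * Y' h ∂P| ≤ ε) → ∀ t : ℝ, 0 < t →
      |∫ h, f h * Y h ∂P| ≤ ε + t * (C * Real.exp (-(α * g.m))) + t⁻¹ * ∫ h, f h ^ 2 ∂P := by
  obtain ⟨L, C, α, hL, hC, hα, key⟩ := E2_le hc hR hh
  refine ⟨L, C, α, hL, hC, hα, fun g hgK hgh hgL f hfl hfn Y hYg hYl hY1 ε hε t ht => ?_⟩
  have hne := cls_scs.neBot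
  have hfG : GObs f := ⟨⟨VF g.V0, hfl⟩, hfn⟩
  have hq0 : 0 < p ^ g.nstk := pow_pos hR.p0 _
  have hq1 : p ^ g.nstk ≤ 1 := pow_le_one₀ hR.p0.le (by linarith [hR.p1])
  have hV0SL : g.V0 ⊆ g.SL := by
    have h1 := GP.H_ge (g := g)
    have h2 := g.w_pos
    have h3 := g.W_le (Nat.zero_le g.m)
    have h4 : g.W 0 = g.w0 * g.w := by unfold GP.W GP.Wn; push_cast; ring
    exact Box_mono le_rfl (by omega) (by omega) (by omega)
  have hVL : Disjoint g.V0 g.Lay := by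
    rw [Finset.disjoint_left]
    intro v hv hv'
    unfold GP.V0 at hv
    rw [mem_Box] at hv
    have := (GP.mem_Lay.1 hv').2
    omega
  refine le_of_forall_pos_le_add fun η hη => ?_
  set η' : ℝ := η / (2 + t⁻¹) with hη'
  have ht' : 0 < t⁻¹ := inv_pos.2 ht
  have hη'0 : 0 < η' := by positivity
  have a1 := (Metric.tendsto_nhds.1 (hF _ (hfG.map₂ hYg fun a b => a * b))) η' hη'0
  have a2 := (Metric.tendsto_nhds.1 (hF _ (hfG.comp fun a => a ^ 2))) η' hη'0
  have a3 := uni_ph hc hcx hB hP hF hfG (VF g.Lay) hη'0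
  obtain ⟨F, ⟨hSC, hInF⟩, b1, b2, b3⟩ := ((eventually_inF g).and (a1.and (a2.and a3))).exists
  set s := g.st F hInF with hs
  obtain ⟨Yb, c1, c2, c3, c4⟩ := Crest.Agent.R144.Cc169.St.stepB (s := s) hc hq0 hq1
    (GP.chain0 (g := g) (F := F) (hF := hInF) hc hR) hV0SL hVL (f := f) hfl
    (fun h k => hfn h (4 * k)) (Y := Y) hYl hY1
  have d1 := c4 t ht
  have d2 := key g hgK hgh hgL F hInF hSC
  have d3 := b3 Yb c1 c3 c2
  have d4 := hε (mean4 Yb) (gobs_mean4 (f := Yb) ⟨⟨VF g.Lay, c1⟩, fun h => by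
    have := c3 h 1
    rwa [mul_one] at this⟩).neut (mean4_loc c1) (mean4_abs c2)
  rw [Real.dist_eq] at b1 b2
  have e1 : s.F = F := rfl
  rw [e1] at d1
  have f1 : t * s.E2 c (fun ω ω' => s.Kp (p ^ g.nstk) g.bk g.m ω ω' ^ 2) ≤
      t * (C * Real.exp (-(α * g.m))) := mul_le_mul_of_nonneg_left d2 ht.le
  have f2 : t⁻¹ * E c F (fun ω => f ω.1 ^ 2) ≤ t⁻¹ * (∫ h, f h ^ 2 ∂P + η') :=
    mul_le_mul_of_nonneg_left (by have := (abs_lt.1 b2).2; linarith) ht'.le
  have f3 : (2 + t⁻¹) * η' = η := by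
    rw [hη']
    field_simp
  have g1 := abs_lt.1 b1
  have g2 := abs_le.1 d1
  have g3 := abs_le.1 d3
  have g4 := abs_le.1 d4
  rw [abs_le]
  constructor
  · nlinarith
  · nlinarith

end Crest.Agent.R144.Cpl311
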