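import Crest.Agent.R144.Lyf3_792
import Crest.Agent.R144.Cmp2_880
import Crest.Agent.R144.Shl_830
import Crest.Agent.R144.Dom4_136

/-!
# R144 (helper830), S5: contiguity of the domain laws (`DomContig`)

* `sc_ID` : the triangles inside a simply connected set of sites;
* `hh_congr` : `HH K0 s` is seen from `nb K0 (5 s + 1)`;
* `seen_ind` : neutral local events are seen from a connected seed;
* `bound` : one volume;
* `domContig` : `Dom136.DomContig x`.
-/

set_option autoImplicit false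

noncomputable section

namespace Crest.Agent.R144.Ctg830

open Finset Filter Topology MeasureTheory
open Crest.Agent.R144.It844 (P2 Lip adj_iff adj_symm upT ex pr ex_add_const)
open Crest.Agent.R144.Zg349 Crest.Agent.R144.Zd349 Crest.Agent.R144.Zm349 Crest.Agent.R144.Ze349
open Crest.Agent.R144.Zs349 Crest.Agent.R144.Zo349
open Crest.Agent.R144.Pst967 (path_symm Hz LocZ NeutZ GObs FLim scs lC PinnedZ)
open Crest.Agent.R144.Rsw867 (RSW ball mem_ball ball_mono adj_ball path_mono first_hit)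
open Crest.Agent.R144.Rw146 (adj_iff_share)
open Crest.Agent.R144.Tvp643 (In)
open Crest.Agent.R144.CuP880 (nb NoP HH)
open Crest.Agent.R144.Cmp880 (LvI Seen dom_cmp fl sc_fl fl_sub sub_fl fl_mono LayE lay_lemma opC_of_wt
  LvI_of In_of rsw_layer_nb mem_nb nb_mono_r sub_nb adj_nb base_adj LvI_nonneg LvI_le_one)
open Crest.ProbabilityR.HexHeights (Adj centre)
open Relation (ReflTransGen)

/-! ### triangles inside a set of sites -/

theorem sc_ID {Λ : Finset P2} (hΛ : SC Λ) : SC (ID Λ) := by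
  have hsub : ((Λ : Finset P2) : Set P2)ᶜ ⊆ ((ID Λ : Finset P2) : Set P2)ᶜ :=
    Set.compl_subset_compl.2 (Finset.coe_subset.2 (ID_sub Λ))
  -- a triangle off `ID Λ` is joined to a site off `Λ`
  have key : ∀ t, t ∉ ID Λ → ∃ v, v ∉ Λ ∧
      ReflTransGen (StepIn ((ID Λ : Finset P2) : Set P2)ᶜ) t v := by
    intro t ht
    have h1 : ∃ v ∈ up t, v ∉ Λ := by
      by_contra h2
      push Not at h2
      exact ht (mem_ID.2 ⟨h2 _ (mem_up.2 (Or.inl rfl)), h2 _ (mem_up.2 (Or.inr (Or.inl rfl))),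
        h2 _ (mem_up.2 (Or.inr (Or.inr rfl)))⟩)
    obtain ⟨v, hv, hvΛ⟩ := h1
    refine ⟨v, hvΛ, ?_⟩
    rcases base_adj hv with rfl | h3
    · exact ReflTransGen.refl
    · exact ReflTransGen.single ⟨fun h4 => ht (Finset.mem_coe.1 h4),
        fun h4 => hvΛ (ID_sub Λ (Finset.mem_coe.1 h4)), h3⟩
  intro t ht t' ht'
  obtain ⟨v, hv, p⟩ := key t fun h => ht (Finset.mem_coe.2 h)
  obtain ⟨v', hv', p'⟩ := key t' fun h => ht' (Finset.mem_coe.2 h)
  have q := hΛ v (fun h => hv (Finset.mem_coe.1 h)) v' (fun h => hv' (Finset.mem_coe.1 h))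
  exact p.trans ((path_mono hsub q).trans (path_symm p'))

theorem VF_ID (Λ : Finset P2) : VF (ID Λ) ⊆ Λ := by
  intro v hv
  obtain ⟨t, ht, hvt⟩ := mem_VF.1 hv
  obtain ⟨h1, h2, h3⟩ := mem_ID.1 ht
  rcases mem_up.1 hvt with rfl | rfl | rfl
  · exact h1
  · exact h2
  · exact h3

theorem nb_sub_ID {K0 Λ : Finset P2} {r : ℕ} (h : nb K0 (r + 1) ⊆ Λ) : nb K0 r ⊆ ID Λ := by
  intro t ht
  have key : ∀ v ∈ up t, v ∈ Λ := by
    intro v hv
    rcases base_adj hv with rfl | h1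
    · exact h (nb_mono_r (by omega) ht)
    · exact h (adj_nb le_rfl ht h1)
  exact mem_ID.2 ⟨key _ (mem_up.2 (Or.inl rfl)), key _ (mem_up.2 (Or.inr (Or.inl rfl))),
    key _ (mem_up.2 (Or.inr (Or.inr rfl)))⟩

/-! ### locality of the level loops -/

theorem nop_of {S S' : Set P2} {K0 : Finset P2} {a b : ℕ} (hab : a ≤ b)
    (h : ∀ v ∈ nb K0 (b + 1), v ∈ S → v ∈ S') (hn : NoP S' (nb K0 a) (nb K0 b)) :
    NoP S (nb K0 a) (nb K0 b) := by
  intro u v hu hv p
  have hv' : v ∉ {w : P2 | w ∉ nb K0 b} := fun h1 => h1 (nb_mono_r hab hv)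
  rcases first_hit {w : P2 | w ∉ nb K0 b} hv' (path_symm p) with ⟨h1, _⟩ | ⟨w, hw, q⟩
  · exact h1 hu
  · refine hn w v hw hv (path_symm (path_mono ?_ q))
    rintro t ⟨h1, h2⟩
    refine h t ?_ h1
    rcases h2 with h2 | ⟨t', h2, h3⟩
    · exact nb_mono_r (by omega) (not_not.1 h2)
    · exact adj_nb le_rfl (not_not.1 h2) h3

theorem hh_of {K0 : Finset P2} {s : ℕ} {g h : Hz} (hgh : ∀ v ∈ nb K0 (5 * s + 1), g v = h v)
    (hg : g ∈ HH K0 s) : h ∈ HH K0 s := by
  obtain ⟨h1, h2, h3, h4⟩ := hg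
  have m : ∀ k, k ≤ 5 → ∀ v ∈ nb K0 (k * s + 1), g v = h v := fun k hk v hv =>
    hgh v (nb_mono_r (by have := Nat.mul_le_mul_right s hk; omega) hv)
  refine ⟨nop_of (by omega) (fun v hv hh => ?_) h1, nop_of (by omega) (fun v hv hh => ?_) h2,
    nop_of (by omega) (fun v hv hh => ?_) h3, nop_of (by omega) (fun v hv hh => ?_) h4⟩
  · have e := m 2 (by norm_num) v hv
    rw [Set.mem_ofPred_eq] at *
    rw [e]; exact hh
  · have e := m 3 (by norm_num) v hv
    rw [Set.mem_ofPred_eq] at *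
    rw [e]; exact hh
  · have e := m 4 (by norm_num) v hv
    rw [Set.mem_ofPred_eq] at *
    rw [e]; exact hh
  · have e := m 5 le_rfl v hv
    rw [Set.mem_ofPred_eq] at *
    rw [e]; exact hh

theorem off_one {K0 : Finset P2} {s : ℕ} (hs : 1 ≤ s) (b : ℕ) :
    Cu867.Off (Cu867.sh K0 (6 * s) b) (Cu867.one (Cu867.H4 K0 s)) := by
  intro g h hgh
  have key : ∀ v ∈ nb K0 (5 * s + 1), g v = h v := fun v hv => hgh v fun h1 =>
    (Cu867.mem_sh.1 h1).2 (nb_mono_r (by omega) hv)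
  refine Cu867.one_congr ?_
  rw [← Lyf792.hh_eq]
  exact ⟨hh_of key, hh_of fun v hv => (key v hv).symm⟩

/-! ### neutral local events -/

theorem lev_const' {W B : Finset P2} (hW : SC W) (hBW : B ⊆ W) (hB : IsConn (B : Set P2)) {ω : Cfg}
    (hl : Lip ω.1) (hL : Lay true W ω) {v w : P2} (hv : v ∈ B) (hw : w ∈ B) :
    lev true W ω v = lev true W ω w := by
  have tri : ∀ s ∈ W, ∀ x ∈ up s, ∀ y ∈ up s, lev true W ω x = lev true W ω y := by
    intro s hs x hx y hy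
    obtain ⟨i, rfl⟩ := mem_up_iff.1 hx
    obtain ⟨j, rfl⟩ := mem_up_iff.1 hy
    exact lev_tri hW hl hL hs i j
  have key : ∀ s, ReflTransGen (StepIn (B : Set P2)) v s →
      ∀ y ∈ up s, lev true W ω v = lev true W ω y := by
    intro s hs
    induction hs with
    | refl => exact fun y hy => tri v (hBW hv) v (base_mem_up v) y hy
    | @tail b d _ hbd ih =>
      intro y hy
      obtain ⟨_, x, hx1, hx2⟩ := adj_iff_share.1 hbd.2.2
      rw [ih x hx1]
      exact tri d (hBW (Finset.mem_coe.1 hbd.2.1)) x hx2 y hy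
  exact key w (hB v hv w hw) w (base_mem_up w)

open Classical in
/-- indicator of a height event -/
def iA (A : Set Hz) (h : Hz) : ℝ := if h ∈ A then 1 else 0

theorem iA_nonneg (A : Set Hz) (h : Hz) : 0 ≤ iA A h := by unfold iA; split_ifs <;> norm_num
theorem iA_le_one (A : Set Hz) (h : Hz) : iA A h ≤ 1 := by unfold iA; split_ifs <;> norm_num

theorem iA_congr {A : Set Hz} {g h : Hz} (e : (g ∈ A) = (h ∈ A)) : iA A g = iA A h := by
  unfold iA
  by_cases hg : g ∈ A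
  · rw [if_pos hg, if_pos (e ▸ hg)]
  · rw [if_neg hg, if_neg (e ▸ hg)]

theorem seen_ind {K0 T : Finset P2} (hT : T ⊆ K0) (hB : K0.Nonempty) (hBc : IsConn (K0 : Set P2))
    {A : Set Hz} (hA : LocZ (T : Set P2) (fun h => h ∈ A)) (hN : NeutZ (fun h => h ∈ A)) :
    Seen K0 fun ω => iA A ω.1 := by
  intro W hW hBW ω ω' hl hL _
  obtain ⟨b, hb⟩ := hB
  refine iA_congr ?_
  have h1 : ((glue true W ω ω').1 ∈ A) = ((fun v => ω'.1 v + lev true W ω b) ∈ A) := by
    refine hA _ _ fun v hv => ?_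
    have hvK : v ∈ K0 := hT (Finset.mem_coe.1 hv)
    rw [glue_in (mem_VF.2 ⟨v, hBW hvK, base_mem_up v⟩), lev_const' hW hBW hBc hl hL hvK hb]
    exact add_comm _ _
  rw [h1]
  exact hN ω'.1 _

/-! ### one volume -/

/-- the exponent -/
def Nx (R : ℕ) : ℕ := (2 * (3 * R + 1) + 1) ^ 2

theorem expo_le (R s : ℕ) (hs : 2 ≤ s) :
    (2 * ((R * s + (s / 2) / 2) / (2 * ((s / 2) / 2) + 1)) + 1) ^ 2 ≤ Nx R := by
  unfold Nx
  set q := (s / 2) / 2 with hq
  have h1 : s ≤ 3 * (2 * q + 1) := by omega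
  have h2 : (R * s + q) / (2 * q + 1) ≤ 3 * R + 1 := by
    rw [Nat.div_le_iff_le_mul_add_pred (by omega)]
    have h3 : R * s ≤ R * (3 * (2 * q + 1)) := Nat.mul_le_mul_left R h1
    have h4 : R * (3 * (2 * q + 1)) = (2 * q + 1) * (3 * R) := by ring
    have h5 : (2 * q + 1) * (3 * R + 1) = (2 * q + 1) * (3 * R) + (2 * q + 1) := by ring
    omega
  exact Nat.pow_le_pow_left (by omega) 2

/-- **One volume.** -/
theorem bound {x : ℝ} (hx0 : 0 < x) (hx1 : x ≤ 1) {K : ℕ} {p : ℝ} (hR : RSW ((x ^ 2)⁻¹) K p)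
    {F Λ K0 T : Finset P2} {R s : ℕ} (hs : 2 ≤ s) (hΛ : SC Λ) (hΛR : Λ ⊆ ball 0 (R * s))
    (hK0 : K0.Nonempty) (hKc : IsConn (K0 : Set P2)) (hnb : nb K0 (30 * s) ⊆ Λ) (hF : SC F)
    (hΛF : Λ ⊆ F) {τ : Hz} (hτ : Lip τ) (hT : T ⊆ K0) {A : Set Hz}
    (hA : LocZ (T : Set P2) (fun h => h ∈ A)) (hN : NeutZ (fun h => h ∈ A)) :
    p ^ Nx R * ex x Λ τ (fun h => iA A h * Cu867.one (Cu867.H4 K0 s) h *
      Cu867.one (Cu867.H4 K0 (6 * s)) h) ≤ E ((x ^ 2)⁻¹) F (fun ω => iA A ω.1) := by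
  set c := (x ^ 2)⁻¹ with hcdef
  have hc : 1 ≤ c := Pst967.one_le_c hx0 hx1
  have hcx : c * x ^ 2 = 1 := by rw [hcdef]; field_simp
  have hp0 := hR.p0
  have hp1 := hR.p1
  set F₁ := ID Λ with hF₁
  have hF₁s : SC F₁ := sc_ID hΛ
  have hF₁F : F₁ ⊆ F := (ID_sub Λ).trans hΛF
  set f : Cfg → ℝ := fun ω => iA A ω.1 with hf
  have hseen : Seen K0 f := seen_ind hT hK0 hKc hA hN
  have hsub : ∀ r, r + 1 ≤ 30 * s → nb K0 r ⊆ F₁ := fun r hr => nb_sub_ID ((nb_mono_r hr).trans hnb)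
  have h3 := hsub (3 * s) (by omega)
  have h6 := hsub (6 * s - 1) (by omega)
  have h18 := hsub (18 * s + 1) (by omega)
  -- the comparison
  have cmp := dom_cmp (c := c) hc (Λ := Λ) (ξ := τ) hτ (F := F) (D' := fl F₁ (nb K0 (18 * s + 1)))
    (D := fl F₁ (nb K0 (6 * s - 1))) (K := fl F₁ (nb K0 (3 * s))) (B0 := K0)
    (sc_fl hF₁s h18) ((VF_mono (fl_sub F₁ _)).trans (VF_ID Λ)) (sc_fl hF₁s h6)
    ((fl_sub F₁ _).trans hF₁F) (sc_fl hF₁s h3) (fl_mono (nb_mono_r (by omega)))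
    ((sub_nb K0 _).trans (sub_fl h3)) hK0 hKc (f := f) (g := fun _ => 1)
    (fun ω => iA_nonneg A _) hseen (fun _ => zero_le_one) (fun _ _ _ _ => rfl)
  rw [E0_const hc hτ, mul_one] at cmp
  -- the probability of the middle layer
  have hlow : p ^ Nx R ≤ E c F (LvI (fl F₁ (nb K0 (3 * s))) (fl F₁ (nb K0 (6 * s - 1)))) := by
    have hm : 1 ≤ s / 2 := by omega
    have h1 := rsw_layer_nb hc hR hF hm (a := 0) (R := R * s) (K0 := K0) (r := 3 * s + 1)
      (((nb_mono_r (by omega)).trans hnb).trans hΛR)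
    refine (pow_le_pow_of_le_one hp0.le (by linarith) (expo_le R s hs)).trans (h1.trans ?_)
    refine E_mono hc fun ω _ => ?_
    by_cases hω : ω ∈ LayE (nb K0 (3 * s + 1)) (nb K0 (3 * s + 1 + 3 * (s / 2)))
    · rw [LvI_of (nb_mono_r (by omega)) (fun t ht u hu => adj_nb le_rfl ht hu)
        (nb_mono_r (by omega)) (nb_mono_r (by omega)) (fun t ht u hu => adj_nb (by omega) ht hu) h6 hω]
      exact Rsw867.ind_le_one _ _
    · rw [Rsw867.ind_of_not_mem hω]
      exact LvI_nonneg _ _ _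
  -- the height event forces the layers
  have hup : ex x Λ τ (fun h => iA A h * Cu867.one (Cu867.H4 K0 s) h *
      Cu867.one (Cu867.H4 K0 (6 * s)) h) ≤
      E0 c Λ τ (fun ω => LvI (fl F₁ (nb K0 (6 * s - 1))) (fl F₁ (nb K0 (18 * s + 1))) ω *
        (1 * (Rsw867.ind (In (fl F₁ (nb K0 (3 * s))) K0) ω * f ω))) := by
    rw [← E0_height hcx Λ τ]
    refine E0_mono hc fun ω hω hw => ?_
    have hl : Lip ω.1 := (mem_cf.1 hω).1.1
    have hO := opC_of_wt (mem_cf.1 hω).2 hw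
    have hnn : 0 ≤ LvI (fl F₁ (nb K0 (6 * s - 1))) (fl F₁ (nb K0 (18 * s + 1))) ω *
        (1 * (Rsw867.ind (In (fl F₁ (nb K0 (3 * s))) K0) ω * f ω)) :=
      mul_nonneg (LvI_nonneg _ _ _) (mul_nonneg zero_le_one
        (mul_nonneg (Rsw867.ind_nonneg _ _) (iA_nonneg _ _)))
    by_cases g1 : ω.1 ∈ Cu867.H4 K0 s
    · by_cases g2 : ω.1 ∈ Cu867.H4 K0 (6 * s)
      · have g1' := g1
        have g2' := g2
        rw [← Lyf792.hh_eq] at g1' g2'
        obtain ⟨a1, a2, -, -⟩ := g1'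
        obtain ⟨b1, b2, -, -⟩ := g2'
        have l1 : ω ∈ LayE (nb K0 s) (nb K0 (3 * s)) :=
          lay_lemma hl hO (nb_mono_r (by omega)) (nb_mono_r (by omega)) a1 a2
        have l2 : ω ∈ LayE (nb K0 (6 * s)) (nb K0 (3 * (6 * s))) :=
          lay_lemma hl hO (nb_mono_r (by omega)) (nb_mono_r (by omega)) b1 b2
        have e1 : LvI (fl F₁ (nb K0 (6 * s - 1))) (fl F₁ (nb K0 (18 * s + 1))) ω = 1 :=
          LvI_of (nb_mono_r (by omega)) (fun t ht u hu => adj_nb (by omega) ht hu)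
            (nb_mono_r (by omega)) (nb_mono_r (by omega)) (fun t ht u hu => adj_nb (by omega) ht hu)
            h18 l2
        have e2 : ω ∈ In (fl F₁ (nb K0 (3 * s))) K0 :=
          In_of (sub_nb K0 _) (fun t ht u hu => nb_mono_r (by omega)
            (adj_nb (r := 0) (r' := 1) le_rfl (sub_nb K0 0 ht) hu)) h3 l1
        rw [e1, Rsw867.ind_of_mem e2, Cu867.one_of_mem g1, Cu867.one_of_mem g2]
        simp [hf]
      · rw [Cu867.one_of_not_mem g2, mul_zero]; exact hnn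
    · rw [Cu867.one_of_not_mem g1, mul_zero, zero_mul]; exact hnn
  have hE0 : 0 ≤ E0 c Λ τ (fun ω => LvI (fl F₁ (nb K0 (6 * s - 1))) (fl F₁ (nb K0 (18 * s + 1))) ω *
        (1 * (Rsw867.ind (In (fl F₁ (nb K0 (3 * s))) K0) ω * f ω))) :=
    E0_nonneg hc fun ω _ => mul_nonneg (LvI_nonneg _ _ _) (mul_nonneg zero_le_one
        (mul_nonneg (Rsw867.ind_nonneg _ _) (iA_nonneg _ _)))
  calc p ^ Nx R * ex x Λ τ (fun h => iA A h * Cu867.one (Cu867.H4 K0 s) h *
      Cu867.one (Cu867.H4 K0 (6 * s)) h)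
      ≤ p ^ Nx R * E0 c Λ τ (fun ω => LvI (fl F₁ (nb K0 (6 * s - 1))) (fl F₁ (nb K0 (18 * s + 1))) ω *
        (1 * (Rsw867.ind (In (fl F₁ (nb K0 (3 * s))) K0) ω * f ω))) :=
        mul_le_mul_of_nonneg_left hup (by positivity)
    _ ≤ E c F (LvI (fl F₁ (nb K0 (3 * s))) (fl F₁ (nb K0 (6 * s - 1)))) *
        E0 c Λ τ (fun ω => LvI (fl F₁ (nb K0 (6 * s - 1))) (fl F₁ (nb K0 (18 * s + 1))) ω *
        (1 * (Rsw867.ind (In (fl F₁ (nb K0 (3 * s))) K0) ω * f ω))) :=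
        mul_le_mul_of_nonneg_right hlow hE0
    _ ≤ E c F f := cmp

/-! ### contiguity -/

theorem iA_eq_ind (A : Set Hz) : Dom136.ind A = iA A := rfl

theorem integral_iA {P : Measure Hz} {T : Finset P2} {A : Set Hz}
    (hA : LocZ (T : Set P2) (fun h => h ∈ A)) : ∫ h, iA A h ∂P = P.real A := by
  have hm : MeasurableSet A := measurableSet_setOf.2 (Pst967.measurable_of_loc ⟨T, hA⟩)
  have e : iA A = A.indicator 1 := by
    funext h
    unfold iA
    by_cases hh : h ∈ A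
    · rw [if_pos hh, Set.indicator_of_mem hh]; rfl
    · rw [if_neg hh, Set.indicator_of_notMem hh]
  rw [e, integral_indicator_one hm]

theorem gobs_iA {T : Finset P2} {A : Set Hz} (hA : LocZ (T : Set P2) (fun h => h ∈ A))
    (hN : NeutZ (fun h => h ∈ A)) : GObs (iA A) :=
  ⟨⟨T, fun g h hgh => iA_congr (hA g h hgh)⟩, fun h k => iA_congr (hN h k)⟩

/-- **contiguity of the domain laws with respect to the plane law** -/
theorem domContig (x : ℝ) : Dom136.DomContig x := by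
  intro P κ hP D γ Q δ Λ τ hS _ _ K hK hKD η hη
  have hc := Pst967.one_le_c hP.x0 hP.x1
  obtain ⟨K1, p, hR⟩ := hP.rsw.rsw hc
  obtain ⟨R, s, hR1, hs, K0, hev⟩ := Shl830.shell hS hK hKD 30
  have hCU := Lyf792.cu0 hP.x0 hP.x1 hR
  obtain ⟨C1, s1, hC1, H1⟩ := hCU R (η / 2) (by positivity)
  have hC1' : 0 < C1 := by linarith
  obtain ⟨C2, s2, hC2, H2⟩ := hCU R (η / (2 * C1)) (by positivity)
  have hC2' : 0 < C2 := by linarith
  have hp0 := hR.p0
  have hpN : 0 < p ^ Nx R := by positivity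
  refine ⟨C1 * C2 / p ^ Nx R, by positivity, ?_⟩
  filter_upwards [hev, hs.eventually_ge_atTop (max 2 (max s1 s2))] with n hn hsn T A hT hA hN
  obtain ⟨n1, n2, n3, n4, n5, n6⟩ := hn
  have hs2 : 2 ≤ s n := le_trans (le_max_left _ _) hsn
  have hsa : s1 ≤ s n := le_trans (le_trans (le_max_left _ _) (le_max_right _ _)) hsn
  have hsb : s2 ≤ 6 * s n := le_trans (le_trans (le_max_right _ _) (le_max_right _ _)) (hsn.trans (by omega))
  have hTK : T ⊆ K0 n := fun v hv => n1 v (hT v hv)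
  -- shift the boundary values
  set τ' : Hz := fun v => τ n v + 1 with hτ'
  have hd : ∀ v, τ' v = 0 ∨ τ' v = 1 := fun v => by
    rcases hS.data n v with h | h
    · left; rw [hτ']; simp only [h]; norm_num
    · right; rw [hτ']; simp only [h]; norm_num
  have hL : Lip τ' := fun u v _ => by
    rw [abs_le]
    rcases hd u with h | h <;> rcases hd v with h' | h' <;> rw [h, h'] <;> norm_num
  have e0 : pr x (Λ n) (τ n) A = ex x (Λ n) τ' (iA A) := by
    rw [Dom136.pr_eq, iA_eq_ind, hτ', ex_add_const]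
    refine It844.ex_congr fun h _ => ?_
    exact (iA_congr (hN h 1)).symm
  rw [e0]
  have hnn : (K0 n).biUnion (fun v => ball v (30 * s n)) ⊆ Λ n := n4
  have hnb : nb (K0 n) (30 * s n) ⊆ Λ n := n4
  -- two applications of `CU0`
  have hG : Cu867.Off (Cu867.sh (K0 n) (s n) (5 * s n)) (iA A) := by
    intro g h hgh
    refine iA_congr (hA g h fun v hv => hgh v fun h1 => (Cu867.mem_sh.1 h1).2 ?_)
    exact sub_nb (K0 n) _ (hTK (Finset.mem_coe.1 hv))
  have i1 := H1 (s n) hsa 0 (Λ n) (K0 n) n2 n5 ((nb_mono_r (by omega)).trans hnb) τ' hL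
    (fun v _ => by rcases hd v with h | h <;> omega) (fun v _ => by rcases hd v with h | h <;> omega)
    (iA A) (iA_nonneg A) (iA_le_one A) hG
  have hG2 : Cu867.Off (Cu867.sh (K0 n) (6 * s n) (5 * (6 * s n)))
      (fun h => iA A h * Cu867.one (Cu867.H4 (K0 n) (s n)) h) := by
    refine Cu867.Off.mul ?_ (off_one (by omega) _)
    intro g h hgh
    refine iA_congr (hA g h fun v hv => hgh v fun h1 => (Cu867.mem_sh.1 h1).2 ?_)
    exact sub_nb (K0 n) _ (hTK (Finset.mem_coe.1 hv))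
  have i2 := H2 (6 * s n) hsb 0 (Λ n) (K0 n) n2 (n5.trans (ball_mono 0 (Nat.mul_le_mul_left R (by omega))))
    (by rw [← mul_assoc]; exact hnb) τ' hL
    (fun v _ => by rcases hd v with h | h <;> omega) (fun v _ => by rcases hd v with h | h <;> omega)
    (fun h => iA A h * Cu867.one (Cu867.H4 (K0 n) (s n)) h)
    (fun h => mul_nonneg (iA_nonneg A h) (Cu867.one_nonneg _ _))
    (fun h => mul_le_one₀ (iA_le_one A h) (Cu867.one_nonneg _ _) (Cu867.one_le_one _ _)) hG2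
  set X := ex x (Λ n) τ' (fun h => iA A h * Cu867.one (Cu867.H4 (K0 n) (s n)) h *
      Cu867.one (Cu867.H4 (K0 n) (6 * s n)) h) with hX
  -- comparison with the plane
  have hlim := hP.flim (iA A) (gobs_iA hA hN)
  rw [integral_iA hA] at hlim
  have hne := Pst967.cls_scs.neBot
  have i3 : p ^ Nx R * X ≤ P.real A := by
    refine ge_of_tendsto hlim ?_
    refine Pst967.mem_lC.2 ⟨Λ n, fun F hF hΛF => ?_⟩
    exact bound hP.x0 hP.x1 hR hs2 n6 n5 n2 n3 hnb hF hΛF hL hTK hA hN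
  have i4 : X ≤ P.real A / p ^ Nx R := by
    rw [le_div_iff₀ hpN, mul_comm]
    exact i3
  have i5 : ex x (Λ n) τ' (iA A) ≤ η / 2 + C1 * (η / (2 * C1) + C2 * (P.real A / p ^ Nx R)) := by
    refine i1.trans ?_
    have h7 : ex x (Λ n) τ' (fun h => iA A h * Cu867.one (Cu867.H4 (K0 n) (s n)) h) ≤
        η / (2 * C1) + C2 * (P.real A / p ^ Nx R) :=
      i2.trans (by have := mul_le_mul_of_nonneg_left i4 hC2'.le; linarith)
    have := mul_le_mul_of_nonneg_left h7 hC1'.le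
    linarith
  refine i5.trans (le_of_eq ?_)
  field_simp
  ring

end Crest.Agent.R144.Ctg830
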