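import Crest.Agent.R144.Cu2_867

/-!
# R144, S5 (contiguity), uniform form, part 3 (helper867): four shells, `CU`
-/

set_option autoImplicit false

noncomputable section

namespace Crest.Agent.R144.Cu867

open Finset
open Crest.Agent.R144.It844
open Crest.Agent.R144.Zg349 (StepIn)
open Crest.Agent.R144.Rsw867 (ball mem_ball ball_mono adj_ball path_mono Sepr)
open Crest.ProbabilityR.HexHeights (Adj)
open Relation (ReflTransGen)

/-- reflection -/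
def rf (h : Hz) : Hz := fun v => 1 - h v

theorem rf_rf (h : Hz) : rf (rf h) = h := by
  funext v; unfold rf; ring

theorem lip_rf {τ : Hz} (h : Lip τ) : Lip (rf τ) := fun u v huv => by
  have := h u v huv
  unfold rf
  rw [abs_le] at *
  omega

theorem ex_rf (x : ℝ) (Λ : Finset P2) (τ : Hz) (f : Hz → ℝ) :
    ex x Λ (rf τ) f = ex x Λ τ (fun h => f (rf h)) := by
  have e1 : rf τ = fun v => (fun v => - τ v) v + 1 := by funext v; unfold rf; ring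
  rw [e1, ex_add_const x Λ (fun v => - τ v) 1 f, ex_neg]
  refine ex_congr fun h _ => ?_
  congr 1
  funext v
  unfold rf
  ring

theorem ex_rf' (x : ℝ) (Λ : Finset P2) (τ : Hz) (f : Hz → ℝ) :
    ex x Λ τ f = ex x Λ (rf τ) (fun h => f (rf h)) := by
  have h1 := ex_rf x Λ (rf τ) f
  rw [rf_rf] at h1
  exact h1

/-- **one shell, the other sign** -/
theorem p1' {x : ℝ} (hx0 : 0 < x) (hx1 : x ≤ 1) {K : ℕ} {q : ℝ} (hq : 0 < q) (hq1 : q ≤ 1)
    (hC : Climb x K q) (hK : 2 ≤ K) (hcov : COV K) (hT : TightHi x) {R : ℕ} (hR : 1 ≤ R) {η : ℝ}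
    (hη : 0 < η) : ∃ (C : ℝ) (s0 : ℕ), 1 ≤ C ∧ ∀ s ≥ s0, ∀ (o : P2) (Λ K0 : Finset P2), K0.Nonempty →
      Λ ⊆ ball o (R * s) → ∀ r : ℕ, r + s ≤ R * s → nb K0 (r + s) ⊆ Λ → ∃ A : Set Hz,
        A ⊆ Dn K0 r (r + s) ∧ (∀ S, Disjoint (sh K0 r (r + s)) S → Off S (one A)) ∧
        ∀ τ : Hz, Lip τ → (∀ v, v ∉ Λ → 0 ≤ τ v) → ∀ G : Hz → ℝ, (∀ h, 0 ≤ G h) → (∀ h, G h ≤ 1) →
          Off (sh K0 r (r + s)) G → ex x Λ τ G ≤ η + C * ex x Λ τ (fun h => G h * one A h) := by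
  obtain ⟨C, s0, hC1, H⟩ := p1 hx0 hx1 hq hq1 hC hK hcov hT hR hη
  refine ⟨C, s0, hC1, fun s hs o Λ K0 hK0 hΛ r hr hnb => ?_⟩
  obtain ⟨A, hA1, hA2, hA3⟩ := H s hs o Λ K0 hK0 hΛ r hr hnb
  have hone : ∀ h, one {h | rf h ∈ A} (rf h) = one A h := by
    intro h
    refine one_congr ?_
    show rf (rf h) ∈ A ↔ _
    rw [rf_rf]
  refine ⟨{h | rf h ∈ A}, ?_, ?_, ?_⟩
  · intro h hh u hu v hv p
    refine hA1 hh u hu v hv (path_mono (fun w hw => ?_) p)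
    have h1 : h w ≤ 0 := hw
    show 1 ≤ rf h w
    unfold rf
    omega
  · intro S hS a b hab
    have h1 := hA2 S hS (rf a) (rf b) (fun v hv => by unfold rf; rw [hab v hv])
    rw [← hone, ← hone, rf_rf, rf_rf] at h1
    exact h1
  · intro τ hτ hτ0 G hG0 hG1 hG
    have h1 := hA3 (rf τ) (lip_rf hτ) (fun v hv => by have := hτ0 v hv; unfold rf; omega)
      (fun h => G (rf h)) (fun h => hG0 _) (fun h => hG1 _)
      (fun a b hab => hG _ _ fun v hv => by unfold rf; rw [hab v hv])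
    rw [ex_rf' x Λ τ G, ex_rf' x Λ τ (fun h => G h * one {h | rf h ∈ A} h)]
    simp only [hone]
    exact h1

/-- the four shell events around `K0` -/
def H4 (K0 : Finset P2) (s : ℕ) : Set Hz :=
  Dn K0 s (2 * s) ∩ Up K0 (2 * s) (3 * s) ∩ Dn K0 (3 * s) (4 * s) ∩ Up K0 (4 * s) (5 * s)

/-- the uniform statement in the form `E G ≤ η + C E[G 1_H]` -/
def CU0 (x : ℝ) : Prop :=
  ∀ (R : ℕ) (η : ℝ), 0 < η → ∃ (C : ℝ) (s0 : ℕ), 1 ≤ C ∧ ∀ s ≥ s0, ∀ (a : P2) (Λ K0 : Finset P2),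
    K0.Nonempty → Λ ⊆ ball a (R * s) → nb K0 (5 * s) ⊆ Λ → ∀ τ : Hz, Lip τ →
      (∀ v, v ∉ Λ → 0 ≤ τ v) → (∀ v, v ∉ Λ → τ v ≤ 1) → ∀ G : Hz → ℝ, (∀ h, 0 ≤ G h) →
        (∀ h, G h ≤ 1) → Off (sh K0 s (5 * s)) G →
          ex x Λ τ G ≤ η + C * ex x Λ τ (fun h => G h * one (H4 K0 s) h)

open Classical in
/-- the uniform statement, conditional form -/
def CU (x : ℝ) : Prop :=
  ∀ (R : ℕ) (η : ℝ), 0 < η → ∃ (c0 : ℝ) (s0 : ℕ), 0 < c0 ∧ ∀ s ≥ s0, ∀ (a : P2) (Λ : Finset P2),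
    Λ ⊆ ball a (R * s) → ∀ τ : Hz, Lip τ → (∀ v, v ∉ Λ → τ v = 0 ∨ τ v = 1) → ∀ K0 : Finset P2,
      K0.Nonempty → nb K0 (5 * s) ⊆ Λ →
        ex x Λ τ (fun h => if ex x (sh K0 s (5 * s)) h (one (H4 K0 s)) < c0 then (1 : ℝ) else 0) ≤ η

theorem size_le {K0 : Finset P2} (hK0 : K0.Nonempty) {a : P2} {N t : ℕ} (h : nb K0 t ⊆ ball a N) :
    t ≤ N := by
  obtain ⟨v, hv⟩ := hK0
  have h1 : ((v.1 + t, v.2) : P2) ∈ ball a N := h (mem_nb.2 ⟨v, hv, by rw [mem_ball]; simp⟩)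
  have h2 : ((v.1 - t, v.2) : P2) ∈ ball a N := h (mem_nb.2 ⟨v, hv, by rw [mem_ball]; simp⟩)
  rw [mem_ball] at h1 h2
  have h3 := h1.1
  have h4 := h2.1
  rw [abs_le] at h3 h4
  simp only at h3 h4
  omega

theorem cu0 {x : ℝ} (hx0 : 0 < x) (hx1 : x ≤ 1) {K : ℕ} {q : ℝ} (hq : 0 < q) (hq1 : q ≤ 1)
    (hC : Climb x K q) (hK : 2 ≤ K) (hcov : COV K) (hT : TightHi x) : CU0 x := by
  intro R η hη
  have hR : 1 ≤ R + 1 := by omega
  obtain ⟨C1, s1, c1, H1⟩ := p1' hx0 hx1 hq hq1 hC hK hcov hT hR (η := η / 4) (by positivity)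
  have c1' : 0 < C1 := by linarith
  obtain ⟨C2, s2, c2, H2⟩ := p1 hx0 hx1 hq hq1 hC hK hcov hT hR (η := η / (4 * C1)) (by positivity)
  have c2' : 0 < C2 := by linarith
  obtain ⟨C3, s3, c3, H3⟩ := p1' hx0 hx1 hq hq1 hC hK hcov hT hR (η := η / (4 * C1 * C2))
    (by positivity)
  have c3' : 0 < C3 := by linarith
  obtain ⟨C4, s4, c4, H4'⟩ := p1 hx0 hx1 hq hq1 hC hK hcov hT hR (η := η / (4 * C1 * C2 * C3))
    (by positivity)
  have c4' : 0 < C4 := by linarith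
  refine ⟨C1 * C2 * C3 * C4, max (max s1 s2) (max s3 s4), ?_, ?_⟩
  · have a1 : 1 ≤ C1 * C2 := by nlinarith
    have a2 : 1 ≤ C1 * C2 * C3 := by nlinarith
    nlinarith
  intro s hs a Λ K0 hK0 hΛ hnb τ hτ hτ0 hτ1 G hG0 hG1 hG
  have hΛ' : Λ ⊆ ball a ((R + 1) * s) := hΛ.trans (ball_mono a (Nat.mul_le_mul_right s (by omega)))
  have h5 : 5 * s ≤ R * s := size_le hK0 (hnb.trans hΛ)
  have h5' : (R + 1) * s = R * s + s := by ring
  obtain ⟨A1, a11, a12, a13⟩ := H1 s (le_trans (by simp) hs) a Λ K0 hK0 hΛ' s (by omega)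
    ((nb_mono K0 (by omega)).trans hnb)
  obtain ⟨A2, a21, a22, a23⟩ := H2 s (le_trans (by simp) hs) a Λ K0 hK0 hΛ' (2 * s) (by omega)
    ((nb_mono K0 (by omega)).trans hnb)
  obtain ⟨A3, a31, a32, a33⟩ := H3 s (le_trans (by simp) hs) a Λ K0 hK0 hΛ' (3 * s) (by omega)
    ((nb_mono K0 (by omega)).trans hnb)
  obtain ⟨A4, a41, a42, a43⟩ := H4' s (le_trans (by simp) hs) a Λ K0 hK0 hΛ' (4 * s) (by omega)
    ((nb_mono K0 (by omega)).trans hnb)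
  have d12 : Disjoint (sh K0 s (s + s)) (sh K0 (2 * s) (2 * s + s)) := sh_disj K0 (by omega)
  have d13 : Disjoint (sh K0 s (s + s)) (sh K0 (3 * s) (3 * s + s)) := sh_disj K0 (by omega)
  have d14 : Disjoint (sh K0 s (s + s)) (sh K0 (4 * s) (4 * s + s)) := sh_disj K0 (by omega)
  have d23 : Disjoint (sh K0 (2 * s) (2 * s + s)) (sh K0 (3 * s) (3 * s + s)) := sh_disj K0 (by omega)
  have d24 : Disjoint (sh K0 (2 * s) (2 * s + s)) (sh K0 (4 * s) (4 * s + s)) := sh_disj K0 (by omega)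
  have d34 : Disjoint (sh K0 (3 * s) (3 * s + s)) (sh K0 (4 * s) (4 * s + s)) := sh_disj K0 (by omega)
  have mul1 : ∀ (f : Hz → ℝ) (A : Set Hz), (∀ h, f h ≤ 1) → (∀ h, 0 ≤ f h) → ∀ h, f h * one A h ≤ 1 :=
    fun f A hf hf0 h => mul_le_one₀ (hf h) (one_nonneg _ _) (one_le_one _ _)
  have pos1 : ∀ (f : Hz → ℝ) (A : Set Hz), (∀ h, 0 ≤ f h) → ∀ h, 0 ≤ f h * one A h :=
    fun f A hf h => mul_nonneg (hf h) (one_nonneg _ _)
  have i1 := a13 τ hτ hτ0 G hG0 hG1 (hG.mono (sh_mono K0 (by omega) (by omega)))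
  set G1 : Hz → ℝ := fun h => G h * one A1 h with hG1d
  have i2 := a23 τ hτ hτ1 G1 (pos1 G A1 hG0) (mul1 G A1 hG1 hG0)
    ((hG.mono (sh_mono K0 (by omega) (by omega))).mul (a12 _ d12))
  set G2 : Hz → ℝ := fun h => G1 h * one A2 h with hG2d
  have g1o : ∀ S : Finset P2, Off S G → Disjoint (sh K0 s (s + s)) S → Off S G1 :=
    fun S h1 h2 => h1.mul (a12 _ h2)
  have i3 := a33 τ hτ hτ0 G2 (pos1 G1 A2 (pos1 G A1 hG0))
    (mul1 G1 A2 (mul1 G A1 hG1 hG0) (pos1 G A1 hG0))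
    ((g1o _ (hG.mono (sh_mono K0 (by omega) (by omega))) d13).mul (a22 _ d23))
  set G3 : Hz → ℝ := fun h => G2 h * one A3 h with hG3d
  have i4 := a43 τ hτ hτ1 G3 (pos1 G2 A3 (pos1 G1 A2 (pos1 G A1 hG0)))
    (mul1 G2 A3 (mul1 G1 A2 (mul1 G A1 hG1 hG0) (pos1 G A1 hG0)) (pos1 G1 A2 (pos1 G A1 hG0)))
    (((g1o _ (hG.mono (sh_mono K0 (by omega) (by omega))) d14).mul (a22 _ d24)).mul (a32 _ d34))
  have hfin : ex x Λ τ (fun h => G3 h * one A4 h) ≤ ex x Λ τ (fun h => G h * one (H4 K0 s) h) := by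
    refine ex_mono fun h _ => ?_
    have e1 : G3 h * one A4 h = G h * one (A1 ∩ A2 ∩ A3 ∩ A4) h := by
      simp only [hG3d, hG2d, hG1d, one_inter]
      ring
    rw [e1]
    refine mul_le_mul_of_nonneg_left (one_le_one_of fun hh => ?_) (hG0 h)
    obtain ⟨⟨⟨k1, k2⟩, k3⟩, k4⟩ := hh
    have e2 : 2 * s = s + s := by ring
    have e3 : 3 * s = 2 * s + s := by ring
    have e4 : 4 * s = 3 * s + s := by ring
    have e5 : 5 * s = 4 * s + s := by ring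
    refine ⟨⟨⟨?_, ?_⟩, ?_⟩, ?_⟩
    · have := a11 k1
      rwa [← e2] at this
    · have := a21 k2
      rwa [← e3] at this
    · have := a31 k3
      rwa [← e4] at this
    · have := a41 k4
      rwa [← e5] at this
  set X := ex x Λ τ (fun h => G h * one (H4 K0 s) h) with hX
  have j4 : ex x Λ τ G3 ≤ η / (4 * C1 * C2 * C3) + C4 * X :=
    i4.trans (by have := mul_le_mul_of_nonneg_left hfin c4'.le; linarith)
  have j3 : ex x Λ τ G2 ≤ η / (4 * C1 * C2) + C3 * (η / (4 * C1 * C2 * C3) + C4 * X) :=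
    i3.trans (by have := mul_le_mul_of_nonneg_left j4 c3'.le; linarith)
  have j2 : ex x Λ τ G1 ≤ η / (4 * C1) +
      C2 * (η / (4 * C1 * C2) + C3 * (η / (4 * C1 * C2 * C3) + C4 * X)) :=
    i2.trans (by have := mul_le_mul_of_nonneg_left j3 c2'.le; linarith)
  have j1 : ex x Λ τ G ≤ η / 4 + C1 * (η / (4 * C1) +
      C2 * (η / (4 * C1 * C2) + C3 * (η / (4 * C1 * C2 * C3) + C4 * X))) :=
    i1.trans (by have := mul_le_mul_of_nonneg_left j2 c1'.le; linarith)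
  refine j1.trans (le_of_eq ?_)
  field_simp
  ring

theorem cu_of_cu0 {x : ℝ} (hx0 : 0 < x) (h : CU0 x) : CU x := by
  classical
  intro R η hη
  obtain ⟨C, s0, hC, H⟩ := h R (η / 2) (by positivity)
  have hC0 : 0 < C := by linarith
  refine ⟨η / (2 * C), s0, by positivity, fun s hs a Λ hΛ τ hτ hτ' K0 hK0 hnb => ?_⟩
  set T := sh K0 s (5 * s) with hT
  set G : Hz → ℝ := fun h => if ex x T h (one (H4 K0 s)) < η / (2 * C) then (1 : ℝ) else 0 with hG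
  have hG0 : ∀ h, 0 ≤ G h := fun h => by simp only [hG]; split_ifs <;> norm_num
  have hG1 : ∀ h, G h ≤ 1 := fun h => by simp only [hG]; split_ifs <;> norm_num
  have hGo : Off T G := by
    intro a b hab
    simp only [hG]
    rw [ex_congr_bc x hab]
  have hTΛ : T ⊆ Λ := fun v hv => hnb (mem_sh.1 hv).1
  have h1 := H s hs a Λ K0 hK0 hΛ hnb τ hτ (fun v hv => by rcases hτ' v hv with h | h <;> omega)
    (fun v hv => by rcases hτ' v hv with h | h <;> omega) G hG0 hG1 hGo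
  have h2 : ex x Λ τ (fun h => G h * one (H4 K0 s) h) ≤ η / (2 * C) := by
    have key := ex_tower_smul hx0 (Λ := Λ) (τ := τ) (fun _ => T) (fun _ _ => hTΛ)
      (fun _ _ _ _ => rfl) G (fun h _ g hg => hGo g h fun v hv => (mem_conf.1 hg).2 v hv)
      (one (H4 K0 s))
    simp only [smul_eq_mul] at key
    rw [key, ← ex_const hx0 hτ (x := x) (Λ := Λ) (η / (2 * C))]
    refine ex_mono fun h _ => ?_
    simp only [hG]
    split_ifs with h3
    · rw [one_mul]; exact h3.le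
    · rw [zero_mul]; positivity
  have h3 : C * ex x Λ τ (fun h => G h * one (H4 K0 s) h) ≤ η / 2 := by
    have := mul_le_mul_of_nonneg_left h2 hC0.le
    refine this.trans (le_of_eq ?_)
    field_simp
  linarith

/-- **CU** -/
theorem cu {x : ℝ} (hx0 : 0 < x) (hx1 : x ≤ 1) {K : ℕ} {q : ℝ} (hq : 0 < q) (hq1 : q ≤ 1)
    (hC : Climb x K q) (hK : 2 ≤ K) (hcov : COV K) (hT : TightHi x) : CU x :=
  cu_of_cu0 hx0 (cu0 hx0 hx1 hq hq1 hC hK hcov hT)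

end Crest.Agent.R144.Cu867
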