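import Crest.Agent.R144.Cu1_867
import Crest.Agent.R144.CuP_880
import Crest.Agent.R144.Cu1_792

/-!
# R144, S5: the conditional form `CU` from the product form (helper617)

`PF x` : for every `G` with values in `[0,1]` which is a function of the heights off the collar
`nb K (5 s) \ nb K s`, `c (E G - η) ≤ E (G 1_{HH K s})`.  `cu_of_prod : PF x → CU x`.
-/

set_option autoImplicit false

noncomputable section

namespace Crest.Agent.R144.Cuf617

open Crest.Agent.R144.It844
open Crest.Agent.R144.Zg349 (StepIn SC)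
open Crest.Agent.R144.Rsw867 (ball)
open Crest.Agent.R144.Cu867 (one Off one_nonneg one_le_one)
open Crest.Agent.R144.CuP880 (nb HH CU)

/-- product form of `CU` -/
def PF (x : ℝ) : Prop := ∀ (R : ℕ) (η : ℝ), 0 < η → ∃ (c : ℝ) (s0 : ℕ), 0 < c ∧ ∀ s ≥ s0,
  ∀ (a : P2) (Λ : Finset P2), SC Λ → Λ ⊆ ball a (R * s) → ∀ τ : P2 → ℤ, Lip τ →
    (∀ v, v ∉ Λ → τ v = 0 ∨ τ v = 1) → ∀ K : Finset P2, K.Nonempty → nb K (5 * s) ⊆ Λ →
      ∀ G : (P2 → ℤ) → ℝ, (∀ h, 0 ≤ G h) → (∀ h, G h ≤ 1) → Off (nb K (5 * s) \ nb K s) G →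
        c * (ex x Λ τ G - η) ≤ ex x Λ τ (fun h => G h * one (HH K s) h)

theorem one_eq_ind (A : Set (P2 → ℤ)) (h : P2 → ℤ) : one A h = Cu792.ind A h := rfl

theorem pr_eq_one (x : ℝ) (Λ : Finset P2) (τ : P2 → ℤ) (A : Set (P2 → ℤ)) :
    pr x Λ τ A = ex x Λ τ (one A) := rfl

/-- conditional probabilities given the heights off `T` are seen off `T` -/
theorem off_pr (x : ℝ) (T : Finset P2) (A : Set (P2 → ℤ)) (t : ℝ) :
    Off T (one {h | pr x T h A < t}) := by
  intro a b hab
  refine Cu867.one_congr ?_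
  show pr x T a A < t ↔ pr x T b A < t
  rw [pr_eq_one, pr_eq_one, ex_congr_bc x hab]

/-- **the conditional form from the product form** -/
theorem cu_of_prod {x : ℝ} (hx0 : 0 < x) (hP : PF x) : CU x := by
  intro R η hη
  obtain ⟨c, s0, hc, hP⟩ := hP R (η / 2) (by positivity)
  refine ⟨c / 2, s0, by positivity, ?_⟩
  intro s hs a Λ hΛ hΛR τ hτ hτ01 K hK hKΛ
  set T := nb K (5 * s) \ nb K s with hT
  have hTΛ : T ⊆ Λ := Finset.sdiff_subset.trans hKΛ
  set bad : Set (P2 → ℤ) := {h | pr x T h (HH K s) < c / 2} with hbad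
  have hoff : Off T (one bad) := off_pr x T (HH K s) (c / 2)
  have h1 := hP s hs a Λ hΛ hΛR τ hτ hτ01 K hK hKΛ (one bad) (one_nonneg bad) (one_le_one bad) hoff
  -- the tower property
  have h2 : ex x Λ τ (fun h => one bad h * one (HH K s) h) =
      ex x Λ τ (fun h => one bad h * pr x T h (HH K s)) := by
    have key := ex_tower_smul hx0 (Λ := Λ) (τ := τ) (fun _ => T) (fun _ _ => hTΛ)
      (fun _ _ _ _ => rfl) (one bad)
      (fun h _ g hg => hoff g h fun v hv => (mem_conf.1 hg).2 v hv) (one (HH K s))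
    simp only [smul_eq_mul] at key
    exact key
  have h3 : ex x Λ τ (fun h => one bad h * pr x T h (HH K s)) ≤ c / 2 * ex x Λ τ (one bad) := by
    rw [← smul_eq_mul (c / 2), ← ex_smul]
    refine ex_mono fun h _ => ?_
    rw [smul_eq_mul]
    by_cases hb : h ∈ bad
    · rw [Cu867.one_of_mem hb, one_mul, mul_one]
      exact le_of_lt hb
    · rw [Cu867.one_of_not_mem hb, zero_mul, mul_zero]
  rw [h2] at h1
  have h4 := h1.trans h3
  show ex x Λ τ (one bad) ≤ η
  nlinarith

end Crest.Agent.R144.Cuf617
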