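import Crest.Agent.R144.Cw10_643

/-!
# R144 (helper643), CW block, file 11: plane states, Ward identity for the lattice reflections

* `cov_tendsto`: `∫ lin b · lin a dP → κ ∫ ψ f`;
* `near_rfl6`: `b n ∘ rfl6 n (m n)` is near `g ∘ rf`, `rf` the reflection of the plane;
* `ward_rfl`: `∫ lin b (act (rfl6 n m)) · lin b dP → 0` for `Near δ b (-Δψ)`, `ψ` supported strictly on one
  side of the limiting line.
-/

set_option autoImplicit false

noncomputable section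

namespace Crest.Agent.R144.Cw643

open Finset Filter Topology MeasureTheory
open Crest.Agent.R144.Tp952
open Crest.ProbabilityR.HexHeights (centre)
open Crest.Agent.R144.HexTil353 Crest.Agent.R144.Geo268
open Crest.Agent.R144.Ps643 Crest.Agent.R144.Ps643.PlaneState
open Crest.Agent.R144.Ga2617 (rfl6 Dir6 dot stp mem_dir6 rfl6_rfl6 dot_rfl6)
open scoped Real ContDiff Laplacian

variable {V : ℤ × ℤ → ℝ}

theorem CV_act {σ : P2 → P2} (hσ : ∀ v, σ (σ v) = v) (V : P2 → ℝ) (s : Finset P2) (f : P2 → ℝ)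
    (t : Finset P2) (g : P2 → ℝ) :
    -(1 / 2) * ∑ p ∈ s, ∑ q ∈ t, f p * g q * V (p - σ q) =
      CV V s f (t.image σ) (fun v => g (σ v)) := by
  unfold CV
  congr 1
  refine Finset.sum_congr rfl fun p _ => ?_
  rw [Finset.sum_image (fun x _ y _ h => by rw [← hσ x, h, hσ y])]
  refine Finset.sum_congr rfl fun q _ => ?_
  beta_reduce
  rw [hσ]

theorem Wt.act {σ : P2 → P2} (hσ : ∀ v, σ (σ v) = v) {t : Finset P2} {g : P2 → ℝ} (h : Wt t g) :
    Wt (t.image σ) (fun v => g (σ v)) := by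
  constructor
  · intro p hp
    apply h.1
    intro h1
    exact hp (Finset.mem_image.2 ⟨σ p, h1, hσ p⟩)
  · rw [Finset.sum_image (fun x _ y _ h => by rw [← hσ x, h, hσ y])]
    rw [← h.2]
    refine Finset.sum_congr rfl fun q _ => ?_
    rw [hσ]

section plane

variable {P : Measure Ht}

theorem cov_CV (hP : PlaneState P) {s t : Finset P2} {f g : P2 → ℝ} (hf : ∑ v ∈ s, f v = 0)
    (hg : ∑ v ∈ t, g v = 0) : ∫ h, lin s f h * lin t g h ∂P = CV (vg P) s f t g := by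
  have := hP.cov_eq hf hg id
  exact this

theorem cov_act_CV (hP : PlaneState P) {σ : P2 → P2} (hσ : ∀ v, σ (σ v) = v) {s t : Finset P2}
    {f g : P2 → ℝ} (hf : ∑ v ∈ s, f v = 0) (hg : ∑ v ∈ t, g v = 0) :
    ∫ h, lin s f h * lin t g (act σ h) ∂P = CV (vg P) s f (t.image σ) (fun v => g (σ v)) := by
  rw [hP.cov_eq hf hg σ, CV_act hσ]

/-- **covariances of a plane state** -/
theorem cov_tendsto (hP : PlaneState P) {κ : ℝ} (hκ : Lim2 (vg P) κ) {δ : ℕ → ℝ} (hδ : ∀ n, 0 < δ n)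
    (hδ0 : Tendsto δ atTop (𝓝 0)) {ψ f : ℂ → ℝ} (hψ : ContDiff ℝ ∞ ψ) (hψc : HasCompactSupport ψ)
    (hf : Continuous f) (hfc : HasCompactSupport f) {b a : ℕ → P2 → ℝ}
    (hb : Near δ b (fun z => -(Δ ψ) z)) (ha : Near δ a f) {s t : ℕ → Finset P2}
    (hs : ∀ᶠ n in atTop, Wt (s n) (b n)) (ht : ∀ᶠ n in atTop, Wt (t n) (a n)) :
    Tendsto (fun n => ∫ h, lin (s n) (b n) h * lin (t n) (a n) h ∂P) atTop
      (𝓝 (κ * ∫ z, ψ z * f z)) := by
  refine (hκ.lim δ ψ f b a s t hδ hδ0 hψ hψc hf hfc hb ha hs ht).congr' ?_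
  filter_upwards [hs, ht] with n h1 h2
  exact (cov_CV hP h1.2 h2.2).symm

/-- smeared heights of mass zero at scale `s` have bounded second moments -/
theorem plane_sq (hP : PlaneState P) {κ : ℝ} (hκ : Lim2 (vg P) κ) : ∃ K : ℝ, 0 < K ∧
    ∀ (m : ℕ) (s A : ℝ) (g : P2 → ℝ), 1 ≤ s → 1 ≤ A → (m : ℝ) ≤ A * s →
    (∀ p ∈ BX m, |g p| ≤ A / s ^ 2) → ∑ p ∈ BX m, g p = 0 →
    ∫ h, lin (BX m) g h ^ 2 ∂P ≤ K * A ^ 8 := by
  obtain ⟨K, hK, h⟩ := hκ.sq
  refine ⟨K, hK, fun m s A g h1 h2 h3 h4 h5 => ?_⟩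
  have e : ∫ h, lin (BX m) g h ^ 2 ∂P = CV (vg P) (BX m) g (BX m) g := by
    rw [← cov_CV hP h5 h5]
    simp only [sq]
  rw [e]
  exact h m s A g h1 h2 h3 h4 h5

end plane

/-! ### the six reflections in the plane -/

theorem centre_add_zsmul (d : ℝ) (v w : P2) (k : ℤ) :
    centre d (v + k • w) = centre d v + ((d * k : ℝ) : ℂ) * centre 1 w := by
  rw [centre_eq, centre_eq, centre_eq, cen_om, cen_om, cen_om]
  push_cast [Prod.fst_add, Prod.snd_add, Prod.smul_fst, Prod.smul_snd, smul_eq_mul]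
  ring

/-- index coordinate in the direction `n` -/
def Xn (n : P2) (z : ℂ) : ℝ := n.1 * ca 1 z + n.2 * cb 1 z

/-- step vector of the plane -/
def Sn (n : P2) : ℂ := centre 1 (stp n)

/-- reflection of the plane in the line `{Xn n = x0}` -/
def rf (n : P2) (x0 : ℝ) (z : ℂ) : ℂ := z + ((x0 - Xn n z : ℝ) : ℂ) * Sn n

theorem Xn_centre {d : ℝ} (hd : 0 < d) (n v : P2) : Xn n (centre d v) = d * dot n v := by
  have h1 : ∀ z, ca 1 z = d * ca d z := by
    intro z; unfold ca; field_simp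
  have h2 : ∀ z, cb 1 z = d * cb d z := by
    intro z; unfold cb; field_simp
  unfold Xn dot
  rw [h1, h2, centre_eq, ca_cen hd, cb_cen hd]
  push_cast
  ring

theorem Xn_add (n : P2) (z w : ℂ) : Xn n (z + w) = Xn n z + Xn n w := by
  unfold Xn; rw [ca_add, cb_add]; ring

theorem Xn_smul (n : P2) (r : ℝ) (z : ℂ) : Xn n ((r : ℂ) * z) = r * Xn n z := by
  have h := ca_smul (δ := 1) r z
  have h' := cb_smul (δ := 1) r z
  rw [Complex.real_smul] at h h'
  unfold Xn; rw [h, h']; ring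

theorem Xn_Sn {n : P2} (hn : n ∈ Dir6) : Xn n (Sn n) = 2 := by
  unfold Sn
  rw [Xn_centre one_pos, Ga2617.dot_stp hn]
  norm_num

theorem Xn_rf {n : P2} (hn : n ∈ Dir6) (x0 : ℝ) (z : ℂ) : Xn n (rf n x0 z) = 2 * x0 - Xn n z := by
  unfold rf
  rw [Xn_add, Xn_smul, Xn_Sn hn]
  ring

theorem abs_Xn_le {n : P2} (hn : n ∈ Dir6) (z : ℂ) : |Xn n z| ≤ 4 * ‖z‖ := by
  have h3 : (1 : ℝ) ≤ Real.sqrt 3 := Real.one_le_sqrt.2 (by norm_num)
  have hre := Complex.abs_re_le_norm z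
  have him := Complex.abs_im_le_norm z
  have h4 : |z.im / Real.sqrt 3| ≤ ‖z‖ := by
    rw [abs_div, abs_of_pos (by positivity : 0 < Real.sqrt 3), div_le_iff₀ (by positivity)]
    nlinarith [norm_nonneg z]
  have ha : |ca 1 z| ≤ 2 * ‖z‖ := by
    unfold ca
    rw [div_one]
    refine (abs_sub _ _).trans ?_
    linarith
  have hb : |cb 1 z| ≤ 2 * ‖z‖ := by
    unfold cb
    rw [div_one, mul_div_assoc, abs_mul, abs_two]
    linarith
  have h5 : |(n.1 : ℝ)| ≤ 1 ∧ |(n.2 : ℝ)| ≤ 1 := by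
    rcases mem_dir6.1 hn with rfl | rfl | rfl | rfl | rfl | rfl <;> norm_num
  unfold Xn
  refine (abs_add_le _ _).trans ?_
  rw [abs_mul, abs_mul]
  have h6 : |(n.1 : ℝ)| * |ca 1 z| ≤ 1 * (2 * ‖z‖) := mul_le_mul h5.1 ha (abs_nonneg _) zero_le_one
  have h7 : |(n.2 : ℝ)| * |cb 1 z| ≤ 1 * (2 * ‖z‖) := mul_le_mul h5.2 hb (abs_nonneg _) zero_le_one
  linarith

theorem continuous_Xn (n : P2) : Continuous (Xn n) := by
  unfold Xn
  exact (continuous_const.mul (continuous_ca 1)).add (continuous_const.mul (continuous_cb 1))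

theorem continuous_rf (n : P2) (x0 : ℝ) : Continuous (rf n x0) := by
  unfold rf
  exact continuous_id.add ((Complex.continuous_ofReal.comp (continuous_const.sub (continuous_Xn n))).mul
    continuous_const)

theorem centre_rfl6 {d : ℝ} (hd : 0 < d) (n : P2) (m : ℤ) (v : P2) :
    centre d (rfl6 n m v) = centre d v + ((d * m - Xn n (centre d v) : ℝ) : ℂ) * Sn n := by
  unfold rfl6 Sn
  rw [centre_add_zsmul, Xn_centre hd]
  congr 2
  push_cast
  ring

theorem near_rfl6 {δ : ℕ → ℝ} (hδ : ∀ n, 0 < δ n) {b : ℕ → P2 → ℝ} {g : ℂ → ℝ}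
    (hb : Near δ b g) (hg : UniformContinuous g) {n : P2} (hn : n ∈ Dir6) {m : ℕ → ℤ} {x0 : ℝ}
    (hm : Tendsto (fun k => δ k * m k) atTop (𝓝 x0)) :
    Near δ (fun k v => b k (rfl6 n (m k) v)) (fun z => g (rf n x0 z)) := by
  obtain ⟨R, hR⟩ := hb.supp
  have hm1 : ∀ ε > 0, ∀ᶠ k in atTop, |δ k * m k - x0| < ε := by
    intro ε hε
    have := (Metric.tendsto_nhds.1 hm) ε hε
    simpa only [Real.dist_eq] using this
  refine ⟨⟨R + (|x0| + 1 + 4 * R) * ‖Sn n‖, ?_⟩, fun ε hε => ?_⟩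
  · filter_upwards [hR, hm1 1 one_pos] with k h1 h2 v hv
    have h3 := h1 _ hv
    have h4 : centre (δ k) v = centre (δ k) (rfl6 n (m k) (rfl6 n (m k) v)) := by rw [rfl6_rfl6 hn]
    rw [h4, centre_rfl6 (hδ k) n (m k) (rfl6 n (m k) v)]
    set w := centre (δ k) (rfl6 n (m k) v)
    refine (norm_add_le _ _).trans ?_
    rw [norm_mul, Complex.norm_real, Real.norm_eq_abs]
    have h5 := abs_Xn_le hn w
    have h6 : |δ k * m k - Xn n w| ≤ |x0| + 1 + 4 * R := by
      have h7 : |δ k * m k| ≤ |x0| + 1 := by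
        have := abs_sub_abs_le_abs_sub (δ k * m k) x0
        linarith
      refine (abs_sub _ _).trans ?_
      linarith
    have h8 : |δ k * m k - Xn n w| * ‖Sn n‖ ≤ (|x0| + 1 + 4 * R) * ‖Sn n‖ :=
      mul_le_mul_of_nonneg_right h6 (norm_nonneg _)
    linarith
  · obtain ⟨η, hη, hη'⟩ := Metric.uniformContinuous_iff.1 hg (ε / 2) (by positivity)
    filter_upwards [hb.near (ε / 2) (by positivity), hm1 (η / (2 * (‖Sn n‖ + 1))) (by positivity)]
      with k h1 h2 v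
    have e : b k (rfl6 n (m k) v) - Real.sqrt 3 / 2 * δ k ^ 2 * g (rf n x0 (centre (δ k) v)) =
      (b k (rfl6 n (m k) v) - Real.sqrt 3 / 2 * δ k ^ 2 * g (centre (δ k) (rfl6 n (m k) v))) +
      Real.sqrt 3 / 2 * δ k ^ 2 * (g (centre (δ k) (rfl6 n (m k) v)) -
        g (rf n x0 (centre (δ k) v))) := by ring
    rw [e]
    refine (abs_add_le _ _).trans ?_
    have h3 : |g (centre (δ k) (rfl6 n (m k) v)) - g (rf n x0 (centre (δ k) v))| ≤ ε / 2 := by
      have h4 : dist (centre (δ k) (rfl6 n (m k) v)) (rf n x0 (centre (δ k) v)) < η := by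
        rw [dist_eq_norm, centre_rfl6 (hδ k)]
        unfold rf
        have e2 : centre (δ k) v + ((δ k * m k - Xn n (centre (δ k) v) : ℝ) : ℂ) * Sn n -
            (centre (δ k) v + ((x0 - Xn n (centre (δ k) v) : ℝ) : ℂ) * Sn n) =
            ((δ k * m k - x0 : ℝ) : ℂ) * Sn n := by push_cast; ring
        rw [e2, norm_mul, Complex.norm_real, Real.norm_eq_abs]
        have h5 : |δ k * m k - x0| * ‖Sn n‖ ≤ η / (2 * (‖Sn n‖ + 1)) * (‖Sn n‖ + 1) :=
          mul_le_mul h2.le (by linarith) (norm_nonneg _) (by positivity)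
        have h6 : η / (2 * (‖Sn n‖ + 1)) * (‖Sn n‖ + 1) = η / 2 := by field_simp
        linarith
      have := hη' h4
      rw [Real.dist_eq] at this
      exact this.le
    have h5 : |Real.sqrt 3 / 2 * δ k ^ 2 * (g (centre (δ k) (rfl6 n (m k) v)) -
        g (rf n x0 (centre (δ k) v)))| ≤ ε / 2 * δ k ^ 2 := by
      rw [abs_mul, abs_of_nonneg (by positivity)]
      calc Real.sqrt 3 / 2 * δ k ^ 2 * |g (centre (δ k) (rfl6 n (m k) v)) - g (rf n x0 (centre (δ k) v))|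
          ≤ 1 * δ k ^ 2 * (ε / 2) := by
            gcongr
            exact sqrt3_half_le
        _ = _ := by ring
    linarith [h1 (rfl6 n (m k) v)]

theorem lap_eq_zero_of {ψ : ℂ → ℝ} {U : Set ℂ} (hU : IsOpen U) (h : ∀ z ∈ U, ψ z = 0) {z : ℂ}
    (hz : z ∈ U) : (Δ ψ) z = 0 := by
  have h1 : ψ =ᶠ[𝓝 z] fun _ => 0 := by
    filter_upwards [hU.mem_nhds hz] with w hw using h w hw
  have h2 := InnerProductSpace.laplacian_congr_nhds h1
  have h3 := h2.self_of_nhds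
  rw [h3, laplacian_eq]
  simp [dirD]

/-- **Ward identity, second moments, for the lattice reflections** -/
theorem ward_rfl {P : Measure Ht} (hP : PlaneState P) {κ : ℝ} (hκ : Lim2 (vg P) κ) {δ : ℕ → ℝ}
    (hδ : ∀ n, 0 < δ n) (hδ0 : Tendsto δ atTop (𝓝 0)) {ψ : ℂ → ℝ} (hψ : ContDiff ℝ ∞ ψ)
    (hψc : HasCompactSupport ψ) {b : ℕ → P2 → ℝ} (hb : Near δ b (fun z => -(Δ ψ) z))
    {s : ℕ → Finset P2} (hs : ∀ᶠ n in atTop, Wt (s n) (b n)) {n : P2} (hn : n ∈ Dir6) {m : ℕ → ℤ}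
    {x0 : ℝ} (hm : Tendsto (fun k => δ k * m k) atTop (𝓝 x0)) (hside : ∀ z, ψ z ≠ 0 → x0 < Xn n z) :
    Tendsto (fun k => ∫ h, lin (s k) (b k) (act (rfl6 n (m k)) h) * lin (s k) (b k) h ∂P) atTop
      (𝓝 0) := by
  have hΔc : Continuous (fun z => -(Δ ψ) z) := (continuous_lap hψ).neg
  have hΔs : HasCompactSupport (fun z => -(Δ ψ) z) := (hasCompactSupport_lap hψc).neg
  have hu := hΔs.uniformContinuous_of_continuous hΔc
  have hb' := near_rfl6 hδ hb hu hn hm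
  have h0 : ∀ z, ψ z * (-(Δ ψ) (rf n x0 z)) = 0 := by
    intro z
    by_cases hz : ψ z = 0
    · rw [hz, zero_mul]
    · have h1 := hside z hz
      have h2 : Xn n (rf n x0 z) < x0 := by rw [Xn_rf hn]; linarith
      have h3 : (Δ ψ) (rf n x0 z) = 0 := by
        refine lap_eq_zero_of (U := {w | Xn n w < x0}) (isOpen_lt (continuous_Xn n) continuous_const)
          (fun w hw => ?_) h2
        by_contra h4
        exact absurd (hside w h4) (not_lt.2 (le_of_lt hw))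
      rw [h3, neg_zero, mul_zero]
  have hgc : Continuous (fun z => -(Δ ψ) (rf n x0 z)) := hΔc.comp (continuous_rf n x0)
  have hgs : HasCompactSupport (fun z => -(Δ ψ) (rf n x0 z)) := by
    obtain ⟨R, hR⟩ := hΔs.isBounded.exists_norm_le
    refine HasCompactSupport.of_support_subset_isCompact
      (isCompact_closedBall (0 : ℂ) (|R| + (|x0| + 4 * |R|) * ‖Sn n‖)) ?_
    intro z hz
    have h1 : ‖rf n x0 z‖ ≤ R := hR _ (subset_tsupport _ hz)
    have h2 : z = rf n x0 z + ((x0 - Xn n (rf n x0 z) : ℝ) : ℂ) * Sn n := by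
      rw [Xn_rf hn]
      unfold rf
      push_cast
      ring
    rw [mem_closedBall_zero_iff, h2]
    refine (norm_add_le _ _).trans ?_
    rw [norm_mul, Complex.norm_real, Real.norm_eq_abs]
    have h3 := abs_Xn_le hn (rf n x0 z)
    have h4 : |x0 - Xn n (rf n x0 z)| ≤ |x0| + 4 * |R| := by
      refine (abs_sub _ _).trans ?_
      linarith [le_abs_self R]
    have h5 := mul_le_mul_of_nonneg_right h4 (norm_nonneg (Sn n))
    linarith [le_abs_self R]
  have hinv : ∀ k v, rfl6 n (m k) (rfl6 n (m k) v) = v := fun k v => rfl6_rfl6 hn _ _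
  have hs' : ∀ᶠ k in atTop, Wt ((s k).image (rfl6 n (m k))) (fun v => b k (rfl6 n (m k) v)) :=
    hs.mono fun k h => h.act (hinv k)
  have h1 := hκ.lim δ ψ (fun z => -(Δ ψ) (rf n x0 z)) b (fun k v => b k (rfl6 n (m k) v)) s
    (fun k => (s k).image (rfl6 n (m k))) hδ hδ0 hψ hψc hgc hgs hb hb' hs hs'
  simp only [h0, integral_zero, mul_zero] at h1
  refine h1.congr' ?_
  filter_upwards [hs] with k h2
  rw [← cov_act_CV hP (hinv k) h2.2 h2.2]
  congr 1
  funext h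
  ring

end Crest.Agent.R144.Cw643
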