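import Mathlib

/-!
# R144 (helper643), CW block, file 1: Taylor estimate of the triangular lattice Laplacian

Lemmas `step_bound` .. `second_diff_dir` are copied from `R161/Lap_695` (helper695).

* `om = 1/2 + (√3/2) i`;
* `lap7 δ ψ z = ∑_{six neighbours} ψ (z + δ e) - 6 ψ z`;
* `lap7_sub_le : |lap7 δ ψ z - (3/2) δ² Δψ z| ≤ C δ⁴`.
-/

set_option autoImplicit false

noncomputable section

namespace Crest.Agent.R144.Cw643

open Finset Filter Topology Metric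
open scoped ContDiff Laplacian

theorem step_bound {φ φ' : ℝ → ℝ} {C h : ℝ} (hd : ∀ t, HasDerivAt φ (φ' t) t)
    (h0 : φ 0 = 0) (hb : ∀ t ∈ Set.Icc 0 h, |φ' t| ≤ C) (hC : 0 ≤ C) :
    ∀ t ∈ Set.Icc 0 h, |φ t| ≤ C * h := by
  intro t ht
  have h1 := norm_image_sub_le_of_norm_deriv_le_segment' (f := φ) (f' := φ') (C := C) (a := 0)
    (b := h) (fun x _ => (hd x).hasDerivWithinAt)
    (fun x hx => by rw [Real.norm_eq_abs]; exact hb x ⟨hx.1, hx.2.le⟩) t ht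
  rw [h0, sub_zero, sub_zero, Real.norm_eq_abs] at h1
  exact h1.trans (mul_le_mul_of_nonneg_left ht.2 hC)

theorem second_diff {f f1 f2 f3 f4 : ℝ → ℝ} {M h : ℝ} (hh : 0 ≤ h)
    (h1 : ∀ t, HasDerivAt f (f1 t) t) (h2 : ∀ t, HasDerivAt f1 (f2 t) t)
    (h3 : ∀ t, HasDerivAt f2 (f3 t) t) (h4 : ∀ t, HasDerivAt f3 (f4 t) t)
    (hM : ∀ t, |f4 t| ≤ M) :
    |f h + f (-h) - 2 * f 0 - h ^ 2 * f2 0| ≤ 2 * M * h ^ 4 := by
  have hM0 : 0 ≤ M := (abs_nonneg _).trans (hM 0)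
  have neg : ∀ {g g' : ℝ → ℝ}, (∀ t, HasDerivAt g (g' t) t) →
      ∀ t, HasDerivAt (fun s => g (-s)) (-(g' (-t))) t := by
    intro g g' hg t
    have := (hg (-t)).comp t (hasDerivAt_neg t)
    simpa [Function.comp_def] using this
  -- third level
  have b3 : ∀ t ∈ Set.Icc 0 h, |f3 t - f3 (-t)| ≤ 2 * M * h := by
    refine step_bound (φ := fun t => f3 t - f3 (-t)) (φ' := fun t => f4 t - -(f4 (-t)))
      (fun t => (h4 t).sub (neg h4 t)) (by simp) (fun t _ => ?_) (by positivity)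
    rw [sub_neg_eq_add]
    calc |f4 t + f4 (-t)| ≤ |f4 t| + |f4 (-t)| := abs_add_le _ _
      _ ≤ 2 * M := by linarith [hM t, hM (-t)]
  have b2 : ∀ t ∈ Set.Icc 0 h, |f2 t + f2 (-t) - 2 * f2 0| ≤ 2 * M * h * h := by
    refine step_bound (φ := fun t => f2 t + f2 (-t) - 2 * f2 0) (φ' := fun t => f3 t + -(f3 (-t)))
      (fun t => ((h3 t).add (neg h3 t)).sub_const _) (by simp; ring) (fun t ht => ?_)
      (by positivity)
    rw [← sub_eq_add_neg]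
    exact b3 t ht
  have b1 : ∀ t ∈ Set.Icc 0 h, |f1 t - f1 (-t) - 2 * t * f2 0| ≤ 2 * M * h * h * h := by
    refine step_bound (φ := fun t => f1 t - f1 (-t) - 2 * t * f2 0)
      (φ' := fun t => f2 t - -(f2 (-t)) - 2 * 1 * f2 0)
      (fun t => ((h2 t).sub (neg h2 t)).sub ((((hasDerivAt_id t).const_mul 2)).mul_const _))
      (by simp) (fun t ht => ?_) (by positivity)
    rw [sub_neg_eq_add, mul_one]
    exact b2 t ht
  have b0 : ∀ t ∈ Set.Icc 0 h, |f t + f (-t) - 2 * f 0 - t ^ 2 * f2 0| ≤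
      2 * M * h * h * h * h := by
    refine step_bound (φ := fun t => f t + f (-t) - 2 * f 0 - t ^ 2 * f2 0)
      (φ' := fun t => f1 t + -(f1 (-t)) - (2 : ℕ) * t ^ (2 - 1) * f2 0)
      (fun t => (((h1 t).add (neg h1 t)).sub_const _).sub ((hasDerivAt_pow 2 t).mul_const _))
      (by simp; ring) (fun t ht => ?_) (by positivity)
    have := b1 t ht
    rw [← sub_eq_add_neg]
    simpa using this
  have := b0 h ⟨hh, le_rfl⟩
  calc _ ≤ 2 * M * h * h * h * h := this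
    _ = 2 * M * h ^ 4 := by ring

/-- `k`-th derivative in the direction `e` -/
def dirD (k : ℕ) (ψ : ℂ → ℝ) (e z : ℂ) : ℝ := iteratedFDeriv ℝ k ψ z (fun _ => e)

theorem dirD_zero (ψ : ℂ → ℝ) (e z : ℂ) : dirD 0 ψ e z = ψ z := by
  simp [dirD]

theorem hasDerivAt_dirD {ψ : ℂ → ℝ} (hψ : ContDiff ℝ ∞ ψ) (k : ℕ) (e z : ℂ) (t : ℝ) :
    HasDerivAt (fun t : ℝ => dirD k ψ e (z + t * e)) (dirD (k + 1) ψ e (z + t * e)) t := by
  have h1 : Differentiable ℝ (iteratedFDeriv ℝ k ψ) :=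
    hψ.differentiable_iteratedFDeriv (by exact_mod_cast WithTop.coe_lt_coe.2 (ENat.natCast_lt_top k))
  have h2 := (h1 (z + t * e)).hasFDerivAt
  have h3 : HasDerivAt (fun t : ℝ => z + (t : ℂ) * e) e t := by
    have h4 : HasDerivAt (fun t : ℝ => (t : ℂ)) 1 t := Complex.ofRealCLM.hasDerivAt
    have := (h4.mul_const e).const_add z
    simpa using this
  have h5 := h2.comp_hasDerivAt t h3
  have h6 := ((ContinuousMultilinearMap.apply ℝ (fun _ : Fin k => ℂ) ℝ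
    (fun _ => e)).hasFDerivAt (x := iteratedFDeriv ℝ k ψ (z + t * e))).comp_hasDerivAt t h5
  exact h6

theorem abs_dirD_le {ψ : ℂ → ℝ} (k : ℕ) {e : ℂ} (he : ‖e‖ = 1) (z : ℂ) :
    |dirD k ψ e z| ≤ ‖iteratedFDeriv ℝ k ψ z‖ := by
  have := (iteratedFDeriv ℝ k ψ z).le_opNorm (fun _ => e)
  simp only [he, Finset.prod_const_one, mul_one, Real.norm_eq_abs] at this
  exact this

theorem laplacian_eq (ψ : ℂ → ℝ) (z : ℂ) :
    (Δ ψ) z = dirD 2 ψ 1 z + dirD 2 ψ Complex.I z := by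
  rw [InnerProductSpace.laplacian_eq_iteratedFDeriv_complexPlane]
  unfold dirD
  have e : ∀ a : ℂ, (![a, a] : Fin 2 → ℂ) = fun _ => a := by
    intro a; funext i; fin_cases i <;> rfl
  simp only [e]

theorem second_diff_dir {ψ : ℂ → ℝ} (hψ : ContDiff ℝ ∞ ψ) {M : ℝ}
    (hM : ∀ z, ‖iteratedFDeriv ℝ 4 ψ z‖ ≤ M) {e : ℂ} (he : ‖e‖ = 1) (z : ℂ) {δ : ℝ}
    (hδ : 0 ≤ δ) :
    |ψ (z + δ * e) + ψ (z - δ * e) - 2 * ψ z - δ ^ 2 * dirD 2 ψ e z| ≤ 2 * M * δ ^ 4 := by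
  have h := second_diff hδ (hasDerivAt_dirD hψ 0 e z) (hasDerivAt_dirD hψ 1 e z)
    (hasDerivAt_dirD hψ 2 e z) (hasDerivAt_dirD hψ 3 e z)
    (fun t => (abs_dirD_le 4 he _).trans (hM _))
  simp only [dirD_zero, Complex.ofReal_zero, zero_mul, add_zero, Complex.ofReal_neg, neg_mul,
    ← sub_eq_add_neg] at h
  exact h

/-! ### the triangular directions -/

/-- `e^{iπ/3}` -/
def om : ℂ := 1 / 2 + (Real.sqrt 3 / 2 : ℝ) * Complex.I

theorem sq3 : Real.sqrt 3 ^ 2 = 3 := Real.sq_sqrt (by norm_num)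

theorem om_re : om.re = 1 / 2 := by simp [om]
theorem om_im : om.im = Real.sqrt 3 / 2 := by simp [om]

theorem norm_om : ‖om‖ = 1 := by
  have h : ‖om‖ ^ 2 = 1 := by
    rw [← Complex.normSq_eq_norm_sq, Complex.normSq_apply, om_re, om_im]
    nlinarith [sq3]
  nlinarith [norm_nonneg om]

theorem norm_om' : ‖om - 1‖ = 1 := by
  have h : ‖om - 1‖ ^ 2 = 1 := by
    rw [← Complex.normSq_eq_norm_sq, Complex.normSq_apply, Complex.sub_re, Complex.sub_im, om_re,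
      om_im, Complex.one_re, Complex.one_im]
    nlinarith [sq3]
  nlinarith [norm_nonneg (om - 1)]

/-- sum of second derivatives in the three lattice directions -/
theorem dirD_three {ψ : ℂ → ℝ} (z : ℂ) :
    dirD 2 ψ 1 z + dirD 2 ψ om z + dirD 2 ψ (om - 1) z = 3 / 2 * (Δ ψ) z := by
  rw [laplacian_eq]
  set B := fderiv ℝ (fderiv ℝ ψ) z with hB
  have hd : ∀ e : ℂ, dirD 2 ψ e z = B e e := by
    intro e
    unfold dirD
    rw [iteratedFDeriv_two_apply]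
  have e1 : om = (1 / 2 : ℝ) • (1 : ℂ) + (Real.sqrt 3 / 2) • Complex.I := by
    apply Complex.ext <;> simp [om]
  have e2 : om - 1 = (-(1 / 2) : ℝ) • (1 : ℂ) + (Real.sqrt 3 / 2) • Complex.I := by
    apply Complex.ext
    · rw [Complex.sub_re, om_re]; simp; norm_num
    · rw [Complex.sub_im, om_im]; simp
  rw [hd, hd, hd, hd, e2, e1]
  simp only [map_add, map_smul, ContinuousLinearMap.add_apply, ContinuousLinearMap.smul_apply,
    smul_eq_mul]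
  have h3 := sq3
  linear_combination (B Complex.I Complex.I / 2) * h3

/-- sum over the six neighbours minus `6 ψ` -/
def lap7 (δ : ℝ) (ψ : ℂ → ℝ) (z : ℂ) : ℝ :=
  (ψ (z + δ * 1) + ψ (z - δ * 1)) + (ψ (z + δ * om) + ψ (z - δ * om)) +
    (ψ (z + δ * (om - 1)) + ψ (z - δ * (om - 1))) - 6 * ψ z

theorem exists_M4 {ψ : ℂ → ℝ} (hψ : ContDiff ℝ ∞ ψ) (hc : HasCompactSupport ψ) :
    ∃ M : ℝ, 0 ≤ M ∧ ∀ z, ‖iteratedFDeriv ℝ 4 ψ z‖ ≤ M := by
  obtain ⟨M, hM⟩ := (hψ.continuous_iteratedFDeriv (m := 4)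
    (WithTop.coe_le_coe.2 (le_top : ((4 : ℕ) : ℕ∞) ≤ ⊤))).bounded_above_of_compact_support (hc.iteratedFDeriv 4)
  exact ⟨M, (norm_nonneg _).trans (hM 0), hM⟩

/-- **Taylor estimate of the triangular Laplacian.** -/
theorem lap7_sub_le {ψ : ℂ → ℝ} (hψ : ContDiff ℝ ∞ ψ) (hc : HasCompactSupport ψ) :
    ∃ C : ℝ, 0 ≤ C ∧ ∀ (δ : ℝ) (z : ℂ), 0 ≤ δ →
      |lap7 δ ψ z - 3 / 2 * δ ^ 2 * (Δ ψ) z| ≤ C * δ ^ 4 := by
  obtain ⟨M, hM0, hM⟩ := exists_M4 hψ hc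
  refine ⟨6 * M, by positivity, fun δ z hδ => ?_⟩
  have h1 := second_diff_dir hψ hM (e := 1) (by simp) z hδ
  have h2 := second_diff_dir hψ hM (e := om) norm_om z hδ
  have h3 := second_diff_dir hψ hM (e := om - 1) norm_om' z hδ
  have h4 := dirD_three (ψ := ψ) z
  have h5 : lap7 δ ψ z - 3 / 2 * δ ^ 2 * (Δ ψ) z =
      (ψ (z + δ * 1) + ψ (z - δ * 1) - 2 * ψ z - δ ^ 2 * dirD 2 ψ 1 z) +
      (ψ (z + δ * om) + ψ (z - δ * om) - 2 * ψ z - δ ^ 2 * dirD 2 ψ om z) +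
      (ψ (z + δ * (om - 1)) + ψ (z - δ * (om - 1)) - 2 * ψ z - δ ^ 2 * dirD 2 ψ (om - 1) z) := by
    unfold lap7
    linear_combination (δ ^ 2) * h4
  rw [h5]
  refine (abs_add_three _ _ _).trans ?_
  linarith

end Crest.Agent.R144.Cw643
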