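import Crest.Agent.R144.Den2_435
import Crest.Agent.R144.Lyf3_792
import Crest.Agent.R144.Fin4_830

/-!
# R144, two-patch density (helper435), part 3: `hUI` for the plane law, no hypothesis left
-/

set_option autoImplicit false

noncomputable section

namespace Crest.Agent.R144.Den435

open Finset MeasureTheory Filter Topology
open Crest.Agent.R144.It844 (P2 Lip)
open Crest.Agent.R144.Zg349
open Crest.Agent.R144.Rsw867 (RSW ball RSWZ)
open Crest.Agent.R144.Pst967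
open Crest.Agent.R144.CuP880 (nb)
open Crest.Agent.R144.Ccw435 (pat pats)

/-- **`hUI` of `joint_seq3` for index rectangles.** -/
theorem hui {x κ : ℝ} {P : Measure Hz} (h : Fin830.Plane x P κ) (R : ℕ) {η : ℝ} (hη : 0 < η) :
    ∃ (C : ℝ) (s0 : ℕ), 0 < C ∧ ∀ s ≥ s0, ∀ (a : P2) (x1 x2 y1 y2 : ℤ),
      x1 ≤ x2 → y1 ≤ y2 → rct x1 x2 y1 y2 ⊆ ball a (R * s) →
        ∀ L : Finset P2, (∀ v ∈ L, v ∉ rct (x1 - (8 * s : ℕ)) (x2 + (8 * s : ℕ)) (y1 - (8 * s : ℕ))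
          (y2 + (8 * s : ℕ))) → ∀ S1 : Finset P2, S1 ⊆ rct x1 x2 y1 y2 →
          ∀ o1 ∈ S1, ∀ B : (S1 → ℤ) → Hz → Prop, (∀ a, LocZ (L : Set P2) (B a)) →
            (∀ a, NeutZ (B a)) → P.real {h | B (pat o1 S1 h) h} ≤ η + C * ∑ a ∈ pats o1 S1,
              P.real {g | pat o1 S1 g = a} * P.real {h | B a h} := by
  have hc := one_le_c h.x0 h.x1
  obtain ⟨K, p, hR⟩ := RSWZ.rsw hc h.rsw
  exact ui_rct hc hR (Lyf792.layf h.x0 h.x1 hR) h.pin h.flim R hη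

/-- connected `K0` inside a simply connected `E0` -/
theorem hui' {x κ : ℝ} {P : Measure Hz} (h : Fin830.Plane x P κ) (R : ℕ) {η : ℝ} (hη : 0 < η) :
    ∃ (C : ℝ) (s0 : ℕ), 0 < C ∧ ∀ s ≥ s0, ∀ (a : P2) (K0 : Finset P2),
      K0.Nonempty → IsConn (K0 : Set P2) → K0 ⊆ ball a (R * s) → ∀ E0 : Finset P2, SC E0 →
        nb K0 (7 * s) ⊆ E0 → ∀ L : Finset P2, Disjoint L (VF E0) → ∀ S1 : Finset P2, S1 ⊆ K0 →
          ∀ o1 ∈ S1, ∀ B : (S1 → ℤ) → Hz → Prop, (∀ a, LocZ (L : Set P2) (B a)) →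
            (∀ a, NeutZ (B a)) → P.real {h | B (pat o1 S1 h) h} ≤ η + C * ∑ a ∈ pats o1 S1,
              P.real {g | pat o1 S1 g = a} * P.real {h | B a h} := by
  have hc := one_le_c h.x0 h.x1
  obtain ⟨K, p, hR⟩ := RSWZ.rsw hc h.rsw
  exact ui_plane hc hR (Lyf792.layf h.x0 h.x1 hR) h.pin h.flim R hη

end Crest.Agent.R144.Den435
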