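import Crest.Agent.R144.Dpl3_702
import Crest.Agent.R144.It2_844

/-!
# R144: discrete Prékopa–Leindler for finite families of heights and for the integer models (helper702)

* `kl_fin4` : four functions version on finite families of functions `V → ℤ` (any `V`);
* `kl_fin`  : one weight;
* `mp_fin`  : midpoint property of an observable `X` with `X (fl a b) + X (ce a b) = X a + X b` and
  `|X (fl a b) - X (ce a b)| ≤ L`;
* `tw_fl_ce`, `wt_fl_ce`, `lip_fl`, `lip_ce`, `conf_fl_ce` : the weights of `It1_844` (`x ^ 2 ≤ 1`);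
* `pr_fl_ce`, `pr_mp`.
-/

set_option autoImplicit false

noncomputable section

namespace Crest.Agent.R144.Dpl702

open Finset
open scoped ENNReal

variable {V : Type*}

/-- a finite family of functions is separated by finitely many coordinates -/
theorem exists_sep (U : Finset (V → ℤ)) :
    ∃ s : Finset V, ∀ a ∈ U, ∀ b ∈ U, (∀ v ∈ s, a v = b v) → a = b := by
  classical
  have h1 : ∀ p : (V → ℤ) × (V → ℤ), ∃ s : Finset V, p.1 ≠ p.2 → ∃ v ∈ s, p.1 v ≠ p.2 v := by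
    intro p
    by_cases h : p.1 = p.2
    · exact ⟨∅, fun h' => absurd h h'⟩
    · obtain ⟨v, hv⟩ := Function.ne_iff.1 h
      exact ⟨{v}, fun _ => ⟨v, by simp, hv⟩⟩
  choose s hs using h1
  refine ⟨(U ×ˢ U).biUnion s, fun a ha b hb hab => ?_⟩
  by_contra hne
  obtain ⟨v, hv, hv2⟩ := hs (a, b) hne
  exact hv2 (hab v (Finset.mem_biUnion.2 ⟨(a, b), by simp [ha, hb], hv⟩))

/-- **discrete Prékopa–Leindler, four functions, finite families** -/
theorem kl_fin4 (f g h k : (V → ℤ) → ℝ) (A B C D : Finset (V → ℤ))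
    (hf : ∀ a ∈ A, 0 ≤ f a) (hg : ∀ a ∈ B, 0 ≤ g a) (hh : ∀ a ∈ C, 0 ≤ h a)
    (hk : ∀ a ∈ D, 0 ≤ k a)
    (hAB : ∀ a ∈ A, ∀ b ∈ B, f a ≠ 0 → g b ≠ 0 →
      fl a b ∈ C ∧ ce a b ∈ D ∧ f a * g b ≤ h (fl a b) * k (ce a b)) :
    (∑ a ∈ A, f a) * (∑ b ∈ B, g b) ≤ (∑ c ∈ C, h c) * ∑ d ∈ D, k d := by
  classical
  obtain ⟨s, hs⟩ := exists_sep (A ∪ B)
  let r : (V → ℤ) → (s → ℤ) := fun a v => a v
  have hr : ∀ a ∈ A ∪ B, ∀ b ∈ A ∪ B, r a = r b → a = b := fun a ha b hb e =>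
    hs a ha b hb fun v hv => congrFun e ⟨v, hv⟩
  let F : ((V → ℤ) → ℝ) → Finset (V → ℤ) → (s → ℤ) → ℝ≥0∞ := fun φ S x =>
    ∑ a ∈ S, if x = r a then ENNReal.ofReal (φ a) else 0
  have hF : ∀ (φ : (V → ℤ) → ℝ) (S : Finset (V → ℤ)), (∀ a ∈ S, 0 ≤ φ a) →
      ∑' x, F φ S x = ENNReal.ofReal (∑ a ∈ S, φ a) := by
    intro φ S hφ
    rw [ENNReal.ofReal_sum_of_nonneg hφ]
    simp only [F]
    rw [Summable.tsum_finsetSum fun _ _ => ENNReal.summable]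
    refine Finset.sum_congr rfl fun a _ => ?_
    exact tsum_ite_eq (r a) (fun _ => ENNReal.ofReal (φ a))
  have h1 : ∀ (φ : (V → ℤ) → ℝ) (S : Finset (V → ℤ)), S ⊆ A ∪ B → ∀ x : s → ℤ,
      F φ S x ≠ 0 → ∃ a ∈ S, x = r a ∧ F φ S x = ENNReal.ofReal (φ a) ∧ φ a ≠ 0 := by
    intro φ S hS x hx
    obtain ⟨a, ha, hax⟩ := Finset.exists_ne_zero_of_sum_ne_zero hx
    have hxa : x = r a := by
      by_contra h'
      rw [if_neg h'] at hax
      exact hax rfl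
    have e : F φ S x = ENNReal.ofReal (φ a) := by
      simp only [F]
      rw [Finset.sum_eq_single a]
      · rw [if_pos hxa]
      · intro b hb hba
        rw [if_neg]
        intro e
        exact hba (hr b (hS hb) a (hS ha) (e.symm.trans hxa))
      · intro h'; exact absurd ha h'
    refine ⟨a, ha, hxa, e, ?_⟩
    intro h0
    rw [e, h0, ENNReal.ofReal_zero] at hx
    exact hx rfl
  have key := kl_pi (F f A) (F g B) (F h C) (F k D) (by
    intro x y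
    by_cases hx : F f A x = 0
    · rw [hx, zero_mul]; exact bot_le
    by_cases hy : F g B y = 0
    · rw [hy, mul_zero]; exact bot_le
    obtain ⟨a, ha, hxa, e1, n1⟩ := h1 f A Finset.subset_union_left x hx
    obtain ⟨b, hb, hyb, e2, n2⟩ := h1 g B Finset.subset_union_right y hy
    obtain ⟨hC, hD, hle⟩ := hAB a ha b hb n1 n2
    rw [e1, e2, ← ENNReal.ofReal_mul (hf a ha)]
    refine (ENNReal.ofReal_le_ofReal hle).trans ?_
    rw [ENNReal.ofReal_mul (hh _ hC)]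
    refine mul_le_mul' ?_ ?_
    · have e3 : fl x y = r (fl a b) := by rw [hxa, hyb]; rfl
      have : (if fl x y = r (fl a b) then ENNReal.ofReal (h (fl a b)) else 0) ≤ F h C (fl x y) :=
        Finset.single_le_sum (f := fun c => if fl x y = r c then ENNReal.ofReal (h c) else 0)
          (fun _ _ => bot_le) hC
      rwa [if_pos e3] at this
    · have e3 : ce x y = r (ce a b) := by rw [hxa, hyb]; rfl
      have : (if ce x y = r (ce a b) then ENNReal.ofReal (k (ce a b)) else 0) ≤ F k D (ce x y) :=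
        Finset.single_le_sum (f := fun c => if ce x y = r c then ENNReal.ofReal (k c) else 0)
          (fun _ _ => bot_le) hD
      rwa [if_pos e3] at this)
  rw [hF f A hf, hF g B hg, hF h C hh, hF k D hk,
    ← ENNReal.ofReal_mul (Finset.sum_nonneg hf), ← ENNReal.ofReal_mul (Finset.sum_nonneg hh)] at key
  exact (ENNReal.ofReal_le_ofReal_iff
    (mul_nonneg (Finset.sum_nonneg hh) (Finset.sum_nonneg hk))).1 key

/-- **discrete Prékopa–Leindler, one weight, finite families** -/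
theorem kl_fin (W : (V → ℤ) → ℝ) (hW : ∀ a, 0 ≤ W a) (A B C D : Finset (V → ℤ))
    (hAB : ∀ a ∈ A, ∀ b ∈ B, fl a b ∈ C ∧ ce a b ∈ D ∧ W a * W b ≤ W (fl a b) * W (ce a b)) :
    (∑ a ∈ A, W a) * (∑ b ∈ B, W b) ≤ (∑ c ∈ C, W c) * ∑ d ∈ D, W d :=
  kl_fin4 W W W W A B C D (fun _ _ => hW _) (fun _ _ => hW _) (fun _ _ => hW _) (fun _ _ => hW _)
    fun a ha b hb _ _ => hAB a ha b hb

/-- a finite family of functions closed under the two roundings of the midpoint, with a weight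
satisfying the midpoint inequality -/
structure Nat2 (S : Finset (V → ℤ)) (W : (V → ℤ) → ℝ) : Prop where
  nonneg : ∀ a ∈ S, 0 ≤ W a
  closed : ∀ a ∈ S, ∀ b ∈ S, fl a b ∈ S ∧ ce a b ∈ S
  ineq : ∀ a ∈ S, ∀ b ∈ S, W a * W b ≤ W (fl a b) * W (ce a b)

/-- an observable compatible with the roundings, with defect `L` -/
def MidLin (S : Finset (V → ℤ)) (X : (V → ℤ) → ℝ) (L : ℝ) : Prop :=
  ∀ a ∈ S, ∀ b ∈ S, X (fl a b) + X (ce a b) = X a + X b ∧ |X (fl a b) - X (ce a b)| ≤ L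

theorem MidLin.neg {S : Finset (V → ℤ)} {X : (V → ℤ) → ℝ} {L : ℝ} (h : MidLin S X L) :
    MidLin S (fun a => - X a) L := by
  intro a ha b hb
  obtain ⟨h1, h2⟩ := h a ha b hb
  refine ⟨by linarith, ?_⟩
  have : - X (fl a b) - - X (ce a b) = - (X (fl a b) - X (ce a b)) := by ring
  rw [this, abs_neg]
  exact h2

theorem MidLin.sub_const {S : Finset (V → ℤ)} {X : (V → ℤ) → ℝ} {L : ℝ} (h : MidLin S X L) (c : ℝ) :
    MidLin S (fun a => X a - c) L := by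
  intro a ha b hb
  obtain ⟨h1, h2⟩ := h a ha b hb
  refine ⟨by linarith, ?_⟩
  have : X (fl a b) - c - (X (ce a b) - c) = X (fl a b) - X (ce a b) := by ring
  rw [this]
  exact h2

theorem MidLin.mul_const {S : Finset (V → ℤ)} {X : (V → ℤ) → ℝ} {L : ℝ} (h : MidLin S X L) (c : ℝ) :
    MidLin S (fun a => c * X a) (|c| * L) := by
  intro a ha b hb
  obtain ⟨h1, h2⟩ := h a ha b hb
  refine ⟨by rw [← mul_add, h1, mul_add], ?_⟩
  rw [← mul_sub, abs_mul]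
  exact mul_le_mul_of_nonneg_left h2 (abs_nonneg c)

theorem MidLin.mono {S : Finset (V → ℤ)} {X : (V → ℤ) → ℝ} {L L' : ℝ} (h : MidLin S X L)
    (hL : L ≤ L') : MidLin S X L' := fun a ha b hb =>
  ⟨(h a ha b hb).1, (h a ha b hb).2.trans hL⟩

theorem midLin_eval (S : Finset (V → ℤ)) (v : V) : MidLin S (fun a => (a v : ℝ)) 1 := by
  intro a _ b _
  have h1 := fl_add_ce a b v
  have h2 := ce_sub_fl a b v
  have h3 : |fl a b v - ce a b v| ≤ 1 := by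
    rcases h2 with h2 | h2 <;> rw [abs_le] <;> constructor <;> omega
  show ((fl a b v : ℤ) : ℝ) + (ce a b v : ℤ) = (a v : ℝ) + (b v : ℝ) ∧
    |((fl a b v : ℤ) : ℝ) - (ce a b v : ℤ)| ≤ 1
  exact ⟨by exact_mod_cast h1, by exact_mod_cast h3⟩

/-- linear observables -/
theorem midLin_sum (S : Finset (V → ℤ)) (s : Finset V) (f : V → ℝ) :
    MidLin S (fun a => ∑ v ∈ s, f v * (a v : ℝ)) (∑ v ∈ s, |f v|) := by
  intro a ha b hb
  refine ⟨?_, ?_⟩
  · rw [← Finset.sum_add_distrib, ← Finset.sum_add_distrib]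
    refine Finset.sum_congr rfl fun v _ => ?_
    rw [← mul_add, ← mul_add, (midLin_eval S v a ha b hb).1]
  · rw [← Finset.sum_sub_distrib]
    refine (Finset.abs_sum_le_sum_abs _ _).trans (Finset.sum_le_sum fun v _ => ?_)
    rw [← mul_sub, abs_mul]
    have := (midLin_eval S v a ha b hb).2
    have h0 := abs_nonneg (f v)
    nlinarith

open Classical in
/-- **midpoint property**, unnormalised -/
theorem mp_fin {S : Finset (V → ℤ)} {W : (V → ℤ) → ℝ} (hSW : Nat2 S W) {X : (V → ℤ) → ℝ} {L : ℝ}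
    (hX : MidLin S X L) (s t : ℝ) :
    (∑ a ∈ S with s ≤ X a, W a) * (∑ a ∈ S with t ≤ X a, W a) ≤
      (∑ a ∈ S with (s + t - L) / 2 ≤ X a, W a) ^ 2 := by
  rw [sq]
  refine kl_fin4 W W W W _ _ _ _ (fun a ha => hSW.nonneg a (Finset.mem_filter.1 ha).1)
    (fun a ha => hSW.nonneg a (Finset.mem_filter.1 ha).1)
    (fun a ha => hSW.nonneg a (Finset.mem_filter.1 ha).1)
    (fun a ha => hSW.nonneg a (Finset.mem_filter.1 ha).1) ?_
  intro a ha b hb _ _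
  rw [Finset.mem_filter] at ha hb
  obtain ⟨h1, h2⟩ := hX a ha.1 b hb.1
  obtain ⟨h3, h4⟩ := hSW.closed a ha.1 b hb.1
  rw [abs_le] at h2
  refine ⟨Finset.mem_filter.2 ⟨h3, ?_⟩, Finset.mem_filter.2 ⟨h4, ?_⟩, hSW.ineq a ha.1 b hb.1⟩
  · linarith [ha.2, hb.2]
  · linarith [ha.2, hb.2]

/-! ### the integer models of `It1_844` -/

open Crest.Agent.R144.It844
open Crest.ProbabilityR.HexHeights (Adj)

theorem lip_fl {h g : P2 → ℤ} (hh : Lip h) (hg : Lip g) : Lip (fl h g) := by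
  intro u v huv
  have h1 := hh u v huv
  have h2 := hg u v huv
  simp only [fl]
  rw [abs_le] at *
  omega

theorem lip_ce {h g : P2 → ℤ} (hh : Lip h) (hg : Lip g) : Lip (ce h g) := by
  intro u v huv
  have h1 := hh u v huv
  have h2 := hg u v huv
  simp only [ce]
  rw [abs_le] at *
  omega

theorem cst_fl_ce {h g : P2 → ℤ} (u : P2) (h1 : Cst h u) (h2 : Cst g u) :
    Cst (fl h g) u ∧ Cst (ce h g) u := by
  unfold Cst fl ce at *
  obtain ⟨a1, a2⟩ := h1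
  obtain ⟨b1, b2⟩ := h2
  rw [← a1, ← a2, ← b1, ← b2]
  exact ⟨⟨rfl, rfl⟩, rfl, rfl⟩

theorem cst_or {h g : P2 → ℤ} (hg : Lip g) (u : P2) (h1 : Cst h u) :
    Cst (fl h g) u ∨ Cst (ce h g) u := by
  obtain ⟨g1, g2, g3⟩ := lip_iff.1 hg u
  unfold Cst fl ce at *
  obtain ⟨a1, a2⟩ := h1
  rw [← a1, ← a2]
  rw [abs_le] at g1 g2 g3
  generalize g u = p at *
  generalize g (u.1 + 1, u.2) = q at *
  generalize g (u.1, u.2 + 1) = r at *
  generalize h u = a at *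
  omega

theorem cst_or' {h g : P2 → ℤ} (hh : Lip h) (u : P2) (h1 : Cst g u) :
    Cst (fl h g) u ∨ Cst (ce h g) u := by
  have e1 : fl h g = fl g h := by funext v; simp only [fl, add_comm]
  have e2 : ce h g = ce g h := by funext v; simp only [ce, add_comm (h v)]
  rw [e1, e2]
  exact cst_or hh u h1

theorem tw_fl_ce {x : ℝ} (hx : x ^ 2 ≤ 1) {h g : P2 → ℤ} (hh : Lip h) (hg : Lip g) (u : P2) :
    tw x h u * tw x g u ≤ tw x (fl h g) u * tw x (ce h g) u := by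
  have hx0 : 0 ≤ x ^ 2 := sq_nonneg x
  by_cases h1 : Cst h u
  · by_cases h2 : Cst g u
    · obtain ⟨h3, h4⟩ := cst_fl_ce u h1 h2
      simp only [tw, if_pos h1, if_pos h2, if_pos h3, if_pos h4]
      exact le_rfl
    · simp only [tw, if_pos h1, if_neg h2]
      rcases cst_or hg u h1 with h3 | h3
      · rw [if_pos h3]; split_ifs <;> nlinarith
      · rw [if_pos h3]; split_ifs <;> nlinarith
  · by_cases h2 : Cst g u
    · simp only [tw, if_neg h1, if_pos h2]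
      rcases cst_or' hh u h2 with h3 | h3
      · rw [if_pos h3]; split_ifs <;> nlinarith
      · rw [if_pos h3]; split_ifs <;> nlinarith
    · simp only [tw, if_neg h1, if_neg h2]
      split_ifs <;> nlinarith

theorem prod_tw_fl_ce {x : ℝ} (hx : x ^ 2 ≤ 1) (U : Finset P2) {h g : P2 → ℤ} (hh : Lip h)
    (hg : Lip g) : (∏ u ∈ U, tw x h u) * (∏ u ∈ U, tw x g u) ≤
      (∏ u ∈ U, tw x (fl h g) u) * ∏ u ∈ U, tw x (ce h g) u := by
  rw [← Finset.prod_mul_distrib, ← Finset.prod_mul_distrib]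
  exact Finset.prod_le_prod (fun u _ => mul_nonneg (tw_nonneg _ _ _) (tw_nonneg _ _ _))
    fun u _ => tw_fl_ce hx hh hg u

theorem wt_fl_ce {x : ℝ} (hx : x ^ 2 ≤ 1) (Λ : Finset P2) {h g : P2 → ℤ} (hh : Lip h)
    (hg : Lip g) : wt x Λ h * wt x Λ g ≤ wt x Λ (fl h g) * wt x Λ (ce h g) :=
  prod_tw_fl_ce hx (upT Λ) hh hg

/-- different boundary data -/
theorem conf_fl_ce' {Λ : Finset P2} {τ τ' h g : P2 → ℤ} (hh : h ∈ conf Λ τ) (hg : g ∈ conf Λ τ') :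
    fl h g ∈ conf Λ (fl τ τ') ∧ ce h g ∈ conf Λ (ce τ τ') := by
  rw [mem_conf] at hh hg
  refine ⟨mem_conf.2 ⟨lip_fl hh.1 hg.1, fun v hv => ?_⟩,
    mem_conf.2 ⟨lip_ce hh.1 hg.1, fun v hv => ?_⟩⟩
  · simp only [fl, hh.2 v hv, hg.2 v hv]
  · simp only [ce, hh.2 v hv, hg.2 v hv]

theorem fl_self (τ : V → ℤ) : fl τ τ = τ := by funext v; simp only [fl]; omega
theorem ce_self (τ : V → ℤ) : ce τ τ = τ := by funext v; simp only [ce]; omega

theorem conf_fl_ce {Λ : Finset P2} {τ h g : P2 → ℤ} (hh : h ∈ conf Λ τ) (hg : g ∈ conf Λ τ) :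
    fl h g ∈ conf Λ τ ∧ ce h g ∈ conf Λ τ := by
  have := conf_fl_ce' hh hg
  rwa [fl_self, ce_self] at this

theorem nat2_conf {x : ℝ} (hx : x ^ 2 ≤ 1) (Λ : Finset P2) (τ : P2 → ℤ) :
    Nat2 (conf Λ τ) (wt x Λ) :=
  ⟨fun _ _ => wt_nonneg _ _ _, fun _ ha _ hb => conf_fl_ce ha hb, fun _ ha _ hb =>
    wt_fl_ce hx Λ (mem_conf.1 ha).1 (mem_conf.1 hb).1⟩

/-- log-concavity of the partition function in the boundary data -/
theorem Z_fl_ce {x : ℝ} (hx : x ^ 2 ≤ 1) (Λ : Finset P2) (τ τ' : P2 → ℤ) :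
    Z x Λ τ * Z x Λ τ' ≤ Z x Λ (fl τ τ') * Z x Λ (ce τ τ') := by
  unfold Z
  refine kl_fin4 _ _ _ _ _ _ _ _ (fun _ _ => wt_nonneg _ _ _) (fun _ _ => wt_nonneg _ _ _)
    (fun _ _ => wt_nonneg _ _ _) (fun _ _ => wt_nonneg _ _ _) fun a ha b hb _ _ => ?_
  obtain ⟨h1, h2⟩ := conf_fl_ce' ha hb
  exact ⟨h1, h2, wt_fl_ce hx Λ (mem_conf.1 ha).1 (mem_conf.1 hb).1⟩

open Classical in
theorem pr_eq {x : ℝ} {Λ : Finset P2} {τ : P2 → ℤ} (A : Set (P2 → ℤ)) :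
    pr x Λ τ A = (Z x Λ τ)⁻¹ * ∑ h ∈ conf Λ τ with h ∈ A, wt x Λ h := by
  unfold pr ex
  rw [Finset.sum_filter, smul_eq_mul]
  congr 1
  refine Finset.sum_congr rfl fun h _ => ?_
  by_cases hA : h ∈ A
  · simp [hA]
  · simp [hA]

/-- **events** : `P(A) P(B) ≤ P(A') P(B')` -/
theorem pr_fl_ce {x : ℝ} (hx : x ^ 2 ≤ 1) (Λ : Finset P2) (τ : P2 → ℤ) (A B A' B' : Set (P2 → ℤ))
    (hAB : ∀ a ∈ A, ∀ b ∈ B, a ∈ conf Λ τ → b ∈ conf Λ τ → fl a b ∈ A' ∧ ce a b ∈ B') :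
    pr x Λ τ A * pr x Λ τ B ≤ pr x Λ τ A' * pr x Λ τ B' := by
  classical
  rw [pr_eq, pr_eq, pr_eq, pr_eq]
  have key := kl_fin4 (wt x Λ) (wt x Λ) (wt x Λ) (wt x Λ) ((conf Λ τ).filter fun h => h ∈ A)
    ((conf Λ τ).filter fun h => h ∈ B) ((conf Λ τ).filter fun h => h ∈ A')
    ((conf Λ τ).filter fun h => h ∈ B') (fun _ _ => wt_nonneg _ _ _) (fun _ _ => wt_nonneg _ _ _)
    (fun _ _ => wt_nonneg _ _ _) (fun _ _ => wt_nonneg _ _ _) (fun a ha b hb _ _ => by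
      rw [Finset.mem_filter] at ha hb
      obtain ⟨h1, h2⟩ := hAB a ha.2 b hb.2 ha.1 hb.1
      obtain ⟨h3, h4⟩ := conf_fl_ce ha.1 hb.1
      exact ⟨Finset.mem_filter.2 ⟨h3, h1⟩, Finset.mem_filter.2 ⟨h4, h2⟩,
        wt_fl_ce hx Λ (mem_conf.1 ha.1).1 (mem_conf.1 hb.1).1⟩)
  have h0 : 0 ≤ (Z x Λ τ)⁻¹ := inv_nonneg.2 (Finset.sum_nonneg fun _ _ => wt_nonneg _ _ _)
  calc _ = (Z x Λ τ)⁻¹ * (Z x Λ τ)⁻¹ * ((∑ h ∈ conf Λ τ with h ∈ A, wt x Λ h) *
        ∑ h ∈ conf Λ τ with h ∈ B, wt x Λ h) := by ring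
    _ ≤ (Z x Λ τ)⁻¹ * (Z x Λ τ)⁻¹ * ((∑ h ∈ conf Λ τ with h ∈ A', wt x Λ h) *
        ∑ h ∈ conf Λ τ with h ∈ B', wt x Λ h) :=
      mul_le_mul_of_nonneg_left key (mul_nonneg h0 h0)
    _ = _ := by ring

/-- **midpoint property** of the law of a compatible observable -/
theorem pr_mp {x : ℝ} (hx : x ^ 2 ≤ 1) (Λ : Finset P2) (τ : P2 → ℤ) {X : (P2 → ℤ) → ℝ} {L : ℝ}
    (hX : MidLin (conf Λ τ) X L) (s t : ℝ) :
    pr x Λ τ {h | s ≤ X h} * pr x Λ τ {h | t ≤ X h} ≤ pr x Λ τ {h | (s + t - L) / 2 ≤ X h} ^ 2 := by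
  rw [sq]
  refine pr_fl_ce hx Λ τ _ _ _ _ fun a ha b hb ha' hb' => ?_
  obtain ⟨h1, h2⟩ := hX a ha' b hb'
  rw [abs_le] at h2
  rw [Set.mem_ofPred_eq] at ha hb ⊢
  rw [Set.mem_ofPred_eq]
  constructor <;> linarith

end Crest.Agent.R144.Dpl702
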