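import Crest.Agent.R144.Dpl5_702
import Crest.Agent.R144.Pst3_967

/-!
# R144: moments of neutral linear functionals under the integer plane state (helper702)

* `mom_lim` : the moment bound passes to limits along any filter;
* `ZeroLim_moment` : for 967's limit `P` of the zero boundary laws and `∑ f = 0`,
  `∫ |X| ^ n dP ≤ 2 * Cm n * (4 * √(∫ X ^ 2 dP) + ∑ |f|) ^ n`, `X h = ∑ f v * h v`;
* `MomP`, `momP_planeState` : the same for `P.map toR` in the language of 643's `lin`.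
-/

set_option autoImplicit false

noncomputable section

namespace Crest.Agent.R144.Dpl702

open Finset MeasureTheory Filter Topology
open Crest.Agent.R144.It844 Crest.Agent.R144.Pst967
open Crest.Agent.R144.Ps643 (Ht lin measurable_lin PlaneState)

theorem mom_lim {ι : Type*} {l : Filter ι} [l.NeBot] {x : ℝ} (hx0 : 0 < x) (hx1 : x ≤ 1)
    {Λ : ι → Finset P2} {τ : ι → P2 → ℤ} (hτ : ∀ i, Lip (τ i)) {X : (P2 → ℤ) → ℝ} {L : ℝ}
    (hL : 0 ≤ L) (hX : ∀ S : Finset (P2 → ℤ), MidLin S X L) {A B : ℝ} (n : ℕ)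
    (h2 : Tendsto (fun i => ex x (Λ i) (τ i) (fun h => X h ^ 2)) l (𝓝 A))
    (hn : Tendsto (fun i => ex x (Λ i) (τ i) (fun h => |X h| ^ n)) l (𝓝 B)) :
    B ≤ 2 * Cm n * (4 * Real.sqrt A + L) ^ n := by
  have h3 : ∀ i, ex x (Λ i) (τ i) (fun h => |X h| ^ n) ≤
      2 * Cm n * (4 * Real.sqrt (ex x (Λ i) (τ i) (fun h => X h ^ 2)) + L) ^ n := by
    intro i
    refine ex_abs_moment hx0 hx1 (hτ i) (hX _) hL (Real.sqrt_nonneg _) ?_ n
    rw [Real.sq_sqrt]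
    exact ex_nonneg fun h _ => sq_nonneg _
  refine le_of_tendsto_of_tendsto' hn ?_ h3
  have hc : Continuous fun a : ℝ => 2 * Cm n * (4 * Real.sqrt a + L) ^ n := by fun_prop
  exact (hc.tendsto A).comp h2

/-- integer linear functional -/
def linZ (s : Finset P2) (f : P2 → ℝ) (h : P2 → ℤ) : ℝ := ∑ v ∈ s, f v * (h v : ℝ)

theorem gobs_linZ {s : Finset P2} {f : P2 → ℝ} (hf : ∑ v ∈ s, f v = 0) : GObs (linZ s f) := by
  refine ⟨⟨s, fun h g hg => ?_⟩, fun h c => ?_⟩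
  · exact Finset.sum_congr rfl fun v hv => by rw [hg v hv]
  · unfold linZ
    have : ∀ v ∈ s, f v * ((h v + c : ℤ) : ℝ) = f v * (h v : ℝ) + f v * (c : ℝ) := fun v _ => by
      push_cast; ring
    rw [Finset.sum_congr rfl this, Finset.sum_add_distrib, ← Finset.sum_mul, hf, zero_mul, add_zero]

theorem ZeroLim_moment {x : ℝ} (hx0 : 0 < x) (hx1 : x ≤ 1) {𝓒 : Set (Finset P2)} (h𝓒 : Pst967.Cls 𝓒)
    {P : Measure (P2 → ℤ)} (hP : ZeroLim x 𝓒 P) {s : Finset P2} {f : P2 → ℝ}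
    (hf : ∑ v ∈ s, f v = 0) (n : ℕ) :
    ∫ h, |linZ s f h| ^ n ∂P ≤
      2 * Cm n * (4 * Real.sqrt (∫ h, linZ s f h ^ 2 ∂P) + ∑ v ∈ s, |f v|) ^ n := by
  have hne := h𝓒.neBot
  have hg := gobs_linZ hf
  exact mom_lim hx0 hx1 (fun _ => lip_zero) (Finset.sum_nonneg fun _ _ => abs_nonneg _)
    (fun S => midLin_sum S s f) n (hP _ (hg.comp (fun t => t ^ 2))) (hP _ (hg.comp (fun t => |t| ^ n)))

/-- central exponentials: tail bound for neutral linear functionals -/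
def MomP (P : Measure Ht) : Prop := ∀ (s : Finset P2) (f : P2 → ℝ), ∑ v ∈ s, f v = 0 → ∀ n : ℕ,
  ∫ h, |lin s f h| ^ n ∂P ≤
    2 * Cm n * (4 * Real.sqrt (∫ h, lin s f h ^ 2 ∂P) + ∑ v ∈ s, |f v|) ^ n

theorem lin_toR (s : Finset P2) (f : P2 → ℝ) (h : P2 → ℤ) : lin s f (toR h) = linZ s f h := rfl

/-- **all moments of neutral linear functionals under the integer plane state** -/
theorem momP_of_zeroLim {x : ℝ} (hx0 : 0 < x) (hx1 : x ≤ 1) {𝓒 : Set (Finset P2)} (h𝓒 : Pst967.Cls 𝓒)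
    {P : Measure (P2 → ℤ)} (hP : ZeroLim x 𝓒 P) : MomP (P.map toR) := by
  intro s f hf n
  have hint : ∀ F : Ht → ℝ, Measurable F → ∫ h, F h ∂(P.map toR) = ∫ h, F (toR h) ∂P := fun F hF =>
    integral_map measurable_toR.aemeasurable hF.aestronglyMeasurable
  have hm : Measurable (lin s f) := measurable_lin s f
  rw [hint _ (hm.abs.pow_const n), hint _ (hm.pow_const 2)]
  simp only [lin_toR]
  exact ZeroLim_moment hx0 hx1 h𝓒 hP hf n

/-! ### consequences in the form used by the cell argument -/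

/-- `∫ X ^ 4 ≤ C (∫ X ^ 2) ^ 2` up to the `ℓ¹` norm, for every moment -/
theorem MomP.le_of {P : Measure Ht} (hP : MomP P) {s : Finset P2} {f : P2 → ℝ}
    (hf : ∑ v ∈ s, f v = 0) (n : ℕ) {a : ℝ} (ha : 0 ≤ a)
    (h2 : ∫ h, lin s f h ^ 2 ∂P ≤ a ^ 2) (h1 : ∑ v ∈ s, |f v| ≤ a) :
    ∫ h, |lin s f h| ^ n ∂P ≤ 2 * Cm n * 5 ^ n * a ^ n := by
  refine (hP s f hf n).trans ?_
  have h3 : Real.sqrt (∫ h, lin s f h ^ 2 ∂P) ≤ a := by
    rw [← Real.sqrt_sq ha]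
    exact Real.sqrt_le_sqrt h2
  rw [mul_assoc (2 * Cm n), ← mul_pow]
  refine mul_le_mul_of_nonneg_left (pow_le_pow_left₀ ?_ ?_ n)
    (mul_nonneg (by norm_num) (cm_nonneg n))
  · have h4 := Real.sqrt_nonneg (∫ h, lin s f h ^ 2 ∂P)
    have h5 : 0 ≤ ∑ v ∈ s, |f v| := Finset.sum_nonneg fun _ _ => abs_nonneg _
    linarith
  · linarith

end Crest.Agent.R144.Dpl702
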