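import Crest.Agent.R144.Zo4_349

/-!
# R144: comparison of the law with fixed boundary heights with the F-type laws (helper349)

`Λ` finite with connected complement, `B` simply connected set of up triangles, `B ⊆ upT Λ`, `IV B ⊆ Λ`, `f`
increasing and in `B`, `g ≥ 0` off `B`:
* `upper0` : boundary height `0` : `E0 [g f] ≤ E0 [g] E_B [f]`;
* `lower0` : any boundary heights `ξ ∈ {0, 1}` : `E0 [g] E_B [f ∘ addH 2] ≤ E0 [g f]`.
-/

set_option autoImplicit false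
set_option linter.unusedSectionVars false
set_option linter.unusedSimpArgs false

noncomputable section

namespace Crest.Agent.R144.Zo349

open Finset
open Crest.Agent.R144.It844 (P2 Lip Cst adj_iff adj_symm lip_iff upT mem_upT tw adj_up exists_exit)
open Crest.Agent.R144.Zg349 Crest.Agent.R144.Zk349 Crest.Agent.R144.Zd349 Crest.Agent.R144.Zm349
open Crest.Agent.R144.HyA349 Crest.Agent.R144.HyB349 Crest.Agent.R144.HyC349
open Crest.Agent.R144.Ze349 Crest.Agent.R144.Zs349 Crest.Agent.R144.Zf349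
open Crest.ProbabilityR.HexHeights (Adj)

theorem EBL_smul (c : ℝ) (Λ B : Finset P2) (η : BC P2 Hy) (a : ℝ)
    (f : Finset P2 → Finset P2 → Finset P2 → ℝ) :
    EBL c Λ B η (fun T P M => a * f T P M) = a * EBL c Λ B η f := by
  unfold EBL En
  simp only [Finset.mul_sum]
  refine Finset.sum_congr rfl fun T _ => Finset.sum_congr rfl fun M _ => Finset.sum_congr rfl
    fun P _ => ?_
  ring

/-- compatibility factor seen by `B` -/
def cJ (Λ : Finset P2) (ξ : P2 → ℤ) (T1 Z1 P : Finset P2) : ℝ :=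
  cI Λ ξ ((Z1.filter fun t => t ∉ T1) ∪ P)

theorem cJ_inc (Λ : Finset P2) (ξ : P2 → ℤ) (T1 Z1 : Finset P2) :
    Inc (fun (_ : Finset P2) (P _M : Finset P2) => cJ Λ ξ T1 Z1 P) :=
  fun _ _ _ _ _ _ _ hP _ => cI_mono (Finset.union_subset_union (Finset.Subset.refl _) hP)

theorem cJ_nonneg (Λ : Finset P2) (ξ : P2 → ℤ) (T1 Z1 P : Finset P2) : 0 ≤ cJ Λ ξ T1 Z1 P :=
  cI_nonneg _ _ _

/-- **Environment representation.** -/
theorem envL (c : ℝ) {Λ B : Finset P2} {ξ : P2 → ℤ} (hΛ : IsConn ((Λ : Set P2)ᶜ)) (hξ : Bv Λ ξ)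
    (hBK : B ⊆ upT Λ) (hIV : IV B ⊆ Λ) {f g : Cfg → ℝ} (hf : IncP f) (hin : InTZ B f)
    (hg : OffTZ B g) :
    nL Λ ∅ * S0 c Λ ξ (fun ω => g ω * f ω) =
      NmL Λ * ∑ T1 ∈ (Λ \ IV B).powerset, ∑ Z1 ∈ (upT Λ \ B).powerset,
        fw up c (upT Λ \ B) T1 Z1 * g (mkZ (upT Λ) T1 Z1) *
          EBL c Λ B (etaL T1 Z1) (fun T P M => cJ Λ ξ T1 Z1 P * f (mk B T P M)) := by
  set K := upT Λ with hK
  have hd := decompL c (Λ := Λ) (K := K) hBK hIV
    (fun T1 Z1 T P M => g (mkZ K T1 Z1) * (cJ Λ ξ T1 Z1 P * f (mk B T P M)))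
  simp only [EBL_smul] at hd
  simp only [mul_assoc] at hd ⊢
  rw [← hd, S0_tz hΛ hξ c (hg.tz.mul hf.tz), ← hK]
  have h1 : ∀ T ∈ Λ.powerset, ∀ Z ∈ K.powerset,
      fw up c K T Z * nL Λ Z * (cI Λ ξ Z * (g (mkZ K T Z) * f (mkZ K T Z))) =
      fw up c K T Z * (nL Λ Z * (g (mkZ K (T \ IV B) (Z \ B)) *
        (cJ Λ ξ (T \ IV B) (Z \ B) (Z ∩ E2 up B T) *
          f (mk B (T ∩ IV B) (Z ∩ E2 up B T) (Z ∩ E1 up B T))))) := by
    intro T hT Z hZ
    rw [Finset.mem_powerset] at hT hZ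
    by_cases hs : ∀ t ∈ Z, Cs up T t
    · have hgv : g (mkZ K T Z) = g (mkZ K (T \ IV B) (Z \ B)) := by
        refine hg _ _ (fun v hv => ?_) (fun e he => ?_)
        · apply bool_eq_of_iff
          rw [mkZ_s, mkZ_s, Finset.mem_sdiff]
          tauto
        · apply bool_eq_of_iff
          rw [mkZ_z, mkZ_z, Finset.mem_sdiff]
          tauto
      have hfv : f (mkZ K T Z) = f (mk B (T ∩ IV B) (Z ∩ E2 up B T) (Z ∩ E1 up B T)) := by
        apply hin.eq_of_agree hf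
        · intro v hv
          apply bool_eq_of_iff
          rw [mkZ_s, mk_s, Finset.mem_inter]
          tauto
        · intro t ht htv
          apply bool_eq_of_iff
          rw [mkZ_z, mk_z]
          have h1 := hBK ht
          constructor
          · rintro (h | h)
            · exact absurd h1 h
            · by_cases htT : t ∈ T
              · exact Or.inr (Or.inr ⟨Finset.mem_inter.2 ⟨h, Finset.mem_filter.2 ⟨ht,
                  cs_minus (hs t h) htT⟩⟩, Finset.mem_inter.2 ⟨htT, htv⟩⟩)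
              · exact Or.inr (Or.inl ⟨Finset.mem_inter.2 ⟨h, Finset.mem_filter.2 ⟨ht,
                  cs_plus (hs t h) htT⟩⟩, fun h' => htT (Finset.mem_inter.1 h').1⟩)
          · rintro (h | h | h)
            · exact absurd ht h
            · exact Or.inr (Finset.mem_inter.1 h.1).1
            · exact Or.inr (Finset.mem_inter.1 h.1).1
      have hset : (Z.filter fun t => t ∉ T) =
          ((Z \ B).filter fun t => t ∉ T \ IV B) ∪ (Z ∩ E2 up B T) := by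
        ext t
        rw [Finset.mem_filter, Finset.mem_union, Finset.mem_filter, Finset.mem_sdiff,
          Finset.mem_sdiff, Finset.mem_inter]
        unfold E2
        rw [Finset.mem_filter]
        constructor
        · rintro ⟨h1, h2⟩
          by_cases hB : t ∈ B
          · exact Or.inr ⟨h1, hB, cs_plus (hs t h1) h2⟩
          · exact Or.inl ⟨⟨h1, hB⟩, fun h => h2 h.1⟩
        · rintro (⟨⟨h1, h2⟩, h3⟩ | ⟨h1, _, h2⟩)
          · exact ⟨h1, fun h => h3 ⟨h, fun h' => h2 (IV_sub B h')⟩⟩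
          · exact ⟨h1, h2 t (base_mem_up t)⟩
      have hcI : cI Λ ξ Z = cJ Λ ξ (T \ IV B) (Z \ B) (Z ∩ E2 up B T) := by
        unfold cJ cI
        rw [← hset]
        have := cmp_plus hΛ hξ hT hs
        by_cases h : Cmp Λ ξ Z
        · rw [if_pos h, if_pos (this.1 h)]
        · rw [if_neg h, if_neg fun h' => h (this.2 h')]
      rw [hgv, hfv, hcI]
      ring
    · rw [fw_zero_of_not c _ _ hZ hs]
      ring
  rw [Finset.sum_congr rfl fun T hT => Finset.sum_congr rfl (h1 T hT)]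
  ring

theorem one_rep (c : ℝ) {Λ B : Finset P2} {ξ : P2 → ℤ} (hΛ : IsConn ((Λ : Set P2)ᶜ)) (hξ : Bv Λ ξ)
    (hBK : B ⊆ upT Λ) (hIV : IV B ⊆ Λ) {g : Cfg → ℝ} (hg : OffTZ B g) :
    nL Λ ∅ * S0 c Λ ξ g =
      NmL Λ * ∑ T1 ∈ (Λ \ IV B).powerset, ∑ Z1 ∈ (upT Λ \ B).powerset,
        fw up c (upT Λ \ B) T1 Z1 * g (mkZ (upT Λ) T1 Z1) *
          EBL c Λ B (etaL T1 Z1) (fun _ P _ => cJ Λ ξ T1 Z1 P) := by
  have h := envL c hΛ hξ hBK hIV incP_one (inTZ_one B) hg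
  simp only [mul_one] at h
  exact h

/-- comparison of sums over environments -/
theorem sum_envL_le {c : ℝ} (hc : 1 ≤ c) {Λ B K : Finset P2} {g : Cfg → ℝ} (hg : ∀ ω, 0 ≤ g ω)
    {a b : Finset P2 → Finset P2 → ℝ}
    (h : ∀ T1 ⊆ Λ \ IV B, ∀ Z1 ⊆ K \ B, (∀ t ∈ Z1, Cs up T1 t) → a T1 Z1 ≤ b T1 Z1) :
    NmL Λ * ∑ T1 ∈ (Λ \ IV B).powerset, ∑ Z1 ∈ (K \ B).powerset,
        fw up c (K \ B) T1 Z1 * g (mkZ K T1 Z1) * a T1 Z1 ≤
      NmL Λ * ∑ T1 ∈ (Λ \ IV B).powerset, ∑ Z1 ∈ (K \ B).powerset,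
        fw up c (K \ B) T1 Z1 * g (mkZ K T1 Z1) * b T1 Z1 := by
  refine mul_le_mul_of_nonneg_left (Finset.sum_le_sum fun T1 hT1 => Finset.sum_le_sum
    fun Z1 hZ1 => ?_) (NmL_pos Λ).le
  rw [Finset.mem_powerset] at hT1 hZ1
  by_cases hs : ∀ t ∈ Z1, Cs up T1 t
  · exact mul_le_mul_of_nonneg_left (h T1 hT1 Z1 hZ1 hs)
      (mul_nonneg (fw_nonneg up hc _ _ _) (hg _))
  · rw [fw_zero_of_not c _ _ hZ1 hs]
    simp

/-- **Upper comparison**, boundary height `0`. -/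
theorem upper0 {c : ℝ} (hc : 1 ≤ c) {Λ B : Finset P2} {ξ : P2 → ℤ} (hΛ : IsConn ((Λ : Set P2)ᶜ))
    (hξ : ∀ v, v ∉ Λ → ξ v = 0) (hB : SC B) (hBK : B ⊆ upT Λ) (hIV : IV B ⊆ Λ) (hLip : Lip ξ)
    {f g : Cfg → ℝ} (hf : IncP f) (hin : InTZ B f) (hg0 : ∀ ω, 0 ≤ g ω) (hg : OffTZ B g) :
    E0 c Λ ξ (fun ω => g ω * f ω) ≤ E0 c Λ ξ g * E c B f := by
  have hBv : Bv Λ ξ := fun v hv => Or.inl (hξ v hv)
  set fB : Finset P2 → Finset P2 → Finset P2 → ℝ := fun T P M => f (mk B T P M) with hfB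
  have hincB : Inc fB := mkG_inc B hf
  set o' := EB c (ID B) B (eta ∅ ∅) (fun _ _ _ => 1) with ho'
  set f' := EB c (ID B) B (eta ∅ ∅) fB with hf'
  have hcJ : ∀ T1 Z1 P, cJ Λ ξ T1 Z1 P = 1 := fun T1 Z1 P => by
    unfold cJ cI
    rw [if_pos (cmp_zero Λ hξ _)]
  have hloc : ∀ T1 ⊆ Λ \ IV B, ∀ Z1 ⊆ upT Λ \ B, (∀ t ∈ Z1, Cs Zg349.up T1 t) →
      EBL c Λ B (etaL T1 Z1) (fun T P M => cJ Λ ξ T1 Z1 P * fB T P M) * o' ≤
        EBL c Λ B (etaL T1 Z1) (fun _ P _ => cJ Λ ξ T1 Z1 P) * f' := by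
    intro T1 hT1 Z1 hZ1 hs
    simp only [hcJ, one_mul]
    have hle : (etaL T1 Z1).Le (maxL Λ B) := by
      refine ⟨Finset.empty_subset _, ?_, Finset.empty_subset _⟩
      intro e he
      obtain ⟨t, ht, rfl⟩ := mem_emb.1 he
      exact Finset.mem_union_left _ (t_mem_emb.2 (hZ1 (Finset.mem_filter.1 ht).1))
    have h1 := EBL_mono hc (Λ := Λ) (etaL_ok hT1 hZ1) (maxL_ok Λ B) hle hincB
    have h2 := EBL_max c hBK hIV fB
    have h3 := EBL_max c hBK hIV (fun _ _ _ => 1)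
    have p1 := ncl_pos B ∅
    have p2 := nL_pos Λ ∅
    have h4 := mul_le_mul_of_nonneg_right h1 p1.le
    have h5 : EBL c Λ B (etaL T1 Z1) fB * (nL Λ ∅ * o') ≤
        EBL c Λ B (etaL T1 Z1) (fun _ _ _ => 1) * (nL Λ ∅ * f') := by
      rw [ho', hf', ← h2, ← h3]
      linarith
    have h6 : nL Λ ∅ * (EBL c Λ B (etaL T1 Z1) fB * o') ≤ nL Λ ∅ *
        (EBL c Λ B (etaL T1 Z1) (fun _ _ _ => 1) * f') := by
      linarith
    exact le_of_mul_le_mul_left h6 p2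
  have s1 := envL c hΛ hBv hBK hIV hf hin hg
  have s2 := one_rep c hΛ hBv hBK hIV hg
  have p2 := nL_pos Λ ∅
  have hmain : S0 c Λ ξ (fun ω => g ω * f ω) * o' ≤ S0 c Λ ξ g * f' := by
    have h7 := sum_envL_le hc (Λ := Λ) (B := B) (K := upT Λ) hg0
      (a := fun T1 Z1 => EBL c Λ B (etaL T1 Z1) (fun T P M => cJ Λ ξ T1 Z1 P * fB T P M) * o')
      (b := fun T1 Z1 => EBL c Λ B (etaL T1 Z1) (fun _ P _ => cJ Λ ξ T1 Z1 P) * f') hloc
    refine le_of_mul_le_mul_left ?_ p2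
    rw [← mul_assoc, ← mul_assoc, s1, s2, mul_assoc, mul_assoc, Finset.sum_mul, Finset.sum_mul]
    simp only [Finset.sum_mul, mul_assoc] at h7 ⊢
    exact h7
  have hZ0 := Z0_pos hc (Λ := Λ) hLip
  have hKB := Kc_pos B B
  have o1 : 0 < o' := EB_one_pos hc (eta0_ok B)
  have hEB : E c B f = f' / o' := by
    rw [E_eq_S, rep_self c hB hf.tz, Z_eq c hB]
    exact mul_div_mul_left _ _ hKB.ne'
  unfold E0
  rw [hEB, div_mul_div_comm, div_le_div_iff₀ hZ0 (mul_pos hZ0 o1)]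
  nlinarith [mul_le_mul_of_nonneg_left hmain hZ0.le]

/-- **Lower comparison**, boundary heights `ξ ∈ {0, 1}`. -/
theorem lower0 {c : ℝ} (hc : 1 ≤ c) {Λ B : Finset P2} {ξ : P2 → ℤ} (hΛ : IsConn ((Λ : Set P2)ᶜ))
    (hξ : Bv Λ ξ) (hB : SC B) (hBK : B ⊆ upT Λ) (hIV : IV B ⊆ Λ) (hLip : Lip ξ)
    {f g : Cfg → ℝ} (hf : IncP f) (hin : InTZ B f) (hg0 : ∀ ω, 0 ≤ g ω) (hg : OffTZ B g) :
    E0 c Λ ξ g * E c B (fun ω => f (addH 2 ω)) ≤ E0 c Λ ξ (fun ω => g ω * f ω) := by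
  set fB : Finset P2 → Finset P2 → Finset P2 → ℝ := fun T P M => f (mk B T P M) with hfB
  have hincB : Inc fB := mkG_inc B hf
  set mf := EBL c Λ B (minL Λ B) fB with hmf
  set m1 := EBL c Λ B (minL Λ B) (fun _ _ _ => 1) with hm1
  have hm1pos : 0 < m1 := EBL_one_pos hc (minL_ok Λ B)
  have hloc : ∀ T1 ⊆ Λ \ IV B, ∀ Z1 ⊆ upT Λ \ B, (∀ t ∈ Z1, Cs up T1 t) →
      EBL c Λ B (etaL T1 Z1) (fun _ P _ => cJ Λ ξ T1 Z1 P) * mf ≤
        EBL c Λ B (etaL T1 Z1) (fun T P M => cJ Λ ξ T1 Z1 P * fB T P M) * m1 := by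
    intro T1 hT1 Z1 hZ1 hs
    have hle : (minL Λ B).Le (etaL T1 Z1) := by
      refine ⟨?_, Finset.empty_subset _, ?_⟩
      · intro v hv
        have h := Finset.mem_sdiff.1 (hT1 hv)
        exact Finset.mem_sdiff.2 ⟨Finset.mem_union_left _ h.1, h.2⟩
      · intro e he
        obtain ⟨t, ht, rfl⟩ := mem_emb.1 he
        rw [Finset.mem_filter] at ht
        refine Finset.mem_union_left _ (t_mem_emb.2 (Finset.mem_filter.2 ⟨hZ1 ht.1, fun v hv => ?_⟩))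
        have h := Finset.mem_sdiff.1 (hT1 (cs_minus (hs t ht.1) ht.2 v hv))
        exact Finset.mem_sdiff.2 ⟨Finset.mem_union_left _ h.1, h.2⟩
    have hok := etaL_ok (B := B) hT1 hZ1
    have h1 := EBL_mono hc (Λ := Λ) (minL_ok Λ B) hok hle hincB
    have h2 := EBL_fkg hc (Λ := Λ) hok (cJ_inc Λ ξ T1 Z1) hincB
    have o1 : 0 < EBL c Λ B (etaL T1 Z1) (fun _ _ _ => 1) := EBL_one_pos hc hok
    have hA : 0 ≤ EBL c Λ B (etaL T1 Z1) (fun _ P _ => cJ Λ ξ T1 Z1 P) :=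
      EBL_nonneg hc fun _ P _ => cJ_nonneg Λ ξ T1 Z1 P
    set o := EBL c Λ B (etaL T1 Z1) (fun _ _ _ => 1)
    set a := EBL c Λ B (etaL T1 Z1) (fun _ P _ => cJ Λ ξ T1 Z1 P)
    set b := EBL c Λ B (etaL T1 Z1) fB
    set d := EBL c Λ B (etaL T1 Z1) (fun T P M => cJ Λ ξ T1 Z1 P * fB T P M)
    have h3 : a * (mf * o) ≤ a * (m1 * b) := mul_le_mul_of_nonneg_left h1 hA
    have h4 : m1 * (a * b) ≤ m1 * (o * d) := mul_le_mul_of_nonneg_left h2 hm1pos.le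
    have h5 : o * (a * mf) ≤ o * (d * m1) := by linarith
    exact le_of_mul_le_mul_left h5 o1
  have s1 := envL c hΛ hξ hBK hIV hf hin hg
  have s2 := one_rep c hΛ hξ hBK hIV hg
  have p2 := nL_pos Λ ∅
  have hmain : S0 c Λ ξ g * mf ≤ S0 c Λ ξ (fun ω => g ω * f ω) * m1 := by
    have h7 := sum_envL_le hc (Λ := Λ) (B := B) (K := upT Λ) hg0
      (a := fun T1 Z1 => EBL c Λ B (etaL T1 Z1) (fun _ P _ => cJ Λ ξ T1 Z1 P) * mf)
      (b := fun T1 Z1 => EBL c Λ B (etaL T1 Z1) (fun T P M => cJ Λ ξ T1 Z1 P * fB T P M) * m1) hloc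
    refine le_of_mul_le_mul_left ?_ p2
    rw [← mul_assoc, ← mul_assoc, s1, s2, mul_assoc, mul_assoc, Finset.sum_mul, Finset.sum_mul]
    simp only [Finset.sum_mul, mul_assoc] at h7 ⊢
    exact h7
  have e1 := EBL_min c (Λ := Λ) hB hBK hIV hf hin
  have e2 := EBL_min c (Λ := Λ) hB hBK hIV incP_one (inTZ_one B)
  rw [S_one] at e2
  have hZ0 := Z0_pos hc (Λ := Λ) hLip
  have hZB := Z_pos hc B
  have hn := Nm_pos B
  have hratio : E c B (fun ω => f (addH 2 ω)) = mf / m1 := by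
    rw [E_eq_S, div_eq_div_iff hZB.ne' hm1pos.ne']
    have h8 : nL Λ ∅ * Nm B * (S c B (fun ω => f (addH 2 ω)) * m1) =
        nL Λ ∅ * Nm B * (mf * Z c B) := by
      calc _ = (nL Λ ∅ * S c B (fun ω => f (addH 2 ω))) * (m1 * Nm B) := by ring
        _ = (mf * Nm B) * (nL Λ ∅ * Z c B) := by rw [← e1, e2]
        _ = _ := by ring
    exact mul_left_cancel₀ (by positivity) h8
  unfold E0
  rw [hratio, div_mul_div_comm, div_le_div_iff₀ (mul_pos hZ0 hm1pos) hZ0]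
  nlinarith [mul_le_mul_of_nonneg_left hmain hZ0.le]

end Crest.Agent.R144.Zo349
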