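import Crest.Agent.R144.Bx3_695
import Crest.Agent.R144.Zo5_349

/-!
# R144, block BND, (F3), part 1 (helper725): spatial Markov property of the law with fixed boundary heights

`c = x⁻²`, `Λ ⊆ Λ'`.
* `E0_dlr` : `φ` not depending on the heights in `Λ` and on the closed indicators of `upT Λ` ⟹
  `E0 c Λ' ξ (φ ω * f ω.1) = E0 c Λ' ξ (φ ω * ex x Λ ω.1 f)`;
* `le_E0` : `τ ≤ ω.1` off `Λ` on the support of `φ ≥ 0`, `f` increasing ⟹ `ex x Λ τ f * E0 φ ≤ E0 (φ f)`.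
-/

set_option autoImplicit false
set_option linter.unusedVariables false
set_option linter.unusedSectionVars false

noncomputable section

namespace Crest.Agent.R144.Ef725

open Finset
open Crest.Agent.R144.It844 (P2 Lip Cst tw upT mem_upT ex)
open Crest.Agent.R144.Zg349 Crest.Agent.R144.Zk349 Crest.Agent.R144.Zd349
open Crest.Agent.R144.Zm349
open Crest.Agent.R144.Ze349 (sum_powerset_split)
open Crest.Agent.R144.Zo349
open Crest.Agent.R144.Zs349 (lip_cr)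
open Crest.Agent.R144.Bx695 (Off cw outA outA_congr ew_congr prod_cw)
open Crest.ProbabilityR.HexHeights (Adj)

theorem sum_powerset_ewL (c : ℝ) {F U : Finset P2} (hU : U ⊆ F) {h : P2 → ℤ} (hh : Lip h) :
    ∑ Z ∈ U.powerset, ∏ t ∈ U, ew c (h, zb F Z) t = ∏ t ∈ U, cw c h t := by
  have h1 : ∀ t ∈ U, cw c h t = (if C1 h t then (1 : ℝ) else 0) +
      (if C2 h t then (if C1 h t then c - 1 else 1) else 0) := by
    intro t ht
    have hl := fun i j => lip_cr hh t i j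
    have k1 := cst_iff (h := h) (t := t) hl
    have k2 := c1_or_c2 (h := h) (t := t) hl
    unfold cw
    by_cases a : C1 h t
    · by_cases b : C2 h t
      · rw [if_pos (k1.2 ⟨a, b⟩), if_pos a, if_pos b, if_pos a]; ring
      · rw [if_neg (fun e => b (k1.1 e).2), if_pos a, if_neg b]; ring
    · have b := k2.resolve_left a
      rw [if_neg (fun e => a (k1.1 e).1), if_neg a, if_pos b, if_neg a]; ring
  rw [Finset.prod_congr rfl h1, Finset.prod_add]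
  refine Finset.sum_congr rfl fun Z hZ => ?_
  rw [Finset.mem_powerset] at hZ
  rw [← Finset.prod_inter_mul_prod_sdiff U Z, Finset.inter_eq_right.2 hZ]
  congr 1
  · refine Finset.prod_congr rfl fun t ht => ?_
    have : zb F Z t = true := by unfold zb; rw [decide_eq_true_eq]; exact Or.inr ht
    unfold ew
    rw [if_pos this]
  · refine Finset.prod_congr rfl fun t ht => ?_
    obtain ⟨h1, h2⟩ := Finset.mem_sdiff.1 ht
    have : ¬ zb F Z t = true := by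
      unfold zb; rw [decide_eq_true_eq]; push Not; exact ⟨hU h1, h2⟩
    unfold ew
    rw [if_neg this]

theorem sum_zs_offL (c : ℝ) {F Λ : Finset P2} (hΛ : upT Λ ⊆ F) {φ : Cfg → ℝ} (hφ : Off Λ φ)
    {h : P2 → ℤ} (hh : Lip h) :
    ∑ z ∈ zs F, wt c F (h, z) * φ (h, z) =
      outA c F (upT Λ) φ h * ∏ t ∈ upT Λ, cw c h t := by
  classical
  rw [sum_zs, sum_powerset_split hΛ (fun Z => wt c F (h, zb F Z) * φ (h, zb F Z))]
  unfold outA
  rw [Finset.sum_mul]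
  refine Finset.sum_congr rfl fun Z1 hZ1 => ?_
  rw [Finset.mem_powerset] at hZ1
  rw [← sum_powerset_ewL c hΛ hh, Finset.mul_sum]
  refine Finset.sum_congr rfl fun Z2 hZ2 => ?_
  rw [Finset.mem_powerset] at hZ2
  have z1 : ∀ t, t ∉ upT Λ → zb F (Z2 ∪ Z1) t = zb F Z1 t := by
    intro t ht
    unfold zb
    rw [decide_eq_decide, Finset.mem_union]
    have : t ∉ Z2 := fun h => ht (hZ2 h)
    tauto
  have z2 : ∀ t, t ∈ upT Λ → zb F (Z2 ∪ Z1) t = zb F Z2 t := by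
    intro t ht
    unfold zb
    rw [decide_eq_decide, Finset.mem_union]
    have : t ∉ Z1 := fun h => (Finset.mem_sdiff.1 (hZ1 h)).2 ht
    tauto
  have e1 : φ (h, zb F (Z2 ∪ Z1)) = φ (h, zb F Z1) := hφ _ _ (fun _ _ => rfl) z1
  have e2 : wt c F (h, zb F (Z2 ∪ Z1)) =
      (∏ t ∈ F \ upT Λ, ew c (h, zb F Z1) t) * ∏ t ∈ upT Λ, ew c (h, zb F Z2) t := by
    unfold wt
    rw [← Finset.prod_sdiff hΛ]
    congr 1
    · exact Finset.prod_congr rfl fun t ht => ew_congr (z1 t (Finset.mem_sdiff.1 ht).2) fun _ => rfl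
    · exact Finset.prod_congr rfl fun t ht => ew_congr (z2 t ht) fun _ => rfl
  rw [e1, e2]
  ring

theorem S0_off {x : ℝ} (hx : x ≠ 0) {Λ' Λ : Finset P2} (hΛ : Λ ⊆ Λ') (ξ : P2 → ℤ) {φ : Cfg → ℝ}
    (hφ : Off Λ φ) (f : (P2 → ℤ) → ℝ) :
    S0 ((x ^ 2)⁻¹) Λ' ξ (fun ω => φ ω * f ω.1) = ((x ^ 2)⁻¹) ^ (upT Λ).card *
      ∑ h ∈ It844.conf Λ' ξ, outA ((x ^ 2)⁻¹) (upT Λ') (upT Λ) φ h * It844.wt x Λ h * f h := by
  unfold S0 cf
  rw [Finset.sum_product, Finset.mul_sum]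
  refine Finset.sum_congr rfl fun h hh => ?_
  have h1 := sum_zs_offL ((x ^ 2)⁻¹) (It844.upT_mono hΛ) hφ (It844.mem_conf.1 hh).1
  rw [prod_cw hx] at h1
  calc ∑ z ∈ zs (upT Λ'), wt ((x ^ 2)⁻¹) (upT Λ') (h, z) * (φ (h, z) * f h)
      = (∑ z ∈ zs (upT Λ'), wt ((x ^ 2)⁻¹) (upT Λ') (h, z) * φ (h, z)) * f h := by
        rw [Finset.sum_mul]
        exact Finset.sum_congr rfl fun z _ => by ring
    _ = _ := by rw [h1]; ring

theorem conf_sub {Λ' Λ : Finset P2} (hΛ : Λ ⊆ Λ') {ξ h g : P2 → ℤ} (hh : h ∈ It844.conf Λ' ξ)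
    (hg : g ∈ It844.conf Λ h) : g ∈ It844.conf Λ' ξ := by
  rw [It844.mem_conf] at *
  exact ⟨hg.1, fun v hv => by rw [hg.2 v fun h' => hv (hΛ h')]; exact hh.2 v hv⟩

/-- **Spatial Markov property, fixed boundary heights.** -/
theorem E0_dlr {x : ℝ} (hx : 0 < x) {Λ' Λ : Finset P2} (hΛ : Λ ⊆ Λ') (ξ : P2 → ℤ) {φ : Cfg → ℝ}
    (hφ : Off Λ φ) (f : (P2 → ℤ) → ℝ) :
    E0 ((x ^ 2)⁻¹) Λ' ξ (fun ω => φ ω * f ω.1) = E0 ((x ^ 2)⁻¹) Λ' ξ (fun ω => φ ω * ex x Λ ω.1 f) := by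
  classical
  unfold E0
  rw [S0_off hx.ne' hΛ ξ hφ, S0_off hx.ne' hΛ ξ hφ (fun h => ex x Λ h f)]
  congr 2
  set A := outA ((x ^ 2)⁻¹) (upT Λ') (upT Λ) φ with hA
  have e1 : ∀ h ∈ It844.conf Λ' ξ, A h * It844.wt x Λ h * ex x Λ h f =
      ∑ g ∈ It844.conf Λ' ξ, if g ∈ It844.conf Λ h then
        A h * It844.wt x Λ h * (It844.Z x Λ h)⁻¹ * (It844.wt x Λ g * f g) else 0 := by
    intro h hh
    rw [← Finset.sum_filter]
    have e2 : (It844.conf Λ' ξ).filter (fun g => g ∈ It844.conf Λ h) = It844.conf Λ h := by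
      ext g
      rw [Finset.mem_filter]
      exact ⟨fun hg => hg.2, fun hg => ⟨conf_sub hΛ hh hg, hg⟩⟩
    rw [e2]
    unfold ex
    rw [smul_eq_mul, ← mul_assoc, Finset.mul_sum]
    refine Finset.sum_congr rfl fun g _ => ?_
    rw [smul_eq_mul]
  symm
  rw [Finset.sum_congr rfl e1, Finset.sum_comm]
  refine Finset.sum_congr rfl fun g hg => ?_
  have hgL : Lip g := (It844.mem_conf.1 hg).1
  have e3 : ∀ h ∈ It844.conf Λ' ξ, (if g ∈ It844.conf Λ h then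
        A h * It844.wt x Λ h * (It844.Z x Λ h)⁻¹ * (It844.wt x Λ g * f g) else 0) =
      if h ∈ It844.conf Λ g then
        It844.wt x Λ h * (A g * (It844.Z x Λ g)⁻¹ * (It844.wt x Λ g * f g)) else 0 := by
    intro h hh
    have hhL : Lip h := (It844.mem_conf.1 hh).1
    by_cases h1 : g ∈ It844.conf Λ h
    · have h2 : h ∈ It844.conf Λ g := ((It844.mem_conf_symm hhL).1 h1).2
      rw [if_pos h1, if_pos h2]
      have hoff : ∀ v, v ∉ Λ → h v = g v := (It844.mem_conf.1 h2).2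
      have a1 : A h = A g := outA_congr hφ hoff
      rw [It844.Z_congr x hoff, a1]
      ring
    · have h2 : h ∉ It844.conf Λ g := fun h2 => h1 ((It844.mem_conf_symm hgL).1 h2).2
      rw [if_neg h1, if_neg h2]
  rw [Finset.sum_congr rfl e3, ← Finset.sum_filter]
  have e4 : (It844.conf Λ' ξ).filter (fun h => h ∈ It844.conf Λ g) = It844.conf Λ g := by
    ext h
    rw [Finset.mem_filter]
    exact ⟨fun hg' => hg'.2, fun hg' => ⟨conf_sub hΛ hg hg', hg'⟩⟩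
  rw [e4, ← Finset.sum_mul]
  have hZ := It844.Z_pos hx hgL (Λ := Λ)
  show It844.Z x Λ g * (A g * (It844.Z x Λ g)⁻¹ * (It844.wt x Λ g * f g)) = A g * It844.wt x Λ g * f g
  field_simp

/-- **lower comparison** -/
theorem le_E0 {x : ℝ} (hx0 : 0 < x) (hx1 : x ≤ 1) {Λ' Λ : Finset P2} (hΛ : Λ ⊆ Λ') {ξ τ : P2 → ℤ}
    {φ : Cfg → ℝ} {f : (P2 → ℤ) → ℝ} (hφ0 : ∀ ω ∈ cf Λ' ξ, 0 ≤ φ ω) (hφ : Off Λ φ) (hτ : Lip τ)
    (hle : ∀ ω ∈ cf Λ' ξ, φ ω ≠ 0 → ∀ v, v ∉ Λ → τ v ≤ ω.1 v) (hf : Monotone f) :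
    ex x Λ τ f * E0 ((x ^ 2)⁻¹) Λ' ξ φ ≤ E0 ((x ^ 2)⁻¹) Λ' ξ (fun ω => φ ω * f ω.1) := by
  have hc : (1 : ℝ) ≤ (x ^ 2)⁻¹ := by
    rw [one_le_inv₀ (by positivity)]
    exact pow_le_one₀ hx0.le hx1
  rw [E0_dlr hx0 hΛ ξ hφ, ← E0_smul]
  refine E0_mono hc fun ω hω _ => ?_
  by_cases h0 : φ ω = 0
  · rw [h0]; simp
  · rw [mul_comm]
    exact mul_le_mul_of_nonneg_left (It844.ex_mono_bc hx0 hx1 hτ (mem_cf.1 hω).1.1 (hle ω hω h0)
      fun a _ b _ hab => hf hab) (hφ0 ω hω)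

end Crest.Agent.R144.Ef725
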