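import Crest.Agent.R144.Ef1_725
import Crest.Agent.R144.Bnl_991
import Crest.Agent.R144.Bnd7_991

/-!
# R144, block BND, (F3), part 2 (helper725): the far arc of the two-arc boundary data

* `ht01c` : heights `{0, 1}` on the connected set `N`; `cn_glue'`, `kn_glue`, `lev0c`, `lev0_regc`;
* `stepW` : exact decoupling of `E0 c Λ' ξ` across a plus-closed layer in presence of `Cn N * Kn X`;
* `cross_loc` : the crossing event only depends on the heights in `ball o (d + 1)`;
* `far_arc` : **(F3)** for boundary data `τ ∈ {0, 1}` with `τ = 0` in `ball o d2`: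
  `ex x Λ τ (ind (Cross N o s d)) ≤ C (m / M) ^ α + (1 - q0 p ^ ((2 L + 1) ^ 2)) ^ #S`.
-/

set_option autoImplicit false
set_option linter.unusedVariables false
set_option linter.unusedSectionVars false
set_option linter.unusedSimpArgs false

noncomputable section

namespace Crest.Agent.R144.Ef725

open Finset
open Crest.Agent.R144.It844 (P2 Lip upT mem_upT ex adj_iff adj_symm)
open Crest.Agent.R144.Zg349 Crest.Agent.R144.Zk349 Crest.Agent.R144.Zd349
open Crest.Agent.R144.Zm349 Crest.Agent.R144.Ze349 Crest.Agent.R144.Zs349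
open Crest.Agent.R144.Zo349
open Crest.Agent.R144.Bnd991 Crest.Agent.R144.Bnl991
open Crest.Agent.R144.Ccn2311 (LowB)
open Crest.Agent.R144.Rsw867 (ball mem_ball ball_mono adj_ball sc_ball Sepr Blk BlkP ind ind_nonneg ind_le_one
  path_mono RSW ind_of_mem ind_of_not_mem ind_congr ind_compl ind_le_ind)
open Crest.Agent.R144.Hf702 (Xg Bg mem_Bg notMem_Bg layer_Bg Bg_sub sc_Bg PB PBI PBI_nonneg offTZ_PBI sum_PBI
  xg_of_notMem ball_sub_Bg)
open Crest.Agent.R144.Bx695 (Off off_Cn off_Kn)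
open Crest.Agent.R144.Pst967 (path_symm)
open Crest.ProbabilityR.HexHeights (Adj)

/-! ### heights on the non-free sites -/

theorem ht01c {Λ' : Finset P2} {N : Set P2} (hN : IsConn N) {u0 : P2} (hu0 : u0 ∈ N) (hu0' : u0 ∉ Λ')
    {ω : Cfg} (hω : Lip ω.1) (hb : ∀ v, v ∉ Λ' → ω.1 v = 1) (hC : ∀ v ∈ N, s1 (ω.1 v) = true) :
    ∀ v ∈ N, ω.1 v = 0 ∨ ω.1 v = 1 := by
  intro v hv
  have hp := hN u0 hu0 v hv
  induction hp with
  | refl => exact Or.inr (hb u0 hu0')
  | @tail b d _ hbd ih =>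
    have h0 := ih hbd.1
    have h1 := s1_true.1 (hC d hbd.2.1)
    have h2 := abs_le.1 (lip_adj hω hbd.2.2)
    omega

section glue
variable {W : Finset P2} {ω ω' : Cfg} {N X : Set P2} (hW : SC W) (hl : Lip ω.1)
  (hL : Lay true W ω) (hω' : Valid W ω')
include hW hl hL hω'

theorem cn_glue' : Cn N (glue true W ω ω') = Cn (N \ (IV W : Set P2)) ω * Cn N ω' := by
  have e1 : Cn N ω' = Cn (N ∩ (IV W : Set P2)) ω' := by
    refine Cn_congr ⟨fun h v hv => h v hv.1, fun h v hv => ?_⟩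
    by_cases h1 : v ∈ IV W
    · exact h v ⟨hv, h1⟩
    · exact hω'.ht.s1_bd h1
  rw [e1, Cn_split N W]
  congr 1
  · refine Cn_congr ⟨fun h v hv => ?_, fun h v hv => ?_⟩
    · have := h v hv
      rwa [glue_s1_off hW hl hL hω' hv.2] at this
    · rw [glue_s1_off hW hl hL hω' hv.2]
      exact h v hv
  · refine Cn_congr ⟨fun h v hv => ?_, fun h v hv => ?_⟩
    · have h1 := h v hv
      have h2 := IV_sub_VF W hv.2
      rwa [glue_in h2, s1_lev (lev_mod hW hl hL h2)] at h1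
    · have h2 := IV_sub_VF W hv.2
      rw [glue_in h2, s1_lev (lev_mod hW hl hL h2)]
      exact h v hv

theorem kn_glue (hX : ∀ t ∈ X, t ∈ W) : Kn X (glue true W ω ω') = Kn X ω' := by
  have key : ∀ t ∈ X, (pC (glue true W ω ω') t ↔ pC ω' t) := by
    intro t ht
    have htW := hX t ht
    have h2 : t ∈ VF W := mem_VF.2 ⟨t, htW, base_mem_up t⟩
    unfold pC
    rw [glue_z htW, glue_in h2, s1_lev (lev_mod hW hl hL h2)]
  exact Kn_congr ⟨fun h t ht => (key t ht).1 (h t ht), fun h t ht => (key t ht).2 (h t ht)⟩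

theorem lev0c (hN : Anc N W) (h01 : ∀ v ∈ N, (glue true W ω ω').1 v = 0 ∨ (glue true W ω ω').1 v = 1)
    {v : P2} (hv : v ∈ N) (hvW : v ∈ VF W) : lev true W ω v = 0 := by
  refine hN.induct (P := fun v => v ∈ VF W → lev true W ω v = 0) ?_ ?_ v hv hvW
  · intro v hv hv1 hv2
    have h1 := h01 v hv
    rw [glue_in hv2] at h1
    have h2 := hω'.ht.bd v hv1
    have h3 : lev true W ω v % 4 = 0 := lev_mod hW hl hL hv2
    omega
  · intro u hu v hv ha hP hvI hv2
    obtain ⟨t, htu, htv⟩ : ∃ t, u ∈ up t ∧ v ∈ up t := by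
      obtain ⟨a, b⟩ := u
      simp only [mem_up]
      rcases adj_iff.1 ha with rfl | rfl | rfl | rfl | rfl | rfl
      · exact ⟨(a, b), by simp⟩
      · exact ⟨(a - 1, b), by simp⟩
      · exact ⟨(a, b), by simp⟩
      · exact ⟨(a, b - 1), by simp⟩
      · exact ⟨(a, b - 1), by simp⟩
      · exact ⟨(a - 1, b), by simp⟩
    have htW : t ∈ W := (mem_IV'.1 hvI) t htv
    have huW : u ∈ VF W := mem_VF.2 ⟨t, htW, htu⟩
    obtain ⟨i, rfl⟩ := mem_up_iff.1 htu
    obtain ⟨j, rfl⟩ := mem_up_iff.1 htv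
    rw [← lev_tri hW hl hL htW i j]
    exact hP huW

theorem lev0_regc (hN : Anc N W)
    (h01 : ∀ v ∈ N, (glue true W ω ω').1 v = 0 ∨ (glue true W ω ω').1 v = 1) {M : Set P2}
    (hM : IsConn M) (hMW : ∀ t ∈ M, t ∈ W) {t0 v0 : P2} (ht0 : t0 ∈ M) (hv0 : v0 ∈ up t0)
    (hv0N : v0 ∈ N) {t v : P2} (ht : t ∈ M) (hv : v ∈ up t) : lev true W ω v = 0 := by
  have h0 : lev true W ω v0 = 0 :=
    lev0c hW hl hL hω' hN h01 hv0N (mem_VF.2 ⟨t0, hMW t0 ht0, hv0⟩)
  have key : ∀ t, Relation.ReflTransGen (StepIn M) t0 t → ∀ v ∈ up t, lev true W ω v = 0 := by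
    intro t hp
    induction hp with
    | refl =>
      intro v hv
      obtain ⟨i, rfl⟩ := mem_up_iff.1 hv0
      obtain ⟨j, rfl⟩ := mem_up_iff.1 hv
      rw [← lev_tri hW hl hL (hMW t0 ht0) i j]
      exact h0
    | @tail b d _ hbd ih =>
      intro v hv
      obtain ⟨w, hw1, hw2⟩ := adj_site hbd.2.2
      obtain ⟨i, rfl⟩ := mem_up_iff.1 hw2
      obtain ⟨j, rfl⟩ := mem_up_iff.1 hv
      rw [← lev_tri hW hl hL (hMW d hbd.2.1) i j]
      exact ih _ hw1
  exact key t (hM t0 ht0 t ht) v hv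

end glue

/-- **Decoupling of `E0` across a plus-closed layer in presence of `Kn X * Cn N`.** -/
theorem stepW {c : ℝ} (hc : 1 ≤ c) {Λ' W : Finset P2} {ξ : P2 → ℤ} (hW : SC W) (hWΛ : VF W ⊆ Λ')
    {N X : Set P2} (hN : Anc N W)
    (h01 : ∀ ω ∈ cf Λ' ξ, (∀ v ∈ N, s1 (ω.1 v) = true) → ∀ v ∈ N, ω.1 v = 0 ∨ ω.1 v = 1)
    (hX : ∀ t ∈ X, t ∈ W) {M : Set P2} (hM : IsConn M) (hMW : ∀ t ∈ M, t ∈ W) {t0 v0 : P2}
    (ht0 : t0 ∈ M) (hv0 : v0 ∈ up t0) (hv0N : v0 ∈ N) {g χ : Cfg → ℝ} (hg0 : ∀ ω, 0 ≤ g ω)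
    (hg : OffTZ W g) (hgL : ∀ ω ∈ cf Λ' ξ, Zm349.wt c (upT Λ') ω ≠ 0 → g ω ≠ 0 → Lay true W ω)
    (hχ : ∀ ω ω' : Cfg, (∀ t ∈ M, ∀ v ∈ up t, ω.1 v = ω'.1 v) → χ ω = χ ω')
    {ρ : ℝ} (hA : E c W (fun ω => Kn X ω * Cn N ω * χ ω) ≤ ρ * E c W (fun ω => Kn X ω * Cn N ω)) :
    E0 c Λ' ξ (fun ω => g ω * (Kn X ω * Cn N ω * χ ω)) ≤
      ρ * E0 c Λ' ξ (fun ω => g ω * (Kn X ω * Cn N ω)) := by
  have e1 : ∀ χ' : Cfg → ℝ, (∀ ω ω' : Cfg, (∀ t ∈ M, ∀ v ∈ up t, ω.1 v = ω'.1 v) → χ' ω = χ' ω') →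
      E0 c Λ' ξ (fun ω => g ω * (Kn X ω * Cn N ω * χ' ω)) =
        E0 c Λ' ξ (fun ω => (g ω * Cn (N \ (IV W : Set P2)) ω) *
          E c W (fun ω' => Kn X ω' * Cn N ω' * χ' ω')) := by
    intro χ' hχ'
    refine E0_dec (e := true) hc hW hWΛ (φ := fun _ ω' => Kn X ω' * Cn N ω' * χ' ω') ?_ ?_
    · intro ω hω hw hL
      have : g ω = 0 := by
        by_contra h
        exact hL (hgL ω hω hw h)
      rw [this]
      constructor <;> ring
    · intro ω ω' hω hw hL hω'
      have hl : Lip ω.1 := (mem_cf.1 hω).1.1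
      rw [offTZ_glue hW hl hL hω' hg, kn_glue hW hl hL hω' hX]
      by_cases hC : Cn N (glue true W ω ω') = 0
      · have h1 := hC
        rw [cn_glue' hW hl hL hω'] at h1
        rw [hC]
        calc _ = 0 := by ring
          _ = g ω * Kn X ω' * χ' ω' * (Cn (N \ (IV W : Set P2)) ω * Cn N ω') := by rw [h1]; ring
          _ = _ := by ring
      · have h1 : χ' (glue true W ω ω') = χ' ω' := by
          refine hχ' _ _ fun t ht v hv => ?_
          rw [glue_in (mem_VF.2 ⟨t, hMW t ht, hv⟩),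
            lev0_regc hW hl hL hω' hN (h01 _ (glue_mem_cf hW hWΛ hω hL hω') (Cn_ne.1 hC)) hM hMW
              ht0 hv0 hv0N ht hv, zero_add]
        rw [h1, cn_glue' hW hl hL hω']; ring
  have e2 := e1 χ hχ
  have e3 := e1 (fun _ => 1) (fun _ _ _ => rfl)
  simp only [mul_one] at e3
  rw [e2, e3, ← E0_smul]
  refine E0_mono hc fun ω _ _ => ?_
  have h0 : 0 ≤ g ω * Cn (N \ (IV W : Set P2)) ω := mul_nonneg (hg0 ω) (Cn_nonneg _ _)
  calc _ ≤ (g ω * Cn (N \ (IV W : Set P2)) ω) * (ρ * E c W (fun ω => Kn X ω * Cn N ω)) :=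
        mul_le_mul_of_nonneg_left hA h0
    _ = _ := by ring

/-! ### locality of the crossing event -/

theorem sepr_loc {S S' : Set P2} {o : P2} {s d : ℕ} (hsd : s ≤ d)
    (h : ∀ v ∈ ball o (d + 1), v ∈ S → v ∈ S') (hs : Sepr S o s d) : Sepr S' o s d := by
  intro u v hu hv hp
  -- from the last exit
  have key : ∀ v, Relation.ReflTransGen (StepIn S'ᶜ) u v → v ∈ ball o d → 
      ∃ w, w ∉ ball o d ∧ Relation.ReflTransGen (StepIn Sᶜ) w v := by
    intro v hp
    induction hp with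
    | refl => exact fun h1 => absurd h1 hu
    | @tail b e _ hbe ih =>
      intro he
      have hb1 : b ∈ ball o (d + 1) := adj_ball he (adj_symm hbe.2.2)
      have hst : StepIn Sᶜ b e := ⟨fun h1 => hbe.1 (h b hb1 h1),
        fun h1 => hbe.2.1 (h e (ball_mono o (Nat.le_succ d) he) h1), hbe.2.2⟩
      by_cases hb : b ∈ ball o d
      · obtain ⟨w, hw, hpw⟩ := ih hb
        exact ⟨w, hw, hpw.tail hst⟩
      · exact ⟨b, hb, Relation.ReflTransGen.single hst⟩
  obtain ⟨w, hw, hpw⟩ := key v hp (ball_mono o hsd hv)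
  exact hs w v hw hv hpw

theorem cross_loc {N : Set P2} {o : P2} {s d : ℕ} (hsd : s ≤ d) {ω ω' : Cfg}
    (h : ∀ v ∈ ball o (d + 1), ω.1 v = ω'.1 v) : ω ∈ Cross N o s d ↔ ω' ∈ Cross N o s d := by
  have key : ∀ ω ω' : Cfg, (∀ v ∈ ball o (d + 1), ω.1 v = ω'.1 v) →
      ω ∈ Cross N o s d → ω' ∈ Cross N o s d := fun ω ω' h h1 h2 =>
    h1 (sepr_loc hsd (fun v hv hvS => hvS.imp_right fun h3 => (h v hv).trans_le h3) h2)
  exact ⟨key ω ω' h, key ω' ω fun v hv => (h v hv).symm⟩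

/-- balls are connected -/
theorem conn_ball (a : P2) (n : ℕ) : IsConn ((ball a n : Finset P2) : Set P2) := by
  have key : ∀ v, v ∈ ball a n → Relation.ReflTransGen (StepIn ((ball a n : Finset P2) : Set P2)) a v := by
    suffices H : ∀ k : ℕ, ∀ v, v ∈ ball a n → v ∈ ball a k →
        Relation.ReflTransGen (StepIn ((ball a n : Finset P2) : Set P2)) a v from
      fun v hv => H n v hv hv
    intro k
    induction k with
    | zero =>
      intro v hv h0
      rw [mem_ball] at h0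
      simp only [abs_le] at h0
      have : v = a := Prod.ext (by omega) (by omega)
      rw [this]
    | succ k ih =>
      intro v hv hk
      by_cases hk' : v ∈ ball a k
      · exact ih v hv hk'
      · obtain ⟨a1, a2⟩ := a
        obtain ⟨x, y⟩ := v
        have : ∃ w : P2, Adj w (x, y) ∧ w ∈ ball (a1, a2) k ∧ w ∈ ball (a1, a2) n := by
          simp only [mem_ball, abs_le] at hv hk hk' ⊢
          have hn : (k : ℤ) + 1 ≤ n := by
            by_contra hcon
            apply hk'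
            push_cast at *
            omega
          push_cast at hk
          by_cases c1 : 0 < x - a1
          · by_cases c2 : 0 ≤ y - a2
            · exact ⟨(x - 1, y), by rw [adj_iff]; simp, by dsimp only; omega, by dsimp only; omega⟩
            · exact ⟨(x - 1, y + 1), by rw [adj_iff]; simp, by dsimp only; omega, by dsimp only; omega⟩
          · by_cases c2 : 0 < y - a2
            · by_cases c3 : x - a1 < 0
              · exact ⟨(x + 1, y - 1), by rw [adj_iff]; simp, by dsimp only; omega,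
                  by dsimp only; omega⟩
              · exact ⟨(x, y - 1), by rw [adj_iff]; simp, by dsimp only; omega,
                  by dsimp only; omega⟩
            · by_cases c3 : x - a1 < 0
              · exact ⟨(x + 1, y), by rw [adj_iff]; simp, by dsimp only; omega, by dsimp only; omega⟩
              · exact ⟨(x, y + 1), by rw [adj_iff]; simp, by dsimp only; omega, by dsimp only; omega⟩
        obtain ⟨w, hw1, hw2, hw3⟩ := this
        exact (ih w hw3 hw2).tail ⟨Finset.mem_coe.2 hw3, Finset.mem_coe.2 hv, hw1⟩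
  intro u hu v hv
  exact (path_symm (key u (Finset.mem_coe.1 hu))).trans (key v (Finset.mem_coe.1 hv))

end Crest.Agent.R144.Ef725
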