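import Crest.Agent.R144.ConS_938

/-!
# R144, harmonic remainder, part A (helper938): a radial bump and its logarithmic potential
-/

set_option autoImplicit false

open MeasureTheory Metric Set Filter Topology Laplacian InnerProductSpace
open scoped ComplexConjugate ContDiff

namespace Crest.Agent.R144.End938

open Crest.Agent.R144.Con549 Crest.Agent.R161.Green722

noncomputable section

/-! ### profile -/

/-- profile in `s = |w|²` -/
def X0 (s : ℝ) : ℝ := Real.smoothTransition (2 - 2 * s)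

theorem X0_one {s : ℝ} (h : s ≤ 1 / 2) : X0 s = 1 :=
  Real.smoothTransition.one_of_one_le (by linarith)

theorem X0_zero {s : ℝ} (h : 1 ≤ s) : X0 s = 0 :=
  Real.smoothTransition.zero_of_nonpos (by linarith)

theorem X0_nonneg (s : ℝ) : 0 ≤ X0 s := Real.smoothTransition.nonneg _

theorem X0_le_one (s : ℝ) : X0 s ≤ 1 := Real.smoothTransition.le_one _

theorem X0_pos {s : ℝ} (h : s < 1) : 0 < X0 s := Real.smoothTransition.pos_of_pos (by linarith)

theorem contDiff_X0 : ContDiff ℝ ∞ X0 :=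
  Real.smoothTransition.contDiff.comp (contDiff_const.sub (contDiff_const.mul contDiff_id))

/-- primitive -/
def I0 (s : ℝ) : ℝ := ∫ t in (0 : ℝ)..s, X0 t

theorem hasDerivAt_I0 (s : ℝ) : HasDerivAt I0 (X0 s) s :=
  intervalIntegral.integral_hasDerivAt_right (contDiff_X0.continuous.intervalIntegrable _ _)
    (contDiff_X0.continuous.stronglyMeasurableAtFilter _ _) contDiff_X0.continuous.continuousAt

theorem contDiff_I0 : ContDiff ℝ ∞ I0 := by
  rw [contDiff_infty_iff_deriv]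
  refine ⟨fun s => (hasDerivAt_I0 s).differentiableAt, ?_⟩
  have : deriv I0 = X0 := funext fun s => (hasDerivAt_I0 s).deriv
  rw [this]
  exact contDiff_X0

theorem I0_eq {s : ℝ} (h : s ≤ 1 / 2) : I0 s = s := by
  have h1 : I0 s = ∫ t in (0 : ℝ)..s, (1 : ℝ) := by
    refine intervalIntegral.integral_congr fun t ht => ?_
    refine X0_one ?_
    rcases le_total 0 s with h0 | h0
    · rw [uIcc_of_le h0] at ht; exact ht.2.trans h
    · rw [uIcc_of_ge h0] at ht; linarith [ht.2]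
  rw [h1]
  simp

theorem I0_const {s : ℝ} (h : 1 ≤ s) : I0 s = I0 1 := by
  have h1 : I0 s = I0 1 + ∫ t in (1 : ℝ)..s, X0 t :=
    (intervalIntegral.integral_add_adjacent_intervals
      (contDiff_X0.continuous.intervalIntegrable _ _)
      (contDiff_X0.continuous.intervalIntegrable _ _)).symm
  have h2 : ∫ t in (1 : ℝ)..s, X0 t = ∫ t in (1 : ℝ)..s, (0 : ℝ) := by
    refine intervalIntegral.integral_congr fun t ht => ?_
    rw [uIcc_of_le h] at ht
    exact X0_zero ht.1
  rw [h1, h2]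
  simp

/-- `I0 s / s` -/
def q0 (s : ℝ) : ℝ := if s ≤ 1 / 4 then 1 else I0 s / s

theorem q0_mul (s : ℝ) : s * q0 s = I0 s := by
  unfold q0
  split_ifs with h
  · rw [mul_one, I0_eq (by linarith)]
  · rw [mul_div_cancel₀]
    linarith [not_le.1 h]

theorem contDiff_q0 : ContDiff ℝ ∞ q0 := by
  rw [contDiff_iff_contDiffAt]
  intro s
  rcases lt_or_ge s (1 / 4) with h | h
  · have : q0 =ᶠ[𝓝 s] fun _ => (1 : ℝ) := by
      filter_upwards [Iio_mem_nhds h] with t ht
      unfold q0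
      rw [if_pos (le_of_lt ht)]
    exact contDiffAt_const.congr_of_eventuallyEq this
  · have h0 : s ≠ 0 := by linarith
    have : q0 =ᶠ[𝓝 s] fun t => I0 t / t := by
      filter_upwards [Ioi_mem_nhds (show (1 : ℝ) / 8 < s by linarith)] with t ht
      unfold q0
      have ht' : (1 : ℝ) / 8 < t := ht
      split_ifs with h1
      · rw [I0_eq (by linarith), div_self (by linarith)]
      · rfl
    exact (contDiff_I0.contDiffAt.div contDiffAt_id h0).congr_of_eventuallyEq this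

/-- radial potential -/
def G0 (s : ℝ) : ℝ := ∫ t in (1 : ℝ)..s, q0 t / 4

theorem hasDerivAt_G0 (s : ℝ) : HasDerivAt G0 (q0 s / 4) s :=
  intervalIntegral.integral_hasDerivAt_right
    ((contDiff_q0.continuous.div_const 4).intervalIntegrable _ _)
    ((contDiff_q0.continuous.div_const 4).stronglyMeasurableAtFilter _ _)
    (contDiff_q0.continuous.div_const 4).continuousAt

theorem deriv_G0 : deriv G0 = fun s => q0 s / 4 := funext fun s => (hasDerivAt_G0 s).deriv

theorem contDiff_G0 : ContDiff ℝ ∞ G0 := by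
  rw [contDiff_infty_iff_deriv]
  refine ⟨fun s => (hasDerivAt_G0 s).differentiableAt, ?_⟩
  rw [deriv_G0]
  exact contDiff_q0.div_const 4

theorem G0_eq {s : ℝ} (h : 1 ≤ s) : G0 s = I0 1 / 4 * Real.log s := by
  have h1 : G0 s = ∫ t in (1 : ℝ)..s, I0 1 / 4 * t⁻¹ := by
    refine intervalIntegral.integral_congr fun t ht => ?_
    rw [uIcc_of_le h] at ht
    have h2 : ¬ t ≤ 1 / 4 := by linarith [ht.1]
    simp only [q0, if_neg h2]
    rw [I0_const ht.1]
    field_simp
  rw [h1, intervalIntegral.integral_const_mul, integral_inv_of_pos one_pos (by linarith)]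
  simp

theorem deriv2_G0 (s : ℝ) : 4 * (s * deriv (deriv G0) s + deriv G0 s) = X0 s := by
  have h1 : HasDerivAt q0 (deriv q0 s) s :=
    (contDiff_q0.differentiable (by simp) s).hasDerivAt
  have h2 : deriv (deriv G0) s = deriv q0 s / 4 := by
    rw [deriv_G0]; exact (h1.div_const 4).deriv
  have h3 : HasDerivAt (fun s => s * q0 s) (1 * q0 s + s * deriv q0 s) s :=
    (hasDerivAt_id s).mul h1
  have h4 : (fun s => s * q0 s) = I0 := funext q0_mul
  rw [h4] at h3
  have h5 := h3.unique (hasDerivAt_I0 s)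
  rw [h2, deriv_G0]
  simp only
  linarith

/-! ### the bump -/

/-- unnormalised bump -/
def r0 (w : ℂ) : ℝ := X0 (‖w‖ ^ 2)

theorem contDiff_r0 : ContDiff ℝ ∞ r0 := contDiff_X0.comp (contDiff_norm_sq ℝ)

theorem r0_nonneg (w : ℂ) : 0 ≤ r0 w := X0_nonneg _

theorem r0_zero {w : ℂ} (h : 1 ≤ ‖w‖) : r0 w = 0 := X0_zero (by nlinarith [norm_nonneg w])

theorem r0_pos {w : ℂ} (h : ‖w‖ < 1) : 0 < r0 w := X0_pos (by nlinarith [norm_nonneg w])

theorem compact_r0 : HasCompactSupport r0 :=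
  HasCompactSupport.intro (isCompact_closedBall (0 : ℂ) 1) fun w hw => by
    rw [mem_closedBall_zero_iff, not_le] at hw
    exact r0_zero hw.le

/-- mass -/
def M0 : ℝ := ∫ w, r0 w

theorem M0_pos : 0 < M0 := by
  refine contDiff_r0.continuous.integral_pos_of_hasCompactSupport_nonneg_nonzero compact_r0
    (fun w => r0_nonneg w) (x := 0) ?_
  exact (r0_pos (by simp)).ne'

/-- normalised bump -/
def rho (w : ℂ) : ℝ := r0 w / M0

theorem contDiff_rho : ContDiff ℝ ∞ rho := contDiff_r0.div_const _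

theorem rho_nonneg (w : ℂ) : 0 ≤ rho w := div_nonneg (r0_nonneg w) M0_pos.le

theorem rho_zero {w : ℂ} (h : 1 ≤ ‖w‖) : rho w = 0 := by unfold rho; rw [r0_zero h, zero_div]

theorem rho_pos {w : ℂ} (h : ‖w‖ < 1) : 0 < rho w := div_pos (r0_pos h) M0_pos

theorem integral_rho : ∫ w, rho w = 1 := by
  unfold rho
  rw [integral_div]
  exact div_self M0_pos.ne'

theorem rho_norm {w v : ℂ} (h : ‖w‖ = ‖v‖) : rho w = rho v := by unfold rho r0; rw [h]

/-- potential of the bump -/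
def L0 (w : ℂ) : ℝ := G0 (‖w‖ ^ 2) / M0

theorem contDiff_L0 : ContDiff ℝ ∞ L0 := (contDiff_G0.comp (contDiff_norm_sq ℝ)).div_const _

theorem L0_eq {w : ℂ} (h : 1 ≤ ‖w‖) : L0 w = I0 1 / (2 * M0) * Real.log ‖w‖ := by
  unfold L0
  rw [G0_eq (by nlinarith [norm_nonneg w]), Real.log_pow]
  have := M0_pos.ne'
  field_simp
  ring

theorem lap_L0 (w : ℂ) : (Δ L0) w = rho w := by
  have h1 : ContDiffAt ℝ 2 (fun y : ℂ => ‖y‖ ^ 2) w :=
    ((contDiff_norm_sq ℝ (n := ∞)).of_le (by norm_cast)).contDiffAt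
  have h2 : ContDiffAt ℝ 2 (fun s => M0⁻¹ * G0 s) (‖w‖ ^ 2) :=
    ((contDiff_const.mul contDiff_G0).of_le (by norm_cast)).contDiffAt
  have h3 := lapC_comp h2 h1
  have e1 : (fun y : ℂ => M0⁻¹ * G0 (‖y‖ ^ 2)) = L0 := by
    funext y; unfold L0; rw [div_eq_inv_mul]
  rw [e1] at h3
  rw [h3, lapC_normSq]
  have d0 : deriv (fun s => M0⁻¹ * G0 s) = fun s => M0⁻¹ * deriv G0 s := by
    funext s; exact deriv_const_mul _ ((hasDerivAt_G0 s).differentiableAt)
  have d1 : deriv (deriv (fun s => M0⁻¹ * G0 s)) (‖w‖ ^ 2) =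
      M0⁻¹ * deriv (deriv G0) (‖w‖ ^ 2) := by
    rw [d0]
    refine deriv_const_mul _ ?_
    rw [deriv_G0]
    exact (contDiff_q0.differentiable (by simp) _).div_const 4
  have d2 : ‖fderiv ℝ (fun y : ℂ => ‖y‖ ^ 2) w‖ ^ 2 = 4 * ‖w‖ ^ 2 := by
    have h5 : fderiv ℝ (fun y : ℂ => ‖y‖ ^ 2) w = 2 • innerSL ℝ w :=
      (hasStrictFDerivAt_norm_sq w).hasFDerivAt.fderiv
    have h6 : (2 • innerSL ℝ w : ℂ →L[ℝ] ℝ) = (2 : ℝ) • innerSL ℝ w := by
      rw [two_smul, two_smul]
    rw [h5, h6, norm_smul, innerSL_apply_norm, mul_pow]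
    norm_num
  rw [d1, d0, d2]
  have := deriv2_G0 (‖w‖ ^ 2)
  unfold rho r0
  rw [div_eq_inv_mul]
  rw [← this]
  ring

/-! ### scaling -/

/-- bump of radius `r` at `z` -/
def rr (z : ℂ) (r : ℝ) (w : ℂ) : ℝ := (1 / r) ^ 2 * rho ((1 / r) • (w - z))

/-- its potential -/
def Ls (z : ℂ) (r : ℝ) (w : ℂ) : ℝ :=
  L0 ((1 / r) • (w - z)) + I0 1 / (2 * M0) * Real.log r

theorem contDiff_rr (z : ℂ) (r : ℝ) : ContDiff ℝ ∞ (rr z r) :=
  contDiff_const.mul (contDiff_rho.comp ((contDiff_id.sub contDiff_const).const_smul _))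

theorem contDiff_Ls (z : ℂ) (r : ℝ) : ContDiff ℝ ∞ (Ls z r) :=
  (contDiff_L0.comp ((contDiff_id.sub contDiff_const).const_smul _)).add contDiff_const

theorem rr_nonneg (z : ℂ) (r : ℝ) (w : ℂ) : 0 ≤ rr z r w :=
  mul_nonneg (by positivity) (rho_nonneg _)

theorem norm_sc {r : ℝ} (hr : 0 < r) (z w : ℂ) : ‖(1 / r) • (w - z)‖ = dist w z / r := by
  rw [norm_smul, Real.norm_of_nonneg (by positivity), dist_eq_norm]
  ring

theorem rr_zero {r : ℝ} (hr : 0 < r) {z w : ℂ} (h : r ≤ dist w z) : rr z r w = 0 := by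
  unfold rr
  rw [rho_zero, mul_zero]
  rw [norm_sc hr, le_div_iff₀ hr]
  linarith

theorem rr_pos {r : ℝ} (hr : 0 < r) {z w : ℂ} (h : dist w z < r) : 0 < rr z r w := by
  refine mul_pos (by positivity) (rho_pos ?_)
  rw [norm_sc hr, div_lt_one hr]
  exact h

theorem tsupport_rr {r : ℝ} (hr : 0 < r) (z : ℂ) : tsupport (rr z r) ⊆ closedBall z r := by
  refine closure_minimal (fun w hw => ?_) isClosed_closedBall
  rw [mem_closedBall]
  by_contra h
  exact hw (rr_zero hr (le_of_lt (not_le.1 h)))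

theorem isTest_rr {D : Set ℂ} {r : ℝ} (hr : 0 < r) {z : ℂ} (h : closedBall z r ⊆ D) :
    IsTest D (rr z r) :=
  ⟨contDiff_rr z r, HasCompactSupport.of_support_subset_isCompact (isCompact_closedBall z r)
    (subset_closure.trans (tsupport_rr hr z)), (tsupport_rr hr z).trans h⟩

theorem integral_rr {r : ℝ} (hr : 0 < r) (z : ℂ) : ∫ w, rr z r w = 1 := by
  unfold rr
  rw [integral_const_mul]
  have h1 : ∫ w : ℂ, rho ((1 / r) • (w - z)) = ∫ w : ℂ, rho ((1 / r) • w) :=
    integral_sub_right_eq_self (fun w => rho ((1 / r) • w)) z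
  rw [h1, Measure.integral_comp_smul, integral_rho, Complex.finrank_real_complex]
  rw [abs_of_nonneg (by positivity), smul_eq_mul, mul_one]
  field_simp

theorem lap_Ls {r : ℝ} (hr : 0 < r) (z w : ℂ) : (Δ (Ls z r)) w = rr z r w := by
  have h1 : (Δ (fun w => L0 ((1 / r) • (w - z)))) w = rr z r w := by
    have h2 : AnalyticAt ℂ (fun w : ℂ => ((1 / r : ℝ) : ℂ) * (w - z)) w := by fun_prop
    have h3 := lap_comp_holo (u := L0) (h := fun w : ℂ => ((1 / r : ℝ) : ℂ) * (w - z)) (z := w)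
      ((contDiff_L0.of_le (by norm_cast)).contDiffAt) h2
    have e : (fun w : ℂ => L0 ((1 / r) • (w - z))) = fun w => L0 (((1 / r : ℝ) : ℂ) * (w - z)) := by
      funext v; rw [Complex.real_smul]
    rw [e, h3, lap_L0]
    have h4 : deriv (fun w : ℂ => ((1 / r : ℝ) : ℂ) * (w - z)) w = ((1 / r : ℝ) : ℂ) := by
      rw [deriv_const_mul_field]
      simp
    rw [h4, Complex.norm_real, Real.norm_of_nonneg (by positivity)]
    unfold rr
    rw [Complex.real_smul]
    ring
  have h5 : Ls z r = fun w => L0 ((1 / r) • (w - z)) + I0 1 / (2 * M0) * Real.log r := rfl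
  have h6 : ContDiffAt ℝ 2 (fun w : ℂ => L0 ((1 / r) • (w - z))) w :=
    ((contDiff_L0.comp ((contDiff_id.sub contDiff_const).const_smul _)).of_le
      (by norm_cast)).contDiffAt
  have h7 : (Δ ((fun w : ℂ => L0 ((1 / r) • (w - z))) + fun _ : ℂ => I0 1 / (2 * M0) * Real.log r)) w
      = (Δ (fun w => L0 ((1 / r) • (w - z)))) w + (Δ (fun _ : ℂ => I0 1 / (2 * M0) * Real.log r)) w :=
    ContDiffAt.laplacian_add h6 contDiffAt_const
  have h8 : (Δ (fun _ : ℂ => I0 1 / (2 * M0) * Real.log r)) w = 0 := by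
    have : (Δ (fun _ : ℂ => I0 1 / (2 * M0) * Real.log r)) = fun _ => 0 := laplacian_const
    rw [this]
  rw [h5]
  change (Δ ((fun w : ℂ => L0 ((1 / r) • (w - z))) + fun _ : ℂ => I0 1 / (2 * M0) * Real.log r)) w = _
  rw [h7, h8, add_zero, h1]

theorem Ls_out {r : ℝ} (hr : 0 < r) {z w : ℂ} (h : r ≤ dist w z) :
    Ls z r w = I0 1 / (2 * M0) * Real.log (dist w z) := by
  unfold Ls
  have h0 : 0 < dist w z := hr.trans_le h
  rw [L0_eq (by rw [norm_sc hr, le_div_iff₀ hr]; linarith), norm_sc hr,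
    Real.log_div h0.ne' hr.ne']
  ring

/-- difference of the potentials: a test function -/
def uu (z : ℂ) (r s : ℝ) (w : ℂ) : ℝ := Ls z r w + -Ls z s w

theorem uu_zero {r s : ℝ} (hr : 0 < r) (hs : 0 < s) {z w : ℂ} (h1 : r ≤ dist w z)
    (h2 : s ≤ dist w z) : uu z r s w = 0 := by
  unfold uu; rw [Ls_out hr h1, Ls_out hs h2]; ring

theorem isTest_uu {D : Set ℂ} {r s : ℝ} (hr : 0 < r) (hs : 0 < s) {z : ℂ}
    (h : closedBall z (max r s) ⊆ D) : IsTest D (uu z r s) := by
  have h0 : ∀ w, w ∉ closedBall z (max r s) → uu z r s w = 0 := fun w hw => by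
    rw [mem_closedBall, not_le] at hw
    exact uu_zero hr hs ((le_max_left _ _).trans hw.le) ((le_max_right _ _).trans hw.le)
  refine ⟨(contDiff_Ls z r).add (contDiff_Ls z s).neg,
    HasCompactSupport.intro (isCompact_closedBall z (max r s)) h0, ?_⟩
  refine (closure_minimal (fun w hw => ?_) isClosed_closedBall).trans h
  by_contra h1
  exact hw (h0 w h1)

theorem lap_uu {r s : ℝ} (hr : 0 < r) (hs : 0 < s) (z w : ℂ) :
    (Δ (uu z r s)) w = rr z r w + -rr z s w := by
  have h1 : ContDiffAt ℝ 2 (Ls z r) w := ((contDiff_Ls z r).of_le (by norm_cast)).contDiffAt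
  have h2 : ContDiffAt ℝ 2 (-(Ls z s)) w :=
    ((contDiff_Ls z s).neg.of_le (by norm_cast)).contDiffAt
  have e : uu z r s = Ls z r + -(Ls z s) := rfl
  rw [e, ContDiffAt.laplacian_add h1 h2, laplacian_neg]
  simp [lap_Ls hr, lap_Ls hs]

end

end Crest.Agent.R144.End938
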