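import Crest.Agent.R144.EndA_938

/-!
# R144, harmonic remainder, part B (helper938): a bounded functional killing Laplacians is zero
-/

set_option autoImplicit false

open MeasureTheory Metric Set Filter Topology Laplacian InnerProductSpace
open scoped ComplexConjugate ContDiff BoundedContinuousFunction Convolution

namespace Crest.Agent.R144.End938

open Crest.Agent.R144.Con549 Crest.Agent.R161.Green722

noncomputable section

/-! ### preliminaries on the bumps -/

theorem rr_eq (z : ℂ) (r : ℝ) (w : ℂ) : rr z r w = rr 0 r (w - z) := by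
  unfold rr; rw [sub_zero]

theorem rr_symm (z : ℂ) (r : ℝ) (w : ℂ) : rr z r w = rr w r z := by
  unfold rr
  congr 1
  apply rho_norm
  rw [norm_smul, norm_smul, norm_sub_rev]

theorem compact_rr {r : ℝ} (hr : 0 < r) (z : ℂ) : HasCompactSupport (rr z r) :=
  HasCompactSupport.of_support_subset_isCompact (isCompact_closedBall z r)
    (subset_closure.trans (tsupport_rr hr z))

theorem exists_lip_rr {r : ℝ} (hr : 0 < r) : ∃ L : ℝ, 0 ≤ L ∧ ∀ z z' w : ℂ,
    |rr z r w - rr z' r w| ≤ L * dist z z' := by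
  obtain ⟨L, hL⟩ := ContDiff.lipschitzWith_of_hasCompactSupport (𝕂 := ℝ) (compact_rr hr 0)
    (contDiff_rr 0 r) (by simp)
  refine ⟨L, L.2, fun z z' w => ?_⟩
  rw [rr_eq z, rr_eq z']
  have h := hL.dist_le_mul (w - z) (w - z')
  rw [Real.dist_eq] at h
  refine h.trans (le_of_eq ?_)
  congr 1
  rw [dist_sub_left]

theorem cont_mul {D : Set ℂ} (hD : IsOpen D) {f h : ℂ → ℝ} (hf : IsTest D f)
    (hh : ContinuousOn h D) : Continuous fun w => f w * h w := by
  rw [continuous_iff_continuousAt]
  intro w
  by_cases hw : w ∈ D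
  · exact hf.smooth.continuous.continuousAt.mul (hh.continuousAt (hD.mem_nhds hw))
  · have h1 : w ∉ tsupport f := fun h => hw (hf.supp h)
    have h2 : (fun w => f w * h w) =ᶠ[𝓝 w] fun _ => (0 : ℝ) := by
      filter_upwards [(notMem_tsupport_iff_eventuallyEq.1 h1)] with v hv
      rw [hv]; simp
    exact continuousAt_const.congr h2.symm

theorem integrable_mul' {D : Set ℂ} (hD : IsOpen D) {f h : ℂ → ℝ} (hf : IsTest D f)
    (hh : ContinuousOn h D) : Integrable fun w => f w * h w :=
  (cont_mul hD hf hh).integrable_of_hasCompactSupport hf.comp.mul_right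

/-! ### functionals -/

/-- a linear functional on test functions, bounded on compacts, killing Laplacians -/
structure TF (D : Set ℂ) (T : (ℂ → ℝ) → ℝ) : Prop where
  add : ∀ f g, IsTest D f → IsTest D g → T (fun z => f z + g z) = T f + T g
  smul : ∀ (c : ℝ) f, IsTest D f → T (fun z => c * f z) = c * T f
  lap : ∀ u, IsTest D u → T (Δ u) = 0
  bd : ∀ K, IsCompact K → K ⊆ D → ∃ C, 0 ≤ C ∧ ∀ f, IsTest D f → tsupport f ⊆ K →
    ∀ M, (∀ z, |f z| ≤ M) → |T f| ≤ C * M

/-- half the distance to the complement -/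
def rad (D : Set ℂ) (z : ℂ) : ℝ := infDist z Dᶜ / 2

theorem compl_nonempty {D : Set ℂ} (hb : Bornology.IsBounded D) : (Dᶜ).Nonempty := by
  by_contra h
  rw [not_nonempty_iff_eq_empty, compl_empty_iff] at h
  rw [h] at hb
  exact NoncompactSpace.noncompact_univ (X := ℂ)
    (isCompact_of_isClosed_isBounded isClosed_univ hb)

theorem rad_pos {D : Set ℂ} (hD : IsOpen D) (hb : Bornology.IsBounded D) {z : ℂ} (hz : z ∈ D) :
    0 < rad D z := by
  have h := (hD.isClosed_compl.notMem_iff_infDist_pos (compl_nonempty hb)).1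
    (show z ∉ Dᶜ from fun h => h hz)
  unfold rad
  linarith

theorem ball_rad {D : Set ℂ} (hD : IsOpen D) (hb : Bornology.IsBounded D) {z : ℂ} (hz : z ∈ D) :
    closedBall z (rad D z) ⊆ D := by
  have h := rad_pos hD hb hz
  refine (closedBall_subset_ball ?_).trans (ball_infDist_compl_subset (s := D))
  unfold rad at h ⊢
  linarith

/-- the density of a functional -/
def HT (D : Set ℂ) (T : (ℂ → ℝ) → ℝ) (z : ℂ) : ℝ := T (rr z (rad D z))

namespace TF

variable {D : Set ℂ} {T : (ℂ → ℝ) → ℝ}

theorem sub (hT : TF D T) {f g : ℂ → ℝ} (hf : IsTest D f) (hg : IsTest D g) :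
    T (fun z => f z + (-1) * g z) = T f - T g := by
  rw [hT.add f _ hf (hg.const_mul (-1)), hT.smul (-1) g hg]
  ring

theorem T_rr (hT : TF D T) {z : ℂ} {r s : ℝ} (hr : 0 < r) (hs : 0 < s)
    (h1 : closedBall z r ⊆ D) (h2 : closedBall z s ⊆ D) : T (rr z r) = T (rr z s) := by
  have h3 : closedBall z (max r s) ⊆ D := by
    rcases le_total r s with h | h
    · rw [max_eq_right h]; exact h2
    · rw [max_eq_left h]; exact h1
  have h4 := hT.lap _ (isTest_uu hr hs h3)
  have e : (Δ (uu z r s)) = fun w => rr z r w + (-1) * rr z s w := by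
    funext w; rw [lap_uu hr hs]; ring
  rw [e, hT.sub (isTest_rr hr h1) (isTest_rr hs h2)] at h4
  linarith

theorem T_rr' (hD : IsOpen D) (hb : Bornology.IsBounded D) (hT : TF D T) {z : ℂ} {r : ℝ}
    (hr : 0 < r) (h1 : closedBall z r ⊆ D) : T (rr z r) = HT D T z := by
  have hz : z ∈ D := h1 (mem_closedBall_self hr.le)
  exact hT.T_rr hr (rad_pos hD hb hz) h1 (ball_rad hD hb hz)

/-- superposition of translated bumps -/
theorem conv (hT : TF D T) {f : ℂ → ℝ} (hf : IsTest D f) {r : ℝ} (hr : 0 < r)
    (hK : cthickening r (tsupport f) ⊆ D) :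
    IsTest D (fun w => ∫ z, f z * rr z r w) ∧
    tsupport (fun w => ∫ z, f z * rr z r w) ⊆ cthickening r (tsupport f) ∧
    T (fun w => ∫ z, f z * rr z r w) = ∫ z, f z * T (rr z r) := by
  set K := cthickening r (tsupport f) with hKdef
  have hKc : IsCompact K := IsCompact.cthickening hf.comp
  have hKcl : IsClosed K := isClosed_cthickening
  obtain ⟨C, hC0, hC⟩ := hT.bd K hKc hK
  have hsm : ContDiff ℝ ∞ (fun w => ∫ z, f z * rr z r w) := by
    have h1 : ContDiff ℝ ∞ (f ⋆[ContinuousLinearMap.mul ℝ ℝ, volume] (rr 0 r)) :=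
      (compact_rr hr 0).contDiff_convolution_right (n := ⊤) (ContinuousLinearMap.mul ℝ ℝ)
        (hf.smooth.continuous.locallyIntegrable) (contDiff_rr 0 r)
    have h2 : (f ⋆[ContinuousLinearMap.mul ℝ ℝ, volume] (rr 0 r)) =
        fun w => ∫ z, f z * rr z r w := by
      funext w
      unfold MeasureTheory.convolution
      congr 1
      funext z
      rw [rr_eq z]
      rfl
    rwa [h2] at h1
  have hz : ∀ w, w ∉ K → ∀ z, f z * rr z r w = 0 := by
    intro w hw z
    by_cases hfz : f z = 0
    · rw [hfz, zero_mul]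
    · rw [rr_zero hr, mul_zero]
      by_contra h
      rw [not_le] at h
      refine hw (mem_cthickening_of_dist_le w z r (tsupport f) (subset_tsupport f hfz) h.le)
  have hsup : tsupport (fun w => ∫ z, f z * rr z r w) ⊆ K := by
    refine closure_minimal (fun w hw => ?_) hKcl
    by_contra h
    refine hw ?_
    simp only
    rw [integral_congr_ae (Eventually.of_forall (hz w h))]
    simp
  have htest : IsTest D (fun w => ∫ z, f z * rr z r w) :=
    ⟨hsm, hKc.of_isClosed_subset (isClosed_tsupport _) hsup, hsup.trans hK⟩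
  refine ⟨htest, hsup, ?_⟩
  -- the subspace
  let p : Submodule ℝ (ℂ →ᵇ ℝ) :=
    { carrier := {b | ContDiff ℝ ∞ b ∧ tsupport b ⊆ K}
      add_mem' := fun {a b} ha hb => ⟨by
          rw [BoundedContinuousFunction.coe_add]; exact ha.1.add hb.1, by
          rw [BoundedContinuousFunction.coe_add]
          exact (tsupport_add _ _).trans (union_subset ha.2 hb.2)⟩
      zero_mem' := ⟨by rw [BoundedContinuousFunction.coe_zero]; exact contDiff_const, by
          rw [BoundedContinuousFunction.coe_zero]; simp⟩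
      smul_mem' := fun c a ha => ⟨by
          rw [BoundedContinuousFunction.coe_smul]; exact ha.1.const_smul c, by
          rw [BoundedContinuousFunction.coe_smul]
          refine subset_trans (closure_mono ?_) ha.2
          intro z hz hz'
          exact hz (by simp [hz'])⟩ }
  have hp : ∀ b : ℂ →ᵇ ℝ, b ∈ p → IsTest D b := fun b hb =>
    ⟨hb.1, hKc.of_isClosed_subset (isClosed_tsupport _) hb.2, hb.2.trans hK⟩
  let Tp : p →ₗ[ℝ] ℝ :=
    { toFun := fun b => T (b : ℂ →ᵇ ℝ)
      map_add' := fun a b => hT.add _ _ (hp a a.2) (hp b b.2)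
      map_smul' := fun c a => hT.smul c _ (hp a a.2) }
  obtain ⟨Λ, hΛ, -⟩ := exists_extension_norm_eq p (Tp.mkContinuous C fun b => by
    refine hC _ (hp b b.2) b.2.2 ‖b‖ fun z => ?_
    exact (b : ℂ →ᵇ ℝ).norm_coe_le_norm z)
  have hΛ' : ∀ b : ℂ →ᵇ ℝ, b ∈ p → Λ b = T b := fun b hb => hΛ ⟨b, hb⟩
  -- the bumps
  obtain ⟨Cb, hCb⟩ := (contDiff_rr 0 r).continuous.bounded_above_of_compact_support (compact_rr hr 0)
  let B0 : ℂ →ᵇ ℝ := BoundedContinuousFunction.ofNormedAddCommGroup (rr 0 r)
    (contDiff_rr 0 r).continuous Cb hCb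
  let B : ℂ → (ℂ →ᵇ ℝ) := fun z => B0.compContinuous ⟨fun w => w - z, by fun_prop⟩
  have hB : ∀ z, (B z : ℂ → ℝ) = rr z r := fun z => by
    funext w; rw [rr_eq z]; rfl
  obtain ⟨L, hL0, hL⟩ := exists_lip_rr hr
  have hBc : Continuous B := by
    rw [continuous_iff_continuousAt]
    intro z0
    refine continuousAt_of_locally_lipschitz one_pos L fun y _ => ?_
    rw [BoundedContinuousFunction.dist_le (by positivity)]
    intro w
    rw [Real.dist_eq, hB, hB]
    exact hL y z0 w
  have hΦc : Continuous fun z => f z • B z := hf.smooth.continuous.smul hBc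
  have hΦs : HasCompactSupport fun z => f z • B z := hf.comp.smul_right
  have hΦ : Integrable fun z => f z • B z := hΦc.integrable_of_hasCompactSupport hΦs
  have hI : ((∫ z, f z • B z : ℂ →ᵇ ℝ) : ℂ → ℝ) = fun w => ∫ z, f z * rr z r w := by
    funext w
    have h := (BoundedContinuousFunction.evalCLM ℝ w).integral_comp_comm hΦ
    rw [BoundedContinuousFunction.evalCLM_apply] at h
    rw [← h]
    congr 1
    funext z
    rw [BoundedContinuousFunction.evalCLM_apply, BoundedContinuousFunction.smul_apply, hB]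
    rfl
  have hIp : (∫ z, f z • B z : ℂ →ᵇ ℝ) ∈ p := by
    refine ⟨?_, ?_⟩
    · rw [hI]; exact hsm
    · rw [hI]; exact hsup
  have h5 := hΛ' _ hIp
  rw [hI] at h5
  rw [← h5, ← Λ.integral_comp_comm hΦ]
  congr 1
  funext z
  rw [map_smul, smul_eq_mul]
  by_cases hfz : f z = 0
  · rw [hfz]; simp
  · congr 1
    have hBp : B z ∈ p := by
      refine ⟨?_, ?_⟩
      · rw [hB]; exact contDiff_rr z r
      · rw [hB]
        refine (tsupport_rr hr z).trans fun w hw => ?_
        exact mem_cthickening_of_dist_le w z r (tsupport f) (subset_tsupport f hfz)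
          (mem_closedBall.1 hw)
    rw [hΛ' _ hBp, hB]


theorem conv_close {f : ℂ → ℝ} {L r : ℝ} (hr : 0 < r) (hfc : Continuous f)
    (hfs : HasCompactSupport f) (hL : ∀ z w, |f z - f w| ≤ L * dist z w) (hL0 : 0 ≤ L) (w : ℂ) :
    |(∫ z, f z * rr z r w) + (-1) * f w| ≤ L * r := by
  have hint : ∀ z, Integrable (rr z r) := fun z =>
    (contDiff_rr z r).continuous.integrable_of_hasCompactSupport (compact_rr hr z)
  have e1 : ∫ z, f w * rr z r w = f w := by
    rw [integral_const_mul]
    have : (fun z => rr z r w) = rr w r := funext fun z => rr_symm z r w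
    rw [this, integral_rr hr, mul_one]
  have i1 : Integrable fun z => f z * rr z r w := by
    have : (fun z => f z * rr z r w) = fun z => f z * rr w r z :=
      funext fun z => by rw [rr_symm z r w]
    rw [this]
    exact (hfc.mul (contDiff_rr w r).continuous).integrable_of_hasCompactSupport hfs.mul_right
  have i2 : Integrable fun z => f w * rr z r w := by
    have : (fun z => f w * rr z r w) = fun z => f w * rr w r z :=
      funext fun z => by rw [rr_symm z r w]
    rw [this]
    exact (hint w).const_mul _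
  have e2 : (∫ z, f z * rr z r w) + (-1) * f w = ∫ z, (f z * rr z r w - f w * rr z r w) := by
    rw [integral_sub i1 i2, e1]; ring
  rw [e2]
  have e3 : ∫ z, L * r * rr w r z = L * r := by
    rw [integral_const_mul, integral_rr hr, mul_one]
  rw [← e3, ← Real.norm_eq_abs]
  refine norm_integral_le_of_norm_le ((hint w).const_mul _) (Eventually.of_forall fun z => ?_)
  rw [← sub_mul, norm_mul, Real.norm_eq_abs, Real.norm_of_nonneg (rr_nonneg _ _ _), rr_symm z r w]
  rcases lt_or_ge (dist z w) r with h | h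
  · refine mul_le_mul_of_nonneg_right ((hL z w).trans ?_) (rr_nonneg _ _ _)
    exact mul_le_mul_of_nonneg_left h.le hL0
  · rw [rr_zero hr h]; simp

/-- the functional is given by its density -/
theorem repr (hD : IsOpen D) (hb : Bornology.IsBounded D) (hT : TF D T) {f : ℂ → ℝ}
    (hf : IsTest D f) : T f = ∫ z, f z * HT D T z := by
  obtain ⟨r1, hr1, hsub⟩ :=
    (show IsCompact (tsupport f) from hf.comp).exists_cthickening_subset_open hD hf.supp
  obtain ⟨C, hC0, hC⟩ := hT.bd (cthickening r1 (tsupport f)) (IsCompact.cthickening hf.comp) hsub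
  obtain ⟨L, hL⟩ := ContDiff.lipschitzWith_of_hasCompactSupport (𝕂 := ℝ) hf.comp hf.smooth
    (by simp)
  have hL' : ∀ z w, |f z - f w| ≤ L * dist z w := fun z w => by
    have := hL.dist_le_mul z w
    rwa [Real.dist_eq] at this
  have key : ∀ r, 0 < r → r ≤ r1 → |(∫ z, f z * HT D T z) - T f| ≤ C * (L * r) := by
    intro r hr hrr
    have hsub' : cthickening r (tsupport f) ⊆ cthickening r1 (tsupport f) :=
      cthickening_mono hrr _
    obtain ⟨h1, h2, h3⟩ := hT.conv hf hr (hsub'.trans hsub)
    have h4 : ∫ z, f z * T (rr z r) = ∫ z, f z * HT D T z := by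
      congr 1
      funext z
      by_cases hfz : f z = 0
      · rw [hfz]; simp
      · congr 1
        refine hT.T_rr' hD hb hr ?_
        refine (fun w hw => hsub (hsub' ?_))
        exact mem_cthickening_of_dist_le w z r (tsupport f) (subset_tsupport f hfz)
          (mem_closedBall.1 hw)
    rw [← h4, ← h3, ← hT.sub h1 hf]
    refine hC _ (h1.add (hf.const_mul (-1))) ?_ _ fun w =>
      conv_close hr hf.smooth.continuous hf.comp hL' L.2 w
    refine (tsupport_add _ _).trans (union_subset (h2.trans hsub') ?_)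
    have hmono : tsupport (fun z => -1 * f z) ⊆ tsupport f := by
      refine closure_mono fun z hz hz' => ?_
      exact hz (by simp [hz'])
    exact hmono.trans (self_subset_cthickening (δ := r1) (tsupport f))
  have h0 : |(∫ z, f z * HT D T z) - T f| ≤ 0 := by
    refine le_of_forall_pos_le_add fun ε hε => ?_
    rw [zero_add]
    set r := min r1 (ε / (C * L + 1)) with hr
    have hCL : 0 ≤ C * (L : ℝ) := mul_nonneg hC0 L.2
    have hrp : 0 < r := lt_min hr1 (by positivity)
    refine (key r hrp (min_le_left _ _)).trans ?_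
    calc C * (L * r) = (C * L) * r := by ring
      _ ≤ (C * L) * (ε / (C * L + 1)) := mul_le_mul_of_nonneg_left (min_le_right _ _) hCL
      _ = ε * ((C * L) / (C * L + 1)) := by ring
      _ ≤ ε * 1 := by
        refine mul_le_mul_of_nonneg_left ?_ hε.le
        rw [div_le_one (by positivity)]
        linarith
      _ = ε := mul_one _
  have h1 := abs_nonpos_iff.1 h0
  linarith

theorem continuousOn_HT (hD : IsOpen D) (hb : Bornology.IsBounded D) (hT : TF D T) :
    ContinuousOn (HT D T) D := by
  intro z0 hz0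
  refine ContinuousAt.continuousWithinAt ?_
  obtain ⟨r1, hr1, hsub⟩ := nhds_basis_closedBall.mem_iff.1 (hD.mem_nhds hz0)
  obtain ⟨C, hC0, hC⟩ := hT.bd (closedBall z0 r1) (isCompact_closedBall _ _) hsub
  obtain ⟨L, hL0, hL⟩ := exists_lip_rr (half_pos hr1)
  refine continuousAt_of_locally_lipschitz (half_pos hr1) (C * L) fun z hz => ?_
  have h1 : ∀ y, dist y z0 < r1 / 2 → closedBall y (r1 / 2) ⊆ closedBall z0 r1 := fun y hy =>
    closedBall_subset_closedBall' (by linarith)
  have h2 := h1 z hz
  have h3 := h1 z0 (by simpa using half_pos hr1)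
  rw [Real.dist_eq, ← hT.T_rr' hD hb (half_pos hr1) (h2.trans hsub),
    ← hT.T_rr' hD hb (half_pos hr1) (h3.trans hsub),
    ← hT.sub (isTest_rr (half_pos hr1) (h2.trans hsub)) (isTest_rr (half_pos hr1) (h3.trans hsub)),
    mul_assoc]
  refine hC _ ((isTest_rr (half_pos hr1) (h2.trans hsub)).add
    ((isTest_rr (half_pos hr1) (h3.trans hsub)).const_mul (-1))) ?_ _ fun w => ?_
  · refine (tsupport_add _ _).trans (union_subset ((tsupport_rr (half_pos hr1) _).trans h2) ?_)
    refine subset_trans (closure_mono ?_) ((tsupport_rr (half_pos hr1) _).trans h3)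
    intro z hz hz'
    exact hz (by simp [hz'])
  · have e : rr z (r1 / 2) w + (-1) * rr z0 (r1 / 2) w = rr z (r1 / 2) w - rr z0 (r1 / 2) w := by
      ring
    rw [e]
    exact hL z z0 w

end TF

/-! ### functions with the mean value property -/

/-- continuous with the mean value property with respect to the bumps -/
structure MV (D : Set ℂ) (h : ℂ → ℝ) : Prop where
  cont : ContinuousOn h D
  mean : ∀ z r, 0 < r → closedBall z r ⊆ D → ∫ w, rr z r w * h w = h z

theorem TF.mv {D : Set ℂ} {T : (ℂ → ℝ) → ℝ} (hD : IsOpen D) (hb : Bornology.IsBounded D)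
    (hT : TF D T) : MV D (HT D T) :=
  ⟨hT.continuousOn_HT hD hb, fun z r hr h => by
    rw [← hT.repr hD hb (isTest_rr hr h), hT.T_rr' hD hb hr h]⟩

namespace MV

variable {D : Set ℂ} {f g : ℂ → ℝ}

theorem add (hD : IsOpen D) (hf : MV D f) (hg : MV D g) : MV D (fun z => f z + g z) := by
  refine ⟨hf.cont.add hg.cont, fun z r hr h => ?_⟩
  have h1 := integrable_mul' hD (isTest_rr hr h) hf.cont
  have h2 := integrable_mul' hD (isTest_rr hr h) hg.cont
  simp only [mul_add]
  rw [integral_add h1 h2, hf.mean z r hr h, hg.mean z r hr h]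

theorem const_mul (hf : MV D f) (c : ℝ) : MV D (fun z => c * f z) := by
  refine ⟨continuousOn_const.mul hf.cont, fun z r hr h => ?_⟩
  have e : (fun w => rr z r w * (c * f w)) = fun w => c * (rr z r w * f w) := by
    funext w; ring
  rw [e, integral_const_mul, hf.mean z r hr h]

theorem const (c : ℝ) : MV D (fun _ => c) :=
  ⟨continuousOn_const, fun z r hr _ => by rw [integral_mul_const, integral_rr hr, one_mul]⟩

theorem sum (hD : IsOpen D) {ι : Type*} (s : Finset ι) {F : ι → ℂ → ℝ}
    (hF : ∀ i ∈ s, MV D (F i)) : MV D (fun z => ∑ i ∈ s, F i z) := by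
  classical
  induction s using Finset.induction_on with
  | empty => simpa using const (D := D) 0
  | insert a s ha ih =>
    have h1 := ih fun i hi => hF i (Finset.mem_insert_of_mem hi)
    have h2 := hF a (Finset.mem_insert_self a s)
    have e : (fun z => ∑ i ∈ insert a s, F i z) = fun z => F a z + ∑ i ∈ s, F i z := by
      funext z; rw [Finset.sum_insert ha]
    rw [e]
    exact add hD h2 h1

/-- maximum principle -/
theorem le_zero (hD : IsOpen D) (hb : Bornology.IsBounded D) (hf : MV D f)
    (hfr : ∀ p ∈ frontier D, ∀ δ > 0, ∃ η > 0, ∀ z ∈ D, dist z p < η → f z ≤ δ) :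
    ∀ z ∈ D, f z ≤ 0 := by
  intro z0 hz0
  by_contra hcon
  rw [not_le] at hcon
  set δ := f z0 / 2 with hδ
  have hδp : 0 < δ := half_pos hcon
  set S : Set ℂ := {z | z ∈ D ∧ δ ≤ f z} with hS
  have hz0S : z0 ∈ S := ⟨hz0, by linarith⟩
  have hScl : IsClosed S := by
    rw [← closure_subset_iff_isClosed]
    intro z hz
    have hzD : z ∈ closure D := closure_mono (fun w hw => hw.1) hz
    by_cases hzin : z ∈ D
    · refine ⟨hzin, ?_⟩
      have h1 : ContinuousAt f z := hf.cont.continuousAt (hD.mem_nhds hzin)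
      by_contra h2
      rw [not_le] at h2
      have h3 : ∀ᶠ w in 𝓝 z, f w < δ := h1.eventually_lt continuousAt_const h2
      obtain ⟨w, hw, hw'⟩ := (mem_closure_iff_frequently.1 hz).and_eventually h3 |>.exists
      linarith [hw.2]
    · exfalso
      have hfr' : z ∈ frontier D := ⟨hzD, by rw [hD.interior_eq]; exact hzin⟩
      obtain ⟨η, hη, h1⟩ := hfr z hfr' (δ / 2) (half_pos hδp)
      obtain ⟨w, hw, hw'⟩ := Metric.mem_closure_iff.1 hz η hη
      have := h1 w hw.1 (by rw [dist_comm]; exact hw')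
      linarith [hw.2]
  have hSc : IsCompact S := isCompact_of_isClosed_isBounded hScl (hb.subset fun w hw => hw.1)
  have hfS : ContinuousOn f S := hf.cont.mono fun w hw => hw.1
  obtain ⟨zM, hzM, hmax⟩ := hSc.exists_isMaxOn ⟨z0, hz0S⟩ hfS
  set M := f zM with hM
  have hle : ∀ w ∈ D, f w ≤ M := by
    intro w hw
    by_cases h : δ ≤ f w
    · exact hmax (show w ∈ S from ⟨hw, h⟩)
    · have := hzM.2
      linarith [not_le.1 h]
  have hS'c : IsCompact {z | z ∈ S ∧ f z = M} := by
    have h1 : IsClosed (S ∩ f ⁻¹' {M}) := hfS.preimage_isClosed_of_isClosed hScl isClosed_singleton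
    exact hSc.of_isClosed_subset h1 inter_subset_left
  have hS'n : {z | z ∈ S ∧ f z = M}.Nonempty := ⟨zM, hzM, rfl⟩
  obtain ⟨z1, ⟨hz1S, hz1M⟩, hz1max⟩ := hS'c.exists_isMaxOn hS'n Complex.continuous_re.continuousOn
  obtain ⟨r, hr, hsub⟩ := nhds_basis_closedBall.mem_iff.1 (hD.mem_nhds hz1S.1)
  have hmv := hf.mean z1 r hr hsub
  have hmM : ∫ w, rr z1 r w * M = M := by rw [integral_mul_const, integral_rr hr, one_mul]
  have i1 := integrable_mul' hD (isTest_rr hr hsub) hf.cont
  have i2 := integrable_mul' hD (isTest_rr hr hsub) (continuousOn_const (c := M))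
  have hzero : ∫ w, rr z1 r w * (M - f w) = 0 := by
    have e : (fun w => rr z1 r w * (M - f w)) = fun w => rr z1 r w * M - rr z1 r w * f w := by
      funext w; ring
    rw [e, integral_sub i2 i1, hmM, hmv, hz1M]
    simp
  have hcont : Continuous fun w => rr z1 r w * (M - f w) :=
    cont_mul hD (isTest_rr hr hsub) (continuousOn_const.sub hf.cont)
  have hcomp : HasCompactSupport fun w => rr z1 r w * (M - f w) := (compact_rr hr z1).mul_right
  have hnn : 0 ≤ fun w => rr z1 r w * (M - f w) := by
    intro w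
    simp only [Pi.zero_apply]
    by_cases hw : dist w z1 < r
    · have : w ∈ D := hsub (mem_closedBall.2 hw.le)
      exact mul_nonneg (rr_nonneg _ _ _) (by linarith [hle w this])
    · rw [rr_zero hr (not_lt.1 hw), zero_mul]
  set w1 : ℂ := z1 + ((r / 2 : ℝ) : ℂ) with hw1
  have hd1 : dist w1 z1 < r := by
    rw [hw1, dist_eq_norm, add_sub_cancel_left, Complex.norm_real, Real.norm_of_nonneg (by linarith)]
    linarith
  have hw1D : w1 ∈ D := hsub (mem_closedBall.2 hd1.le)
  have hne : f w1 ≠ M := by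
    intro h
    have h2 : w1 ∈ S := ⟨hw1D, by rw [h]; exact hzM.2⟩
    have h3 : w1.re ≤ z1.re := hz1max (show w1 ∈ {z | z ∈ S ∧ f z = M} from ⟨h2, h⟩)
    rw [hw1, Complex.add_re, Complex.ofReal_re] at h3
    linarith
  have hpos : 0 < ∫ w, rr z1 r w * (M - f w) :=
    hcont.integral_pos_of_hasCompactSupport_nonneg_nonzero hcomp hnn (x := w1)
    (mul_ne_zero (rr_pos hr hd1).ne' (sub_ne_zero.2 (Ne.symm hne)))
  exact hpos.ne' hzero

/-- small bumps reproduce continuous functions -/
theorem tendsto_bump (hD : IsOpen D) {ℓ : ℂ → ℝ} (hℓ : ContinuousOn ℓ D) {z : ℂ} (hz : z ∈ D)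
    {ε : ℝ} (hε : 0 < ε) : ∃ r > 0, closedBall z r ⊆ D ∧ |(∫ w, rr z r w * ℓ w) - ℓ z| ≤ ε := by
  have hc : ContinuousAt ℓ z := hℓ.continuousAt (hD.mem_nhds hz)
  have h1 : ∀ᶠ w in 𝓝 z, |ℓ w - ℓ z| < ε := by
    have := Metric.continuousAt_iff'.1 hc ε hε
    simpa [Real.dist_eq] using this
  obtain ⟨r, hr, hsub⟩ := nhds_basis_closedBall.mem_iff.1 (Filter.inter_mem h1 (hD.mem_nhds hz))
  have hsub1 : closedBall z r ⊆ D := hsub.trans inter_subset_right
  refine ⟨r, hr, hsub1, ?_⟩
  have i1 := integrable_mul' hD (isTest_rr hr hsub1) hℓ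
  have i2 := integrable_mul' hD (isTest_rr hr hsub1) (continuousOn_const (c := ℓ z))
  have i3 : Integrable (rr z r) :=
    (contDiff_rr z r).continuous.integrable_of_hasCompactSupport (compact_rr hr z)
  have e1 : ∫ w, rr z r w * ℓ z = ℓ z := by rw [integral_mul_const, integral_rr hr, one_mul]
  have e2 : (∫ w, rr z r w * ℓ w) - ℓ z = ∫ w, (rr z r w * ℓ w - rr z r w * ℓ z) := by
    rw [integral_sub i1 i2, e1]
  have e3 : ∫ w, ε * rr z r w = ε := by rw [integral_const_mul, integral_rr hr, mul_one]
  rw [e2, ← Real.norm_eq_abs]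
  refine (norm_integral_le_of_norm_le (i3.const_mul ε) (Eventually.of_forall fun w => ?_)).trans
    (le_of_eq e3)
  rw [← mul_sub, norm_mul, Real.norm_of_nonneg (rr_nonneg _ _ _), Real.norm_eq_abs, mul_comm]
  by_cases hw : dist w z < r
  · exact mul_le_mul_of_nonneg_right (le_of_lt (hsub (mem_closedBall.2 hw.le)).1) (rr_nonneg _ _ _)
  · rw [rr_zero hr (not_lt.1 hw)]; simp

theorem continuousOn_log {m : ℂ} (hm : m ∉ D) : ContinuousOn (fun w => Real.log ‖m - w‖) D := by
  refine ContinuousOn.log (by fun_prop) fun w hw => ?_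
  rw [norm_ne_zero_iff, sub_ne_zero]
  rintro rfl
  exact hm hw

theorem tf_LP (hD : IsOpen D) {m : ℂ} (hm : m ∉ D) : TF D (fun f => LP f m) := by
  have hlog := continuousOn_log (D := D) hm
  refine ⟨fun f g hf hg => ?_, fun c f hf => ?_, fun u hu => ?_, fun K hK hKD => ?_⟩
  · unfold LP
    have h1 := integrable_mul' hD hf hlog
    have h2 := integrable_mul' hD hg hlog
    have e : (fun w => Real.log ‖m - w‖ * (f w + g w)) =
        fun w => f w * Real.log ‖m - w‖ + g w * Real.log ‖m - w‖ := by funext w; ring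
    have e1 : (fun w => Real.log ‖m - w‖ * f w) = fun w => f w * Real.log ‖m - w‖ := by
      funext w; ring
    have e2 : (fun w => Real.log ‖m - w‖ * g w) = fun w => g w * Real.log ‖m - w‖ := by
      funext w; ring
    rw [e, e1, e2, integral_add h1 h2]
    ring
  · unfold LP
    have e : (fun w => Real.log ‖m - w‖ * (c * f w)) = fun w => c * (Real.log ‖m - w‖ * f w) := by
      funext w; ring
    rw [e, integral_const_mul]
    ring
  · rw [LP_lap hu.smooth hu.comp, hu.eq_zero hm]
  · obtain ⟨B, hB⟩ := hK.exists_bound_of_continuousOn (hlog.mono hKD)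
    refine ⟨(1 / (2 * Real.pi)) * (max B 0 * (volume K).toReal), by positivity,
      fun f hf hfK M hM => ?_⟩
    unfold LP
    rw [abs_mul, abs_of_nonneg (by positivity : (0 : ℝ) ≤ 1 / (2 * Real.pi)), mul_assoc]
    refine mul_le_mul_of_nonneg_left ?_ (by positivity)
    have hM0 : 0 ≤ M := (abs_nonneg _).trans (hM 0)
    have e : ∫ w, Real.log ‖m - w‖ * f w = ∫ w in K, Real.log ‖m - w‖ * f w := by
      symm
      refine setIntegral_eq_integral_of_forall_compl_eq_zero fun w hw => ?_
      have : f w = 0 := image_eq_zero_of_notMem_tsupport fun h => hw (hfK h)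
      rw [this, mul_zero]
    rw [e, ← Real.norm_eq_abs]
    refine (norm_setIntegral_le_of_norm_le_const (C := max B 0 * M) hK.measure_lt_top
      fun w hw => ?_).trans (le_of_eq ?_)
    · rw [norm_mul]
      exact mul_le_mul ((hB w hw).trans (le_max_left _ _)) (hM w) (abs_nonneg _) (le_max_right _ _)
    · rw [Measure.real]; ring

theorem log (hD : IsOpen D) (hb : Bornology.IsBounded D) {m : ℂ} (hm : m ∉ D) :
    MV D (fun w => Real.log ‖m - w‖) := by
  have hlog := continuousOn_log (D := D) hm
  have hT := tf_LP hD hm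
  have hmv := hT.mv hD hb
  have key : ∀ z ∈ D, HT D (fun f => LP f m) z = (1 / (2 * Real.pi)) * Real.log ‖m - z‖ := by
    intro z hz
    have h1 : |HT D (fun f => LP f m) z - (1 / (2 * Real.pi)) * Real.log ‖m - z‖| ≤ 0 := by
      refine le_of_forall_pos_le_add fun ε hε => ?_
      rw [zero_add]
      obtain ⟨r, hr, hsub, hle⟩ := tendsto_bump hD hlog hz
        (show (0 : ℝ) < ε * (2 * Real.pi) by positivity)
      have h2 := hT.T_rr' hD hb hr hsub
      rw [← h2]
      unfold LP
      have e : (fun w => Real.log ‖m - w‖ * rr z r w) = fun w => rr z r w * Real.log ‖m - w‖ := by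
        funext w; ring
      rw [e, ← mul_sub, abs_mul, abs_of_nonneg (by positivity : (0 : ℝ) ≤ 1 / (2 * Real.pi))]
      calc (1 / (2 * Real.pi)) * |(∫ w, rr z r w * Real.log ‖m - w‖) - Real.log ‖m - z‖|
          ≤ (1 / (2 * Real.pi)) * (ε * (2 * Real.pi)) :=
            mul_le_mul_of_nonneg_left hle (by positivity)
        _ = ε := by field_simp
    have := abs_nonpos_iff.1 h1
    linarith
  refine ⟨hlog, fun z r hr h => ?_⟩
  have h1 := hmv.mean z r hr h
  have hz : z ∈ D := h (mem_closedBall_self hr.le)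
  rw [key z hz] at h1
  have e : ∫ w, rr z r w * HT D (fun f => LP f m) w =
      ∫ w, (1 / (2 * Real.pi)) * (rr z r w * Real.log ‖m - w‖) := by
    congr 1
    funext w
    by_cases hw : w ∈ D
    · rw [key w hw]; ring
    · have : rr z r w = 0 := (isTest_rr hr h).eq_zero hw
      rw [this]; ring
  rw [e, integral_const_mul] at h1
  exact mul_left_cancel₀ (by positivity) h1

end MV

/-- **Uniqueness**: a functional on test functions, bounded on compacts, killing Laplacians, whose
density is bounded and vanishes at the boundary off a finite set, is zero. -/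
theorem TF.eq_zero {D : Set ℂ} {T : (ℂ → ℝ) → ℝ} {P : Finset ℂ} (hD : IsOpen D)
    (hb : Bornology.IsBounded D) (hP : ∀ m ∈ P, m ∉ D) (hT : TF D T)
    {C : ℝ} (hC : ∀ z ∈ D, |T (rr z (rad D z))| ≤ C)
    (hfr : ∀ p ∈ frontier D, p ∉ P → ∀ ε > 0, ∃ η > 0, ∀ z ∈ D, dist z p < η →
      |T (rr z (rad D z))| ≤ ε) {f : ℂ → ℝ} (hf : IsTest D f) : T f = 0 := by
  have hmv := hT.mv hD hb
  obtain ⟨R0, hR0⟩ := hb.subset_closedBall 0
  -- a common radius
  obtain ⟨R, hR1, hR⟩ : ∃ R : ℝ, 1 ≤ R ∧ ∀ m ∈ P, ∀ z ∈ D, ‖m - z‖ ≤ R := by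
    refine ⟨max 1 ((∑ m ∈ P, ‖m‖) + |R0|), le_max_left _ _, fun m hm z hz => ?_⟩
    refine le_trans ?_ (le_max_right _ _)
    refine (norm_sub_le _ _).trans (add_le_add ?_ ?_)
    · exact Finset.single_le_sum (f := fun m : ℂ => ‖m‖) (fun _ _ => norm_nonneg _) hm
    · have := hR0 hz
      rw [mem_closedBall_zero_iff] at this
      exact this.trans (le_abs_self _)
  set b : ℂ → ℝ := fun z => ∑ m ∈ P, (Real.log R + (-1) * Real.log ‖m - z‖) with hbdef
  have hbmv : MV D b := MV.sum hD P fun m hm =>
    MV.add hD (MV.const _) ((MV.log hD hb (hP m hm)).const_mul (-1))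
  have hterm : ∀ m ∈ P, ∀ z ∈ D, 0 ≤ Real.log R + (-1) * Real.log ‖m - z‖ := by
    intro m hm z hz
    have h1 : 0 < ‖m - z‖ := by
      rw [norm_pos_iff, sub_ne_zero]; rintro rfl; exact hP m hm hz
    have := Real.log_le_log h1 (hR m hm z hz)
    linarith
  have hb0 : ∀ z ∈ D, 0 ≤ b z := fun z hz => Finset.sum_nonneg fun m hm => hterm m hm z hz
  have main : ∀ s : ℝ, (s = 1 ∨ s = -1) → ∀ z ∈ D, s * HT D T z ≤ 0 := by
    intro s hs z hz
    have habs : ∀ x : ℝ, s * x ≤ |x| := fun x => by
      rcases hs with rfl | rfl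
      · rw [one_mul]; exact le_abs_self x
      · rw [neg_one_mul]; exact neg_le_abs x
    have h1 : ∀ ε > 0, s * HT D T z ≤ ε * b z := by
      intro ε hε
      have hmv2 : MV D (fun z => s * HT D T z + (-ε) * b z) :=
        MV.add hD (hmv.const_mul s) (hbmv.const_mul (-ε))
      have h2 := hmv2.le_zero hD hb ?_ z hz
      · linarith
      intro p hp δ hδ
      by_cases hpP : p ∈ P
      · -- near a mark
        have hlim : Tendsto (fun z => Real.log ‖p - z‖) (𝓝[≠] p) atBot := by
          have h3 : Tendsto (fun z => ‖p - z‖) (𝓝[≠] p) (𝓝[>] 0) := by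
            rw [tendsto_nhdsWithin_iff]
            refine ⟨?_, ?_⟩
            · have : Continuous fun z => ‖p - z‖ := by fun_prop
              have h4 := this.tendsto p
              simp only [sub_self, norm_zero] at h4
              exact h4.mono_left nhdsWithin_le_nhds
            · filter_upwards [self_mem_nhdsWithin] with z hz
              rw [mem_Ioi, norm_pos_iff, sub_ne_zero]
              exact fun h => hz (by rw [mem_singleton_iff]; exact h.symm)
          exact Real.tendsto_log_nhdsGT_zero.comp h3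
        have h5 : ∀ᶠ z in 𝓝[≠] p, Real.log ‖p - z‖ ≤ Real.log R - C / ε :=
          hlim.eventually_le_atBot _
        rw [eventually_nhdsWithin_iff, Metric.eventually_nhds_iff] at h5
        obtain ⟨η, hη, h6⟩ := h5
        refine ⟨η, hη, fun w hw hwp => ?_⟩
        have hwne : w ≠ p := by rintro rfl; exact hP _ hpP hw
        have h7 := h6 hwp hwne
        have h8 : C / ε ≤ b w := by
          have h9 : Real.log R + (-1) * Real.log ‖p - w‖ ≤ b w :=
            Finset.single_le_sum (f := fun m => Real.log R + (-1) * Real.log ‖m - w‖)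
              (fun m hm => hterm m hm w hw) hpP
          linarith
        have h10 : C ≤ ε * b w := by
          rw [div_le_iff₀ hε] at h8; linarith
        have h11 : s * HT D T w ≤ C := (habs _).trans (hC w hw)
        linarith
      · obtain ⟨η, hη, h3⟩ := hfr p hp hpP δ hδ
        refine ⟨η, hη, fun w hw hwp => ?_⟩
        have h4 := (habs _).trans (h3 w hw hwp)
        have h5 : 0 ≤ ε * b w := mul_nonneg hε.le (hb0 w hw)
        have h6 : s * HT D T w ≤ δ := h4
        linarith
    by_contra hcon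
    rw [not_le] at hcon
    have h2 := h1 (s * HT D T z / (2 * (b z + 1)))
      (div_pos hcon (by linarith [hb0 z hz]))
    have h3 : s * HT D T z / (2 * (b z + 1)) * b z ≤ s * HT D T z / 2 := by
      have h4 : 0 < b z + 1 := by linarith [hb0 z hz]
      rw [div_mul_eq_mul_div, div_le_div_iff₀ (by linarith) (by norm_num)]
      nlinarith [hb0 z hz]
    linarith
  have hzero : ∀ z ∈ D, HT D T z = 0 := by
    intro z hz
    have h1 := main 1 (Or.inl rfl) z hz
    have h2 := main (-1) (Or.inr rfl) z hz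
    linarith
  rw [hT.repr hD hb hf]
  rw [integral_eq_zero_of_ae]
  refine Eventually.of_forall fun z => ?_
  simp only [Pi.zero_apply]
  by_cases hz : z ∈ D
  · rw [hzero z hz, mul_zero]
  · rw [hf.eq_zero hz, zero_mul]

end

end Crest.Agent.R144.End938
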