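import Crest.Agent.R144.EndB_938

/-!
# R144, harmonic remainder, part C (helper938): convergence of the covariances
-/

set_option autoImplicit false

open MeasureTheory Metric Set Filter Topology Laplacian InnerProductSpace
open scoped ComplexConjugate ContDiff

namespace Crest.Agent.R144.End938

open Crest.Agent.R144.Con549 Crest.Agent.R161.Green722
open Crest.ProbabilityR.HexHeights (domainGreenForm)

noncomputable section

/-! ### symmetric bilinear forms on test functions -/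

/-- symmetric bilinear form on tests -/
structure SB (D : Set ℂ) (Q : (ℂ → ℝ) → (ℂ → ℝ) → ℝ) : Prop where
  symm : ∀ f g, IsTest D f → IsTest D g → Q f g = Q g f
  add : ∀ f1 f2 g, IsTest D f1 → IsTest D f2 → IsTest D g →
    Q (fun z => f1 z + f2 z) g = Q f1 g + Q f2 g
  smul : ∀ (c : ℝ) f g, IsTest D f → IsTest D g → Q (fun z => c * f z) g = c * Q f g

namespace SB

variable {D : Set ℂ} {Q : (ℂ → ℝ) → (ℂ → ℝ) → ℝ}

theorem add_right (h : SB D Q) {g f1 f2 : ℂ → ℝ} (hg : IsTest D g) (h1 : IsTest D f1)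
    (h2 : IsTest D f2) : Q g (fun z => f1 z + f2 z) = Q g f1 + Q g f2 := by
  rw [h.symm g _ hg (h1.add h2), h.add _ _ _ h1 h2 hg, h.symm f1 g h1 hg, h.symm f2 g h2 hg]

theorem smul_right (h : SB D Q) (c : ℝ) {g f : ℂ → ℝ} (hg : IsTest D g) (hf : IsTest D f) :
    Q g (fun z => c * f z) = c * Q g f := by
  rw [h.symm g _ hg (hf.const_mul c), h.smul c f g hf hg, h.symm f g hf hg]

theorem quad (h : SB D Q) {f g : ℂ → ℝ} (hf : IsTest D f) (hg : IsTest D g) (t : ℝ) :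
    Q (fun z => f z + t * g z) (fun z => f z + t * g z) =
      Q f f + 2 * t * Q f g + t ^ 2 * Q g g := by
  have htg := hg.const_mul t
  rw [h.add _ _ _ hf htg (hf.add htg), h.add_right hf hf htg, h.add_right htg hf htg,
    h.smul_right t hf hg, h.smul t g f hg hf, h.smul t g _ hg htg, h.smul_right t hg hg,
    h.symm g f hg hf]
  ring

theorem cs (h : SB D Q) (hn : ∀ f, IsTest D f → 0 ≤ Q f f) {f g : ℂ → ℝ} (hf : IsTest D f)
    (hg : IsTest D g) : Q f g ^ 2 ≤ Q f f * Q g g := by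
  have h1 : ∀ t : ℝ, 0 ≤ Q g g * (t * t) + 2 * Q f g * t + Q f f := by
    intro t
    have h2 := hn _ (hf.add (hg.const_mul t))
    rw [h.quad hf hg t] at h2
    nlinarith
  have h2 := discrim_le_zero h1
  unfold discrim at h2
  nlinarith

end SB

theorem abs_le_sqrt {x a b A B M : ℝ} (h : x ^ 2 ≤ a * b) (ha : 0 ≤ a) (hb : 0 ≤ b)
    (hA : a ≤ A * M ^ 2) (hB : b ≤ B) (hA0 : 0 ≤ A) (hM : 0 ≤ M) :
    |x| ≤ Real.sqrt (A * B) * M := by
  have hB0 : 0 ≤ B := hb.trans hB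
  refine abs_le_of_sq_le_sq ?_ (by positivity)
  rw [mul_pow, Real.sq_sqrt (by positivity)]
  calc x ^ 2 ≤ a * b := h
    _ ≤ (A * M ^ 2) * B := mul_le_mul hA hB hb (by positivity)
    _ = A * B * M ^ 2 := by ring

theorem lap_add_test {U : Set ℂ} {u v : ℂ → ℝ} (hu : IsTest U u) (hv : IsTest U v) :
    (Δ (fun z => u z + v z)) = fun z => (Δ u) z + (Δ v) z := by
  funext z
  exact ContDiffAt.laplacian_add (hu.smooth.of_le (by norm_cast)).contDiffAt
    (hv.smooth.of_le (by norm_cast)).contDiffAt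

/-! ### the Green form of bumps -/

section green

variable {D : Set ℂ} {φ ψ : ℂ → ℂ}

theorem sb_DG (B : Bih D (ball 0 1) φ ψ) : SB D (DG φ) :=
  ⟨fun _ _ hf hg => DG_symm B hf hg, fun _ _ _ h1 h2 hg => DG_add_left B h1 h2 hg,
    fun c f g _ _ => DG_const_mul_left φ c f g⟩

theorem dg_bump (B : Bih D (ball 0 1) φ ψ) (hb : Bornology.IsBounded D)
    {g : ℂ → ℝ} (hg : IsTest D g) : ∃ L, 0 ≤ L ∧ ∀ z ∈ D, ∀ t, 0 ≤ t →
      (∀ v ∈ closedBall z (rad D z), 1 - ‖φ v‖ ≤ t) → |DG φ (rr z (rad D z)) g| ≤ L * t := by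
  have hD := B.oU
  have hG := isTest_td B.symm hg
  obtain ⟨r, hr, hr1, hT⟩ := isTest_Tst hG
  obtain ⟨L, hL0, -, hL⟩ := exists_lip one_pos hr hr1 hT hG.smooth hG.comp
  refine ⟨L, hL0, fun z hz t ht hv => ?_⟩
  have hrad := rad_pos hD hb hz
  have htest := isTest_rr hrad (ball_rad hD hb hz)
  set F := td (ball 0 1) ψ (rr z (rad D z)) with hF
  have hFt : IsTest (ball (0 : ℂ) 1) F := isTest_td B.symm htest
  have hF0 : ∀ w, 0 ≤ F w := by
    intro w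
    by_cases hw : w ∈ ball (0 : ℂ) 1
    · rw [hF, td_mem hw]; exact mul_nonneg (rr_nonneg _ _ _) (by positivity)
    · rw [hF, td_not hw]
  have hF1 : ∫ w, F w = 1 := by
    rw [hF, integral_td B.symm _ (fun w hw => htest.eq_zero hw), integral_rr hrad]
  have hFi : Integrable F := hFt.smooth.continuous.integrable_of_hasCompactSupport hFt.comp
  rw [DG_eq B htest hg, Gf_eq_U, ← Real.norm_eq_abs]
  have e : ∫ w, (L * t) * F w = L * t := by rw [integral_const_mul, hF1, mul_one]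
  rw [← e]
  refine norm_integral_le_of_norm_le (hFi.const_mul _) (Eventually.of_forall fun w => ?_)
  rw [norm_mul, Real.norm_of_nonneg (hF0 w), mul_comm]
  by_cases hw : w ∈ ball (0 : ℂ) 1
  · by_cases hin : ψ w ∈ closedBall z (rad D z)
    · refine mul_le_mul_of_nonneg_right ?_ (hF0 w)
      have hw1 : ‖w‖ ≤ 1 := (mem_ball_zero_iff.1 hw).le
      rw [U_eq_Ue one_pos hr hr1 hT hw1, Real.norm_eq_abs]
      refine (hL w hw1).trans (mul_le_mul_of_nonneg_left ?_ hL0)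
      have := hv _ hin
      rwa [B.hg w hw] at this
    · have : F w = 0 := by
        rw [hF, td_mem hw, rr_zero hrad, zero_mul]
        rw [mem_closedBall, not_le] at hin
        exact hin.le
      rw [this]; simp
  · have : F w = 0 := by rw [hF, td_not hw]
    rw [this]; simp

theorem rad_le (hD : IsOpen D) {z p : ℂ} (hp : p ∈ frontier D) :
    rad D z ≤ dist z p / 2 := by
  have hpD : p ∈ Dᶜ := fun h => by
    rw [frontier, hD.interior_eq] at hp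
    exact hp.2 h
  have := infDist_le_dist_of_mem (x := z) hpD
  unfold rad
  linarith

/-- the Green pairing with small bumps vanishes at the boundary -/
theorem dg_bdry (B : Bih D (ball 0 1) φ ψ) (hb : Bornology.IsBounded D)
    {g : ℂ → ℝ} (hg : IsTest D g) {p : ℂ} (hp : p ∈ frontier D) {ε : ℝ} (hε : 0 < ε) :
    ∃ η > 0, ∀ z ∈ D, dist z p < η → |DG φ (rr z (rad D z)) g| ≤ ε := by
  have hD := B.oU
  obtain ⟨L, hL0, hL⟩ := dg_bump B hb hg
  set t := ε / (L + 1) with ht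
  have htp : 0 < t := by positivity
  set K : Set ℂ := ψ '' closedBall (0 : ℂ) (1 - t) with hK
  have hsub : closedBall (0 : ℂ) (1 - t) ⊆ ball 0 1 := closedBall_subset_ball (by linarith)
  have hKc : IsCompact K := (isCompact_closedBall _ _).image_of_continuousOn
    (B.dg.continuousOn.mono hsub)
  have hpD : p ∉ D := fun h => by
    rw [frontier, hD.interior_eq] at hp
    exact hp.2 h
  have hpK : p ∉ K := by
    rintro ⟨w, hw, rfl⟩
    exact hpD (B.mg w (hsub hw))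
  obtain ⟨η, hη, hdisj⟩ := nhds_basis_ball.mem_iff.1 (hKc.isClosed.isOpen_compl.mem_nhds hpK)
  refine ⟨η / 2, half_pos hη, fun z hz hzp => ?_⟩
  have h1 := hL z hz t htp.le fun v hv => ?_
  · refine h1.trans ?_
    rw [ht, mul_div_assoc', div_le_iff₀ (by linarith)]
    nlinarith
  · have hvD : v ∈ D := ball_rad hD hb hz hv
    have hvp : dist v p < η := by
      have h2 := rad_le hD (z := z) hp
      have h3 := dist_triangle v z p
      have h4 := mem_closedBall.1 hv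
      linarith
    have hvK : v ∉ K := hdisj hvp
    by_contra hcon
    rw [not_le] at hcon
    refine hvK ⟨φ v, ?_, B.gh v hvD⟩
    rw [mem_closedBall_zero_iff]
    linarith

end green

/-! ### the data -/

/-- data of the harmonic remainder theorem -/
structure EndData (D : Set ℂ) (P : Finset ℂ) (kap : ℝ) (Q : ℕ → (ℂ → ℝ) → (ℂ → ℝ) → ℝ) :
    Prop where
  symm : ∀ n f g, IsTest D f → IsTest D g → Q n f g = Q n g f
  add : ∀ n f1 f2 g, IsTest D f1 → IsTest D f2 → IsTest D g →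
    Q n (fun z => f1 z + f2 z) g = Q n f1 g + Q n f2 g
  smul : ∀ n (c : ℝ) f g, IsTest D f → IsTest D g → Q n (fun z => c * f z) g = c * Q n f g
  nonneg : ∀ n f, IsTest D f → 0 ≤ Q n f f
  p1 : ∀ u, IsTest D u → Tendsto (fun n => Q n (Δ u) (Δ u)) atTop
    (𝓝 (kap * ∫ z, ‖fderiv ℝ u z‖ ^ 2))
  bd : ∀ K, IsCompact K → K ⊆ D → ∃ C : ℝ, ∀ f, IsTest D f → tsupport f ⊆ K →
    ∀ M, (∀ z, |f z| ≤ M) → ∀ᶠ n in atTop, Q n f f ≤ C * M ^ 2
  c1 : ∃ C : ℝ, ∀ z ∈ D, ∀ᶠ n in atTop, Q n (rr z (rad D z)) (rr z (rad D z)) ≤ C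
  c2 : ∀ g, IsTest D g → ∀ p ∈ frontier D, p ∉ P → ∀ ε > 0, ∃ η > 0, ∀ z ∈ D, dist z p < η →
    ∀ᶠ n in atTop, |Q n (rr z (rad D z)) g| ≤ ε

namespace EndData

variable {D : Set ℂ} {P : Finset ℂ} {kap : ℝ} {Q : ℕ → (ℂ → ℝ) → (ℂ → ℝ) → ℝ}

theorem sb (H : EndData D P kap Q) (n : ℕ) : SB D (Q n) := ⟨H.symm n, H.add n, H.smul n⟩

theorem diag_bdd (H : EndData D P kap Q) {f : ℂ → ℝ} (hf : IsTest D f) :
    ∃ A : ℝ, 0 ≤ A ∧ ∀ᶠ n in atTop, Q n f f ≤ A := by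
  obtain ⟨C, hC⟩ := H.bd (tsupport f) hf.comp hf.supp
  obtain ⟨M, hM⟩ := hf.smooth.continuous.bounded_above_of_compact_support hf.comp
  refine ⟨max (C * M ^ 2) 0, le_max_right _ _, ?_⟩
  filter_upwards [hC f hf le_rfl M hM] with n hn
  exact hn.trans (le_max_left _ _)

/-- limit form along an ultrafilter -/
def QI (𝒰 : Ultrafilter ℕ) (Q : ℕ → (ℂ → ℝ) → (ℂ → ℝ) → ℝ) (f g : ℂ → ℝ) : ℝ :=
  limUnder (𝒰 : Filter ℕ) fun n => Q n f g

theorem tendsto_QI (H : EndData D P kap Q) {𝒰 : Ultrafilter ℕ} (hU : (𝒰 : Filter ℕ) ≤ atTop)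
    {f g : ℂ → ℝ} (hf : IsTest D f) (hg : IsTest D g) :
    Tendsto (fun n => Q n f g) (𝒰 : Filter ℕ) (𝓝 (QI 𝒰 Q f g)) := by
  obtain ⟨A, hA0, hA⟩ := H.diag_bdd hf
  obtain ⟨B, hB0, hB⟩ := H.diag_bdd hg
  have h1 : ∀ᶠ n in (𝒰 : Filter ℕ), Q n f g ∈ Icc (-(A + B)) (A + B) := by
    filter_upwards [hU hA, hU hB] with n h1 h2
    have h3 := (H.sb n).cs (H.nonneg n) hf hg
    have h4 := H.nonneg n f hf
    have h5 := H.nonneg n g hg
    rw [mem_Icc, ← abs_le]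
    refine abs_le_of_sq_le_sq ?_ (by linarith)
    nlinarith [mul_le_mul h1 h2 h5 hA0, mul_nonneg hA0 hB0]
  obtain ⟨x, -, hx⟩ := (isCompact_Icc (a := -(A + B)) (b := A + B)).ultrafilter_le_nhds
    (𝒰.map fun n => Q n f g) (by
      rw [le_principal_iff, Ultrafilter.coe_map]
      exact h1)
  rw [Ultrafilter.coe_map] at hx
  exact tendsto_nhds_limUnder ⟨x, hx⟩

theorem sb_QI (H : EndData D P kap Q) {𝒰 : Ultrafilter ℕ} (hU : (𝒰 : Filter ℕ) ≤ atTop) :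
    SB D (QI 𝒰 Q) := by
  refine ⟨fun f g hf hg => ?_, fun f1 f2 g h1 h2 hg => ?_, fun c f g hf hg => ?_⟩
  · refine tendsto_nhds_unique (H.tendsto_QI hU hf hg) ((H.tendsto_QI hU hg hf).congr fun n => ?_)
    exact H.symm n g f hg hf
  · refine tendsto_nhds_unique (H.tendsto_QI hU (h1.add h2) hg)
      (((H.tendsto_QI hU h1 hg).add (H.tendsto_QI hU h2 hg)).congr fun n => ?_)
    exact (H.add n f1 f2 g h1 h2 hg).symm
  · refine tendsto_nhds_unique (H.tendsto_QI hU (hf.const_mul c) hg)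
      (((H.tendsto_QI hU hf hg).const_mul c).congr fun n => ?_)
    exact (H.smul n c f g hf hg).symm

theorem QI_nonneg (H : EndData D P kap Q) {𝒰 : Ultrafilter ℕ} (hU : (𝒰 : Filter ℕ) ≤ atTop)
    {f : ℂ → ℝ} (hf : IsTest D f) : 0 ≤ QI 𝒰 Q f f :=
  ge_of_tendsto (H.tendsto_QI hU hf hf) (Eventually.of_forall fun n => H.nonneg n f hf)

theorem QI_le (H : EndData D P kap Q) {𝒰 : Ultrafilter ℕ} (hU : (𝒰 : Filter ℕ) ≤ atTop)
    {f : ℂ → ℝ} (hf : IsTest D f) {A : ℝ} (hA : ∀ᶠ n in atTop, Q n f f ≤ A) :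
    QI 𝒰 Q f f ≤ A :=
  le_of_tendsto (H.tendsto_QI hU hf hf) (hU hA)

theorem QI_lap (H : EndData D P kap Q) {𝒰 : Ultrafilter ℕ} (hU : (𝒰 : Filter ℕ) ≤ atTop)
    {u : ℂ → ℝ} (hu : IsTest D u) :
    QI 𝒰 Q (Δ u) (Δ u) = kap * ∫ z, ‖fderiv ℝ u z‖ ^ 2 :=
  tendsto_nhds_unique (H.tendsto_QI hU hu.lap hu.lap) ((H.p1 u hu).mono_left hU)

/-- the difference -/
def R (𝒰 : Ultrafilter ℕ) (Q : ℕ → (ℂ → ℝ) → (ℂ → ℝ) → ℝ) (kap : ℝ) (φ : ℂ → ℂ)
    (f g : ℂ → ℝ) : ℝ := QI 𝒰 Q f g - kap * DG φ f g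

theorem sb_R (H : EndData D P kap Q) {φ ψ : ℂ → ℂ} (B : Bih D (ball 0 1) φ ψ)
    {𝒰 : Ultrafilter ℕ} (hU : (𝒰 : Filter ℕ) ≤ atTop) : SB D (R 𝒰 Q kap φ) := by
  have h1 := H.sb_QI hU
  have h2 := sb_DG B
  refine ⟨fun f g hf hg => ?_, fun f1 f2 g hf1 hf2 hg => ?_, fun c f g hf hg => ?_⟩
  · unfold R; rw [h1.symm f g hf hg, h2.symm f g hf hg]
  · unfold R; rw [h1.add f1 f2 g hf1 hf2 hg, h2.add f1 f2 g hf1 hf2 hg]; ring
  · unfold R; rw [h1.smul c f g hf hg, h2.smul c f g hf hg]; ring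

theorem DG_lap_lap {φ ψ : ℂ → ℂ} (B : Bih D (ball 0 1) φ ψ) {u : ℂ → ℝ} (hu : IsTest D u) :
    DG φ (Δ u) (Δ u) = ∫ z, ‖fderiv ℝ u z‖ ^ 2 := by
  rw [← greenForm_neg_lap B hu, ← DG_self]
  have e : (fun z => -(Δ u) z) = fun z => (-1) * (Δ u) z := by funext z; ring
  rw [e, DG_const_mul_left, DG_const_mul_right]
  ring

theorem R_lap_lap (H : EndData D P kap Q) {φ ψ : ℂ → ℂ} (B : Bih D (ball 0 1) φ ψ)
    {𝒰 : Ultrafilter ℕ} (hU : (𝒰 : Filter ℕ) ≤ atTop) {u v : ℂ → ℝ} (hu : IsTest D u)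
    (hv : IsTest D v) : R 𝒰 Q kap φ (Δ u) (Δ v) = 0 := by
  have hdiag : ∀ u, IsTest D u → R 𝒰 Q kap φ (Δ u) (Δ u) = 0 := by
    intro u hu
    unfold R
    rw [H.QI_lap hU hu, DG_lap_lap B hu, sub_self]
  have h1 := (H.sb_R B hU).quad hu.lap hv.lap 1
  simp only [one_mul] at h1
  rw [← lap_add_test hu hv, hdiag _ (hu.add hv), hdiag u hu, hdiag v hv] at h1
  linarith

theorem tf_R (H : EndData D P kap Q) (hb : Bornology.IsBounded D) {φ ψ : ℂ → ℂ}
    (B : Bih D (ball 0 1) φ ψ) {𝒰 : Ultrafilter ℕ} (hU : (𝒰 : Filter ℕ) ≤ atTop) {g : ℂ → ℝ}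
    (hg : IsTest D g) (hlap : ∀ u, IsTest D u → R 𝒰 Q kap φ (Δ u) g = 0) :
    TF D (fun f => R 𝒰 Q kap φ f g) := by
  have hsb := H.sb_R B hU
  refine ⟨fun f1 f2 h1 h2 => hsb.add f1 f2 g h1 h2 hg, fun c f hf => hsb.smul c f g hf hg, hlap,
    fun K hK hKD => ?_⟩
  obtain ⟨R0, hR0⟩ := hb.subset_ball 0
  have hR1 : D ⊆ ball 0 (max R0 1) := hR0.trans (ball_subset_ball (le_max_left _ _))
  have hRp : 0 < max R0 1 := lt_max_of_lt_right one_pos
  obtain ⟨C1, hC1⟩ := H.bd K hK hKD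
  obtain ⟨A, hA0, hA⟩ := H.diag_bdd hg
  set C2 := 4 * (max R0 1) ^ 2 * (volume K).toReal with hC2
  have hC20 : 0 ≤ C2 := by positivity
  refine ⟨Real.sqrt (max C1 0 * A) + |kap| * Real.sqrt (C2 * DG φ g g), by positivity,
    fun f hf hfK M hM => ?_⟩
  have hM0 : 0 ≤ M := (abs_nonneg _).trans (hM 0)
  have h1 : |QI 𝒰 Q f g| ≤ Real.sqrt (max C1 0 * A) * M := by
    refine abs_le_sqrt ((H.sb_QI hU).cs (fun f hf => H.QI_nonneg hU hf) hf hg)
      (H.QI_nonneg hU hf) (H.QI_nonneg hU hg) ?_ (H.QI_le hU hg hA) (le_max_right _ _) hM0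
    refine (H.QI_le hU hf (hC1 f hf hfK M hM)).trans ?_
    exact mul_le_mul_of_nonneg_right (le_max_left _ _) (sq_nonneg _)
  have h2 : |DG φ f g| ≤ Real.sqrt (C2 * DG φ g g) * M := by
    refine abs_le_sqrt (DG_cs B hf hg) (DG_nonneg B hf) (DG_nonneg B hg) ?_ le_rfl hC20 hM0
    rw [DG_self]
    refine (ConP938.DG_le_L2 B hRp hR1 hf).trans ?_
    rw [hC2, mul_assoc (4 * (max R0 1) ^ 2)]
    refine mul_le_mul_of_nonneg_left ?_ (by positivity)
    have e : ∫ z, f z ^ 2 = ∫ z in K, f z ^ 2 := by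
      symm
      refine setIntegral_eq_integral_of_forall_compl_eq_zero fun w hw => ?_
      have : f w = 0 := image_eq_zero_of_notMem_tsupport fun h => hw (hfK h)
      rw [this]; simp
    rw [e]
    have h3 : ‖∫ z in K, f z ^ 2‖ ≤ M ^ 2 * (volume K).toReal := by
      refine norm_setIntegral_le_of_norm_le_const hK.measure_lt_top fun w _ => ?_
      rw [norm_pow, Real.norm_eq_abs]
      exact pow_le_pow_left₀ (abs_nonneg _) (hM w) 2
    rw [mul_comm (volume K).toReal]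
    exact (le_abs_self _).trans h3
  show |QI 𝒰 Q f g - kap * DG φ f g| ≤ _
  calc |QI 𝒰 Q f g - kap * DG φ f g| ≤ |QI 𝒰 Q f g| + |kap * DG φ f g| := abs_sub _ _
    _ ≤ Real.sqrt (max C1 0 * A) * M + |kap| * (Real.sqrt (C2 * DG φ g g) * M) := by
      rw [abs_mul]
      exact add_le_add h1 (mul_le_mul_of_nonneg_left h2 (abs_nonneg _))
    _ = _ := by ring

theorem R_zero (H : EndData D P kap Q) (hb : Bornology.IsBounded D) (hP : ∀ m ∈ P, m ∉ D)
    {φ ψ : ℂ → ℂ} (B : Bih D (ball 0 1) φ ψ) {𝒰 : Ultrafilter ℕ}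
    (hU : (𝒰 : Filter ℕ) ≤ atTop) {g : ℂ → ℝ}
    (hg : IsTest D g) (hlap : ∀ u, IsTest D u → R 𝒰 Q kap φ (Δ u) g = 0) {f : ℂ → ℝ}
    (hf : IsTest D f) : R 𝒰 Q kap φ f g = 0 := by
  have hD := B.oU
  have hT := H.tf_R hb B hU hg hlap
  obtain ⟨C, hC⟩ := H.c1
  obtain ⟨A, hA0, hA⟩ := H.diag_bdd hg
  obtain ⟨L, hL0, hL⟩ := dg_bump B hb hg
  refine hT.eq_zero (P := P) hD hb hP (C := Real.sqrt (max C 0 * A) * 1 + |kap| * (L * 1))
    (fun z hz => ?_) (fun p hp hpP ε hε => ?_) hf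
  · have htest := isTest_rr (rad_pos hD hb hz) (ball_rad hD hb hz)
    have h1 : |QI 𝒰 Q (rr z (rad D z)) g| ≤ Real.sqrt (max C 0 * A) * 1 := by
      refine abs_le_sqrt ((H.sb_QI hU).cs (fun f hf => H.QI_nonneg hU hf) htest hg)
        (H.QI_nonneg hU htest) (H.QI_nonneg hU hg) ?_ (H.QI_le hU hg hA) (le_max_right _ _)
        zero_le_one
      refine (H.QI_le hU htest (hC z hz)).trans ?_
      rw [one_pow, mul_one]
      exact le_max_left _ _
    have h2 := hL z hz 1 zero_le_one fun v hv => by linarith [norm_nonneg (φ v)]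
    show |QI 𝒰 Q (rr z (rad D z)) g - kap * DG φ (rr z (rad D z)) g| ≤ _
    refine (abs_sub _ _).trans (add_le_add h1 ?_)
    rw [abs_mul]
    exact mul_le_mul_of_nonneg_left h2 (abs_nonneg _)
  · obtain ⟨η1, hη1, h1⟩ := H.c2 g hg p hp hpP (ε / 2) (half_pos hε)
    obtain ⟨η2, hη2, h2⟩ := dg_bdry B hb hg hp (ε := ε / (2 * (|kap| + 1))) (by positivity)
    refine ⟨min η1 η2, lt_min hη1 hη2, fun z hz hzp => ?_⟩
    have htest := isTest_rr (rad_pos hD hb hz) (ball_rad hD hb hz)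
    have h3 : |QI 𝒰 Q (rr z (rad D z)) g| ≤ ε / 2 :=
      le_of_tendsto (H.tendsto_QI hU htest hg).abs
        (hU (h1 z hz (hzp.trans_le (min_le_left _ _))))
    have h4 := h2 z hz (hzp.trans_le (min_le_right _ _))
    show |QI 𝒰 Q (rr z (rad D z)) g - kap * DG φ (rr z (rad D z)) g| ≤ _
    refine (abs_sub _ _).trans ?_
    rw [abs_mul]
    have h5 : |kap| * |DG φ (rr z (rad D z)) g| ≤ ε / 2 := by
      calc |kap| * |DG φ (rr z (rad D z)) g| ≤ |kap| * (ε / (2 * (|kap| + 1))) :=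
            mul_le_mul_of_nonneg_left h4 (abs_nonneg _)
        _ = (|kap| / (|kap| + 1)) * (ε / 2) := by field_simp
        _ ≤ 1 * (ε / 2) := by
          refine mul_le_mul_of_nonneg_right ?_ (by linarith)
          rw [div_le_one (by positivity)]
          linarith
        _ = ε / 2 := one_mul _
    linarith

/-- **Convergence of the covariances** (bilinear form). -/
theorem end_bil (H : EndData D P kap Q) (hb : Bornology.IsBounded D) (hP : ∀ m ∈ P, m ∉ D)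
    {φ ψ : ℂ → ℂ} (B : Bih D (ball 0 1) φ ψ) {f g : ℂ → ℝ} (hf : IsTest D f)
    (hg : IsTest D g) : Tendsto (fun n => Q n f g) atTop (𝓝 (kap * DG φ f g)) := by
  rw [tendsto_iff_ultrafilter]
  intro 𝒰 hU
  have h1 : ∀ v, IsTest D v → ∀ f, IsTest D f → R 𝒰 Q kap φ f (Δ v) = 0 := fun v hv f hf =>
    H.R_zero hb hP B hU hv.lap (fun u hu => H.R_lap_lap B hU hu hv) hf
  have h2 : R 𝒰 Q kap φ f g = 0 := by
    refine H.R_zero hb hP B hU hg (fun u hu => ?_) hf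
    rw [(H.sb_R B hU).symm _ _ hu.lap hg]
    exact h1 u hu g hg
  have h3 : QI 𝒰 Q f g = kap * DG φ f g := by
    unfold R at h2; linarith
  rw [← h3]
  exact H.tendsto_QI hU hf hg

end EndData

/-- **Convergence of the variances.** -/
theorem end_var {D : Set ℂ} {P : Finset ℂ} {kap : ℝ} {Q : ℕ → (ℂ → ℝ) → (ℂ → ℝ) → ℝ}
    (H : EndData D P kap Q) (hb : Bornology.IsBounded D) (hP : ∀ m ∈ P, m ∉ D)
    {φ ψ : ℂ → ℂ} (B : Bih D (ball 0 1) φ ψ) {f : ℂ → ℝ} (hf : IsTest D f) :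
    Tendsto (fun n => Q n f f) atTop (𝓝 (kap * domainGreenForm φ f)) := by
  have := H.end_bil hb hP B hf hf
  rwa [DG_self] at this

end

end Crest.Agent.R144.End938
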