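import Crest.Agent.R144.Fa5_812
import Crest.Agent.R144.Bl4_565
import Crest.Agent.R144.LoB9_95

/-!
R144 (S0197), helper812.  FA, part 6: the block hypotheses at the instances.

* `mcF P c0 F E ξ V w` : `LoB95.mc` of the window `V` on the free heights;
* `mc_mono` : it is monotone in the window;
* `refB_win` : `RefB` for the symmetric reference fields of helper565;
* `BfI`, `DI`, `dvI'`, `CoI`, `blkh_inst` : `BlkH` for `Skel144.Inst`.
-/

set_option autoImplicit false
set_option linter.unusedSectionVars false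

open MeasureTheory Set Filter Topology
open scoped ENNReal NNReal

namespace Crest.Agent.R144.Fa812

open Crest.Agent.R144.Ham560 Crest.Agent.R144.Fib674
open Crest.Agent.R144.Flat296 (P2 Fld pt cdev)
open Crest.Agent.R144.Upp296 (Bd qf)
open Crest.Agent.R144.BQ565 (llip bT refL RefF)
open Crest.Agent.R144.Lw425 (Proper hd)
open Crest.Agent.R144.Lc279 (lat mem_lat)
open Crest.Agent.R144.MW121 (jac en)
open Crest.Agent.R144.StB348 (Rig rf gR jac_eq)
open Crest.Agent.R144.Bl565 (Par ps L2 Lf Zk refF_L2 win cor cw bk shp bbL bbO qd)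
open Crest.Agent.R144.LoB95 (mc measurable_mc row_le disp_le' l3 l3_sq_le pd_l3 diff_l3)
open Crest.Agent.R144.Skel144 (Inst)

noncomputable section

/-! ### the cheap paths -/

section Mc

variable {U : Type*} [DecidableEq U] {κ : Type*} [Fintype κ]

theorem pt_mono {S S' : Finset U} {E : Finset (U × U)} (h : S ⊆ S') (u : U) :
    Zb560.pt S E u ⊆ Zb560.pt S' E u := by
  intro l hl
  rw [Zb560.mem_pt] at hl ⊢
  rcases hl with hl | ⟨h1, h2, h3⟩
  · exact Or.inl hl
  · exact Or.inr ⟨h1, fun a ha => h (h2 a ha), h3⟩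

theorem mc_mono {S S' : Finset U} (h : S ⊆ S') (E : Finset (U × U)) (ρ ε Λ c0 : ℝ)
    (φs : κ → U → ℝ) (g : U → ℝ) (w : U) : mc S E ρ ε Λ c0 φs g w ≤ mc S' E ρ ε Λ c0 φs g w := by
  classical
  unfold LoB95.mc
  exact Finset.sup_mono (Finset.filter_subset_filter _ (pt_mono h w))

theorem mc_le (S : Finset U) (E : Finset (U × U)) (ρ ε Λ c0 : ℝ)
    (φs : κ → U → ℝ) (g : U → ℝ) (w : U) : mc S E ρ ε Λ c0 φs g w ≤ S.card + 1 := by
  classical
  unfold LoB95.mc
  refine Finset.sup_le fun l hl => ?_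
  exact Zb560.length_pt (Finset.mem_filter.1 hl).1

end Mc

/-- the length of the longest cheap path, on the free heights -/
def mcF (P : Par) (c0 : ℝ) (F : Finset P2) (E : Finset (P2 × P2)) (ξ : P2 → ℝ) (V : Finset P2)
    (w : P2) (ω : F → ℝ) : ℝ :=
  (mc V E P.rho P.eps P.Lam c0 ps (ext F ξ ω) w : ℝ)

section Win

variable {P : Par} {c0 : ℝ} {F K V V' : Finset P2} {E : Finset (P2 × P2)} {ξ : P2 → ℝ}

theorem mcF_nonneg (w : P2) (ω : F → ℝ) : 0 ≤ mcF P c0 F E ξ V w ω := Nat.cast_nonneg _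

theorem mcF_mono (h : V ⊆ V') (w : P2) (ω : F → ℝ) :
    mcF P c0 F E ξ V w ω ≤ mcF P c0 F E ξ V' w ω := by
  unfold mcF
  exact_mod_cast mc_mono h E _ _ _ _ _ _ w

theorem mcF_le (w : P2) (ω : F → ℝ) : mcF P c0 F E ξ V w ω ≤ V.card + 1 := by
  unfold mcF
  exact_mod_cast mc_le V E _ _ _ _ _ _ w

theorem measurable_mcF (w : P2) : Measurable (mcF P c0 F E ξ V w) := by
  unfold mcF
  exact (measurable_from_nat (f := fun k : ℕ => (k : ℝ))).comp
    ((measurable_mc V E w).comp (Lc279.measurable_ext F ξ))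

theorem integrable_mcF {μ : Measure (F → ℝ)} [IsFiniteMeasure μ] (w : P2) :
    Integrable (mcF P c0 F E ξ V w) μ :=
  Integrable.of_bound (measurable_mcF w).aestronglyMeasurable ((V.card : ℝ) + 1)
    (Eventually.of_forall fun ω => by
      rw [Real.norm_eq_abs, abs_of_nonneg (mcF_nonneg w ω)]; exact mcF_le w ω)

theorem crd_eq_ps (i : Fin 2) (v : P2) : crd i v = ps i.castSucc v := by
  fin_cases i <;> rfl

/-- the constant of the gradient bound -/
def cgr (P : Par) : ℝ := 6 * (2 * P.Lam / P.eps) ^ 2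

theorem cgr_nonneg (P : Par) : 0 ≤ cgr P := by unfold cgr; positivity

/-- **the reference fields of a window satisfy `RefB`** -/
theorem refB_win (P : Par) (hI : K ⊆ F) (hKV : K ⊆ V) (hE1 : ∀ p ∈ E, hd p.1 p.2 = 1)
    (hc0 : 0 < c0) [IsFiniteMeasure (hamP F E ξ)] :
    RefB hI E ξ (fun z => refL (refF_L2 P K V E) (ext (F \ K) ξ z)) crd
      (fun w ω => cgr P * mcF P c0 F E ξ V w ω) (fun w ω => 4 / 3 * mcF P c0 F E ξ V w ω) where
  rig z _ i := by
    refine ⟨P.rho, P.rho_pos, fun x _ a b hab hq => ?_⟩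
    have hne : (b : P2) ≠ a := by
      intro h
      have := hE1 _ (mem_Ein.1 hab).1
      simp only [h, Lw425.hd_self] at this
      exact absurd this (by norm_num)
    have hn : (b : P2) ∈ nbr E a := mem_nbr.2 ⟨hne, Or.inl (mem_Ein.1 hab).1⟩
    refine Bl565.L2_rigid P hn (hKV a.2) (hKV b.2) ?_
    rw [ext_mem a.2, ext_mem b.2]
    exact hq
  grad z _ := by
    have hd : ∀ᵐ x : K → ℝ, ∀ (k : Fin 3) (u : K), DifferentiableAt ℝ
        (Zb560.Zx V E P.rho P.eps P.Lam (ps k) K (ext (F \ K) ξ z) u) x := by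
      rw [ae_all_iff]; intro k
      rw [ae_all_iff]; intro u
      exact (Zb560.lip_Zx P.eps_pos P.Lam_nonneg (u : P2)).ae_differentiableAt
    filter_upwards [hd] with x hd _ w
    have hR : ∀ i, DifferentiableAt ℝ (rf (refL (refF_L2 P K V E) (ext (F \ K) ξ z)) i) x := by
      intro i
      rw [differentiableAt_pi]
      intro u
      exact diff_l3 (a := fun k => Zb560.Zx V E P.rho P.eps P.Lam (ps k) K (ext (F \ K) ξ z) u)
        (fun k => hd k u) i
    have hrow : ∀ i, ∑ v, jac (rf (refL (refF_L2 P K V E) (ext (F \ K) ξ z)) i) x w v ^ 2 ≤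
        3 * ((2 * P.Lam / P.eps) ^ 2 * mcF P c0 F E ξ V w (glue F K z x)) := by
      intro i
      have h1 : ∀ v, jac (rf (refL (refF_L2 P K V E) (ext (F \ K) ξ z)) i) x w v ^ 2 ≤
          ∑ k, pd v (Zb560.Zx V E P.rho P.eps P.Lam (ps k) K (ext (F \ K) ξ z) w) x ^ 2 := by
        intro v
        rw [jac_eq (hR i)]
        have h2 := pd_l3 (a := fun k => Zb560.Zx V E P.rho P.eps P.Lam (ps k) K
          (ext (F \ K) ξ z) w) (fun k => hd k w) i v
        have h3 : fderiv ℝ (fun y => rf (refL (refF_L2 P K V E) (ext (F \ K) ξ z)) i y w) x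
            (StB348.dir K v) = pd v (fun y => l3 (fun k => Zb560.Zx V E P.rho P.eps P.Lam (ps k) K
              (ext (F \ K) ξ z) w y) i) x := rfl
        rw [h3, h2]
        exact l3_sq_le _ _
      calc _ ≤ ∑ v, ∑ k, pd v (Zb560.Zx V E P.rho P.eps P.Lam (ps k) K
            (ext (F \ K) ξ z) w) x ^ 2 := Finset.sum_le_sum fun v _ => h1 v
        _ = ∑ k, ∑ v, pd v (Zb560.Zx V E P.rho P.eps P.Lam (ps k) K
            (ext (F \ K) ξ z) w) x ^ 2 := Finset.sum_comm
        _ ≤ ∑ _k : Fin 3, (2 * P.Lam / P.eps) ^ 2 * mcF P c0 F E ξ V w (glue F K z x) := by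
            refine Finset.sum_le_sum fun k _ => ?_
            have := row_le (φs := ps) P.eps_pos P.Lam_nonneg hc0 (hd k w)
            unfold mcF
            rw [ext_glue hI]
            exact this
        _ = _ := by rw [Finset.sum_const, Finset.card_univ, Fintype.card_fin, nsmul_eq_mul]; norm_num
    calc gR (rf (refL (refF_L2 P K V E) (ext (F \ K) ξ z))) w x
        = ∑ i, ∑ v, jac (rf (refL (refF_L2 P K V E) (ext (F \ K) ξ z)) i) x w v ^ 2 := rfl
      _ ≤ ∑ _i : Fin 2, 3 * ((2 * P.Lam / P.eps) ^ 2 * mcF P c0 F E ξ V w (glue F K z x)) :=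
          Finset.sum_le_sum fun i _ => hrow i
      _ = _ := by
          rw [Finset.sum_const, Finset.card_univ, Fintype.card_fin, nsmul_eq_mul, cgr]
          push_cast; ring
  dev z x _ i w := by
    rw [crd_eq_ps]
    have h1 : ∀ k, |Zk P V E k (ext K (ext (F \ K) ξ z) x) w - ps k w| ≤
        mcF P c0 F E ξ V w (glue F K z x) := by
      intro k
      have h2 := disp_le' (S := V) (E := E) (ρ := P.rho) (ε := P.eps) (F := K)
        (ξ := ext (F \ K) ξ z) (κ := Fin 3) (φs := ps) (i := k) (L := 1)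
        P.Lam_nonneg hc0 zero_le_one (fun a _ b _ hab => by
          refine (Bl565.abs_ps_sub_le k a b).trans (le_of_eq ?_)
          rcases (mem_nbr.1 hab).2 with h | h
          · exact_mod_cast hE1 _ h
          · rw [Lw425.hd_comm]; exact_mod_cast hE1 _ h) x w
      rw [one_mul] at h2
      unfold mcF
      rw [ext_glue hI]
      exact h2
    exact Bl565.abs_Lf_sub_le P h1
  mD w := (measurable_mcF _).const_mul _
  mdv w := (measurable_mcF _).const_mul _
  iD w := (integrable_mcF _).const_mul _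
  idv w := (integrable_mcF _).const_mul _
  D0 w ω := mul_nonneg (cgr_nonneg P) (mcF_nonneg _ _)
  dv0 w ω := mul_nonneg (by norm_num) (mcF_nonneg _ _)

end Win

/-! ### the instances -/

theorem Anch_mono {U : Type*} [DecidableEq U] {F K : Finset U} {E : Finset (U × U)}
    (h : K ⊆ F) (hA : Anch F E) : Anch K E := fun v hv => by
  obtain ⟨u, hu, h1⟩ := hA v (h hv)
  exact ⟨u, fun h2 => hu (h h2), h1⟩

section Ins

variable (P : Par) (c0 : ℝ) (I : Inst) (n : ℕ) (r : ℕ) (o : Fin 3)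

/-- the window of the block at `a` -/
def Wb (r : ℕ) (o : Fin 3) (a : P2) : Finset P2 := win (cw r) (blk (shp r o) a)

/-- the core of the block at `a` -/
def CoI (r : ℕ) (o : Fin 3) (a : P2) : Finset P2 := cor (cw r) (blk (shp r o) a)

/-- the block matrices, as fields on the free heights -/
def BfI (L : ℝ) (i j : Fin 2) : Fld (I.Fr n → ℝ) := fun a ω =>
  bbL P r o L (fun v => ext (I.Fr n) (I.xi n) ω (a + v)) i j

/-- the gradient observable -/
def DI (a w : P2) (ω : I.Fr n → ℝ) : ℝ :=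
  cgr P * mcF P c0 (I.Fr n) (I.Ed n) (I.xi n) (Wb r o a) w ω

/-- the displacement observable -/
def vI (a w : P2) (ω : I.Fr n → ℝ) : ℝ :=
  4 / 3 * mcF P c0 (I.Fr n) (I.Ed n) (I.xi n) (Wb r o a) w ω

variable {P c0 I n r o}

theorem prob_inst : IsProbabilityMeasure (I.P0 n) :=
  isProbabilityMeasure_hamP (I.anch n) (I.abs_xi_le n)

theorem blk_subset_Wb (r : ℕ) (o : Fin 3) (a : P2) : blk (shp r o) a ⊆ Wb r o a :=
  Bl565.subset_win _ _

/-- **the block hypotheses at the instances** -/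
theorem blkh_inst (hc0 : 0 < c0) (hr : 2 ≤ r) {a : P2} (hW : Wb r o a ⊆ I.Fr n) (L : ℝ) :
    BlkH (I.Fr n) (I.Ed n) (I.xi n) (shp r o) a (CoI r o a) (DI P c0 I n r o a)
      (vI P c0 I n r o a) (BfI P I n r o L) := by
  have hp : IsProbabilityMeasure (I.P0 n) := prob_inst
  have hKF : blk (shp r o) a ⊆ I.Fr n := (blk_subset_Wb r o a).trans hW
  have hloc : ∀ z x, bbO P r o (fun v => ext (I.Fr n) (I.xi n)
      (glue (I.Fr n) (blk (shp r o) a) z x) (a + v)) =
      bbO P r o (fun v => ext (I.Fr n \ blk (shp r o) a) (I.xi n) z (a + v)) := by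
    intro z x
    refine Bl565.bbO_congr (by omega) fun v _ hv => ?_
    have hv' : a + v ∉ blk (shp r o) a := by
      rw [Bl565.blk_shp, Finset.mem_image]
      rintro ⟨u, hu, h⟩
      rw [add_right_inj] at h
      exact hv (h ▸ hu)
    exact ext_glue_off hv' hKF _ z x
  refine ⟨hKF, Anch_mono hKF (I.anch n), ?_, fun z => refL (refF_L2 P (blk (shp r o) a)
    (Wb r o a) (I.Ed n)) (ext (I.Fr n \ blk (shp r o) a) (I.xi n) z), ?_, ?_, ?_, ?_⟩
  · intro p hp
    refine ⟨fun h => ?_, (mem_Ein.1 hp).2⟩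
    have := Bl565.hd_of_mem_Ed I n (mem_Ein.1 hp).1
    rw [h, Lw425.hd_self] at this
    exact absurd this (by norm_num)
  · exact refB_win P hKF (blk_subset_Wb r o a) (fun p hp => Bl565.hd_of_mem_Ed I n hp) hc0
  · intro i j z x x'
    simp only [BfI, bbL]
    rw [hloc, hloc]
  · intro ω y
    exact Bl565.qd_bbL_nonneg r o L _ y
  · intro z _ x y
    have h1 := Bl565.bT_inst I n P hr o a (K := blk (shp r o) a) (Bl565.blk_shp r o a)
      hW (Anch.ein (Anch_mono hKF (I.anch n)))
      (ext (I.Fr n \ blk (shp r o) a) (I.xi n) z) y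
    have hs : (0 : ℝ) < ((r / 2 : ℕ) : ℝ) := by
      have : 0 < r / 2 := by omega
      exact_mod_cast this
    calc qf (fun i j => BfI P I n r o L i j a (glue (I.Fr n) (blk (shp r o) a) z x)) y
        = qd (bbL P r o L (fun v => ext (I.Fr n) (I.xi n)
            (glue (I.Fr n) (blk (shp r o) a) z x) (a + v))) y := rfl
      _ ≤ qd (bbO P r o (fun v => ext (I.Fr n) (I.xi n)
            (glue (I.Fr n) (blk (shp r o) a) z x) (a + v))) y := Bl565.qd_bbL_le r o L _ y
      _ = qd (bbO P r o (fun v => ext (I.Fr n \ blk (shp r o) a) (I.xi n) z (a + v))) y := by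
          rw [hloc]
      _ = ((shp r o).card : ℝ)⁻¹ * (((r / 2 : ℕ) : ℝ) ^ 2 *
            qd (bbO P r o (fun v => ext (I.Fr n \ blk (shp r o) a) (I.xi n) z (a + v))) y) := by
          rw [Bl565.card_shp]
          push_cast
          field_simp
      _ = _ := by rw [← h1]; rfl

theorem bd_BfI {L : ℝ} (hL : 0 ≤ L) (i j : Fin 2) : Bd (BfI P I n r o L i j) where
  mb a := by
    unfold BfI
    refine (Bl565.measurable_bbL r o L i j).comp ?_
    refine measurable_pi_lambda _ fun v => ?_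
    exact (measurable_pi_apply (a + v)).comp (Lc279.measurable_ext (I.Fr n) (I.xi n))
  bd := ⟨2 * L, fun a ω => Bl565.abs_bbL_le hL _ i j⟩

end Ins

end

end Crest.Agent.R144.Fa812
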