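import Crest.Agent.R144.Fa6_812

/-!
R144 (S0197), helper812.  FA, part 7: the collar of the blocks.

* `collar_card` : the collar has at most `4 k s` sites;
* `collar_inst` : the field `collar` of `FaHyp`.
-/

set_option autoImplicit false
set_option linter.unusedSectionVars false

open MeasureTheory Set Filter Topology
open scoped ENNReal NNReal

namespace Crest.Agent.R144.Fa812

open Crest.Agent.R144.Ham560 Crest.Agent.R144.Fib674
open Crest.Agent.R144.Flat296 (P2 Fld pt)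
open Crest.Agent.R144.Lw425 (hd hd_le_iff hd_triangle hd_comm)
open Crest.Agent.R144.Bl565 (cor cw bk shp rh mem_rh card_rh sg mem_bk exists_sym sym_add mem_cor)

noncomputable section

/-- the sites of the rhombus near its boundary -/
def rim (s k : ℕ) : Finset P2 :=
  (rh s).filter fun u => u.1 < k ∨ (s : ℤ) - k ≤ u.1 ∨ u.2 < k ∨ (s : ℤ) - k ≤ u.2

theorem card_rim_le (s k : ℕ) : (rim s k).card ≤ 4 * (k * s) := by
  have h : rim s k ⊆ ((Finset.Ico (0 : ℤ) k ×ˢ Finset.Ico (0 : ℤ) s) ∪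
      (Finset.Ico ((s : ℤ) - k) s ×ˢ Finset.Ico (0 : ℤ) s)) ∪
      ((Finset.Ico (0 : ℤ) s ×ˢ Finset.Ico (0 : ℤ) k) ∪
      (Finset.Ico (0 : ℤ) s ×ˢ Finset.Ico ((s : ℤ) - k) s)) := by
    intro u hu
    obtain ⟨h1, h2⟩ := Finset.mem_filter.1 hu
    rw [mem_rh] at h1
    simp only [Finset.mem_union, Finset.mem_product, Finset.mem_Ico]
    omega
  refine (Finset.card_le_card h).trans ?_
  refine (Finset.card_union_le _ _).trans ?_
  have a1 := Finset.card_union_le (Finset.Ico (0 : ℤ) k ×ˢ Finset.Ico (0 : ℤ) s)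
      (Finset.Ico ((s : ℤ) - k) s ×ˢ Finset.Ico (0 : ℤ) s)
  have a2 := Finset.card_union_le (Finset.Ico (0 : ℤ) s ×ˢ Finset.Ico (0 : ℤ) k)
      (Finset.Ico (0 : ℤ) s ×ˢ Finset.Ico ((s : ℤ) - k) s)
  simp only [Finset.card_product, Int.card_Ico, sub_zero, sub_sub_cancel, Int.toNat_natCast]
    at a1 a2
  have e : s * k = k * s := mul_comm _ _
  omega

/-- the collar of a block -/
theorem collar_card {r : ℕ} {o : Fin 3} {a : P2} {m : ℝ} {k : ℕ}
    (hk : 8 * m + 2 * cw r ≤ k) :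
    (colA (shp r o) a (CoI r o a) m).card ≤ 4 * (k * (r / 2)) := by
  classical
  obtain ⟨c, hc⟩ := exists_sym (r / 2) o
  obtain ⟨σ, hσ, π, c', hs⟩ : ∃ σ : P2 → P2, (∀ u, σ u = a + sg (r / 2) o u) ∧
      ∃ π c', Bl565.Sym σ π c' := ⟨_, fun _ => rfl, _, _, (sym_add a).comp hc⟩
  have hmem : ∀ u, σ u ∈ blk (shp r o) a ↔ u ∈ rh (r / 2) := by
    intro u
    rw [Bl565.blk_shp, Finset.mem_image]
    constructor
    · rintro ⟨v, hv, hvu⟩
      obtain ⟨u', hu', rfl⟩ := mem_bk.1 hv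
      have := hs.inj (a₁ := u') (a₂ := u) (by rw [hσ]; exact hvu)
      rwa [← this]
    · intro hu
      exact ⟨_, mem_bk.2 ⟨u, hu, rfl⟩, (hσ u).symm⟩
  have hsub : (colA (shp r o) a (CoI r o a) m).image
      (fun w : ↥(blk (shp r o) a) => (w : P2)) ⊆
      (rim (r / 2) k).image σ := by
    intro w hw
    obtain ⟨w', hw', rfl⟩ := Finset.mem_image.1 hw
    obtain ⟨v, hv, hvw⟩ := mem_colA.1 hw'
    obtain ⟨u, hu⟩ := hs.surj (w' : P2)
    have huK : u ∈ rh (r / 2) := (hmem u).1 (by rw [hu]; exact w'.2)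
    -- a site outside of the block near `v`
    have h1 : ∃ v', v' ∉ blk (shp r o) a ∧ hd v' v ≤ 2 * cw r := by
      by_contra hcon
      push Not at hcon
      apply hv
      rw [CoI, mem_cor]
      refine ⟨?_, fun v' hv' => ?_⟩
      · by_contra h
        have := hcon v h
        rw [Lw425.hd_self] at this
        omega
      · by_contra h
        have := hcon v' h
        omega
    obtain ⟨v', hv', h2⟩ := h1
    have h3 : hd v w' ≤ ⌊8 * m⌋ := by
      have g0 := abs_lt.1 (hvw 0)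
      have g1 := abs_lt.1 (hvw 1)
      simp only [crd, Matrix.cons_val_zero, Matrix.cons_val_one] at g0 g1
      have e0 : ((v.1 - (w' : P2).1 : ℤ) : ℝ) = (v.1 : ℝ) - (w' : P2).1 := by push_cast; ring
      have e1 : ((v.2 - (w' : P2).2 : ℤ) : ℝ) = (v.2 : ℝ) - (w' : P2).2 := by push_cast; ring
      have e2 : ((v.1 - (w' : P2).1 + (v.2 - (w' : P2).2) : ℤ) : ℝ) =
        (v.1 : ℝ) - (w' : P2).1 + ((v.2 : ℝ) - (w' : P2).2) := by push_cast; ring
      have hm0 : 0 < m := by linarith [g0.1, g0.2]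
      have up : ∀ z : ℤ, (z : ℝ) ≤ 8 * m → z ≤ ⌊8 * m⌋ := fun z hz => Int.le_floor.2 hz
      have dn : ∀ z : ℤ, -(8 * m) ≤ (z : ℝ) → -⌊8 * m⌋ ≤ z := fun z hz => by
        have := Int.le_floor.2 (show ((-z : ℤ) : ℝ) ≤ 8 * m by push_cast; linarith)
        omega
      rw [hd_le_iff]
      refine ⟨⟨dn _ ?_, up _ ?_⟩, ⟨dn _ ?_, up _ ?_⟩, dn _ ?_, up _ ?_⟩
      · rw [e0]; linarith [g0.1]
      · rw [e0]; linarith [g0.2]
      · rw [e1]; linarith [g1.1]
      · rw [e1]; linarith [g1.2]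
      · rw [e2]; linarith [g0.1, g1.1]
      · rw [e2]; linarith [g0.2, g1.2]
    have h4 : hd v' w' ≤ k := by
      have t := hd_triangle v' v w'
      have f : ⌊8 * m⌋ + 2 * (cw r : ℤ) ≤ k := by
        have h5 : ((⌊8 * m⌋ + 2 * (cw r : ℤ) : ℤ) : ℝ) ≤ k := by
          push_cast
          linarith [Int.floor_le (8 * m)]
        exact_mod_cast h5
      omega
    obtain ⟨u', hu'⟩ := hs.surj v'
    have h5 : hd u' u ≤ k := by
      rw [← hs.hd_eq, hu', hu]; exact h4
    have h6 : u' ∉ rh (r / 2) := fun h => hv' (by rw [← hu']; exact (hmem u').2 h)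
    rw [Finset.mem_image]
    refine ⟨u, ?_, hu⟩
    rw [rim, Finset.mem_filter]
    refine ⟨huK, ?_⟩
    rw [mem_rh] at huK h6
    obtain ⟨⟨k1, k2⟩, ⟨k3, k4⟩, _⟩ := hd_le_iff.1 h5
    omega
  calc (colA (shp r o) a (CoI r o a) m).card
      = ((colA (shp r o) a (CoI r o a) m).image
      (fun w : ↥(blk (shp r o) a) => (w : P2))).card :=
        (Finset.card_image_of_injective _ Subtype.val_injective).symm
    _ ≤ ((rim (r / 2) k).image σ).card := Finset.card_le_card hsub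
    _ ≤ (rim (r / 2) k).card := Finset.card_image_le
    _ ≤ 4 * (k * (r / 2)) := card_rim_le _ _

/-- **the collars are small** -/
theorem collar_inst : ∀ η : ℝ, 0 < η → ∃ κ : ℝ, 0 < κ ∧ κ ≤ 1 ∧ ∃ r1 : ℕ, ∀ r, r1 ≤ r →
    ∀ (o : Fin 3) (a : P2),
    ((colA (shp r o) a (CoI r o a) (κ * r)).card : ℝ) ≤ η * (shp r o).card := by
  intro η hη
  set κ : ℝ := min 1 (η / 256) with hκ
  have hκ0 : 0 < κ := lt_min one_pos (by positivity)
  refine ⟨κ, hκ0, min_le_left _ _, max 3 ⌈(128 / η + 1) ^ 2⌉₊, fun r hr o a => ?_⟩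
  have hr3 : 3 ≤ r := (le_max_left _ _).trans hr
  have hr2 : (128 / η + 1) ^ 2 ≤ r :=
    (Nat.le_ceil _).trans (by exact_mod_cast (le_max_right _ _).trans hr)
  have hr0 : (0 : ℝ) ≤ r := Nat.cast_nonneg r
  set k : ℕ := ⌈8 * (κ * r) + 2 * (cw r : ℝ)⌉₊ with hk
  have hk1 : 8 * (κ * r) + 2 * cw r ≤ k := Nat.le_ceil _
  have hcard := collar_card (o := o) (a := a) hk1
  have hk2 : (k : ℝ) < 8 * (κ * r) + 2 * cw r + 1 := Nat.ceil_lt_add_one (by positivity)
  rw [Bl565.card_shp]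
  have hs3 : (r : ℝ) / 3 ≤ ((r / 2 : ℕ) : ℝ) := by
    have : r ≤ 3 * (r / 2) := by omega
    have h1 : (r : ℝ) ≤ 3 * ((r / 2 : ℕ) : ℝ) := by exact_mod_cast this
    linarith
  set s : ℝ := ((r / 2 : ℕ) : ℝ) with hs
  have hs0 : 0 < s := by
    have : (3 : ℝ) ≤ r := by exact_mod_cast hr3
    linarith
  -- the square root
  have hcw : (cw r : ℝ) * cw r ≤ r := by
    have := Nat.sqrt_le r
    exact_mod_cast this
  set q : ℝ := Real.sqrt r with hq
  have hqq : q * q = r := Real.mul_self_sqrt hr0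
  have hcq : (cw r : ℝ) ≤ q := by
    rw [hq]
    exact Real.le_sqrt_of_sq_le (by rw [sq]; exact hcw)
  have hqb : 128 / η + 1 ≤ q := by
    rw [hq]
    exact Real.le_sqrt_of_sq_le hr2
  have hq1 : 1 ≤ q := by
    have : 0 < 128 / η := by positivity
    linarith
  have hkey : 4 * (k : ℝ) ≤ η * s := by
    have e1 : 32 * κ ≤ η / 8 := by
      have := min_le_right 1 (η / 256)
      linarith
    have e2 : 32 * (κ * r) ≤ η / 8 * r := by
      calc 32 * (κ * r) = 32 * κ * r := by ring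
        _ ≤ _ := mul_le_mul_of_nonneg_right e1 hr0
    have e3 : 12 * q ≤ η / 8 * r := by
      have f1 : 128 / η ≤ q := by linarith
      have f2 : 128 ≤ η * q := by
        rw [div_le_iff₀ hη] at f1; linarith
      have f3 : 128 * q ≤ η * q * q := mul_le_mul_of_nonneg_right f2 (by linarith)
      have f4 : η * q * q = η * r := by rw [mul_assoc, hqq]
      have f5 : 0 ≤ q := by linarith
      linarith
    have e4 : 4 * (k : ℝ) ≤ 32 * (κ * r) + 8 * q + 4 := by linarith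
    have e5 : η / 4 * r ≤ η * s := by
      have := mul_le_mul_of_nonneg_left hs3 hη.le
      have h0 : 0 ≤ η * r := by positivity
      linarith
    linarith
  have h1 : ((colA (shp r o) a (CoI r o a) (κ * r)).card : ℝ) ≤ 4 * (k * s) := by
    rw [hs]
    exact_mod_cast hcard
  calc ((colA (shp r o) a (CoI r o a) (κ * r)).card : ℝ) ≤ 4 * (k * s) := h1
    _ = 4 * (k : ℝ) * s := by ring
    _ ≤ η * s * s := mul_le_mul_of_nonneg_right hkey hs0.le
    _ = η * (((r / 2) ^ 2 : ℕ) : ℝ) := by push_cast; rw [hs]; ring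

end

end Crest.Agent.R144.Fa812
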