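import Crest.Agent.R144.Fa7_812

/-!
R144 (S0197), helper812.  FA, part 8: the tails.

* `up c x` : `x` if `c < x`, else `0`;
* `TailH` : averaged tails of a dominating observable, with constants independent of the region;
* `TailH.t1`, `TailH.t2`, `TailH.t3` : the fields `t1`, `t2`, `t3` of `FaHyp`.
-/

set_option autoImplicit false
set_option linter.unusedSectionVars false

open MeasureTheory Set Filter Topology
open scoped ENNReal NNReal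

namespace Crest.Agent.R144.Fa812

open Crest.Agent.R144.Flat296 (P2 pt)

noncomputable section

/-- the part above the level `c` -/
def up (c x : ℝ) : ℝ := if c < x then x else 0

theorem up_nonneg {c x : ℝ} (hx : 0 ≤ x) : 0 ≤ up c x := by
  unfold up; split_ifs
  · exact hx
  · exact le_rfl

theorem up_mono {c x y : ℝ} (hx : 0 ≤ x) (h : x ≤ y) : up c x ≤ up c y := by
  unfold up
  by_cases h1 : c < x
  · rw [if_pos h1, if_pos (h1.trans_le h)]; exact h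
  · rw [if_neg h1]; exact up_nonneg (hx.trans h)

theorem up_anti {c c' x : ℝ} (hx : 0 ≤ x) (h : c ≤ c') : up c' x ≤ up c x := by
  by_cases h1 : c' < x
  · unfold up; rw [if_pos h1, if_pos (h.trans_lt h1)]
  · have : up c' x = 0 := if_neg h1
    rw [this]; exact up_nonneg hx

theorem up_le_self {c x : ℝ} (hx : 0 ≤ x) : up c x ≤ x := by
  unfold up; split_ifs
  · exact le_rfl
  · exact hx

theorem up_mul {C c x : ℝ} (hC : 0 < C) : up (C * c) (C * x) = C * up c x := by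
  unfold up
  by_cases h : c < x
  · rw [if_pos h, if_pos (mul_lt_mul_of_pos_left h hC)]
  · rw [if_neg h, if_neg (fun h' => h (lt_of_mul_lt_mul_left h' hC.le)), mul_zero]

theorem ind_le_up {c x y : ℝ} (hx : 0 ≤ x) (hy : 0 ≤ y) :
    (if c < y then x else 0) ≤ up c x + up c y := by
  by_cases h : c < y
  · rw [if_pos h]
    by_cases h1 : c < x
    · have e : up c x = x := if_pos h1
      rw [e]; linarith [up_nonneg (c := c) hy]
    · have e : up c y = y := if_pos h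
      rw [e]; linarith [up_nonneg (c := c) hx]
  · rw [if_neg h]
    exact add_nonneg (up_nonneg hx) (up_nonneg hy)

theorem measurable_up {Ω : Type*} [MeasurableSpace Ω] {c : ℝ} {f : Ω → ℝ} (hf : Measurable f) :
    Measurable fun ω => up c (f ω) :=
  Measurable.ite (measurableSet_lt measurable_const hf) hf measurable_const

theorem integrable_up {Ω : Type*} [MeasurableSpace Ω] {μ : Measure Ω} {c : ℝ} {f : Ω → ℝ}
    (hf : Measurable f) (hi : Integrable f μ) (h0 : ∀ ω, 0 ≤ f ω) :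
    Integrable (fun ω => up c (f ω)) μ :=
  hi.mono' (measurable_up hf).aestronglyMeasurable (Eventually.of_forall fun ω => by
    rw [Real.norm_eq_abs, abs_of_nonneg (up_nonneg (h0 ω))]
    exact up_le_self (h0 ω))

/-! ### one stage -/

section Stage

variable {Ω : Type*} [MeasurableSpace Ω] {μ : Measure Ω} {S : Finset (ℕ × ℕ)} {K R : Finset P2}
  {f : P2 → Ω → ℝ} {D dv : P2 → P2 → Ω → ℝ} {C C' : ℝ}

theorem stage_sum (hS : S.Nonempty) (hK : ∀ a ∈ K, blk S a ⊆ R) {g : P2 → P2 → ℝ} {h : P2 → ℝ}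
    (h0 : ∀ w ∈ R, 0 ≤ h w) (hg : ∀ a ∈ K, ∀ w ∈ blk S a, g a w ≤ h w) :
    (S.card : ℝ)⁻¹ * ∑ a ∈ K, ∑ p ∈ S, g a (a + pt p) ≤ ∑ w ∈ R, h w := by
  have hN : 0 < (S.card : ℝ) := by exact_mod_cast Finset.card_pos.2 hS
  have h1 : ∑ a ∈ K, ∑ p ∈ S, g a (a + pt p) ≤ S.card * ∑ w ∈ R, h w := by
    calc ∑ a ∈ K, ∑ p ∈ S, g a (a + pt p) ≤ ∑ a ∈ K, ∑ p ∈ S, h (a + pt p) :=
          Finset.sum_le_sum fun a ha => Finset.sum_le_sum fun p hp =>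
            hg a ha _ (mem_blk.2 ⟨p, hp, rfl⟩)
      _ = ∑ a ∈ K, ∑ v ∈ blk S a, h v := Finset.sum_congr rfl fun a _ => (sum_blk S a h).symm
      _ ≤ _ := cover hK h0
  calc (S.card : ℝ)⁻¹ * ∑ a ∈ K, ∑ p ∈ S, g a (a + pt p)
      ≤ (S.card : ℝ)⁻¹ * (S.card * ∑ w ∈ R, h w) := mul_le_mul_of_nonneg_left h1 (by positivity)
    _ = _ := by field_simp

theorem stage_t1 (hS : S.Nonempty) (hK : ∀ a ∈ K, blk S a ⊆ R) (hf : ∀ w, Measurable (f w))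
    (hi : ∀ w, Integrable (f w) μ) (h0 : ∀ w ω, 0 ≤ f w ω) (hC : 0 < C)
    (hD0 : ∀ a ∈ K, ∀ w ω, 0 ≤ D a w ω)
    (hD : ∀ a ∈ K, ∀ w ∈ blk S a, ∀ ω, D a w ω ≤ C * f w ω) (c : ℝ) :
    (S.card : ℝ)⁻¹ * ∑ a ∈ K, ∑ p ∈ S, ∫ ω, (if C * c < D a (a + pt p) ω then D a (a + pt p) ω
      else 0) ∂μ ≤ C * ∑ w ∈ R, ∫ ω, up c (f w ω) ∂μ := by
  refine (stage_sum hS hK (g := fun a w => ∫ ω, (if C * c < D a w ω then D a w ω else 0) ∂μ)
    (h := fun w => C * ∫ ω, up c (f w ω) ∂μ)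
    (fun w _ => mul_nonneg hC.le (integral_nonneg fun ω => up_nonneg (h0 w ω)))
    fun a ha w hw => ?_).trans (le_of_eq (Finset.mul_sum _ _ _).symm)
  rw [← integral_const_mul]
  refine integral_mono_of_nonneg (Eventually.of_forall fun ω => up_nonneg (hD0 a ha w ω))
    ((integrable_up (hf w) (hi w) (h0 w)).const_mul C) (Eventually.of_forall fun ω => ?_)
  change up (C * c) (D a w ω) ≤ C * up c (f w ω)
  rw [← up_mul hC]
  exact up_mono (hD0 a ha w ω) (hD a ha w hw ω)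

theorem stage_t2 (hS : S.Nonempty) (hK : ∀ a ∈ K, blk S a ⊆ R)
    (hi : ∀ w, Integrable (f w) μ) (h0 : ∀ w ω, 0 ≤ f w ω) (hC : 0 < C)
    (hd0 : ∀ a ∈ K, ∀ w ω, 0 ≤ dv a w ω)
    (hd : ∀ a ∈ K, ∀ w ∈ blk S a, ∀ ω, dv a w ω ≤ C * f w ω) :
    (S.card : ℝ)⁻¹ * ∑ a ∈ K, ∑ p ∈ S, ∫ ω, dv a (a + pt p) ω ∂μ ≤
      C * ∑ w ∈ R, ∫ ω, f w ω ∂μ := by
  refine (stage_sum hS hK (g := fun a w => ∫ ω, dv a w ω ∂μ) (h := fun w => C * ∫ ω, f w ω ∂μ)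
    (fun w _ => mul_nonneg hC.le (integral_nonneg fun ω => h0 w ω))
    fun a ha w hw => ?_).trans (le_of_eq (Finset.mul_sum _ _ _).symm)
  rw [← integral_const_mul]
  exact integral_mono_of_nonneg (Eventually.of_forall fun ω => hd0 a ha w ω)
    ((hi w).const_mul C) (Eventually.of_forall fun ω => hd a ha w hw ω)

theorem stage_t3 (hS : S.Nonempty) (hK : ∀ a ∈ K, blk S a ⊆ R) (hf : ∀ w, Measurable (f w))
    (hi : ∀ w, Integrable (f w) μ) (h0 : ∀ w ω, 0 ≤ f w ω) (hC : 0 < C) (hC' : 0 < C')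
    (hD0 : ∀ a ∈ K, ∀ w ω, 0 ≤ D a w ω)
    (hD : ∀ a ∈ K, ∀ w ∈ blk S a, ∀ ω, D a w ω ≤ C * f w ω)
    (hd : ∀ a ∈ K, ∀ w ∈ blk S a, ∀ ω, dv a w ω ≤ C' * f w ω) (c : ℝ) :
    (S.card : ℝ)⁻¹ * ∑ a ∈ K, ∑ p ∈ S, ∫ ω, (if ∃ w' : ↥(blk S a), C' * c < dv a w' ω then
      D a (a + pt p) ω else 0) ∂μ ≤ 2 * C * S.card * ∑ w ∈ R, ∫ ω, up c (f w ω) ∂μ := by
  classical
  have hN : 0 < (S.card : ℝ) := by exact_mod_cast Finset.card_pos.2 hS
  set h : P2 → ℝ := fun w => ∫ ω, up c (f w ω) ∂μ with hh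
  have hh0 : ∀ w, 0 ≤ h w := fun w => integral_nonneg fun ω => up_nonneg (h0 w ω)
  have hup : ∀ w, Integrable (fun ω => up c (f w ω)) μ := fun w =>
    integrable_up (hf w) (hi w) (h0 w)
  -- one site
  have h1 : ∀ a ∈ K, ∀ w ∈ blk S a, ∫ ω, (if ∃ w' : ↥(blk S a), C' * c < dv a w' ω then
      D a w ω else 0) ∂μ ≤ ∑ w' ∈ blk S a, C * (h w + h w') := by
    intro a ha w hw
    have hint : ∀ w' ∈ blk S a,
        Integrable (fun ω => C * (up c (f w ω) + up c (f w' ω))) μ := fun w' _ =>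
      ((hup w).add (hup w')).const_mul C
    have e : ∑ w' ∈ blk S a, C * (h w + h w') =
        ∫ ω, ∑ w' ∈ blk S a, C * (up c (f w ω) + up c (f w' ω)) ∂μ := by
      rw [integral_finsetSum _ hint]
      refine Finset.sum_congr rfl fun w' _ => ?_
      rw [integral_const_mul, integral_add (hup w) (hup w')]
    rw [e]
    refine integral_mono_of_nonneg (Eventually.of_forall fun ω => ?_)
      (integrable_finsetSum _ hint)
      (Eventually.of_forall fun ω => ?_)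
    · beta_reduce
      split_ifs
      · exact hD0 a ha w ω
      · exact le_rfl
    · beta_reduce
      have hnn : ∀ w' ∈ blk S a, 0 ≤ C * (up c (f w ω) + up c (f w' ω)) := fun w' _ =>
        mul_nonneg hC.le (add_nonneg (up_nonneg (h0 w ω)) (up_nonneg (h0 w' ω)))
      split_ifs with hex
      · obtain ⟨w', hw'⟩ := hex
        have h2 : c < f w' ω :=
          lt_of_mul_lt_mul_left (hw'.trans_le (hd a ha w' w'.2 ω)) hC'.le
        have h3 := ind_le_up (c := c) (h0 w ω) (h0 w' ω)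
        rw [if_pos h2] at h3
        calc D a w ω ≤ C * f w ω := hD a ha w hw ω
          _ ≤ C * (up c (f w ω) + up c (f w' ω)) := mul_le_mul_of_nonneg_left h3 hC.le
          _ ≤ _ := Finset.single_le_sum hnn w'.2
      · exact Finset.sum_nonneg hnn
  -- one block
  have h2 : ∀ a ∈ K, ∑ p ∈ S, ∫ ω, (if ∃ w' : ↥(blk S a), C' * c < dv a w' ω then
      D a (a + pt p) ω else 0) ∂μ ≤ 2 * C * S.card * ∑ w ∈ blk S a, h w := by
    intro a ha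
    calc _ = ∑ w ∈ blk S a, ∫ ω, (if ∃ w' : ↥(blk S a), C' * c < dv a w' ω then
          D a w ω else 0) ∂μ := (sum_blk S a _).symm
      _ ≤ ∑ w ∈ blk S a, ∑ w' ∈ blk S a, C * (h w + h w') :=
          Finset.sum_le_sum fun w hw => h1 a ha w hw
      _ = _ := by
          simp only [mul_add, Finset.sum_add_distrib, Finset.sum_const, nsmul_eq_mul, card_blk,
            ← Finset.mul_sum]
          ring
  have h3 : ∑ a ∈ K, ∑ p ∈ S, ∫ ω, (if ∃ w' : ↥(blk S a), C' * c < dv a w' ω then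
      D a (a + pt p) ω else 0) ∂μ ≤ 2 * C * S.card * (S.card * ∑ w ∈ R, h w) := by
    refine (Finset.sum_le_sum h2).trans ?_
    rw [← Finset.mul_sum]
    exact mul_le_mul_of_nonneg_left (cover hK fun w _ => hh0 w) (by positivity)
  calc _ ≤ (S.card : ℝ)⁻¹ * (2 * C * S.card * (S.card * ∑ w ∈ R, h w)) :=
        mul_le_mul_of_nonneg_left h3 (by positivity)
    _ = _ := by field_simp

end Stage

/-! ### sequences -/

/-- averaged tails of a dominating observable; the constants do not depend on the region -/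
structure TailH {Ω : ℕ → Type*} [∀ n, MeasurableSpace (Ω n)] (μ : ∀ n, Measure (Ω n))
    (δ : ℕ → ℝ) (R : ℕ → ℕ → Finset P2) (f : ℕ → ∀ n, P2 → Ω n → ℝ) : Prop where
  m : ∀ k n w, Measurable (f k n w)
  i : ∀ k n w, Integrable (f k n w) (μ n)
  nn : ∀ k n w ω, 0 ≤ f k n w ω
  u1 : ∃ C : ℝ, ∀ k, ∀ᶠ n in atTop, δ n ^ 2 * ∑ w ∈ R k n, ∫ ω, f k n w ω ∂(μ n) ≤ C
  u2 : ∃ t : ℕ → ℝ, (∀ a : ℕ, Tendsto (fun j : ℕ => (j : ℝ) ^ a * t j) atTop (𝓝 0)) ∧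
    ∀ j k : ℕ, ∀ᶠ n in atTop, δ n ^ 2 * ∑ w ∈ R k n,
      ∫ ω, (if (j : ℝ) < f k n w ω then f k n w ω else 0) ∂(μ n) ≤ t j

section Seqs

variable {Ω : ℕ → Type*} [∀ n, MeasurableSpace (Ω n)] {μ : ∀ n, Measure (Ω n)}
  {δ : ℕ → ℝ} {R Kc : ℕ → ℕ → Finset P2} {f : ℕ → ∀ n, P2 → Ω n → ℝ} {O : Type}
  {S : ℕ → O → Finset (ℕ × ℕ)} {D dv : ℕ → O → ∀ n, P2 → P2 → Ω n → ℝ} {r0 : ℕ} {C C' : ℝ}

theorem TailH.t1 (H : TailH μ δ R f) (hC : 0 < C) (hS : ∀ r, r0 ≤ r → ∀ o, (S r o).Nonempty)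
    (hK : ∀ r o k, ∀ᶠ n in atTop, ∀ a ∈ Kc k n, blk (S r o) a ⊆ R k n)
    (hD0 : ∀ r o n a w ω, 0 ≤ D r o n a w ω)
    (hD : ∀ r, r0 ≤ r → ∀ o k, ∀ᶠ n in atTop, ∀ a ∈ Kc k n, ∀ w ∈ blk (S r o) a, ∀ ω,
      D r o n a w ω ≤ C * f k n w ω) :
    ∀ η : ℝ, 0 < η → ∃ M : ℝ, 0 ≤ M ∧ ∃ r1 : ℕ, ∀ r, r1 ≤ r → r0 ≤ r → ∀ o k,
    ∀ᶠ n in atTop, δ n ^ 2 * (((S r o).card : ℝ)⁻¹ * ∑ a ∈ Kc k n, ∑ p ∈ S r o,
      ∫ ω, (if M < D r o n a (a + pt p) ω then D r o n a (a + pt p) ω else 0) ∂(μ n)) ≤ η := by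
  intro η hη
  obtain ⟨t, ht, h2⟩ := H.u2
  have ht0 : Tendsto t atTop (𝓝 0) := by simpa using ht 0
  obtain ⟨j, hj⟩ := (ht0.eventually (ge_mem_nhds (show (0 : ℝ) < η / C by positivity))).exists
  refine ⟨C * j, by positivity, 0, fun r _ hr o k => ?_⟩
  filter_upwards [hK r o k, hD r hr o k, h2 j k] with n hn1 hn2 hn3
  have h3 := stage_t1 (μ := μ n) (D := D r o n) (hS r hr o) hn1 (H.m k n) (H.i k n) (H.nn k n) hC
    (fun a _ => hD0 r o n a) hn2 j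
  calc _ ≤ δ n ^ 2 * (C * ∑ w ∈ R k n, ∫ ω, up j (f k n w ω) ∂(μ n)) :=
        mul_le_mul_of_nonneg_left h3 (sq_nonneg _)
    _ = C * (δ n ^ 2 * ∑ w ∈ R k n, ∫ ω, up j (f k n w ω) ∂(μ n)) := by ring
    _ ≤ C * t j := mul_le_mul_of_nonneg_left hn3 hC.le
    _ ≤ η := by rw [le_div_iff₀ hC] at hj; linarith

theorem TailH.t2 (H : TailH μ δ R f) (hC : 0 < C) (hS : ∀ r, r0 ≤ r → ∀ o, (S r o).Nonempty)
    (hK : ∀ r o k, ∀ᶠ n in atTop, ∀ a ∈ Kc k n, blk (S r o) a ⊆ R k n)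
    (hd0 : ∀ r o n a w ω, 0 ≤ dv r o n a w ω)
    (hd : ∀ r, r0 ≤ r → ∀ o k, ∀ᶠ n in atTop, ∀ a ∈ Kc k n, ∀ w ∈ blk (S r o) a, ∀ ω,
      dv r o n a w ω ≤ C * f k n w ω) :
    ∃ C2 : ℝ, 0 ≤ C2 ∧ ∃ r1 : ℕ, ∀ r, r1 ≤ r → r0 ≤ r → ∀ o k,
    ∀ᶠ n in atTop, δ n ^ 2 * (((S r o).card : ℝ)⁻¹ * ∑ a ∈ Kc k n, ∑ p ∈ S r o,
      ∫ ω, dv r o n a (a + pt p) ω ∂(μ n)) ≤ C2 := by
  obtain ⟨C1, h1⟩ := H.u1
  refine ⟨max 0 (C * C1), le_max_left _ _, 0, fun r _ hr o k => ?_⟩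
  filter_upwards [hK r o k, hd r hr o k, h1 k] with n hn1 hn2 hn3
  have h3 := stage_t2 (μ := μ n) (dv := dv r o n) (hS r hr o) hn1 (H.i k n) (H.nn k n) hC
    (fun a _ => hd0 r o n a) hn2
  calc _ ≤ δ n ^ 2 * (C * ∑ w ∈ R k n, ∫ ω, f k n w ω ∂(μ n)) :=
        mul_le_mul_of_nonneg_left h3 (sq_nonneg _)
    _ = C * (δ n ^ 2 * ∑ w ∈ R k n, ∫ ω, f k n w ω ∂(μ n)) := by ring
    _ ≤ C * C1 := mul_le_mul_of_nonneg_left hn3 hC.le
    _ ≤ _ := le_max_right _ _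

theorem TailH.t3 (H : TailH μ δ R f) (hC : 0 < C) (hC' : 0 < C')
    (hS : ∀ r, r0 ≤ r → ∀ o, (S r o).Nonempty) (hSr : ∀ r o, S r o ⊆ Flat296.sq r)
    (hK : ∀ r o k, ∀ᶠ n in atTop, ∀ a ∈ Kc k n, blk (S r o) a ⊆ R k n)
    (hD0 : ∀ r o n a w ω, 0 ≤ D r o n a w ω)
    (hD : ∀ r, r0 ≤ r → ∀ o k, ∀ᶠ n in atTop, ∀ a ∈ Kc k n, ∀ w ∈ blk (S r o) a, ∀ ω,
      D r o n a w ω ≤ C * f k n w ω)
    (hd : ∀ r, r0 ≤ r → ∀ o k, ∀ᶠ n in atTop, ∀ a ∈ Kc k n, ∀ w ∈ blk (S r o) a, ∀ ω,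
      dv r o n a w ω ≤ C' * f k n w ω) :
    ∀ κ : ℝ, 0 < κ → ∀ η : ℝ, 0 < η → ∃ r1 : ℕ, ∀ r, r1 ≤ r → r0 ≤ r → ∀ o k,
    ∀ᶠ n in atTop, (r : ℝ) ^ 2 * (δ n ^ 2 * (((S r o).card : ℝ)⁻¹ * ∑ a ∈ Kc k n, ∑ p ∈ S r o,
      ∫ ω, (if ∃ w' : ↥(blk (S r o) a), κ * r < dv r o n a w' ω then D r o n a (a + pt p) ω
        else 0) ∂(μ n))) ≤ η := by
  intro κ hκ η hη
  obtain ⟨t, ht, h2⟩ := H.u2
  set A : ℝ := 2 * C * (2 * C' / κ) ^ 4 with hA
  have hA0 : 0 < A := by positivity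
  obtain ⟨J, hJ⟩ := eventually_atTop.1
    ((ht 4).eventually (ge_mem_nhds (show (0 : ℝ) < η / A by positivity)))
  refine ⟨⌈C' * (J + 1) / κ⌉₊, fun r hr1 hr o k => ?_⟩
  have hr2 : C' * (J + 1) / κ ≤ r := (Nat.le_ceil _).trans (by exact_mod_cast hr1)
  have hr3 : (J : ℝ) + 1 ≤ κ * r / C' := by
    rw [le_div_iff₀ hC']
    rw [div_le_iff₀ hκ] at hr2
    linarith
  set c : ℝ := κ * r / C' with hc
  set j : ℕ := ⌊c⌋₊ with hj
  have hc0 : 0 ≤ c := by positivity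
  have hjc : (j : ℝ) ≤ c := Nat.floor_le hc0
  have hcj : c < j + 1 := Nat.lt_floor_add_one c
  have hJj : J + 1 ≤ j := Nat.le_floor (by push_cast; exact hr3)
  have hj1 : (1 : ℝ) ≤ j := by
    have : 1 ≤ j := by omega
    exact_mod_cast this
  have hrj : (r : ℝ) ≤ 2 * C' / κ * j := by
    have h1 : κ * r ≤ C' * (2 * j) := by
      have : c ≤ 2 * j := by linarith
      rw [hc, div_le_iff₀ hC'] at this
      linarith
    calc (r : ℝ) = κ * r / κ := by field_simp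
      _ ≤ C' * (2 * j) / κ := by gcongr
      _ = _ := by ring
  have hcc : C' * c = κ * r := by rw [hc]; field_simp
  filter_upwards [hK r o k, hD r hr o k, hd r hr o k, h2 j k] with n hn1 hn2 hn3 hn4
  have h3 := stage_t3 (μ := μ n) (D := D r o n) (dv := dv r o n) (hS r hr o) hn1 (H.m k n)
    (H.i k n) (H.nn k n) hC hC' (fun a _ => hD0 r o n a) hn2 hn3 c
  rw [hcc] at h3
  have hcard : ((S r o).card : ℝ) ≤ (r : ℝ) ^ 2 := by
    have h4 := Finset.card_le_card (hSr r o)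
    have h5 : (Flat296.sq r).card = r ^ 2 := by
      rw [Flat296.sq, Finset.card_product, Finset.card_range, sq]
    rw [h5] at h4
    exact_mod_cast h4
  have hs0 : 0 ≤ ∑ w ∈ R k n, ∫ ω, up j (f k n w ω) ∂(μ n) :=
    Finset.sum_nonneg fun w _ => integral_nonneg fun ω => up_nonneg (H.nn k n w ω)
  have h6 : ∑ w ∈ R k n, ∫ ω, up c (f k n w ω) ∂(μ n) ≤
      ∑ w ∈ R k n, ∫ ω, up j (f k n w ω) ∂(μ n) :=
    Finset.sum_le_sum fun w _ => integral_mono (integrable_up (H.m k n w) (H.i k n w) (H.nn k n w))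
      (integrable_up (H.m k n w) (H.i k n w) (H.nn k n w)) fun ω => up_anti (H.nn k n w ω) hjc
  have hs1 : 0 ≤ ∑ w ∈ R k n, ∫ ω, up c (f k n w ω) ∂(μ n) :=
    Finset.sum_nonneg fun w _ => integral_nonneg fun ω => up_nonneg (H.nn k n w ω)
  have ht0 : 0 ≤ t j := (mul_nonneg (sq_nonneg _) hs0).trans hn4
  calc _ ≤ (r : ℝ) ^ 2 * (δ n ^ 2 * (2 * C * (S r o).card *
          ∑ w ∈ R k n, ∫ ω, up c (f k n w ω) ∂(μ n))) := by gcongr
    _ ≤ (r : ℝ) ^ 2 * (δ n ^ 2 * (2 * C * (r : ℝ) ^ 2 *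
          ∑ w ∈ R k n, ∫ ω, up j (f k n w ω) ∂(μ n))) := by gcongr
    _ = 2 * C * (r : ℝ) ^ 4 * (δ n ^ 2 * ∑ w ∈ R k n, ∫ ω, up j (f k n w ω) ∂(μ n)) := by ring
    _ ≤ 2 * C * (r : ℝ) ^ 4 * t j := mul_le_mul_of_nonneg_left hn4 (by positivity)
    _ ≤ 2 * C * (2 * C' / κ * j) ^ 4 * t j := by gcongr
    _ = A * ((j : ℝ) ^ 4 * t j) := by rw [hA]; ring
    _ ≤ A * (η / A) := mul_le_mul_of_nonneg_left (hJ j (by omega)) hA0.le
    _ = η := by field_simp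

end Seqs

end

end Crest.Agent.R144.Fa812
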