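import Crest.Agent.R144.Uid2_674

/-!
# R144 (S0197), block UID (helper674), part 3: moments of the lengths of the cheap paths

* `uid_far` : `P0 {∃ w, c / δ < MC w} ≤ δ ^ a`;
* `uid_moment` : `δ² ∑_{w ∈ S} ∫ MC w ^ p 1(j < MC w) ≤ C / 2 ^ j`;
* `uid` : (U1), (U2), (U3) of the lower bound.
-/

set_option autoImplicit false

open MeasureTheory Set Filter Topology
open scoped ENNReal NNReal

noncomputable section

namespace Crest.Agent.R144.Uid674

open Crest.Agent.R144.Skel144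
open Crest.Agent.R144.Ham560 (ext ham nbr mem_nbr Fresh tight hamP measurableSet_ham ext_mem
  ext_notMem FreshR tightR wgt wgt_const)
open Crest.Agent.R144.Tri560
open Crest.Agent.R144.Zb560
open Crest.Agent.R144.LoB95 (mc exists_mc length_le_mc measurable_mc)
open Crest.Agent.R144.Kor620 (P2 nrm FullE)
open Crest.Agent.R144.KorE761 (LatE)
open Crest.Agent.R144.Uig714 (CovAt TBQ nrm_tri Off xe rh k2 single_le joint_le uib_sets pos_bound
  delta_small tendsto_delta_rh tendsto_rh pow_k2_le lt_pow_k2 rh_pos one_div_delta_le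
  real_le_sqrt latE_inst ham_xe)
open Crest.ProbabilityR.TriHeights Crest.ProbabilityR.HexHeights

variable (I : Inst)
variable {κ : Type*} [Fintype κ] {ρ ε Λ c0 L : ℝ} {φs : κ → P2 → ℝ}

/-- number of sites -/
theorem card_bound : ∃ K : ℝ, 1 ≤ K ∧ ∀ᶠ n in atTop, ∀ S : Finset P2, S ⊆ I.Fr n →
    I.δ n ^ 2 * (S.card : ℝ) ≤ K := by
  obtain ⟨R, hR, hpos⟩ := pos_bound I
  refine ⟨(2 * R + 3) ^ 2, one_le_pow₀ (by linarith), ?_⟩
  filter_upwards [hpos, delta_small I one_pos] with n hpn hδ1 S hS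
  have hδ := I.hM.1 n
  set W : ℕ := ⌊R / I.δ n⌋₊ with hW
  have hWR : (W : ℝ) ≤ R / I.δ n := Nat.floor_le (by positivity)
  have h1 : S.card ≤ (2 * W + 1) ^ 2 := by
    rw [← Uig714.card_grid]
    refine Finset.card_le_card fun u hu => ?_
    have h2 := hpn u (hS hu)
    have h3 := Nat.le_floor h2.1
    have h4 := Nat.le_floor h2.2
    rw [Finset.mem_product, Finset.mem_Icc, Finset.mem_Icc]
    omega
  have h2 : (S.card : ℝ) ≤ (2 * W + 1) ^ 2 := by exact_mod_cast h1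
  have h3 : I.δ n * (2 * W + 1) ≤ 2 * R + 3 := by
    rw [le_div_iff₀ hδ] at hWR
    nlinarith
  calc I.δ n ^ 2 * (S.card : ℝ) ≤ I.δ n ^ 2 * (2 * W + 1) ^ 2 := by gcongr
    _ = (I.δ n * (2 * W + 1)) ^ 2 := by ring
    _ ≤ _ := by gcongr

/-- the number of vertices of a path -/
theorem MC_le (n : ℕ) (S : Finset P2) (w : P2) (x : I.Fr n → ℝ) :
    MC I n S ρ ε Λ c0 φs w x ≤ S.card + 1 := by
  refine Finset.sup_le fun l hl => ?_
  exact length_pt (Finset.mem_filter.mp hl).1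

theorem rt_le_half : rt ≤ 1 / 2 := by
  refine rt_le.trans ?_
  rw [div_le_div_iff₀ (by positivity) (by norm_num)]
  have : (1 : ℝ) ≤ (24 ^ 4) ^ 39 := one_le_pow₀ (by norm_num)
  calc (1 : ℝ) * 2 ≤ (24 ^ 4) ^ 39 * 24 ^ 4 := by nlinarith
    _ = 1 * (24 ^ 4) ^ 40 := by rw [one_mul, ← pow_succ]

/-- **(U3)** no macroscopic cheap path -/
theorem uid_far (H : Prm ρ ε Λ c0 L φs) {ε₁ : ℝ} (hε₁ : 0 < ε₁) {c : ℝ} (hc : 0 < c) (a : ℕ) :
    ∀ᶠ n in atTop, ∀ S : Finset P2, S ⊆ I.Fr n → (∀ v ∈ S, Off I ε₁ n v) →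
      (I.P0 n).real {x | ∃ w, c / I.δ n ≤ MC I n S ρ ε Λ c0 φs w x} ≤ I.δ n ^ a := by
  obtain ⟨ρ₁, hρ₁, C, hC, h⟩ := long_le I H hε₁
  obtain ⟨K, hK, hcard⟩ := card_bound I
  set c' : ℝ := min c ρ₁ with hc'
  have hc'0 : 0 < c' := lt_min hc hρ₁
  have hc'c : c' ≤ c := min_le_left _ _
  have hc'ρ : c' ≤ ρ₁ := min_le_right _ _
  -- decay
  have hdec : Tendsto (fun r : ℕ => (r : ℝ) ^ (a + 3) * (1 / 2) ^ r) atTop (𝓝 0) :=
    tendsto_pow_const_mul_const_pow_of_abs_lt_one (a + 3) (by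
      rw [abs_of_pos (by norm_num)]; norm_num)
  have hcst : 0 < (c' / 16) ^ (a + 3) / (K * C) := by positivity
  obtain ⟨r₀, hr₀⟩ := eventually_atTop.mp ((tendsto_order.1 hdec).2 _ hcst)
  have hΛ := H.hΛ
  obtain ⟨r₁, hr₁⟩ := exists_nat_ge (c0 / Λ)
  set m : ℝ := c' / (16 * ((r₀ : ℝ) + r₁ + 1)) with hm
  have hm0 : 0 < m := by positivity
  filter_upwards [h, hcard, delta_small I hm0] with n hn hcn hδs S hS hoff
  have hδ := I.hM.1 n
  set r : ℕ := ⌊c' / (8 * I.δ n)⌋₊ with hr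
  have hbig : (r₀ : ℝ) + r₁ + 1 ≤ c' / (16 * I.δ n) := by
    rw [le_div_iff₀ (by positivity)]
    rw [hm, lt_div_iff₀ (by positivity)] at hδs
    nlinarith
  have hr1 : (r : ℝ) ≤ c' / (8 * I.δ n) := Nat.floor_le (by positivity)
  have hr2 : c' / (8 * I.δ n) - 1 ≤ r := by
    have := Nat.lt_floor_add_one (c' / (8 * I.δ n))
    linarith
  have e8 : c' / (8 * I.δ n) = 2 * (c' / (16 * I.δ n)) := by
    field_simp; norm_num
  have hr3 : c' / (16 * I.δ n) ≤ r := by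
    have h0 : (0 : ℝ) ≤ r₀ := Nat.cast_nonneg _
    have h1 : (0 : ℝ) ≤ r₁ := Nat.cast_nonneg _
    linarith
  have hrr0 : r₀ ≤ r := by
    have h1 : (0 : ℝ) ≤ r₁ := Nat.cast_nonneg _
    have : (r₀ : ℝ) ≤ r := by linarith
    exact_mod_cast this
  have hrr1 : (r₁ : ℝ) ≤ r := by
    have h0 : (0 : ℝ) ≤ r₀ := Nat.cast_nonneg _
    linarith
  have hrpos' : (1 : ℝ) ≤ r := by
    have h0 : (0 : ℝ) ≤ r₀ := Nat.cast_nonneg _
    have h1 : (0 : ℝ) ≤ r₁ := Nat.cast_nonneg _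
    linarith
  have hrpos : 0 < r := by exact_mod_cast (by linarith : (0 : ℝ) < r)
  have hc0r : c0 ≤ Λ * r := by
    rw [div_le_iff₀ hΛ] at hr₁
    nlinarith
  have hδr : I.δ n * r ≤ ρ₁ := by
    calc I.δ n * r ≤ I.δ n * (c' / (8 * I.δ n)) := by gcongr
      _ = c' / 8 := by field_simp
      _ ≤ ρ₁ := by linarith
  have h4r : (4 * (r : ℝ) + 1) ≤ c / I.δ n := by
    have h1 : (8 : ℝ) * (c' / (8 * I.δ n)) = c' / I.δ n := by field_simp
    have h2 : c' / I.δ n ≤ c / I.δ n := by gcongr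
    linarith
  have hmain := hn S hS hoff r hrpos hc0r hδr
  have hsub : {x : I.Fr n → ℝ | ∃ w, c / I.δ n ≤ MC I n S ρ ε Λ c0 φs w x} ⊆
      {x | ∃ w, 4 * r + 1 ≤ MC I n S ρ ε Λ c0 φs w x} := by
    rintro x ⟨w, hw⟩
    refine ⟨w, ?_⟩
    have := h4r.trans hw
    exact_mod_cast this
  refine (measureReal_mono hsub (measure_ne_top _ _)).trans (hmain.trans ?_)
  have hrt : rt ^ r ≤ (1 / 2) ^ r := pow_le_pow_left₀ rt_nonneg rt_le_half r
  have hS2 : (S.card : ℝ) ≤ K / I.δ n ^ 2 := by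
    rw [le_div_iff₀ (by positivity)]
    have := hcn S hS
    linarith
  have hinv : 1 / I.δ n ≤ 16 / c' * r := by
    have : c' / (16 * I.δ n) * (16 / c') ≤ r * (16 / c') := by gcongr
    calc 1 / I.δ n = c' / (16 * I.δ n) * (16 / c') := by field_simp
      _ ≤ r * (16 / c') := this
      _ = _ := by ring
  have hdr := hr₀ r hrr0
  -- assembly
  have hrt0 := rt_nonneg
  have hKC : 0 < K * C := by positivity
  rw [lt_div_iff₀ hKC] at hdr
  have h5 : (S.card : ℝ) * (C / I.δ n * rt ^ r) ≤ K * C * (1 / I.δ n) ^ 3 * (1 / 2) ^ r := by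
    calc (S.card : ℝ) * (C / I.δ n * rt ^ r)
        ≤ K / I.δ n ^ 2 * (C / I.δ n * (1 / 2) ^ r) := by gcongr
      _ = _ := by field_simp
  refine h5.trans ?_
  have h6 : K * C * (1 / I.δ n) ^ 3 * (1 / 2) ^ r * (1 / I.δ n) ^ a ≤ 1 := by
    calc K * C * (1 / I.δ n) ^ 3 * (1 / 2) ^ r * (1 / I.δ n) ^ a
        = K * C * (1 / 2) ^ r * (1 / I.δ n) ^ (a + 3) := by rw [pow_add]; ring
      _ ≤ K * C * (1 / 2) ^ r * (16 / c' * r) ^ (a + 3) := by gcongr
      _ = (r : ℝ) ^ (a + 3) * (1 / 2) ^ r * (K * C) * (16 / c') ^ (a + 3) := by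
          rw [mul_pow]; ring
      _ ≤ (c' / 16) ^ (a + 3) * (16 / c') ^ (a + 3) := by gcongr
      _ = 1 := by
          rw [← mul_pow]
          rw [show c' / 16 * (16 / c') = 1 by field_simp, one_pow]
  rw [one_div_pow (I.δ n) a, mul_one_div, div_le_one (by positivity)] at h6
  exact h6

/-- pointwise bound of the moments -/
theorem moment_pt {N M j p : ℕ} (hN : N ≤ M) (G : Finset ℕ) (B : Prop) [Decidable B]
    (hG : ¬ B → j < N → N ∈ G) :
    (if j < N then (N : ℝ) ^ p else 0) ≤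
      ∑ k ∈ G, (if N = k then (k : ℝ) ^ p else 0) + (if B then (M : ℝ) ^ p else 0) := by
  have h1 : 0 ≤ ∑ k ∈ G, (if N = k then (k : ℝ) ^ p else 0) :=
    Finset.sum_nonneg fun _ _ => by split_ifs <;> positivity
  have h2 : 0 ≤ (if B then (M : ℝ) ^ p else 0) := by split_ifs <;> positivity
  by_cases hj : j < N
  · rw [if_pos hj]
    by_cases hB : B
    · rw [if_pos hB]
      have : (N : ℝ) ^ p ≤ (M : ℝ) ^ p := by gcongr
      linarith
    · have h3 := Finset.single_le_sum (f := fun k => if N = k then (k : ℝ) ^ p else 0)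
        (fun k _ => by split_ifs <;> positivity) (hG hB hj)
      simp only [if_true] at h3
      linarith
  · rw [if_neg hj]
    linarith

/-- polynomials are at most exponential -/
theorem pow_le_exp (p : ℕ) : ∃ Cp : ℝ, 1 ≤ Cp ∧ ∀ k : ℕ, (k : ℝ) ^ p ≤ Cp * 2 ^ k := by
  have h := tendsto_pow_const_div_const_pow_of_one_lt p (by norm_num : (1 : ℝ) < 2)
  obtain ⟨B, hB⟩ := h.bddAbove_range
  refine ⟨max B 1, le_max_right _ _, fun k => ?_⟩
  have h1 := hB ⟨k, rfl⟩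
  simp only at h1
  rw [div_le_iff₀ (by positivity)] at h1
  exact h1.trans (by gcongr; exact le_max_left _ _)

/-- geometric sums -/
theorem geom_le {q : ℝ} (h0 : 0 ≤ q) (h1 : q ≤ 1 / 2) (G : Finset ℕ) {j : ℕ}
    (hG : ∀ k ∈ G, j < k) : ∑ k ∈ G, q ^ k ≤ q ^ j := by
  have hq : q < 1 := by linarith
  have hs : Summable fun k : ℕ => q ^ (k + (j + 1)) := by
    have := (summable_geometric_of_lt_one h0 hq).mul_right (q ^ (j + 1))
    exact this.congr fun k => (pow_add q k (j + 1)).symm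
  have h2 : ∑ k ∈ G, q ^ k ≤ ∑' k : ℕ, q ^ (k + (j + 1)) := by
    have h3 : ∑ k ∈ G, q ^ k = ∑ k ∈ G.image (fun k => k - (j + 1)), q ^ (k + (j + 1)) := by
      rw [Finset.sum_image]
      · refine Finset.sum_congr rfl fun k hk => ?_
        have := hG k hk
        rw [Nat.sub_add_cancel (by omega)]
      · intro a ha b hb hab
        have h4 := hG a ha
        have h5 := hG b hb
        simp only at hab
        omega
    rw [h3]
    exact hs.sum_le_tsum _ fun _ _ => by positivity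
  refine h2.trans ?_
  have h3 : ∑' k : ℕ, q ^ (k + (j + 1)) = (1 - q)⁻¹ * q ^ (j + 1) := by
    simp_rw [pow_add q _ (j + 1)]
    rw [tsum_mul_right, tsum_geometric_of_lt_one h0 hq]
  rw [h3, pow_succ, ← mul_assoc, mul_comm ((1 - q)⁻¹), mul_assoc]
  refine mul_le_of_le_one_right (by positivity) ?_
  rw [inv_mul_le_iff₀ (by linarith)]
  linarith

/-- **moments of the lengths of the cheap paths** -/
theorem uid_moment (H : Prm ρ ε Λ c0 L φs) {ε₁ : ℝ} (hε₁ : 0 < ε₁) (p : ℕ) :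
    ∃ C : ℝ, 0 < C ∧ ∀ j : ℕ, ∀ᶠ n in atTop, ∀ S : Finset P2, S ⊆ I.Fr n →
      (∀ v ∈ S, Off I ε₁ n v) →
      I.δ n ^ 2 * ∑ w ∈ S, ∫ x, (if j < MC I n S ρ ε Λ c0 φs w x then
        (MC I n S ρ ε Λ c0 φs w x : ℝ) ^ p else 0) ∂(I.P0 n) ≤ C * (1 / 2) ^ j := by
  classical
  obtain ⟨C1, hC1, hw⟩ := window_le I H hε₁
  obtain ⟨ρ₁, hρ₁, C2, hC2, hm⟩ := mid_le I H hε₁
  obtain ⟨K, hK, hcard⟩ := card_bound I
  obtain ⟨Cp, hCp, hpe⟩ := pow_le_exp p
  refine ⟨C1 * Cp + 1, by positivity, fun j => ?_⟩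
  set B1 : ℝ := K * C2 * Cp with hB1
  set B2 : ℝ := K * (K + 1) ^ p with hB2
  have hm0 : 0 < (1 / 2) ^ j / (B1 + B2) := by positivity
  filter_upwards [hw, hm, hcard, uid_far I H hε₁ (show 0 < ρ₁ by exact hρ₁) (2 * p + 1),
    delta_small I one_pos, delta_small I hm0] with n hwn hmn hcn hfar hδ1 hδs S hS hoff
  have hδ := I.hM.1 n
  -- abbreviations
  set N : P2 → (I.Fr n → ℝ) → ℕ := fun w x => MC I n S ρ ε Λ c0 φs w x with hN
  set M : ℕ := S.card + 1 with hM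
  have hNM : ∀ w x, N w x ≤ M := fun w x => MC_le I n S w x
  have hNm : ∀ w, Measurable (N w) := fun w => measurable_MC I n S w
  set G : Finset ℕ := (Finset.Ico (j + 1) (M + 1)).filter fun k => I.δ n * k ≤ ρ₁ with hG
  set T : ℕ → ℝ := fun k => ∑ w ∈ S, (I.P0 n).real {x | N w x = k} with hT
  set Q : ℝ := (I.P0 n).real {x | ∃ w, ρ₁ / I.δ n ≤ N w x} with hQ
  have hQ0 : 0 ≤ Q := measureReal_nonneg
  have hT0 : ∀ k, 0 ≤ T k := fun k => Finset.sum_nonneg fun _ _ => measureReal_nonneg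
  -- one site
  have hsite : ∀ w, ∫ x, (if j < N w x then (N w x : ℝ) ^ p else 0) ∂(I.P0 n) ≤
      ∑ k ∈ G, (k : ℝ) ^ p * (I.P0 n).real {x | N w x = k} + (M : ℝ) ^ p * Q := by
    intro w
    have hmB : MeasurableSet {x : I.Fr n → ℝ | ρ₁ / I.δ n ≤ N w x} :=
      measurableSet_le measurable_const (measurable_from_top.comp (hNm w))
    have hpt : ∀ x, (if j < N w x then (N w x : ℝ) ^ p else 0) ≤
        ∑ k ∈ G, ({x | N w x = k}.indicator (fun _ => (k : ℝ) ^ p) x) +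
          {x : I.Fr n → ℝ | ρ₁ / I.δ n ≤ N w x}.indicator (fun _ => (M : ℝ) ^ p) x := by
      intro x
      refine (moment_pt (p := p) (hNM w x) G (ρ₁ / I.δ n ≤ N w x) fun hB hj => ?_).trans
        (le_of_eq ?_)
      · rw [hG, Finset.mem_filter, Finset.mem_Ico]
        refine ⟨⟨by omega, by have := hNM w x; omega⟩, ?_⟩
        push Not at hB
        rw [lt_div_iff₀ hδ] at hB
        linarith
      · simp only [Set.indicator, Set.mem_ofPred_eq]
    have hi1 : ∀ k : ℕ, Integrable (fun x => {x | N w x = k}.indicator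
        (fun _ => (k : ℝ) ^ p) x) (I.P0 n) := fun k =>
      (integrable_const _).indicator ((hNm w) (measurableSet_singleton k))
    have hi2 : Integrable (fun x => {x : I.Fr n → ℝ | ρ₁ / I.δ n ≤ N w x}.indicator
        (fun _ => (M : ℝ) ^ p) x) (I.P0 n) := (integrable_const _).indicator hmB
    calc ∫ x, (if j < N w x then (N w x : ℝ) ^ p else 0) ∂(I.P0 n)
        ≤ ∫ x, (∑ k ∈ G, ({x | N w x = k}.indicator (fun _ => (k : ℝ) ^ p) x) +
          {x : I.Fr n → ℝ | ρ₁ / I.δ n ≤ N w x}.indicator (fun _ => (M : ℝ) ^ p) x) ∂(I.P0 n) := by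
          refine integral_mono_of_nonneg (Eventually.of_forall fun x => ?_)
            ((integrable_finsetSum _ fun k _ => hi1 k).add hi2) (Eventually.of_forall hpt)
          simp only [Pi.zero_apply]
          split_ifs <;> positivity
      _ = ∑ k ∈ G, (k : ℝ) ^ p * (I.P0 n).real {x | N w x = k} +
          (M : ℝ) ^ p * (I.P0 n).real {x | ρ₁ / I.δ n ≤ N w x} := by
          rw [integral_add (integrable_finsetSum _ fun k _ => hi1 k) hi2,
            integral_finsetSum _ fun k _ => hi1 k]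
          congr 1
          · refine Finset.sum_congr rfl fun k _ => ?_
            have hms : MeasurableSet {x | N w x = k} := (hNm w) (measurableSet_singleton k)
            rw [integral_indicator_const _ hms, smul_eq_mul, mul_comm]
          · rw [integral_indicator_const _ hmB, smul_eq_mul, mul_comm]
      _ ≤ _ := by
          gcongr
          exact measureReal_mono (fun x hx => ⟨w, hx⟩) (measure_ne_top _ _)
  -- sum over the sites
  have hsum : ∑ w ∈ S, ∫ x, (if j < N w x then (N w x : ℝ) ^ p else 0) ∂(I.P0 n) ≤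
      ∑ k ∈ G, (k : ℝ) ^ p * T k + S.card * ((M : ℝ) ^ p * Q) := by
    calc _ ≤ ∑ w ∈ S, (∑ k ∈ G, (k : ℝ) ^ p * (I.P0 n).real {x | N w x = k} +
          (M : ℝ) ^ p * Q) := Finset.sum_le_sum fun w _ => hsite w
      _ = _ := by
          rw [Finset.sum_add_distrib, Finset.sum_comm, Finset.sum_const, nsmul_eq_mul]
          congr 1
          refine Finset.sum_congr rfl fun k _ => ?_
          rw [hT, Finset.mul_sum]
  -- the two ranges
  have hcS := hcn S hS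
  have hS2 : (S.card : ℝ) ≤ K / I.δ n ^ 2 := by
    rw [le_div_iff₀ (by positivity)]; linarith
  have hrange : ∀ k ∈ G, I.δ n ^ 2 * ((k : ℝ) ^ p * T k) ≤
      C1 * Cp * (1 / 2) ^ k * (1 / 2) ^ k + B1 * I.δ n * (1 / 2) ^ k := by
    intro k hk
    rw [hG, Finset.mem_filter, Finset.mem_Ico] at hk
    have hkp := hpe k
    by_cases hk2 : k ≤ k2 I n
    · have h1 := hwn S hS hoff k hk2
      have h2 : I.δ n ^ 2 * ((k : ℝ) ^ p * T k) ≤ (Cp * 2 ^ k) * (C1 * (1 / 12) ^ k) := by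
        calc I.δ n ^ 2 * ((k : ℝ) ^ p * T k) = (k : ℝ) ^ p * (I.δ n ^ 2 * T k) := by ring
          _ ≤ _ := by
              have : 0 ≤ I.δ n ^ 2 * T k := mul_nonneg (by positivity) (hT0 k)
              exact mul_le_mul hkp h1 this (by positivity)
      have h3 : (Cp * 2 ^ k) * (C1 * (1 / 12) ^ k) ≤ C1 * Cp * (1 / 2) ^ k * (1 / 2) ^ k := by
        have h4 : (2 : ℝ) ^ k * (1 / 12) ^ k ≤ (1 / 2) ^ k * (1 / 2) ^ k := by
          rw [← mul_pow, ← mul_pow]
          exact pow_le_pow_left₀ (by norm_num) (by norm_num) k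
        calc (Cp * 2 ^ k) * (C1 * (1 / 12) ^ k) = C1 * Cp * ((2 : ℝ) ^ k * (1 / 12) ^ k) := by ring
          _ ≤ C1 * Cp * ((1 / 2) ^ k * (1 / 2) ^ k) := by gcongr
          _ = _ := by ring
      have h5 : 0 ≤ B1 * I.δ n * (1 / 2) ^ k := by positivity
      linarith
    · push Not at hk2
      have h1 : T k ≤ S.card * (C2 / I.δ n * rt ^ k) := by
        calc T k ≤ ∑ _w ∈ S, (C2 / I.δ n * rt ^ k) :=
              Finset.sum_le_sum fun w hw' => hmn S hS w (hoff w hw') k hk.2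
          _ = _ := by rw [Finset.sum_const, nsmul_eq_mul]
      have hrt0 := rt_nonneg
      -- `rt ^ k ≤ 4 ^ (-k) δ ^ 2`
      have hrh : (0 : ℝ) < rh I n := by exact_mod_cast rh_pos I n
      have h2 : rt ^ k ≤ (1 / 4) ^ k * I.δ n ^ 2 := by
        have h24 : (0 : ℝ) < 24 ^ 4 := by norm_num
        have h3 : rt ≤ (1 / 4) * (1 / 24 ^ 4) ^ 4 := by
          refine rt_le.trans ?_
          have e : (1 : ℝ) / 4 * (1 / 24 ^ 4) ^ 4 = 1 / (4 * (24 ^ 4) ^ 4) := by
            rw [one_div_pow]; field_simp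
          rw [e]
          apply one_div_le_one_div_of_le (by positivity)
          have e' : ((24 : ℝ) ^ 4) ^ 40 = (24 ^ 4) ^ 36 * (24 ^ 4) ^ 4 := by rw [← pow_add]
          rw [e']
          gcongr
          calc (4 : ℝ) ≤ 24 ^ 4 := by norm_num
            _ ≤ (24 ^ 4) ^ 36 := le_self_pow₀ (by norm_num) (by norm_num)
        have h4 : (rh I n : ℝ) ≤ (24 ^ 4) ^ k := by
          have h5 := (lt_pow_k2 I n).le
          have h6 : (24 ^ 4) ^ (k2 I n + 1) ≤ (24 ^ 4) ^ k :=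
            Nat.pow_le_pow_right (by norm_num) (by omega)
          exact_mod_cast h5.trans h6
        calc rt ^ k ≤ ((1 / 4) * (1 / 24 ^ 4) ^ 4) ^ k := by gcongr
          _ = (1 / 4) ^ k * (1 / ((24 ^ 4) ^ k)) ^ 4 := by
              rw [mul_pow, pow_right_comm (1 / (24 : ℝ) ^ 4) 4 k, one_div_pow ((24 : ℝ) ^ 4) k]
          _ ≤ (1 / 4) ^ k * (1 / (rh I n : ℝ)) ^ 4 := by gcongr
          _ ≤ (1 / 4) ^ k * I.δ n ^ 2 := by
              gcongr
              have h6 := one_div_delta_le I n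
              have h7 : 1 / (rh I n : ℝ) ^ 2 ≤ I.δ n := by
                rw [div_le_iff₀ (by positivity)]
                rw [div_le_iff₀ hδ] at h6
                linarith
              calc (1 / (rh I n : ℝ)) ^ 4 = (1 / (rh I n : ℝ) ^ 2) ^ 2 := by
                    rw [one_div_pow, one_div_pow, ← pow_mul]
                _ ≤ I.δ n ^ 2 := by gcongr
      have h3 : I.δ n ^ 2 * ((k : ℝ) ^ p * T k) ≤ B1 * I.δ n * (1 / 2) ^ k := by
        calc I.δ n ^ 2 * ((k : ℝ) ^ p * T k)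
            ≤ I.δ n ^ 2 * ((Cp * 2 ^ k) * (K / I.δ n ^ 2 *
                (C2 / I.δ n * ((1 / 4) ^ k * I.δ n ^ 2)))) := by
              have := hT0 k
              gcongr
              refine h1.trans ?_
              gcongr
          _ = K * C2 * Cp * I.δ n * (2 ^ k * (1 / 4) ^ k) := by
              field_simp
          _ = B1 * I.δ n * (1 / 2) ^ k := by
              rw [← mul_pow]; norm_num [hB1]
      have h5 : 0 ≤ C1 * Cp * (1 / 2) ^ k * (1 / 2) ^ k := by positivity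
      linarith
  -- sum over `k`
  have hGj : ∀ k ∈ G, j < k := by
    intro k hk
    rw [hG, Finset.mem_filter, Finset.mem_Ico] at hk
    omega
  have hgeo := geom_le (q := 1 / 2) (by norm_num) le_rfl G hGj
  have hgeo4 : ∑ k ∈ G, ((1 / 2 : ℝ) ^ k * (1 / 2) ^ k) ≤ (1 / 2) ^ j := by
    refine le_trans (Finset.sum_le_sum fun k _ => ?_) hgeo
    exact mul_le_of_le_one_right (by positivity) (pow_le_one₀ (by norm_num) (by norm_num))
  have hgeo1 : ∑ k ∈ G, (1 / 2 : ℝ) ^ k ≤ 1 := hgeo.trans (pow_le_one₀ (by norm_num) (by norm_num))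
  have hI : I.δ n ^ 2 * ∑ k ∈ G, (k : ℝ) ^ p * T k ≤ C1 * Cp * (1 / 2) ^ j + B1 * I.δ n := by
    rw [Finset.mul_sum]
    refine (Finset.sum_le_sum hrange).trans ?_
    rw [Finset.sum_add_distrib]
    have e1 : ∑ k ∈ G, C1 * Cp * (1 / 2) ^ k * (1 / 2) ^ k =
        C1 * Cp * ∑ k ∈ G, ((1 / 2 : ℝ) ^ k * (1 / 2) ^ k) := by
      rw [Finset.mul_sum]; exact Finset.sum_congr rfl fun _ _ => by ring
    have e2 : ∑ k ∈ G, B1 * I.δ n * (1 / 2) ^ k = B1 * I.δ n * ∑ k ∈ G, (1 / 2 : ℝ) ^ k := by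
      rw [Finset.mul_sum]
    rw [e1, e2]
    have hB10 : 0 ≤ B1 * I.δ n := by positivity
    refine add_le_add (by gcongr) ?_
    exact mul_le_of_le_one_right hB10 hgeo1
  have hII : I.δ n ^ 2 * (S.card * ((M : ℝ) ^ p * Q)) ≤ B2 * I.δ n := by
    have hQ1 : Q ≤ I.δ n ^ (2 * p + 1) := hfar S hS hoff
    have hMK : (M : ℝ) ≤ (K + 1) / I.δ n ^ 2 := by
      rw [hM]
      push_cast
      rw [le_div_iff₀ (by positivity)]
      have : I.δ n ^ 2 ≤ 1 := pow_le_one₀ hδ.le hδ1.le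
      nlinarith
    calc I.δ n ^ 2 * (S.card * ((M : ℝ) ^ p * Q))
        ≤ I.δ n ^ 2 * (K / I.δ n ^ 2 * (((K + 1) / I.δ n ^ 2) ^ p * I.δ n ^ (2 * p + 1))) := by
          gcongr
      _ = B2 * I.δ n := by
          rw [div_pow, ← pow_mul, hB2]
          field_simp
          ring
  have hfin : (B1 + B2) * I.δ n ≤ (1 / 2) ^ j := by
    rw [lt_div_iff₀ (by positivity)] at hδs
    linarith
  calc I.δ n ^ 2 * ∑ w ∈ S, ∫ x, (if j < N w x then (N w x : ℝ) ^ p else 0) ∂(I.P0 n)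
      ≤ I.δ n ^ 2 * (∑ k ∈ G, (k : ℝ) ^ p * T k + S.card * ((M : ℝ) ^ p * Q)) := by gcongr
    _ = I.δ n ^ 2 * ∑ k ∈ G, (k : ℝ) ^ p * T k + I.δ n ^ 2 * (S.card * ((M : ℝ) ^ p * Q)) := by
        ring
    _ ≤ (C1 * Cp * (1 / 2) ^ j + B1 * I.δ n) + B2 * I.δ n := add_le_add hI hII
    _ ≤ (C1 * Cp + 1) * (1 / 2) ^ j := by linarith

end Crest.Agent.R144.Uid674
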