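import Crest.Agent.R144.Lat3_549
import Crest.Agent.R144.Geo5_268
import Crest.Agent.R144.Cov_353
import Crest.Agent.R144.ConS_938

/-!
# R144, lattice flow, part 4 (helper549)

(F): for a marked domain, a marked approximation and a test function, a smooth field `J` and its
lattice flows `latF (δ n) J`, exact divergence, sharp energy, zero near the marks.
-/

set_option autoImplicit false

open MeasureTheory Metric Set Filter Topology
open scoped ContDiff

namespace Crest.Agent.R144.Lat549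

open Crest.ProbabilityR.HexHeights Crest.ProbabilityR.TriHeights
  Crest.Agent.R144.HexTil353 Crest.Agent.R144.Geo268 Crest.Agent.R144.Con549

noncomputable section

section near

variable {D : Set ℂ} {γ : ℝ → ℂ} {θ : ℝ} {δ : ℕ → ℝ} {T : ℕ → Finset Tri}
  {ea eb : ℕ → (ℤ × ℤ) × (ℤ × ℤ)} {c : ℕ → ℝ → ℂ}

/-- the vertices of the approximating polygons are eventually near the domain -/
theorem verts_near (hD : IsSmoothMarkedDomain D γ θ) (hA : IsMarkedApprox γ θ δ T ea eb c)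
    {ε : ℝ} (hε : 0 < ε) :
    ∀ᶠ n in atTop, ∀ v ∈ verts (T n), infDist (centre (δ n) v) D < ε := by
  filter_upwards [Crest.Agent.R144.Cov353.tri_near hD hA (half_pos hε)] with n hn v hv
  have hδ := hA.1 n
  obtain ⟨t, ht, hvt⟩ := Finset.mem_biUnion.1 (show v ∈ (T n).biUnion corners from hv)
  have h1 : centre (δ n) v ∈ closure (polygon (δ n) (T n)) :=
    closure_mono (openTri_subset_polygon hδ ht)
      (tri_subset_closure hδ t (centre_mem_tri hvt))
  have h2 : closure (polygon (δ n) (T n)) ⊆ {z | infDist z D ≤ ε / 2} :=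
    closure_minimal (fun z hz => (hn z hz).le)
      (isClosed_le (continuous_infDist_pt D) continuous_const)
  have h3 : infDist (centre (δ n) v) D ≤ ε / 2 := h2 h1
  linarith

end near

theorem norm_centre_d {δ : ℝ} (hδ : 0 ≤ δ) (k : Fin 3) : ‖centre δ (d k)‖ = δ := by
  rw [centre_d, norm_mul, norm_ed, mul_one, Complex.norm_real, Real.norm_eq_abs, abs_of_nonneg hδ]

/-- rhombi of the edges touching a vertex are within `3δ` of it -/
theorem pt_near {δ : ℝ} (hδ : 0 ≤ δ) {S : Finset (ℤ × ℤ)} {N : Set ℂ}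
    (hN : ∀ u ∈ S, closedBall (centre δ u) (3 * δ) ⊆ N) {k : Fin 3} {v : ℤ × ℤ}
    (hv : v ∈ edg S k) {p : ℝ × ℝ} (hp : p ∈ R k) : pt δ v p ∈ N := by
  have h1 := norm_pt_sub hδ v (R_bound hp).1 (R_bound hp).2
  rcases mem_edg.1 hv with h | h
  · refine hN v h ?_
    rw [mem_closedBall, dist_eq_norm]
    linarith
  · refine hN _ h ?_
    rw [mem_closedBall, dist_eq_norm]
    have h2 : pt δ v p - centre δ (v + d k) = (pt δ v p - centre δ v) - centre δ (d k) := by
      rw [centre_add]; ring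
    rw [h2]
    refine (norm_sub_le _ _).trans ?_
    rw [norm_centre_d hδ]
    linarith

/-- **(F)** -/
theorem exists_lattice_flow {D : Set ℂ} {γ : ℝ → ℂ} {θ : ℝ} {δ : ℕ → ℝ} {T : ℕ → Finset Tri}
    {ea eb : ℕ → (ℤ × ℤ) × (ℤ × ℤ)} {c : ℕ → ℝ → ℂ}
    (hD : IsSmoothMarkedDomain D γ θ) (hA : IsMarkedApprox γ θ δ T ea eb c)
    {φ : ℂ → ℂ} (hφ : DifferentiableOn ℂ φ D) (hb : BijOn φ D (ball (0 : ℂ) 1))
    {f : ℂ → ℝ} (hf : IsTest D f) {ε : ℝ} (hε : 0 < ε) :
    ∃ (N : Set ℂ) (J : ℂ → ℂ) (C ρ : ℝ), IsOpen N ∧ Bornology.IsBounded N ∧ closure D ⊆ N ∧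
      ContDiff ℝ ∞ J ∧ HasCompactSupport J ∧ (∀ z ∈ N, dv J z = f z) ∧
      ∫ z in N, ‖J z‖ ^ 2 ≤ domainGreenForm φ f + ε ∧ 0 ≤ C ∧ 0 < ρ ∧
      (∀ z ∈ ball (γ 0) ρ ∪ ball (γ θ) ρ, J z = 0) ∧ (∀ z, ‖J z‖ ≤ C) ∧
      (∀ z w, ‖J z - J w‖ ≤ C * ‖z - w‖) ∧
      (∀ n k v, |latF (δ n) J k v| ≤ C * δ n) ∧
      (∀ n k v m, ‖m - centre (δ n) v‖ ≤ 2 * δ n →
        |latF (δ n) J k v - δ n / Real.sqrt 3 * ip (J m) (ed k)| ≤ C * δ n ^ 2) ∧
      ∀ᶠ n in atTop,
        (∀ v ∈ verts (T n), closedBall (centre (δ n) v) (3 * δ n) ⊆ N) ∧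
        (∀ v ∈ verts (T n), ∑ k, (latF (δ n) J k v - latF (δ n) J k (v - d k)) =
          wA (δ n) f v) ∧
        (∀ k v, centre (δ n) v ∈ ball (γ 0) (ρ / 2) ∪ ball (γ θ) (ρ / 2) →
          latF (δ n) J k v = 0) ∧
        ∑ k, ∑ v ∈ edg (verts (T n)) k, latF (δ n) J k v ^ 2 ≤
          1 / Real.sqrt 3 * (domainGreenForm φ f + ε) := by
  obtain ⟨ψ, B⟩ := exists_bih hD.1 hφ hb
  have hJor := Crest.Agent.R144.ConP938.jor_of_marked hD
  obtain ⟨N, J, hNo, hNb, hcl, hJs, hJc, hdv, hmk, hen⟩ :=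
    Crest.Agent.R144.ConP938.exists_flow_marks hJor B hf {γ 0, γ θ} (by
      intro p hp
      rw [Finset.mem_insert, Finset.mem_singleton] at hp
      rcases hp with rfl | rfl <;> exact Crest.Agent.R144.ConP938.marks_mem hJor _) hε
  -- constants
  obtain ⟨B0, hB0⟩ := hJc.exists_bound_of_continuous hJs.continuous
  obtain ⟨L, hL⟩ := ContDiff.lipschitzWith_of_hasCompactSupport hJc
    (hJs.of_le (by norm_cast : (1 : WithTop ℕ∞) ≤ ∞)) (by simp)
  set B1 : ℝ := max B0 0 with hB1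
  have hB1' : ∀ z, ‖J z‖ ≤ B1 := fun z => (hB0 z).trans (le_max_left _ _)
  have hB10 : 0 ≤ B1 := le_max_right _ _
  have hL' : ∀ z w, ‖J z - J w‖ ≤ (L : ℝ) * ‖z - w‖ := fun z w => by
    have := hL.dist_le_mul z w
    rwa [dist_eq_norm, dist_eq_norm] at this
  set C : ℝ := B1 + 4 * L with hC
  have hC0 : 0 ≤ C := by positivity
  have hLC : (L : ℝ) ≤ C := by
    have := L.coe_nonneg
    rw [hC]; linarith
  have hBC : B1 ≤ C := by
    have := L.coe_nonneg
    rw [hC]; linarith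
  have hs3 : 1 ≤ Real.sqrt 3 := Real.one_le_sqrt.2 (by norm_num)
  -- radius at the marks
  obtain ⟨ρ, hρ, hρJ⟩ : ∃ ρ : ℝ, 0 < ρ ∧ ∀ z ∈ ball (γ 0) ρ ∪ ball (γ θ) ρ, J z = 0 := by
    obtain ⟨r1, hr1, h1⟩ := Metric.eventually_nhds_iff_ball.1 (hmk (γ 0) (by simp))
    obtain ⟨r2, hr2, h2⟩ := Metric.eventually_nhds_iff_ball.1 (hmk (γ θ) (by simp))
    refine ⟨min r1 r2, lt_min hr1 hr2, fun z hz => ?_⟩
    rcases hz with hz | hz
    · exact h1 z (ball_subset_ball (min_le_left _ _) hz)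
    · exact h2 z (ball_subset_ball (min_le_right _ _) hz)
  -- room around `D`
  obtain ⟨r, hr, hrN⟩ : ∃ r : ℝ, 0 < r ∧ thickening r D ⊆ N := by
    obtain ⟨r, hr, h⟩ := (hD.2.1.isCompact_closure).exists_thickening_subset_open hNo hcl
    exact ⟨r, hr, (thickening_subset_of_subset r subset_closure).trans h⟩
  refine ⟨N, J, C, ρ, hNo, hNb, hcl, hJs, hJc, hdv, hen, hC0, hρ, hρJ,
    fun z => (hB1' z).trans hBC, fun z w => (hL' z w).trans (by gcongr), ?_, ?_, ?_⟩
  · intro n k v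
    have hδ := hA.1 n
    refine (latF_le hδ.le (fun z _ => hB1' z) k).trans ?_
    calc δ n / Real.sqrt 3 * B1 ≤ δ n / 1 * C := by gcongr
      _ = C * δ n := by ring
  · intro n k v m hm
    have hδ := hA.1 n
    refine (latF_approx hδ.le hJs.continuous hL' k v hm).trans ?_
    calc δ n / Real.sqrt 3 * (L * (4 * δ n)) ≤ δ n / 1 * (L * (4 * δ n)) := by gcongr
      _ = 4 * L * δ n ^ 2 := by ring
      _ ≤ C * δ n ^ 2 := by
          gcongr
          rw [hC]; linarith
  · filter_upwards [verts_near hD hA (half_pos hr),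
      hA.2.1.eventually (gt_mem_nhds (show 0 < r / 8 by positivity)),
      hA.2.1.eventually (gt_mem_nhds (show 0 < ρ / 4 by positivity))] with n h1 h2 h3
    have hδ := hA.1 n
    have hNn : ∀ v ∈ verts (T n), closedBall (centre (δ n) v) (3 * δ n) ⊆ N := by
      intro v hv z hz
      refine hrN ?_
      rw [mem_thickening_iff_infDist_lt (hD.2.2.1.nonempty)]
      have h4 := h1 v hv
      have h5 := infDist_le_infDist_add_dist (s := D) (x := z) (y := centre (δ n) v)
      rw [mem_closedBall] at hz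
      linarith
    refine ⟨hNn, fun v hv => ?_, fun k v hv => ?_, ?_⟩
    · rw [wA_eq hδ]
      refine latF_div hJs hδ fun z hz => hdv z (hNn v hv ?_)
      exact closedBall_subset_closedBall (by linarith) hz
    · refine latF_eq_zero hδ.le (fun z hz => hρJ z ?_) k
      rw [mem_closedBall] at hz
      rcases hv with hv | hv
      · left
        rw [mem_ball] at hv ⊢
        have := dist_triangle z (centre (δ n) v) (γ 0)
        linarith
      · right
        rw [mem_ball] at hv ⊢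
        have := dist_triangle z (centre (δ n) v) (γ θ)
        linarith
    · refine (energy_le hδ hJs.continuous hNo.measurableSet hNb _
        fun k v hv p hp => pt_near hδ.le hNn hv hp).trans ?_
      gcongr

end

end Crest.Agent.R144.Lat549
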