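import Mathlib
import Crest.Agent.R144.LCL_121
import Crest.Agent.R144.KorE3_761
import Crest.Agent.R144.Uig4_714

/-!
# R144 (S0197), block UIG (helper714), part 5: the instances

* `sep_inst` : away from the marks the two arcs are separated;
* `xe` : the boundary data extended beyond the arcs (same polytope, same law);
* `tbq_inst` : the LC bound in hexagonal balls;
* `latFam_inst` : 761's `LatFam` for all lattice edges off the marks;
* `pos_bound` : sites have coordinates at most `R / δ`.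
-/

set_option autoImplicit false

namespace Crest.Agent.R144.Uig714

open MeasureTheory Finset Filter Topology
open Crest.Agent.R144.Uia714 Crest.Agent.R144.Skel144
open Crest.Agent.R144.Ham560 (ext ham nbr mem_nbr Fresh tight hamP measurableSet_ham ext_mem
  ext_notMem triE mem_triE mem_nbr_triE triXi mem_freeVerts' abs_triXi_le Anch)
open Crest.Agent.R144.Kor620 (P2 nrm FullE)
open Crest.Agent.R144.KorE761 (LatE LatFam latE_triE)
open Crest.ProbabilityR.TriHeights Crest.ProbabilityR.HexHeights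
open scoped BigOperators ENNReal

variable (I : Inst)

/-- the two arcs are separated away from the marks -/
theorem sep_inst {ε : ℝ} (hε : 0 < ε) : ∃ ρ : ℝ, 0 < ρ ∧ ∀ᶠ n in atTop, ∀ z : ℂ,
    ε ≤ dist z (I.γ 0) → ε ≤ dist z (I.γ I.θ) → ∀ u ∈ I.Ap n, ∀ v ∈ I.Am n,
    dist (centre (I.δ n) u) z ≤ ρ → dist (centre (I.δ n) v) z ≤ ρ → False := by
  obtain ⟨d, hd, hdd⟩ := LC121.arcs_apart I.hD (half_pos hε)
  set η : ℝ := min (ε / 8) (d / 8) with hη
  have hη0 : 0 < η := by positivity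
  have hη1 : η ≤ ε / 8 := min_le_left _ _
  have hη2 : η ≤ d / 8 := min_le_right _ _
  refine ⟨η, hη0, ?_⟩
  filter_upwards [Metric.tendstoUniformly_iff.1 I.hM.2.2.2.2 η hη0] with n hn z hz0 hzθ
  rintro u ⟨-, s, hs0, hs1, hs⟩ v ⟨-, t, ht0, ht1, ht⟩ hu hv
  have d1 : dist (I.γ s) z ≤ 2 * η := by
    have h1 := hn s
    rw [hs] at h1
    calc _ ≤ dist (I.γ s) (centre (I.δ n) u) + dist (centre (I.δ n) u) z :=
          dist_triangle _ _ _
      _ ≤ _ := by linarith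
  have d2 : dist (I.γ t) z ≤ 2 * η := by
    have h1 := hn t
    rw [ht] at h1
    calc _ ≤ dist (I.γ t) (centre (I.δ n) v) + dist (centre (I.δ n) v) z :=
          dist_triangle _ _ _
      _ ≤ _ := by linarith
  have far : ∀ p q : ℂ, dist p z ≤ 2 * η → ε ≤ dist z q → ε / 2 ≤ dist p q := by
    intro p q h1 h2
    have := dist_triangle z p q
    rw [dist_comm z p] at this
    linarith
  have h3 := hdd s ⟨hs0.le, hs1.le⟩ t ⟨ht0.le, ht1.le⟩ (far _ _ d1 hz0) (far _ _ d1 hzθ)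
    (far _ _ d2 hz0) (far _ _ d2 hzθ)
  have h4 : dist (I.γ s) (I.γ t) ≤ 4 * η := by
    have := dist_triangle (I.γ s) z (I.γ t)
    rw [dist_comm z (I.γ t)] at this
    linarith
  linarith

/-- hexagonal balls are small -/
lemma dist_centre_nrm {δ : ℝ} (hδ : 0 ≤ δ) {u v : P2} {r : ℕ} (h : nrm (u - v) ≤ r) :
    dist (centre δ u) (centre δ v) ≤ 2 * (δ * r) := by
  refine (LC121.dist_centre_le hδ u v).trans ?_
  have h1 : (u.1 - v.1).natAbs ≤ r := le_trans (by simp [nrm]) h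
  have h2 : (u.2 - v.2).natAbs ≤ r := le_trans (by simp [nrm]) h
  have h1' : |(u.1 : ℝ) - v.1| ≤ r := by
    have : |u.1 - v.1| ≤ (r : ℤ) := by rw [abs_le]; omega
    exact_mod_cast this
  have h2' : |(u.2 : ℝ) - v.2| ≤ r := by
    have : |u.2 - v.2| ≤ (r : ℤ) := by rw [abs_le]; omega
    exact_mod_cast this
  nlinarith

open scoped Classical in
/-- the boundary data extended beyond the arcs -/
noncomputable def xe (n : ℕ) (u : P2) : ℝ :=
  if u ∈ I.Ap n ∨ (u ∉ I.Am n ∧ ∃ z ∈ I.Ap n, nrm (z - u) ≤ 1) then I.a else -I.a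

lemma abs_xe_le (n : ℕ) (u : P2) : |xe I n u| ≤ 1 / 2 := by
  unfold xe
  have h := I.ha0
  have h' := I.ha1
  split_ifs
  · rw [abs_of_pos h]; exact h'
  · rw [abs_neg, abs_of_pos h]; exact h'

lemma mem_verts_of_edge {T : Finset Tri} {u v : P2} (h : IsEdge T u v) :
    u ∈ verts T ∧ v ∈ verts T := by
  obtain ⟨-, t, ht, h1, h2⟩ := h
  exact ⟨Finset.mem_biUnion.mpr ⟨t, ht, h1⟩, Finset.mem_biUnion.mpr ⟨t, ht, h2⟩⟩

lemma xe_eq (n : ℕ) {u : P2} (hu : u ∈ verts (I.T n)) (huF : u ∉ I.Fr n) :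
    xe I n u = I.xi n u := by
  have h1 : u ∈ I.Ap n ∨ u ∈ I.Am n := by
    by_contra h
    push Not at h
    exact huF (mem_freeVerts'.mpr ⟨hu, h.1, h.2⟩)
  rcases h1 with h1 | h1
  · simp only [xe, Inst.xi, triXi, if_pos h1, if_pos (Or.inl h1 : u ∈ I.Ap n ∨ _)]
  · have h2 : u ∉ I.Ap n := fun h => I.arcs_disj n u h h1
    have h3 : ¬ (u ∈ I.Ap n ∨ (u ∉ I.Am n ∧ ∃ z ∈ I.Ap n, nrm (z - u) ≤ 1)) := by
      rintro (h | h)
      · exact h2 h
      · exact h.1 h1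
    simp only [xe, Inst.xi, triXi, if_neg h2, if_pos h1, if_neg h3]

lemma ext_xe (n : ℕ) {u : P2} (hu : u ∈ verts (I.T n)) (x : I.Fr n → ℝ) :
    ext (I.Fr n) (xe I n) x u = ext (I.Fr n) (I.xi n) x u := by
  by_cases huF : u ∈ I.Fr n
  · rw [ext_mem huF, ext_mem huF]
  · rw [ext_notMem huF, ext_notMem huF, xe_eq I n hu huF]

lemma ham_xe (n : ℕ) : ham (I.Fr n) (I.Ed n) (xe I n) = ham (I.Fr n) (I.Ed n) (I.xi n) := by
  ext x
  have h : ∀ p ∈ I.Ed n, ext (I.Fr n) (xe I n) x p.1 = ext (I.Fr n) (I.xi n) x p.1 ∧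
      ext (I.Fr n) (xe I n) x p.2 = ext (I.Fr n) (I.xi n) x p.2 := fun p hp => by
    have := mem_verts_of_edge (mem_triE.mp hp)
    exact ⟨ext_xe I n this.1 x, ext_xe I n this.2 x⟩
  constructor
  · intro hx p hp
    have := hx p hp
    rwa [(h p hp).1, (h p hp).2] at this
  · intro hx p hp
    have := hx p hp
    rwa [← (h p hp).1, ← (h p hp).2] at this

lemma hamP_xe (n : ℕ) : hamP (I.Fr n) (I.Ed n) (xe I n) = I.P0 n := by
  unfold Inst.P0 hamP
  rw [ham_xe]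

lemma tight_xe (n : ℕ) {T : List (P2 × P2)} (hT : Fresh (I.Fr n) (I.Ed n) T) (ε : ℝ) :
    tight (I.Fr n) (I.Ed n) (xe I n) T ε = tight (I.Fr n) (I.Ed n) (I.xi n) T ε := by
  ext x
  unfold tight
  simp only [Set.mem_ofPred_eq]
  rw [ham_xe]
  have h : ∀ p ∈ T, ext (I.Fr n) (xe I n) x p.1 = ext (I.Fr n) (I.xi n) x p.1 ∧
      ext (I.Fr n) (xe I n) x p.2 = ext (I.Fr n) (I.xi n) x p.2 := fun p hp => by
    rcases hT.edge p hp with h1 | h1
    · have := mem_verts_of_edge (mem_triE.mp h1)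
      exact ⟨ext_xe I n this.1 x, ext_xe I n this.2 x⟩
    · have := mem_verts_of_edge (mem_triE.mp h1)
      exact ⟨ext_xe I n this.2 x, ext_xe I n this.1 x⟩
  constructor
  · rintro ⟨h1, h2⟩
    refine ⟨h1, fun q hq => ?_⟩
    have := h2 q hq
    rwa [(h q hq).1, (h q hq).2] at this
  · rintro ⟨h1, h2⟩
    refine ⟨h1, fun q hq => ?_⟩
    have := h2 q hq
    rwa [← (h q hq).1, ← (h q hq).2] at this

lemma fullE_inst (n : ℕ) : FullE (I.Fr n) (I.Ed n) := by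
  intro x hx y hxy
  rw [mem_nbr_triE]
  exact Geo268.isEdge_of_adj (I.hM.1 n) ((Geo268.mem_free_iff I.hM n x).1 hx) hxy

lemma latE_inst (n : ℕ) : LatE (I.Ed n) := latE_triE _

/-- off the marks -/
def Off (ε : ℝ) (n : ℕ) (u : P2) : Prop :=
  ε ≤ dist (centre (I.δ n) u) (I.γ 0) ∧ ε ≤ dist (centre (I.δ n) u) (I.γ I.θ)

/-- **the LC bound in hexagonal balls** -/
theorem tbq_inst {ε : ℝ} (hε : 0 < ε) : ∃ ρ : ℝ, 0 < ρ ∧ ∃ C : ℝ, 1 ≤ C ∧ ∀ᶠ n in atTop,
    ∀ (z : P2) (r : ℕ), I.δ n * r ≤ ρ → Off I ε n z →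
      TBQ (I.Fr n) (I.Ed n) (xe I n) (I.P0 n) 2304 (ENNReal.ofReal (C / I.δ n * C ^ r))
        {u | nrm (u - z) ≤ r} := by
  obtain ⟨ρ, hρ, C, hC, h⟩ := LC121.lcl_fresh I hε
  refine ⟨ρ, hρ, C, hC, ?_⟩
  filter_upwards [h] with n hn z r hr hz T hT hTQ ε' hε' _
  have hδ := I.hM.1 n
  have hC0 : 0 ≤ C := by linarith
  rw [tight_xe I n hT]
  have h1 := hn z r hr hz.1 hz.2 T hT (fun q hq => by
    have h2 := hTQ q hq
    simp only [Set.mem_ofPred_eq] at h2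
    have key : ∀ u : P2, nrm (u - z) ≤ r → u ∈ LC121.box z r := by
      intro u hu
      have h3 : (u.1 - z.1).natAbs ≤ r := le_trans (by simp [nrm]) hu
      have h4 : (u.2 - z.2).natAbs ≤ r := le_trans (by simp [nrm]) hu
      rw [LC121.mem_box, abs_le, abs_le]
      omega
    exact ⟨key _ h2.1, key _ h2.2⟩) ε' hε'
  refine h1.trans (le_of_eq ?_)
  rw [ENNReal.ofReal_mul (show 0 ≤ C / I.δ n by positivity), ENNReal.ofReal_pow hC0]
  exact mul_comm _ _

/-- `δ`-smallness -/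
lemma delta_small {c : ℝ} (hc : 0 < c) : ∀ᶠ n in atTop, I.δ n < c :=
  (tendsto_order.1 I.hM.2.1).2 c hc

/-- sites have coordinates at most `R / δ` -/
theorem pos_bound : ∃ R : ℝ, 1 ≤ R ∧ ∀ᶠ n in atTop, ∀ u ∈ I.Fr n,
    (u.1.natAbs : ℝ) ≤ R / I.δ n ∧ (u.2.natAbs : ℝ) ≤ R / I.δ n := by
  obtain ⟨M, hM0, hM⟩ := LC121.polygon_bound I.hD I.hM
  refine ⟨3 * M + 1, by linarith, ?_⟩
  filter_upwards [hM] with n hn u hu
  have hδ := I.hM.1 n
  have h1 := hn _ ((Geo268.mem_free_iff I.hM n u).1 hu)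
  have h3 : Real.sqrt 3 * Real.sqrt 3 = 3 := Real.mul_self_sqrt (by norm_num)
  have h3' : 1 ≤ Real.sqrt 3 := by
    rw [Real.one_le_sqrt]; norm_num
  have him : |(centre (I.δ n) u).im| ≤ M := (Complex.abs_im_le_norm _).trans h1
  have hre : |(centre (I.δ n) u).re| ≤ M := (Complex.abs_re_le_norm _).trans h1
  have e1 : (centre (I.δ n) u).im = I.δ n * (u.2 * (Real.sqrt 3 / 2)) := by
    unfold centre; simp
  have e2 : (centre (I.δ n) u).re = I.δ n * (u.1 + u.2 / 2) := by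
    unfold centre; simp; left; ring
  have hu2 : |(u.2 : ℝ)| ≤ 2 * M / I.δ n := by
    rw [le_div_iff₀ hδ]
    rw [e1, abs_mul, abs_mul, abs_of_pos hδ, abs_of_pos (show 0 < Real.sqrt 3 / 2 by positivity)]
      at him
    have : 0 ≤ |(u.2 : ℝ)| * I.δ n := by positivity
    nlinarith
  have hu1 : |(u.1 : ℝ)| ≤ 2 * M / I.δ n := by
    have h4 : |(u.1 : ℝ) + u.2 / 2| ≤ M / I.δ n := by
      rw [le_div_iff₀ hδ]
      rw [e2, abs_mul, abs_of_pos hδ] at hre
      linarith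
    have h5 : |(u.1 : ℝ)| ≤ |(u.1 : ℝ) + u.2 / 2| + |(u.2 : ℝ)| / 2 := by
      have := abs_sub (u.1 + u.2 / 2 : ℝ) (u.2 / 2 : ℝ)
      rw [add_sub_cancel_right, abs_div, abs_two] at this
      exact this
    have e3 : 2 * M / I.δ n = M / I.δ n + 2 * M / I.δ n / 2 := by ring
    linarith
  have hR : 2 * M / I.δ n ≤ (3 * M + 1) / I.δ n := by
    gcongr; linarith
  rw [Nat.cast_natAbs, Nat.cast_natAbs]
  push_cast
  exact ⟨hu1.trans hR, hu2.trans hR⟩

open scoped Classical in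
/-- the constant near `u` -/
noncomputable def lamI (n : ℕ) (p : P2 × P2) : ℝ :=
  if ∃ z ∈ I.Ap n, nrm (z - p.1) ≤ 3 then I.a else -I.a

lemma abs_lamI_le (n : ℕ) (p : P2 × P2) : |lamI I n p| ≤ 1 / 2 := by
  unfold lamI
  have h := I.ha0
  have h' := I.ha1
  split_ifs
  · rw [abs_of_pos h]; exact h'
  · rw [abs_neg, abs_of_pos h]; exact h'

/-- a site at distance at most two of a free site has a vertex of the polygon next to it -/
lemma exists_between {u b : P2} (h : nrm (b - u) ≤ 2) (hb : b ≠ u) :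
    ∃ w, Adj u w ∧ nrm (w - b) ≤ 1 := by
  obtain ⟨u1, u2⟩ := u
  obtain ⟨b1, b2⟩ := b
  rw [KorE761.nrm_le_iff] at h
  simp only [Prod.mk_sub_mk] at h
  have hne : ¬ (b1 = u1 ∧ b2 = u2) := fun hh => hb (by rw [hh.1, hh.2])
  obtain ⟨h1, h2, h3⟩ := h
  have key : ∀ w1 w2 : ℤ, Adj (u1, u2) (u1 + w1, u2 + w2) → (u1 + w1 - b1).natAbs ≤ 1 →
      (u2 + w2 - b2).natAbs ≤ 1 → (u1 + w1 - b1 + (u2 + w2 - b2)).natAbs ≤ 1 →
      ∃ w, Adj (u1, u2) w ∧ nrm (w - (b1, b2)) ≤ 1 := by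
    intro w1 w2 hadj h4 h5 h6
    refine ⟨(u1 + w1, u2 + w2), hadj, ?_⟩
    rw [KorE761.nrm_le_iff]
    exact ⟨h4, h5, h6⟩
  by_cases c1 : 1 ≤ b1 - u1 ∧ b2 - u2 ≤ 0 ∧ 0 ≤ (b1 - u1) + (b2 - u2)
  · by_cases c2 : b1 - u1 + (b2 - u2) = 0
    · exact key 1 (-1) (by unfold Adj; simp only; omega) (by omega) (by omega) (by omega)
    · exact key 1 0 (by unfold Adj; simp only; omega) (by omega) (by omega) (by omega)
  by_cases c3 : b1 - u1 ≤ -1 ∧ 0 ≤ b2 - u2 ∧ (b1 - u1) + (b2 - u2) ≤ 0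
  · by_cases c2 : b1 - u1 + (b2 - u2) = 0
    · exact key (-1) 1 (by unfold Adj; simp only; omega) (by omega) (by omega) (by omega)
    · exact key (-1) 0 (by unfold Adj; simp only; omega) (by omega) (by omega) (by omega)
  by_cases c4 : 0 ≤ b1 - u1 ∧ 1 ≤ b2 - u2
  · exact key 0 1 (by unfold Adj; simp only; omega) (by omega) (by omega) (by omega)
  by_cases c5 : b1 - u1 ≤ 0 ∧ b2 - u2 ≤ -1
  · exact key 0 (-1) (by unfold Adj; simp only; omega) (by omega) (by omega) (by omega)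
  by_cases c6 : 0 ≤ b2 - u2
  · by_cases c7 : 1 ≤ b1 - u1
    · exact key 1 0 (by unfold Adj; simp only; omega) (by omega) (by omega) (by omega)
    · exact key (-1) 1 (by unfold Adj; simp only; omega) (by omega) (by omega) (by omega)
  · by_cases c7 : 1 ≤ b1 - u1
    · exact key 1 (-1) (by unfold Adj; simp only; omega) (by omega) (by omega) (by omega)
    · exact key (-1) 0 (by unfold Adj; simp only; omega) (by omega) (by omega) (by omega)

/-- **761's `LatFam` off the marks** -/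
theorem latFam_inst {ε : ℝ} (hε : 0 < ε) : ∀ᶠ n in atTop, ∀ P : Finset (P2 × P2),
    (∀ p ∈ P, p.1 ∈ I.Fr n ∧ Adj p.1 p.2 ∧ Off I ε n p.1) →
    LatFam (I.Fr n) (xe I n) P (lamI I n) := by
  obtain ⟨ρ, hρ, hsep⟩ := sep_inst I hε
  filter_upwards [hsep, delta_small I (show 0 < ρ / 6 by positivity)] with n hn hδρ P hP
  have hδ := I.hM.1 n
  have hclose : ∀ z u : P2, nrm (z - u) ≤ 3 → dist (centre (I.δ n) z) (centre (I.δ n) u) ≤ ρ := by
    intro z u h
    have := dist_centre_nrm hδ.le h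
    push_cast at this
    linarith
  refine ⟨fun p hp => (hP p hp).1, fun p hp => (hP p hp).2.1, fun p _ => abs_lamI_le I n p, ?_⟩
  intro p hp b hbF _ hb2
  obtain ⟨hu, _, hoff⟩ := hP p hp
  have hne : b ≠ p.1 := fun h => hbF (h ▸ hu)
  have sep : ∀ z ∈ I.Ap n, ∀ w ∈ I.Am n, nrm (z - p.1) ≤ 3 → nrm (w - p.1) ≤ 3 → False :=
    fun z hz w hw h1 h2 => hn _ hoff.1 hoff.2 z hz w hw (hclose _ _ h1) (hclose _ _ h2)
  by_cases hbp : b ∈ I.Ap n
  · have h1 : xe I n b = I.a := by simp only [xe, if_pos (Or.inl hbp : b ∈ I.Ap n ∨ _)]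
    have h2 : lamI I n p = I.a := by
      simp only [lamI, if_pos (⟨b, hbp, by omega⟩ : ∃ z ∈ I.Ap n, nrm (z - p.1) ≤ 3)]
    rw [h1, h2]
  by_cases hbm : b ∈ I.Am n
  · have h1 : xe I n b = -I.a := by
      have h3 : ¬ (b ∈ I.Ap n ∨ (b ∉ I.Am n ∧ ∃ z ∈ I.Ap n, nrm (z - b) ≤ 1)) := by
        rintro (h | h)
        · exact hbp h
        · exact h.1 hbm
      simp only [xe, if_neg h3]
    have h2 : lamI I n p = -I.a := by
      have h3 : ¬ ∃ z ∈ I.Ap n, nrm (z - p.1) ≤ 3 := by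
        rintro ⟨z, hz, h4⟩
        exact sep z hz b hbm h4 (by omega)
      simp only [lamI, if_neg h3]
    rw [h1, h2]
  -- off the polygon: the neighbour of `u` towards `b` is on an arc
  obtain ⟨w, hw, hwb⟩ := exists_between hb2 hne
  have hwv : w ∈ verts (I.T n) :=
    (mem_verts_of_edge (mem_nbr_triE.mp (fullE_inst I n _ hu w hw))).2
  have hwn : nrm (w - p.1) ≤ 1 := (KorE761.nrm_eq_one (Kor620.adj_symm hw)).le
  have hwF : w ∉ I.Fr n := by
    intro hwF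
    have h4 : w ≠ b := by rintro rfl; exact hbF hwF
    have h5 : Adj w b := by
      have h6 := KorE761.nrm_le_iff.mp hwb
      obtain ⟨w1, w2⟩ := w
      obtain ⟨b1, b2⟩ := b
      simp only [Prod.mk_sub_mk] at h6
      have h7 : ¬ (w1 = b1 ∧ w2 = b2) := fun hh => h4 (by rw [hh.1, hh.2])
      unfold Adj
      simp only
      omega
    have h6 : b ∈ verts (I.T n) :=
      (mem_verts_of_edge (mem_nbr_triE.mp (fullE_inst I n _ hwF b h5))).2
    exact hbF (mem_freeVerts'.mpr ⟨h6, hbp, hbm⟩)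
  have hwarc : w ∈ I.Ap n ∨ w ∈ I.Am n := by
    by_contra h
    push Not at h
    exact hwF (mem_freeVerts'.mpr ⟨hwv, h.1, h.2⟩)
  rcases hwarc with hwp | hwm
  · have h1 : xe I n b = I.a := by
      simp only [xe, if_pos (Or.inr ⟨hbm, w, hwp, hwb⟩ :
        b ∈ I.Ap n ∨ (b ∉ I.Am n ∧ ∃ z ∈ I.Ap n, nrm (z - b) ≤ 1))]
    have h2 : lamI I n p = I.a := by
      simp only [lamI, if_pos (⟨w, hwp, by omega⟩ : ∃ z ∈ I.Ap n, nrm (z - p.1) ≤ 3)]
    rw [h1, h2]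
  · have h1 : xe I n b = -I.a := by
      have h3 : ¬ (b ∈ I.Ap n ∨ (b ∉ I.Am n ∧ ∃ z ∈ I.Ap n, nrm (z - b) ≤ 1)) := by
        rintro (h | ⟨_, z, hz, hzb⟩)
        · exact hbp h
        · have := nrm_tri z b p.1
          exact sep z hz w hwm (by omega) (by omega)
      simp only [xe, if_neg h3]
    have h2 : lamI I n p = -I.a := by
      have h3 : ¬ ∃ z ∈ I.Ap n, nrm (z - p.1) ≤ 3 := by
        rintro ⟨z, hz, h4⟩
        exact sep z hz w hwm h4 (by omega)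
      simp only [lamI, if_neg h3]
    rw [h1, h2]

end Crest.Agent.R144.Uig714
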