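import Mathlib
import Crest.Agent.R144.Uig5_714

/-!
# R144 (S0197), block UIG (helper714), part 6: cluster numbers of the instances

`rh`, `k2` : side of the boxes and cut-off level;
`cnum_window` : `δ² ∑ ∫ 12 ^ N 1(k₁ ≤ N ≤ k₂)` is small;
`cnum_tail` : `P0 {k₂ < N} ≤ δ ^ 18`.
-/

set_option autoImplicit false

namespace Crest.Agent.R144.Uig714

open MeasureTheory Finset Filter Topology
open Crest.Agent.R144.Uia714 Crest.Agent.R144.Skel144
open Crest.Agent.R144.Ham560 (ext ham nbr mem_nbr Fresh tight hamP measurableSet_ham ext_mem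
  ext_notMem triE mem_triE mem_nbr_triE triXi mem_freeVerts' abs_triXi_le Anch ham_neg)
open Crest.Agent.R144.Kor620 (P2 nrm FullE cnum measurable_cnum cover_neg Cfg sset gam ext_neg')
open Crest.Agent.R144.KorE761 (LatE LatFam latE_triE)
open Crest.ProbabilityR.TriHeights Crest.ProbabilityR.HexHeights
open scoped BigOperators ENNReal

/-- covering of the tails of the cluster number -/
theorem covAt_cnum {A c : ℝ} (hA : 1 ≤ A) (hc : 1 ≤ c) : ∃ C ε : ℝ, 1 ≤ C ∧ 0 < ε ∧ ε ≤ 1 ∧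
    ∀ (k : ℕ) (F : Finset P2) (E : Finset (P2 × P2)) (ξ : P2 → ℝ), FullE F E →
      (∀ z, |ξ z| ≤ 1 / 2) → ∀ (u v : P2), Adj u v → ∀ lam : ℝ, |lam| ≤ 1 / 2 →
      CovAt F E ξ c ε (C / A ^ k) (k + 2) u {h | k ≤ cnum F ξ u v lam h} := by
  classical
  obtain ⟨C, ε, h1, h2, h3, h4⟩ := cover_neg hA hc
  refine ⟨C, ε, h1, h2, h3, fun k F E ξ hE hξ u v huv lam hlam => ?_⟩
  obtain ⟨Fam, h5, h6, h7⟩ := h4 k u
  refine ⟨Fam, ?_, h6, ?_⟩
  · rw [one_div, inv_pow, ← div_eq_mul_inv] at h5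
    exact h5
  · rintro h ⟨hh, hk⟩
    have hl := abs_le.mp hlam
    have hcase : (Cfg F E ξ u v h ∧ k ≤ (sset F ξ v (gam u) h).card) ∨
        (Cfg F E (-ξ) u v (-h) ∧ k ≤ (sset F (-ξ) v (gam u) (-h)).card) := by
      simp only [Set.mem_ofPred_eq, cnum] at hk
      by_cases hv : ext F ξ h v ≤ lam
      · rw [if_pos hv] at hk
        exact Or.inl ⟨Cfg.of_half hE hξ huv hh (by linarith), hk⟩
      · rw [if_neg hv] at hk
        refine Or.inr ⟨Cfg.of_half hE (fun z => ?_) huv (ham_neg hh) ?_, hk⟩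
        · rw [Pi.neg_apply, abs_neg]; exact hξ z
        · rw [ext_neg']; linarith
    obtain ⟨T, hT, hf, ht⟩ := h7 F E ξ v h hcase
    exact ⟨T, hT, hf, hh, ht⟩

/-- one site -/
lemma single_le {F : Finset P2} {E : Finset (P2 × P2)} {ξ : P2 → ℝ} {D : Set (F → ℝ)}
    {μ : Measure (F → ℝ)} {c ε q : ℝ} {K₀ : ℝ≥0∞} {r : ℕ} {u : P2}
    (hTB : TBQ F E ξ μ c K₀ {z | nrm (z - u) ≤ r}) (hc : 0 ≤ c) (hε : 0 < ε) (hε1 : ε ≤ 1)
    (hcov : CovAt F E ξ c ε q r u D) (hμ : ∀ᵐ h ∂μ, h ∈ ham F E ξ) :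
    μ D ≤ ENNReal.ofReal q * K₀ := by
  have h := joint_le (F := F) (E := E) (ξ := ξ) ({0} : Finset ℕ) (fun _ => u) (fun _ => D) hTB hc
    hε hε1 (fun _ _ => hcov) (fun _ _ z hz => hz) (fun i hi j hj hij => by
      rw [mem_singleton] at hi hj; exact absurd (hi.trans hj.symm) hij)
  rw [card_singleton, pow_one] at h
  refine le_trans (le_of_eq ?_) h
  refine measure_congr ?_
  filter_upwards [hμ] with x hx
  apply propext
  change x ∈ D ↔ x ∈ ham F E ξ ∩ ⋂ i ∈ ({0} : Finset ℕ), D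
  constructor
  · exact fun h => ⟨hx, by simpa using h⟩
  · rintro ⟨_, h⟩; simpa using h

variable (I : Inst)

/-- side of the boxes -/
noncomputable def rh (n : ℕ) : ℕ := ⌈1 / Real.sqrt (I.δ n)⌉₊

/-- cut-off level -/
noncomputable def k2 (n : ℕ) : ℕ := Nat.log (24 ^ 4) (rh I n)

lemma rh_pos (n : ℕ) : 0 < rh I n := by
  have := Real.sqrt_pos.mpr (I.hM.1 n)
  exact Nat.ceil_pos.mpr (by positivity)

lemma one_div_delta_le (n : ℕ) : 1 / I.δ n ≤ (rh I n : ℝ) ^ 2 := by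
  have hδ := I.hM.1 n
  have h0 := Real.sqrt_pos.mpr hδ
  have h1 : 1 / Real.sqrt (I.δ n) ≤ rh I n := Nat.le_ceil _
  calc 1 / I.δ n = (1 / Real.sqrt (I.δ n)) ^ 2 := by
        rw [div_pow, one_pow, Real.sq_sqrt hδ.le]
    _ ≤ _ := pow_le_pow_left₀ (by positivity) h1 2

lemma rh_le {n : ℕ} (h : I.δ n ≤ 1) : (rh I n : ℝ) ≤ 2 / Real.sqrt (I.δ n) := by
  have hδ := I.hM.1 n
  have h0 := Real.sqrt_pos.mpr hδ
  have h1 : (rh I n : ℝ) < 1 / Real.sqrt (I.δ n) + 1 := Nat.ceil_lt_add_one (by positivity)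
  have h2 : Real.sqrt (I.δ n) ≤ 1 := by
    calc Real.sqrt (I.δ n) ≤ Real.sqrt 1 := Real.sqrt_le_sqrt h
      _ = 1 := Real.sqrt_one
  have h3 : 1 ≤ 1 / Real.sqrt (I.δ n) := by rw [le_div_iff₀ h0]; linarith
  have h4 : 2 / Real.sqrt (I.δ n) = 1 / Real.sqrt (I.δ n) + 1 / Real.sqrt (I.δ n) := by ring
  linarith

lemma delta_mul_rh_le {n : ℕ} (h : I.δ n ≤ 1) : I.δ n * rh I n ≤ 2 * Real.sqrt (I.δ n) := by
  have hδ := I.hM.1 n
  have h0 := Real.sqrt_pos.mpr hδ
  calc I.δ n * rh I n ≤ I.δ n * (2 / Real.sqrt (I.δ n)) := by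
        gcongr; exact rh_le I h
    _ = (Real.sqrt (I.δ n) * Real.sqrt (I.δ n)) * (2 / Real.sqrt (I.δ n)) := by
        rw [Real.mul_self_sqrt hδ.le]
    _ = _ := by field_simp

lemma tendsto_delta_rh : Tendsto (fun n => I.δ n * rh I n) atTop (𝓝 0) := by
  have h1 : Tendsto (fun n => 2 * Real.sqrt (I.δ n)) atTop (𝓝 0) := by
    have := (Real.continuous_sqrt.tendsto 0).comp I.hM.2.1
    simp only [Real.sqrt_zero] at this
    simpa using this.const_mul 2
  refine squeeze_zero' (Eventually.of_forall fun n => ?_) ?_ h1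
  · have := I.hM.1 n; positivity
  · filter_upwards [delta_small I one_pos] with n hn
    exact delta_mul_rh_le I hn.le

lemma tendsto_rh : Tendsto (fun n => rh I n) atTop atTop := by
  rw [tendsto_atTop]
  intro b
  filter_upwards [delta_small I (show (0 : ℝ) < 1 / ((b : ℝ) + 1) ^ 2 by positivity)] with n hn
  have hδ := I.hM.1 n
  have h1 := one_div_delta_le I n
  have h2 : ((b : ℝ) + 1) ^ 2 < 1 / I.δ n := by
    rw [lt_div_iff₀ hδ]
    rw [lt_div_iff₀ (by positivity)] at hn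
    linarith
  have h3 : ((b : ℝ) + 1) ^ 2 < (rh I n : ℝ) ^ 2 := h2.trans_le h1
  have h4 : (b : ℝ) + 1 < rh I n := lt_of_pow_lt_pow_left₀ 2 (by positivity) h3
  have h5 : (b : ℝ) < rh I n := by linarith
  exact_mod_cast h5.le

lemma pow_k2_le (n : ℕ) : (2 * 12) ^ (4 * k2 I n) ≤ rh I n := by
  rw [show (2 * 12 : ℕ) = 24 by norm_num, pow_mul]
  exact Nat.pow_log_le_self _ (rh_pos I n).ne'

lemma lt_pow_k2 (n : ℕ) : rh I n < (24 ^ 4) ^ (k2 I n + 1) :=
  Nat.lt_pow_succ_log_self (by norm_num) _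

lemma ae_ham (n : ℕ) : ∀ᵐ h ∂(I.P0 n), h ∈ ham (I.Fr n) (I.Ed n) (xe I n) := by
  rw [ham_xe]
  unfold Inst.P0 hamP
  exact Measure.ae_smul_measure (ae_restrict_mem measurableSet_ham) _

lemma real_le_sqrt {Ω : Type*} [MeasurableSpace Ω] (μ : Measure Ω) [IsProbabilityMeasure μ]
    (A : Set Ω) : μ.real A ≤ √(23 * μ.real A) := by
  have h0 : 0 ≤ μ.real A := measureReal_nonneg
  have h1 : μ.real A ≤ 1 := measureReal_le_one
  apply Real.le_sqrt_of_sq_le
  nlinarith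

/-- the cluster number of the ordered edge `p` -/
noncomputable abbrev NI (n : ℕ) (p : P2 × P2) (h : I.Fr n → ℝ) : ℕ :=
  cnum (I.Fr n) (xe I n) p.1 p.2 (lamI I n p) h

lemma measurable_NI (n : ℕ) (p : P2 × P2) : Measurable (NI I n p) := measurable_cnum _

/-- **window and tail of the cluster numbers** -/
theorem cnum_bounds {ε : ℝ} (hε : 0 < ε) :
    (∀ᶠ n in atTop, ∀ p : P2 × P2, p.1 ∈ I.Fr n → Adj p.1 p.2 → Off I ε n p.1 →
      I.P0 n {h | k2 I n < NI I n p h} ≤ ENNReal.ofReal (I.δ n ^ 18)) ∧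
    (∀ η : ℝ, 0 < η → ∃ k₁ : ℕ, 1 ≤ k₁ ∧ ∀ᶠ n in atTop, ∀ P : Finset (P2 × P2),
      (∀ p ∈ P, p.1 ∈ I.Fr n ∧ Adj p.1 p.2 ∧ Off I ε n p.1) →
      ENNReal.ofReal (I.δ n ^ 2) * ∑ p ∈ P, ∫⁻ h, (if k₁ ≤ NI I n p h ∧ NI I n p h ≤ k2 I n then
        ((12 : ℕ) : ℝ≥0∞) ^ NI I n p h else 0) ∂(I.P0 n) ≤ ENNReal.ofReal η) := by
  classical
  obtain ⟨ρ, hρ, C, hC, hTBQ⟩ := tbq_inst I hε
  obtain ⟨R, hR, hpos⟩ := pos_bound I
  have hC0 : 0 ≤ C := by linarith
  -- the base `A`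
  obtain ⟨A, hA⟩ : ∃ A : ℕ, C * (24 ^ 4) ^ 40 + 96 ≤ A := exists_nat_ge _
  have hA96 : 8 * 12 ≤ A := by
    have h1 : (96 : ℝ) ≤ A := by
      have : 0 ≤ C * (24 ^ 4) ^ 40 := by positivity
      linarith
    exact_mod_cast h1
  have hA1 : (1 : ℝ) ≤ A := by
    have : 1 ≤ A := by omega
    exact_mod_cast this
  have hAC : C * (24 ^ 4) ^ 40 ≤ (A : ℝ) := by linarith
  obtain ⟨CA, ε', hCA, hε', hε'1, hcov⟩ := covAt_cnum (A := (A : ℝ)) (c := 2304) hA1 (by norm_num)
  constructor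
  · -- tail
    filter_upwards [hTBQ, delta_small I (show (0 : ℝ) < min 1 (min (1 / (CA * C ^ 4)) (1 / 1)) by
      positivity), (tendsto_order.1 (tendsto_delta_rh I)).2 (ρ / 4) (by positivity),
      (tendsto_atTop.mp (tendsto_rh I)) 4] with n hn hδs hδr hr4 p hp1 hp2 hoff
    have hδ := I.hM.1 n
    have hδ1 : I.δ n < 1 := hδs.trans_le (min_le_left _ _)
    have hδC : I.δ n < 1 / (CA * C ^ 4) := hδs.trans_le ((min_le_right _ _).trans (min_le_left _ _))
    set k := k2 I n + 1 with hk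
    have hkr : k + 2 ≤ 4 * rh I n := by
      have h1 : k2 I n < rh I n := by
        calc k2 I n < 2 ^ k2 I n := Nat.lt_two_pow_self
          _ ≤ (2 * 12) ^ (k2 I n) := Nat.pow_le_pow_left (by norm_num) _
          _ ≤ (2 * 12) ^ (4 * k2 I n) := Nat.pow_le_pow_right (by norm_num) (by omega)
          _ ≤ rh I n := pow_k2_le I n
      omega
    have hTB := hn p.1 (k + 2) (by
      have h1 : ((k + 2 : ℕ) : ℝ) ≤ ((4 * rh I n : ℕ) : ℝ) := by exact_mod_cast hkr
      calc I.δ n * ((k + 2 : ℕ) : ℝ) ≤ I.δ n * ((4 * rh I n : ℕ) : ℝ) := by gcongr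
        _ = 4 * (I.δ n * rh I n) := by push_cast; ring
        _ ≤ ρ := by linarith) hoff
    have h1 := single_le hTB (by norm_num) hε' hε'1
      (hcov k (I.Fr n) (I.Ed n) (xe I n) (fullE_inst I n) (abs_xe_le I n) p.1 p.2 hp2 (lamI I n p)
        (abs_lamI_le I n p)) (ae_ham I n)
    refine le_trans (measure_mono fun h hh => ?_) (h1.trans ?_)
    · exact hh
    · rw [← ENNReal.ofReal_mul (by positivity)]
      apply ENNReal.ofReal_le_ofReal
      have h24 : (0 : ℝ) < 24 ^ 4 := by norm_num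
      -- `(C / A) ^ k ≤ rh ^ (-40)`
      have h2 : (C / A) ^ k ≤ 1 / (rh I n : ℝ) ^ 40 := by
        have h3 : C / A ≤ 1 / (24 ^ 4) ^ 40 := by
          rw [div_le_div_iff₀ (by linarith) (by positivity)]
          linarith
        have h4 : (rh I n : ℝ) ≤ (24 ^ 4) ^ k := by
          have := (lt_pow_k2 I n).le
          exact_mod_cast this
        calc (C / A) ^ k ≤ (1 / (24 ^ 4) ^ 40) ^ k := by gcongr
          _ = 1 / ((24 ^ 4) ^ k) ^ 40 := by
              rw [div_pow, one_pow, pow_right_comm]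
          _ ≤ 1 / (rh I n : ℝ) ^ 40 := by
              have : (0 : ℝ) < rh I n := by exact_mod_cast rh_pos I n
              gcongr
      have h5 : 1 / (rh I n : ℝ) ^ 40 ≤ I.δ n ^ 20 := by
        have h6 := one_div_delta_le I n
        have h7 : (1 / I.δ n) ^ 20 ≤ ((rh I n : ℝ) ^ 2) ^ 20 := by gcongr
        have h8 : (0 : ℝ) < rh I n := by exact_mod_cast rh_pos I n
        rw [div_le_iff₀ (by positivity)]
        calc (1 : ℝ) = I.δ n ^ 20 * (1 / I.δ n) ^ 20 := by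
              rw [← mul_pow, mul_one_div, div_self hδ.ne', one_pow]
          _ ≤ I.δ n ^ 20 * ((rh I n : ℝ) ^ 2) ^ 20 := by gcongr
          _ = _ := by rw [← pow_mul]
      have hA0 : (0 : ℝ) < A := by linarith
      calc CA / (A : ℝ) ^ k * (C / I.δ n * C ^ (k + 2))
          = (CA * C ^ 3) * (C / A) ^ k / I.δ n := by
            rw [div_pow]; field_simp; ring
        _ ≤ (CA * C ^ 3) * I.δ n ^ 20 / I.δ n := by
            have := h2.trans h5
            gcongr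
        _ = (CA * C ^ 3 * I.δ n) * I.δ n ^ 18 := by field_simp
        _ ≤ 1 * I.δ n ^ 18 := by
            have h9 : CA * C ^ 3 * I.δ n ≤ 1 := by
              rw [lt_div_iff₀ (by positivity)] at hδC
              have : CA * C ^ 3 ≤ CA * C ^ 4 := by
                have : C ^ 3 ≤ C ^ 4 := pow_le_pow_right₀ hC (by norm_num)
                gcongr
              nlinarith
            gcongr
        _ = _ := one_mul _
  · -- window
    intro η hη
    set η' : ℝ := η / (6 * (2 * R + 3) ^ 2) with hη'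
    have hη'0 : 0 < η' := by positivity
    have hC₃ : (1 : ℝ) ≤ 4 * C ^ 5 := by
      have : (1 : ℝ) ≤ C ^ 5 := one_le_pow₀ hC
      linarith
    obtain ⟨k₁, ρ₀, hk₁, H⟩ := uib_sets.{0} (B := 12) (Cf := 6) (κ₀ := 2) (A := A) (by norm_num)
      (by norm_num) hA96 (c := 2304) (by norm_num) hCA hC₃ hη'0
    refine ⟨k₁, hk₁, ?_⟩
    filter_upwards [hTBQ, hpos, delta_small I one_pos,
      (tendsto_order.1 (tendsto_delta_rh I)).2 (min (ρ / 4) 1) (by positivity),
      (tendsto_atTop.mp (tendsto_rh I)) ρ₀] with n hn hpn hδ1 hδr hr P hP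
    have hδ := I.hM.1 n
    have hδr1 : I.δ n * rh I n < ρ / 4 := hδr.trans_le (min_le_left _ _)
    have hδr2 : I.δ n * rh I n < 1 := hδr.trans_le (min_le_right _ _)
    set W : ℕ := ⌊R / I.δ n⌋₊ with hW
    have hWR : (W : ℝ) ≤ R / I.δ n := Nat.floor_le (by positivity)
    have key := H (rh I n) hr (k2 I n) (pow_k2_le I n) (I.Fr n) (I.Ed n) (xe I n) (I.P0 n) (I.P0 n)
      (ae_ham I n) (fun A _ => real_le_sqrt _ A) P (fun p => p.1) W
      (fun p hp => by
        have h1 := hpn p.1 (hP p hp).1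
        exact ⟨Nat.le_floor h1.1, Nat.le_floor h1.2⟩)
      (fun z S hS => by
        have h1 := (KorE761.card_adj_le S (fun p hp => (hP p (hS p hp).1).2.1) z).1
        rwa [filter_true_of_mem (fun p hp => (hS p hp).2)] at h1)
      (fun p k => {h | k ≤ NI I n p h})
      (fun p k => measurableSet_le measurable_const (measurable_NI I n p))
      (fun k _ _ => ⟨ε', hε', hε'1, fun p hp =>
        hcov k (I.Fr n) (I.Ed n) (xe I n) (fullE_inst I n) (abs_xe_le I n) p.1 p.2 (hP p hp).2.1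
          (lamI I n p) (abs_lamI_le I n p)⟩)
      (fun p hp => by
        refine (hn p.1 (4 * rh I n) ?_ (hP p hp).2.2).mono ?_ (Set.Subset.refl _)
        · push_cast; linarith
        · apply ENNReal.ofReal_le_ofReal
          have h1 := one_div_delta_le I n
          have h2 : (rh I n : ℝ) ≤ 2 ^ rh I n := by
            exact_mod_cast (Nat.lt_two_pow_self (n := rh I n)).le
          have hr1 : 1 ≤ rh I n := rh_pos I n
          calc C / I.δ n * C ^ (4 * rh I n) = C * (1 / I.δ n) * C ^ (4 * rh I n) := by ring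
            _ ≤ C ^ (rh I n) * (2 ^ rh I n) ^ 2 * C ^ (4 * rh I n) := by
                have h3 : C ≤ C ^ rh I n := le_self_pow₀ hC (by omega)
                have h4 : 1 / I.δ n ≤ ((2 : ℝ) ^ rh I n) ^ 2 := h1.trans (by gcongr)
                have h5 : 0 ≤ 1 / I.δ n := by positivity
                gcongr
            _ = (4 * C ^ 5) ^ rh I n := by
                have e1 : ((2 : ℝ) ^ rh I n) ^ 2 = 4 ^ rh I n := by
                  rw [pow_right_comm]; norm_num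
                have e2 : C ^ rh I n * C ^ (4 * rh I n) = (C ^ 5) ^ rh I n := by
                  rw [← pow_add, ← pow_mul]; congr 1; ring
                rw [e1, mul_pow, ← e2]; ring)
    calc ENNReal.ofReal (I.δ n ^ 2) * ∑ p ∈ P, ∫⁻ h, (if k₁ ≤ NI I n p h ∧ NI I n p h ≤ k2 I n then
          ((12 : ℕ) : ℝ≥0∞) ^ NI I n p h else 0) ∂(I.P0 n)
        ≤ ENNReal.ofReal (I.δ n ^ 2) * ∑ p ∈ P, ∑ k ∈ Ico k₁ (k2 I n + 1),
            ((12 : ℕ) : ℝ≥0∞) ^ k * I.P0 n {h | k ≤ NI I n p h} := by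
          gcongr with p hp
          exact lintegral_pow_window_le
            (fun k => measurableSet_le measurable_const (measurable_NI I n p)) _ _ _
      _ = ENNReal.ofReal (I.δ n ^ 2) * ∑ k ∈ Ico k₁ (k2 I n + 1),
            ((12 : ℕ) : ℝ≥0∞) ^ k * ∑ p ∈ P, I.P0 n {h | k ≤ NI I n p h} := by
          rw [sum_comm]
          congr 1
          exact sum_congr rfl fun k _ => by rw [mul_sum]
      _ ≤ ENNReal.ofReal (I.δ n ^ 2) *
            ENNReal.ofReal ((6 * (2 * W + 3 * rh I n) ^ 2 : ℕ) * η') := by gcongr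
      _ = ENNReal.ofReal (I.δ n ^ 2 * ((6 * (2 * W + 3 * rh I n) ^ 2 : ℕ) * η')) :=
          (ENNReal.ofReal_mul (by positivity)).symm
      _ ≤ ENNReal.ofReal η := by
          apply ENNReal.ofReal_le_ofReal
          push_cast
          have h1 : I.δ n * (2 * W + 3 * rh I n) ≤ 2 * R + 3 := by
            rw [le_div_iff₀ hδ] at hWR
            nlinarith
          have h2 : 0 ≤ I.δ n * (2 * W + 3 * rh I n) := by positivity
          calc I.δ n ^ 2 * (6 * (2 * (W : ℝ) + 3 * rh I n) ^ 2 * η')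
              = 6 * (I.δ n * (2 * W + 3 * rh I n)) ^ 2 * η' := by ring
            _ ≤ 6 * (2 * R + 3) ^ 2 * η' := by gcongr
            _ = η := by rw [hη']; field_simp

end Crest.Agent.R144.Uig714
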