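import Mathlib
import Crest.Agent.R144.Uig1_714
import Crest.Agent.R144.Uig6_714
import Crest.Agent.R144.Hpw1_812

/-!
# R144 (S0197), block UIG (helper714), part 7: crude bounds, `L¹` bound, uniform integrability

* `crude_abs`, `gr_crude` : crude polynomial bound of `∫ |∇Y|²`;
* `l1_bound` : `δ ∑ ∫ |∇Y| ≤ S √(∫ en Y)`;
* `uig` : uniform integrability of the gradients of nice fields, off the marks.
-/

set_option autoImplicit false

namespace Crest.Agent.R144.Uig714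

open MeasureTheory Finset Filter Topology
open Crest.Agent.R144.Uia714 Crest.Agent.R144.Skel144
open Crest.Agent.R144.Ham560 (ext ham nbr mem_nbr Fresh tight hamP measurableSet_ham ext_mem
  ext_notMem triE mem_triE mem_nbr_triE triXi mem_freeVerts' abs_triXi_le Anch ham_neg)
open Crest.Agent.R144.Kor620 (P2 nrm FullE cnum measurable_cnum)
open Crest.Agent.R144.KorE761 (LatE LatFam latE_triE gr RigidW lawT)
open Crest.ProbabilityR.TriHeights Crest.ProbabilityR.HexHeights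
open scoped BigOperators ENNReal NNReal

section abs

variable {Ω : Type*} [MeasurableSpace Ω] {P : Measure Ω} [IsProbabilityMeasure P]

/-- Cauchy-Schwarz on an event -/
lemma integral_abs_indicator_le {g : Ω → ℝ} (hg : Measurable g) (hgb : ∃ C, ∀ ω, |g ω| ≤ C)
    {A : Set Ω} (hA : MeasurableSet A) :
    ∫ ω, A.indicator (fun ω => |g ω|) ω ∂P ≤
      Real.sqrt (∫ ω, A.indicator (fun ω => g ω ^ 2) ω ∂P) * Real.sqrt (P.real A) := by
  obtain ⟨C, hC⟩ := hgb
  have h1 := cs (P := P) (f := A.indicator (fun ω => |g ω|)) (g := A.indicator 1)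
    (memLp_of_bdd ((hg.norm).indicator hA) (C := C) fun ω => by
      by_cases hω : ω ∈ A
      · rw [Set.indicator_of_mem hω, abs_abs]; exact hC ω
      · rw [Set.indicator_of_notMem hω, abs_zero]; exact (abs_nonneg _).trans (hC ω))
    (memLp_of_bdd (measurable_one.indicator hA) (C := 1) fun ω => by
      by_cases hω : ω ∈ A <;> simp [hω])
    (Eventually.of_forall fun ω => Set.indicator_nonneg (fun _ _ => abs_nonneg _) ω)
    (Eventually.of_forall fun ω => Set.indicator_nonneg (fun _ _ => zero_le_one) ω)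
  have e1 : ∀ ω, A.indicator (fun ω => |g ω|) ω * A.indicator (1 : Ω → ℝ) ω =
      A.indicator (fun ω => |g ω|) ω := fun ω => by
    by_cases hω : ω ∈ A <;> simp [hω]
  have e2 : ∀ ω, A.indicator (fun ω => |g ω|) ω ^ 2 = A.indicator (fun ω => g ω ^ 2) ω := fun ω => by
    by_cases hω : ω ∈ A <;> simp [hω]
  have e3 : ∫ ω, (A.indicator (1 : Ω → ℝ) ω) ^ 2 ∂P = P.real A := by
    rw [← integral_indicator_one hA]
    congr 1; funext ω
    by_cases hω : ω ∈ A <;> simp [hω]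
  simp only [e1, e2] at h1
  rwa [e3] at h1

/-- crude bound of the second moment -/
lemma crude_abs {g : Ω → ℝ} (hg : Measurable g) (hgb : ∃ C, ∀ ω, |g ω| ≤ C)
    {A : Set Ω} (hA : MeasurableSet A) {V K : ℝ} (hP : P.real Aᶜ ≤ 1 / 4)
    (hV : ∫ ω, g ω ^ 2 ∂P - (∫ ω, g ω ∂P) ^ 2 ≤ V)
    (hK : ∫ ω, A.indicator (fun ω => g ω ^ 2) ω ∂P ≤ K) :
    ∫ ω, g ω ^ 2 ∂P ≤ 2 * V + 4 * K := by
  obtain ⟨C, hC⟩ := hgb
  have hgi : Integrable g P := int_of_bdd hg hC
  have hgai : Integrable (fun ω => |g ω|) P := hgi.abs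
  have hg2 : Integrable (fun ω => g ω ^ 2) P := int_of_bdd (hg.pow_const 2) (C := C ^ 2) fun ω => by
    rw [abs_pow]; exact pow_le_pow_left₀ (abs_nonneg _) (hC ω) 2
  have h1 := integral_abs_indicator_le (P := P) hg ⟨C, hC⟩ hA
  have h2 := integral_abs_indicator_le (P := P) hg ⟨C, hC⟩ hA.compl
  set x2 := ∫ ω, g ω ^ 2 ∂P with hx2
  have hx0 : 0 ≤ x2 := integral_nonneg fun ω => sq_nonneg _
  have hK0 : 0 ≤ K := le_trans (integral_nonneg fun ω => Set.indicator_nonneg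
    (fun _ _ => sq_nonneg _) ω) hK
  have h3 : |∫ ω, g ω ∂P| ≤ ∫ ω, A.indicator (fun ω => |g ω|) ω ∂P +
      ∫ ω, Aᶜ.indicator (fun ω => |g ω|) ω ∂P := by
    rw [← integral_add (hgai.indicator hA) (hgai.indicator hA.compl)]
    refine (abs_integral_le_integral_abs).trans (le_of_eq ?_)
    congr 1; funext ω
    by_cases hω : ω ∈ A <;> simp [hω]
  have h4 : ∫ ω, A.indicator (fun ω => |g ω|) ω ∂P ≤ Real.sqrt K := by
    refine h1.trans ?_
    calc _ ≤ Real.sqrt K * Real.sqrt 1 :=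
          mul_le_mul (Real.sqrt_le_sqrt hK) (Real.sqrt_le_sqrt measureReal_le_one)
            (Real.sqrt_nonneg _) (Real.sqrt_nonneg _)
      _ = _ := by rw [Real.sqrt_one, mul_one]
  have h5 : ∫ ω, Aᶜ.indicator (fun ω => |g ω|) ω ∂P ≤ Real.sqrt x2 * Real.sqrt (1 / 4) := by
    refine h2.trans (mul_le_mul (Real.sqrt_le_sqrt ?_) (Real.sqrt_le_sqrt hP)
      (Real.sqrt_nonneg _) (Real.sqrt_nonneg _))
    refine integral_mono (hg2.indicator hA.compl) hg2 fun ω => ?_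
    by_cases hω : ω ∈ Aᶜ
    · rw [Set.indicator_of_mem hω]
    · rw [Set.indicator_of_notMem hω]; exact sq_nonneg _
  have h6 : (∫ ω, g ω ∂P) ^ 2 ≤ 2 * K + x2 / 2 := by
    have h7 : |∫ ω, g ω ∂P| ≤ Real.sqrt K + Real.sqrt x2 * Real.sqrt (1 / 4) := by linarith
    have h8 : Real.sqrt (1 / 4) ^ 2 = 1 / 4 := Real.sq_sqrt (by norm_num)
    have h9 := Real.sq_sqrt hK0
    have h10 := Real.sq_sqrt hx0
    have h11 : |∫ ω, g ω ∂P| ^ 2 ≤ (Real.sqrt K + Real.sqrt x2 * Real.sqrt (1 / 4)) ^ 2 :=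
      pow_le_pow_left₀ (abs_nonneg _) h7 2
    rw [sq_abs] at h11
    have h12 : (Real.sqrt K + Real.sqrt x2 * Real.sqrt (1 / 4)) ^ 2 ≤
        2 * Real.sqrt K ^ 2 + 2 * (Real.sqrt x2 * Real.sqrt (1 / 4)) ^ 2 := by
      nlinarith [sq_nonneg (Real.sqrt K - Real.sqrt x2 * Real.sqrt (1 / 4))]
    rw [mul_pow, h8, h9, h10] at h12
    linarith
  linarith

end abs

variable (I : Inst)

/-- nice fields: smooth, compactly supported, rigid on tight edges -/
structure NiceF (n : ℕ) (Y : (I.Fr n → ℝ) → (I.Fr n → ℝ)) : Prop where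
  smooth : ContDiff ℝ 1 Y
  cpt : HasCompactSupport Y
  rigid : RigidW (I.Fr n) (I.Ed n) (I.xi n) Y

variable {I}

lemma NiceF.rigid_xe {n : ℕ} {Y : (I.Fr n → ℝ) → (I.Fr n → ℝ)} (hY : NiceF I n Y) :
    RigidW (I.Fr n) (I.Ed n) (xe I n) Y := by
  intro h hh p hp hg
  rw [ham_xe] at hh
  have h1 := mem_verts_of_edge (mem_triE.mp hp)
  rw [ext_xe I n h1.1, ext_xe I n h1.2] at hg
  exact hY.rigid h hh p hp hg

lemma NiceF.bdd {n : ℕ} {Y : (I.Fr n → ℝ) → (I.Fr n → ℝ)} (hY : NiceF I n Y) (u v : P2) :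
    ∃ C, ∀ h, |gr Y u v h| ≤ C := by
  obtain ⟨C, hC⟩ := hY.cpt.exists_bound_of_continuous hY.smooth.continuous
  have hC0 : 0 ≤ C := (norm_nonneg _).trans (hC 0)
  have key : ∀ (z : P2) (h : I.Fr n → ℝ), |KorE761.lab Y z h| ≤ C := by
    intro z h
    unfold KorE761.lab
    by_cases hz : z ∈ I.Fr n
    · rw [ext_mem hz]
      exact (norm_le_pi_norm (Y h) ⟨z, hz⟩).trans (hC h)
    · rw [ext_notMem hz]; simpa using hC0
  refine ⟨2 * C, fun h => ?_⟩
  unfold gr
  have h1 := key u h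
  have h2 := key v h
  calc |KorE761.lab Y u h - KorE761.lab Y v h| ≤ |KorE761.lab Y u h| + |KorE761.lab Y v h| :=
        abs_sub _ _
    _ ≤ _ := by linarith

lemma NiceF.measurable_gr {n : ℕ} {Y : (I.Fr n → ℝ) → (I.Fr n → ℝ)} (hY : NiceF I n Y) (u v : P2) :
    Measurable (gr Y u v) := (KorE761.contDiff_gr hY.smooth u v).continuous.measurable

lemma NiceF.lip {n : ℕ} {Y : (I.Fr n → ℝ) → (I.Fr n → ℝ)} (hY : NiceF I n Y) (u v : P2) :
    ∃ L : ℝ≥0, LipschitzWith L (gr Y u v) := by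
  refine ContDiff.lipschitzWith_of_hasCompactSupport (𝕂 := ℝ) (n := 1) ?_
    (KorE761.contDiff_gr hY.smooth u v) one_ne_zero
  refine hY.cpt.mono' ?_
  intro h hh
  apply subset_tsupport
  rw [Function.mem_support] at hh ⊢
  intro h0
  apply hh
  unfold gr KorE761.lab
  rw [h0]
  have : ∀ z : P2, ext (I.Fr n) 0 (0 : I.Fr n → ℝ) z = 0 := fun z => by
    by_cases hz : z ∈ I.Fr n
    · rw [ext_mem hz]; rfl
    · rw [ext_notMem hz]; rfl
  rw [this, this, sub_zero]

/-- the energy -/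
noncomputable abbrev EnI (n : ℕ) (Y : (I.Fr n → ℝ) → (I.Fr n → ℝ)) : ℝ :=
  ∫ h, MW121.en Y h ∂(I.P0 n)

lemma lawT_zero (n : ℕ) : lawT (I.Fr n) (I.Ed n) (xe I n) 0 0 = I.P0 n := by
  unfold lawT
  have : (fun h : I.Fr n → ℝ => (∑ x, (0 : I.Fr n → ℝ) x * h x) + 0) = fun _ => (0 : ℝ) := by
    funext h; simp
  rw [this, tilted_const', hamP_xe, measure_univ, inv_one, one_smul]

lemma integrable_cont (n : ℕ) {f : (I.Fr n → ℝ) → ℝ} (hf : Continuous f) :
    Integrable f (I.P0 n) := by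
  rw [← lawT_zero]
  exact KorE761.integrable_lawT (I.anch n) (abs_xe_le I n) 0 0 hf

lemma EnI_nonneg (n : ℕ) (Y : (I.Fr n → ℝ) → (I.Fr n → ℝ)) : 0 ≤ EnI n Y :=
  integral_nonneg fun _ => Finset.sum_nonneg fun _ _ => Finset.sum_nonneg fun _ _ => sq_nonneg _

/-- variance of a gradient -/
lemma gr_var {n : ℕ} {Y : (I.Fr n → ℝ) → (I.Fr n → ℝ)} (hY : NiceF I n Y) (u v : P2) :
    ∫ h, gr Y u v h ^ 2 ∂(I.P0 n) - (∫ h, gr Y u v h ∂(I.P0 n)) ^ 2 ≤
      8 * ((I.Fr n).card : ℝ) ^ 3 * EnI n Y := by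
  obtain ⟨L, hL⟩ := hY.lip u v
  have h1 := Hpw812.var_hamP (I.anch n) (I.xi n) (hL.lipschitzOnWith (s := ham (I.Fr n) (I.Ed n) (I.xi n)))
  have hg : Integrable (gr Y u v) (I.P0 n) :=
    integrable_cont n (KorE761.contDiff_gr hY.smooth u v).continuous
  have hg2 : Integrable (fun h => gr Y u v h ^ 2) (I.P0 n) :=
    integrable_cont n ((KorE761.contDiff_gr hY.smooth u v).continuous.pow 2)
  set m := ∫ h, gr Y u v h ∂(I.P0 n) with hm
  have e1 : ∫ h, (gr Y u v h - m) ^ 2 ∂(I.P0 n) = ∫ h, gr Y u v h ^ 2 ∂(I.P0 n) - m ^ 2 := by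
    have : ∀ h, (gr Y u v h - m) ^ 2 = gr Y u v h ^ 2 - (2 * m) * gr Y u v h + m ^ 2 := fun h => by
      ring
    simp only [this]
    have i1 : Integrable (fun h => gr Y u v h ^ 2 - 2 * m * gr Y u v h) (I.P0 n) :=
      hg2.sub (hg.const_mul _)
    rw [integral_add i1 (integrable_const _), integral_sub hg2 (hg.const_mul _),
      integral_const_mul, integral_const, probReal_univ, one_smul, ← hm]
    ring
  rw [e1] at h1
  refine h1.trans ?_
  have h2 : ∫ h, ∑ w, fderiv ℝ (gr Y u v) h (Pi.single w 1) ^ 2 ∂(I.P0 n) ≤ 4 * EnI n Y := by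
    rw [← integral_const_mul]
    refine integral_mono (integrable_cont n ?_) (integrable_cont n ?_) fun h => ?_
    · exact Kor620.continuous_en (KorE761.contDiff_gr hY.smooth u v)
    · exact (KorE761.continuous_mwen hY.smooth).const_mul 4
    · have h3 := KorE761.en_gr_le hY.smooth u v h
      have h4 : ∀ z, KorE761.row Y h z ≤ MW121.en Y h := by
        intro z
        by_cases hz : z ∈ I.Fr n
        · rw [← KorE761.sum_row hY.smooth h]
          exact single_le_sum (f := fun z => KorE761.row Y h z)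
            (fun i _ => KorE761.row_nonneg Y h i) hz
        · rw [KorE761.row_notMem Y h hz]
          exact Finset.sum_nonneg fun _ _ => Finset.sum_nonneg fun _ _ => sq_nonneg _
      have h5 := h4 u
      have h6 := h4 v
      have h7 : ∑ w, fderiv ℝ (gr Y u v) h (Pi.single w 1) ^ 2 = Kor620.en (gr Y u v) h := rfl
      simp only
      rw [h7]
      linarith
  have hc : (0 : ℝ) ≤ 2 * ((I.Fr n).card : ℝ) ^ 3 := by positivity
  calc 2 * ((I.Fr n).card : ℝ) ^ 3 * ∫ h, ∑ w, fderiv ℝ (gr Y u v) h (Pi.single w 1) ^ 2 ∂(I.P0 n)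
      ≤ 2 * ((I.Fr n).card : ℝ) ^ 3 * (4 * EnI n Y) := by gcongr
    _ = _ := by ring

end Crest.Agent.R144.Uig714
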