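import Mathlib
import Crest.Agent.R144.Uig7_714

/-!
# R144 (S0197), block UIG (helper714), part 8: UIG and the a-priori bounds at Inst level

* `PairsOff` : finite sets of ordered lattice edges off the marks, first end free;
* `korn_inst` : `∑ ∫ (12 ^ N)⁻¹ |∇Y|² ≤ 1200 ∫ en Y`;
* `gr_crude` : `∫ |∇Y|² ≤ K / δ ^ 6 ∫ en Y`;
* `uig` : uniform integrability;
* `l1_bound` : `δ ∑ ∫ |∇Y| ≤ S √(∫ en Y + 1)`.
-/

set_option autoImplicit false

namespace Crest.Agent.R144.Uig714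

open MeasureTheory Finset Filter Topology
open Crest.Agent.R144.Uia714 Crest.Agent.R144.Skel144
open Crest.Agent.R144.Ham560 (ext ham nbr mem_nbr Fresh tight hamP measurableSet_ham ext_mem
  ext_notMem triE mem_triE mem_nbr_triE triXi mem_freeVerts' abs_triXi_le Anch ham_neg)
open Crest.Agent.R144.Kor620 (P2 nrm FullE cnum measurable_cnum)
open Crest.Agent.R144.KorE761 (LatE LatFam latE_triE gr RigidW lawT)
open Crest.ProbabilityR.TriHeights Crest.ProbabilityR.HexHeights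
open scoped BigOperators ENNReal NNReal

variable (I : Inst)

/-- ordered lattice edges off the marks, first end free -/
def PairsOff (ε : ℝ) (n : ℕ) (P : Finset (P2 × P2)) : Prop :=
  ∀ p ∈ P, p.1 ∈ I.Fr n ∧ Adj p.1 p.2 ∧ Off I ε n p.1

variable {I}

lemma inv_pow_le (N : ℕ) : ((12 : ℝ) ^ N)⁻¹ ≤ (1 / 6) ^ N / (N + 1) := by
  have h1 : ((N : ℝ) + 1) ≤ 2 ^ N := by
    have : N + 1 ≤ 2 ^ N := Nat.lt_two_pow_self
    exact_mod_cast this
  have h2 : (0 : ℝ) < N + 1 := by positivity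
  rw [le_div_iff₀ h2, one_div, inv_pow]
  have e : (12 : ℝ) ^ N = 6 ^ N * 2 ^ N := by rw [← mul_pow]; norm_num
  rw [e, mul_inv, mul_assoc]
  have h3 : ((2 : ℝ) ^ N)⁻¹ * (N + 1) ≤ 1 := by
    rw [inv_mul_le_iff₀ (by positivity), mul_one]; exact h1
  have h4 : (0 : ℝ) ≤ (6 ^ N)⁻¹ := by positivity
  nlinarith

lemma NI_le (n : ℕ) (p : P2 × P2) (h : I.Fr n → ℝ) : NI I n p h ≤ (I.Fr n).card := by
  unfold NI cnum
  split_ifs
  · simpa using Finset.card_le_univ (Kor620.sset (I.Fr n) (xe I n) p.2 (Kor620.gam p.1) h)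
  · simpa using Finset.card_le_univ (Kor620.sset (I.Fr n) (-(xe I n)) p.2 (Kor620.gam p.1) (-h))

lemma measurable_pow_NI (n : ℕ) (p : P2 × P2) : Measurable fun h => (12 : ℝ) ^ NI I n p h :=
  (measurable_from_top (f := fun k : ℕ => (12 : ℝ) ^ k)).comp (measurable_NI I n p)

/-- Korn, in terms of `12 ^ N` -/
theorem korn_inst {ε : ℝ} (hε : 0 < ε) : ∀ᶠ n in atTop, ∀ P, PairsOff I ε n P →
    ∀ Y : (I.Fr n → ℝ) → (I.Fr n → ℝ), NiceF I n Y →
    ∑ p ∈ P, ∫ h, (12 ^ NI I n p h)⁻¹ * |gr Y p.1 p.2 h| ^ 2 ∂(I.P0 n) ≤ 1200 * EnI n Y := by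
  filter_upwards [latFam_inst I hε] with n hn P hP Y hY
  have h1 := KorE761.korn_lattice (I.anch n) (latE_inst I n) (fullE_inst I n) (abs_xe_le I n)
    (hn P hP) (l := 0) (ε := 0) (fun x => by simp) (by norm_num) 0 hY.smooth hY.rigid_xe
  rw [lawT_zero] at h1
  refine le_trans (sum_le_sum fun p _ => ?_) h1
  have hc : Continuous (gr Y p.1 p.2) := (KorE761.contDiff_gr hY.smooth p.1 p.2).continuous
  obtain ⟨C, hC⟩ := hY.bdd p.1 p.2
  have hm1 : Measurable fun h => ((12 : ℝ) ^ NI I n p h)⁻¹ := (measurable_pow_NI n p).inv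
  have hm2 : Measurable fun h => ((1 : ℝ) / 6) ^ NI I n p h / (NI I n p h + 1) :=
    (measurable_from_top (f := fun k : ℕ => ((1 : ℝ) / 6) ^ k / (k + 1))).comp (measurable_NI I n p)
  have hg2 : ∀ h, |gr Y p.1 p.2 h| ^ 2 ≤ C ^ 2 := fun h => pow_le_pow_left₀ (abs_nonneg _) (hC h) 2
  refine integral_mono ?_ ?_ fun h => ?_
  · refine int_of_bdd (hm1.mul ((hY.measurable_gr p.1 p.2).abs.pow_const 2)) (C := C ^ 2) fun h => ?_
    rw [abs_of_nonneg (by positivity)]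
    calc ((12 : ℝ) ^ NI I n p h)⁻¹ * |gr Y p.1 p.2 h| ^ 2 ≤ 1 * C ^ 2 := by
          have : ((12 : ℝ) ^ NI I n p h)⁻¹ ≤ 1 := inv_le_one_of_one_le₀ (one_le_pow₀ (by norm_num))
          exact mul_le_mul this (hg2 h) (by positivity) zero_le_one
      _ = C ^ 2 := one_mul _
  · refine int_of_bdd (hm2.mul ((hY.measurable_gr p.1 p.2).pow_const 2)) (C := C ^ 2) fun h => ?_
    rw [abs_of_nonneg (by positivity)]
    have h3 : ((1 : ℝ) / 6) ^ NI I n p h / (NI I n p h + 1) ≤ 1 := by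
      rw [div_le_one (by positivity)]
      have : ((1 : ℝ) / 6) ^ NI I n p h ≤ 1 := pow_le_one₀ (by norm_num) (by norm_num)
      have h4 : (0 : ℝ) ≤ NI I n p h := Nat.cast_nonneg _
      linarith
    have h5 := hg2 h
    rw [sq_abs] at h5
    calc ((1 : ℝ) / 6) ^ NI I n p h / (NI I n p h + 1) * gr Y p.1 p.2 h ^ 2 ≤ 1 * C ^ 2 :=
          mul_le_mul h3 h5 (by positivity) zero_le_one
      _ = C ^ 2 := one_mul _
  · simp only
    rw [sq_abs]
    exact mul_le_mul_of_nonneg_right (inv_pow_le _) (sq_nonneg _)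

/-- number of free sites -/
theorem card_bound : ∃ R : ℝ, 1 ≤ R ∧ ∀ᶠ n in atTop, ((I.Fr n).card : ℝ) ≤ R / I.δ n ^ 2 := by
  obtain ⟨R, hR, h⟩ := pos_bound I
  refine ⟨(3 * R) ^ 2, by nlinarith, ?_⟩
  filter_upwards [h, delta_small I one_pos] with n hn hδ1
  have hδ := I.hM.1 n
  set W : ℕ := ⌊R / I.δ n⌋₊ with hW
  have hWR : (W : ℝ) ≤ R / I.δ n := Nat.floor_le (by positivity)
  have hsub : I.Fr n ⊆ Icc (-(W : ℤ)) (W : ℤ) ×ˢ Icc (-(W : ℤ)) (W : ℤ) := by
    intro u hu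
    have h1 := Nat.le_floor (hn u hu).1
    have h2 := Nat.le_floor (hn u hu).2
    rw [← hW] at h1 h2
    rw [mem_product, mem_Icc, mem_Icc]
    omega
  have h1 := card_le_card hsub
  rw [card_grid] at h1
  have h2 : ((I.Fr n).card : ℝ) ≤ (2 * (W : ℝ) + 1) ^ 2 := by exact_mod_cast h1
  have h3 : (1 : ℝ) ≤ R / I.δ n := by rw [le_div_iff₀ hδ]; linarith
  have h4 : 2 * (W : ℝ) + 1 ≤ 3 * (R / I.δ n) := by linarith
  calc ((I.Fr n).card : ℝ) ≤ (2 * (W : ℝ) + 1) ^ 2 := h2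
    _ ≤ (3 * (R / I.δ n)) ^ 2 := by gcongr
    _ = (3 * R) ^ 2 / I.δ n ^ 2 := by field_simp

/-- number of pairs -/
theorem card_pairs_bound {ε : ℝ} : ∃ C₀ : ℝ, 1 ≤ C₀ ∧ ∀ᶠ n in atTop, ∀ P, PairsOff I ε n P →
    I.δ n ^ 2 * (P.card : ℝ) ≤ C₀ := by
  classical
  obtain ⟨R, hR, h⟩ := card_bound (I := I)
  refine ⟨6 * R, by linarith, ?_⟩
  filter_upwards [h] with n hn P hP
  have hδ := I.hM.1 n
  have h1 : P.card ≤ 6 * (P.image Prod.fst).card := by
    refine card_le_mul_card_image P 6 fun z _ => ?_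
    exact (KorE761.card_adj_le P (fun p hp => (hP p hp).2.1) z).1
  have h2 : (P.image Prod.fst).card ≤ (I.Fr n).card := by
    refine card_le_card fun z hz => ?_
    obtain ⟨p, hp, rfl⟩ := mem_image.mp hz
    exact (hP p hp).1
  have h3 : (P.card : ℝ) ≤ 6 * (R / I.δ n ^ 2) := by
    have : (P.card : ℝ) ≤ 6 * ((I.Fr n).card : ℝ) := by
      exact_mod_cast h1.trans (Nat.mul_le_mul_left _ h2)
    linarith
  calc I.δ n ^ 2 * (P.card : ℝ) ≤ I.δ n ^ 2 * (6 * (R / I.δ n ^ 2)) := by gcongr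
    _ = 6 * R := by field_simp

lemma twelve_pow_k2_le (n : ℕ) : (12 : ℝ) ^ k2 I n ≤ rh I n := by
  have : 12 ^ k2 I n ≤ rh I n := by
    calc 12 ^ k2 I n ≤ (2 * 12) ^ (k2 I n) := Nat.pow_le_pow_left (by norm_num) _
      _ ≤ (2 * 12) ^ (4 * k2 I n) := Nat.pow_le_pow_right (by norm_num) (by omega)
      _ ≤ rh I n := pow_k2_le I n
  exact_mod_cast this

/-- tail in real form -/
lemma tail_real {n : ℕ} {p : P2 × P2}
    (h : I.P0 n {h | k2 I n < NI I n p h} ≤ ENNReal.ofReal (I.δ n ^ 18)) :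
    (I.P0 n).real {h | k2 I n < NI I n p h} ≤ I.δ n ^ 18 := by
  have hδ := I.hM.1 n
  rw [measureReal_def]
  exact ENNReal.toReal_le_of_le_ofReal (by positivity) h

/-- **crude bound of the second moment of a gradient** -/
theorem gr_crude {ε : ℝ} (hε : 0 < ε) : ∃ K : ℝ, 0 ≤ K ∧ ∀ᶠ n in atTop, ∀ p : P2 × P2,
    p.1 ∈ I.Fr n → Adj p.1 p.2 → Off I ε n p.1 →
    ∀ Y : (I.Fr n → ℝ) → (I.Fr n → ℝ), NiceF I n Y →
    ∫ h, |gr Y p.1 p.2 h| ^ 2 ∂(I.P0 n) ≤ K / I.δ n ^ 6 * EnI n Y := by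
  obtain ⟨R, hR, hcard⟩ := card_bound (I := I)
  refine ⟨16 * R ^ 3 + 9600, by positivity, ?_⟩
  filter_upwards [hcard, korn_inst (I := I) hε, (cnum_bounds I hε).1,
    delta_small I (show (0 : ℝ) < 1 / 4 by norm_num)] with n hcn hkn htn hδ4 p hp1 hp2 hoff Y hY
  have hδ := I.hM.1 n
  have hE := EnI_nonneg n Y
  have hP : PairsOff I ε n {p} := fun q hq => by
    rw [mem_singleton] at hq; subst hq; exact ⟨hp1, hp2, hoff⟩
  have hk := hkn {p} hP Y hY
  rw [sum_singleton] at hk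
  have htail := tail_real (htn p hp1 hp2 hoff)
  set A : Set (I.Fr n → ℝ) := {h | NI I n p h ≤ k2 I n} with hA
  have hAm : MeasurableSet A := measurableSet_le (measurable_NI I n p) measurable_const
  have hAc : Aᶜ = {h | k2 I n < NI I n p h} := by
    ext h; simp [hA]
  obtain ⟨C, hC⟩ := hY.bdd p.1 p.2
  have hC2 : ∀ h, |gr Y p.1 p.2 h| ^ 2 ≤ C ^ 2 := fun h =>
    pow_le_pow_left₀ (abs_nonneg _) (hC h) 2
  have h1 := crude_abs (P := I.P0 n) (hY.measurable_gr p.1 p.2) ⟨C, hC⟩ hAm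
    (V := 8 * ((I.Fr n).card : ℝ) ^ 3 * EnI n Y) (K := rh I n * (1200 * EnI n Y))
    (by
      rw [hAc]
      refine htail.trans ?_
      calc I.δ n ^ 18 ≤ I.δ n ^ 1 := pow_le_pow_of_le_one hδ.le (by linarith) (by norm_num)
        _ ≤ 1 / 4 := by rw [pow_one]; exact hδ4.le)
    (gr_var hY p.1 p.2)
    (by
      have hi : Integrable (fun h => ((12 : ℝ) ^ NI I n p h)⁻¹ * |gr Y p.1 p.2 h| ^ 2) (I.P0 n) := by
        refine int_of_bdd ((measurable_pow_NI n p).inv.mul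
          ((hY.measurable_gr p.1 p.2).abs.pow_const 2)) (C := C ^ 2) fun h => ?_
        rw [abs_of_nonneg (by positivity)]
        calc ((12 : ℝ) ^ NI I n p h)⁻¹ * |gr Y p.1 p.2 h| ^ 2 ≤ 1 * C ^ 2 := by
              have : ((12 : ℝ) ^ NI I n p h)⁻¹ ≤ 1 :=
                inv_le_one_of_one_le₀ (one_le_pow₀ (by norm_num))
              exact mul_le_mul this (hC2 h) (by positivity) zero_le_one
          _ = C ^ 2 := one_mul _
      calc ∫ h, A.indicator (fun h => gr Y p.1 p.2 h ^ 2) h ∂(I.P0 n)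
          ≤ ∫ h, (rh I n : ℝ) * (((12 : ℝ) ^ NI I n p h)⁻¹ * |gr Y p.1 p.2 h| ^ 2) ∂(I.P0 n) := by
            refine integral_mono ?_ (hi.const_mul _) fun h => ?_
            · refine Integrable.indicator ?_ hAm
              exact int_of_bdd ((hY.measurable_gr p.1 p.2).pow_const 2) (C := C ^ 2) fun h => by
                rw [abs_pow]; exact hC2 h
            · by_cases hh : h ∈ A
              · rw [Set.indicator_of_mem hh]
                simp only
                have h2 : (12 : ℝ) ^ NI I n p h ≤ rh I n := by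
                  have h3 : (12 : ℝ) ^ NI I n p h ≤ 12 ^ k2 I n :=
                    pow_le_pow_right₀ (by norm_num) hh
                  exact h3.trans (twelve_pow_k2_le n)
                have h4 : 1 ≤ (rh I n : ℝ) * ((12 : ℝ) ^ NI I n p h)⁻¹ := by
                  rw [← div_eq_mul_inv, one_le_div (by positivity)]; exact h2
                rw [← mul_assoc, sq_abs]
                have := sq_nonneg (gr Y p.1 p.2 h)
                nlinarith
              · rw [Set.indicator_of_notMem hh]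
                positivity
        _ = rh I n * ∫ h, ((12 : ℝ) ^ NI I n p h)⁻¹ * |gr Y p.1 p.2 h| ^ 2 ∂(I.P0 n) :=
            integral_const_mul _ _
        _ ≤ _ := by gcongr)
  simp only [sq_abs]
  refine h1.trans ?_
  have hδ1 : I.δ n ≤ 1 := by linarith
  have h5 : ((I.Fr n).card : ℝ) ^ 3 ≤ R ^ 3 / I.δ n ^ 6 := by
    calc ((I.Fr n).card : ℝ) ^ 3 ≤ (R / I.δ n ^ 2) ^ 3 := by gcongr
      _ = R ^ 3 / I.δ n ^ 6 := by rw [div_pow, ← pow_mul]
  have h6 : (rh I n : ℝ) ≤ 2 / I.δ n ^ 6 := by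
    refine (rh_le I hδ1).trans ?_
    apply div_le_div_of_nonneg_left (by norm_num) (by positivity)
    calc I.δ n ^ 6 ≤ I.δ n ^ 1 := pow_le_pow_of_le_one hδ.le hδ1 (by norm_num)
      _ = Real.sqrt (I.δ n) * Real.sqrt (I.δ n) := by rw [pow_one, Real.mul_self_sqrt hδ.le]
      _ ≤ Real.sqrt (I.δ n) * 1 := by
          gcongr
          calc Real.sqrt (I.δ n) ≤ Real.sqrt 1 := Real.sqrt_le_sqrt hδ1
            _ = 1 := Real.sqrt_one
      _ = _ := mul_one _
  calc 2 * (8 * ((I.Fr n).card : ℝ) ^ 3 * EnI n Y) + 4 * (rh I n * (1200 * EnI n Y))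
      ≤ 2 * (8 * (R ^ 3 / I.δ n ^ 6) * EnI n Y) + 4 * ((2 / I.δ n ^ 6) * (1200 * EnI n Y)) := by
        gcongr
    _ = (16 * R ^ 3 + 9600) / I.δ n ^ 6 * EnI n Y := by ring

end Crest.Agent.R144.Uig714
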