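import Mathlib
import Crest.Agent.R144.Uig8_714

/-!
# R144 (S0197), block UIG (helper714), part 9: **UIG** and the `L¹` bound at Inst level

* `uig` : uniform integrability of the gradients of nice fields, off the marks;
* `l1_bound` : `δ ∑ ∫ |∇Y| ≤ S √(∫ en Y + 1)`;
* `small_area` : small sets of edges carry little gradient.
-/

set_option autoImplicit false

namespace Crest.Agent.R144.Uig714

open MeasureTheory Finset Filter Topology
open Crest.Agent.R144.Uia714 Crest.Agent.R144.Skel144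
open Crest.Agent.R144.Ham560 (ext ham nbr mem_nbr Fresh tight hamP measurableSet_ham ext_mem
  ext_notMem triE mem_triE mem_nbr_triE triXi mem_freeVerts' abs_triXi_le Anch ham_neg)
open Crest.Agent.R144.Kor620 (P2 nrm FullE cnum measurable_cnum)
open Crest.Agent.R144.KorE761 (LatE LatFam latE_triE gr RigidW lawT)
open Crest.ProbabilityR.TriHeights Crest.ProbabilityR.HexHeights
open scoped BigOperators ENNReal NNReal

variable {I : Inst}

/-- the window moment, real form -/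
theorem window_real {ε : ℝ} (hε : 0 < ε) {η : ℝ} (hη : 0 < η) : ∃ k₁ : ℕ, ∀ᶠ n in atTop,
    ∀ P, PairsOff I ε n P → I.δ n ^ 2 * ∑ p ∈ P, ∫ h, (if k₁ < NI I n p h ∧ NI I n p h ≤ k2 I n then
      (12 : ℝ) ^ NI I n p h else 0) ∂(I.P0 n) ≤ η := by
  obtain ⟨k₁, _, h⟩ := (cnum_bounds I hε).2 η hη
  refine ⟨k₁, ?_⟩
  filter_upwards [h] with n hn P hP
  have hδ := I.hM.1 n
  have h1 := hn P hP
  have hm : ∀ p, Measurable fun h => (if k₁ < NI I n p h ∧ NI I n p h ≤ k2 I n then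
      (12 : ℝ) ^ NI I n p h else 0) := fun p =>
    (measurable_from_top (f := fun k : ℕ => if k₁ < k ∧ k ≤ k2 I n then (12 : ℝ) ^ k else 0)).comp
      (measurable_NI I n p)
  have h0 : ∀ p h, 0 ≤ (if k₁ < NI I n p h ∧ NI I n p h ≤ k2 I n then
      (12 : ℝ) ^ NI I n p h else 0) := fun p h => by split_ifs <;> positivity
  have h2 : ∀ p, ENNReal.ofReal (∫ h, (if k₁ < NI I n p h ∧ NI I n p h ≤ k2 I n then
      (12 : ℝ) ^ NI I n p h else 0) ∂(I.P0 n)) ≤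
      ∫⁻ h, (if k₁ ≤ NI I n p h ∧ NI I n p h ≤ k2 I n then
        ((12 : ℕ) : ℝ≥0∞) ^ NI I n p h else 0) ∂(I.P0 n) := by
    intro p
    rw [ofReal_integral_eq_lintegral_ofReal]
    · refine lintegral_mono fun h => ?_
      by_cases hc : k₁ < NI I n p h ∧ NI I n p h ≤ k2 I n
      · simp only [if_pos hc, if_pos (⟨hc.1.le, hc.2⟩ : k₁ ≤ NI I n p h ∧ NI I n p h ≤ k2 I n)]
        rw [ENNReal.ofReal_pow (by norm_num)]
        norm_num
      · simp only [if_neg hc, ENNReal.ofReal_zero]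
        exact bot_le
    · refine int_of_bdd (hm p) (C := 12 ^ k2 I n) fun h => ?_
      rw [abs_of_nonneg (h0 p h)]
      split_ifs with hc
      · exact pow_le_pow_right₀ (by norm_num) hc.2
      · positivity
    · exact Eventually.of_forall (h0 p)
  rw [← ENNReal.ofReal_le_ofReal_iff hη.le]
  refine le_trans (le_of_eq ?_) (le_trans (mul_le_mul' le_rfl (sum_le_sum fun p _ => h2 p)) h1)
  rw [ENNReal.ofReal_mul (by positivity), ENNReal.ofReal_sum_of_nonneg]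
  exact fun p _ => integral_nonneg (h0 p)

/-- the common application of `ui_abs` -/
theorem ui_inst {ε : ℝ} (hε : 0 < ε) : ∃ K C₀ : ℝ, 0 ≤ K ∧ 1 ≤ C₀ ∧ ∀ η₁ : ℝ, 0 < η₁ →
    ∃ k₁ : ℕ, ∀ᶠ n in atTop, I.δ n < 1 ∧ ∀ P, PairsOff I ε n P → I.δ n ^ 2 * (P.card : ℝ) ≤ C₀ ∧
      ∀ Y : (I.Fr n → ℝ) → (I.Fr n → ℝ), NiceF I n Y → ∀ (t Λ η₂ : ℝ), EnI n Y ≤ t → 0 < Λ →
      0 ≤ η₂ → K * t * I.δ n ^ 10 ≤ η₂ ^ 2 →
      I.δ n * ∑ p ∈ P, ∫ h, (if Λ * I.δ n < |gr Y p.1 p.2 h| then |gr Y p.1 p.2 h| else 0) ∂(I.P0 n) ≤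
        12 ^ k₁ * (1200 * t) / Λ + Real.sqrt (1200 * t * η₁) + C₀ * η₂ := by
  obtain ⟨K, hK, hcr⟩ := gr_crude (I := I) hε
  obtain ⟨C₀, hC₀, hcard⟩ := card_pairs_bound (I := I) (ε := ε)
  refine ⟨K, C₀, hK, hC₀, fun η₁ hη₁ => ?_⟩
  obtain ⟨k₁, hwin⟩ := window_real (I := I) hε hη₁
  refine ⟨k₁, ?_⟩
  filter_upwards [hcr, hcard, hwin, korn_inst (I := I) hε, (cnum_bounds I hε).1,
    delta_small I one_pos] with n hcr hcard hwin hkn htn hδ1
  refine ⟨hδ1, fun P hP => ⟨hcard P hP, fun Y hY t Λ η₂ ht hΛ hη₂ hsm => ?_⟩⟩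
  have hδ := I.hM.1 n
  have hE := EnI_nonneg n Y
  have ht0 : 0 ≤ t := hE.trans ht
  refine ui_abs (P := I.P0 n) P (g := fun p h => |gr Y p.1 p.2 h|) (N := fun p => NI I n p)
    (fun p => (hY.measurable_gr p.1 p.2).abs) (fun p h => abs_nonneg _)
    (fun p => hY.bdd p.1 p.2) (fun p => measurable_NI I n p)
    (Nmax := (I.Fr n).card) (fun p h => NI_le n p h) hδ (by norm_num) hΛ hη₂
    ((hkn P hP Y hY).trans (by gcongr)) (hwin P hP) (fun p hp => ?_) (hcard P hP)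
  have h1 := hcr p (hP p hp).1 (hP p hp).2.1 (hP p hp).2.2 Y hY
  have h2 := tail_real (htn p (hP p hp).1 (hP p hp).2.1 (hP p hp).2.2)
  calc (∫ h, |gr Y p.1 p.2 h| ^ 2 ∂(I.P0 n)) * (I.P0 n).real {h | k2 I n < NI I n p h}
      ≤ (K / I.δ n ^ 6 * EnI n Y) * I.δ n ^ 18 := by
        exact mul_le_mul h1 h2 measureReal_nonneg (by positivity)
    _ = K * EnI n Y * I.δ n ^ 10 * I.δ n ^ 2 := by field_simp
    _ ≤ K * t * I.δ n ^ 10 * I.δ n ^ 2 := by gcongr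
    _ ≤ η₂ ^ 2 * I.δ n ^ 2 := by gcongr
    _ = (η₂ * I.δ n) ^ 2 := by ring

/-- **UIG**: uniform integrability of the gradients of nice fields, off the marks. -/
theorem uig {ε : ℝ} (hε : 0 < ε) (C : ℝ) {η : ℝ} (hη : 0 < η) : ∃ Λ : ℝ, 0 < Λ ∧ ∀ᶠ n in atTop,
    ∀ P, PairsOff I ε n P → ∀ Y : (I.Fr n → ℝ) → (I.Fr n → ℝ), NiceF I n Y → EnI n Y ≤ C →
      I.δ n * ∑ p ∈ P, ∫ h, (if Λ * I.δ n < |gr Y p.1 p.2 h| then |gr Y p.1 p.2 h| else 0) ∂(I.P0 n) ≤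
        η := by
  obtain ⟨K, C₀, hK, hC₀, H⟩ := ui_inst (I := I) hε
  set t : ℝ := max C 0 + 1 with ht
  have ht0 : 0 < t := by positivity
  have hCt : C ≤ t := (le_max_left _ _).trans (by linarith)
  set η₁ : ℝ := (η / 3) ^ 2 / (1200 * t) with hη₁
  obtain ⟨k₁, hk⟩ := H η₁ (by positivity)
  set η₂ : ℝ := η / (3 * C₀) with hη₂
  have hη₂0 : 0 < η₂ := by positivity
  refine ⟨3 * (12 ^ k₁ * (1200 * t)) / η, by positivity, ?_⟩
  filter_upwards [hk, delta_small I (show 0 < min 1 (η₂ ^ 2 / (K * t + 1)) by positivity)]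
    with n hn hδs P hP Y hY hE
  have hδ := I.hM.1 n
  have hδ1 : I.δ n < 1 := hδs.trans_le (min_le_left _ _)
  have hδ2 : I.δ n < η₂ ^ 2 / (K * t + 1) := hδs.trans_le (min_le_right _ _)
  have h1 := (hn.2 P hP).2 Y hY t (3 * (12 ^ k₁ * (1200 * t)) / η) η₂ (hE.trans hCt)
    (by positivity) hη₂0.le (by
      rw [lt_div_iff₀ (by positivity)] at hδ2
      calc K * t * I.δ n ^ 10 ≤ K * t * I.δ n ^ 1 := by
            gcongr ?_ * ?_
            exact pow_le_pow_of_le_one hδ.le hδ1.le (by norm_num)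
        _ ≤ η₂ ^ 2 := by
            rw [pow_one]
            nlinarith)
  refine h1.trans (le_of_eq ?_)
  have e1 : 12 ^ k₁ * (1200 * t) / (3 * (12 ^ k₁ * (1200 * t)) / η) = η / 3 := by
    field_simp
  have e2 : Real.sqrt (1200 * t * η₁) = η / 3 := by
    rw [hη₁, mul_div_cancel₀ _ (by positivity)]
    exact Real.sqrt_sq (by positivity)
  have e3 : C₀ * η₂ = η / 3 := by rw [hη₂]; field_simp
  rw [e1, e2, e3]; ring

/-- pieces below the level -/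
lemma sum_abs_split {n : ℕ} {P : Finset (P2 × P2)} {Y : (I.Fr n → ℝ) → (I.Fr n → ℝ)}
    (hY : NiceF I n Y) {Λ : ℝ} (hΛ : 0 ≤ Λ) :
    I.δ n * ∑ p ∈ P, ∫ h, |gr Y p.1 p.2 h| ∂(I.P0 n) ≤
      I.δ n * ∑ p ∈ P, ∫ h, (if Λ * I.δ n < |gr Y p.1 p.2 h| then |gr Y p.1 p.2 h| else 0) ∂(I.P0 n) +
        Λ * (I.δ n ^ 2 * P.card) := by
  have hδ := I.hM.1 n
  have key : ∀ p : P2 × P2, ∫ h, |gr Y p.1 p.2 h| ∂(I.P0 n) ≤
      ∫ h, (if Λ * I.δ n < |gr Y p.1 p.2 h| then |gr Y p.1 p.2 h| else 0) ∂(I.P0 n) + Λ * I.δ n := by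
    intro p
    obtain ⟨C, hC⟩ := hY.bdd p.1 p.2
    have hm := (hY.measurable_gr p.1 p.2).abs
    have i1 : Integrable (fun h => if Λ * I.δ n < |gr Y p.1 p.2 h| then |gr Y p.1 p.2 h| else 0)
        (I.P0 n) := by
      refine int_of_bdd (Measurable.ite (measurableSet_lt measurable_const hm) hm
        measurable_const) (C := C) fun h => ?_
      split_ifs
      · rw [abs_abs]; exact hC h
      · rw [abs_zero]; exact (abs_nonneg _).trans (hC h)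
    have i2 : Integrable (fun h => |gr Y p.1 p.2 h|) (I.P0 n) :=
      int_of_bdd hm (C := C) fun h => by rw [abs_abs]; exact hC h
    calc ∫ h, |gr Y p.1 p.2 h| ∂(I.P0 n)
        ≤ ∫ h, ((if Λ * I.δ n < |gr Y p.1 p.2 h| then |gr Y p.1 p.2 h| else 0) + Λ * I.δ n)
            ∂(I.P0 n) := by
          refine integral_mono i2 (i1.add (integrable_const _)) fun h => ?_
          have h0 : 0 ≤ Λ * I.δ n := by positivity
          simp only
          split_ifs with hc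
          · linarith
          · linarith
      _ = _ := by
          rw [integral_add i1 (integrable_const _), integral_const, probReal_univ, one_smul]
  calc I.δ n * ∑ p ∈ P, ∫ h, |gr Y p.1 p.2 h| ∂(I.P0 n)
      ≤ I.δ n * ∑ p ∈ P, (∫ h, (if Λ * I.δ n < |gr Y p.1 p.2 h| then |gr Y p.1 p.2 h| else 0)
          ∂(I.P0 n) + Λ * I.δ n) := by
        gcongr with p hp
        exact key p
    _ = _ := by
        rw [sum_add_distrib, sum_const, nsmul_eq_mul]; ring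

/-- **`L¹` bound of the gradients** -/
theorem l1_bound {ε : ℝ} (hε : 0 < ε) : ∃ S : ℝ, 0 < S ∧ ∀ᶠ n in atTop,
    ∀ P, PairsOff I ε n P → ∀ Y : (I.Fr n → ℝ) → (I.Fr n → ℝ), NiceF I n Y →
      I.δ n * ∑ p ∈ P, ∫ h, |gr Y p.1 p.2 h| ∂(I.P0 n) ≤ S * Real.sqrt (EnI n Y + 1) := by
  obtain ⟨K, C₀, hK, hC₀, H⟩ := ui_inst (I := I) hε
  obtain ⟨k₁, hk⟩ := H 1 one_pos
  refine ⟨12 ^ k₁ * 1200 + Real.sqrt 1200 + C₀ * Real.sqrt K + C₀, by positivity, ?_⟩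
  filter_upwards [hk] with n hn P hP Y hY
  have hδ := I.hM.1 n
  have hδ1 := hn.1
  have hE := EnI_nonneg n Y
  set s := Real.sqrt (EnI n Y + 1) with hs
  have hs0 : 0 < s := Real.sqrt_pos.mpr (by linarith)
  have hs2 : s ^ 2 = EnI n Y + 1 := Real.sq_sqrt (by linarith)
  have h1 := (hn.2 P hP).2 Y hY (EnI n Y + 1) s (Real.sqrt K * s) (by linarith) hs0
    (by positivity) (by
      rw [mul_pow, Real.sq_sqrt hK, hs2]
      have : I.δ n ^ 10 ≤ 1 := pow_le_one₀ hδ.le hδ1.le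
      have h2 : 0 ≤ K * (EnI n Y + 1) := by positivity
      nlinarith)
  refine (sum_abs_split hY hs0.le).trans ?_
  have h3 := (hn.2 P hP).1
  have e1 : 12 ^ k₁ * (1200 * (EnI n Y + 1)) / s = 12 ^ k₁ * 1200 * s := by
    rw [← hs2]; field_simp
  have e2 : Real.sqrt (1200 * (EnI n Y + 1) * 1) = Real.sqrt 1200 * s := by
    rw [mul_one, Real.sqrt_mul (by norm_num)]
  rw [e1, e2] at h1
  have h4 : s * (I.δ n ^ 2 * P.card) ≤ s * C₀ := by gcongr
  calc _ ≤ (12 ^ k₁ * 1200 * s + Real.sqrt 1200 * s + C₀ * (Real.sqrt K * s)) + s * C₀ :=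
        add_le_add h1 h4
    _ = _ := by ring

/-- **small sets of edges carry little gradient** -/
theorem small_area {ε : ℝ} (hε : 0 < ε) (C : ℝ) {η : ℝ} (hη : 0 < η) : ∃ τ : ℝ, 0 < τ ∧
    ∀ᶠ n in atTop, ∀ P, PairsOff I ε n P → I.δ n ^ 2 * P.card ≤ τ →
      ∀ Y : (I.Fr n → ℝ) → (I.Fr n → ℝ), NiceF I n Y → EnI n Y ≤ C →
      I.δ n * ∑ p ∈ P, ∫ h, |gr Y p.1 p.2 h| ∂(I.P0 n) ≤ η := by
  obtain ⟨Λ, hΛ, h⟩ := uig (I := I) hε C (half_pos hη)
  refine ⟨η / (2 * Λ), by positivity, ?_⟩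
  filter_upwards [h] with n hn P hP hPc Y hY hE
  refine (sum_abs_split hY hΛ.le).trans ?_
  have h1 := hn P hP Y hY hE
  have h2 : Λ * (I.δ n ^ 2 * P.card) ≤ η / 2 := by
    calc Λ * (I.δ n ^ 2 * P.card) ≤ Λ * (η / (2 * Λ)) := by gcongr
      _ = η / 2 := by field_simp
  linarith

end Crest.Agent.R144.Uig714
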