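import Mathlib
import Crest.Agent.R144.Uig9_714
import Crest.Agent.R144.Lat4_549
import Crest.Agent.R144.Geo8_268
import Crest.Agent.R144.Cnt2_268

/-!
# R144 (S0197), block APR (helper714): a-priori bound at Inst level

* `sum_dir` : sums over edges of one direction, off the marks, as sums over two `PairsOff` families;
* `X_plain` : `X_n x = ∑ w_v x_v`;
* `apr_lin` : `|∫ ∑ w_v Y_v| ≤ K √(EnI + 1)` for nice fields;
* `apr_energy` : if `0 ≤ 2 ∫ ∑ w_v Y_v - EnI + 1` then `EnI ≤ C`, and `2 ∫ ∑ w_v Y_v ≤ C`.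
-/

set_option autoImplicit false

namespace Crest.Agent.R144.Uig714

open MeasureTheory Finset Filter Topology
open Crest.Agent.R144.Uia714 Crest.Agent.R144.Skel144
open Crest.Agent.R144.Ham560 (ext ham nbr mem_nbr Fresh tight hamP measurableSet_ham ext_mem
  ext_notMem triE mem_triE mem_nbr_triE triXi mem_freeVerts' abs_triXi_le Anch ham_neg)
open Crest.Agent.R144.Kor620 (P2 nrm FullE cnum measurable_cnum)
open Crest.Agent.R144.KorE761 (LatE LatFam latE_triE gr RigidW lawT lab)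
open Crest.ProbabilityR.TriHeights Crest.ProbabilityR.HexHeights
open Crest.Agent.R144.Geo268 (wA)
open scoped BigOperators ENNReal NNReal ContDiff

variable {I : Inst}

lemma centre_add' (δ : ℝ) (u v : P2) : centre δ (u + v) = centre δ u + centre δ v :=
  Lat549.centre_add δ u v

lemma Adj.nrm_le {u v : P2} (h : Adj u v) : nrm (v - u) ≤ 1 := by
  rw [KorE761.nrm_le_iff]
  obtain ⟨u1, u2⟩ := u
  obtain ⟨v1, v2⟩ := v
  unfold Adj at h
  simp only [Prod.mk_sub_mk] at h ⊢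
  omega

/-- `Off` moves a little -/
lemma Off.mono_of_near {ε ε' : ℝ} {n : ℕ} {u v : P2} (h : Off I ε n u) {r : ℕ}
    (hr : nrm (u - v) ≤ r) (he : ε' + 2 * (I.δ n * r) ≤ ε) : Off I ε' n v := by
  have h1 := dist_centre_nrm (I.hM.1 n).le hr
  obtain ⟨h2, h3⟩ := h
  constructor
  · have := dist_triangle (centre (I.δ n) u) (centre (I.δ n) v) (I.γ 0)
    linarith
  · have := dist_triangle (centre (I.δ n) u) (centre (I.δ n) v) (I.γ I.θ)
    linarith

/-- sums over the edges of one direction -/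
theorem sum_dir {ε0 : ℝ} (hε : 0 < ε0) : ∀ᶠ n in atTop, ∀ z : P2, (∀ x : P2, Adj x (x + z)) →
    ∀ K : Finset P2, (∀ x ∈ K, Off I ε0 n x) → ∃ Q1 Q2 : Finset (P2 × P2),
      PairsOff I (ε0 / 2) n Q1 ∧ PairsOff I (ε0 / 2) n Q2 ∧ Q1.card ≤ K.card ∧ Q2.card ≤ K.card ∧
      ∀ Ψ : P2 × P2 → ℝ, (∀ u v, Ψ (v, u) = Ψ (u, v)) →
        (∀ u v, u ∉ I.Fr n → v ∉ I.Fr n → Ψ (u, v) = 0) →
        ∑ x ∈ K, Ψ (x, x + z) = ∑ p ∈ Q1, Ψ p + ∑ p ∈ Q2, Ψ p := by
  classical
  filter_upwards [delta_small I (show 0 < ε0 / 4 by positivity)] with n hn z hz K hK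
  have hδ := I.hM.1 n
  have hinj1 : Function.Injective fun x : P2 => (x, x + z) := fun x y h => (Prod.mk.inj h).1
  have hinj2 : Function.Injective fun x : P2 => (x + z, x) := fun x y h => (Prod.mk.inj h).2
  set K1 := K.filter fun x => x ∈ I.Fr n with hK1
  set K2 := K.filter fun x => ¬ x ∈ I.Fr n with hK2
  set K3 := K2.filter fun x => x + z ∈ I.Fr n with hK3
  refine ⟨K1.image fun x => (x, x + z), K3.image fun x => (x + z, x), ?_, ?_, ?_, ?_, ?_⟩
  · intro p hp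
    obtain ⟨x, hx, rfl⟩ := mem_image.mp hp
    have h1 := mem_filter.mp hx
    refine ⟨h1.2, hz x, (hK x h1.1).mono_of_near (r := 0) (by simp [nrm]) ?_⟩
    push_cast; linarith
  · intro p hp
    obtain ⟨x, hx, rfl⟩ := mem_image.mp hp
    have h1 := mem_filter.mp hx
    have h2 := mem_filter.mp h1.1
    refine ⟨h1.2, Kor620.adj_symm (hz x), (hK x h2.1).mono_of_near (r := 1) ?_ ?_⟩
    · exact (Adj.nrm_le (Kor620.adj_symm (hz x)))
    · push_cast; linarith
  · exact card_image_le.trans (card_le_card (filter_subset _ _))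
  · exact card_image_le.trans (card_le_card ((filter_subset _ _).trans (filter_subset _ _)))
  · intro Ψ hs h0
    rw [sum_image (fun a _ b _ h => hinj1 h), sum_image (fun a _ b _ h => hinj2 h),
      ← sum_filter_add_sum_filter_not K (fun x => x ∈ I.Fr n)]
    congr 1
    rw [← sum_filter_add_sum_filter_not K2 (fun x => x + z ∈ I.Fr n)]
    rw [← hK3]
    have h1 : ∑ x ∈ K2.filter (fun x => ¬ x + z ∈ I.Fr n), Ψ (x, x + z) = 0 := by
      refine sum_eq_zero fun x hx => ?_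
      have h2 := mem_filter.mp hx
      exact h0 _ _ (mem_filter.mp h2.1).2 h2.2
    rw [h1, add_zero]
    exact sum_congr rfl fun x _ => hs _ _

lemma tst (I : Inst) : Geo268.Tst I.D I.f := ⟨I.hf.continuous, I.hfc, I.hfs⟩

/-- the weights -/
theorem X_plain (I : Inst) : ∀ᶠ n in atTop, (∀ v, wA (I.δ n) I.f v ≠ 0 → v ∈ I.Fr n) ∧
    ∀ x : I.Fr n → ℝ, I.X n x = ∑ v : I.Fr n, wA (I.δ n) I.f v * x v := by
  filter_upwards [Geo268.tri_eventually I.hD I.hM (tst I)] with n hn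
  refine ⟨hn.1, fun x => ?_⟩
  show affinePairing _ _ _ _ = _
  rw [hn.2, ← sum_coe_sort (I.Fr n)]
  refine sum_congr rfl fun v _ => ?_
  rw [ext_mem v.2, mul_comm]

lemma lab_notMem {n : ℕ} (Y : (I.Fr n → ℝ) → (I.Fr n → ℝ)) {z : P2} (hz : z ∉ I.Fr n)
    (h : I.Fr n → ℝ) : lab Y z h = 0 := by
  unfold lab
  rw [ext_notMem hz]; rfl

lemma adj_d (k : Fin 3) (x : P2) : Adj x (x + Lat549.d k) := by
  obtain ⟨a, b⟩ := x
  unfold Adj Lat549.d
  fin_cases k <;> simp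

lemma abs_gr_comm {n : ℕ} (Y : (I.Fr n → ℝ) → (I.Fr n → ℝ)) (u v : P2) (h : I.Fr n → ℝ) :
    |gr Y u v h| = |gr Y v u h| := by
  unfold gr
  exact abs_sub_comm _ _

lemma gr_zero {n : ℕ} (Y : (I.Fr n → ℝ) → (I.Fr n → ℝ)) {u v : P2} (hu : u ∉ I.Fr n)
    (hv : v ∉ I.Fr n) (h : I.Fr n → ℝ) : gr Y u v h = 0 := by
  unfold gr
  rw [lab_notMem Y hu, lab_notMem Y hv, sub_zero]

/-- **the linear functional is small against the energy** -/
theorem apr_lin (I : Inst) : ∃ K : ℝ, 0 < K ∧ ∀ᶠ n in atTop,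
    ∀ Y : (I.Fr n → ℝ) → (I.Fr n → ℝ), NiceF I n Y →
      ∫ h, |∑ v : I.Fr n, wA (I.δ n) I.f v * Y h v| ∂(I.P0 n) ≤ K * Real.sqrt (EnI n Y + 1) := by
  obtain ⟨N, J, C, ρ, -, -, -, -, -, -, -, hC, hρ, -, -, -, hF, -, hev⟩ :=
    Lat549.exists_lattice_flow I.hD I.hM I.hφ I.hbij (f := I.f)
      ⟨I.hf, I.hfc, I.hfs⟩ (ε := 1) one_pos
  obtain ⟨S, hS, hl1⟩ := l1_bound (I := I) (show 0 < ρ / 2 / 2 by positivity)
  refine ⟨6 * (C * S) + 1, by positivity, ?_⟩
  filter_upwards [hev, hl1, sum_dir (I := I) (show 0 < ρ / 2 by positivity), X_plain I]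
    with n ⟨_, hdiv, hmark, _⟩ hl1 hsd hX Y hY
  have hδ := I.hM.1 n
  set F : Fin 3 → P2 → ℝ := fun k v => Lat549.latF (I.δ n) J k v with hFd
  -- the flow form
  have e1 : ∀ h, ∑ v : I.Fr n, wA (I.δ n) I.f v * Y h v =
      ∑ k, ∑ v ∈ Lat549.edg (I.Fr n) k, F k v * gr Y v (v + Lat549.d k) h := by
    intro h
    have h1 : ∑ v : I.Fr n, wA (I.δ n) I.f v * Y h v =
        ∑ v ∈ I.Fr n, wA (I.δ n) I.f v * lab Y v h := by
      rw [← sum_coe_sort (I.Fr n)]
      refine sum_congr rfl fun v _ => ?_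
      unfold lab
      rw [ext_mem v.2]
    rw [h1, Lat549.sum_by_parts (F := F) (Y := fun v => lab Y v h)]
    · rfl
    · exact fun v hv => lab_notMem Y hv h
    · exact fun v hv => hdiv v (mem_freeVerts'.mp hv).1
  -- restriction to the sites off the marks
  classical
  set K : Fin 3 → Finset P2 := fun k => (Lat549.edg (I.Fr n) k).filter fun v =>
    Off I (ρ / 2) n v with hK
  have e2 : ∀ h, |∑ v : I.Fr n, wA (I.δ n) I.f v * Y h v| ≤
      ∑ k, ∑ v ∈ K k, C * I.δ n * |gr Y v (v + Lat549.d k) h| := by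
    intro h
    rw [e1 h]
    refine (abs_sum_le_sum_abs _ _).trans (sum_le_sum fun k _ => ?_)
    refine (abs_sum_le_sum_abs _ _).trans ?_
    have h1 : ∑ v ∈ Lat549.edg (I.Fr n) k, |F k v * gr Y v (v + Lat549.d k) h| =
        ∑ v ∈ K k, |F k v * gr Y v (v + Lat549.d k) h| := by
      symm
      refine sum_subset (filter_subset _ _) fun v hv hv' => ?_
      have h2 : ¬ Off I (ρ / 2) n v := fun h3 => hv' (mem_filter.mpr ⟨hv, h3⟩)
      have h3 : F k v = 0 := by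
        refine hmark k v ?_
        unfold Off at h2
        rw [not_and_or, not_le, not_le] at h2
        rcases h2 with h2 | h2
        · exact Or.inl h2
        · exact Or.inr h2
      rw [h3, zero_mul, abs_zero]
    rw [h1]
    refine sum_le_sum fun v _ => ?_
    rw [abs_mul]
    exact mul_le_mul_of_nonneg_right (hF n k v) (abs_nonneg _)
  have hgi : ∀ u v, Integrable (fun h => |gr Y u v h|) (I.P0 n) := fun u v => by
    obtain ⟨c, hc⟩ := hY.bdd u v
    exact int_of_bdd ((hY.measurable_gr u v).abs) (C := c) fun h => by rw [abs_abs]; exact hc h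
  have hsum : ∀ k, Integrable (fun h => ∑ v ∈ K k, C * I.δ n * |gr Y v (v + Lat549.d k) h|)
      (I.P0 n) := fun k => integrable_finsetSum _ fun v _ => (hgi _ _).const_mul _
  have hsq : 0 ≤ Real.sqrt (EnI n Y + 1) := Real.sqrt_nonneg _
  have e3 : ∀ k, ∫ h, ∑ v ∈ K k, C * I.δ n * |gr Y v (v + Lat549.d k) h| ∂(I.P0 n) ≤
      C * (2 * (S * Real.sqrt (EnI n Y + 1))) := by
    intro k
    rw [integral_finsetSum _ fun v _ => (hgi _ _).const_mul _]
    obtain ⟨Q1, Q2, h1, h2, -, -, h3⟩ := hsd (Lat549.d k) (adj_d k) (K k)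
      fun v hv => (mem_filter.mp hv).2
    have h4 := h3 (fun p => ∫ h, C * I.δ n * |gr Y p.1 p.2 h| ∂(I.P0 n))
      (fun u v => by simp only [abs_gr_comm Y v u]) (fun u v hu hv => by
        simp only [gr_zero Y hu hv, abs_zero, mul_zero, integral_zero])
    simp only at h4
    rw [h4]
    simp only [integral_const_mul]
    rw [← mul_sum, ← mul_sum, mul_assoc, mul_assoc, ← mul_add]
    have h5 := hl1 Q1 h1 Y hY
    have h6 := hl1 Q2 h2 Y hY
    refine mul_le_mul_of_nonneg_left ?_ hC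
    linarith
  calc ∫ h, |∑ v : I.Fr n, wA (I.δ n) I.f v * Y h v| ∂(I.P0 n)
      ≤ ∫ h, ∑ k, ∑ v ∈ K k, C * I.δ n * |gr Y v (v + Lat549.d k) h| ∂(I.P0 n) := by
        refine integral_mono_of_nonneg (Eventually.of_forall fun h => abs_nonneg _)
          (integrable_finsetSum _ fun k _ => hsum k) (Eventually.of_forall e2)
    _ = ∑ k, ∫ h, ∑ v ∈ K k, C * I.δ n * |gr Y v (v + Lat549.d k) h| ∂(I.P0 n) :=
        integral_finsetSum _ fun k _ => hsum k
    _ ≤ ∑ _k : Fin 3, C * (2 * (S * Real.sqrt (EnI n Y + 1))) := sum_le_sum fun k _ => e3 k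
    _ = 6 * (C * S) * Real.sqrt (EnI n Y + 1) := by
        rw [sum_const, card_univ, Fintype.card_fin, nsmul_eq_mul]; push_cast; ring
    _ ≤ (6 * (C * S) + 1) * Real.sqrt (EnI n Y + 1) := by gcongr; linarith

/-- **a-priori bound**: fields which are almost optimal have bounded energy -/
theorem apr_energy (I : Inst) : ∃ C : ℝ, 0 < C ∧ ∀ᶠ n in atTop,
    ∀ Y : (I.Fr n → ℝ) → (I.Fr n → ℝ), NiceF I n Y →
      0 ≤ 2 * (∫ h, ∑ v : I.Fr n, wA (I.δ n) I.f v * Y h v ∂(I.P0 n)) - EnI n Y + 1 →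
      EnI n Y ≤ C ∧ 2 * (∫ h, ∑ v : I.Fr n, wA (I.δ n) I.f v * Y h v ∂(I.P0 n)) ≤ C := by
  obtain ⟨K, hK, h⟩ := apr_lin I
  refine ⟨(2 * K + 2) ^ 2 + 2 * K * (2 * K + 3), by positivity, ?_⟩
  filter_upwards [h] with n hn Y hY h0
  have h1 : |∫ h, ∑ v : I.Fr n, wA (I.δ n) I.f v * Y h v ∂(I.P0 n)| ≤
      K * Real.sqrt (EnI n Y + 1) := abs_integral_le_integral_abs.trans (hn Y hY)
  have hE := EnI_nonneg n Y
  set s := Real.sqrt (EnI n Y + 1) with hs
  have hs2 : s ^ 2 = EnI n Y + 1 := Real.sq_sqrt (by linarith)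
  have hs0 : 0 ≤ s := Real.sqrt_nonneg _
  have h2 := (abs_le.mp h1).2
  -- s² - 2 ≤ 2 K s
  have h3 : s ^ 2 ≤ 2 * K * s + 2 := by nlinarith
  have h4 : s ≤ 2 * K + 2 := by nlinarith
  constructor
  · nlinarith
  · nlinarith

end Crest.Agent.R144.Uig714
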