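import Crest.Agent.R144.Upp5_296
import Crest.Agent.R144.Lat4_549
import Crest.Agent.R144.Cnt2_268

/-!
R144 / S0197, approach P, upper bound, part 7 (helper296): the flow dictionary.  549's lattice flow
(three edge directions) is rewritten in the two index directions used by `Upp296.UpHyp`:
`∑ w Y = δ ∑_i ∑_x j_i(x) (Y(x + dir i) - Y x)`, with the sharp energy in the dual form `isos`.
-/

set_option autoImplicit false
set_option linter.unusedSectionVars false
set_option linter.unusedVariables false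

open Filter Set Metric Topology

namespace Crest.Agent.R144.Upp296

open Crest.Agent.R144.Flat296 Crest.ProbabilityR.HexHeights Crest.ProbabilityR.TriHeights
  Crest.Agent.R144.Lat549 Crest.Agent.R144.Geo268

/-! ### combinatorics -/

/-- sites carrying a nonzero increment of a field that vanishes off `S` -/
def KS (S : Finset P2) : Finset P2 := S ∪ (S.image (fun v => v - (1, 0)) ∪ S.image fun v => v - (0, 1))

lemma mem_KS {S : Finset P2} {v : P2} : v ∈ KS S ↔ v ∈ S ∨ v + (1, 0) ∈ S ∨ v + (0, 1) ∈ S := by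
  unfold KS
  simp only [Finset.mem_union, Finset.mem_image]
  constructor
  · rintro (h | ⟨u, hu, rfl⟩ | ⟨u, hu, rfl⟩)
    · exact Or.inl h
    · right; left; rwa [sub_add_cancel]
    · right; right; rwa [sub_add_cancel]
  · rintro (h | h | h)
    · exact Or.inl h
    · exact Or.inr (Or.inl ⟨_, h, add_sub_cancel_right _ _⟩)
    · exact Or.inr (Or.inr ⟨_, h, add_sub_cancel_right _ _⟩)

lemma mem_KS' {S : Finset P2} {v : P2} : v ∈ KS S ↔ v ∈ S ∨ ∃ i, v + dir i ∈ S := by
  rw [mem_KS, Fin.exists_fin_two]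
  rfl

lemma card_KS (S : Finset P2) : (KS S).card ≤ 3 * S.card := by
  unfold KS
  refine (Finset.card_union_le _ _).trans ?_
  refine (Nat.add_le_add_left (Finset.card_union_le _ _) _).trans ?_
  refine (Nat.add_le_add_left (Nat.add_le_add Finset.card_image_le Finset.card_image_le) _).trans ?_
  omega

/-- the two components of the flow in index directions -/
def jj (F : Fin 3 → P2 → ℝ) (i : Fin 2) (x : P2) : ℝ :=
  ![-(F 0 x + F 2 x), -(F 1 x - F 2 (x - d 2))] i

lemma jj_zero (F : Fin 3 → P2 → ℝ) (x : P2) : jj F 0 x = -(F 0 x + F 2 x) := rfl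

lemma jj_one (F : Fin 3 → P2 → ℝ) (x : P2) : jj F 1 x = -(F 1 x - F 2 (x - d 2)) := rfl

/-- summation by parts in the index directions -/
lemma sbp {F : Fin 3 → P2 → ℝ} {w Y : P2 → ℝ} {S : Finset P2} (hY : ∀ v, v ∉ S → Y v = 0)
    (hw : ∀ v ∈ S, ∑ k, (F k v - F k (v - d k)) = w v) :
    ∑ v ∈ S, w v * Y v = ∑ i, ∑ x ∈ KS S, jj F i x * (Y (x + dir i) - Y x) := by
  rw [sum_by_parts hY hw]
  -- finite supports
  have hfin : ∀ (G : P2 → ℝ) (a b : P2), (Function.support fun v => G v * (Y (v + a) - Y (v + b))).Finite := by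
    intro G a b
    refine ((S.image fun v => v - a) ∪ (S.image fun v => v - b)).finite_toSet.subset fun v hv => ?_
    rw [Function.mem_support] at hv
    simp only [Finset.coe_union, Finset.coe_image, Set.mem_union, Set.mem_image, Finset.mem_coe]
    by_contra hcon
    push Not at hcon
    apply hv
    have h1 : Y (v + a) = 0 := hY _ fun h => hcon.1 _ h (add_sub_cancel_right _ _)
    have h2 : Y (v + b) = 0 := hY _ fun h => hcon.2 _ h (add_sub_cancel_right _ _)
    rw [h1, h2, sub_zero, mul_zero]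
  have hsum : ∀ (G : P2 → ℝ) (a b : P2), Summable fun v => G v * (Y (v + a) - Y (v + b)) :=
    fun G a b => summable_of_hasFiniteSupport (hfin G a b)
  have hz : ∀ v : P2, v + 0 = v := add_zero
  -- left sums as sums over the lattice
  have hL : ∀ k, ∑ v ∈ edg S k, F k v * (Y v - Y (v + d k)) =
      ∑' v, F k v * (Y (v + 0) - Y (v + d k)) := by
    intro k
    simp only [hz]
    refine (tsum_eq_sum fun v hv => ?_).symm
    rw [mem_edg, not_or] at hv
    rw [hY v hv.1, hY _ hv.2, sub_zero, mul_zero]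
  have hR : ∀ i, ∑ x ∈ KS S, jj F i x * (Y (x + dir i) - Y x) =
      ∑' x, jj F i x * (Y (x + dir i) - Y (x + 0)) := by
    intro i
    simp only [hz]
    refine (tsum_eq_sum fun v hv => ?_).symm
    rw [mem_KS', not_or, not_exists] at hv
    rw [hY v hv.1, hY _ (hv.2 i), sub_zero, mul_zero]
  simp only [hL, hR]
  rw [Fin.sum_univ_three, Fin.sum_univ_two]
  -- the shifted sum
  have hshift : ∑' x, F 2 (x - d 2) * (Y (x + dir 1) - Y (x + 0)) =
      ∑' x, F 2 x * (Y (x + (d 2 + dir 1)) - Y (x + d 2)) := by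
    rw [← (Equiv.addRight (d 2)).tsum_eq]
    refine tsum_congr fun x => ?_
    simp only [Equiv.coe_addRight, add_sub_cancel_right, hz, add_assoc]
  have e1 : ∑' x, jj F 1 x * (Y (x + dir 1) - Y (x + 0)) =
      -(∑' x, F 1 x * (Y (x + dir 1) - Y (x + 0))) +
        ∑' x, F 2 x * (Y (x + (d 2 + dir 1)) - Y (x + d 2)) := by
    rw [← hshift, ← tsum_neg, ← (hsum _ _ _).neg.tsum_add (hsum (fun x => F 2 (x - d 2)) _ _)]
    refine tsum_congr fun x => ?_
    rw [jj_one]
    ring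
  have e0 : ∑' x, jj F 0 x * (Y (x + dir 0) - Y (x + 0)) =
      -(∑' x, F 0 x * (Y (x + dir 0) - Y (x + 0))) - ∑' x, F 2 x * (Y (x + dir 0) - Y (x + 0)) := by
    rw [← tsum_neg, ← (hsum _ _ _).neg.tsum_sub (hsum _ _ _)]
    refine tsum_congr fun x => ?_
    rw [jj_zero]
    ring
  have f0 : ∑' v, F 0 v * (Y (v + 0) - Y (v + d 0)) =
      -(∑' x, F 0 x * (Y (x + dir 0) - Y (x + 0))) := by
    rw [← tsum_neg]
    refine tsum_congr fun x => ?_
    have : d 0 = dir 0 := rfl
    rw [this]; ring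
  have f1 : ∑' v, F 1 v * (Y (v + 0) - Y (v + d 1)) =
      -(∑' x, F 1 x * (Y (x + dir 1) - Y (x + 0))) := by
    rw [← tsum_neg]
    refine tsum_congr fun x => ?_
    have : d 1 = dir 1 := rfl
    rw [this]; ring
  have f2 : ∑' v, F 2 v * (Y (v + 0) - Y (v + d 2)) =
      ∑' x, F 2 x * (Y (x + (d 2 + dir 1)) - Y (x + d 2)) -
        ∑' x, F 2 x * (Y (x + dir 0) - Y (x + 0)) := by
    rw [← (hsum _ _ _).tsum_sub (hsum _ _ _)]
    refine tsum_congr fun x => ?_
    have : d 2 + dir 1 = dir 0 := rfl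
    rw [this]; ring
  rw [e0, e1, f0, f1, f2]
  ring

/-- the energy in the dual isotropic form against the three edge energies -/
lemma isos_jj {F : Fin 3 → P2 → ℝ} {x : P2} {C e : ℝ} (h1 : |F 1 x| ≤ C)
    (h2 : |F 2 (x - d 2) - F 2 x| ≤ e) :
    isos (fun i => jj F i x) ≤ 3 / 2 * ∑ k, F k x ^ 2 + (3 * C * e + 3 / 2 * e ^ 2) := by
  have hC : 0 ≤ C := (abs_nonneg _).trans h1
  have he : 0 ≤ e := (abs_nonneg _).trans h2
  unfold isos
  simp only [jj_zero, jj_one, Fin.sum_univ_three]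
  set α := F 0 x
  set β := F 1 x
  set χ := F 2 x
  set χ' := F 2 (x - d 2)
  have h3 : (χ' - χ) ^ 2 ≤ e ^ 2 := by
    rw [← sq_abs]; exact pow_le_pow_left₀ (abs_nonneg _) h2 2
  have h4 : -(3 * β * (χ' - χ)) ≤ 3 * C * e := by
    refine (neg_le_abs _).trans ?_
    rw [abs_mul, abs_mul, abs_of_pos (by norm_num : (0:ℝ) < 3)]
    gcongr
  have key : (-(α + χ)) ^ 2 + (-(β - χ')) ^ 2 + (-(α + χ)) * (-(β - χ')) =
      3 / 2 * (α ^ 2 + β ^ 2 + χ ^ 2) - 1 / 2 * (χ - (α - β)) ^ 2 - 3 * β * (χ' - χ) +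
        (χ - (α - β)) * (χ' - χ) + (χ' - χ) ^ 2 := by ring
  rw [key]
  nlinarith [sq_nonneg (χ - (α - β) - (χ' - χ))]

/-! ### the flow -/

/-- free vertices -/
noncomputable abbrev Fr (δ : ℝ) (T : Finset Tri) (c : ℝ → ℂ) (θ : ℝ) : Finset P2 :=
  freeVerts T (arcPlus δ T c θ) (arcMinus δ T c θ)

open Classical in
/-- the sites carrying the flow: within one step of the free vertices, at distance `≥ ρ` from the
marks -/
noncomputable def KX (γ : ℝ → ℂ) (θ ρ δ : ℝ) (T : Finset Tri) (c : ℝ → ℂ) : Finset P2 :=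
  (KS (Fr δ T c θ)).filter fun x => ρ ≤ dist (centre δ x) (γ 0) ∧ ρ ≤ dist (centre δ x) (γ θ)

lemma mem_KX {γ : ℝ → ℂ} {θ ρ δ : ℝ} {T : Finset Tri} {c : ℝ → ℂ} {x : P2} :
    x ∈ KX γ θ ρ δ T c ↔ (x ∈ Fr δ T c θ ∨ x + (1, 0) ∈ Fr δ T c θ ∨ x + (0, 1) ∈ Fr δ T c θ) ∧
      ρ ≤ dist (centre δ x) (γ 0) ∧ ρ ≤ dist (centre δ x) (γ θ) := by
  unfold KX
  rw [Finset.mem_filter, mem_KS]

lemma card_KX (γ : ℝ → ℂ) (θ ρ δ : ℝ) (T : Finset Tri) (c : ℝ → ℂ) :
    (KX γ θ ρ δ T c).card ≤ 3 * (Fr δ T c θ).card :=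
  (Finset.card_filter_le _ _).trans (card_KS _)

lemma norm_centre_le {δ : ℝ} (hδ : 0 ≤ δ) (v : P2) {M : ℝ} (h1 : |(v.1 : ℝ)| ≤ M)
    (h2 : |(v.2 : ℝ)| ≤ M) : ‖centre δ v‖ ≤ 2 * M * δ := by
  have h3 : v = (v.1 : ℤ) • ((1, 0) : P2) + (v.2 : ℤ) • ((0, 1) : P2) := by ext <;> simp
  have h4 : centre δ v = (v.1 : ℂ) * centre δ (d 0) + (v.2 : ℂ) * centre δ (d 1) := by
    simp only [centre, d, Matrix.cons_val_zero, Matrix.cons_val_one]
    push_cast
    ring
  rw [h4]
  refine (norm_add_le _ _).trans ?_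
  rw [norm_mul, norm_mul, norm_centre_d hδ, norm_centre_d hδ]
  have h5 : ‖(v.1 : ℂ)‖ = |(v.1 : ℝ)| := by
    rw [← Complex.ofReal_intCast, Complex.norm_real, Real.norm_eq_abs]
  have h6 : ‖(v.2 : ℂ)‖ = |(v.2 : ℝ)| := by
    rw [← Complex.ofReal_intCast, Complex.norm_real, Real.norm_eq_abs]
  rw [h5, h6]
  nlinarith

/-- **the flow dictionary** -/
theorem exists_flow {D : Set ℂ} {γ : ℝ → ℂ} {θ : ℝ} {δ : ℕ → ℝ} {T : ℕ → Finset Tri}
    {ea eb : ℕ → (ℤ × ℤ) × (ℤ × ℤ)} {c : ℕ → ℝ → ℂ}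
    (hD : IsSmoothMarkedDomain D γ θ) (hA : IsMarkedApprox γ θ δ T ea eb c)
    {φ : ℂ → ℂ} (hφ : DifferentiableOn ℂ φ D) (hb : BijOn φ D (ball (0 : ℂ) 1))
    {f : ℂ → ℝ} (hf : Crest.Agent.R144.Con549.IsTest D f) {ε : ℝ} (hε : 0 < ε) :
    ∃ (ρ : ℝ) (j : ℕ → Fin 2 → P2 → ℝ), 0 < ρ ∧
      (∃ Cj : ℝ, ∀ n i x, |j n i x| ≤ Cj) ∧
      (∀ R : ℕ, ∀ ε' : ℝ, 0 < ε' → ∀ᶠ n in atTop, ∀ i x, ∀ p ∈ Flat296.sq R,
        |j n i x - j n i (x - Flat296.pt p)| ≤ ε') ∧
      (∀ᶠ n in atTop, ∀ i x, centre (δ n) x ∈ ball (γ 0) ρ ∪ ball (γ θ) ρ → j n i x = 0) ∧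
      (∀ᶠ n in atTop, ∀ Y : P2 → ℝ, (∀ v, v ∉ Fr (δ n) (T n) (c n) θ → Y v = 0) →
        ∑ v ∈ Fr (δ n) (T n) (c n) θ, wA (δ n) f v * Y v =
          δ n * ∑ i, ∑ x ∈ KX γ θ ρ (δ n) (T n) (c n), j n i x * (Y (x + dir i) - Y x)) ∧
      (∀ᶠ n in atTop, δ n ^ 2 * ∑ x ∈ KX γ θ ρ (δ n) (T n) (c n), isos (fun i => j n i x) ≤
        Real.sqrt 3 / 2 * (domainGreenForm φ f + ε)) := by
  obtain ⟨N, J, C, ρ, hNo, hNb, hcl, hJs, hJc, hdv, hen, hC, hρ, hρJ, hJB, hJL, hFB, hFA, hev⟩ :=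
    exists_lattice_flow hD hA hφ hb hf (half_pos hε)
  set F : ℕ → Fin 3 → P2 → ℝ := fun n k x => (δ n)⁻¹ * latF (δ n) J k x with hF
  have hδp : ∀ n, 0 < δ n := hA.1
  have hs3 : 1 ≤ Real.sqrt 3 := Real.one_le_sqrt.2 (by norm_num)
  have hFbd : ∀ n k x, |F n k x| ≤ C := by
    intro n k x
    have := hFB n k x
    have hδ := hδp n
    simp only [hF]
    rw [abs_mul, abs_of_pos (inv_pos.2 hδ), inv_mul_le_iff₀ hδ]
    linarith
  -- oscillation of the flow
  have hosc : ∀ n k x y, ‖centre (δ n) x - centre (δ n) y‖ ≤ 2 * δ n →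
      |F n k x - F n k y| ≤ 2 * C * δ n := by
    intro n k x y hxy
    have hδ := hδp n
    have a1 := hFA n k x (centre (δ n) x) (by rw [sub_self, norm_zero]; positivity)
    have a2 := hFA n k y (centre (δ n) x) hxy
    have a3 : F n k x - F n k y = (δ n)⁻¹ *
        ((latF (δ n) J k x - δ n / Real.sqrt 3 * ip (J (centre (δ n) x)) (ed k)) -
          (latF (δ n) J k y - δ n / Real.sqrt 3 * ip (J (centre (δ n) x)) (ed k))) := by
      simp only [hF]; ring
    rw [a3, abs_mul, abs_of_pos (inv_pos.2 hδ), inv_mul_le_iff₀ hδ]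
    refine (abs_sub _ _).trans ?_
    nlinarith
  have hosc2 : ∀ n k x y {M : ℝ}, ‖centre (δ n) x - centre (δ n) y‖ ≤ M * δ n →
      |F n k x - F n k y| ≤ (M + 2) * C * δ n := by
    intro n k x y M hxy
    have hδ := hδp n
    have a1 := hFA n k x (centre (δ n) x) (by rw [sub_self, norm_zero]; positivity)
    have a2 := hFA n k y (centre (δ n) y) (by rw [sub_self, norm_zero]; positivity)
    have a4 : |ip (J (centre (δ n) x)) (ed k) - ip (J (centre (δ n) y)) (ed k)| ≤ C * (M * δ n) := by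
      rw [← ip_sub]
      refine (abs_ip_le _ _).trans ?_
      rw [norm_ed, mul_one]
      refine (hJL _ _).trans ?_
      gcongr
    have a3 : F n k x - F n k y = (δ n)⁻¹ *
        ((latF (δ n) J k x - δ n / Real.sqrt 3 * ip (J (centre (δ n) x)) (ed k)) -
          (latF (δ n) J k y - δ n / Real.sqrt 3 * ip (J (centre (δ n) y)) (ed k)) +
          δ n / Real.sqrt 3 * (ip (J (centre (δ n) x)) (ed k) - ip (J (centre (δ n) y)) (ed k))) := by
      simp only [hF]; ring
    rw [a3, abs_mul, abs_of_pos (inv_pos.2 hδ), inv_mul_le_iff₀ hδ]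
    refine (abs_add_le _ _).trans ?_
    have a5 : |δ n / Real.sqrt 3 * (ip (J (centre (δ n) x)) (ed k) -
        ip (J (centre (δ n) y)) (ed k))| ≤ δ n * (C * (M * δ n)) := by
      rw [abs_mul, abs_of_nonneg (by positivity)]
      have : δ n / Real.sqrt 3 ≤ δ n := div_le_self hδ.le hs3
      have h0 : 0 ≤ C * (M * δ n) := (abs_nonneg _).trans a4
      gcongr
    have a6 := (abs_sub (latF (δ n) J k x - δ n / Real.sqrt 3 * ip (J (centre (δ n) x)) (ed k))
      (latF (δ n) J k y - δ n / Real.sqrt 3 * ip (J (centre (δ n) y)) (ed k))).trans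
      (add_le_add a1 a2)
    nlinarith
  have hd2 : ∀ n x, ‖centre (δ n) (x - d 2) - centre (δ n) x‖ = δ n := by
    intro n x
    have h1 : centre (δ n) x = centre (δ n) (x - d 2) + centre (δ n) (d 2) := by
      rw [← centre_add, sub_add_cancel]
    rw [h1, sub_add_cancel_left, norm_neg, norm_centre_d (hδp n).le]
  set ρ' : ℝ := ρ / 4 with hρ'
  have hρ'0 : 0 < ρ' := by positivity
  -- vanishing near the marks
  have hsup : ∀ᶠ n in atTop, ∀ i x, centre (δ n) x ∈ ball (γ 0) ρ' ∪ ball (γ θ) ρ' →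
      jj (F n) i x = 0 := by
    filter_upwards [hev, hA.2.1.eventually (gt_mem_nhds hρ'0)] with n hn hs i x hx
    have hz : ∀ y, ‖centre (δ n) y - centre (δ n) x‖ ≤ δ n → ∀ k, F n k y = 0 := by
      intro y hy k
      simp only [hF]
      rw [hn.2.2.1 k y, mul_zero]
      rcases hx with hx | hx
      · left
        rw [mem_ball] at hx ⊢
        have := dist_triangle (centre (δ n) y) (centre (δ n) x) (γ 0)
        rw [dist_eq_norm (centre (δ n) y) (centre (δ n) x)] at this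
        linarith
      · right
        rw [mem_ball] at hx ⊢
        have := dist_triangle (centre (δ n) y) (centre (δ n) x) (γ θ)
        rw [dist_eq_norm (centre (δ n) y) (centre (δ n) x)] at this
        linarith
    have hx0 : ∀ k, F n k x = 0 := hz x (by rw [sub_self, norm_zero]; exact (hδp n).le)
    have hx2 : F n 2 (x - d 2) = 0 := hz _ (hd2 n x).le 2
    fin_cases i
    · show jj (F n) 0 x = 0
      rw [jj_zero, hx0, hx0]; simp
    · show jj (F n) 1 x = 0
      rw [jj_one, hx0, hx2]; simp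
  refine ⟨ρ', fun n => jj (F n), hρ'0, ⟨2 * C, fun n i x => ?_⟩, ?_, hsup, ?_, ?_⟩
  · fin_cases i
    · show |jj (F n) 0 x| ≤ _
      rw [jj_zero, abs_neg]
      refine (abs_add_le _ _).trans ?_
      have := hFbd n 0 x
      have := hFbd n 2 x
      linarith
    · show |jj (F n) 1 x| ≤ _
      rw [jj_one, abs_neg]
      refine (abs_sub _ _).trans ?_
      have := hFbd n 1 x
      have := hFbd n 2 (x - d 2)
      linarith
  · intro R ε' hε'
    have hlim : Tendsto (fun n => 2 * ((2 * R + 2) * C * δ n)) atTop (𝓝 (2 * ((2 * R + 2) * C * 0))) :=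
      (hA.2.1.const_mul _).const_mul _
    rw [mul_zero, mul_zero] at hlim
    filter_upwards [hlim.eventually (gt_mem_nhds hε')] with n hn i x p hp
    have hδ := hδp n
    rw [mem_sq] at hp
    have hc : ∀ y, ‖centre (δ n) y - centre (δ n) (y - Flat296.pt p)‖ ≤ 2 * R * δ n := by
      intro y
      have h1 : centre (δ n) y = centre (δ n) (y - Flat296.pt p) + centre (δ n) (Flat296.pt p) := by
        rw [← centre_add, sub_add_cancel]
      rw [h1, add_sub_cancel_left]
      refine norm_centre_le hδ.le _ ?_ ?_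
      · simp only [Flat296.pt, Int.cast_natCast, Nat.abs_cast]
        exact_mod_cast hp.1.le
      · simp only [Flat296.pt, Int.cast_natCast, Nat.abs_cast]
        exact_mod_cast hp.2.le
    have ho : ∀ k y, |F n k y - F n k (y - Flat296.pt p)| ≤ (2 * R + 2) * C * δ n :=
      fun k y => hosc2 n k _ _ (hc y)
    refine le_trans ?_ hn.le
    fin_cases i
    · show |jj (F n) 0 x - jj (F n) 0 (x - Flat296.pt p)| ≤ _
      rw [jj_zero, jj_zero]
      have e : -(F n 0 x + F n 2 x) - -(F n 0 (x - Flat296.pt p) + F n 2 (x - Flat296.pt p)) =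
          -((F n 0 x - F n 0 (x - Flat296.pt p)) + (F n 2 x - F n 2 (x - Flat296.pt p))) := by ring
      rw [e, abs_neg]
      refine (abs_add_le _ _).trans ?_
      have := ho 0 x
      have := ho 2 x
      linarith
    · show |jj (F n) 1 x - jj (F n) 1 (x - Flat296.pt p)| ≤ _
      rw [jj_one, jj_one]
      have e : -(F n 1 x - F n 2 (x - d 2)) - -(F n 1 (x - Flat296.pt p) -
          F n 2 (x - Flat296.pt p - d 2)) =
          -((F n 1 x - F n 1 (x - Flat296.pt p)) - (F n 2 (x - d 2) -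
            F n 2 (x - d 2 - Flat296.pt p))) := by
        rw [sub_right_comm x (Flat296.pt p)]; ring
      rw [e, abs_neg]
      refine (abs_sub _ _).trans ?_
      have := ho 1 x
      have := ho 2 (x - d 2)
      linarith
  · filter_upwards [hev, hsup] with n hn hs Y hY
    have hδ := hδp n
    have h1 := sbp (F := F n) (w := fun v => (δ n)⁻¹ * wA (δ n) f v) (Y := Y)
      (S := Fr (δ n) (T n) (c n) θ) hY (fun v hv => by
        have h2 := hn.2.1 v ((Crest.Agent.R144.Ham560.mem_freeVerts'.1 hv).1)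
        rw [← h2, Finset.mul_sum]
        refine Finset.sum_congr rfl fun k _ => ?_
        simp only [hF]
        ring)
    have h3 : ∑ v ∈ Fr (δ n) (T n) (c n) θ, wA (δ n) f v * Y v =
        δ n * ∑ v ∈ Fr (δ n) (T n) (c n) θ, (δ n)⁻¹ * wA (δ n) f v * Y v := by
      rw [Finset.mul_sum]
      refine Finset.sum_congr rfl fun v _ => ?_
      rw [← mul_assoc, ← mul_assoc, mul_inv_cancel₀ hδ.ne', one_mul]
    rw [h3, h1]
    congr 1
    refine Finset.sum_congr rfl fun i _ => ?_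
    refine (Finset.sum_subset (Finset.filter_subset _ _) fun x hx hx' => ?_).symm
    rw [hs i x, zero_mul]
    rw [Finset.mem_filter, not_and, not_and_or] at hx'
    rcases hx' hx with h | h
    · left; rw [mem_ball]; exact not_le.1 h
    · right; rw [mem_ball]; exact not_le.1 h
  · obtain ⟨Cc, hCc0, hCc⟩ := (Crest.Agent.R144.Cnt268.sites_tri hD hA).card_bdd
    have hlim : Tendsto (fun n => 3 * Cc * (12 * C ^ 2 * δ n)) atTop (𝓝 (3 * Cc * (12 * C ^ 2 * 0))) :=
      (hA.2.1.const_mul _).const_mul _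
    rw [mul_zero, mul_zero] at hlim
    filter_upwards [hev, hA.2.1.eventually (gt_mem_nhds one_pos),
      hlim.eventually (gt_mem_nhds (show 0 < Real.sqrt 3 / 2 * (ε / 2) by positivity))]
      with n hn h1 h2
    have hδ := hδp n
    set K := KX γ θ ρ' (δ n) (T n) (c n) with hK
    have hpt : ∀ x, isos (fun i => jj (F n) i x) ≤ 3 / 2 * ∑ k, F n k x ^ 2 + 12 * C ^ 2 * δ n := by
      intro x
      have a1 := isos_jj (F := F n) (x := x) (hFbd n 1 x)
        (hosc n 2 (x - d 2) x (by rw [hd2]; linarith))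
      refine a1.trans ?_
      have a2 : 3 * C * (2 * C * δ n) + 3 / 2 * (2 * C * δ n) ^ 2 ≤ 12 * C ^ 2 * δ n := by
        have a3 : (δ n) ^ 2 ≤ δ n := by nlinarith
        nlinarith [mul_le_mul_of_nonneg_left a3 (show 0 ≤ 6 * C ^ 2 by positivity)]
      linarith
    have hen2 := energy_le hδ hJs.continuous hNo.measurableSet hNb (fun _ => K) (by
      intro k v hv p hp
      rw [hK, mem_KX] at hv
      have b1 := norm_pt_sub hδ.le v (R_bound hp).1 (R_bound hp).2
      have b2 : ∃ u ∈ Fr (δ n) (T n) (c n) θ, ‖centre (δ n) v - centre (δ n) u‖ ≤ δ n := by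
        rcases hv.1 with h | h | h
        · exact ⟨v, h, by rw [sub_self, norm_zero]; exact hδ.le⟩
        · refine ⟨_, h, ?_⟩
          rw [centre_add, sub_add_cancel_left, norm_neg]
          exact (norm_centre_d hδ.le 0).le
        · refine ⟨_, h, ?_⟩
          rw [centre_add, sub_add_cancel_left, norm_neg]
          exact (norm_centre_d hδ.le 1).le
      obtain ⟨u, hu, hvu⟩ := b2
      refine hn.1 u ((Crest.Agent.R144.Ham560.mem_freeVerts'.1 hu).1) ?_
      rw [mem_closedBall, dist_eq_norm]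
      have b3 : Lat549.pt (δ n) v p - centre (δ n) u = (Lat549.pt (δ n) v p - centre (δ n) v) +
          (centre (δ n) v - centre (δ n) u) := by ring
      rw [b3]
      refine (norm_add_le _ _).trans ?_
      linarith)
    have hcard : δ n ^ 2 * (K.card : ℝ) ≤ 3 * Cc := by
      have c1 : (K.card : ℝ) ≤ 3 * ((Fr (δ n) (T n) (c n) θ).card : ℝ) := by
        exact_mod_cast card_KX γ θ ρ' (δ n) (T n) (c n)
      have c2 := hCc n
      calc δ n ^ 2 * (K.card : ℝ) ≤ δ n ^ 2 * (3 * ((Fr (δ n) (T n) (c n) θ).card : ℝ)) := by gcongr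
        _ = 3 * (δ n ^ 2 * ((Fr (δ n) (T n) (c n) θ).card : ℝ)) := by ring
        _ ≤ 3 * Cc := by linarith
    have hFsq : δ n ^ 2 * ∑ x ∈ K, ∑ k, F n k x ^ 2 = ∑ k, ∑ v ∈ K, latF (δ n) J k v ^ 2 := by
      rw [Finset.sum_comm, Finset.mul_sum]
      refine Finset.sum_congr rfl fun k _ => ?_
      rw [Finset.mul_sum]
      refine Finset.sum_congr rfl fun x _ => ?_
      simp only [hF]
      rw [mul_pow, ← mul_assoc, ← mul_pow, mul_inv_cancel₀ hδ.ne', one_pow, one_mul]
    have h3 : Real.sqrt 3 * Real.sqrt 3 = 3 := Real.mul_self_sqrt (by norm_num)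
    have h30 : (0 : ℝ) < Real.sqrt 3 := by positivity
    calc δ n ^ 2 * ∑ x ∈ K, isos (fun i => jj (F n) i x)
        ≤ δ n ^ 2 * ∑ x ∈ K, (3 / 2 * ∑ k, F n k x ^ 2 + 12 * C ^ 2 * δ n) := by
          gcongr with x _
          exact hpt x
      _ = 3 / 2 * (δ n ^ 2 * ∑ x ∈ K, ∑ k, F n k x ^ 2) +
          δ n ^ 2 * (K.card : ℝ) * (12 * C ^ 2 * δ n) := by
          rw [Finset.sum_add_distrib, ← Finset.mul_sum, Finset.sum_const, nsmul_eq_mul]
          ring
      _ ≤ 3 / 2 * (1 / Real.sqrt 3 * (domainGreenForm φ f + ε / 2)) +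
          3 * Cc * (12 * C ^ 2 * δ n) := by
          rw [hFsq]
          have d1 : 1 / Real.sqrt 3 * ∫ z in N, ‖J z‖ ^ 2 ≤
              1 / Real.sqrt 3 * (domainGreenForm φ f + ε / 2) := by gcongr
          have d2 : δ n ^ 2 * (K.card : ℝ) * (12 * C ^ 2 * δ n) ≤ 3 * Cc * (12 * C ^ 2 * δ n) := by
            gcongr
          have d3 := hen2.trans d1
          linarith
      _ ≤ 3 / 2 * (1 / Real.sqrt 3 * (domainGreenForm φ f + ε / 2)) +
          Real.sqrt 3 / 2 * (ε / 2) := by linarith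
      _ = Real.sqrt 3 / 2 * (domainGreenForm φ f + ε) := by
          have : 3 / 2 * (1 / Real.sqrt 3) = Real.sqrt 3 / 2 := by
            field_simp
            nlinarith
          rw [← mul_assoc, this]
          ring

end Crest.Agent.R144.Upp296
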