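import Mathlib
import Crest.Agent.R144.Uig10_714
import Crest.Agent.R144.Upp7_296
import Crest.Agent.R144.Fa1_812

/-!
# R144 (S0197), helper714: the geometric sets `Kx`, `Kc` and the gradient fields of `UpHyp`

* `Kx I ε0 n` (= 296's `KX` with `ρ = ε0`), `Kc I ε0 k n`;
* `Kc_sub`, `Kc_marg`, `Kc_area`, `Kc_layer` : `UpHyp.{sub, marg, area}` and the area of the layer;
* `ex_dd` : gradients of `uf (δ⁻¹ • Y)` in terms of `gr Y`;
* `up_grad`, `up_ui`, `up_layer` : `UpHyp.{grad, ui, layer}`.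
-/

set_option autoImplicit false

namespace Crest.Agent.R144.Uig714

open MeasureTheory Finset Filter Topology
open Crest.Agent.R144.Uia714 Crest.Agent.R144.Skel144
open Crest.Agent.R144.Ham560 (ext ham nbr mem_nbr Fresh tight hamP measurableSet_ham ext_mem
  ext_notMem triE mem_triE mem_nbr_triE triXi mem_freeVerts' abs_triXi_le Anch ham_neg)
open Crest.Agent.R144.Kor620 (P2 nrm FullE cnum measurable_cnum)
open Crest.Agent.R144.KorE761 (LatE LatFam latE_triE gr RigidW lawT lab)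
open Crest.ProbabilityR.TriHeights Crest.ProbabilityR.HexHeights
open Crest.Agent.R144.Geo268 (wA)
open Crest.Agent.R144.Upp296 (Ex KX mem_KX card_KX Bd dir)
open Crest.Agent.R144.Flat296 (dd)
open Crest.Agent.R144.Cnt268 (vc vc_pos vc_nonneg Sites)
open Crest.Agent.R144.Fa812 (uf)
open scoped BigOperators ENNReal NNReal ContDiff

variable {I : Inst}

/-- the sites carrying gradients, at distance `≥ ε0` from the marks -/
noncomputable abbrev Kx (I : Inst) (ε0 : ℝ) (n : ℕ) : Finset P2 :=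
  KX I.γ I.θ ε0 (I.δ n) (I.T n) (I.c n)

lemma mem_Kx {ε0 : ℝ} {n : ℕ} {x : P2} : x ∈ Kx I ε0 n ↔
    (x ∈ I.Fr n ∨ x + (1, 0) ∈ I.Fr n ∨ x + (0, 1) ∈ I.Fr n) ∧ Off I ε0 n x := mem_KX

open scoped Classical in
/-- the compact exhaustion -/
noncomputable def Kc (I : Inst) (ε0 : ℝ) (k n : ℕ) : Finset P2 :=
  (I.Fr n).filter fun x => 1 / ((k : ℝ) + 1) ≤ Metric.infDist (centre (I.δ n) x) I.Dᶜ ∧
    Off I (ε0 + 1 / ((k : ℝ) + 1)) n x

lemma mem_Kc {ε0 : ℝ} {k n : ℕ} {x : P2} : x ∈ Kc I ε0 k n ↔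
    x ∈ I.Fr n ∧ 1 / ((k : ℝ) + 1) ≤ Metric.infDist (centre (I.δ n) x) I.Dᶜ ∧
      Off I (ε0 + 1 / ((k : ℝ) + 1)) n x := by
  unfold Kc
  exact @mem_filter _ _ (_) _ _

lemma Off.anti {ε ε' : ℝ} {n : ℕ} {u : P2} (h : Off I ε n u) (he : ε' ≤ ε) : Off I ε' n u :=
  ⟨he.trans h.1, he.trans h.2⟩

theorem Kc_sub (ε0 : ℝ) (k n : ℕ) : Kc I ε0 k n ⊆ Kx I ε0 n := by
  intro x hx
  rw [mem_Kc] at hx
  rw [mem_Kx]
  refine ⟨Or.inl hx.1, hx.2.2.anti ?_⟩
  have : 0 < 1 / ((k : ℝ) + 1) := by positivity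
  linarith

/-- the sites structure -/
lemma sites (I : Inst) : Sites I.D I.δ I.Fr := Cnt268.sites_tri I.hD I.hM

/-- the compact sets -/
lemma isCompact_deep (I : Inst) {κ : ℝ} (hκ : 0 < κ) :
    IsCompact {z : ℂ | κ ≤ Metric.infDist z I.Dᶜ} ∧ {z : ℂ | κ ≤ Metric.infDist z I.Dᶜ} ⊆ I.D := by
  have h1 : {z : ℂ | κ ≤ Metric.infDist z I.Dᶜ} ⊆ I.D := by
    intro z hz
    by_contra h
    have h2 : Metric.infDist z I.Dᶜ = 0 := Metric.infDist_zero_of_mem h
    have h3 : κ ≤ Metric.infDist z I.Dᶜ := hz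
    linarith
  refine ⟨Metric.isCompact_of_isClosed_isBounded
    (isClosed_le continuous_const (Metric.continuous_infDist_pt _)) ?_, h1⟩
  exact (sites I).bdd.subset h1

lemma dist_centre_add {δ : ℝ} (hδ : 0 ≤ δ) (a z : P2) {L : ℕ} (h1 : |z.1| ≤ L) (h2 : |z.2| ≤ L) :
    dist (centre δ (a + z)) (centre δ a) ≤ 2 * L * δ := by
  have e : centre δ (a + z) = centre δ a + centre δ z := Lat549.centre_add δ a z
  rw [e, dist_eq_norm, add_sub_cancel_left]
  refine Upp296.norm_centre_le hδ z ?_ ?_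
  · exact_mod_cast h1
  · exact_mod_cast h2

theorem Kc_marg (ε0 : ℝ) (k L : ℕ) : ∀ᶠ n in atTop, ∀ a ∈ Kc I ε0 k n, ∀ z : P2, |z.1| ≤ L →
    |z.2| ≤ L → a + z ∈ Kc I ε0 (k + 1) n := by
  have hk : (0 : ℝ) < (k : ℝ) + 1 := by positivity
  set κ : ℝ := 1 / ((k : ℝ) + 1) - 1 / ((k : ℝ) + 1 + 1) with hκ
  have hκ0 : 0 < κ := by
    rw [hκ, sub_pos]
    apply one_div_lt_one_div_of_lt hk; linarith
  have hd := isCompact_deep I (κ := 1 / ((k : ℝ) + 1 + 1)) (by positivity)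
  filter_upwards [(sites I).inn _ hd.1 hd.2,
    delta_small I (show 0 < κ / (2 * (L + 1)) by positivity)] with n hn hδκ a ha z hz1 hz2
  have hδ := I.hM.1 n
  have hdist := dist_centre_add hδ.le a z hz1 hz2
  have hsm : 2 * L * I.δ n ≤ κ := by
    rw [lt_div_iff₀ (by positivity)] at hδκ
    nlinarith
  rw [mem_Kc] at ha ⊢
  obtain ⟨ha1, ha2, ha3⟩ := ha
  have h1 : 1 / ((k : ℝ) + 1 + 1) ≤ Metric.infDist (centre (I.δ n) (a + z)) I.Dᶜ := by
    have h2 := Metric.infDist_le_infDist_add_dist (s := I.Dᶜ) (x := centre (I.δ n) a)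
      (y := centre (I.δ n) (a + z))
    rw [dist_comm] at h2
    linarith
  push_cast
  refine ⟨hn _ h1, h1, ?_, ?_⟩
  · have h2 := dist_triangle (centre (I.δ n) a) (centre (I.δ n) (a + z)) (I.γ 0)
    rw [dist_comm (centre (I.δ n) a) (centre (I.δ n) (a + z))] at h2
    have := ha3.1
    linarith
  · have h2 := dist_triangle (centre (I.δ n) a) (centre (I.δ n) (a + z)) (I.γ I.θ)
    rw [dist_comm (centre (I.δ n) a) (centre (I.δ n) (a + z))] at h2
    have := ha3.2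
    linarith

theorem Kc_area (I : Inst) (ε0 : ℝ) : ∃ Ca : ℝ, ∀ k, ∀ᶠ n in atTop,
    I.δ n ^ 2 * (Kc I ε0 k n).card ≤ Ca := by
  obtain ⟨R, hR, h⟩ := card_bound (I := I)
  refine ⟨R, fun k => ?_⟩
  filter_upwards [h] with n hn
  have hδ := I.hM.1 n
  have h1 : ((Kc I ε0 k n).card : ℝ) ≤ (I.Fr n).card := by
    exact_mod_cast card_le_card (@filter_subset _ _ (_) _)
  calc I.δ n ^ 2 * ((Kc I ε0 k n).card : ℝ) ≤ I.δ n ^ 2 * (R / I.δ n ^ 2) := by gcongr; linarith
    _ = R := by field_simp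

theorem Kx_area (I : Inst) (ε0 : ℝ) : ∃ Ca : ℝ, ∀ᶠ n in atTop,
    I.δ n ^ 2 * (Kx I ε0 n).card ≤ Ca := by
  obtain ⟨R, hR, h⟩ := card_bound (I := I)
  refine ⟨3 * R, ?_⟩
  filter_upwards [h] with n hn
  have hδ := I.hM.1 n
  have h1 : ((Kx I ε0 n).card : ℝ) ≤ 3 * (I.Fr n).card := by
    exact_mod_cast card_KX I.γ I.θ ε0 (I.δ n) (I.T n) (I.c n)
  calc I.δ n ^ 2 * ((Kx I ε0 n).card : ℝ) ≤ I.δ n ^ 2 * (3 * (R / I.δ n ^ 2)) := by
        gcongr; linarith
    _ = 3 * R := by field_simp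

/-- number of sites in an annulus -/
lemma card_annulus {δ : ℝ} (hδ : 0 < δ) (p : ℂ) {r κ : ℝ} (hr : 2 * δ ≤ r) (hκ : 0 ≤ κ)
    {S : Finset P2} (hS : ∀ v ∈ S, r ≤ dist (centre δ v) p ∧ dist (centre δ v) p ≤ r + κ) :
    (S.card : ℝ) * vc δ ≤ Real.pi * ((κ + 3 * δ) * (2 * r + κ)) := by
  have hr0 : 0 ≤ r - 2 * δ := by linarith
  have h1 : (S.card : ℝ) * vc δ ≤ volume.real (Metric.closedBall p (r + κ + δ) \
      Metric.closedBall p (r - 2 * δ)) := by
    refine Cnt268.card_mul_le hδ (Metric.isClosed_closedBall.measurableSet.diff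
      Metric.isClosed_closedBall.measurableSet) ?_ fun v hv z hz => ?_
    · exact ne_top_of_le_ne_top (isCompact_closedBall p _).measure_lt_top.ne
        (measure_mono Set.sdiff_subset)
    · have h2 := Metric.mem_closedBall.1 (Cnt268.cell_subset_ball hδ v hz)
      have h3 := dist_triangle z (centre δ v) p
      have h4 := dist_triangle (centre δ v) z p
      rw [dist_comm (centre δ v) z] at h4
      have h5 := hS v hv
      refine ⟨Metric.mem_closedBall.2 (by linarith), fun h6 => ?_⟩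
      have := Metric.mem_closedBall.1 h6
      linarith
  refine h1.trans ?_
  rw [measureReal_sdiff (Metric.closedBall_subset_closedBall (by linarith))
    Metric.isClosed_closedBall.measurableSet (isCompact_closedBall p _).measure_lt_top.ne,
    Cnt268.volume_real_closedBall p (by linarith), Cnt268.volume_real_closedBall p hr0, ← mul_sub]
  refine mul_le_mul_of_nonneg_left ?_ Real.pi_pos.le
  nlinarith

/-- **the layer is small in area** -/
theorem Kc_layer {ε0 : ℝ} (hε : 0 < ε0) {η : ℝ} (hη : 0 < η) : ∃ k : ℕ, ∀ᶠ n in atTop,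
    I.δ n ^ 2 * ((Kx I ε0 n \ Kc I ε0 k n).card : ℝ) ≤ η := by
  classical
  have hpi := Real.pi_pos
  set η1 : ℝ := η / 10 with hη1
  have hη10 : 0 < η1 := by positivity
  obtain ⟨K, hK, hKD, -, hlay⟩ := (sites I).layer hη10
  obtain ⟨r, hr, hrc, hrs⟩ := Cov353.exists_thick hK (sites I).opn hKD
  -- depth of `K`
  have hdeep : ∀ z ∈ K, r ≤ Metric.infDist z I.Dᶜ := by
    intro z hz
    by_contra h
    push Not at h
    have hne : (I.Dᶜ).Nonempty := by
      by_contra h0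
      rw [Set.not_nonempty_iff_eq_empty] at h0
      have h1 : I.D = Set.univ := by rw [← compl_compl I.D, h0, Set.compl_empty]
      have h2 := (sites I).volume_ne_top
      rw [h1] at h2
      exact h2 (by simp)
    obtain ⟨w, hw, hzw⟩ := (Metric.infDist_lt_iff hne).1 h
    refine hw (hrs (Metric.mem_cthickening_of_dist_le w z r K hz ?_))
    rw [dist_comm]; exact hzw.le
  -- choice of `k`
  obtain ⟨k, hk⟩ := exists_nat_one_div_lt (show 0 < min r (min 1 (η1 / (Real.pi * (2 * ε0 + 1) * 2)))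
    by positivity)
  have hk1 : 1 / ((k : ℝ) + 1) < r := hk.trans_le (min_le_left _ _)
  have hk2 : 1 / ((k : ℝ) + 1) < 1 := hk.trans_le ((min_le_right _ _).trans (min_le_left _ _))
  have hk3 : 1 / ((k : ℝ) + 1) < η1 / (Real.pi * (2 * ε0 + 1) * 2) :=
    hk.trans_le ((min_le_right _ _).trans (min_le_right _ _))
  have hk0 : 0 < 1 / ((k : ℝ) + 1) := by positivity
  refine ⟨k, ?_⟩
  filter_upwards [hlay, (sites I).near 1 hη10, delta_small I (show 0 < ε0 / 2 by positivity),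
    delta_small I (show 0 < η1 / (Real.pi * (2 * ε0 + 1) * 6) by positivity)]
    with n hlay hnear hδ1 hδ2
  have hδ := I.hM.1 n
  set κ := 1 / ((k : ℝ) + 1) with hκ
  set S := Kx I ε0 n \ Kc I ε0 k n with hS
  set A1 := (I.Fr n).filter fun x => centre (I.δ n) x ∉ K with hA1
  set Bn := (I.Fr n).filter fun v => ∃ w : P2, w ∉ I.Fr n ∧ |w.1 - v.1| ≤ (1 : ℕ) ∧
    |w.2 - v.2| ≤ (1 : ℕ) with hBn
  set A3 := S.filter fun x => ε0 ≤ dist (centre (I.δ n) x) (I.γ 0) ∧
    dist (centre (I.δ n) x) (I.γ 0) ≤ ε0 + κ with hA3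
  set A4 := S.filter fun x => ε0 ≤ dist (centre (I.δ n) x) (I.γ I.θ) ∧
    dist (centre (I.δ n) x) (I.γ I.θ) ≤ ε0 + κ with hA4
  have c1 : (A1.card : ℝ) * vc (I.δ n) ≤ η1 := hlay A1 (filter_subset _ _) fun v hv =>
    (mem_filter.mp hv).2
  have c2 : (Bn.card : ℝ) * vc (I.δ n) ≤ η1 := hnear Bn (filter_subset _ _) fun v hv =>
    (mem_filter.mp hv).2
  have hann : Real.pi * ((κ + 3 * I.δ n) * (2 * ε0 + κ)) ≤ η1 := by
    rw [lt_div_iff₀ (by positivity)] at hk3 hδ2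
    have h1 : (κ + 3 * I.δ n) * (2 * ε0 + κ) ≤ (κ + 3 * I.δ n) * (2 * ε0 + 1) := by
      gcongr
    have h2 := mul_le_mul_of_nonneg_left h1 hpi.le
    nlinarith
  have c3 : (A3.card : ℝ) * vc (I.δ n) ≤ η1 :=
    (card_annulus hδ (I.γ 0) (by linarith) hk0.le fun v hv => (mem_filter.mp hv).2).trans hann
  have c4 : (A4.card : ℝ) * vc (I.δ n) ≤ η1 :=
    (card_annulus hδ (I.γ I.θ) (by linarith) hk0.le fun v hv => (mem_filter.mp hv).2).trans hann
  have hcov : S ⊆ A1 ∪ (Bn.image (fun v => v - (1, 0)) ∪ Bn.image (fun v => v - (0, 1))) ∪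
      (A3 ∪ A4) := by
    intro x hx
    have hxS := hx
    obtain ⟨hx1, h2⟩ := Finset.mem_sdiff.mp hx
    obtain ⟨h1, hoff⟩ := mem_Kx.mp hx1
    rw [mem_Kc] at h2
    by_cases hxF : x ∈ I.Fr n
    · by_cases hxK : centre (I.δ n) x ∈ K
      · have h3 : ¬ Off I (ε0 + κ) n x := fun h4 => h2 ⟨hxF, hk1.le.trans (hdeep _ hxK), h4⟩
        unfold Off at h3
        rw [not_and_or, not_le, not_le] at h3
        refine mem_union_right _ ?_
        rcases h3 with h3 | h3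
        · exact mem_union_left _ (mem_filter.mpr ⟨hxS, hoff.1, h3.le⟩)
        · exact mem_union_right _ (mem_filter.mpr ⟨hxS, hoff.2, h3.le⟩)
      · exact mem_union_left _ (mem_union_left _ (mem_filter.mpr ⟨hxF, hxK⟩))
    · refine mem_union_left _ (mem_union_right _ ?_)
      rcases h1 with h1 | h1 | h1
      · exact absurd h1 hxF
      · refine mem_union_left _ (mem_image.mpr ⟨x + (1, 0), mem_filter.mpr ⟨h1, x, hxF, ?_, ?_⟩,
          add_sub_cancel_right _ _⟩)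
        · simp
        · simp
      · refine mem_union_right _ (mem_image.mpr ⟨x + (0, 1), mem_filter.mpr ⟨h1, x, hxF, ?_, ?_⟩,
          add_sub_cancel_right _ _⟩)
        · simp
        · simp
  have hcard : S.card ≤ A1.card + (Bn.card + Bn.card) + (A3.card + A4.card) := by
    refine (card_le_card hcov).trans ?_
    refine (card_union_le _ _).trans (add_le_add ((card_union_le _ _).trans
      (add_le_add le_rfl ((card_union_le _ _).trans (add_le_add card_image_le card_image_le))))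
      (card_union_le _ _))
  have hcard' : (S.card : ℝ) ≤ A1.card + (Bn.card + Bn.card) + (A3.card + A4.card) := by
    exact_mod_cast hcard
  have hvc : I.δ n ^ 2 ≤ 2 * vc (I.δ n) := by
    unfold vc
    have h3 : (1 : ℝ) ≤ Real.sqrt 3 := by
      apply Real.le_sqrt_of_sq_le; norm_num
    nlinarith [sq_nonneg (I.δ n)]
  have hv0 := vc_nonneg (I.δ n)
  calc I.δ n ^ 2 * (S.card : ℝ) ≤ 2 * vc (I.δ n) * S.card := by gcongr
    _ ≤ 2 * vc (I.δ n) * (A1.card + (Bn.card + Bn.card) + (A3.card + A4.card)) := by gcongr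
    _ = 2 * (A1.card * vc (I.δ n) + 2 * (Bn.card * vc (I.δ n)) + A3.card * vc (I.δ n) +
        A4.card * vc (I.δ n)) := by ring
    _ ≤ 2 * (η1 + 2 * η1 + η1 + η1) := by gcongr
    _ = η := by rw [hη1]; ring

end Crest.Agent.R144.Uig714
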