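import Mathlib
import Crest.Agent.R144.Uig11_714

/-!
# R144 (S0197), helper714: the gradient fields of `UpHyp`

* `ex_dd` : gradients of `uf (δ⁻¹ • Y)` in terms of `gr Y`;
* `up_grad`, `up_ui`, `up_layer` : `UpHyp.{grad, ui, layer}`.
-/

set_option autoImplicit false

namespace Crest.Agent.R144.Uig714

open MeasureTheory Finset Filter Topology
open Crest.Agent.R144.Uia714 Crest.Agent.R144.Skel144
open Crest.Agent.R144.Ham560 (ext ham nbr mem_nbr Fresh tight hamP measurableSet_ham ext_mem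
  ext_notMem triE mem_triE mem_nbr_triE triXi mem_freeVerts' abs_triXi_le Anch ham_neg)
open Crest.Agent.R144.Kor620 (P2 nrm FullE cnum measurable_cnum)
open Crest.Agent.R144.KorE761 (LatE LatFam latE_triE gr RigidW lawT lab)
open Crest.ProbabilityR.TriHeights Crest.ProbabilityR.HexHeights
open Crest.Agent.R144.Geo268 (wA)
open Crest.Agent.R144.Upp296 (Ex KX mem_KX card_KX Bd dir)
open Crest.Agent.R144.Flat296 (dd)
open Crest.Agent.R144.Cnt268 (vc vc_pos vc_nonneg Sites)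
open Crest.Agent.R144.Fa812 (uf)
open scoped BigOperators ENNReal NNReal

variable {I : Inst}

lemma uf_smul {n : ℕ} (Y : (I.Fr n → ℝ) → (I.Fr n → ℝ)) (c : ℝ) (a : P2) (h : I.Fr n → ℝ) :
    uf (c • Y) a h = c * lab Y a h := by
  unfold uf lab
  by_cases ha : a ∈ I.Fr n
  · rw [ext_mem ha, ext_mem ha]; rfl
  · rw [ext_notMem ha, ext_notMem ha]; simp

lemma abs_dd_uf {n : ℕ} (Y : (I.Fr n → ℝ) → (I.Fr n → ℝ)) (z a : P2) (h : I.Fr n → ℝ) :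
    |dd z (uf ((I.δ n)⁻¹ • Y)) a h| = (I.δ n)⁻¹ * |gr Y a (a + z) h| := by
  have hδ := I.hM.1 n
  have e : dd z (uf ((I.δ n)⁻¹ • Y)) a h = (I.δ n)⁻¹ * gr Y (a + z) a h := by
    show uf ((I.δ n)⁻¹ • Y) (a + z) h - uf ((I.δ n)⁻¹ • Y) a h = _
    rw [uf_smul, uf_smul]
    unfold gr
    ring
  rw [e, abs_mul, abs_of_pos (inv_pos.2 hδ), abs_gr_comm]

lemma adj_dir (i : Fin 2) (x : P2) : Adj x (x + dir i) := by
  obtain ⟨a, b⟩ := x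
  unfold Adj dir
  fin_cases i <;> simp

/-- **gradients of `uf (δ⁻¹ • Y)` in terms of `gr Y`** -/
theorem ex_dd {ε0 : ℝ} (hε : 0 < ε0) : ∀ᶠ n in atTop, ∀ K : Finset P2, (∀ x ∈ K, Off I ε0 n x) →
    ∃ Q : Fin 2 → Fin 2 → Finset (P2 × P2), (∀ i j, PairsOff I (ε0 / 2) n (Q i j)) ∧
      (∀ i j, (Q i j).card ≤ K.card) ∧
      ∀ (Y : (I.Fr n → ℝ) → (I.Fr n → ℝ)) (φ : ℝ → ℝ), φ 0 = 0 →
        ∑ i, Ex (I.P0 n) K (fun x ω => φ |dd (dir i) (uf ((I.δ n)⁻¹ • Y)) x ω|) =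
          ∑ i, ∑ j, ∑ p ∈ Q i j, ∫ ω, φ ((I.δ n)⁻¹ * |gr Y p.1 p.2 ω|) ∂(I.P0 n) := by
  filter_upwards [sum_dir (I := I) hε] with n hn K hK
  choose Q1 Q2 h1 h2 h3 h4 h5 using fun i : Fin 2 => hn (dir i) (adj_dir i) K hK
  refine ⟨fun i => ![Q1 i, Q2 i], ?_, ?_, ?_⟩
  · intro i j
    fin_cases j
    · exact h1 i
    · exact h2 i
  · intro i j
    fin_cases j
    · exact h3 i
    · exact h4 i
  · intro Y φ hφ
    refine sum_congr rfl fun i _ => ?_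
    have h6 := h5 i (fun p => ∫ ω, φ ((I.δ n)⁻¹ * |gr Y p.1 p.2 ω|) ∂(I.P0 n))
      (fun u v => by simp only [abs_gr_comm Y v u])
      (fun u v hu hv => by simp only [gr_zero Y hu hv, abs_zero, mul_zero, hφ, integral_zero])
    rw [Fin.sum_univ_two]
    simp only [Matrix.cons_val_zero, Matrix.cons_val_one]
    rw [← h6]
    unfold Ex
    simp only [abs_dd_uf]

section fields

variable {ε0 : ℝ}

lemma off_of_mem_Kx {n : ℕ} {x : P2} (hx : x ∈ Kx I ε0 n) : Off I ε0 n x := (mem_Kx.mp hx).2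

lemma integral_inv_mul {n : ℕ} (Y : (I.Fr n → ℝ) → (I.Fr n → ℝ)) (Q : Finset (P2 × P2)) :
    I.δ n ^ 2 * ∑ p ∈ Q, ∫ ω, (I.δ n)⁻¹ * |gr Y p.1 p.2 ω| ∂(I.P0 n) =
      I.δ n * ∑ p ∈ Q, ∫ ω, |gr Y p.1 p.2 ω| ∂(I.P0 n) := by
  have hδ := I.hM.1 n
  simp only [integral_const_mul]
  rw [← mul_sum]
  field_simp

/-- `UpHyp.grad` -/
theorem up_grad (hε : 0 < ε0) {Y : ∀ n, (I.Fr n → ℝ) → (I.Fr n → ℝ)}
    (hY : ∀ᶠ n in atTop, NiceF I n (Y n)) {C : ℝ} (hC : ∀ᶠ n in atTop, EnI n (Y n) ≤ C) :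
    ∃ S : ℝ, ∀ᶠ n in atTop, I.δ n ^ 2 * ∑ i, Ex (I.P0 n) (Kx I ε0 n)
      (fun x ω => |dd (dir i) (uf ((I.δ n)⁻¹ • Y n)) x ω|) ≤ S := by
  obtain ⟨S, hS, hl1⟩ := l1_bound (I := I) (half_pos hε)
  refine ⟨4 * (S * Real.sqrt (C + 1)), ?_⟩
  filter_upwards [ex_dd (I := I) hε, hl1, hY, hC] with n hex hl1 hY hC
  obtain ⟨Q, hQ, -, h⟩ := hex (Kx I ε0 n) fun x hx => off_of_mem_Kx hx
  have h1 := h (Y n) id rfl
  simp only [id] at h1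
  rw [h1, mul_sum]
  have h2 : ∀ i j, I.δ n ^ 2 * ∑ p ∈ Q i j, ∫ ω, (I.δ n)⁻¹ * |gr (Y n) p.1 p.2 ω| ∂(I.P0 n) ≤
      S * Real.sqrt (C + 1) := fun i j => by
    rw [integral_inv_mul]
    refine (hl1 _ (hQ i j) _ hY).trans ?_
    gcongr
  calc ∑ i, I.δ n ^ 2 * ∑ j, ∑ p ∈ Q i j, ∫ ω, (I.δ n)⁻¹ * |gr (Y n) p.1 p.2 ω| ∂(I.P0 n)
      = ∑ i, ∑ j, I.δ n ^ 2 * ∑ p ∈ Q i j, ∫ ω, (I.δ n)⁻¹ * |gr (Y n) p.1 p.2 ω| ∂(I.P0 n) :=
        sum_congr rfl fun i _ => mul_sum _ _ _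
    _ ≤ ∑ _i : Fin 2, ∑ _j : Fin 2, S * Real.sqrt (C + 1) :=
        sum_le_sum fun i _ => sum_le_sum fun j _ => h2 i j
    _ = 4 * (S * Real.sqrt (C + 1)) := by
        simp only [sum_const, card_univ, Fintype.card_fin, nsmul_eq_mul]; push_cast; ring

/-- `UpHyp.layer` -/
theorem up_layer (hε : 0 < ε0) {Y : ∀ n, (I.Fr n → ℝ) → (I.Fr n → ℝ)}
    (hY : ∀ᶠ n in atTop, NiceF I n (Y n)) {C : ℝ} (hC : ∀ᶠ n in atTop, EnI n (Y n) ≤ C) :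
    ∀ ε : ℝ, 0 < ε → ∃ k, ∀ᶠ n in atTop, I.δ n ^ 2 * ∑ i, Ex (I.P0 n) (Kx I ε0 n \ Kc I ε0 k n)
      (fun x ω => |dd (dir i) (uf ((I.δ n)⁻¹ • Y n)) x ω|) ≤ ε := by
  intro ε hε'
  obtain ⟨τ, hτ, hsm⟩ := small_area (I := I) (half_pos hε) C (η := ε / 4) (by positivity)
  obtain ⟨k, hk⟩ := Kc_layer (I := I) hε hτ
  refine ⟨k, ?_⟩
  filter_upwards [ex_dd (I := I) hε, hsm, hY, hC, hk] with n hex hsm hY hC hk
  have hδ := I.hM.1 n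
  obtain ⟨Q, hQ, hQc, h⟩ := hex (Kx I ε0 n \ Kc I ε0 k n) fun x hx =>
    off_of_mem_Kx (Finset.mem_sdiff.mp hx).1
  have h1 := h (Y n) id rfl
  simp only [id] at h1
  rw [h1, mul_sum]
  have h2 : ∀ i j, I.δ n ^ 2 * ∑ p ∈ Q i j, ∫ ω, (I.δ n)⁻¹ * |gr (Y n) p.1 p.2 ω| ∂(I.P0 n) ≤
      ε / 4 := fun i j => by
    rw [integral_inv_mul]
    refine hsm _ (hQ i j) ?_ _ hY hC
    refine le_trans ?_ hk
    have : ((Q i j).card : ℝ) ≤ ((Kx I ε0 n \ Kc I ε0 k n).card : ℝ) := by exact_mod_cast hQc i j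
    gcongr
  calc ∑ i, I.δ n ^ 2 * ∑ j, ∑ p ∈ Q i j, ∫ ω, (I.δ n)⁻¹ * |gr (Y n) p.1 p.2 ω| ∂(I.P0 n)
      = ∑ i, ∑ j, I.δ n ^ 2 * ∑ p ∈ Q i j, ∫ ω, (I.δ n)⁻¹ * |gr (Y n) p.1 p.2 ω| ∂(I.P0 n) :=
        sum_congr rfl fun i _ => mul_sum _ _ _
    _ ≤ ∑ _i : Fin 2, ∑ _j : Fin 2, ε / 4 :=
        sum_le_sum fun i _ => sum_le_sum fun j _ => h2 i j
    _ = ε := by
        simp only [sum_const, card_univ, Fintype.card_fin, nsmul_eq_mul]; push_cast; ring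

/-- `UpHyp.ui` -/
theorem up_ui (hε : 0 < ε0) {Y : ∀ n, (I.Fr n → ℝ) → (I.Fr n → ℝ)}
    (hY : ∀ᶠ n in atTop, NiceF I n (Y n)) {C : ℝ} (hC : ∀ᶠ n in atTop, EnI n (Y n) ≤ C) :
    ∀ ε : ℝ, 0 < ε → ∃ Λ0 : ℝ, ∀ᶠ n in atTop, I.δ n ^ 2 * ∑ i, Ex (I.P0 n) (Kx I ε0 n)
      (fun x ω => max 0 (|dd (dir i) (uf ((I.δ n)⁻¹ • Y n)) x ω| - Λ0)) ≤ ε := by
  intro ε hε'
  obtain ⟨Λ, hΛ, hui⟩ := uig (I := I) (half_pos hε) C (η := ε / 4) (by positivity)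
  refine ⟨Λ, ?_⟩
  filter_upwards [ex_dd (I := I) hε, hui, hY, hC] with n hex hui hY hC
  have hδ := I.hM.1 n
  obtain ⟨Q, hQ, -, h⟩ := hex (Kx I ε0 n) fun x hx => off_of_mem_Kx hx
  have h1 := h (Y n) (fun t => max 0 (t - Λ)) (by
    simp only [zero_sub]; exact max_eq_left (by linarith))
  rw [h1, mul_sum]
  have h2 : ∀ i j, I.δ n ^ 2 * ∑ p ∈ Q i j,
      ∫ ω, max 0 ((I.δ n)⁻¹ * |gr (Y n) p.1 p.2 ω| - Λ) ∂(I.P0 n) ≤ ε / 4 := fun i j => by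
    refine le_trans ?_ (hui _ (hQ i j) _ hY hC)
    have e : ∀ x : ℝ, I.δ n ^ 2 * x = I.δ n * (I.δ n * x) := fun x => by ring
    rw [e]
    refine mul_le_mul_of_nonneg_left ?_ hδ.le
    rw [mul_sum]
    refine sum_le_sum fun p _ => ?_
    rw [← integral_const_mul]
    obtain ⟨c, hc⟩ := hY.bdd p.1 p.2
    have hm := (hY.measurable_gr p.1 p.2).abs
    refine integral_mono_of_nonneg (Eventually.of_forall fun ω => by positivity) ?_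
      (Eventually.of_forall fun ω => ?_)
    · refine int_of_bdd (Measurable.ite (measurableSet_lt measurable_const hm) hm
        measurable_const) (C := c) fun h => ?_
      split_ifs
      · rw [abs_abs]; exact hc h
      · rw [abs_zero]; exact (abs_nonneg _).trans (hc h)
    · simp only
      have hg0 := abs_nonneg (gr (Y n) p.1 p.2 ω)
      split_ifs with hlt
      · rw [mul_max_of_nonneg _ _ hδ.le, mul_zero, mul_sub, ← mul_assoc,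
          mul_inv_cancel₀ hδ.ne', one_mul]
        refine max_le hg0 ?_
        have := mul_pos hδ hΛ
        linarith
      · have h3 : (I.δ n)⁻¹ * |gr (Y n) p.1 p.2 ω| - Λ ≤ 0 := by
          push Not at hlt
          rw [sub_nonpos, inv_mul_le_iff₀ hδ]
          linarith
        rw [max_eq_left h3, mul_zero]
  calc ∑ i, I.δ n ^ 2 * ∑ j, ∑ p ∈ Q i j,
        ∫ ω, max 0 ((I.δ n)⁻¹ * |gr (Y n) p.1 p.2 ω| - Λ) ∂(I.P0 n)
      = ∑ i, ∑ j, I.δ n ^ 2 * ∑ p ∈ Q i j,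
        ∫ ω, max 0 ((I.δ n)⁻¹ * |gr (Y n) p.1 p.2 ω| - Λ) ∂(I.P0 n) :=
        sum_congr rfl fun i _ => mul_sum _ _ _
    _ ≤ ∑ _i : Fin 2, ∑ _j : Fin 2, ε / 4 :=
        sum_le_sum fun i _ => sum_le_sum fun j _ => h2 i j
    _ = ε := by
        simp only [sum_const, card_univ, Fintype.card_fin, nsmul_eq_mul]; push_cast; ring

end fields

end Crest.Agent.R144.Uig714
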