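import Mathlib
import Crest.Agent.R144.Uig12_714
import Crest.Agent.R144.Hsu12_498

/-!
# R144 (S0197), helper714: almost optimal fields at Inst level, a-priori bound `AprB`

* `niceF_of_nice`, `exists_field`;
* `exists_seq` : one sequence of nice fields with `Var X_n ≤ 2 ∫ ∑ w Y - EnI + 1 / (n + 1)` and
  `EnI` bounded;
* `aprB`.
-/

set_option autoImplicit false

namespace Crest.Agent.R144.Uig714

open MeasureTheory Finset Filter Topology ProbabilityTheory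
open Crest.Agent.R144.Uia714 Crest.Agent.R144.Skel144
open Crest.Agent.R144.Ham560 (ext ham hamP ext_mem ext_notMem)
open Crest.Agent.R144.KorE761 (gr RigidW lawT lab)
open Crest.Agent.R144.Geo268 (wA)
open scoped BigOperators

variable {I : Inst}

/-- 498's nice fields are nice -/
theorem niceF_of_nice {n : ℕ} {Y : (I.Fr n → ℝ) → (I.Fr n → ℝ)}
    (h : Hsu498.Nice (I.Fr n) (I.Ed n) (I.xi n) Y) : NiceF I n Y := by
  refine ⟨h.smooth.of_le (by exact_mod_cast le_top), h.cpt, ?_⟩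
  obtain ⟨ρ, hρ, hr⟩ := h.rigid
  intro x hx p hp hg
  exact hr x hx p hp (by rw [hg]; linarith)

/-- **almost optimal fields** -/
theorem exists_field (I : Inst) (n : ℕ) (w : I.Fr n → ℝ) (c1 : ℝ) {ε : ℝ} (hε : 0 < ε) :
    ∃ Y : (I.Fr n → ℝ) → (I.Fr n → ℝ), Hsu498.Nice (I.Fr n) (I.Ed n) (I.xi n) Y ∧
      Var[fun x => (∑ v, w v * x v) + c1; I.P0 n] ≤
        2 * (∫ x, ∑ v, w v * Y x v ∂(I.P0 n)) - EnI n Y + ε := by
  obtain ⟨Y, hY, h⟩ := Hsu498.hsu_linear (F := I.Fr n) (Ed := I.Ed n) (ξ := I.xi n)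
    (I.isCompact_ham n).isBounded
    (Ham560.volume_ham_ne_zero (I.abs_xi_le n)) 0 0 w c1 hε
  have e : (hamP (I.Fr n) (I.Ed n) (I.xi n)).tilted
      (fun h => (∑ v, (0 : I.Fr n → ℝ) v * h v) + 0) = I.P0 n := by
    have : (fun h : I.Fr n → ℝ => (∑ x, (0 : I.Fr n → ℝ) x * h x) + 0) = fun _ => (0 : ℝ) := by
      funext h; simp
    rw [this, tilted_const', measure_univ, inv_one, one_smul]
  rw [e] at h
  exact ⟨Y, hY, h⟩

/-- **one sequence of nice, almost optimal fields with bounded energy** -/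
theorem exists_seq (I : Inst) : ∃ Y : ∀ n, (I.Fr n → ℝ) → (I.Fr n → ℝ),
    (∀ n, Hsu498.Nice (I.Fr n) (I.Ed n) (I.xi n) (Y n)) ∧
    (∀ᶠ n in atTop, Var[I.X n; I.P0 n] ≤
      2 * (∫ x, ∑ v : I.Fr n, wA (I.δ n) I.f v * Y n x v ∂(I.P0 n)) - EnI n (Y n) +
        1 / ((n : ℝ) + 1)) ∧
    ∃ C : ℝ, 0 < C ∧ ∀ᶠ n in atTop, EnI n (Y n) ≤ C ∧ Var[I.X n; I.P0 n] ≤ C := by
  choose Y hY h using fun n : ℕ => exists_field I n (fun v : I.Fr n => wA (I.δ n) I.f v) 0
    (show (0 : ℝ) < 1 / ((n : ℝ) + 1) by positivity)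
  have hV : ∀ᶠ n in atTop, Var[I.X n; I.P0 n] ≤
      2 * (∫ x, ∑ v : I.Fr n, wA (I.δ n) I.f v * Y n x v ∂(I.P0 n)) - EnI n (Y n) +
        1 / ((n : ℝ) + 1) := by
    filter_upwards [X_plain I] with n hn
    have e : (fun x : I.Fr n → ℝ => (∑ v : I.Fr n, wA (I.δ n) I.f v * x v) + 0) = I.X n := by
      funext x
      rw [add_zero, hn.2]
    have := h n
    rwa [e] at this
  refine ⟨Y, hY, hV, ?_⟩
  obtain ⟨C, hC, hap⟩ := apr_energy I
  refine ⟨C + 1, by positivity, ?_⟩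
  filter_upwards [hV, hap] with n hV hap
  have h1 : (1 : ℝ) / ((n : ℝ) + 1) ≤ 1 := by
    rw [div_le_one (by positivity)]
    have : (0 : ℝ) ≤ n := Nat.cast_nonneg n
    linarith
  have h0 : 0 ≤ Var[I.X n; I.P0 n] := variance_nonneg _ _
  have h2 := hap (Y n) (niceF_of_nice (hY n)) (by linarith)
  have h3 := EnI_nonneg n (Y n)
  exact ⟨by linarith, by linarith⟩

/-- **a-priori variance bound** -/
theorem aprB : AprB := by
  intro I
  obtain ⟨Y, _, _, C, hC, h⟩ := exists_seq I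
  refine ⟨3 * (C + 1), by positivity, ?_⟩
  filter_upwards [h] with n hn
  nlinarith [hn.2]

end Crest.Agent.R144.Uig714
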