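import Crest.Agent.R144.Fa8_812
import Crest.Agent.R144.Uid3_674
import Crest.Agent.R144.Uig13_714

/-!
R144 (S0197), helper812.  FA, part 9: **the fibre assembly at every instance**.

* `SmallP P` : small parameters (674's universal `e0`);
* `tailH_inst` : `TailH` from 674's `uid_moment`;
* `faHyp_inst`, `fas_inst` : `FaHyp` and the field `fas` of `BlkHyp`.
-/

set_option autoImplicit false
set_option linter.unusedSectionVars false

open MeasureTheory Set Filter Topology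
open scoped ENNReal NNReal

namespace Crest.Agent.R144.Fa812

open Crest.Agent.R144.Ham560 Crest.Agent.R144.Fib674
open Crest.Agent.R144.Flat296 (P2 Fld pt)
open Crest.Agent.R144.Upp296 (Bd FasAt)
open Crest.Agent.R144.Lw425 (hd)
open Crest.Agent.R144.MW121 (jac jac_apply en)
open Crest.Agent.R144.Bl565 (Par ps win cw shp bbL bbL_of_neg)
open Crest.Agent.R144.Skel144 (Inst)
open Crest.Agent.R144.Uig714 (Kc mem_Kc Kc_marg Kc_area Off EnI)
open Crest.Agent.R144.Uid674 (e0 e0_pos Prm MC uid_moment)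
open Crest.ProbabilityR.HexHeights (Adj)

noncomputable section

/-- small parameters -/
structure SmallP (P : Par) : Prop where
  small : P.rho + P.eps ≤ e0
  big : 4 ≤ P.Lam

theorem exists_smallP : ∃ P : Par, SmallP P :=
  ⟨⟨e0 / 2, e0 / 2, 4, by have := e0_pos; positivity, by have := e0_pos; positivity, by norm_num⟩,
    ⟨by change e0 / 2 + e0 / 2 ≤ e0; linarith, le_rfl⟩⟩

theorem prm_ps {P : Par} (hP : SmallP P) (c0 : ℝ) : Prm P.rho P.eps P.Lam c0 1 ps where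
  hρ := P.rho_pos.le
  hε := P.eps_pos
  small := hP.small
  hΛ := by linarith [hP.big]
  hL := by linarith [hP.big]
  hφ i a b hab := by
    refine (Bl565.abs_ps_sub_le i a b).trans (le_of_eq ?_)
    rw [Lc279.hd_eq_one_iff_adj.2 hab]
    norm_num

variable {P : Par} {c0 : ℝ} {I : Inst}

theorem Kc_sub_Fr (ρ0 : ℝ) (k n : ℕ) : Kc I ρ0 k n ⊆ I.Fr n := fun _ hx => (mem_Kc.1 hx).1

theorem Kc_off (ρ0 : ℝ) (k n : ℕ) : ∀ v ∈ Kc I ρ0 k n, Off I ρ0 n v := fun v hv => by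
  have h := (mem_Kc.1 hv).2.2
  have h1 : 0 < 1 / ((k : ℝ) + 1) := by positivity
  exact h.anti (by linarith)

/-- **the tails at the instances** -/
theorem tailH_inst (hP : SmallP P) {ρ0 : ℝ} (hρ : 0 < ρ0) :
    TailH (fun n => I.P0 n) I.δ (fun k n => Kc I ρ0 (k + 1) n)
      (fun k n w ω => mcF P c0 (I.Fr n) (I.Ed n) (I.xi n) (Kc I ρ0 (k + 1) n) w ω) where
  m k n w := measurable_mcF w
  i k n w := by
    have hp : IsProbabilityMeasure (I.P0 n) := prob_inst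
    exact integrable_mcF w
  nn k n w ω := mcF_nonneg w ω
  u1 := by
    obtain ⟨C, hC, h⟩ := uid_moment I (prm_ps hP c0) hρ 1
    refine ⟨C * (1 / 2) ^ 0, fun k => ?_⟩
    filter_upwards [h 0] with n hn
    refine (le_of_eq ?_).trans (hn (Kc I ρ0 (k + 1) n) (Kc_sub_Fr _ _ _) (Kc_off _ _ _))
    congr 1
    refine Finset.sum_congr rfl fun w _ => ?_
    congr 1
    funext ω
    unfold mcF
    rw [pow_one]
    split_ifs with h0
    · rfl
    · have : MC I n (Kc I ρ0 (k + 1) n) P.rho P.eps P.Lam c0 ps w ω = 0 := by omega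
      exact_mod_cast this
  u2 := by
    obtain ⟨C, hC, h⟩ := uid_moment I (prm_ps hP c0) hρ 1
    refine ⟨fun j => C * (1 / 2) ^ j, fun a => ?_, fun j k => ?_⟩
    · have h1 := tendsto_pow_const_mul_const_pow_of_abs_lt_one a (r := (1 / 2 : ℝ))
        (by rw [abs_of_pos (by norm_num)]; norm_num)
      have h2 := h1.const_mul C
      rw [mul_zero] at h2
      refine h2.congr fun j => ?_
      ring
    · filter_upwards [h j] with n hn
      refine (le_of_eq ?_).trans (hn (Kc I ρ0 (k + 1) n) (Kc_sub_Fr _ _ _) (Kc_off _ _ _))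
      congr 1
      refine Finset.sum_congr rfl fun w _ => ?_
      congr 1
      funext ω
      unfold mcF
      rw [pow_one]
      simp only [Nat.cast_lt]

theorem Wb_near {r : ℕ} {o : Fin 3} {a v : P2} (hv : v ∈ Wb r o a) :
    |(v - a).1| ≤ ((2 * r : ℕ) : ℤ) ∧ |(v - a).2| ≤ ((2 * r : ℕ) : ℤ) := by
  obtain ⟨b, hb, h⟩ := Bl565.mem_win.1 hv
  obtain ⟨p, hp, rfl⟩ := mem_blk.1 hb
  have hp' := Bl565.shp_subset r o hp
  rw [Flat296.sq, Finset.mem_product, Finset.mem_range, Finset.mem_range] at hp'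
  have hc : cw r ≤ r := Nat.sqrt_le_self r
  have h2 := Lw425.hd_le_iff.1 h
  simp only [pt, Prod.fst_add, Prod.snd_add] at h2
  rw [abs_le, abs_le]
  simp only [Prod.fst_sub, Prod.snd_sub]
  push_cast
  omega

theorem Wb_sub (I : Inst) (ρ0 : ℝ) (r : ℕ) (o : Fin 3) (k : ℕ) :
    ∀ᶠ n in atTop, ∀ a ∈ Kc I ρ0 k n, Wb r o a ⊆ Kc I ρ0 (k + 1) n := by
  filter_upwards [Kc_marg (I := I) ρ0 k (2 * r)] with n hn a ha v hv
  have h := Wb_near hv
  have := hn a ha (v - a) h.1 h.2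
  rwa [add_sub_cancel] at this

theorem en_const_smul {F : Finset P2} {Y : (F → ℝ) → (F → ℝ)} (hY : Differentiable ℝ Y) (c : ℝ)
    (x : F → ℝ) : en (c • Y) x = c ^ 2 * en Y x := by
  unfold MW121.en
  rw [Finset.mul_sum]
  refine Finset.sum_congr rfl fun u _ => ?_
  rw [Finset.mul_sum]
  refine Finset.sum_congr rfl fun v _ => ?_
  rw [jac_apply, jac_apply, fderiv_const_smul (hY x)]
  simp only [_root_.smul_apply, Pi.smul_apply, smul_eq_mul]
  ring

theorem ext_zero_smul {F : Finset P2} (c : ℝ) (y : F → ℝ) (u : P2) :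
    ext F 0 (c • y) u = c * ext F 0 y u := by
  by_cases h : u ∈ F
  · rw [ext_mem h, ext_mem h]; rfl
  · rw [ext_notMem h, ext_notMem h]; simp

theorem bd_BfI' (n r : ℕ) (o : Fin 3) (L : ℝ) (i j : Fin 2) : Bd (BfI P I n r o L i j) := by
  rcases lt_or_ge L 0 with hL | hL
  · have e : BfI P I n r o L i j = fun _ _ => 0 := by
      funext a ω
      unfold BfI
      rw [bbL_of_neg hL]; rfl
    rw [e]
    exact Bd.const 0
  · exact bd_BfI hL i j

/-- **the hypotheses of the fibre assembly hold at every instance** -/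
theorem faHyp_inst (hc0 : 0 < c0) (hP : SmallP P) {ρ0 : ℝ} (hρ : 0 < ρ0)
    {Y : ∀ n, (I.Fr n → ℝ) → (I.Fr n → ℝ)}
    (hY : ∀ n, Hsu498.Nice (I.Fr n) (I.Ed n) (I.xi n) (Y n)) {Ce : ℝ}
    (hE : ∀ᶠ n in atTop, EnI n (Y n) ≤ Ce) (L : ℕ → ℝ) {r0 : ℕ} (hr0 : 2 ≤ r0) :
    FaHyp (fun n => I.Fr n) (fun n => I.Ed n) (fun n => I.xi n) I.δ
      (fun n => (I.δ n)⁻¹ • Y n) (fun n => EnI n (Y n)) (Kc I ρ0) (Fin 3) r0 shp CoI
      (fun r o n => BfI P I n r o (L r)) (fun r o n => DI P c0 I n r o)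
      (fun r o n => vI P c0 I n r o) := by
  have hdiff : ∀ n, Differentiable ℝ (Y n) := fun n =>
    (hY n).smooth.differentiable (by simp)
  have T := tailH_inst (I := I) (P := P) (c0 := c0) hP hρ
  have hC : 0 < cgr P + 1 := by linarith [cgr_nonneg P]
  have hS0 : ∀ r, r0 ≤ r → ∀ o : Fin 3, (shp r o).Nonempty := by
    intro r hr o
    rw [← Finset.card_pos, Bl565.card_shp]
    have : 0 < r / 2 := by omega
    positivity
  have hblk : ∀ (r : ℕ) (o : Fin 3) (k : ℕ), ∀ᶠ n in atTop, ∀ a ∈ Kc I ρ0 k n,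
      blk (shp r o) a ⊆ Kc I ρ0 (k + 1) n := by
    intro r o k
    filter_upwards [Wb_sub I ρ0 r o k] with n hn a ha
    exact (blk_subset_Wb r o a).trans (hn a ha)
  have hD : ∀ r, r0 ≤ r → ∀ (o : Fin 3) (k : ℕ), ∀ᶠ n in atTop, ∀ a ∈ Kc I ρ0 k n,
      ∀ w ∈ blk (shp r o) a, ∀ ω, DI P c0 I n r o a w ω ≤ (cgr P + 1) *
        mcF P c0 (I.Fr n) (I.Ed n) (I.xi n) (Kc I ρ0 (k + 1) n) w ω := by
    intro r _ o k
    filter_upwards [Wb_sub I ρ0 r o k] with n hn a ha w _ ω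
    unfold DI
    have h1 := mcF_mono (P := P) (c0 := c0) (E := I.Ed n) (ξ := I.xi n) (hn a ha) w ω
    have h2 := mcF_nonneg (P := P) (c0 := c0) (E := I.Ed n) (ξ := I.xi n) (V := Wb r o a) w ω
    have h3 := cgr_nonneg P
    exact mul_le_mul (by linarith) h1 h2 (by linarith)
  have hd : ∀ r, r0 ≤ r → ∀ (o : Fin 3) (k : ℕ), ∀ᶠ n in atTop, ∀ a ∈ Kc I ρ0 k n,
      ∀ w ∈ blk (shp r o) a, ∀ ω, vI P c0 I n r o a w ω ≤ 4 / 3 *
        mcF P c0 (I.Fr n) (I.Ed n) (I.xi n) (Kc I ρ0 (k + 1) n) w ω := by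
    intro r _ o k
    filter_upwards [Wb_sub I ρ0 r o k] with n hn a ha w _ ω
    unfold vI
    exact mul_le_mul_of_nonneg_left (mcF_mono (hn a ha) w ω) (by norm_num)
  have hD0 : ∀ (r : ℕ) (o : Fin 3) (n : ℕ) (a w : P2) (ω : I.Fr n → ℝ),
      0 ≤ DI P c0 I n r o a w ω := fun r o n a w ω =>
    mul_nonneg (cgr_nonneg P) (mcF_nonneg _ _)
  have hd0 : ∀ (r : ℕ) (o : Fin 3) (n : ℕ) (a w : P2) (ω : I.Fr n → ℝ),
      0 ≤ vI P c0 I n r o a w ω := fun r o n a w ω =>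
    mul_nonneg (by norm_num) (mcF_nonneg _ _)
  exact
    { anch := fun n => I.anch n
      xi := fun n => I.abs_xi_le n
      lip := fun n => by
        obtain ⟨c, hc⟩ := (hY n).lip
        refine ⟨‖(I.δ n)⁻¹‖₊ * c, LipschitzWith.of_dist_le_mul fun x y => ?_⟩
        rw [Pi.smul_apply, Pi.smul_apply, dist_smul₀, NNReal.coe_mul, coe_nnnorm, mul_assoc]
        exact mul_le_mul_of_nonneg_left (hc.dist_le_mul x y) (norm_nonneg _)
      diff := fun n => (hdiff n).const_smul _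
      rig := fun n => by
        obtain ⟨ρ, hρ, h⟩ := (hY n).rigid
        refine ⟨ρ, hρ, fun x hx p hp hq => ?_⟩
        simp only [Pi.smul_apply]
        rw [ext_zero_smul, ext_zero_smul, h x hx p hp hq]
      bd := fun n => by
        obtain ⟨B, _, hB⟩ := (hY n).bdd
        refine bd_uf (M := |(I.δ n)⁻¹| * B) ?_ fun h v => ?_
        · exact ((hdiff n).continuous.const_smul (I.δ n)⁻¹).measurable
        · rw [Pi.smul_apply, Pi.smul_apply, smul_eq_mul, abs_mul]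
          refine mul_le_mul_of_nonneg_left ?_ (abs_nonneg _)
          exact (norm_le_pi_norm (Y n h) v).trans (hB h)
      e_eq := fun n => by
        have hδ := I.hM.1 n
        have e : (fun ω => en ((I.δ n)⁻¹ • Y n) ω) = fun ω => ((I.δ n)⁻¹) ^ 2 * en (Y n) ω :=
          funext fun ω => en_const_smul (hdiff n) _ ω
        change I.δ n ^ 2 * ∫ ω, en ((I.δ n)⁻¹ • Y n) ω ∂(I.P0 n) ≤ ∫ ω, en (Y n) ω ∂(I.P0 n)
        rw [e, integral_const_mul, ← mul_assoc, ← mul_pow, mul_inv_cancel₀ hδ.ne', one_pow,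
          one_mul]
      e_le := ⟨Ce, hE⟩
      area := Kc_area I ρ0
      S0 := hS0
      Sr := Bl565.shp_subset
      collar := collar_inst
      bB := fun r _ o n i j => bd_BfI' n r o (L r) i j
      blkh := fun r hr o k => by
        filter_upwards [Wb_sub I ρ0 r o k] with n hn a ha
        exact blkh_inst hc0 (hr0.trans hr) ((hn a ha).trans (Kc_sub_Fr _ _ _)) (L r)
      t1 := T.t1 hC hS0 hblk hD0 hD
      t2 := T.t2 (by norm_num) hS0 hblk hd0 hd
      t3 := T.t3 hC (by norm_num) hS0 Bl565.shp_subset hblk hD0 hD hd }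

/-- **the field `fas` of `BlkHyp` at every instance** -/
theorem fas_inst (hP : SmallP P) {ρ0 : ℝ} (hρ : 0 < ρ0)
    {Y : ∀ n, (I.Fr n → ℝ) → (I.Fr n → ℝ)}
    (hY : ∀ n, Hsu498.Nice (I.Fr n) (I.Ed n) (I.xi n) (Y n)) {Ce : ℝ}
    (hE : ∀ᶠ n in atTop, EnI n (Y n) ≤ Ce) (L : ℕ → ℝ) {r0 : ℕ} (hr0 : 2 ≤ r0) :
    ∀ θ Λ ε1 : ℝ, 0 < θ → 1 ≤ Λ → 0 < ε1 → ∃ C : ℝ, 0 ≤ C ∧ ∃ r1 : ℕ, ∀ r, r1 ≤ r → r0 ≤ r →
    ∀ (o : Fin 3) (k : ℕ), ∀ ε2 : ℝ, 0 < ε2 → ∃ R1 : ℕ, ∀ R, R1 ≤ R → ∀ᶠ n in atTop,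
      FasAt (fun n => I.P0 n) I.δ (fun n => uf ((I.δ n)⁻¹ • Y n)) (fun n => EnI n (Y n))
        (Kc I ρ0) (fun n i j a ω => bbL P r o (L r) (fun v => ext (I.Fr n) (I.xi n) ω (a + v)) i j)
        θ Λ ε1 C ε2 r R k n :=
  (faHyp_inst one_pos hP hρ hY hE L hr0).fas

end

end Crest.Agent.R144.Fa812
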