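import Crest.Agent.R144.Lc1_830
import Crest.Agent.R144.Zg_349

/-!
# R144, BND, F3g: geometry of the far arc (helper617)

`far_arc` : near a frontier point `p`, the non-free sites outside a small ball around `p` contain a
connected set `Nf` which leaves out only free sites and sites at distance `≤ r` of `p`.
-/

set_option autoImplicit false

open Set Topology Filter Metric

namespace Crest.Agent.R144.Fg617

open Crest.ProbabilityR.HexHeights Crest.ProbabilityR.TriHeights Crest.Agent.R144.HexTil353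
  Crest.Agent.R144.Geo268 Crest.Agent.R144.Cnt268 Crest.Agent.R144.Set268
open Crest.Agent.R144.Lc830 (Jn join_of_preconn first_entry LC)
open Crest.Agent.R144.Zg349 (IsConn StepIn)

theorem cell_dist {δ : ℝ} (hδ : 0 < δ) {u : ℤ × ℤ} {z : ℂ} (hz : z ∈ cell δ u) :
    dist z (centre δ u) ≤ δ := by
  have h1 := dist_le_of_mem_cell hδ hz
  have h2 : dist z (centre δ u) ^ 2 ≤ δ ^ 2 := by nlinarith [sq_nonneg (dist z (centre δ u))]
  exact (sq_le_sq₀ dist_nonneg hδ.le).1 h2

theorem centre_mem_cell (δ : ℝ) (u : ℤ × ℤ) : centre δ u ∈ cell δ u := by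
  intro v
  rw [dist_self]
  exact dist_nonneg

theorem infDist_le_of_cth {D : Set ℂ} {e : ℝ} (he : 0 ≤ e) {z : ℂ} (hz : z ∈ cthickening e D) :
    infDist z D ≤ e :=
  ENNReal.toReal_le_of_le_ofReal he (by simpa [cthickening] using hz)

theorem adj_symm' {u v : ℤ × ℤ} (h : Adj u v) : Adj v u := Crest.Agent.R144.It844.adj_symm h

theorem jn_symm {S : Set (ℤ × ℤ)} {u v : ℤ × ℤ} (h : Jn S u v) : Jn S v u := by
  induction h with
  | refl => exact Relation.ReflTransGen.refl
  | tail _ hbc ih => exact (Relation.ReflTransGen.single ⟨hbc.2.1, hbc.1, adj_symm' hbc.2.2⟩).trans ih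

theorem jn_mono {S T : Set (ℤ × ℤ)} (hST : S ⊆ T) {u v : ℤ × ℤ} (h : Jn S u v) : Jn T u v := by
  induction h with
  | refl => exact Relation.ReflTransGen.refl
  | tail _ hbc ih => exact ih.tail ⟨hST hbc.1, hST hbc.2.1, hbc.2.2⟩

/-! ### continuum -/

/-- outside a disc -/
theorem far_preconn (p : ℂ) {R : ℝ} (hR : 0 < R) : IsPreconnected {z : ℂ | R ≤ dist z p} := by
  have h1 : IsPreconnected (sphere p R) :=
    isPreconnected_sphere (by rw [Complex.rank_real_complex]; exact Nat.one_lt_ofNat) p R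
  have h2 : {z : ℂ | R ≤ dist z p} =
      (fun a : ℝ × ℂ => p + (a.1 : ℂ) * (a.2 - p)) '' (Ici 1 ×ˢ sphere p R) := by
    ext z
    constructor
    · intro hz
      have hz' : R ≤ dist z p := hz
      have hd : 0 < dist z p := hR.trans_le hz'
      have hdc : (dist z p : ℂ) ≠ 0 := by exact_mod_cast hd.ne'
      have hRc : (R : ℂ) ≠ 0 := by exact_mod_cast hR.ne'
      refine ⟨(dist z p / R, p + ((R / dist z p : ℝ) : ℂ) * (z - p)), ⟨?_, ?_⟩, ?_⟩
      · show 1 ≤ dist z p / R
        rw [le_div_iff₀ hR]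
        linarith
      · show p + ((R / dist z p : ℝ) : ℂ) * (z - p) ∈ sphere p R
        rw [mem_sphere, dist_eq_norm, add_sub_cancel_left, norm_mul, Complex.norm_real,
          Real.norm_eq_abs, abs_of_pos (by positivity), ← dist_eq_norm]
        field_simp
      · show p + ((dist z p / R : ℝ) : ℂ) * (p + ((R / dist z p : ℝ) : ℂ) * (z - p) - p) = z
        push_cast
        field_simp
        ring
    · rintro ⟨⟨t, w⟩, ⟨ht, hw⟩, rfl⟩
      have ht' : (1 : ℝ) ≤ t := ht
      have hw' : dist w p = R := hw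
      show R ≤ dist (p + (t : ℂ) * (w - p)) p
      rw [dist_eq_norm, add_sub_cancel_left, norm_mul, Complex.norm_real, Real.norm_eq_abs,
        abs_of_pos (by linarith), ← dist_eq_norm, hw']
      nlinarith
  rw [h2]
  refine (isPreconnected_Ici.prod h1).image _ ?_
  exact Continuous.continuousOn (by fun_prop)

/-- a segment on a ray from `p` -/
theorem seg_ray {p d : ℂ} {s t : ℝ} (hs : 1 ≤ s) (ht : 1 ≤ t) {x : ℂ}
    (hx : x ∈ segment ℝ (p + (s : ℂ) * d) (p + (t : ℂ) * d)) : ‖d‖ ≤ dist x p := by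
  obtain ⟨a, b, ha, hb, hab, rfl⟩ := hx
  have e : a • (p + (s : ℂ) * d) + b • (p + (t : ℂ) * d) - p = ((a * s + b * t : ℝ) : ℂ) * d := by
    have : (a : ℂ) + b = 1 := by exact_mod_cast hab
    simp only [Complex.real_smul]
    push_cast
    linear_combination p * this
  have h1 : 1 ≤ a * s + b * t := by nlinarith
  rw [dist_eq_norm, e, norm_mul, Complex.norm_real, Real.norm_eq_abs, abs_of_pos (by linarith)]
  nlinarith [norm_nonneg d]

/-- the ray itself -/
theorem ray_preconn (p d : ℂ) : IsPreconnected ((fun t : ℝ => p + (t : ℂ) * d) '' Ici 1) :=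
  isPreconnected_Ici.image _ (Continuous.continuousOn (by fun_prop))

theorem ray_dist {p d : ℂ} {t : ℝ} (ht : 1 ≤ t) : dist (p + (t : ℂ) * d) p = t * ‖d‖ := by
  rw [dist_eq_norm, add_sub_cancel_left, norm_mul, Complex.norm_real, Real.norm_eq_abs,
    abs_of_pos (by linarith)]

/-- the frontier without a neighbourhood of `p` lies on an arc which avoids `p` -/
theorem arc {D : Set ℂ} {γ : ℝ → ℂ} (h : Dom D γ) {p : ℂ} (hp : p ∈ frontier D) {r : ℝ}
    (hr : 0 < r) : ∃ A : Set ℂ, IsPreconnected A ∧ A ⊆ frontier D ∧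
      (∃ ρ > 0, ∀ q ∈ A, ρ ≤ dist q p) ∧ ∀ q ∈ frontier D, r ≤ dist q p → q ∈ A := by
  rw [← h.fr] at hp ⊢
  obtain ⟨s, rfl⟩ := hp
  have hc : Continuous γ := h.reg.cd.continuous
  have hper := h.reg.per
  obtain ⟨t, ht, htb⟩ := Metric.continuousAt_iff.1 (hc.continuousAt (x := s)) r hr
  have hpi := Real.pi_pos
  set t1 := min t Real.pi / 2 with ht1
  have ht1p : 0 < t1 := by rw [ht1]; positivity
  have ht1t : t1 < t := by
    have := min_le_left t Real.pi
    have h3 : 0 < min t Real.pi := lt_min ht hpi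
    rw [ht1]; linarith
  have ht1pi : t1 ≤ Real.pi / 2 := by
    have := min_le_right t Real.pi
    rw [ht1]; linarith
  have hcomp : IsCompact (γ '' Icc (s + t1) (s + 2 * Real.pi - t1)) := isCompact_Icc.image hc
  have hne : (γ '' Icc (s + t1) (s + 2 * Real.pi - t1)).Nonempty :=
    ⟨γ (s + t1), s + t1, ⟨le_rfl, by linarith⟩, rfl⟩
  refine ⟨γ '' Icc (s + t1) (s + 2 * Real.pi - t1), isPreconnected_Icc.image _ hc.continuousOn,
    image_subset_range _ _, ?_, ?_⟩
  · obtain ⟨q0, hq0, hmin⟩ := hcomp.exists_isMinOn hne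
      (f := fun q => dist q (γ s)) (by fun_prop)
    refine ⟨dist q0 (γ s), ?_, fun q hq => hmin hq⟩
    obtain ⟨x, hx, rfl⟩ := hq0
    exact dist_pos.2 (ne_of_Ioo hper h.reg.inj (by linarith [hx.1]) (by linarith [hx.2]))
  · rintro _ ⟨x, rfl⟩ hx
    obtain ⟨y, hy, hxy⟩ := hper.exists_mem_Ico (by positivity) x s
    rw [hxy] at hx ⊢
    refine ⟨y, ⟨?_, ?_⟩, rfl⟩
    · by_contra hcon
      push Not at hcon
      have : dist y s < t := by
        rw [Real.dist_eq, abs_of_nonneg (by linarith [hy.1])]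
        linarith
      exact absurd (htb this) (not_lt.2 hx)
    · by_contra hcon
      push Not at hcon
      have h3 : γ (y - 2 * Real.pi) = γ y := hper.sub_eq y
      have : dist (y - 2 * Real.pi) s < t := by
        rw [Real.dist_eq, abs_lt]
        constructor <;> linarith [hy.2]
      have h4 := htb this
      rw [h3] at h4
      exact absurd h4 (not_lt.2 hx)

/-! ### chaining along a connected set -/

theorem chain {δ : ℝ} {A : Set ℂ} (hA : IsPreconnected A) {S N : Set (ℤ × ℤ)} {e : ℝ} (he : 0 < e)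
    (hex : ∀ q ∈ A, ∃ w ∈ N, dist (centre δ w) q ≤ e / 2)
    (hJ : ∀ q ∈ A, ∀ u ∈ N, ∀ v ∈ N, dist (centre δ u) q ≤ e → dist (centre δ v) q ≤ e → Jn S u v)
    {q q' : ℂ} (hq : q ∈ A) (hq' : q' ∈ A) {u v : ℤ × ℤ} (hu : u ∈ N) (hv : v ∈ N)
    (huq : dist (centre δ u) q ≤ e) (hvq : dist (centre δ v) q' ≤ e) : Jn S u v := by
  have key := hA.induction₂ (fun q q' => ∀ u ∈ N, ∀ v ∈ N, dist (centre δ u) q ≤ e →
    dist (centre δ v) q' ≤ e → Jn S u v) ?_ ?_ ?_ hq hq'
  · exact key u hu v hv huq hvq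
  · intro x hx
    obtain ⟨w, hw, hwx⟩ := hex x hx
    filter_upwards [self_mem_nhdsWithin,
      mem_nhdsWithin_of_mem_nhds (ball_mem_nhds x (half_pos he))] with y hy hyx u hu v hv hux hvy
    have h1 : dist (centre δ w) y ≤ e := by
      have h2 := dist_triangle (centre δ w) x y
      have h3 : dist y x < e / 2 := hyx
      rw [dist_comm] at h3
      linarith
    exact (hJ x hx u hu w hw hux (by linarith)).trans (hJ y hy w hw v hv h1 hvy)
  · intro x y z _ hy _ h1 h2 u hu v hv hux hvz
    obtain ⟨w, hw, hwy⟩ := hex y hy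
    exact (h1 u hu w hw hux (by linarith)).trans (h2 w hw v hv (by linarith) hvz)
  · intro x y _ _ h1 u hu v hv hux hvy
    exact jn_symm (h1 v hv u hu hvy hux)

/-! ### towards the domain -/

/-- from a site far from `D` towards a point close to `D` -/
theorem toward {D : Set ℂ} (hop : IsOpen D) (hne : D.Nonempty) {δ a e : ℝ} (hδ : 0 < δ) (he : 0 < e)
    {p : ℂ} {S : Set (ℤ × ℤ)}
    (hG : ∀ u, (cell δ u ∩ {y | e / 4 ≤ infDist y D ∧ a ≤ dist y p}).Nonempty → u ∈ S)
    {u : ℤ × ℤ} {z y : ℂ} (hzu : z ∈ cell δ u) (hz : e / 4 ≤ infDist z D)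
    (hy : infDist y D < e / 4) (hseg : ∀ x ∈ segment ℝ z y, a ≤ dist x p) :
    ∃ (u1 : ℤ × ℤ) (w q : ℂ), Jn S u u1 ∧ w ∈ cell δ u1 ∧ w ∈ segment ℝ z y ∧ u1 ∈ S ∧
      q ∈ frontier D ∧ dist w q < e / 2 := by
  set O : Set ℂ := thickening (e / 4) D with hO
  have hmem : ∀ x, x ∈ O ↔ infDist x D < e / 4 := fun x => by
    rw [hO, mem_thickening_iff_infDist_lt hne]
  have hzO : z ∉ O := fun h1 => absurd ((hmem z).1 h1) (not_lt.2 hz)
  obtain ⟨w, hw, hwf, hwseg⟩ := first_entry isOpen_thickening hzO ((hmem y).2 hy)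
  obtain ⟨u1, hu1⟩ := exists_cell hδ w
  have hsub : segment ℝ z w ⊆ segment ℝ z y :=
    (convex_segment z y).segment_subset (left_mem_segment ℝ z y) hw
  have hK : ∀ u', (cell δ u' ∩ segment ℝ z w).Nonempty → u' ∈ S := by
    rintro u' ⟨x, hxu, hx⟩
    refine hG u' ⟨x, hxu, ?_, hseg x (hsub hx)⟩
    by_contra hcon
    exact hwseg hx ((hmem x).2 (not_le.1 hcon))
  have h1 : Jn S u u1 := join_of_preconn hδ (convex_segment z w).isPreconnected hK
    ⟨z, hzu, left_mem_segment ℝ z w⟩ ⟨w, hu1, right_mem_segment ℝ z w⟩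
  have h2 : u1 ∈ S := hK u1 ⟨w, hu1, right_mem_segment ℝ z w⟩
  have h3 : infDist w D ≤ e / 4 :=
    infDist_le_of_cth (by positivity) (closure_thickening_subset_cthickening _ _ hwf.1)
  have hwO : w ∉ D := fun h4 => hwseg (right_mem_segment ℝ z w) (self_subset_thickening (by positivity) D h4)
  obtain ⟨y', hy', hwy'⟩ := (infDist_lt_iff hne).1 (lt_of_le_of_lt h3 (show e / 4 < e / 2 by linarith))
  obtain ⟨q, hq, hqf, _⟩ := first_entry hop hwO hy'
  refine ⟨u1, w, q, h1, hu1, hw, h2, hqf, lt_of_le_of_lt ?_ hwy'⟩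
  have h5 := (convex_closedBall w (dist w y')).segment_subset (mem_closedBall_self dist_nonneg)
    (by rw [mem_closedBall, dist_comm]) hq
  rw [mem_closedBall, dist_comm] at h5
  exact h5

/-! ### the far arc -/

/-- **the far arc**: near a frontier point `p`, the non-free sites outside a small ball around `p`
contain a connected set which misses only non-free sites at distance `≤ r` of `p` -/
theorem far_arc {D : Set ℂ} {γ : ℝ → ℂ} {P : Finset ℂ} {δ : ℕ → ℝ} {Λ : ℕ → Finset (ℤ × ℤ)}
    {τ : ℕ → ℤ × ℤ → ℤ} (h : Setup D γ P δ Λ τ) (hLC : LC D δ Λ) {p : ℂ} (hp : p ∈ frontier D)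
    {r : ℝ} (hr : 0 < r) :
    ∃ ρ > 0, ρ ≤ r ∧ ∀ᶠ n in atTop, ∃ Nf : Set (ℤ × ℤ), (∀ v ∈ Nf, v ∉ Λ n) ∧ IsConn Nf ∧
      Nfᶜ.Finite ∧ (∀ v ∈ Nf, ρ < dist (centre (δ n) v) p) ∧
      ∀ v, v ∉ Λ n → v ∉ Nf → dist (centre (δ n) v) p ≤ r := by
  obtain ⟨C, hC1, hLC⟩ := hLC
  have hDne : D.Nonempty := h.dom.conn.nonempty
  have hpD : p ∉ D := fun h1 => by
    have h2 := hp.2
    rw [h.dom.op.interior_eq] at h2
    exact h2 h1
  obtain ⟨q0, hq0⟩ := hDne
  have hq0p : 0 < dist q0 p := dist_pos.2 fun h1 => hpD (h1 ▸ hq0)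
  obtain ⟨M, hM⟩ := h.dom.bdd.subset_closedBall p
  -- the scale
  set r1 := min r (dist q0 p) / 2 with hr1
  have hr1p : 0 < r1 := by rw [hr1]; have := lt_min hr hq0p; positivity
  have hr1r : 2 * r1 ≤ r := by rw [hr1]; have := min_le_left r (dist q0 p); linarith
  have hr1q : 2 * r1 ≤ dist q0 p := by rw [hr1]; have := min_le_right r (dist q0 p); linarith
  obtain ⟨A, hA, hAf, ⟨ρ1, hρ1, hAρ⟩, hAr⟩ := arc h.dom hp (show 0 < r1 / 2 by positivity)
  obtain ⟨r0, hr0, hballs⟩ := exists_balls h.dom h.c2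
  set ρ := min ρ1 r1 / 4 with hρ
  have hρp : 0 < ρ := by rw [hρ]; have := lt_min hρ1 hr1p; positivity
  have hρ1' : 4 * ρ ≤ ρ1 := by rw [hρ]; have := min_le_left ρ1 r1; linarith
  have hρr : 4 * ρ ≤ r1 := by rw [hρ]; have := min_le_right ρ1 r1; linarith
  -- the mesh `e`
  set e := min (min (ρ / C) r0) (r1 / 8) with he
  have hCp : 0 < C := by linarith
  have hep : 0 < e := lt_min (lt_min (by positivity) hr0) (by positivity)
  have heC : C * e ≤ ρ := by
    have h1 : e ≤ ρ / C := (min_le_left _ _).trans (min_le_left _ _)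
    have h2 := (le_div_iff₀ hCp).1 h1
    linarith
  have her0 : e ≤ r0 := (min_le_left _ _).trans (min_le_right _ _)
  have her1 : e ≤ r1 / 8 := min_le_right _ _
  refine ⟨ρ, hρp, by linarith, ?_⟩
  -- the compact core
  set K : Set ℂ := {z | z ∈ closure D ∧ e / 2 ≤ infDist z Dᶜ} with hK
  have hDc : (Dᶜ).Nonempty := ⟨p, hpD⟩
  have hKc : IsCompact K := by
    refine (isCompact_of_isClosed_isBounded isClosed_closure h.dom.bdd.closure).inter_right ?_
    exact isClosed_le continuous_const (continuous_infDist_pt _)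
  have hKD : K ⊆ D := by
    intro z hz
    by_contra h1
    have h2 := hz.2
    rw [infDist_zero_of_mem h1] at h2
    linarith
  filter_upwards [h.sites.small (show 0 < e / 16 by positivity), hLC e hep,
    h.sites.out (e / 8) (by positivity), h.sites.inn K hKc hKD] with n hδ hL hout hinn
  have hδp := h.sites.pos n
  set S : Set (ℤ × ℤ) := {w | w ∉ Λ n ∧ ρ < dist (centre (δ n) w) p} with hS
  set N : Set (ℤ × ℤ) := {w | w ∉ Λ n} with hN
  -- good cells
  have hfar : ∀ u, ∀ z ∈ cell (δ n) u, e / 4 ≤ infDist z D → u ∉ Λ n := by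
    intro u z hz hzD hu
    have h1 := infDist_le_of_cth (by positivity) (hout u hu)
    have h2 := infDist_le_infDist_add_dist (s := D) (x := z) (y := centre (δ n) u)
    have h3 := cell_dist hδp hz
    linarith
  have hG : ∀ u, (cell (δ n) u ∩ {y | e / 4 ≤ infDist y D ∧ 2 * r1 - e ≤ dist y p}).Nonempty →
      u ∈ S := by
    rintro u ⟨z, hz, hz1, hz2⟩
    refine ⟨hfar u z hz hz1, ?_⟩
    have h2 := cell_dist hδp hz
    have h3 := dist_triangle z (centre (δ n) u) p
    have h4 : 2 * r1 - e ≤ dist z p := hz2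
    linarith
  -- existence of non-free sites near the frontier
  have hex : ∀ q ∈ A, ∃ w ∈ N, dist (centre (δ n) w) q ≤ e / 2 := by
    intro q hq
    obtain ⟨ν, hν, hb⟩ := hballs q (hAf hq)
    have h1 := (hb (e / 4) (by positivity) (by linarith)).2
    obtain ⟨w, hw⟩ := exists_cell hδp (q - ((e / 4 : ℝ) : ℂ) * ν)
    have h2 : e / 4 ≤ infDist (q - ((e / 4 : ℝ) : ℂ) * ν) D := by
      refine (le_infDist ⟨q0, hq0⟩).2 fun y hy => ?_
      by_contra hcon
      push Not at hcon
      exact Set.disjoint_left.1 h1 (by rw [mem_ball, dist_comm]; exact hcon) (subset_closure hy)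
    refine ⟨w, hfar w _ hw h2, ?_⟩
    have h3 := cell_dist hδp hw
    have h4 : dist (q - ((e / 4 : ℝ) : ℂ) * ν) q = e / 4 := by
      rw [dist_eq_norm, sub_sub_cancel_left, norm_neg, norm_mul, hν, mul_one, Complex.norm_real,
        Real.norm_eq_abs, abs_of_pos (by positivity)]
    have h5 := dist_triangle (centre (δ n) w) (q - ((e / 4 : ℝ) : ℂ) * ν) q
    rw [dist_comm] at h3
    linarith
  have hJ : ∀ q ∈ A, ∀ u ∈ N, ∀ v ∈ N, dist (centre (δ n) u) q ≤ e →
      dist (centre (δ n) v) q ≤ e → Jn S u v := by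
    intro q hq u hu v hv hu1 hv1
    refine jn_mono ?_ (hL q (hAf hq) u v hu hv hu1 hv1)
    rintro w ⟨hw1, hw2⟩
    refine ⟨hw1, ?_⟩
    have h1 := hAρ q hq
    have h2 := dist_triangle q (centre (δ n) w) p
    have h3 := dist_comm q (centre (δ n) w)
    have h4 : dist (centre (δ n) w) q ≤ C * e := hw2
    linarith
  -- the far point
  set R : ℝ := M + e + 2 * r1 with hR
  have hM0 : 0 ≤ M := by
    have := hM hq0
    rw [mem_closedBall] at this
    linarith
  have hRp : 0 < R := by rw [hR]; linarith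
  have hfarG : {z : ℂ | R ≤ dist z p} ⊆ {y | e / 4 ≤ infDist y D ∧ 2 * r1 - e ≤ dist y p} := by
    intro z hz
    have hz' : R ≤ dist z p := hz
    refine ⟨(le_infDist ⟨q0, hq0⟩).2 fun y hy => ?_, by show 2 * r1 - e ≤ dist z p; linarith⟩
    have h1 := hM hy
    rw [mem_closedBall] at h1
    have h2 := dist_triangle z y p
    linarith
  set T : ℝ := max 1 (R / dist q0 p) with hT
  have hT1 : 1 ≤ T := le_max_left _ _
  have hTR : R ≤ T * dist q0 p := by
    have h1 : R / dist q0 p ≤ T := le_max_right _ _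
    exact (div_le_iff₀ hq0p).1 h1
  have hnq : ‖q0 - p‖ = dist q0 p := (dist_eq_norm _ _).symm
  have hzinf : R ≤ dist (p + (T : ℂ) * (q0 - p)) p := by
    rw [ray_dist hT1, hnq]
    exact hTR
  obtain ⟨w0, hw0⟩ := exists_cell hδp (p + (T : ℂ) * (q0 - p))
  have hw0S : w0 ∈ S := hG w0 ⟨_, hw0, hfarG hzinf⟩
  -- sites close to the arc are joined to the far point
  have harc : ∀ u ∈ N, ∀ q ∈ A, dist (centre (δ n) u) q ≤ e → Jn S u w0 := by
    intro u hu q hq huq
    have hq0e : q0 = p + ((1 : ℝ) : ℂ) * (q0 - p) := by push_cast; ring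
    obtain ⟨u1, w, q1, h1, h2, h3, h4, h5, h6⟩ := toward (p := p) (S := S) (a := 2 * r1 - e)
      h.dom.op ⟨q0, hq0⟩ hδp hep hG hw0 (hfarG hzinf).1
      (y := q0) (by rw [infDist_zero_of_mem hq0]; positivity) (by
        intro x hx
        have hx' : x ∈ segment ℝ (p + (T : ℂ) * (q0 - p)) (p + ((1 : ℝ) : ℂ) * (q0 - p)) := by
          rwa [← hq0e]
        have := seg_ray hT1 le_rfl hx'
        rw [hnq] at this
        linarith)
    have h7 : dist q0 p ≤ dist w p := by
      have h3' : w ∈ segment ℝ (p + (T : ℂ) * (q0 - p)) (p + ((1 : ℝ) : ℂ) * (q0 - p)) := by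
        rwa [← hq0e]
      have := seg_ray hT1 le_rfl h3'
      rwa [hnq] at this
    have h8 : q1 ∈ A := by
      refine hAr q1 h5 ?_
      have := dist_triangle w q1 p
      linarith
    have h9 : dist (centre (δ n) u1) q1 ≤ e := by
      have h10 := cell_dist hδp h2
      have h11 := dist_triangle (centre (δ n) u1) w q1
      rw [dist_comm] at h10
      linarith
    exact (chain hA hep hex hJ hq h8 hu h4.1 huq h9).trans (jn_symm h1)
  -- every non-free site at distance `> r` is joined to the far point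
  have hmain : ∀ v ∈ N, r < dist (centre (δ n) v) p → Jn S v w0 := by
    intro v hv hvr
    by_cases hq : ∃ q ∈ frontier D, dist (centre (δ n) v) q ≤ e
    · obtain ⟨q, hqf, hqd⟩ := hq
      refine harc v hv q (hAr q hqf ?_) hqd
      have := dist_triangle (centre (δ n) v) q p
      linarith
    · push Not at hq
      set z := centre (δ n) v with hz
      have hzD : z ∉ D := by
        intro h1
        have h2 : infDist z Dᶜ < e / 2 := by
          by_contra hcon
          push Not at hcon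
          exact hv (hinn v ⟨subset_closure h1, hcon⟩)
        obtain ⟨y, hy, hzy⟩ := (infDist_lt_iff hDc).1 h2
        obtain ⟨q, hq1, hqf, _⟩ := first_entry h.dom.op hy h1
        have h5 := (convex_closedBall z (dist z y)).segment_subset
          (by rw [mem_closedBall, dist_comm]) (mem_closedBall_self dist_nonneg) hq1
        rw [mem_closedBall, dist_comm] at h5
        linarith [hq q hqf]
      have hzfar : e / 4 ≤ infDist z D := by
        by_contra hcon
        push Not at hcon
        obtain ⟨y, hy, hzy⟩ := (infDist_lt_iff ⟨q0, hq0⟩).1 hcon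
        obtain ⟨q, hq1, hqf, _⟩ := first_entry h.dom.op hzD hy
        have h5 := (convex_closedBall z (dist z y)).segment_subset (mem_closedBall_self dist_nonneg)
          (by rw [mem_closedBall, dist_comm]) hq1
        rw [mem_closedBall, dist_comm] at h5
        linarith [hq q hqf]
      have hze : z = p + ((1 : ℝ) : ℂ) * (z - p) := by push_cast; ring
      have hnz : ‖z - p‖ = dist z p := (dist_eq_norm _ _).symm
      by_cases hray : ∀ y ∈ (fun t : ℝ => p + (t : ℂ) * (z - p)) '' Ici 1, e / 4 ≤ infDist y D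
      · -- the ray misses the domain
        have hpre : IsPreconnected
            ((fun t : ℝ => p + (t : ℂ) * (z - p)) '' Ici 1 ∪ {x : ℂ | R ≤ dist x p}) := by
          have hzp : 0 < dist z p := by linarith
          refine IsPreconnected.union (p + ((max 1 (R / dist z p) : ℝ) : ℂ) * (z - p)) ?_ ?_
            (ray_preconn p (z - p)) (far_preconn p hRp)
          · exact ⟨_, mem_Ici.2 (le_max_left _ _), rfl⟩
          · show R ≤ dist (p + ((max 1 (R / dist z p) : ℝ) : ℂ) * (z - p)) p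
            rw [ray_dist (le_max_left _ _), hnz]
            exact (div_le_iff₀ hzp).1 (le_max_right _ _)
        refine join_of_preconn hδp hpre ?_ ⟨z, centre_mem_cell _ _, Or.inl ⟨1, mem_Ici.2 le_rfl, hze.symm⟩⟩
          ⟨_, hw0, Or.inr hzinf⟩
        rintro u ⟨x, hxu, hx⟩
        rcases hx with hx | hx
        · refine hG u ⟨x, hxu, hray x hx, ?_⟩
          obtain ⟨t, ht, rfl⟩ := hx
          show 2 * r1 - e ≤ dist (p + (t : ℂ) * (z - p)) p
          have ht' : (1 : ℝ) ≤ t := ht
          rw [ray_dist ht', hnz]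
          nlinarith
        · exact hG u ⟨x, hxu, hfarG hx⟩
      · -- the ray meets the domain
        push Not at hray
        obtain ⟨y, ⟨t, ht, rfl⟩, hy⟩ := hray
        have ht' : (1 : ℝ) ≤ t := ht
        have hsegd : ∀ x ∈ segment ℝ z (p + (t : ℂ) * (z - p)), dist z p ≤ dist x p := by
          intro x hx
          have hx' : x ∈ segment ℝ (p + ((1 : ℝ) : ℂ) * (z - p)) (p + (t : ℂ) * (z - p)) := by
            rwa [← hze]
          have := seg_ray le_rfl ht' hx'
          rwa [hnz] at this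
        obtain ⟨u1, w, q1, h1, h2, h3, h4, h5, h6⟩ := toward (p := p) (S := S) (a := 2 * r1 - e)
          h.dom.op ⟨q0, hq0⟩ hδp hep hG (centre_mem_cell (δ n) v) hzfar hy
          (fun x hx => by have := hsegd x hx; linarith)
        have h7 : dist z p ≤ dist w p := hsegd w h3
        have h8 : q1 ∈ A := by
          refine hAr q1 h5 ?_
          have := dist_triangle w q1 p
          linarith
        have h9 : dist (centre (δ n) u1) q1 ≤ e := by
          have h10 := cell_dist hδp h2
          have h11 := dist_triangle (centre (δ n) u1) w q1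
          rw [dist_comm] at h10
          linarith
        exact h1.trans (harc u1 h4.1 q1 h8 h9)
  -- the component of the far point
  refine ⟨{w | w ∈ S ∧ Jn S w0 w}, fun v hv => hv.1.1, ?_, ?_, fun v hv => hv.1.2, ?_⟩
  · have key : ∀ w, Jn S w0 w → Relation.ReflTransGen (StepIn {w | w ∈ S ∧ Jn S w0 w}) w0 w := by
      intro w hw
      induction hw with
      | refl => exact Relation.ReflTransGen.refl
      | tail hb hbc ih => exact ih.tail ⟨⟨hbc.1, hb⟩, ⟨hbc.2.1, hb.tail hbc⟩, hbc.2.2⟩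
    have hsym : ∀ {a b : ℤ × ℤ}, Relation.ReflTransGen (StepIn {w | w ∈ S ∧ Jn S w0 w}) a b →
        Relation.ReflTransGen (StepIn {w | w ∈ S ∧ Jn S w0 w}) b a := by
      intro a b hab
      induction hab with
      | refl => exact Relation.ReflTransGen.refl
      | tail _ hbc ih =>
        exact (Relation.ReflTransGen.single ⟨hbc.2.1, hbc.1, adj_symm' hbc.2.2⟩).trans ih
    exact fun u hu v hv => (hsym (key u hu.2)).trans (key v hv.2)
  · refine ((Λ n).finite_toSet.union (finite_near hδp p r)).subset fun v hv => ?_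
    by_cases h1 : v ∈ Λ n
    · exact Or.inl h1
    · right
      by_contra h2
      have h3 : r < dist (centre (δ n) v) p := by
        by_contra h4
        exact h2 (by
          show dist p (centre (δ n) v) ≤ r
          rw [dist_comm]
          exact not_lt.1 h4)
      exact hv ⟨⟨h1, by linarith⟩, jn_symm (hmain v h1 h3)⟩
  · intro v hv hvN
    by_contra h1
    push Not at h1
    exact hvN ⟨⟨hv, by linarith⟩, jn_symm (hmain v hv h1)⟩

end Crest.Agent.R144.Fg617
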