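import Crest.Agent.R144.Fr4_353
import Crest.Agent.R144.Ef3_725

/-! R144 (helper353), BND (F3): from the geometric far set `Nf` (F3g, helper617) to the side
condition `hfar` of `Ef725.far_arc`, and the choice of the radii. -/

set_option autoImplicit false

open Set Topology Filter

namespace Crest.Agent.R144.Fh353

open Crest.ProbabilityR.HexHeights (Adj centre)
open Crest.Agent.R144.It844 (P2 Lip ex)
open Crest.Agent.R144.Zg349 (StepIn IsConn)
open Crest.Agent.R144.Rsw867 (ball RSW ind)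
open Crest.Agent.R144.Bnd991
open Relation (ReflTransGen)

/-- close sites are in a lattice ball -/
theorem mem_ball_of {δ : ℝ} (hδ : 0 < δ) {σ : P2 ≃ P2}
    (hdist : ∀ v w, dist (centre δ (σ v)) (centre δ (σ w)) = dist (centre δ v) (centre δ w))
    {o : P2} {p : ℂ} (ho : dist (centre δ (σ o)) p ≤ δ) {v : P2} {r : ℝ} {d : ℕ}
    (hv : dist (centre δ (σ v)) p ≤ r) (h2 : (r + δ) * (6 / 5) ≤ δ * d) : v ∈ ball o d := by
  refine Fr353.mem_ball_of_dist hδ ?_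
  rw [← Fr353.dist_centre_eq, ← hdist]
  have := dist_triangle_right (centre δ (σ v)) (centre δ (σ o)) p
  nlinarith

/-- sites of a lattice ball are close -/
theorem dist_of_mem {δ : ℝ} (hδ : 0 < δ) {σ : P2 ≃ P2}
    (hdist : ∀ v w, dist (centre δ (σ v)) (centre δ (σ w)) = dist (centre δ v) (centre δ w))
    {o : P2} {p : ℂ} (ho : dist (centre δ (σ o)) p ≤ δ) {v : P2} {d : ℕ} (hv : v ∈ ball o d) :
    dist (centre δ (σ v)) p ≤ (d + 1) * δ := by
  have h1 := dist_triangle (centre δ (σ v)) (centre δ (σ o)) p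
  rw [hdist, Fr353.dist_centre_eq] at h1
  have h2 := Fr353.dist_of_mem_ball hδ.le hv
  nlinarith

/-- **`hfar`** from the far set -/
theorem hfar_of {δ : ℝ} (hδ : 0 < δ) {Λ : Finset P2} {p : ℂ} {r ρ : ℝ} {Nf : Set P2}
    (hN : ∀ v ∈ Nf, v ∉ Λ) (hc : IsConn Nf) (hρ : ∀ v ∈ Nf, ρ < dist (centre δ v) p)
    (hr : ∀ v, v ∉ Λ → v ∉ Nf → dist (centre δ v) p ≤ r)
    {σ : P2 ≃ P2} (hadj : ∀ v w, Adj (σ v) (σ w) ↔ Adj v w)
    (hdist : ∀ v w, dist (centre δ (σ v)) (centre δ (σ w)) = dist (centre δ v) (centre δ w))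
    {o : P2} (ho : dist (centre δ (σ o)) p ≤ δ) {d1 d2 : ℕ} (h1 : (d1 + 1) * δ ≤ ρ)
    (h2 : (r + δ) * (6 / 5) ≤ δ * d2) {u v : P2} (hu : σ u ∉ Λ) (hv : σ v ∉ Λ)
    (hu2 : u ∉ ball o d2) (hv2 : v ∉ ball o d2) :
    ReflTransGen (StepIn {w | σ w ∉ Λ ∧ w ∉ ball o d1}) u v := by
  have hin : ∀ w, σ w ∉ Λ → w ∉ ball o d2 → σ w ∈ Nf := by
    intro w hw hw2
    by_contra h3
    exact hw2 (mem_ball_of hδ hdist ho (hr _ hw h3) h2)
  have hj := hc _ (hin u hu hu2) _ (hin v hv hv2)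
  have hstep : ∀ w : P2, w ∈ Nf → σ.symm w ∈ {w | σ w ∉ Λ ∧ w ∉ ball o d1} := by
    intro w hw
    refine ⟨?_, fun hb => ?_⟩
    · rw [σ.apply_symm_apply]; exact hN w hw
    · have h3 := dist_of_mem hδ hdist ho hb
      rw [σ.apply_symm_apply] at h3
      have := hρ w hw
      linarith
  have key : ∀ w w' : P2, ReflTransGen (StepIn Nf) w w' →
      ReflTransGen (StepIn {w | σ w ∉ Λ ∧ w ∉ ball o d1}) (σ.symm w) (σ.symm w') := by
    intro w w' hw
    induction hw with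
    | refl => exact ReflTransGen.refl
    | tail _ h1 ih =>
      refine ih.tail ⟨hstep _ h1.1, hstep _ h1.2.1, ?_⟩
      rw [← hadj, σ.apply_symm_apply, σ.apply_symm_apply]
      exact h1.2.2
  have := key _ _ hj
  rwa [σ.symm_apply_apply, σ.symm_apply_apply] at this

/-- **F3g**, literal of msg 11991 -/
def F3g (D : Set ℂ) (δ : ℕ → ℝ) (Λ : ℕ → Finset (ℤ × ℤ)) : Prop :=
  ∀ p ∈ frontier D, ∀ r > 0, ∃ ρ > 0, ∀ᶠ n in atTop, ∃ Nf : Set P2,
    (∀ v ∈ Nf, v ∉ Λ n) ∧ IsConn Nf ∧ Nfᶜ.Finite ∧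
    (∀ v ∈ Nf, ρ < dist (centre (δ n) v) p) ∧
    (∀ v, v ∉ Λ n → v ∉ Nf → dist (centre (δ n) v) p ≤ r)

end Crest.Agent.R144.Fh353
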