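import Crest.Agent.R144.Fh1_353
import Crest.Agent.R144.Bnd10_991

/-! R144 (helper353), BND: **`cross_top`**, the crossing bound near a boundary point at the level of
268's `Setup`. -/

set_option autoImplicit false

open Set Topology Filter

namespace Crest.Agent.R144.Fh353

open Crest.ProbabilityR.HexHeights (Adj centre)
open Crest.Agent.R144.It844 (P2 Lip ex pr nbhd)
open Crest.Agent.R144.Zg349 (StepIn IsConn)
open Crest.Agent.R144.Rsw867 (ball RSW)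
open Crest.Agent.R144.Rw146 (Aut)
open Crest.Agent.R144.Bx695 (KI KI_of KI_of_not KI_nonneg KI_le_one)
open Crest.Agent.R144.Set268
open Crest.Agent.R144.Bnd991
open Relation (ReflTransGen)

/-- scale selection (F4, helper400) -/
def Sel (D : Set ℂ) (δ : ℕ → ℝ) (Λ : ℕ → Finset (ℤ × ℤ)) (K A R : ℕ) : Prop :=
  ∃ L km : ℕ, ∀ p ∈ frontier D, ∃ (σ τ' : P2 ≃ P2) (o : ℕ → P2), Aut σ τ' ∧
    (∀ v w, Adj (σ v) (σ w) ↔ Adj v w) ∧
    (∀ ε v w, dist (centre ε (σ v)) (centre ε (σ w)) = dist (centre ε v) (centre ε w)) ∧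
    (∀ n, dist (centre (δ n) (σ (o n))) p ≤ δ n) ∧
    ∀ J : ℕ, ∀ d0 : ℝ, 0 < d0 → ∃ η : ℝ, 0 < η ∧ ∀ᶠ n in atTop, ∃ (s d : ℕ) (n' r1 r2 k : ℕ → ℕ)
      (h : ℕ → ℤ) (b y : ℕ → Bool → P2) (a : ℕ → ℕ → P2),
      Scs K A R L km {v | σ v ∉ Λ n} (o n) s d (Finset.range J) n' r1 r2 k h b y a ∧
      (d : ℝ) * δ n ≤ d0 ∧ ∀ v, dist (centre (δ n) (σ v)) p ≤ η → v ∈ ball (o n) s

theorem path_rev {X : Set P2} {u v : P2} (h : ReflTransGen (StepIn X) u v) :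
    ReflTransGen (StepIn X) v u := by
  induction h with
  | refl => exact ReflTransGen.refl
  | tail _ h1 ih => exact ReflTransGen.head ⟨h1.2.1, h1.1, It844.adj_symm h1.2.2⟩ ih

/-- paths in the free sites are crossings in the coordinates `σ` -/
theorem pr_le {x : ℝ} {Λ : Finset P2} {τ : P2 → ℤ} {σ : P2 ≃ P2}
    (hadj : ∀ v w, Adj (σ v) (σ w) ↔ Adj v w) {δ : ℝ} {p : ℂ} {η r2 : ℝ} {o : P2} {s d : ℕ}
    (hs : ∀ v, dist (centre δ (σ v)) p ≤ η → v ∈ ball o s)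
    (hd : ∀ v, v ∈ ball o d → dist (centre δ (σ v)) p < r2) (e κ : ℤ) :
    pr x Λ τ {h | ∃ u ∈ Λ, dist (centre δ u) p ≤ η ∧ ∃ v ∈ Λ, r2 ≤ dist (centre δ v) p ∧
      ReflTransGen (StepIn {w | w ∈ Λ ∧ 1 ≤ e * (h w - κ)}) u v} ≤
    ex x Λ τ (fun g => KI (CrH {v | σ v ∉ Λ} o s d) (fun v => e * (g (σ v) - κ))) := by
  unfold pr
  refine It844.ex_mono fun g _ => ?_
  split_ifs with h
  · obtain ⟨u, hu, hu2, v, hv, hv2, hp⟩ := h
    rw [KI_of]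
    rw [crH_iff]
    refine ⟨σ.symm v, σ.symm u, fun hb => ?_, hs _ ?_, ?_⟩
    · have := hd _ hb
      rw [σ.apply_symm_apply] at this
      linarith
    · rw [σ.apply_symm_apply]; exact hu2
    · have h1 : ReflTransGen (StepIn {w | w ∈ Λ ∧ 1 ≤ e * (g w - κ)}) (σ (σ.symm v))
          (σ (σ.symm u)) := by
        rw [σ.apply_symm_apply, σ.apply_symm_apply]
        exact path_rev hp
      have hsub : ({w | σ w ∈ ({w | w ∈ Λ ∧ 1 ≤ e * (g w - κ)} : Set P2)} : Set P2) ⊆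
          {w | w ∉ ({v | σ v ∉ Λ} : Set P2) ∧ 1 ≤ e * (g (σ w) - κ)} :=
        fun w hw => ⟨fun h2 => h2 hw.1, hw.2⟩
      exact Rsw867.path_mono hsub (path_pull hadj h1)
  · exact KI_nonneg _ _

theorem exists_small {C α ε : ℝ} (hC : 1 ≤ C) (hα : 0 < α) (hε : 0 < ε) :
    ∃ t0 : ℝ, 0 < t0 ∧ t0 ≤ 1 ∧ ∀ t, 0 ≤ t → t ≤ t0 → C * t ^ α ≤ ε := by
  refine ⟨min 1 ((ε / C) ^ (1 / α)), by positivity, min_le_left _ _, fun t ht h => ?_⟩
  have h1 : t ^ α ≤ ((ε / C) ^ (1 / α)) ^ α :=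
    Real.rpow_le_rpow ht (h.trans (min_le_right _ _)) hα.le
  rw [← Real.rpow_mul (by positivity), one_div, inv_mul_cancel₀ hα.ne', Real.rpow_one] at h1
  calc C * t ^ α ≤ C * (ε / C) := mul_le_mul_of_nonneg_left h1 (by linarith)
    _ = ε := by field_simp

variable {D : Set ℂ} {γ : ℝ → ℂ} {P : Finset ℂ} {δ : ℕ → ℝ} {Λ : ℕ → Finset (ℤ × ℤ)}
  {τ : ℕ → ℤ × ℤ → ℤ}

set_option maxHeartbeats 800000 in
/-- **the crossing bound at a boundary point** -/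
theorem cross_top (h : Setup D γ P δ Λ τ) (hg : F3g D δ Λ) {x : ℝ} (hx0 : 0 < x) (hx1 : x ≤ 1)
    {K A R : ℕ} {p0 : ℝ} {q : ℕ → ℝ} (hR : RSW ((x ^ 2)⁻¹) K p0) (hLA : LemA ((x ^ 2)⁻¹) K A R q)
    (hq0 : ∀ i, 0 < q i) (hq1 : ∀ i, q i ≤ 1) (hsel : Sel D δ Λ K A R) {p : ℂ}
    (hp : p ∈ frontier D) (hpP : p ∉ P) :
    ∃ k : ℤ, (k = -1 ∨ k = 0) ∧ ∃ r1 > 0, (∀ᶠ n in atTop, ∀ v, Bd (Λ n) v →
      dist (centre (δ n) v) p ≤ r1 → τ n v = k) ∧ ∀ ε > 0, ∀ r2 > 0, ∃ η > 0, ∀ᶠ n in atTop,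
      ∀ e : ℤ, e = 1 ∨ e = -1 → pr x (Λ n) (τ n) {h | ∃ u ∈ Λ n, dist (centre (δ n) u) p ≤ η ∧
        ∃ v ∈ Λ n, r2 ≤ dist (centre (δ n) v) p ∧
        ReflTransGen (StepIn {w | w ∈ Λ n ∧ 1 ≤ e * (h w - k)}) u v} ≤ ε := by
  obtain ⟨r1, hr1, κ, hκ, hcst⟩ := h.cst p hp hpP
  refine ⟨κ, hκ, r1, hr1, hcst, fun ε hε r2 hr2 => ?_⟩
  obtain ⟨C, α, hC, hα, hF⟩ := exists_far hx0 hx1 hR
  obtain ⟨L, km, hsel⟩ := hsel
  obtain ⟨σ, τ', o, hAut, hadj, hdist, ho, hJ⟩ := hsel p hp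
  -- the blocking probability
  obtain ⟨i0, hi0, hmin⟩ := Finset.exists_min_image (Finset.range (km + 1)) q ⟨0, by simp⟩
  have hk : Kst x K A R L km q (q i0) p0 :=
    ⟨hx0, hx1, hR, hLA, (hq0 i0).le, hq1 i0, fun i hi => hmin i (by simp; omega)⟩
  have hF' := hF hk
  set θ := fac (q i0) p0 L with hθ
  have hθ1 : θ < 1 := by
    rw [hθ]
    unfold fac
    have := mul_pos (hq0 i0) (pow_pos hR.p0 ((2 * L + 1) ^ 2))
    linarith
  obtain ⟨J, hJ1⟩ := exists_pow_lt_of_lt_one (show 0 < ε / 2 by linarith) hθ1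
  obtain ⟨t0, ht0, ht1, htt⟩ := exists_small hC hα (show 0 < ε / 2 by linarith)
  -- the far set
  obtain ⟨ρ0, hρ0, hfar⟩ := hg p hp (r1 / 2) (by positivity)
  set ρ := min ρ0 (r1 / 2) with hρdef
  have hρ : 0 < ρ := lt_min hρ0 (by positivity)
  have hρ1 : ρ ≤ ρ0 := min_le_left _ _
  have hρ2 : ρ ≤ r1 / 2 := min_le_right _ _
  have hK : (4 : ℝ) ≤ K := by exact_mod_cast hR.K4
  have hKp : (0 : ℝ) < K := by linarith
  set d0 := min (r2 / 2) (t0 * ρ / (8 * K)) with hd0def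
  have hd0 : 0 < d0 := lt_min (by positivity) (by positivity)
  have hd01 : d0 ≤ r2 / 2 := min_le_left _ _
  have hd02 : d0 * (8 * K) ≤ t0 * ρ := by
    rw [← le_div_iff₀ (by positivity)]
    exact min_le_right _ _
  obtain ⟨η, hη, hev⟩ := hJ J d0 hd0
  refine ⟨η, hη, ?_⟩
  have hsm : 0 < min (d0 / 2) (ρ / (8 * K)) := lt_min (by positivity) (by positivity)
  filter_upwards [hev, hfar, hcst, h.sites.small hsm] with n hn1 hn2 hn3 hn4 e he
  obtain ⟨s, d, n', ra, rb, kk, hh, b, y, a, hScs, hdd, hball⟩ := hn1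
  obtain ⟨Nf, hN1, hN2, hN3, hN4, hN5⟩ := hn2
  have hδ := h.sites.pos n
  have hδ1 : δ n < d0 / 2 := hn4.trans_le (min_le_left _ _)
  have hδ2 : δ n * (8 * K) < ρ := by
    rw [← lt_div_iff₀ (by positivity)]
    exact hn4.trans_le (min_le_right _ _)
  have hδ3 : 32 * δ n < ρ := by nlinarith
  -- the radii
  set M := ⌊ρ / (2 * K * δ n)⌋₊ with hM
  have hM1 : (M : ℝ) * (2 * K * δ n) ≤ ρ := by
    have := Nat.floor_le (show 0 ≤ ρ / (2 * K * δ n) by positivity)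
    rwa [le_div_iff₀ (by positivity)] at this
  have hM2 : ρ < (M + 1) * (2 * K * δ n) := by
    have := Nat.lt_floor_add_one (ρ / (2 * K * δ n))
    rwa [div_lt_iff₀ (by positivity)] at this
  set d2 := ⌈(r1 / 2 + δ n) * (6 / 5) / δ n⌉₊ with hd2
  have h21 : (r1 / 2 + δ n) * (6 / 5) ≤ δ n * d2 := by
    have := Nat.le_ceil ((r1 / 2 + δ n) * (6 / 5) / δ n)
    rw [div_le_iff₀ hδ] at this
    linarith
  have h22 : δ n * d2 ≤ (r1 / 2 + δ n) * (6 / 5) + δ n := by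
    have := (Nat.ceil_lt_add_one (show 0 ≤ (r1 / 2 + δ n) * (6 / 5) / δ n by positivity)).le
    have h5 : (d2 : ℝ) * δ n ≤ ((r1 / 2 + δ n) * (6 / 5) / δ n + 1) * δ n :=
      mul_le_mul_of_nonneg_right this hδ.le
    rw [add_mul, div_mul_cancel₀ _ hδ.ne'] at h5
    linarith
  have hd1 : (((K * M + 2 : ℕ) : ℝ) + 1) * δ n ≤ ρ0 := by
    push_cast
    nlinarith
  have hd12 : K * M + 2 ≤ d2 := by
    have : ((K * M + 2 : ℕ) : ℝ) * δ n ≤ (d2 : ℝ) * δ n := by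
      push_cast
      nlinarith
    exact_mod_cast le_of_mul_le_mul_right this hδ
  have hmM : d + 2 ≤ M := by
    rw [hM]
    refine Nat.le_floor ?_
    rw [le_div_iff₀ (by positivity)]
    push_cast
    have h5 : (d : ℝ) * δ n + 2 * δ n ≤ 2 * d0 := by linarith
    have h6 : ((d : ℝ) * δ n + 2 * δ n) * (2 * K) ≤ 2 * d0 * (2 * K) :=
      mul_le_mul_of_nonneg_right h5 (by positivity)
    have h7 : t0 * ρ ≤ 1 * ρ := mul_le_mul_of_nonneg_right ht1 hρ.le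
    nlinarith
  have hMpos : (0 : ℝ) < M := by
    have : (2 : ℝ) ≤ M := by exact_mod_cast le_trans (by omega) hmM
    linarith
  have hfrac : ((d + 2 : ℕ) : ℝ) / M ≤ t0 := by
    rw [div_le_iff₀ hMpos]
    have h5 : ((d + 2 : ℕ) : ℝ) * δ n ≤ 2 * d0 := by push_cast; linarith
    have h6 : ρ / (4 * K) ≤ M * δ n := by
      rw [div_le_iff₀ (by positivity)]
      nlinarith
    have h7 : 2 * d0 ≤ t0 * (M * δ n) := by
      have h8 : t0 * (ρ / (4 * K)) ≤ t0 * (M * δ n) := mul_le_mul_of_nonneg_left h6 ht0.le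
      have h9 : 2 * d0 ≤ t0 * (ρ / (4 * K)) := by
        rw [← mul_div_assoc, le_div_iff₀ (by positivity)]
        linarith
      exact h9.trans h8
    have h10 : ((d + 2 : ℕ) : ℝ) * δ n ≤ (t0 * M) * δ n := by linarith
    exact le_of_mul_le_mul_right h10 hδ
  -- the bound
  have key := cross_sgn hk (by linarith : (0 : ℝ) ≤ C) hF' hAut hadj (Λ := Λ n)
    (fun u hu v hv => h.compl n u hu v hv) hScs (τ := τ n) (h.data n) hκ (d2 := d2)
    (d1 := K * M + 2) (m := d + 2) (M := M)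
    (fun v hv hv1 hv2 => hn3 (σ v) ⟨hv1, (hv2.resolve_left hv1)⟩ (by
      have h5 := dist_of_mem hδ (hdist (δ n)) (ho n) hv
      nlinarith))
    (fun u v hu hv hu2 hv2 => hfar_of hδ hN1 hN2 hN4 hN5 hadj (hdist (δ n)) (ho n) hd1 h21
      hu hv hu2 hv2) le_rfl hmM le_rfl hd12 he
  refine (pr_le hadj hball (r2 := r2) (fun v hv => ?_) e κ).trans (key.trans ?_)
  · have h5 := dist_of_mem hδ (hdist (δ n)) (ho n) hv
    nlinarith
  · have h5 := htt _ (by positivity) hfrac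
    rw [Finset.card_range]
    linarith

end Crest.Agent.R144.Fh353
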