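import Crest.Agent.R144.LmB5_702

/-!
# R144, block BND / B2 (helper702), part 6: **Lemma B** (`LemB` of DOC 1945 / Bnd0_991)

* `isConn_IV`, `sc_fill` : connectedness of complements;
* `piece` : one unexplored domain;
* `lemB` : for every `A` there are `R, c1 > 0` with `LemB ((x²)⁻¹) K A R c1`.
-/

set_option autoImplicit false
set_option linter.unusedSectionVars false
set_option linter.unusedVariables false

noncomputable section

namespace Crest.Agent.R144.LmB702

open Finset MeasureTheory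
open Crest.Agent.R144.It844 (P2 Lip Cst adj_iff adj_symm lip_iff upT mem_upT tw)
open Crest.Agent.R144.Pst967 (Hz GObs FLim path_symm)
open Crest.Agent.R144.Zg349 Crest.Agent.R144.Zk349 Crest.Agent.R144.Zd349 Crest.Agent.R144.Zm349
open Crest.Agent.R144.Ze349 Crest.Agent.R144.Zs349 Crest.Agent.R144.Zo349
open Crest.Agent.R144.Hf702 (PSq PB PBI PBI_nonneg offTZ_PBI sum_PBI pLay_of_PBI Bg_sub sc_of_PBI
  ind_le_sum sum_filter_le_one eq_of_PBI sc_inter self_mem_ball)
open Crest.Agent.R144.Rsw867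
open Crest.Agent.R144.Bnd991
open Crest.ProbabilityR.HexHeights (Adj)

/-! ### connectedness -/

theorem corners_adj {t u v : P2} (hu : u ∈ up t) (hv : v ∈ up t) : u = v ∨ Adj u v := by
  obtain ⟨a, b⟩ := t
  obtain ⟨c, d⟩ := u
  obtain ⟨p, q⟩ := v
  simp only [mem_up, Prod.mk.injEq] at hu hv
  simp only [Adj, Prod.mk.injEq]
  omega

theorem adj_common {u v : P2} (ha : Adj u v) : ∃ t, u ∈ up t ∧ v ∈ up t := by
  obtain ⟨a, b⟩ := u
  simp only [mem_up]
  rcases adj_iff.1 ha with rfl | rfl | rfl | rfl | rfl | rfl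
  · exact ⟨(a, b), by simp⟩
  · exact ⟨(a - 1, b), by simp⟩
  · exact ⟨(a, b), by simp⟩
  · exact ⟨(a, b - 1), by simp⟩
  · exact ⟨(a, b - 1), by simp⟩
  · exact ⟨(a - 1, b), by simp⟩

/-- the sites that are not interior form a connected set -/
theorem isConn_IV {F : Finset P2} (hF : SC F) : IsConn (((IV F : Finset P2) : Set P2)ᶜ) := by
  set T : Set P2 := ((IV F : Finset P2) : Set P2)ᶜ with hT
  have hcor : ∀ t, t ∉ F → ∀ v ∈ up t, v ∈ T := fun t ht v hv hI =>
    ht (mem_IV'.1 (Finset.mem_coe.1 hI) t hv)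
  have tri : ∀ t, t ∉ F → ∀ u ∈ up t, ∀ v ∈ up t, Relation.ReflTransGen (StepIn T) u v := by
    intro t ht u hu v hv
    rcases corners_adj hu hv with rfl | ha
    · exact Relation.ReflTransGen.refl
    · exact Relation.ReflTransGen.single ⟨hcor t ht u hu, hcor t ht v hv, ha⟩
  intro u hu v hv
  have hex : ∀ w ∈ T, ∃ t, t ∉ F ∧ w ∈ up t := by
    intro w hw
    have hw' : w ∉ IV F := fun h => hw (Finset.mem_coe.2 h)
    rw [mem_IV'] at hw'
    push Not at hw'
    obtain ⟨t, h1, h2⟩ := hw'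
    exact ⟨t, h2, h1⟩
  obtain ⟨t, ht, hut⟩ := hex u hu
  obtain ⟨t', ht', hvt'⟩ := hex v hv
  have hp := hF t (fun h => ht (Finset.mem_coe.1 h)) t' (fun h => ht' (Finset.mem_coe.1 h))
  have key : ∀ s, Relation.ReflTransGen (StepIn ((F : Set P2)ᶜ)) t s → s ∉ F →
      ∀ w ∈ up s, Relation.ReflTransGen (StepIn T) u w := by
    intro s hs
    induction hs with
    | refl => exact fun h w hw => tri t h u hut w hw
    | @tail b d _ hbd ih =>
      intro hd w hw
      have hb : b ∉ F := fun h => hbd.1 (Finset.mem_coe.2 h)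
      obtain ⟨z, hz1, hz2⟩ := adj_site hbd.2.2
      exact (ih hb z hz1).trans (tri d hd z hz2 w hw)
  exact key t' hp ht' v hvt'

/-- filling a ball around the end of the ray -/
theorem sc_fill {Q : Finset P2} (hQ : SC Q) {b : P2} {m R : ℕ} (hm : m + 1 ≤ R)
    (hr : ∀ t ∈ ball b R, t ∉ Q → t ∈ ray b) : SC (Q ∪ ball b m) := by
  classical
  set T : Set P2 := ((Q ∪ ball b m : Finset P2) : Set P2)ᶜ with hT
  have hmem : ∀ t, t ∈ T ↔ t ∉ Q ∧ t ∉ ball b m := fun t => by
    rw [hT, Set.mem_compl_iff, Finset.mem_coe, Finset.mem_union, not_or]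
  set e0 : P2 := (b.1, b.2 + (m + 1)) with he0
  have key0 : ∀ z z' : P2, z ∉ ball b m → z ∉ Q → z' ∈ ball b m → Adj z z' → z = e0 := by
    intro z z' h1 h2 h3 h4
    have h5 : z ∈ ball b (m + 1) := adj_ball h3 (adj_symm h4)
    obtain ⟨h6, h7⟩ := hr z (ball_mono b hm h5) h2
    rw [mem_ball] at h1 h5
    obtain ⟨z1, z2⟩ := z
    obtain ⟨b1, b2⟩ := b
    simp only [abs_le] at h1 h5
    simp only at h6 h7
    rw [he0, Prod.mk.injEq]
    push_cast at h1 h5
    omega
  intro u hu v hv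
  rw [hmem] at hu hv
  have hp := hQ u (fun h => hu.1 (Finset.mem_coe.1 h)) v (fun h => hv.1 (Finset.mem_coe.1 h))
  have key : ∀ z, Relation.ReflTransGen (StepIn ((Q : Set P2)ᶜ)) u z →
      (z ∉ ball b m → Relation.ReflTransGen (StepIn T) u z) ∧
        (z ∈ ball b m → Relation.ReflTransGen (StepIn T) u e0) := by
    intro z hz
    induction hz with
    | refl => exact ⟨fun _ => Relation.ReflTransGen.refl, fun h => absurd h hu.2⟩
    | @tail c d _ hcd ih =>
      have hc : c ∉ Q := fun h => hcd.1 (Finset.mem_coe.2 h)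
      have hd : d ∉ Q := fun h => hcd.2.1 (Finset.mem_coe.2 h)
      refine ⟨fun hdm => ?_, fun hdm => ?_⟩
      · by_cases hcm : c ∈ ball b m
        · rw [key0 d c hdm hd hcm (adj_symm hcd.2.2)]
          exact ih.2 hcm
        · exact (ih.1 hcm).tail ⟨(hmem c).2 ⟨hc, hcm⟩, (hmem d).2 ⟨hd, hdm⟩, hcd.2.2⟩
      · by_cases hcm : c ∈ ball b m
        · exact ih.2 hcm
        · have := ih.1 hcm
          rwa [key0 c d hcm hc hdm hcd.2.2] at this
  exact (key v hp).1 hv.2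

/-! ### one domain -/

theorem E_mono' {c : ℝ} (hc : 1 ≤ c) {F : Finset P2} {f g : Cfg → ℝ}
    (h : ∀ ω, Valid F ω → wt c F ω ≠ 0 → f ω ≤ g ω) : E c F f ≤ E c F g := by
  rw [E_eq_div, E_eq_div]
  refine div_le_div_of_nonneg_right (Finset.sum_le_sum fun ω hω => ?_) (Z_pos hc F).le
  by_cases hw : wt c F ω = 0
  · rw [hw, zero_mul, zero_mul]
  · exact mul_le_mul_of_nonneg_left (h ω (mem_conf.1 hω) hw) (wt_nonneg hc _ _)

/-- the true heights have an arm -/
theorem arm0_of {U Q : Finset P2} {N : Set P2} {L : Finset P2} (hU : SC U) (hUQ : U ⊆ Q) {ω ω' : Cfg}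
    (hω : Valid Q ω) (hL : Lay true U ω) (hω' : Valid U ω') (hN : Anc N Q)
    (hC : Cn N (glue true U ω ω') ≠ 0) {b y : P2} {n r : ℕ} (hI : ∀ z ∈ IV U, z ∈ ball b r)
    (hLr : ∀ z ∈ L, z ∈ ball b r) (hA : ArmF U N L (ball y n) ω'.1) :
    glue true U ω ω' ∈ Arm0 N y n b r := by
  have hl := hω.ht.toLip
  obtain ⟨v, hv, u, w, hu, hu0, hwN, hwL, hw0, ha, hp⟩ := hA
  have huI := IF_sub U N hu
  have levstep : ∀ z z', z ∈ IV U → Adj z z' → z' ∈ VF U ∧ lev true U ω z' = lev true U ω z := by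
    intro z z' hz h
    obtain ⟨t, h1, h2⟩ := adj_common h
    have htU : t ∈ U := mem_IV'.1 hz t h1
    refine ⟨mem_VF.2 ⟨t, htU, h2⟩, ?_⟩
    obtain ⟨i, rfl⟩ := mem_up_iff.1 h1
    obtain ⟨j, rfl⟩ := mem_up_iff.1 h2
    exact lev_tri hU hl hL htU j i
  obtain ⟨hwV, hlw⟩ := levstep u w huI ha
  have hw1 : lev true U ω w = 0 := Bnd991.lev0 hU hUQ hω hL hω' hN hC hwN hwV
  have hu1 : lev true U ω u = 0 := by rw [← hlw]; exact hw1
  set T : Set P2 := {w | (glue true U ω ω').1 w ≤ 0 ∧ w ∈ ball b r} with hT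
  have inT : ∀ z, z ∈ IF U N → ω'.1 z ≤ 0 → lev true U ω z = 0 → z ∈ T := by
    intro z h1 h2 h3
    refine ⟨?_, hI z (IF_sub U N h1)⟩
    rw [glue_in (IV_sub_VF U (IF_sub U N h1)), h3, zero_add]
    exact h2
  have key : ∀ z, Relation.ReflTransGen (StepIn {z | z ∈ IF U N ∧ ω'.1 z ≤ 0}) u z →
      lev true U ω z = 0 ∧ Relation.ReflTransGen (StepIn T) u z := by
    intro z hz
    induction hz with
    | refl => exact ⟨hu1, Relation.ReflTransGen.refl⟩
    | @tail c d _ hcd ih =>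
      obtain ⟨⟨h1, h2⟩, ⟨h3, h4⟩, h5⟩ := hcd
      have h6 : lev true U ω d = 0 := by rw [(levstep c d (IF_sub U N h1) h5).2]; exact ih.1
      exact ⟨h6, ih.2.tail ⟨inT c h1 h2 ih.1, inT d h3 h4 h6, h5⟩⟩
  have hwT : w ∈ T := by
    refine ⟨?_, hLr w hwL⟩
    rw [glue_in hwV, hw1, zero_add]
    exact hw0
  refine ⟨v, hv, w, hLr w hwL, hwN, ?_⟩
  exact (path_symm (key v (path_symm hp)).2).tail ⟨inT u hu hu0 hu1, hwT, ha⟩

/-- **one unexplored domain** -/
theorem piece {c : ℝ} (hc : 1 ≤ c) {Q D B : Finset P2} {N : Set P2} {L : Finset P2} (hQ : SC Q)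
    (hB : SC B) (hN : Anc N Q) {b y : P2} {n r : ℕ} (hI : ∀ z ∈ IV (B ∩ Q), z ∈ ball b r)
    (hLr : ∀ z ∈ L, z ∈ ball b r) {c0 : ℝ}
    (hcore : c0 * E c (B ∩ Q) (Cn N) ≤
      E c (B ∩ Q) (fun ω => Cn N ω * ind {ω | ArmF (B ∩ Q) N L (ball y n) ω.1} ω)) :
    c0 * E c Q (fun ω => PBI D B ω * Cn N ω) ≤
      E c Q (fun ω => PBI D B ω * (Cn N ω * ind (Arm0 N y n b r) ω)) := by
  classical
  set U := B ∩ Q with hU
  have hUsc : SC U := sc_inter hB hQ
  have hUQ : U ⊆ Q := Finset.inter_subset_right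
  have hUB : U ⊆ B := Finset.inter_subset_left
  have hlay : ∀ ω, Valid Q ω → wt c Q ω ≠ 0 → PBI D B ω ≠ 0 → Lay true U ω := by
    intro ω hω hw h
    refine lay_of hω hw fun t ht h1 => ?_
    by_cases htQ : t ∈ Q
    · have htB : t ∉ B := fun h => ht (Finset.mem_inter.2 ⟨h, htQ⟩)
      obtain ⟨v, hv, hvt⟩ := h1
      obtain ⟨t', ht', hv'⟩ := mem_VF.1 hv
      exact pLay_of_PBI h t' (hUB ht') t htB (adj_of_site (fun e => ht (e ▸ ht')) hv' hvt)
    · exact ⟨hω.cl t htQ, hω.ht.s1_bd fun h2 => htQ (IV_sub Q h2)⟩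
  have offP : OffTZ U (PBI D B) := offTZ_mono hUB (offTZ_PBI D B)
  set g : Cfg → ℝ := fun ω => PBI D B ω * Cn (N \ (IV U : Set P2)) ω with hg
  have g0 : ∀ ω, 0 ≤ g ω := fun ω => mul_nonneg (PBI_nonneg _ _ _) (Cn_nonneg _ _)
  have gL : ∀ ω, Valid Q ω → wt c Q ω ≠ 0 → g ω ≠ 0 → Lay true U ω := fun ω hω hw h =>
    hlay ω hω hw (left_ne_zero_of_mul h)
  -- the two decompositions
  have e1 : E c Q (fun ω => PBI D B ω * Cn N ω) = E c Q (fun ω => g ω * E c U (Cn N)) := by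
    refine E_dec (e := true) hc hUsc hUQ (φ := fun _ => Cn N) (fun ω hω hw hL => ?_)
      (fun ω ω' hω hw hL hω' => ?_)
    · have h0 : PBI D B ω = 0 := by
        by_contra h
        exact hL (hlay ω hω hw h)
      simp only [hg, h0, zero_mul, and_self]
    · rw [offTZ_glue hUsc hω.ht.toLip hL hω' offP, cn_glue hUsc hUQ hω hL hω']
      simp only [hg]; ring
  have e2 : E c Q (fun ω => PBI D B ω * (Cn N ω * ind (Arm0 N y n b r) ω)) =
      E c Q (fun ω => g ω * E c U (fun ω' => Cn N ω' * ind (Arm0 N y n b r) (glue true U ω ω'))) := by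
    refine E_dec (e := true) hc hUsc hUQ
      (φ := fun ω ω' => Cn N ω' * ind (Arm0 N y n b r) (glue true U ω ω')) (fun ω hω hw hL => ?_)
      (fun ω ω' hω hw hL hω' => ?_)
    · have h0 : PBI D B ω = 0 := by
        by_contra h
        exact hL (hlay ω hω hw h)
      simp only [hg, h0, zero_mul, and_self]
    · rw [offTZ_glue hUsc hω.ht.toLip hL hω' offP, cn_glue hUsc hUQ hω hL hω']
      simp only [hg]; ring
  rw [e1, e2, ← E_smul]
  refine E_mono' hc fun ω hω hw => ?_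
  by_cases hgω : g ω = 0
  · rw [hgω]; simp
  have hL := gL ω hω hw hgω
  have h1 : E c U (fun ω' => Cn N ω' * ind {ω | ArmF U N L (ball y n) ω.1} ω') ≤
      E c U (fun ω' => Cn N ω' * ind (Arm0 N y n b r) (glue true U ω ω')) := by
    refine E_mono hc fun ω' hω' => ?_
    by_cases hC : Cn N ω' = 0
    · rw [hC, zero_mul, zero_mul]
    refine mul_le_mul_of_nonneg_left ?_ (Cn_nonneg N ω')
    refine ind_le_ind fun hA => ?_
    have hC' : Cn N (glue true U ω ω') ≠ 0 := by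
      rw [cn_glue hUsc hUQ hω hL hω']
      exact mul_ne_zero (right_ne_zero_of_mul hgω) hC
    exact arm0_of hUsc hUQ hω hL hω' hN hC' hI hLr hA
  calc c0 * (g ω * E c U (Cn N)) = g ω * (c0 * E c U (Cn N)) := by ring
    _ ≤ g ω * E c U (fun ω' => Cn N ω' * ind (Arm0 N y n b r) (glue true U ω ω')) :=
        mul_le_mul_of_nonneg_left (hcore.trans h1) (g0 ω)

/-- **Lemma B.** -/
theorem lemB {x : ℝ} (hx0 : 0 < x) (hx1 : x ≤ 1) {K : ℕ} {p : ℝ} (hR : RSW ((x ^ 2)⁻¹) K p)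
    {P : Measure Hz} (hPS : PSq P)
    (hFL : ∀ f : Hz → ℝ, GObs f → FLim ((x ^ 2)⁻¹) f (∫ h, f h ∂P)) (A : ℕ) :
    ∃ (R : ℕ) (c1 : ℝ), 0 < c1 ∧ ∀ R' : ℕ, R ≤ R' → LemB ((x ^ 2)⁻¹) K A R' c1 := by
  classical
  have hx2 : 0 < x ^ 2 := by positivity
  have hc : 1 ≤ (x ^ 2)⁻¹ := (one_le_inv₀ hx2).2 (pow_le_one₀ hx0.le hx1)
  obtain ⟨M, c0, hc0, hAM, hcore⟩ := core hx0 hx1 hR hPS hFL A
  refine ⟨2 * M + 8, c0 * p, mul_pos hc0 hR.p0, fun R hR' N Q b y n hn hQ hN hray hrN hy hyN => ?_⟩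
  set c := (x ^ 2)⁻¹ with hcdef
  set m := M * n + 3 with hm
  set m1 := M * n + 2 with hm1
  set D := ball b (2 * m + 1) with hD
  have hRn : 2 * m + 2 ≤ R * n := by
    have h1 : (2 * M + 8) * n ≤ R * n := Nat.mul_le_mul_right _ hR'
    have h2 : (2 * M + 8) * n = 2 * (M * n) + 8 * n := by ring
    omega
  have hAn : A * n + 3 * n ≤ M * n := by
    have := Nat.mul_le_mul_right n hAM
    have e : (A + 3) * n = A * n + 3 * n := by ring
    omega
  have hnray : ∀ t ∈ ball b (R * n), t ∉ Q → t ∈ ray b := fun t ht h => by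
    by_contra h'
    exact h ((hray t ht).2 h')
  have hbray : b ∈ ray b := ⟨rfl, le_rfl⟩
  have hbB : ∀ k, b ∈ ball b k := fun k => self_mem_ball b k
  have hbN : b ∈ N := hrN b (hbB _) hbray b (base_mem_up b)
  have hbQ : b ∉ Q := fun h => (hray b (hbB _)).1 h hbray
  -- one domain
  have hpiece : ∀ B ∈ D.powerset.filter (fun B => ball b (m - 1) ⊆ B),
      c0 * E c Q (fun ω => PBI D B ω * Cn N ω) ≤
        E c Q (fun ω => PBI D B ω * (Cn N ω * ind (Arm0 N y n b (R * n)) ω)) := by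
    intro B hB
    obtain ⟨hBD, hmB⟩ := Finset.mem_filter.1 hB
    rw [Finset.mem_powerset] at hBD
    by_cases hsc : SC B
    swap
    · have h0 : ∀ ω, PBI D B ω = 0 := fun ω => by
        by_contra h
        exact hsc (sc_of_PBI (sc_ball b _) h)
      simp only [h0, zero_mul]
      rw [E_const hc, mul_zero]
    set U := B ∩ Q with hU
    set Q' := Q ∪ ball b m1 with hQ'
    set B' := B ∩ Q' with hB'
    set L := IV B' with hL
    have hQ'sc : SC Q' := sc_fill hQ (R := R * n) (by omega) hnray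
    have hB'sc : SC B' := sc_inter hsc hQ'sc
    have hUB' : U ⊆ B' := fun t ht => by
      rw [hU, Finset.mem_inter] at ht
      rw [hB', hQ', Finset.mem_inter, Finset.mem_union]
      exact ⟨ht.1, Or.inl ht.2⟩
    have hmb : ball b m1 ⊆ B := (ball_mono b (by omega)).trans hmB
    have hG : Geo U N L := by
      refine ⟨hN.conn, ?_, fun v hv hI => hv ?_, fun v hv hvI => ?_⟩
      · set e0 : P2 := (b.1, b.2 + (m1 + 1)) with he0
        have he : e0 ∈ ball b (R * n) := by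
          rw [mem_ball]
          simp only [he0, abs_le]
          have : ((m1 + 1 : ℕ) : ℤ) ≤ ((R * n : ℕ) : ℤ) := by exact_mod_cast (by omega : m1 + 1 ≤ R * n)
          push_cast at this ⊢
          refine ⟨⟨?_, ?_⟩, ⟨?_, ?_⟩, ⟨?_, ?_⟩⟩ <;> nlinarith
        have her : e0 ∈ ray b := ⟨rfl, by simp only [he0]; omega⟩
        have heb : e0 ∉ ball b m1 := by
          rw [mem_ball]
          simp only [he0, abs_le]
          push_cast
          omega
        have heQ : e0 ∉ Q := fun h => (hray e0 he).1 h her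
        refine ⟨e0, hrN e0 he her e0 (base_mem_up e0), fun h => ?_⟩
        have h1 := IV_sub B' h
        rw [hB', hQ', Finset.mem_inter, Finset.mem_union] at h1
        rcases h1.2 with h2 | h2
        · exact heQ h2
        · exact heb h2
      · exact IV_mono hUB' (IF_sub U N hI)
      · rw [mem_IV'] at hvI
        push Not at hvI
        obtain ⟨t, ht, htU⟩ := hvI
        have h1 : t ∈ B' := mem_IV'.1 hv t ht
        rw [hB', hQ', Finset.mem_inter, Finset.mem_union] at h1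
        have htQ : t ∉ Q := fun h => htU (Finset.mem_inter.2 ⟨h1.1, h⟩)
        have htb : t ∈ ball b m1 := h1.2.resolve_left htQ
        have htR : t ∈ ball b (R * n) := ball_mono b (by omega) htb
        exact hrN t htR (hnray t htR htQ) v ht
    have hAU : Anc N U := hN.mono Finset.inter_subset_right
    have hVL : VF (ball b (M * n)) ⊆ L := by
      intro v hv
      obtain ⟨t, ht, hvt⟩ := mem_VF.1 hv
      rw [hL, mem_IV']
      intro t' ht'
      have h1 : t' ∈ ball b m1 := by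
        have := ball_trans (up_ball ht') (ball_trans (ball_up hvt) ht)
        exact ball_mono b (by omega) this
      rw [hB', hQ', Finset.mem_inter, Finset.mem_union]
      exact ⟨hmb h1, Or.inr h1⟩
    have hrayU : ∀ t ∈ ball b (M * n), t ∉ U → t ∈ ray b := by
      intro t ht htU
      have h1 : t ∈ B := hmb (ball_mono b (by omega) ht)
      have h2 : t ∉ Q := fun h => htU (Finset.mem_inter.2 ⟨h1, h⟩)
      exact hnray t (ball_mono b (by omega) ht) h2
    have hyI : ball y n ⊆ IF U N := by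
      intro v hv
      have hvN : v ∉ N := hyN v (ball_mono y (Nat.le_mul_of_pos_left _ (by have := hR.K4; omega)) hv)
      refine mem_IF.2 ⟨?_, hvN⟩
      rw [mem_IV']
      intro t ht
      have h1 : t ∈ ball b m1 := by
        have := ball_trans (up_ball ht) (ball_trans hv hy)
        exact ball_mono b (by omega) this
      have htQ : t ∈ Q := by
        by_contra h
        have h2 : t ∈ ball b (R * n) := ball_mono b (by omega) h1
        exact hvN (hrN t h2 (hnray t h2 h) v ht)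
      exact Finset.mem_inter.2 ⟨hmb h1, htQ⟩
    have hbU : b ∉ U := fun h => hbQ (Finset.mem_inter.1 h).2
    have hc1 := hcore U N L b y n hn (sc_inter hsc hQ) hG hAU (isConn_IV hB'sc) hbN hbU hVL hrayU hy hyI
    have hDR : ∀ z ∈ D, z ∈ ball b (R * n) := fun z hz => ball_mono b (by omega) hz
    exact piece hc hQ hsc hN (fun z hz => hDR z (hBD (Finset.mem_inter.1 (IV_sub _ hz)).1))
      (fun z hz => hDR z (hBD (Finset.mem_inter.1 (IV_sub _ hz)).1)) hc1
  -- sum
  set 𝒢 := D.powerset.filter (fun B => ball b (m - 1) ⊆ B) with h𝒢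
  have hsum : c0 * E c Q (fun ω => (∑ B ∈ 𝒢, PBI D B ω) * Cn N ω) ≤
      E c Q (fun ω => (∑ B ∈ 𝒢, PBI D B ω) * (Cn N ω * ind (Arm0 N y n b (R * n)) ω)) := by
    have e : ∀ f : Cfg → ℝ, E c Q (fun ω => (∑ B ∈ 𝒢, PBI D B ω) * f ω) =
        ∑ B ∈ 𝒢, E c Q (fun ω => PBI D B ω * f ω) := by
      intro f
      rw [← E_sum]
      refine congrArg _ ?_
      funext ω
      rw [Finset.sum_mul]
    rw [e, e, Finset.mul_sum]
    exact Finset.sum_le_sum hpiece
  have hcirc := circE hc hR hQ N b (n := m) (by omega)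
  have l1 : E c Q (fun ω => Cn N ω * ind (BlkP b m (2 * m)) ω) ≤
      E c Q (fun ω => (∑ B ∈ 𝒢, PBI D B ω) * Cn N ω) := by
    refine E_mono hc fun ω _ => ?_
    have h1 := ind_le_sum (a := b) (r := m - 1) (m := m) (N := 2 * m) (by omega) (by omega) ω
    have e : (∑ B ∈ (ball b (2 * m + 1)).powerset with ball b (m - 1) ⊆ B,
        PBI (ball b (2 * m + 1)) B ω) = ∑ B ∈ 𝒢, PBI D B ω := by
      simp only [h𝒢, hD]
    rw [← e]
    have := mul_le_mul_of_nonneg_right h1 (Cn_nonneg N ω)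
    linarith
  have l2 : E c Q (fun ω => (∑ B ∈ 𝒢, PBI D B ω) * (Cn N ω * ind (Arm0 N y n b (R * n)) ω)) ≤
      E c Q (fun ω => Cn N ω * ind (Arm0 N y n b (R * n)) ω) := by
    refine E_mono hc fun ω _ => ?_
    have h1 : ∑ B ∈ 𝒢, PBI D B ω ≤ 1 := sum_filter_le_one b (m - 1) (2 * m) ω
    have h2 : 0 ≤ Cn N ω * ind (Arm0 N y n b (R * n)) ω := mul_nonneg (Cn_nonneg _ _) (ind_nonneg _ _)
    have := mul_le_mul_of_nonneg_right h1 h2
    linarith
  calc c0 * p * E c Q (Cn N) = c0 * (p * E c Q (Cn N)) := by ring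
    _ ≤ c0 * E c Q (fun ω => Cn N ω * ind (BlkP b m (2 * m)) ω) :=
        mul_le_mul_of_nonneg_left hcirc hc0.le
    _ ≤ c0 * E c Q (fun ω => (∑ B ∈ 𝒢, PBI D B ω) * Cn N ω) := mul_le_mul_of_nonneg_left l1 hc0.le
    _ ≤ _ := hsum.trans l2

end Crest.Agent.R144.LmB702
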