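import Crest.Agent.R144.Fr3_353
import Crest.Agent.R144.Lc1_830

/-! R144 (helper353), block B6 of doc 1945, file 4: **the frames at every frontier point**, from
268's `Setup` and 830's `LC`. -/

set_option autoImplicit false

open Set Topology Filter Metric

namespace Crest.Agent.R144.Fr353

open Crest.ProbabilityR.HexHeights (Adj centre)
open Crest.Agent.R144.It844 (P2)
open Crest.Agent.R144.Zg349 (StepIn)
open Crest.Agent.R144.Rw146 (Aut)
open Crest.Agent.R144.Set268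
open Crest.Agent.R144.Lc830 (LC)
open Crest.Agent.R144.Bnd991 (Frame)
open Relation (ReflTransGen)

theorem adj_iff_norm {u v : P2} : Adj u v ↔ (v.1 - u.1) ^ 2 + (v.1 - u.1) * (v.2 - u.2) +
    (v.2 - u.2) ^ 2 = 1 := by
  unfold Adj
  generalize v.1 - u.1 = a
  generalize v.2 - u.2 = b
  constructor
  · rintro (⟨rfl, rfl⟩ | ⟨rfl, rfl⟩ | ⟨rfl, rfl⟩ | ⟨rfl, rfl⟩ | ⟨rfl, rfl⟩ | ⟨rfl, rfl⟩) <;> norm_num
  · intro h
    have ha1 : a ≤ 1 := by nlinarith [sq_nonneg (a + 2 * b)]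
    have ha2 : -1 ≤ a := by nlinarith [sq_nonneg (a + 2 * b)]
    have hb1 : b ≤ 1 := by nlinarith [sq_nonneg (2 * a + b)]
    have hb2 : -1 ≤ b := by nlinarith [sq_nonneg (2 * a + b)]
    interval_cases a <;> interval_cases b <;> simp_all

theorem Ori.norm_eq {σ : P2 ≃ P2} {u : ℂ} {α β : ℝ} (h : Ori σ u α β) (v : P2) :
    (σ v).1 ^ 2 + (σ v).1 * (σ v).2 + (σ v).2 ^ 2 = v.1 ^ 2 + v.1 * v.2 + v.2 ^ 2 := by
  have h1 := norm_centre_sq 1 (σ v)
  rw [h.iso, norm_centre_sq] at h1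
  have h2 : (((v.1 ^ 2 + v.1 * v.2 + v.2 ^ 2 : ℤ) : ℝ)) =
      (((σ v).1 ^ 2 + (σ v).1 * (σ v).2 + (σ v).2 ^ 2 : ℤ) : ℝ) := by
    push_cast
    linarith
  exact_mod_cast h2.symm

theorem Ori.sub {σ : P2 ≃ P2} {u : ℂ} {α β : ℝ} (h : Ori σ u α β) (v w : P2) :
    σ (v - w) = σ v - σ w := by
  have := h.add (v - w) w
  rw [sub_add_cancel] at this
  rw [this, add_sub_cancel_right]

theorem Ori.adj {σ : P2 ≃ P2} {u : ℂ} {α β : ℝ} (h : Ori σ u α β) (v w : P2) :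
    Adj (σ v) (σ w) ↔ Adj v w := by
  have h1 := h.norm_eq (w - v)
  rw [h.sub] at h1
  rw [adj_iff_norm, adj_iff_norm]
  rw [Prod.fst_sub, Prod.snd_sub, Prod.fst_sub, Prod.snd_sub] at h1
  rw [h1]

theorem dist_centre_eq (δ : ℝ) (v w : P2) : dist (centre δ v) (centre δ w) = ‖centre δ (v - w)‖ := by
  rw [dist_eq_norm]
  congr 1
  unfold centre
  push_cast [Prod.fst_sub, Prod.snd_sub]
  ring

theorem Ori.dist_eq {σ : P2 ≃ P2} {u : ℂ} {α β : ℝ} (h : Ori σ u α β) (δ : ℝ) (v w : P2) :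
    dist (centre δ (σ v)) (centre δ (σ w)) = ‖centre δ (v - w)‖ := by
  rw [dist_centre_eq, ← h.sub, h.iso]

/-- Euclid close sites are in a lattice ball -/
theorem mem_ball_of_dist {δ : ℝ} (hδ : 0 < δ) {v w : P2} {k : ℕ}
    (h : ‖centre δ (v - w)‖ * (6 / 5) ≤ δ * k) : v ∈ Crest.Agent.R144.Rsw867.ball w k := by
  have h4 := norm_centre_sq δ (v - w)
  have key : ∀ x : ℤ, 3 * (x : ℝ) ^ 2 ≤ 4 * (((v - w).1 : ℝ) ^ 2 + (v - w).1 * (v - w).2 +
      ((v - w).2 : ℝ) ^ 2) → |x| ≤ (k : ℤ) := by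
    intro x hx
    have h5 : δ ^ 2 * (x : ℝ) ^ 2 ≤ 4 / 3 * ‖centre δ (v - w)‖ ^ 2 := by
      rw [h4]
      nlinarith [sq_nonneg δ]
    have h6 : (δ * |(x : ℝ)|) ^ 2 ≤ (δ * k) ^ 2 := by
      rw [mul_pow, sq_abs]
      have h7 : (‖centre δ (v - w)‖ * (6 / 5)) ^ 2 ≤ (δ * k) ^ 2 :=
        pow_le_pow_left₀ (by positivity) h 2
      nlinarith [sq_nonneg ‖centre δ (v - w)‖]
    have h8 : δ * |(x : ℝ)| ≤ δ * k := abs_le_of_sq_le_sq' h6 (by positivity) |>.2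
    have h9 : |(x : ℝ)| ≤ k := le_of_mul_le_mul_left h8 hδ
    exact_mod_cast h9
  rw [Crest.Agent.R144.Rsw867.mem_ball]
  refine ⟨key _ ?_, key _ ?_, key _ ?_⟩
  · rw [Prod.fst_sub, Prod.snd_sub]
    push_cast
    nlinarith [sq_nonneg (((v.1 : ℝ) - w.1) + 2 * (v.2 - w.2))]
  · rw [Prod.fst_sub, Prod.snd_sub]
    push_cast
    nlinarith [sq_nonneg (2 * ((v.1 : ℝ) - w.1) + (v.2 - w.2))]
  · rw [Prod.fst_sub, Prod.snd_sub]
    push_cast
    nlinarith [sq_nonneg (((v.1 : ℝ) - w.1) - (v.2 - w.2))]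

theorem dist_of_mem_ball {δ : ℝ} (hδ : 0 ≤ δ) {v w : P2} {k : ℕ}
    (h : v ∈ Crest.Agent.R144.Rsw867.ball w k) : ‖centre δ (v - w)‖ ≤ δ * k := by
  rw [Crest.Agent.R144.Rsw867.mem_ball] at h
  exact norm_centre_le hδ h.1 h.2.1 h.2.2

/-- first change along a column -/
theorem exists_change {N : Set P2} {x y : ℤ} (k : ℕ) (h0 : ((x, y) : P2) ∈ N)
    (hk : ((x, y - k) : P2) ∉ N) :
    ∃ t : ℕ, t < k ∧ ((x, y - t) : P2) ∈ N ∧ ((x, y - t - 1) : P2) ∉ N := by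
  induction k with
  | zero => simp at hk; exact absurd h0 hk
  | succ k ih =>
    by_cases h1 : ((x, y - k) : P2) ∈ N
    · refine ⟨k, by omega, h1, ?_⟩
      have : y - (k : ℤ) - 1 = y - ((k + 1 : ℕ) : ℤ) := by push_cast; ring
      rw [this]
      exact hk
    · obtain ⟨t, ht, h2, h3⟩ := ih h1
      exact ⟨t, by omega, h2, h3⟩

variable {D : Set ℂ} {γ : ℝ → ℂ} {P : Finset ℂ} {δ : ℕ → ℝ} {Λ : ℕ → Finset (ℤ × ℤ)}
  {τ : ℕ → ℤ × ℤ → ℤ}

set_option maxHeartbeats 1600000 in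
/-- **B6: frames at every frontier point and every small scale** -/
theorem exists_frame (h : Setup D γ P δ Λ τ) (hLC : LC D δ Λ) (K A R : ℕ) (hA : 2 * K + 8 ≤ A) :
    ∃ C1 C2 k0 : ℕ, ∃ ρ1 > 0, ∀ p ∈ frontier D, ∃ (σ : P2 ≃ P2) (o : ℕ → P2),
      (∃ τ', Aut σ τ') ∧ (∀ v w, σ (v + w) = σ v + σ w) ∧ (∀ v w, Adj (σ v) (σ w) ↔ Adj v w) ∧
      (∀ ε v w, dist (centre ε (σ v)) (centre ε (σ w)) = dist (centre ε v) (centre ε w)) ∧
      (∀ n, dist (centre (δ n) (σ (o n))) p ≤ δ n) ∧ ∃ k ≤ k0, ∀ ρ, 0 < ρ → ρ ≤ ρ1 →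
        ∀ᶠ n in atTop, ∃ q b y a, Frame K A R ⌊ρ / δ n⌋₊ (C1 * ⌊ρ / δ n⌋₊) (C2 * ⌊ρ / δ n⌋₊) k
          {v | σ v ∉ Λ n} (o n) q b y a := by
  obtain ⟨C0, hC0, hlc⟩ := hLC
  set S0 : ℝ := 3 * (C0 * (R + TT K + 1) + TT K + 1) with hS0
  set S : ℕ := max R ⌈S0⌉₊ with hS
  have hRS : R ≤ S := le_max_left _ _
  have hSr : S0 ≤ S := (Nat.le_ceil S0).trans (by exact_mod_cast le_max_right _ _)
  obtain ⟨ρ1, hρ1, hhp⟩ := halfplane h (CC K R S)
  refine ⟨M1 K, M2 K R S, 10 * XX K R S + 2 * TT K + 10, ρ1, hρ1, fun p hp => ?_⟩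
  obtain ⟨σ, u, α, β, o, ho, hop, hev⟩ := hhp p hp
  obtain ⟨n0, hn0⟩ := (hev ρ1 hρ1 le_rfl).exists
  refine ⟨σ, o, ho.aut, ho.add, ho.adj, fun ε v w => by rw [ho.dist_eq, dist_centre_eq], hop,
    kk α β K R S, kk_le hn0.a0 hn0.a1 hn0.b0 hn0.b1 K R S, fun ρ hρ hρ' => ?_⟩
  have hTr : (0 : ℝ) ≤ TT K := Nat.cast_nonneg _
  have hRr : (0 : ℝ) ≤ R := Nat.cast_nonneg _
  filter_upwards [hev ρ hρ hρ', hlc ((R + TT K + 1) * ρ) (by positivity), h.bnd ρ hρ,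
    h.sites.small hρ] with n hn1 hn2 hn3 hn4
  have hδ := h.sites.pos n
  set m := ⌊ρ / δ n⌋₊ with hm
  have hm0 : 1 ≤ m := by
    rw [hm, Nat.one_le_floor_iff, one_le_div hδ]
    exact hn4.le
  have hm1 : (m : ℝ) * δ n ≤ ρ := by
    have := Nat.floor_le (show 0 ≤ ρ / δ n by positivity)
    rw [le_div_iff₀ hδ] at this
    exact this
  have hm2 : ρ < (m + 1) * δ n := by
    have := Nat.lt_floor_add_one (ρ / δ n)
    rw [div_lt_iff₀ hδ] at this
    exact this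
  have hm3 : ρ ≤ 2 * m * δ n := by
    have : (1 : ℝ) ≤ m := by exact_mod_cast hm0
    nlinarith
  refine ⟨_, _, _, _, frame_of_hp hm0 hA hRS hn1 ?_⟩
  intro s v hvN hv
  -- the exterior point and the interior point below it
  set b := pt (o n) m (cb α β (XX K R S) s) with hb
  obtain ⟨l1, l2, l3, l4⟩ := YYf_bd hn1.a0 hn1.a1 hn1.b0 hn1.b1 (XX K R S)
  obtain ⟨t1, t2, t3, t4⟩ := YYt_bd hn1.a0 hn1.a1 hn1.b0 hn1.b1 (XX K R S)
  have hTn : TT K = 2 * K + 8 := rfl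
  have hM2n : M2 K R S = 4 * XX K R S + TT K + 10 := rfl
  have hCCn : CC K R S = M2 K R S + K + 20 := rfl
  have hmr : (1 : ℝ) ≤ m := by exact_mod_cast hm0
  have hKr : (0 : ℝ) ≤ K := Nat.cast_nonneg _
  have hTTr : ((TT K : ℕ) : ℝ) = 2 * K + 8 := by rw [hTn]; push_cast; ring
  -- position of the two points
  have hbN : b ∈ {v | σ v ∉ Λ n} := by
    have hmem : b ∈ Crest.Agent.R144.Rsw867.ball (o n) (CC K R S * m) := by
      have h0 : b ∈ Crest.Agent.R144.Rsw867.ball (pt (o n) m (cb α β (XX K R S) s)) (0 * m) := by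
        rw [Crest.Agent.R144.Rsw867.mem_ball]
        simp [hb]
      refine mem_big h0 ?_ ?_ ?_ <;> cases s <;> simp only [cb, Nat.cast_zero, add_zero, abs_le] <;>
        omega
    refine hn1.out b hmem ?_
    have e1 : ((b.1 : ℤ) : ℝ) - (o n).1 = m * ((cb α β (XX K R S) s).1 : ℝ) := by
      rw [hb]; unfold pt; push_cast; ring
    have e2 : ((b.2 : ℤ) : ℝ) - (o n).2 = m * ((cb α β (XX K R S) s).2 : ℝ) := by
      rw [hb]; unfold pt; push_cast; ring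
    rw [e1, e2]
    have e3 : 2 ≤ α * ((cb α β (XX K R S) s).1 : ℝ) + β * ((cb α β (XX K R S) s).2 : ℝ) := by
      cases s
      · simp only [cb]; push_cast; linarith
      · simp only [cb]; push_cast; linarith
    nlinarith
  have hyN : ((b.1, b.2 - (TT K * m : ℕ)) : P2) ∉ {v | σ v ∉ Λ n} := by
    have e0 : ((b.1, b.2 - (TT K * m : ℕ)) : P2) =
        pt (o n) m ((cb α β (XX K R S) s).1, (cb α β (XX K R S) s).2 - TT K) := by
      rw [hb]; unfold pt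
      ext
      · rfl
      · simp only; push_cast; ring
    have hmem : ((b.1, b.2 - (TT K * m : ℕ)) : P2) ∈
        Crest.Agent.R144.Rsw867.ball (o n) (CC K R S * m) := by
      have h0 : ((b.1, b.2 - (TT K * m : ℕ)) : P2) ∈ Crest.Agent.R144.Rsw867.ball
          (pt (o n) m ((cb α β (XX K R S) s).1, (cb α β (XX K R S) s).2 - TT K)) (0 * m) := by
        rw [e0, Crest.Agent.R144.Rsw867.mem_ball]
        simp
      refine mem_big h0 ?_ ?_ ?_ <;> cases s <;> simp only [cb, Nat.cast_zero, add_zero, abs_le] <;>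
        omega
    refine hn1.inn _ hmem ?_
    rw [e0]
    unfold pt
    push_cast
    have e3 : α * ((cb α β (XX K R S) s).1 : ℝ) + β * ((cb α β (XX K R S) s).2 : ℝ) ≤ 3 := by
      cases s
      · simp only [cb]; push_cast; linarith
      · simp only [cb]; push_cast; linarith
    have e4 : 4 / 5 * (TT K : ℝ) ≤ β * TT K := mul_le_mul_of_nonneg_right hn1.b0 hTr
    have e5 : α * (((o n).1 : ℝ) + m * ((cb α β (XX K R S) s).1 : ℝ) - (o n).1) +
        β * (((o n).2 : ℝ) + m * (((cb α β (XX K R S) s).2 : ℝ) - TT K) - (o n).2) =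
        m * (α * ((cb α β (XX K R S) s).1 : ℝ) + β * ((cb α β (XX K R S) s).2 : ℝ) - β * TT K) := by
      ring
    rw [e5, one_mul]
    have e6 : α * ((cb α β (XX K R S) s).1 : ℝ) + β * ((cb α β (XX K R S) s).2 : ℝ) - β * TT K ≤ -1 := by
      rw [hTTr] at e4 ⊢
      nlinarith
    nlinarith
  obtain ⟨t, ht, htN, htN'⟩ := exists_change (N := {v | σ v ∉ Λ n}) (TT K * m) hbN hyN
  -- a boundary site next to the exterior point, and a frontier point next to it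
  have hBd : Bd (Λ n) (σ (b.1, b.2 - t)) := by
    refine ⟨htN, σ (b.1, b.2 - t - 1), ?_, ?_⟩
    · have : ¬ (σ (b.1, b.2 - t - 1) ∉ Λ n) := htN'
      exact not_not.1 this
    · rw [ho.adj, adj_iff_norm]
      simp only
      ring
  have h5 := hn3 _ hBd
  obtain ⟨p', hp', hpd⟩ := (infDist_lt_iff ⟨p, hp⟩).1 h5
  have hd1 : dist (centre (δ n) (σ b)) (centre (δ n) (σ (b.1, b.2 - t))) ≤ TT K * ρ := by
    rw [ho.dist_eq]
    have h6 : b ∈ Crest.Agent.R144.Rsw867.ball ((b.1, b.2 - t) : P2) (TT K * m) := by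
      rw [Crest.Agent.R144.Rsw867.mem_ball]
      simp only [abs_le]
      omega
    refine (dist_of_mem_ball hδ.le h6).trans ?_
    push_cast
    nlinarith
  have hd2 : dist (centre (δ n) (σ b)) p' ≤ (TT K + 1) * ρ := by
    have := dist_triangle (centre (δ n) (σ b)) (centre (δ n) (σ (b.1, b.2 - t))) p'
    nlinarith
  have hd3 : dist (centre (δ n) (σ v)) p' ≤ (R + TT K + 1) * ρ := by
    have h7 := dist_triangle (centre (δ n) (σ v)) (centre (δ n) (σ b)) p'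
    rw [ho.dist_eq] at h7
    have h8 := dist_of_mem_ball hδ.le hv
    push_cast at h8
    nlinarith
  have hj := hn2 p' hp' (σ v) (σ b) hvN hbN hd3 (by nlinarith)
  -- transport the path
  have key : ∀ w w' : P2, ReflTransGen (fun a b => a ∈ {w | w ∉ Λ n ∧ dist (centre (δ n) w) p' ≤
      C0 * ((R + TT K + 1) * ρ)} ∧ b ∈ {w | w ∉ Λ n ∧ dist (centre (δ n) w) p' ≤
      C0 * ((R + TT K + 1) * ρ)} ∧ Adj a b) w w' → ReflTransGen (StepIn {w | w ∈ {v | σ v ∉ Λ n} ∧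
        w ∈ Crest.Agent.R144.Rsw867.ball b (S * m)}) (σ.symm w) (σ.symm w') := by
    have hin : ∀ w : P2, w ∈ {w | w ∉ Λ n ∧ dist (centre (δ n) w) p' ≤ C0 * ((R + TT K + 1) * ρ)} →
        σ.symm w ∈ {w | w ∈ {v | σ v ∉ Λ n} ∧ w ∈ Crest.Agent.R144.Rsw867.ball b (S * m)} := by
      rintro w ⟨h1, h2⟩
      refine ⟨?_, ?_⟩
      · show σ (σ.symm w) ∉ Λ n
        rw [σ.apply_symm_apply]; exact h1
      · refine mem_ball_of_dist hδ ?_
        rw [← ho.dist_eq, σ.apply_symm_apply]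
        have h3 := dist_triangle_right (centre (δ n) w) (centre (δ n) (σ b)) p'
        have h4 : dist (centre (δ n) w) (centre (δ n) (σ b)) ≤
            (C0 * (R + TT K + 1) + TT K + 1) * ρ := by nlinarith
        have h5 : (0 : ℝ) ≤ C0 * (R + TT K + 1) + TT K + 1 := by positivity
        push_cast
        have h6 : (C0 * (R + TT K + 1) + TT K + 1) * ρ ≤
            (C0 * (R + TT K + 1) + TT K + 1) * (2 * m * δ n) := mul_le_mul_of_nonneg_left hm3 h5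
        have h7 : S0 * (m * δ n) ≤ S * (m * δ n) := mul_le_mul_of_nonneg_right hSr (by positivity)
        have h8 : 0 ≤ (C0 * (R + TT K + 1) + TT K + 1) * (m * δ n) := by positivity
        rw [hS0] at h7
        nlinarith
    intro w w' hw
    induction hw with
    | refl => exact ReflTransGen.refl
    | tail _ h1 ih =>
      refine ih.tail ⟨hin _ h1.1, hin _ h1.2.1, ?_⟩
      rw [← ho.adj, σ.apply_symm_apply, σ.apply_symm_apply]
      exact h1.2.2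
  have := key _ _ hj
  rw [σ.symm_apply_apply, σ.symm_apply_apply] at this
  exact this

end Crest.Agent.R144.Fr353
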