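import Crest.Agent.R144.Gm_400
import Crest.Agent.R144.Bnd5_991

/-!
# R144, block BND, GM literal (helper400): `gm : Frame → GM`
-/

set_option autoImplicit false

noncomputable section

namespace Crest.Agent.R144.Gm400

open Crest.Agent.R144.It844 (P2 adj_iff)
open Crest.Agent.R144.Zg349
open Crest.Agent.R144.Rsw867 (ball mem_ball sc_ball path_mono)
open Crest.Agent.R144.Bnd991

theorem gm_scB (K n r1 r2 : ℕ) (o : P2) : SC (Bk K n r1 r2 o) :=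
  sc_col o _ _ fun t => (mem_Bk (t := t)).trans ⟨fun h => ⟨h.1.1, h.1.2, h.2⟩, fun h => ⟨⟨h.1, h.2.1⟩, h.2.2⟩⟩

theorem gm_scD (K n r1 r2 : ℕ) (o : P2) (b : Bool → P2) : SC (Dk n r1 r2 o \ Yk K n r1 r2 o b) :=
  sc_Ys K n o b _ _ fun t => by
    rw [Finset.mem_sdiff]
    constructor
    · rintro ⟨h1, h2⟩
      have h3 := mem_Dk.1 h1
      exact ⟨h3.1, h3.2, fun h4 => h2 (mem_Yk.2 ⟨h1, h4⟩)⟩
    · rintro ⟨h1, h2, h3⟩
      exact ⟨mem_Dk.2 ⟨h1, h2⟩, fun h4 => h3 (mem_Yk.1 h4).2⟩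

theorem gm_Mc {K A R n r1 r2 k : ℕ} {N : Set P2} {o : P2} {h : ℤ} {b y : Bool → P2} {a : ℕ → P2}
    (hF : Frame K A R n r1 r2 k N o h b y a) : IsConn (Mk K n r1 r2 o b : Set P2) := by
  have hrin := hF.rin
  have hr12 := hF.r12
  have hcol := hF.colb
  have h1 : IsConn {t | t ∈ ball o (r2 + 1) ∧ t ∉ ball o (r1 - 1) ∧ t ∉ Ys K n o b} := by
    have hmg : 1 ≤ mg K n := by unfold mg; omega
    refine conn_Ys (by omega) (by omega) fun e => ⟨?_, ?_⟩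
    · rw [lt_abs]
      cases e with
      | false => right; omega
      | true => left; omega
    · have h2 := (hF.ballb e _ (Hf702.self_mem_ball _ _)).1
      rw [mem_ball_iff] at h2 ⊢
      simp only [] at h2 ⊢
      push_cast
      omega
  have e : (Mk K n r1 r2 o b : Set P2) =
      {t | t ∈ ball o (r2 + 1) ∧ t ∉ ball o (r1 - 1) ∧ t ∉ Ys K n o b} := by
    ext t
    rw [Finset.mem_coe, mem_Mk]
    exact ⟨fun h => ⟨h.1.1, h.1.2, h.2⟩, fun h => ⟨⟨h.1, h.2.1⟩, h.2.2⟩⟩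
  rw [e]
  exact h1

/-- **GM**, literal -/
theorem gm {K A R n r1 r2 k : ℕ} {N : Set P2} {o : P2} {h : ℤ} {b y : Bool → P2} {a : ℕ → P2}
    (hF : Frame K A R n r1 r2 k N o h b y a) : GM K n r1 r2 o b :=
  ⟨gm_scB K n r1 r2 o, gm_scD K n r1 r2 o b, gm_Mc hF⟩

end Crest.Agent.R144.Gm400
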