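import Crest.Agent.R144.Bnd7_991
import Crest.Agent.R144.Fr4_353
import Crest.Agent.R144.Gm2_400

/-!
# R144, block BND, F4 (helper400): scale selection

* `FP` : 353's statement at one boundary point (frames at all small scales);
* `sel` : `J` separated frames around `o n` between `s` and `d` (991's `Scs`), with `s ≥ 2 η` and
  `d ≤ d0` in Euclid distance to `p`;
* `scales` : the same from `Setup` and `LC`, uniformly in the boundary point.
-/

set_option autoImplicit false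
set_option linter.unusedSectionVars false
set_option linter.unusedVariables false

noncomputable section

namespace Crest.Agent.R144.Sel400

open Finset Filter Topology
open Crest.Agent.R144.It844 (P2)
open Crest.Agent.R144.Rsw867 (ball mem_ball ball_mono)
open Crest.Agent.R144.Bnd991 (Frame Scs GM wd mg)
open Crest.ProbabilityR.HexHeights (Adj centre)

/-- **Frames at all small scales around the boundary point `p`** (353's theorem at `p`). -/
structure FP (K A R M1 M2 cst : ℕ) (ρ1 : ℝ) (δ : ℕ → ℝ) (Λ : ℕ → Finset P2) (p : ℂ) (σ : P2 ≃ P2)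
    (o : ℕ → P2) : Prop where
  dst : ∀ (r : ℝ) (v w : P2), dist (centre r (σ v)) (centre r (σ w)) = dist (centre r v) (centre r w)
  near : ∀ n, dist (centre (δ n) (σ (o n))) p ≤ δ n
  fr : ∀ ρ, 0 < ρ → ρ ≤ ρ1 → ∀ᶠ n in atTop, ∃ k ≤ cst, ∃ h b y a,
    Frame K A R ⌊ρ / δ n⌋₊ (M1 * ⌊ρ / δ n⌋₊) (M2 * ⌊ρ / δ n⌋₊) k {v | σ v ∉ Λ n} (o n) h b y a

section
variable {K A R M1 M2 cst : ℕ} {ρ1 : ℝ} {δ : ℕ → ℝ} {Λ : ℕ → Finset P2} {p : ℂ} {σ : P2 ≃ P2}
    {o : ℕ → P2} (h : FP K A R M1 M2 cst ρ1 δ Λ p σ o)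
include h

theorem FP.dist_eq (n : ℕ) (v : P2) :
    dist (centre (δ n) (σ v)) (centre (δ n) (σ (o n))) = ‖centre (δ n) (v - o n)‖ := by
  rw [h.dst, Fr353.dist_centre_eq]

/-- sites of a lattice ball are close to `p` -/
theorem FP.dist_le {n : ℕ} (hδ : 0 < δ n) {v : P2} {d : ℕ} (hv : v ∈ ball (o n) d) :
    dist (centre (δ n) (σ v)) p ≤ δ n * d + δ n := by
  have h1 := dist_triangle (centre (δ n) (σ v)) (centre (δ n) (σ (o n))) p
  rw [h.dist_eq] at h1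
  rw [mem_ball] at hv
  have h2 : ‖centre (δ n) (v - o n)‖ ≤ δ n * d := Fr353.norm_centre_le hδ.le hv.1 hv.2.1 hv.2.2
  have h3 := h.near n
  linarith

/-- sites close to `p` are in a lattice ball -/
theorem FP.mem_ball_of {n : ℕ} (hδ : 0 < δ n) {v : P2} {s : ℕ} {η : ℝ}
    (hv : dist (centre (δ n) (σ v)) p ≤ 2 * η) (hs : 4 * η + 2 * δ n ≤ δ n * s) :
    v ∈ ball (o n) s := by
  have h1 := dist_triangle_right (centre (δ n) (σ v)) (centre (δ n) (σ (o n))) p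
  rw [h.dist_eq] at h1
  have h3 := h.near n
  have h4 : ‖centre (δ n) (v - o n)‖ ≤ δ n * s / 2 := by linarith
  have h5 := Fr353.norm_centre_sq (δ n) (v - o n)
  have h6 : ‖centre (δ n) (v - o n)‖ ^ 2 ≤ (δ n * s / 2) ^ 2 := pow_le_pow_left₀ (norm_nonneg _) h4 2
  rw [h5] at h6
  set x : ℤ := (v - o n).1 with hx
  set y : ℤ := (v - o n).2 with hy
  have h7 : (x : ℝ) ^ 2 + x * y + (y : ℝ) ^ 2 ≤ (s : ℝ) ^ 2 / 4 := by
    have e : (δ n * s / 2) ^ 2 = δ n ^ 2 * ((s : ℝ) ^ 2 / 4) := by ring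
    rw [e] at h6
    exact le_of_mul_le_mul_left h6 (by positivity)
  have h8 : 4 * (x ^ 2 + x * y + y ^ 2) ≤ (s : ℤ) ^ 2 := by
    have : 4 * ((x : ℝ) ^ 2 + x * y + (y : ℝ) ^ 2) ≤ (s : ℝ) ^ 2 := by linarith
    exact_mod_cast this
  have hs0 : (0 : ℤ) ≤ s := Int.natCast_nonneg _
  rw [mem_ball]
  have ex : v.1 - (o n).1 = x := rfl
  have ey : v.2 - (o n).2 = y := rfl
  rw [ex, ey]
  refine ⟨abs_le_of_sq_le_sq ?_ hs0, abs_le_of_sq_le_sq ?_ hs0, abs_le_of_sq_le_sq ?_ hs0⟩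
  · nlinarith [sq_nonneg (x + 2 * y), sq_nonneg x]
  · nlinarith [sq_nonneg (2 * x + y), sq_nonneg y]
  · nlinarith [sq_nonneg (x - y), sq_nonneg (x + y)]

end

/-- separation of two consecutive (or more) scales -/
theorem sep_num {K M1 M2 m m' : ℕ} (h1 : wd K m + mg K m ≤ M1 * m)
    (h2 : (M2 + K + 1) * m' + 9 ≤ (K + 1) * m) :
    M2 * m' + mg K m' < M1 * m - mg K m := by
  unfold wd mg at *
  have e : (M2 + K + 1) * m' = M2 * m' + (K + 1) * m' := by ring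
  rw [e] at h2
  omega

/-- **Scale selection.** -/
theorem sel {K A R M1 M2 cst : ℕ} {ρ1 : ℝ} (hρ1 : 0 < ρ1) {δ : ℕ → ℝ} (hδ : ∀ n, 0 < δ n)
    (hδ0 : Tendsto δ atTop (𝓝 0)) {Λ : ℕ → Finset P2} (J : ℕ) {d0 : ℝ} (hd0 : 0 < d0) :
    ∃ η > 0, ∀ (p : ℂ) (σ : P2 ≃ P2) (o : ℕ → P2), FP K A R M1 M2 cst ρ1 δ Λ p σ o →
      ∀ᶠ n in atTop, ∃ (s d : ℕ) (m k : ℕ → ℕ) (h : ℕ → ℤ) (b y : ℕ → Bool → P2)
        (a : ℕ → ℕ → P2), 1 ≤ s ∧ s ≤ d ∧ (d : ℝ) * δ n ≤ d0 ∧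
        Scs K A R (M2 + 4) cst {v | σ v ∉ Λ n} (o n) s d (Finset.range J) m (fun j => M1 * m j)
          (fun j => M2 * m j) k h b y a ∧
        (∀ v, dist (centre (δ n) (σ v)) p ≤ 2 * η → v ∈ ball (o n) s) ∧
        (∀ v ∈ ball (o n) d, dist (centre (δ n) (σ v)) p ≤ d0) := by
  -- constants
  set B : ℝ := 2 * (M2 + K + 2) with hB
  have hB0 : 4 ≤ B := by
    have h1 : (0 : ℝ) ≤ M2 := Nat.cast_nonneg _
    have h2 : (0 : ℝ) ≤ K := Nat.cast_nonneg _
    rw [hB]; linarith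
  set q : ℝ := B⁻¹ with hq
  have hq0 : 0 < q := by rw [hq]; positivity
  have hq1 : q ≤ 1 := by
    rw [hq]
    exact inv_le_one_of_one_le₀ (by linarith)
  have hqB : B * q = 1 := mul_inv_cancel₀ (by positivity)
  set ρs : ℝ := min ρ1 (d0 / B) with hρs
  have hρs0 : 0 < ρs := lt_min hρ1 (by positivity)
  have hρs1 : ρs ≤ ρ1 := min_le_left _ _
  have hρs2 : B * ρs ≤ d0 := by
    have := min_le_right ρ1 (d0 / B)
    rw [← hρs, le_div_iff₀ (by positivity)] at this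
    linarith
  set ρ : ℕ → ℝ := fun j => ρs * q ^ j with hρ
  have hρ0 : ∀ j, 0 < ρ j := fun j => by rw [hρ]; positivity
  have hρle : ∀ j, ρ j ≤ ρ1 := fun j =>
    (mul_le_of_le_one_right hρs0.le (pow_le_one₀ hq0.le hq1)).trans hρs1
  have hρanti : ∀ i j, i ≤ j → ρ j ≤ ρ i := fun i j hij =>
    mul_le_mul_of_nonneg_left (pow_le_pow_of_le_one hq0.le hq1 hij) hρs0.le
  have hρstep : ∀ i j, i < j → B * ρ j ≤ ρ i := by
    intro i j hij
    have h1 : ρ (i + 1) = ρ i * q := by simp only [hρ]; ring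
    have h2 := hρanti (i + 1) j hij
    calc B * ρ j ≤ B * ρ (i + 1) := mul_le_mul_of_nonneg_left h2 (by linarith)
      _ = (B * q) * ρ i := by rw [h1]; ring
      _ = ρ i := by rw [hqB, one_mul]
  refine ⟨ρ J / 8, by have := hρ0 J; positivity, fun p σ o H => ?_⟩
  -- eventual facts
  have hsmall : ∀ t : ℝ, 0 < t → ∀ᶠ n in atTop, δ n < t := fun t ht =>
    (tendsto_order.1 hδ0).2 t ht
  have hfr : ∀ᶠ n in atTop, ∀ j ∈ Finset.range (J + 1), ∃ k ≤ cst, ∃ h b y a,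
      Frame K A R ⌊ρ j / δ n⌋₊ (M1 * ⌊ρ j / δ n⌋₊) (M2 * ⌊ρ j / δ n⌋₊) k {v | σ v ∉ Λ n} (o n)
        h b y a := by
    rw [Finset.eventually_all]
    exact fun j _ => H.fr (ρ j) (hρ0 j) (hρle j)
  filter_upwards [hfr, hsmall (ρ J / (4 * (K + 10))) (by have := hρ0 J; positivity),
    hsmall (d0 / 26) (by positivity)] with n hn hn1 hn2
  have hδn := hδ n
  -- the numbers `m j`
  set m : ℕ → ℕ := fun j => ⌊ρ j / δ n⌋₊ with hm
  have hm_le : ∀ j, (m j : ℝ) * δ n ≤ ρ j := by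
    intro j
    have := Nat.floor_le (show 0 ≤ ρ j / δ n by have := hρ0 j; positivity)
    rw [le_div_iff₀ hδn] at this
    exact this
  have hm_ge : ∀ j, ρ j < (m j + 1) * δ n := by
    intro j
    have := Nat.lt_floor_add_one (ρ j / δ n)
    rw [div_lt_iff₀ hδn] at this
    exact this
  have hm_anti : ∀ i j, i ≤ j → m j ≤ m i := by
    intro i j hij
    exact Nat.floor_le_floor (div_le_div_of_nonneg_right (hρanti i j hij) hδn.le)
  have hK0 : (0 : ℝ) ≤ K := Nat.cast_nonneg _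
  have hM0 : (0 : ℝ) ≤ M2 := Nat.cast_nonneg _
  have hn1' : δ n * (4 * (K + 10)) < ρ J := by
    rwa [lt_div_iff₀ (by positivity)] at hn1
  choose! k hk h b y a hF using hn
  have hF' : ∀ j ∈ Finset.range (J + 1), Frame K A R (m j) (M1 * m j) (M2 * m j) (k j)
      {v | σ v ∉ Λ n} (o n) (h j) (b j) (y j) (a j) := fun j hj => hF j hj
  -- the key separation
  have hkey : ∀ i j, i < j → j ≤ J → M2 * m j + mg K (m j) < M1 * m i - mg K (m i) := by
    intro i j hij hj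
    refine sep_num (hF' i (Finset.mem_range.2 (by omega))).rin ?_
    have h1 := hm_le j
    have h2 := hm_ge i
    have h3 := hρstep i j hij
    have h4 := hρanti i J (by omega)
    have h5 : ((M2 + K + 1) * m j + 9 : ℝ) ≤ (K + 1) * m i := by
      refine le_of_mul_le_mul_right ?_ hδn
      have e1 : ((M2 + K + 1) * m j + 9 : ℝ) * δ n = (M2 + K + 1) * (m j * δ n) + 9 * δ n := by ring
      have e2 : ((K + 1) * m i : ℝ) * δ n = (K + 1) * ((m i + 1) * δ n) - (K + 1) * δ n := by ring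
      rw [e1, e2]
      have h6 : (M2 + K + 1 : ℝ) * (m j * δ n) ≤ ρ i / 2 := by
        have h7 : (M2 + K + 1 : ℝ) * (m j * δ n) ≤ (M2 + K + 1) * ρ j :=
          mul_le_mul_of_nonneg_left h1 (by linarith)
        have h8 : (M2 + K + 1 : ℝ) * ρ j ≤ B * ρ j / 2 := by
          have := hρ0 j
          rw [hB]; nlinarith
        linarith
      have h9 : (K + 1 : ℝ) * ρ i ≤ (K + 1) * ((m i + 1) * δ n) :=
        mul_le_mul_of_nonneg_left h2.le (by linarith)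
      have h10 : (K : ℝ) * ρ i ≥ 0 := mul_nonneg hK0 (hρ0 i).le
      have h11 : (K + 10 : ℝ) * δ n ≤ ρ i / 2 := by nlinarith
      nlinarith
    exact_mod_cast h5
  have hm1 : ∀ j, j ≤ J → 1 ≤ m j := fun j hj => (hF' j (Finset.mem_range.2 (by omega))).n1
  have hM1 : 1 ≤ M1 := by
    have h1 := (hF' 0 (Finset.mem_range.2 (by omega))).rin
    rcases Nat.eq_zero_or_pos M1 with h2 | h2
    · rw [h2] at h1; unfold wd mg at h1; omega
    · exact h2
  have hM12 : M1 * m 0 < M2 * m 0 := (hF' 0 (Finset.mem_range.2 (by omega))).r12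
  have hd : ((M2 * m 0 + mg K (m 0) : ℕ) : ℝ) * δ n + δ n ≤ d0 := by
    have h1 := hm_le 0
    have h2 : ρ 0 = ρs := by simp only [hρ, pow_zero, mul_one]
    rw [h2] at h1
    have e : ((M2 * m 0 + mg K (m 0) : ℕ) : ℝ) = (M2 + K + 1) * m 0 + 12 := by
      unfold mg
      push_cast
      ring
    rw [e]
    have h3 : (M2 + K + 1 : ℝ) * (m 0 * δ n) ≤ (M2 + K + 1) * ρs :=
      mul_le_mul_of_nonneg_left h1 (by linarith)
    have h4 : (M2 + K + 1 : ℝ) * ρs ≤ B * ρs / 2 := by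
      rw [hB]; nlinarith
    nlinarith
  refine ⟨M1 * m J, M2 * m 0 + mg K (m 0), m, k, h, b, y, a, ?_, ?_, ?_, ?_, ?_, ?_⟩
  · exact Nat.mul_pos hM1 (hm1 J le_rfl)
  · have h1 : M1 * m J ≤ M1 * m 0 := Nat.mul_le_mul_left _ (hm_anti 0 J (by omega))
    omega
  · linarith
  · refine ⟨?_, ?_, ?_, ?_, ?_, ?_, ?_⟩
    · intro j hj
      rw [Finset.mem_range] at hj
      exact hF' j (Finset.mem_range.2 (by omega))
    · intro j hj
      rw [Finset.mem_range] at hj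
      exact Gm400.gm (hF' j (Finset.mem_range.2 (by omega)))
    · intro j hj
      rw [Finset.mem_range] at hj
      have h1 := hm1 j hj.le
      have e : (M2 + 4) * m j = M2 * m j + 4 * m j := by ring
      show M2 * m j + 3 + m j ≤ (M2 + 4) * m j
      omega
    · intro j hj
      rw [Finset.mem_range] at hj
      exact hk j (Finset.mem_range.2 (by omega))
    · intro i hi j hj hij
      rw [Finset.mem_range] at hi hj
      rcases Nat.lt_or_gt_of_ne hij with h1 | h1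
      · exact Or.inr (hkey i j h1 hj.le)
      · exact Or.inl (hkey j i h1 hi.le)
    · intro j hj
      rw [Finset.mem_range] at hj
      exact Nat.mul_le_mul_left _ (hm_anti j J hj.le)
    · intro j hj
      have h1 : M2 * m j ≤ M2 * m 0 := Nat.mul_le_mul_left _ (hm_anti 0 j (by omega))
      have h2 : (K + 1) * m j ≤ (K + 1) * m 0 := Nat.mul_le_mul_left _ (hm_anti 0 j (by omega))
      show M2 * m j + mg K (m j) ≤ M2 * m 0 + mg K (m 0)
      unfold mg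
      omega
  · intro v hv
    refine H.mem_ball_of hδn hv ?_
    have h1 := hm_ge J
    have h2 : (m J : ℝ) ≤ (M1 * m J : ℕ) := by
      exact_mod_cast Nat.le_mul_of_pos_left _ hM1
    have h3 : δ n * (m J : ℝ) ≤ δ n * (M1 * m J : ℕ) := mul_le_mul_of_nonneg_left h2 hδn.le
    have h4 := hρ0 J
    nlinarith
  · intro v hv
    refine (H.dist_le hδn hv).trans ?_
    rw [mul_comm (δ n)]
    exact hd

section
variable {D : Set ℂ} {γ : ℝ → ℂ} {P : Finset ℂ} {δ : ℕ → ℝ} {Λ : ℕ → Finset (ℤ × ℤ)}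
  {τ : ℕ → ℤ × ℤ → ℤ}

/-- **F4: separated scales around every boundary point.** `L`, `km` and `η` do not depend on the
point; `σ`, `o` do not depend on `J`, `d0`. -/
theorem scales (h : Set268.Setup D γ P δ Λ τ) (hLC : Lc830.LC D δ Λ) (K A R : ℕ)
    (hA : 2 * K + 8 ≤ A) :
    ∃ L km : ℕ, ∃ η : ℕ → ℝ → ℝ, (∀ J d0, 0 < d0 → 0 < η J d0) ∧
      ∀ p ∈ frontier D, ∃ (σ τ' : P2 ≃ P2) (o : ℕ → P2), Rw146.Aut σ τ' ∧
        (∀ v w, σ (v + w) = σ v + σ w) ∧ (∀ v w, Adj (σ v) (σ w) ↔ Adj v w) ∧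
        (∀ ε v w, dist (centre ε (σ v)) (centre ε (σ w)) = dist (centre ε v) (centre ε w)) ∧
        (∀ n, dist (centre (δ n) (σ (o n))) p ≤ δ n) ∧
        (∀ (n N : ℕ), ∀ v ∈ ball (o n) N,
          dist (centre (δ n) (σ v)) (centre (δ n) (σ (o n))) ≤ N * δ n) ∧
        ∀ (J : ℕ) (d0 : ℝ), 0 < d0 → ∀ᶠ n in atTop, ∃ (s d : ℕ) (m r1 r2 k : ℕ → ℕ) (h : ℕ → ℤ)
          (b y : ℕ → Bool → P2) (a : ℕ → ℕ → P2), 1 ≤ s ∧ s ≤ d ∧ (d : ℝ) * δ n ≤ d0 ∧
          Scs K A R L km {v | σ v ∉ Λ n} (o n) s d (Finset.range J) m r1 r2 k h b y a ∧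
          (∀ v, dist (centre (δ n) (σ v)) p ≤ η J d0 → v ∈ ball (o n) s) ∧
          (∀ v ∈ ball (o n) d, dist (centre (δ n) (σ v)) p ≤ d0) := by
  obtain ⟨C1, C2, k0, ρ1, hρ1, hfr⟩ := Fr353.exists_frame h hLC K A R hA
  have hδ := h.sites.pos
  have hδ0 := h.sites.lim
  have hsel := fun (J : ℕ) (d0 : ℝ) (hd0 : 0 < d0) =>
    sel (K := K) (A := A) (R := R) (M1 := C1) (M2 := C2) (cst := k0) hρ1 hδ hδ0 (Λ := Λ) J hd0
  choose! η hη0 hη using hsel
  refine ⟨C2 + 4, k0, fun J d0 => 2 * η J d0, fun J d0 hd0 => by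
    have := hη0 J d0 hd0
    positivity, fun p hp => ?_⟩
  obtain ⟨σ, o, ⟨τ', hτ'⟩, hadd, hadj, hdst, hnear, k, hk, hF⟩ := hfr p hp
  have H : FP K A R C1 C2 k0 ρ1 δ Λ p σ o :=
    ⟨hdst, hnear, fun ρ hρ hρ' => (hF ρ hρ hρ').mono fun n hn => ⟨k, hk, hn⟩⟩
  refine ⟨σ, τ', o, hτ', hadd, hadj, hdst, hnear, fun n N v hv => ?_, fun J d0 hd0 => ?_⟩
  · rw [H.dist_eq, mul_comm]
    exact Fr353.dist_of_mem_ball (hδ n).le hv
  · filter_upwards [hη J d0 hd0 p σ o H] with n hn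
    obtain ⟨s, d, m, k, h, b, y, a, h1, h2, h3, h4, h5, h6⟩ := hn
    exact ⟨s, d, m, _, _, k, h, b, y, a, h1, h2, h3, h4, h5, h6⟩

end

end Crest.Agent.R144.Sel400
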