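import Crest.Agent.R144.Wc3_856
import Crest.Agent.R144.Fin4_830

/-!
# R144, block BND: `C2 x` from the crossing bound (helper856)

`CrossTop x` : for every plane layer, setup, environment and local connectivity, the crossing bound `CrossAt`
holds at every unmarked boundary point.  `C2_of : CrossTop x → Fin830.C2 x`.
-/

set_option autoImplicit false

noncomputable section

open Set Topology Filter Metric MeasureTheory

namespace Crest.Agent.R144.Wc2856

open Crest.Agent.R144.It844 (P2)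
open Crest.Agent.R144.Pst967 (Hz)
open Crest.Agent.R144.Set268 (Setup)
open Crest.Agent.R144.Env702 (Env)
open Crest.Agent.R144.Lc830 (LC)
open Crest.Agent.R144.Fin830 (Plane C2)

/-- the crossing bound at all unmarked boundary points -/
def CrossTop (x : ℝ) : Prop :=
  ∀ (P : Measure Hz) (κ : ℝ), Plane x P κ →
  ∀ (D : Set ℂ) (γ : ℝ → ℂ) (Q : Finset ℂ) (δ : ℕ → ℝ) (Λ : ℕ → Finset (ℤ × ℤ))
    (τ : ℕ → ℤ × ℤ → ℤ), Setup D γ Q δ Λ τ → Env D δ Λ → LC D δ Λ →
    ∀ p ∈ frontier D, p ∉ Q → CrossAt x δ Λ τ p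

/-- **boundary decay from the crossing bound** -/
theorem C2_of {x : ℝ} (h : CrossTop x) : C2 x := by
  intro P κ hP D γ Q δ Λ τ hS hE hL M K hK hKD p hp hpQ ε hε
  exact c2_of hP.x0 hS hp (h P κ hP D γ Q δ Λ τ hS hE hL p hp hpQ) (mom4_of hP.hyp hS hE) hK hKD
    (Hf702.bd_of hP.hyp hS hE hK hKD) M hε

end Crest.Agent.R144.Wc2856
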