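import Crest.Agent.R144.Fh2_353
import Crest.Agent.R144.Wc4_856
import Crest.Agent.R144.LmB6_702
import Crest.Agent.R144.Fg1_617
import Crest.Agent.R144.Sel_400

/-! R144 (helper353), BND: **`CrossTop`** and **`C2`** are theorems (all inputs instantiated). -/

set_option autoImplicit false

open Set Topology Filter

namespace Crest.Agent.R144.Fh353

open Crest.ProbabilityR.HexHeights (Adj centre)
open Crest.Agent.R144.It844 (P2)
open Crest.Agent.R144.Zg349 (SC)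
open Crest.Agent.R144.Rsw867 (RSW)
open Crest.Agent.R144.Set268
open Crest.Agent.R144.Bnd991

theorem lemB_mono {c : ℝ} (hc : 1 ≤ c) {K A R : ℕ} {c1 c2 : ℝ} (h12 : c2 ≤ c1)
    (h : LemB c K A R c1) : LemB c K A R c2 := by
  intro N Q b y n h1 h2 h3 h4 h5 h6 h7
  refine le_trans (mul_le_mul_of_nonneg_right h12 ?_) (h N Q b y n h1 h2 h3 h4 h5 h6 h7)
  exact Zm349.E_nonneg hc fun ω _ => Cn_nonneg _ _

variable {D : Set ℂ} {γ : ℝ → ℂ} {P : Finset ℂ} {δ : ℕ → ℝ} {Λ : ℕ → Finset (ℤ × ℤ)}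
  {τ : ℕ → ℤ × ℤ → ℤ}

theorem f3g_of (h : Setup D γ P δ Λ τ) (hLC : Lc830.LC D δ Λ) : F3g D δ Λ := by
  intro p hp r hr
  obtain ⟨ρ, hρ, _, hev⟩ := Fg617.far_arc h hLC hp hr
  exact ⟨ρ, hρ, hev⟩

theorem sel_of (h : Setup D γ P δ Λ τ) (hLC : Lc830.LC D δ Λ) (K A R : ℕ) (hA : 2 * K + 8 ≤ A) :
    Sel D δ Λ K A R := by
  obtain ⟨L, km, η, hη, H⟩ := Sel400.scales h hLC K A R hA
  refine ⟨L, km, fun p hp => ?_⟩
  obtain ⟨σ, τ', o, h1, _, h3, h4, h5, _, h7⟩ := H p hp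
  refine ⟨σ, τ', o, h1, h3, h4, h5, fun J d0 hd0 => ⟨η J d0, hη J d0 hd0, ?_⟩⟩
  filter_upwards [h7 J d0 hd0] with n hn
  obtain ⟨s, d, m, r1, r2, k, hh, b, y, a, _, _, g3, g4, g5, _⟩ := hn
  exact ⟨s, d, m, r1, r2, k, hh, b, y, a, g4, g3, g5⟩

/-- **`CrossTop`** -/
theorem crossTop (x : ℝ) : Wc2856.CrossTop x := by
  intro Pm κ hP D γ Q δ Λ τ hS _ hLC p hp hpQ
  obtain ⟨K, p0, P', hR, hPS, hFL⟩ := hP.hyp.ex
  have hc := Pst967.one_le_c hP.x0 hP.x1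
  obtain ⟨R, c1, hc1, hB⟩ := LmB702.lemB hP.x0 hP.x1 hR hPS hFL (2 * K + 8)
  have hB1 := lemB_mono hc (min_le_left c1 1) (hB R le_rfl)
  have hm0 : 0 < min c1 1 := lt_min hc1 one_pos
  have hm1 : min c1 1 ≤ 1 := min_le_right _ _
  have hLA := Bd7856.lemA_of hc hR hm0.le hB1
  have hp0 := hR.p0
  have hp1 := hR.p1
  refine cross_top hS (f3g_of hS hLC) hP.x0 hP.x1 hR hLA (fun i => by positivity) (fun i => ?_)
    (sel_of hS hLC K _ R le_rfl) hp hpQ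
  have h1 : (p0 / 2) ^ (i + 1) ≤ 1 := pow_le_one₀ (by positivity) (by linarith)
  have h2 : (min c1 1) ^ 2 ≤ 1 := pow_le_one₀ hm0.le hm1
  exact mul_le_one₀ h1 (by positivity) h2

/-- **boundary decay `C2` is a theorem** -/
theorem c2 (x : ℝ) : Fin830.C2 x := Wc2856.C2_of (crossTop x)

end Crest.Agent.R144.Fh353
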