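import Crest.Agent.R144.Mix7_880
import Crest.Agent.R144.Ga5d_885
import Crest.Agent.R144.Dom4_136
import Crest.Agent.R144.Gi1_643

/-!
# R144 (helper349): helper136's `GaussZ` from helper885's Gaussianity theorem

* `lift_grad` : a local gradient observable of the integer heights over `T ⊆ V` extends to a function of real
  heights which is measurable for the gradient sigma-algebra `gσ V`;
* `gaussZ_of` : helper885's `Mdl` and `CCW` for the plane law, along every mesh sequence, give helper136's
  `GaussZ`.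
-/

set_option autoImplicit false

noncomputable section

namespace Crest.Agent.R144.Gb349

open MeasureTheory Filter Topology Finset
open Crest.ProbabilityR.HexHeights (Adj)
open Crest.Agent.R144.It844 (ex Lip conf mem_conf nbhd)
open Crest.Agent.R144.Pst967
open Crest.Agent.R144.Ps643 (Ht)
open Crest.Agent.R144.Mix880
open Crest.Agent.R144.Ga4126 (ei)
open Crest.Agent.R144.Ga5885 (Mdl CCW Tst en gauss)
open Crest.Agent.R144.Dom136 (Du gau GaussZ)
open Crest.Agent.R144.Fin268 (LS)
open Crest.Agent.R144.Fin830 (Plane)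
open Crest.Agent.R144.Gi643 (XX XX_eq mdl)
open Set (univ preimage_univ subset_univ)

abbrev P2 : Type := ℤ × ℤ

/-- extension of a local gradient observable to real heights -/
theorem lift_grad {V : Set P2} {T : Finset P2} (hT : ∀ v ∈ T, v ∈ V) {g : Hz → ℝ}
    (hg : LocZ (T : Set P2) g) (hN : NeutZ g) :
    ∃ Z : Ht → ℝ, Measurable[gσ V] Z ∧ (∀ h, Z (toR h) = g h) ∧ ∀ h, ∃ k, Z h = g k := by
  classical
  rcases T.eq_empty_or_nonempty with rfl | ⟨s0, hs0⟩
  · refine ⟨fun _ => g 0, measurable_const, fun h => ?_, fun h => ⟨0, rfl⟩⟩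
    exact hg _ _ fun v hv => by simp at hv
  · let r : Ht → Hz := fun h v => if v ∈ T then round (h v - h s0) else 0
    have hr : Measurable[gσ V] r := by
      refine (@measurable_pi_iff Ht P2 (fun _ => ℤ) (gσ V) (fun _ => inferInstance) r).2 fun v => ?_
      by_cases hv : v ∈ T
      · have h1 : Measurable[gσ V] (fun h : Ht => h v - h s0) := meas_grad (hT v hv) (hT s0 hs0)
        have h2 : (fun h : Ht => r h v) = fun h => ⌊(h v - h s0) + 1 / 2⌋ := by
          funext h
          show (if v ∈ T then round (h v - h s0) else 0) = _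
          rw [if_pos hv, round_eq]
        rw [h2]
        exact Int.measurable_floor.comp (h1.add_const _)
      · have h2 : (fun h : Ht => r h v) = fun _ => 0 := by
          funext h
          show (if v ∈ T then round (h v - h s0) else 0) = _
          rw [if_neg hv]
        rw [h2]
        exact measurable_const
    refine ⟨fun h => g (r h), (measurable_of_loc ⟨T, hg⟩).comp hr, fun h => ?_, fun h => ⟨r h, rfl⟩⟩
    have h1 : g (r (toR h)) = g (fun v => h v + -h s0) := by
      refine hg _ _ fun v hv => ?_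
      show (if v ∈ T then round (toR h v - toR h s0) else 0) = _
      rw [if_pos (Finset.mem_coe.1 hv)]
      show round ((h v : ℝ) - (h s0 : ℝ)) = _
      rw [← Int.cast_sub, round_intCast, sub_eq_add_neg]
    show g (r (toR h)) = g h
    rw [h1]
    exact hN h _


/-- gradient sigma-algebras of helper885's model -/
abbrev FF (δ : ℕ → ℝ) (n : ℕ) (U : Set ℂ) : MeasurableSpace Ht :=
  gσ {v | Crest.ProbabilityR.HexHeights.centre (δ n) v ∈ U}

/-- `X` is the linear functional with the weights of the lattice Laplacian -/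
def IsLap (δ : ℕ → ℝ) (X : ℕ → (ℂ → ℝ) → Ht → ℝ) : Prop :=
  ∀ u : ℂ → ℝ, Tst u → ∀ᶠ n in atTop, ∀ (h : Hz) (S : Finset P2),
    (∀ v, v ∉ S → Du u (δ n) v = 0) → X n u (toR h) = LS S (Du u (δ n)) h

/-- **`GaussZ` from the model** -/
theorem gaussZ_of {κ : ℝ} {P : Measure Hz}
    (H : ∀ δ : ℕ → ℝ, (∀ n, 0 < δ n) → Tendsto δ atTop (𝓝 0) →
      ∃ X : ℕ → (ℂ → ℝ) → Ht → ℝ, Mdl atTop (fun _ => P.map toR) X (FF δ) κ ∧
        CCW atTop (fun _ => P.map toR) X (FF δ) ∧ IsLap δ X) : GaussZ κ P := by
  intro δ hδ hδ0 u hu huc U hU hs t ε hε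
  obtain ⟨X, hM, hW, hX⟩ := H δ hδ hδ0
  have hT : Tst u := ⟨hu, huc⟩
  filter_upwards [gauss hM hW hT hU hs t hε, hX u hT] with n hn hXn S hS T g hg hl hN h1
  have hpr : IsProbabilityMeasure (P.map toR) := hM.prob n
  have hP : IsProbabilityMeasure P := by
    refine ⟨?_⟩
    have h2 := hpr.measure_univ
    rwa [Measure.map_apply measurable_toR MeasurableSet.univ, preimage_univ] at h2
  obtain ⟨Z, hZm, hZe, hZk⟩ := lift_grad (V := {v | Crest.ProbabilityR.HexHeights.centre (δ n) v ∈ Uᶜ})
    (fun v hv => hg v hv) hl hN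
  have hZm' : Measurable Z := hZm.mono (gσ_le _) le_rfl
  have hZ1 : ∀ h, |Z h| ≤ 1 := fun h => by obtain ⟨k, hk⟩ := hZk h; rw [hk]; exact h1 k
  have h2 := hn (fun h => (Z h : ℂ)) (Complex.measurable_ofReal.comp hZm) (fun h => by
    rw [Complex.norm_real]; exact hZ1 h)
  have hei : Measurable fun h : Ht => ei (t * X n u h) := by
    unfold Ga4126.ei
    exact ((Complex.measurable_ofReal.comp ((hM.meas n u hT).const_mul t)).const_mul Complex.I).cexp
  have m1 : Measurable fun h : Ht => (Z h : ℂ) * ei (t * X n u h) :=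
    (Complex.measurable_ofReal.comp hZm').mul hei
  set f : Hz → ℝ := fun h => LS S (Du u (δ n)) h with hf
  have hXf : ∀ h, X n u (toR h) = f h := fun h => hXn h S hS
  have e1 : ∫ h, (Z h : ℂ) * ei (t * X n u h) ∂(P.map toR) = ∫ h, (g h : ℂ) * ei (t * f h) ∂P := by
    rw [integral_map measurable_toR.aemeasurable m1.aestronglyMeasurable]
    simp only [hXf, hZe]
  have e2 : ∫ h, (Z h : ℂ) ∂(P.map toR) = ((∫ h, g h ∂P : ℝ) : ℂ) := by
    have mZ : Measurable fun h : Ht => (Z h : ℂ) := Complex.measurable_ofReal.comp hZm'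
    rw [integral_map measurable_toR.aemeasurable mZ.aestronglyMeasurable]
    simp only [hZe]
    exact integral_ofReal
  have hint : Integrable (fun h => (g h : ℂ) * ei (t * f h)) P := by
    have h4 : (fun h : Hz => (g h : ℂ) * ei (t * f h)) =
        (fun h : Ht => (Z h : ℂ) * ei (t * X n u h)) ∘ toR := by
      funext h
      show (g h : ℂ) * ei (t * f h) = (Z (toR h) : ℂ) * ei (t * X n u (toR h))
      rw [hXf, hZe]
    rw [h4]
    refine Integrable.of_bound (m1.comp measurable_toR).aestronglyMeasurable 1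
      (Eventually.of_forall fun h => ?_)
    show ‖(Z (toR h) : ℂ) * ei (t * X n u (toR h))‖ ≤ 1
    rw [norm_mul, Ga4126.norm_ei, mul_one, Complex.norm_real]
    exact hZ1 _
  have e3 : (Real.exp (-(t ^ 2 * (κ * en u) / 2)) : ℝ) = gau κ u t := by
    unfold gau
    have h3 : en u = ∫ z, ‖fderiv ℝ u z‖ ^ 2 :=
      Crest.Agent.R144.Con549.energy_eq (U := univ) ⟨hu, huc, subset_univ _⟩
    rw [h3]
    congr 1
    ring
  rw [e1, e2, e3, ← Complex.ofReal_mul] at h2
  have r1 : (∫ h, (g h : ℂ) * ei (t * f h) ∂P).re = ∫ h, g h * Real.cos (t * f h) ∂P := by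
    have h3 := Complex.reCLM.integral_comp_comm hint
    rw [← Complex.reCLM_apply, ← h3]
    refine integral_congr_ae (Eventually.of_forall fun h => ?_)
    show ((g h : ℂ) * ei (t * f h)).re = g h * Real.cos (t * f h)
    rw [Complex.re_ofReal_mul, Ga4126.ei, mul_comm Complex.I, Complex.exp_ofReal_mul_I_re]
  have r2 : (∫ h, (g h : ℂ) * ei (t * f h) ∂P).im = ∫ h, g h * Real.sin (t * f h) ∂P := by
    have h3 := Complex.imCLM.integral_comp_comm hint
    rw [← Complex.imCLM_apply, ← h3]
    refine integral_congr_ae (Eventually.of_forall fun h => ?_)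
    show ((g h : ℂ) * ei (t * f h)).im = g h * Real.sin (t * f h)
    rw [Complex.im_ofReal_mul, Ga4126.ei, mul_comm Complex.I, Complex.exp_ofReal_mul_I_im]
  constructor
  · have h3 := (Complex.abs_re_le_norm _).trans h2
    rwa [Complex.sub_re, r1, Complex.ofReal_re] at h3
  · have h3 := (Complex.abs_im_le_norm _).trans h2
    rw [Complex.sub_im, r2, Complex.ofReal_im, sub_zero] at h3
    exact h3

/-- closed-contour Ward identity of the plane layers, in helper885's form for helper643's functionals -/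
def CcwPlane (x : ℝ) : Prop :=
  ∀ (P : Measure Hz) (κ : ℝ), Plane x P κ → ∀ δ : ℕ → ℝ, (∀ n, 0 < δ n) → Tendsto δ atTop (𝓝 0) →
    CCW atTop (fun _ => P.map toR) (fun n φ h => XX (δ n) φ h)
      (fun n U => gσ {v | Crest.ProbabilityR.HexHeights.centre (δ n) v ∈ U})

/-- **conditional Gaussianity of the plane layers from the closed-contour Ward identity** -/
theorem planeGauss {x : ℝ} (hW : CcwPlane x) : Dom136.PlaneGauss x := by
  intro P κ hP
  obtain ⟨K, p, hR⟩ := hP.rsw.rsw (Pst967.one_le_c hP.x0 hP.x1)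
  refine gaussZ_of fun δ hδ hδ0 => ⟨fun n φ h => XX (δ n) φ h, ?_, hW P κ hP δ hδ hδ0, ?_⟩
  · exact mdl hP.x0 hP.x1 hR hP.pin hP.zlim hP.st hP.flim hP.kpos.le hP.lim2 hδ hδ0
  · intro u _
    exact Eventually.of_forall fun n h S hS => XX_eq hS (toR h)

end Crest.Agent.R144.Gb349
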