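import Crest.Agent.R144.Rsw0_867

/-!
# R144, QRSW (doc 1941): common definitions and the abstract law (helper216)

* `XX v = 2 v.1 + v.2` is twice the horizontal coordinate, `v.2` is the row;
* `Lw` : a finitely additive, positively associated probability on colourings `ω : Set P2`
  (`ω` = the blue sites);
* `act g E = {ω | g ⁻¹' ω ∈ E}`; `Inv L N ρ` : invariance up to `ρ` of the upper sets under
  translations by at most `N`, the rotation `ro` by 120 degrees, the reflection `sg`;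
* `hard t`, `rhard t` : blue / red path in the rows `0 .. t` from `XX ≤ -6 t` to `XX ≥ 6 t`;
* box `(s, h)` : rows `s.2 .. s.2 + h`, `Om s h` : `|XX v - XX s| ≤ 16 h`, windows `Bw`, `Tw` of
  half-width `W h`, `A s h BB` : blue connected set of the box meeting both windows and all the balls
  of the list `BB`; `K a a' j h`, `Kt a a' j h` : the bottom (top) windows at `a`, `a'` are connected
  in the strip.
-/

set_option autoImplicit false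

noncomputable section

namespace Crest.Agent.R144.Qlw216

open Crest.Agent.R144.It844 (P2 adj_iff)
open Crest.Agent.R144.Zg349 (StepIn IsConn)
open Crest.Agent.R144.Rsw867 (ball mem_ball path_mono)
open Crest.ProbabilityR.HexHeights (Adj)

/-- twice the horizontal coordinate -/
def XX (v : P2) : ℤ := 2 * v.1 + v.2

/-- there is a path of sites of `S` from `u` to `v` (`u ∈ S` is required) -/
def Pth (S : Set P2) (u v : P2) : Prop := u ∈ S ∧ Relation.ReflTransGen (StepIn S) u v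

/-- rows `j .. j + h` -/
def Rows (j : ℤ) (h : ℕ) : Set P2 := {v | j ≤ v.2 ∧ v.2 ≤ j + h}

/-! ### laws -/

/-- a positively associated finitely additive probability on the colourings -/
structure Lw where
  p : Set (Set P2) → ℝ
  nonneg : ∀ E, 0 ≤ p E
  empty : p ∅ = 0
  univ : p Set.univ = 1
  add : ∀ E F, p (E ∪ F) + p (E ∩ F) = p E + p F
  assoc : ∀ E F, IsUpperSet E → IsUpperSet F → p E * p F ≤ p (E ∩ F)

/-- the event `E` transported by the map `g` -/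
def act (g : P2 → P2) (E : Set (Set P2)) : Set (Set P2) := {ω | g ⁻¹' ω ∈ E}

/-- translation -/
def tr (t : P2) (v : P2) : P2 := v + t
/-- rotation by 120 degrees (`roE` of helper146) -/
def ro (v : P2) : P2 := (-v.1 - v.2, v.1)
/-- reflection in the vertical line `XX = 0` -/
def sg (v : P2) : P2 := (-v.1 - v.2, v.2)

/-- `E` is determined by the sites of `R` (as in `Qr0_315`) -/
def Loc (R : Set P2) (E : Set (Set P2)) : Prop := ∀ ω : Set P2, ω ∈ E ↔ ω ∩ R ∈ E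

/-- the ball of radius `N` around `0` -/
def Bb (N : ℕ) : Set P2 := {v | |v.1| ≤ N ∧ |v.2| ≤ N ∧ |v.1 + v.2| ≤ N}

/-- invariance up to `ρ` of the upper sets determined in the window `Bb N` -/
structure Inv (L : Lw) (N : ℕ) (ρ : ℝ) : Prop where
  tr : ∀ t : P2, |t.1| ≤ N → |t.2| ≤ N → ∀ E, IsUpperSet E → Loc (Bb N) E →
    |L.p (act (tr t) E) - L.p E| ≤ ρ
  ro : ∀ E, IsUpperSet E → Loc (Bb N) E → |L.p (act ro E) - L.p E| ≤ ρ
  sg : ∀ E, IsUpperSet E → Loc (Bb N) E → |L.p (act sg E) - L.p E| ≤ ρ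

/-- placements: `v ↦ ro^k (sg^e v) + t` with `|t| ≤ N` -/
def IsPl (N : ℕ) (g : P2 → P2) : Prop :=
  ∃ k : ℕ, k < 3 ∧ ∃ e : ℕ, e < 2 ∧ ∃ t : P2, |t.1| ≤ N ∧ |t.2| ≤ N ∧
    ∀ v, g v = ro^[k] (sg^[e] v) + t

/-! ### events -/

/-- blue long crossing -/
def hard (t : ℕ) : Set (Set P2) :=
  {ω | ∃ u v, XX u ≤ -(6 * t) ∧ 6 * t ≤ XX v ∧ Pth (ω ∩ Rows 0 t) u v}

/-- red long crossing -/
def rhard (t : ℕ) : Set (Set P2) :=
  {ω | ∃ u v, XX u ≤ -(6 * t) ∧ 6 * t ≤ XX v ∧ Pth (ωᶜ ∩ Rows 0 t) u v}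

/-- half-width of the windows, in units of `XX` -/
def W (h : ℕ) : ℤ := ((h / 9000 : ℕ) : ℤ)
/-- minimal distance of two windows, in units of `XX` -/
def D (h : ℕ) : ℤ := ((h / 900 : ℕ) : ℤ)

/-- the box -/
def Om (s : P2) (h : ℕ) : Set P2 := {v | v ∈ Rows s.2 h ∧ |XX v - XX s| ≤ 16 * h}
/-- the bottom window -/
def Bw (s : P2) (h : ℕ) : Set P2 := {v | v.2 = s.2 ∧ |XX v - XX s| ≤ W h}
/-- the top window -/
def Tw (s : P2) (h : ℕ) : Set P2 := {v | v.2 = s.2 + h ∧ |XX v - XX s| ≤ W h}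
/-- the ball of a pair (centre, radius) -/
def bl (B : P2 × ℕ) : Set P2 := ↑(ball B.1 B.2)

/-- a blue connected set of the box meets both windows and all the balls of the list -/
def A (s : P2) (h : ℕ) (BB : List (P2 × ℕ)) : Set (Set P2) :=
  {ω | ∃ C : Set P2, C ⊆ ω ∩ Om s h ∧ IsConn C ∧ (C ∩ Bw s h).Nonempty ∧ (C ∩ Tw s h).Nonempty ∧
    ∀ B ∈ BB, (C ∩ bl B).Nonempty}

/-- the part `a - 20 h ≤ XX ≤ a' + 20 h` of the rows `j .. j + h` -/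
def KR (a a' j : ℤ) (h : ℕ) : Set P2 := {v | v ∈ Rows j h ∧ a - 20 * h ≤ XX v ∧ XX v ≤ a' + 20 * h}

/-- the bottom windows at `a` and `a'` (`a ≤ a'`) are connected in the strip of the rows
`j .. j + h`, inside `KR` -/
def K (a a' j : ℤ) (h : ℕ) : Set (Set P2) :=
  {ω | ∃ u v : P2, u.2 = j ∧ |XX u - a| ≤ W h ∧ v.2 = j ∧ |XX v - a'| ≤ W h ∧
    Pth (ω ∩ KR a a' j h) u v}

/-- the top windows at `a` and `a'` (`a ≤ a'`) are connected in the strip of the rows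
`j .. j + h`, inside `KR` -/
def Kt (a a' j : ℤ) (h : ℕ) : Set (Set P2) :=
  {ω | ∃ u v : P2, u.2 = j + h ∧ |XX u - a| ≤ W h ∧ v.2 = j + h ∧ |XX v - a'| ≤ W h ∧
    Pth (ω ∩ KR a a' j h) u v}

/-- a blue connected set of `R` meets both balls -/
def Dev (R : Set P2) (B B' : P2 × ℕ) : Set (Set P2) :=
  {ω | ∃ C : Set P2, C ⊆ ω ∩ R ∧ IsConn C ∧ (C ∩ bl B).Nonempty ∧ (C ∩ bl B').Nonempty}

/-! ### separation events -/

/-- the strip of the box with one more row on both sides -/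
def Rp (j : ℤ) (h : ℕ) : Set P2 := {v | j - 1 ≤ v.2 ∧ v.2 ≤ j + h + 1}

/-- `C` with the two sites below `p` and the two sites above `q` (symmetric under reflection) -/
def Cp (C : Set P2) (p q : P2) : Set P2 :=
  C ∪ {(p.1, p.2 - 1), (p.1 + 1, p.2 - 1), (q.1, q.2 + 1), (q.1 - 1, q.2 + 1)}

/-- from `b` one reaches sites of arbitrarily large `XX` in the strip minus `C⁺` -/
def ReachR (j : ℤ) (h : ℕ) (C : Set P2) (b : P2) : Prop :=
  ∀ M : ℤ, ∃ v, M ≤ XX v ∧ Pth (Rp j h \ C) b v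

/-- the same to the left -/
def ReachL (j : ℤ) (h : ℕ) (C : Set P2) (b : P2) : Prop :=
  ∀ M : ℤ, ∃ v, XX v ≤ M ∧ Pth (Rp j h \ C) b v

/-- a blue bottom-top connected set of the box misses the ball and cuts it from `+∞` -/
def ER (s : P2) (h : ℕ) (B : P2 × ℕ) : Set (Set P2) :=
  {ω | ∃ C : Set P2, C ⊆ ω ∩ Om s h ∧ IsConn C ∧ ∃ p ∈ C ∩ Bw s h, ∃ q ∈ C ∩ Tw s h,
    Disjoint C (bl B) ∧ ∀ b ∈ bl B ∩ Rows s.2 h, ¬ ReachR s.2 h (Cp C p q) b}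

/-- a blue bottom-top connected set of the box misses the ball and cuts it from `-∞` -/
def EL (s : P2) (h : ℕ) (B : P2 × ℕ) : Set (Set P2) :=
  {ω | ∃ C : Set P2, C ⊆ ω ∩ Om s h ∧ IsConn C ∧ ∃ p ∈ C ∩ Bw s h, ∃ q ∈ C ∩ Tw s h,
    Disjoint C (bl B) ∧ ∀ b ∈ bl B ∩ Rows s.2 h, ¬ ReachL s.2 h (Cp C p q) b}

/-- the ball centre lies in the strip -/
def InStrip (s : P2) (h : ℕ) (B : P2 × ℕ) : Prop := s.2 ≤ B.1.2 ∧ B.1.2 ≤ s.2 + h

/-! ### what the probability layer consumes -/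

/-- the planar inclusions (a) - (d) of doc 1941 -/
structure Geo : Prop where
  a_ : ∀ (s : P2) (h : ℕ) (B : P2 × ℕ) (BB : List (P2 × ℕ)), InStrip s h B →
    A s h BB ⊆ A s h (B :: BB) ∪ (EL s h B ∪ ER s h B)
  b_ : ∀ (s s' : P2) (h : ℕ) (B : P2 × ℕ), s'.2 = s.2 → InStrip s h B → 9000 ≤ h →
    XX s + D h ≤ XX s' → ER s h B ∩ EL s' h B ⊆ K (XX s) (XX s') s.2 h
  cb_ : ∀ (s s' : P2) (h h' : ℕ) (B : P2 × ℕ), s'.2 = s.2 → h' ≤ h → InStrip s h B → 9000 ≤ h →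
    XX s' + D h ≤ XX s → EL s h B ∩ A s' h' [B] ⊆ K (XX s') (XX s) s.2 h
  ct_ : ∀ (s s' : P2) (h h' : ℕ) (B : P2 × ℕ), s'.2 + h' = s.2 + h → h' ≤ h → InStrip s h B →
    9000 ≤ h → XX s' + D h ≤ XX s → EL s h B ∩ A s' h' [B] ⊆ Kt (XX s') (XX s) s.2 h
  d_ : ∀ (s : P2) (h : ℕ) (R : Set P2) (B B' : P2 × ℕ), InStrip s h B → InStrip s h B' →
    R ⊆ Om s h →
    A s h [] ∩ Dev R B B' ⊆ A s h [B] ∪ A s h [B'] ∪ (EL s h B ∪ ER s h B')

/-- rigidity constants at size `h` (strip of the rows `0 .. h`): windows at distance `≥ D h` are not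
connected with probability `≥ a`, the standard box is crossed with probability `≥ 1 - ε` -/
structure Rig (L : Lw) (h : ℕ) (a ε : ℝ) : Prop where
  kb : ∀ x y : ℤ, |x| ≤ 40 * h → |y| ≤ 40 * h → x + D h ≤ y → L.p (K x y 0 h) ≤ 1 - a
  kt : ∀ x y : ℤ, |x| ≤ 40 * h → |y| ≤ 40 * h → x + D h ≤ y → L.p (Kt x y 0 h) ≤ 1 - a
  v : L.p (A 0 h [])ᶜ ≤ ε

/-- (3.1) + (3.2) (helper277) -/
def P32 : Prop := ∀ c1 : ℝ, 0 < c1 → ∃ a : ℝ, 0 < a ∧ ∀ ε : ℝ, 0 < ε → ∃ e : ℝ, 0 < e ∧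
  ∀ (L : Lw) (N h : ℕ), Inv L N e → 100000 ≤ h → 100 * h ≤ N →
    L.p (hard h) ≤ 1 - c1 → L.p (rhard h) ≤ e → Rig L h a ε

/-- macroscopic gluing: `M` placements of long crossings of size `t` give a long crossing of size `n` -/
def PHd : Prop := ∀ k : ℕ, ∃ M : ℕ, ∀ n t : ℕ, 9 ≤ t → 18 * t ≤ n → n ≤ k * t →
  ∃ g : Fin M → P2 → P2, (∀ i, IsPl (20 * n) (g i)) ∧
    ∀ S : Set P2, (∀ i, g i ⁻¹' S ∈ hard t) → S ∈ hard n

/-- macroscopic gluing: `M` placements of long crossings of size `t` give a layer in `A(n, 2 n)` -/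
def PLay : Prop := ∀ k : ℕ, ∃ M : ℕ, ∀ n t : ℕ, 9 ≤ t → 18 * t ≤ n → n ≤ k * t →
  ∃ g : Fin M → P2 → P2, (∀ i, IsPl (20 * n) (g i)) ∧
    ∀ S : Set P2, (∀ i, g i ⁻¹' S ∈ hard t) →
      ∀ u v : P2, u ∉ Bb (2 * n) → v ∈ Bb n → ¬ Relation.ReflTransGen (StepIn Sᶜ) u v

/-- Step II geometry (helper356): three placements of `rhard t` (of `hard t`) around the ball
`(z, r)` -/
def PS2 : Prop := ∀ (n t r : ℕ) (z : P2), 4 * r ≤ t → 9 ≤ t → 200 * t ≤ n → (n : ℤ) ≤ 5 * z.2 →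
  5 * z.2 ≤ 4 * n → |XX z| ≤ 4 * n →
  ∃ g : Fin 3 → P2 → P2, (∀ k, IsPl (20 * n) (g k)) ∧
    (∀ s : P2, s.2 = 0 → |XX s| ≤ n → (⋂ k, act (g k) (rhard t)) ∩ A s n [(z, r)] = ∅) ∧
    (∀ s s' : P2, s.2 = 0 → s'.2 = 0 → |XX s| ≤ n → |XX s'| ≤ n →
      (⋂ k, act (g k) (hard t)) ∩ A s n [(z, r)] ∩ A s' n [(z, r)] ⊆ K (XX s) (XX s') 0 n)

/-! ### elementary facts on laws -/

theorem hard_upper (t : ℕ) : IsUpperSet (hard t) := by
  rintro ω ω' h ⟨u, v, h1, h2, h3, h4⟩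
  have hs : ω ∩ Rows 0 t ⊆ ω' ∩ Rows 0 t := Set.inter_subset_inter_left _ h
  exact ⟨u, v, h1, h2, hs h3, path_mono hs h4⟩

theorem rhard_lower (t : ℕ) : IsLowerSet (rhard t) := by
  rintro ω ω' h ⟨u, v, h1, h2, h3, h4⟩
  have hs : ωᶜ ∩ Rows 0 t ⊆ ω'ᶜ ∩ Rows 0 t :=
    Set.inter_subset_inter_left _ (Set.compl_subset_compl.2 h)
  exact ⟨u, v, h1, h2, hs h3, path_mono hs h4⟩

theorem A_upper (s : P2) (h : ℕ) (BB : List (P2 × ℕ)) : IsUpperSet (A s h BB) := by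
  rintro ω ω' hω ⟨C, h1, h2⟩
  exact ⟨C, h1.trans (Set.inter_subset_inter_left _ hω), h2⟩

theorem ER_upper (s : P2) (h : ℕ) (B : P2 × ℕ) : IsUpperSet (ER s h B) := by
  rintro ω ω' hω ⟨C, h1, h2⟩
  exact ⟨C, h1.trans (Set.inter_subset_inter_left _ hω), h2⟩

theorem EL_upper (s : P2) (h : ℕ) (B : P2 × ℕ) : IsUpperSet (EL s h B) := by
  rintro ω ω' hω ⟨C, h1, h2⟩
  exact ⟨C, h1.trans (Set.inter_subset_inter_left _ hω), h2⟩

theorem Dev_upper (R : Set P2) (B B' : P2 × ℕ) : IsUpperSet (Dev R B B') := by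
  rintro ω ω' hω ⟨C, h1, h2⟩
  exact ⟨C, h1.trans (Set.inter_subset_inter_left _ hω), h2⟩

theorem K_upper (a a' j : ℤ) (h : ℕ) : IsUpperSet (K a a' j h) := by
  rintro ω ω' hω ⟨u, v, h1, h2, h3, h4, h5, h6⟩
  have hs : ω ∩ KR a a' j h ⊆ ω' ∩ KR a a' j h := Set.inter_subset_inter_left _ hω
  exact ⟨u, v, h1, h2, h3, h4, hs h5, path_mono hs h6⟩

theorem Kt_upper (a a' j : ℤ) (h : ℕ) : IsUpperSet (Kt a a' j h) := by
  rintro ω ω' hω ⟨u, v, h1, h2, h3, h4, h5, h6⟩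
  have hs : ω ∩ KR a a' j h ⊆ ω' ∩ KR a a' j h := Set.inter_subset_inter_left _ hω
  exact ⟨u, v, h1, h2, h3, h4, hs h5, path_mono hs h6⟩

end Crest.Agent.R144.Qlw216
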