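import Crest.Agent.R144.Lay7_356
import Crest.Agent.R144.Qlw_216
import Crest.Agent.R144.Rw2_146

/-!
# R144, QRSW (doc 1941): layers from long crossings, `PLay` of helper216 (helper948)

Covering trick of helper146: every site of `ball 0 n` lies in a small ball around a grid point of
`ball 0 n`; three placements of `hard t` around the grid point block the small ball (helper356).
-/

set_option autoImplicit false

namespace Crest.Agent.R144.Play948

open Crest.Agent.R144.It844 (P2 adj_iff)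
open Crest.Agent.R144.Zg349 (StepIn IsConn)
open Crest.Agent.R144.Rsw867 (path_mono ball mem_ball mem_ball' ball_mono Sepr)
open Crest.Agent.R144.Qs356
open Crest.Agent.R144.Lay356 (sepr_of_slabs)
open Crest.Agent.R144.Qlw216 (XX Rows act ro sg IsPl hard rhard Bb PLay)
open Crest.Agent.R144.Rw146 (gp exists_gp ix mem_ix ball_sub_ball)

theorem rot_add' (u v : P2) : rot (u + v) = rot u + rot v := by
  unfold rot
  ext
  · simp only [Prod.fst_add, Prod.snd_add]; ring
  · simp only [Prod.fst_add, Prod.snd_add]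

/-- the three placements (helper356) -/
def plc' (z : P2) (n t : ℕ) (k : Fin 3) (v : P2) : P2 := rot^[(k : ℕ)] (v + off n t) + z

theorem hrow_of' {B : Set P2} {t : ℕ} (h : ∃ u v, XX u ≤ -(6 * t) ∧ 6 * t ≤ XX v ∧
    Qlw216.Pth (B ∩ Rows 0 t) u v) : Hrow B 0 t (-(6 * t)) (6 * t) := by
  obtain ⟨u, v, h1, h2, _, h4⟩ := h
  refine ⟨u, v, h1, h2, path_mono ?_ h4⟩
  rintro w ⟨hw, hw1, hw2⟩
  exact ⟨hw, hw1, by simpa using hw2⟩

theorem slabs_of_hard' {ω : Set P2} {z : P2} {n t : ℕ} (h : ∀ k, plc' z n t k ⁻¹' ω ∈ hard t) :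
    Slabs z n t ω := by
  refine ⟨?_, ?_, ?_⟩
  · exact hrow_of' (h 0)
  · exact hrow_of' (h 1)
  · exact hrow_of' (h 2)

theorem isPl_plc' {z : P2} {n t N : ℕ} (h1 : |z.1| + |z.2| + 4 * (n + 1 + t) ≤ (N : ℤ)) (k : Fin 3) :
    IsPl N (plc' z n t k) := by
  have hz1 := abs_nonneg z.1
  have hz2 := abs_nonneg z.2
  have a1 := neg_abs_le z.1
  have a2 := le_abs_self z.1
  have a3 := neg_abs_le z.2
  have a4 := le_abs_self z.2
  have o1 : 0 ≤ (off n t).1 ∧ (off n t).1 ≤ n + 1 + t := by unfold off; simp only; omega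
  have o2 : (off n t).2 = -((n : ℤ) + 1 + t) := by unfold off; push_cast; ring
  have hro : ro = rot := rfl
  refine ⟨k, k.2, 0, by norm_num, rot^[(k : ℕ)] (off n t) + z, ?_, ?_, ?_⟩
  · rw [abs_le]
    fin_cases k
    · show _ ≤ (off n t + z).1 ∧ (off n t + z).1 ≤ _
      simp only [Prod.fst_add]; omega
    · show _ ≤ (rot (off n t) + z).1 ∧ (rot (off n t) + z).1 ≤ _
      unfold rot; simp only [Prod.fst_add]; omega
    · show _ ≤ (rot (rot (off n t)) + z).1 ∧ (rot (rot (off n t)) + z).1 ≤ _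
      unfold rot; simp only [Prod.fst_add]; omega
  · rw [abs_le]
    fin_cases k
    · show _ ≤ (off n t + z).2 ∧ (off n t + z).2 ≤ _
      simp only [Prod.snd_add]; omega
    · show _ ≤ (rot (off n t) + z).2 ∧ (rot (off n t) + z).2 ≤ _
      unfold rot; simp only [Prod.snd_add]; omega
    · show _ ≤ (rot (rot (off n t)) + z).2 ∧ (rot (rot (off n t)) + z).2 ≤ _
      unfold rot; simp only [Prod.snd_add]; omega
  · intro v
    rw [hro]
    unfold plc'
    fin_cases k
    · show v + off n t + z = v + (off n t + z)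
      rw [add_assoc]
    · show rot (v + off n t) + z = rot v + (rot (off n t) + z)
      rw [rot_add', add_assoc]
    · show rot (rot (v + off n t)) + z = rot (rot v) + (rot (rot (off n t)) + z)
      rw [rot_add', rot_add', add_assoc]

/-- the centres: grid points of `ball 0 (n + 2 s)` (or `0`) -/
noncomputable def ctr (n s : ℕ) (k : P2) : P2 := by
  classical exact if gp 0 s k ∈ ball 0 (n + 2 * s) then gp 0 s k else 0

theorem ctr_mem (n s : ℕ) (k : P2) : ctr n s k ∈ ball 0 (n + 2 * s) := by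
  unfold ctr
  split_ifs with h
  · exact h
  · rw [mem_ball]; simp; positivity

theorem ctr_of {n s : ℕ} {k : P2} (h : gp 0 s k ∈ ball 0 (n + 2 * s)) : ctr n s k = gp 0 s k :=
  if_pos h

theorem bb_iff {n : ℕ} {v : P2} : v ∈ Bb n ↔ v ∈ ball 0 n := by
  rw [mem_ball]
  simp [Bb]

/-- covering: small blocked balls around all grid points of `ball 0 n` block `ball 0 n` -/
theorem cover_sepr {S : Set P2} {n s m M L : ℕ} (hs : 1 ≤ s) (hm : 2 * s ≤ m) (hM : 2 * s + M ≤ n)
    (hL : n + s ≤ s * L) (h : ∀ k ∈ ix L, Sepr S (ctr n s k) m M) : Sepr S 0 n (2 * n) := by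
  intro u v hu hv p
  obtain ⟨k, hk1, hk2, hk3, hk4⟩ := exists_gp hs hv
  have hs' : (0 : ℤ) < s := by exact_mod_cast hs
  have hL' : (n : ℤ) + s ≤ s * L := by exact_mod_cast hL
  have hk : k ∈ ix L := mem_ix.2 ⟨le_of_mul_le_mul_left (hk3.trans hL') hs',
    le_of_mul_le_mul_left (hk4.trans hL') hs'⟩
  have h2 := h k hk
  rw [ctr_of hk2] at h2
  refine h2 u v (fun h3 => hu ?_) (ball_mono _ hm hk1) p
  exact ball_sub_ball hk2 (by omega) h3

theorem pLay : PLay := by
  intro k
  have e : ∃ M : ℕ, Nonempty (Fin M ≃ (ix (3 * k + 1) × Fin 3)) :=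
    ⟨_, ⟨(Fintype.equivFin _).symm⟩⟩
  obtain ⟨M, ⟨φ⟩⟩ := e
  refine ⟨M, fun n t ht h18 hk => ⟨fun i => plc' (ctr n ((t - 2) / 2) ((φ i).1 : P2)) (t - 2) t (φ i).2,
    fun i => isPl_plc' ?_ _, fun S hS u v hu hv p => ?_⟩⟩
  · have h1 := ctr_mem n ((t - 2) / 2) ((φ i).1 : P2)
    rw [mem_ball] at h1
    simp only [Prod.fst_zero, Prod.snd_zero, sub_zero] at h1
    push_cast
    omega
  · have hs : 1 ≤ (t - 2) / 2 := by omega
    have hL : n + (t - 2) / 2 ≤ (t - 2) / 2 * (3 * k + 1) := by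
      have h3 : t ≤ 3 * ((t - 2) / 2) := by omega
      calc n + (t - 2) / 2 ≤ k * t + (t - 2) / 2 := by omega
        _ ≤ k * (3 * ((t - 2) / 2)) + (t - 2) / 2 := by
            exact Nat.add_le_add_right (Nat.mul_le_mul_left k h3) _
        _ = (t - 2) / 2 * (3 * k + 1) := by ring
    rw [bb_iff] at hu hv
    refine cover_sepr (S := S) (m := t - 2) (M := 2 * (t - 2 + 1 + t)) hs (by omega) (by omega) hL
      (fun q hq => ?_) u v hu hv p
    refine sepr_of_slabs (by omega) (slabs_of_hard' fun j => ?_)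
    have := hS (φ.symm (⟨q, hq⟩, j))
    simpa using this

end Crest.Agent.R144.Play948
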