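import Crest.Agent.R144.Qr1_315

/-!
# R144, QRSW (single-scale RSW), file 0: LITERAL INTERFACE (helper315)

`Law` = finitely additive, positively associated law of a random set of (blue) sites of the triangular
lattice.  `Law.Inv W ρ` = `ρ`-approximate invariance, for increasing events determined in `bal 0 W`, under
translations by vectors of `bal 0 W`, the rotation by 120 degrees and one reflection.
`QRSW` = if there is no red layer in the annulus `A(n, 2 n)` w.h.p., then there is a blue layer w.h.p.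
-/

set_option autoImplicit false

noncomputable section

namespace Crest.Agent.R144.Qr315

open Crest.Agent.R144.It844 (P2 adj_iff adj_symm)
open Crest.Agent.R144.Zg349 (StepIn IsConn)
open Crest.ProbabilityR.HexHeights (Adj)

/-- hexagonal ball -/
def bal (z : P2) (r : ℤ) : Set P2 :=
  {v | |v.1 - z.1| ≤ r ∧ |v.2 - z.2| ≤ r ∧ |v.1 - z.1 + (v.2 - z.2)| ≤ r}

/-- a layer of sites of `S` separates `bal a m` from the outside of `bal a N`
(= `Rsw867.Sepr S a m N`) -/
def Layer (S : Set P2) (a : P2) (m N : ℤ) : Prop :=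
  ∀ u v, u ∉ bal a N → v ∈ bal a m → ¬ Relation.ReflTransGen (StepIn Sᶜ) u v

/-- finitely additive, positively associated law of a random set of (blue) sites -/
structure Law where
  P : Set (Set P2) → ℝ
  nonneg : ∀ A, 0 ≤ P A
  univ : P Set.univ = 1
  mono : ∀ A B, A ⊆ B → P A ≤ P B
  modular : ∀ A B, P (A ∪ B) + P (A ∩ B) = P A + P B
  fkg : ∀ A B, IsUpperSet A → IsUpperSet B → P A * P B ≤ P (A ∩ B)
  empty : P ∅ = 0

/-- the event `g E` -/
def pre (g : P2 → P2) (E : Set (Set P2)) : Set (Set P2) := {ω | g ⁻¹' ω ∈ E}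

/-- `E` is determined by the sites of `W` -/
def Loc (W : Set P2) (E : Set (Set P2)) : Prop := ∀ ω : Set P2, ω ∈ E ↔ ω ∩ W ∈ E

/-- translation -/
def tr (a : P2) (v : P2) : P2 := v + a
/-- rotation by 120 degrees -/
def rot (v : P2) : P2 := (-v.1 - v.2, v.1)
/-- reflection in the vertical line through `0` -/
def rfx (v : P2) : P2 := (-v.1 - v.2, v.2)

/-- `ρ`-approximate invariance in the window `bal 0 W` -/
structure Law.Inv (L : Law) (W : ℕ) (ρ : ℝ) : Prop where
  tr : ∀ E : Set (Set P2), IsUpperSet E → Loc (bal 0 W) E → ∀ a ∈ bal 0 W, L.P E ≤ L.P (pre (tr a) E) + ρ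
  rot : ∀ E : Set (Set P2), IsUpperSet E → Loc (bal 0 W) E → L.P E ≤ L.P (pre rot E) + ρ
  rfx : ∀ E : Set (Set P2), IsUpperSet E → Loc (bal 0 W) E → L.P E ≤ L.P (pre rfx E) + ρ

/-- **SINGLE-SCALE RSW.**  If w.h.p. there is no red layer in `A(n, 2 n)`, then w.h.p. there is a blue
layer in `A(n, 2 n)`. -/
def QRSW : Prop := ∀ c0 : ℝ, 0 < c0 → ∃ (η : ℝ) (C n0 : ℕ), 0 < η ∧ ∀ n : ℕ, n0 ≤ n → ∀ L : Law,
  L.Inv (C * n) η → 1 - η ≤ L.P {ω | ¬ Layer ωᶜ 0 n (2 * n)} → 1 - c0 ≤ L.P {ω | Layer ω 0 n (2 * n)}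

end Crest.Agent.R144.Qr315
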