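import Crest.Agent.R144.Qs2_356
import Crest.Agent.R144.Qlw_216

/-!
# R144, QRSW (doc 1941): Step II geometry in the form `PS2` of helper216 (helper356)
-/

set_option autoImplicit false

namespace Crest.Agent.R144.Qs356

open Crest.Agent.R144.It844 (P2 adj_iff)
open Crest.Agent.R144.Zg349 (StepIn IsConn)
open Crest.Agent.R144.Rsw867 (path_mono ball mem_ball)
open Crest.Agent.R144.Pst967 (stepIn_symm path_symm)
open Crest.Agent.R144.Qlw216 (XX Rows KR act ro sg IsPl hard rhard Om Bw Tw bl PS2)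

theorem rot_add (u v : P2) : rot (u + v) = rot u + rot v := by
  unfold rot; ext <;> simp only [Prod.fst_add, Prod.snd_add] <;> ring

/-- the three placements -/
def plc (z : P2) (n t : ℕ) (k : Fin 3) (v : P2) : P2 := rot^[(k : ℕ)] (v + off n t) + z

theorem hrow_of {B : Set P2} {t : ℕ} (h : ∃ u v, XX u ≤ -(6 * t) ∧ 6 * t ≤ XX v ∧
    Qlw216.Pth (B ∩ Rows 0 t) u v) : Hrow B 0 t (-(6 * t)) (6 * t) := by
  obtain ⟨u, v, h1, h2, _, h4⟩ := h
  refine ⟨u, v, h1, h2, path_mono ?_ h4⟩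
  rintro w ⟨hw, hw1, hw2⟩
  exact ⟨hw, hw1, by simpa using hw2⟩

theorem slabs_of_hard {ω : Set P2} {z : P2} {n t : ℕ} (h : ∀ k, ω ∈ act (plc z n t k) (hard t)) :
    Slabs z n t ω := by
  refine ⟨?_, ?_, ?_⟩
  · exact hrow_of (h 0)
  · exact hrow_of (h 1)
  · exact hrow_of (h 2)

theorem slabs_of_rhard {ω : Set P2} {z : P2} {n t : ℕ} (h : ∀ k, ω ∈ act (plc z n t k) (rhard t)) :
    Slabs z n t ωᶜ := by
  refine ⟨?_, ?_, ?_⟩
  · exact hrow_of (h 0)
  · exact hrow_of (h 1)
  · exact hrow_of (h 2)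

theorem isPl_plc {z : P2} {n t N : ℕ} (h1 : |z.1| + |z.2| + 4 * (n + 1 + t) ≤ (N : ℤ)) (k : Fin 3) :
    IsPl N (plc z n t k) := by
  have hz1 := abs_nonneg z.1
  have hz2 := abs_nonneg z.2
  have a1 := neg_abs_le z.1
  have a2 := le_abs_self z.1
  have a3 := neg_abs_le z.2
  have a4 := le_abs_self z.2
  have o1 : 0 ≤ (off n t).1 ∧ (off n t).1 ≤ n + 1 + t := by unfold off; simp only; omega
  have o2 : (off n t).2 = -((n : ℤ) + 1 + t) := by unfold off; push_cast; ring
  have hro : ro = rot := rfl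
  refine ⟨k, k.2, 0, by norm_num, rot^[(k : ℕ)] (off n t) + z, ?_, ?_, ?_⟩
  · rw [abs_le]
    fin_cases k
    · show _ ≤ (off n t + z).1 ∧ (off n t + z).1 ≤ _
      simp only [Prod.fst_add]; omega
    · show _ ≤ (rot (off n t) + z).1 ∧ (rot (off n t) + z).1 ≤ _
      unfold rot; simp only [Prod.fst_add]; omega
    · show _ ≤ (rot (rot (off n t)) + z).1 ∧ (rot (rot (off n t)) + z).1 ≤ _
      unfold rot; simp only [Prod.fst_add]; omega
  · rw [abs_le]
    fin_cases k
    · show _ ≤ (off n t + z).2 ∧ (off n t + z).2 ≤ _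
      simp only [Prod.snd_add]; omega
    · show _ ≤ (rot (off n t) + z).2 ∧ (rot (off n t) + z).2 ≤ _
      unfold rot; simp only [Prod.snd_add]; omega
    · show _ ≤ (rot (rot (off n t)) + z).2 ∧ (rot (rot (off n t)) + z).2 ≤ _
      unfold rot; simp only [Prod.snd_add]; omega
  · intro v
    rw [hro]
    unfold plc
    fin_cases k
    · show v + off n t + z = v + (off n t + z)
      rw [add_assoc]
    · show rot (v + off n t) + z = rot v + (rot (off n t) + z)
      rw [rot_add, add_assoc]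
    · show rot (rot (v + off n t)) + z = rot (rot v) + (rot (rot (off n t)) + z)
      rw [rot_add, rot_add, add_assoc]

/-- **Step II geometry in the form consumed by helper216** -/
theorem ps2 : PS2 := by
  intro n t r z hr ht hn hz1 hz2 hx
  have hXX : XX z = 2 * z.1 + z.2 := rfl
  rw [hXX, abs_le] at hx
  have hrt : r + 2 ≤ t := by omega
  refine ⟨plc z r t, fun k => isPl_plc ?_ k, ?_, ?_⟩
  · rcases abs_cases z.1 with h | h <;> rcases abs_cases z.2 with h' | h' <;> push_cast <;> omega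
  · rintro s hs _
    rw [Set.eq_empty_iff_forall_notMem]
    rintro ω ⟨h1, C, hC, hconn, ⟨p, hp, hp'⟩, _, hB⟩
    obtain ⟨x, hx1, hx2⟩ := hB (z, r) (by simp)
    rw [Set.mem_iInter] at h1
    have h2 := slabs_block hrt (slabs_of_rhard h1) (fun w hw => (hC hw).1) (hconn x hx1 p hp)
      (by simpa [bl] using hx2)
    have h3 : p.2 = s.2 ∧ |XX p - XX s| ≤ _ := hp'
    rw [mem_ball] at h2
    simp only [abs_le] at h2
    push_cast at h2
    omega
  · rintro s s' hs hs' hsx hsx' ω ⟨⟨h1, C, hC, hconn, ⟨p, hp, hp'⟩, _, hB⟩,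
      C', hC', hconn', ⟨p', hp1, hp1'⟩, _, hB'⟩
    obtain ⟨x, hx1, hx2⟩ := hB (z, r) (by simp)
    obtain ⟨x', hx1', hx2'⟩ := hB' (z, r) (by simp)
    rw [Set.mem_iInter] at h1
    have h3 : p.2 = s.2 ∧ |XX p - XX s| ≤ _ := hp'
    have h3' : p'.2 = s'.2 ∧ |XX p' - XX s'| ≤ _ := hp1'
    have hout : ∀ q : P2, q.2 = 0 → q ∉ ball z (2 * (r + 1 + t)) := by
      intro q hq hq'
      rw [mem_ball] at hq'
      simp only [abs_le] at hq'
      push_cast at hq'
      omega
    obtain ⟨L, hL, hLb, hLc⟩ := slabs_join hrt (slabs_of_hard h1) hconn hconn' hx1 hp hx1' hp1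
      (by simpa [bl] using hx2) (hout p (by omega)) (by simpa [bl] using hx2') (hout p' (by omega))
    rw [abs_le] at hsx hsx'
    have hsub : C ∪ L ∪ C' ⊆ ω ∩ KR (XX s) (XX s') 0 n := by
      rintro w ((hw | hw) | hw)
      · obtain ⟨h4, h5, h6⟩ := hC hw
        rw [hs] at h5
        rw [abs_le] at h6
        exact ⟨h4, h5, by omega, by omega⟩
      · have h4 := hLb w hw
        rw [mem_ball] at h4
        simp only [abs_le] at h4
        push_cast at h4
        refine ⟨hL hw, ?_, ?_, ?_⟩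
        · show (0 : ℤ) ≤ w.2 ∧ w.2 ≤ 0 + n
          omega
        · unfold XX at *; omega
        · unfold XX at *; omega
      · obtain ⟨h4, h5, h6⟩ := hC' hw
        rw [hs'] at h5
        rw [abs_le] at h6
        exact ⟨h4, h5, by omega, by omega⟩
    refine ⟨p, p', by omega, h3.2, by omega, h3'.2, hsub (Or.inl (Or.inl hp)), ?_⟩
    exact path_mono hsub (hLc p (Or.inl (Or.inl hp)) p' (Or.inr hp1))

end Crest.Agent.R144.Qs356
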