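import Crest.Agent.R144.Qfd_216
import Crest.Agent.R144.Play_948
import Crest.Agent.R144.Qs3_356
import Crest.Agent.R144.Qr0_315

/-!
# R144, QRSW (doc 1941): bridge `QF` (helper216, laws `Lw`, sizes `180 ^ J`) ==> `QRSW` (helper315)
-/

set_option autoImplicit false

noncomputable section

namespace Crest.Agent.R144.Qbr356

open Crest.Agent.R144.It844 (P2 adj_iff)
open Crest.Agent.R144.Zg349 (StepIn IsConn)
open Crest.Agent.R144.Rsw867 (ball mem_ball path_mono)
open Crest.Agent.R144.Qlw216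
open Crest.Agent.R144.Qgp216
open Crest.Agent.R144.Qfd216 (QF)
open Crest.Agent.R144.Qs356 (Hrow Cr hrow_of)
open Crest.Agent.R144.Qr315 (Law QRSW Layer bal pre)

/-! ### laws -/

open Classical in
/-- the mass of the full configuration -/
def dl (A : Set (Set P2)) : ℝ := if Set.univ ∈ A then 1 else 0

theorem dl_of_mem {A : Set (Set P2)} (h : Set.univ ∈ A) : dl A = 1 := if_pos h
theorem dl_of_not {A : Set (Set P2)} (h : Set.univ ∉ A) : dl A = 0 := if_neg h
theorem dl_nonneg (A : Set (Set P2)) : 0 ≤ dl A := by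
  unfold dl; split_ifs <;> norm_num
theorem dl_mod (A B : Set (Set P2)) : dl (A ∪ B) + dl (A ∩ B) = dl A + dl B := by
  by_cases hA : Set.univ ∈ A <;> by_cases hB : Set.univ ∈ B
  · rw [dl_of_mem (A := A ∪ B) (Or.inl hA), dl_of_mem (A := A ∩ B) ⟨hA, hB⟩, dl_of_mem hA,
      dl_of_mem hB]
  · rw [dl_of_mem (A := A ∪ B) (Or.inl hA), dl_of_not (A := A ∩ B) (fun h => hB h.2), dl_of_mem hA,
      dl_of_not hB]
  · rw [dl_of_mem (A := A ∪ B) (Or.inr hB), dl_of_not (A := A ∩ B) (fun h => hA h.1), dl_of_not hA,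
      dl_of_mem hB]
    ring
  · rw [dl_of_not (A := A ∪ B) (fun h => h.elim hA hB), dl_of_not (A := A ∩ B) (fun h => hA h.1),
      dl_of_not hA, dl_of_not hB]

/-- a `Law` as an `Lw`: the mass `P ∅` is moved to the full configuration -/
def toLw (L : Law) : Lw where
  p A := L.P A - L.P ∅ + L.P ∅ * dl A
  nonneg A := by
    have h1 := L.mono ∅ A (Set.empty_subset _)
    have h2 := mul_nonneg (L.nonneg ∅) (dl_nonneg A)
    linarith
  empty := by
    rw [dl_of_not (Set.notMem_empty _)]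
    ring
  univ := by
    rw [dl_of_mem (Set.mem_univ _), L.univ]
    ring
  add A B := by
    have h1 := L.modular A B
    have h2 := dl_mod A B
    have h3 : L.P ∅ * dl (A ∪ B) + L.P ∅ * dl (A ∩ B) = L.P ∅ * dl A + L.P ∅ * dl B := by
      rw [← mul_add, h2, mul_add]
    linarith
  assoc A B hA hB := by
    by_cases h1 : Set.univ ∈ A
    · by_cases h2 : Set.univ ∈ B
      · rw [dl_of_mem h1, dl_of_mem h2, dl_of_mem (A := A ∩ B) ⟨h1, h2⟩]
        have := L.fkg A B hA hB
        have e : ∀ x : ℝ, x - L.P ∅ + L.P ∅ * 1 = x := fun x => by ring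
        rw [e, e, e]
        exact this
      · have hB0 : B = ∅ := by
          rw [Set.eq_empty_iff_forall_notMem]
          exact fun ω hω => h2 (hB (Set.subset_univ ω) hω)
        subst hB0
        rw [Set.inter_empty, dl_of_not (Set.notMem_empty _)]
        simp
    · have hA0 : A = ∅ := by
        rw [Set.eq_empty_iff_forall_notMem]
        exact fun ω hω => h1 (hA (Set.subset_univ ω) hω)
      subst hA0
      rw [Set.empty_inter, dl_of_not (Set.notMem_empty _)]
      simp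

theorem toLw_of_mem (L : Law) {A : Set (Set P2)} (h : Set.univ ∈ A) : (toLw L).p A = L.P A := by
  show L.P A - L.P ∅ + L.P ∅ * dl A = L.P A
  rw [dl_of_mem h]; ring

/-- transported upper sets -/
theorem toLw_act (L : Law) {g : P2 → P2} {E : Set (Set P2)} (hE : IsUpperSet E) :
    (toLw L).p (act g E) - (toLw L).p E = L.P (act g E) - L.P E := by
  by_cases h : Set.univ ∈ E
  · rw [toLw_of_mem L h, toLw_of_mem L (show Set.univ ∈ act g E from h)]
  · have hE0 : E = ∅ := by
      rw [Set.eq_empty_iff_forall_notMem]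
      exact fun ω hω => h (hE (Set.subset_univ ω) hω)
    subst hE0
    have : act g (∅ : Set (Set P2)) = ∅ := rfl
    rw [this, sub_self, sub_self]

theorem bal_eq (N : ℕ) : bal 0 (N : ℤ) = Bb N := by
  ext v
  simp [bal, Bb]

theorem inv_of {L : Law} {W N : ℕ} {ρ : ℝ} (hρ : 0 ≤ ρ) (hW : 3 * N ≤ W)
    (h : L.Inv W ρ) : Inv (toLw L) N (2 * ρ) := by
  have locW : ∀ {E : Set (Set P2)}, Loc (Bb (3 * N)) E → Qr315.Loc (bal 0 (W : ℤ)) E := by
    intro E hE
    rw [bal_eq]
    refine loc_mono hE ?_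
    rintro v ⟨h1, h2, h3⟩
    have : ((3 * N : ℕ) : ℤ) ≤ W := by exact_mod_cast hW
    exact ⟨h1.trans this, h2.trans this, h3.trans this⟩
  have sub3 : Bb N ⊆ Bb (3 * N) := by
    rintro v ⟨h1, h2, h3⟩
    have : (N : ℤ) ≤ ((3 * N : ℕ) : ℤ) := by push_cast; omega
    exact ⟨h1.trans this, h2.trans this, h3.trans this⟩
  refine ⟨?_, ?_, ?_⟩
  · intro t h1 h2 E hE hl
    have hl3 : Loc (Bb (3 * N)) E := loc_mono hl sub3
    have hlt : Loc (Bb (3 * N)) (act (tr t) E) := loc_act hl fun v hv => by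
      obtain ⟨e1, e2, e3⟩ := hv
      unfold Bb tr
      simp only [Set.mem_ofPred_eq, Prod.fst_add, Prod.snd_add]
      simp only [abs_le] at *
      push_cast
      omega
    have ht : ∀ s : P2, |s.1| ≤ N → |s.2| ≤ N → s ∈ bal 0 (W : ℤ) := by
      intro s e1 e2
      have : ((3 * N : ℕ) : ℤ) ≤ W := by exact_mod_cast hW
      unfold bal
      simp only [Set.mem_ofPred_eq, Prod.fst_zero, Prod.snd_zero, sub_zero]
      simp only [abs_le] at *
      push_cast at this
      omega
    have a1 := h.tr E hE (locW hl3) t (ht t h1 h2)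
    have a2 := h.tr (act (tr t) E) (act_upper hE) (locW hlt) (-t)
      (ht (-t) (by rw [Prod.fst_neg, abs_neg]; exact h1) (by rw [Prod.snd_neg, abs_neg]; exact h2))
    have e : pre (Qr315.tr (-t)) (act (tr t) E) = E := by
      ext ω
      show tr t ⁻¹' (Qr315.tr (-t) ⁻¹' ω) ∈ E ↔ ω ∈ E
      have : tr t ⁻¹' (Qr315.tr (-t) ⁻¹' ω) = ω := by
        ext v
        show v + t + -t ∈ ω ↔ v ∈ ω
        rw [add_neg_cancel_right]
      rw [this]
    rw [e] at a2
    have a1' : L.P E ≤ L.P (act (tr t) E) + ρ := a1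
    rw [toLw_act L hE]
    rw [abs_le]
    constructor <;> linarith
  · intro E hE hl
    have hl3 : Loc (Bb (3 * N)) E := loc_mono hl sub3
    have l1 : Loc (Bb N) (act ro E) := loc_act hl fun v hv => ro_Bb hv
    have l2 : Loc (Bb N) (act ro (act ro E)) := loc_act l1 fun v hv => ro_Bb hv
    have a1 := h.rot E hE (locW hl3)
    have a2 := h.rot (act ro E) (act_upper hE) (locW (loc_mono l1 sub3))
    have a3 := h.rot (act ro (act ro E)) (act_upper (act_upper hE)) (locW (loc_mono l2 sub3))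
    have e : pre Qr315.rot (act ro (act ro E)) = E := by
      ext ω
      show ro ⁻¹' (ro ⁻¹' (Qr315.rot ⁻¹' ω)) ∈ E ↔ ω ∈ E
      have : ro ⁻¹' (ro ⁻¹' (Qr315.rot ⁻¹' ω)) = ω := by
        ext v
        show Qr315.rot (ro (ro v)) ∈ ω ↔ v ∈ ω
        have : Qr315.rot (ro (ro v)) = v := by
          unfold Qr315.rot ro
          ext
          · simp only; ring
          · simp only; ring
        rw [this]
      rw [this]
    rw [e] at a3
    have a1' : L.P E ≤ L.P (act ro E) + ρ := a1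
    have a2' : L.P (act ro E) ≤ L.P (act ro (act ro E)) + ρ := a2
    rw [toLw_act L hE]
    rw [abs_le]
    constructor <;> linarith
  · intro E hE hl
    have hl3 : Loc (Bb (3 * N)) E := loc_mono hl sub3
    have l1 : Loc (Bb N) (act sg E) := loc_act hl fun v hv => sg_Bb hv
    have a1 := h.rfx E hE (locW hl3)
    have a2 := h.rfx (act sg E) (act_upper hE) (locW (loc_mono l1 sub3))
    have e : pre Qr315.rfx (act sg E) = E := by
      ext ω
      show sg ⁻¹' (Qr315.rfx ⁻¹' ω) ∈ E ↔ ω ∈ E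
      have : sg ⁻¹' (Qr315.rfx ⁻¹' ω) = ω := by
        ext v
        show Qr315.rfx (sg v) ∈ ω ↔ v ∈ ω
        have : Qr315.rfx (sg v) = v := by
          unfold Qr315.rfx sg
          ext
          · simp only; ring
          · simp only
        rw [this]
      rw [this]
    rw [e] at a2
    have a1' : L.P E ≤ L.P (act sg E) + ρ := a1
    rw [toLw_act L hE]
    rw [abs_le]
    constructor <;> linarith

/-! ### locality of long crossings -/

theorem hard_sub {t : ℕ} (ht : 1 ≤ t) {ω : Set P2} (h : ω ∈ hard t) : ω ∩ Bb (5 * t) ∈ hard t := by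
  have h1 : Hrow ω 0 t (-(6 * t)) (6 * t) := hrow_of h
  obtain ⟨K, u, v, hK, hc⟩ := h1.cr (by omega)
  refine ⟨u, v, hc.su, hc.sv, ?_⟩
  have hsub : K ⊆ ω ∩ Bb (5 * t) ∩ Rows 0 t := by
    intro w hw
    have e1 := hc.row w hw
    have e2 := hc.col w hw
    refine ⟨⟨hK hw, ?_⟩, ?_⟩
    · unfold Bb
      simp only [Set.mem_ofPred_eq, abs_le]
      omega
    · show (0 : ℤ) ≤ w.2 ∧ w.2 ≤ 0 + t
      omega
  exact ⟨hsub hc.hu, path_mono hsub hc.path⟩

theorem loc_hard {t N : ℕ} (ht : 1 ≤ t) (hN : 5 * t ≤ N) : Loc (Bb N) (hard t) := by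
  refine loc_mono (R := Bb (5 * t)) ?_ ?_
  · intro ω
    exact ⟨hard_sub ht, fun h => hard_upper t Set.inter_subset_left h⟩
  · rintro v ⟨h1, h2, h3⟩
    have : ((5 * t : ℕ) : ℤ) ≤ N := by exact_mod_cast hN
    exact ⟨h1.trans this, h2.trans this, h3.trans this⟩

theorem rhard_iff {t : ℕ} {ω : Set P2} : ω ∈ rhard t ↔ ωᶜ ∈ hard t := Iff.rfl

/-- the complement of `rhard` is local and increasing -/
theorem loc_rhard {t N : ℕ} (ht : 1 ≤ t) (hN : 5 * t ≤ N) : Loc (Bb N) (rhard t)ᶜ := by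
  have key : ∀ ω : Set P2, ωᶜ ∈ hard t ↔ (ω ∩ Bb N)ᶜ ∈ hard t := by
    intro ω
    have h1 := loc_hard ht hN ωᶜ
    have h2 := loc_hard ht hN (ω ∩ Bb N)ᶜ
    have e : (ω ∩ Bb N)ᶜ ∩ Bb N = ωᶜ ∩ Bb N := by
      ext v
      simp only [Set.mem_inter_iff, Set.mem_compl_iff]
      tauto
    rw [h1, h2, e]
  intro ω
  rw [Set.mem_compl_iff, Set.mem_compl_iff, rhard_iff, rhard_iff, ← key ω]

/-! ### finite families -/

section fam
variable (L : Lw)

theorem union_bound {M : ℕ} (G : Fin M → Set (Set P2)) (δ : ℝ) (h : ∀ i, L.p (G i)ᶜ ≤ δ) :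
    1 - M * δ ≤ L.p (⋂ i, G i) := by
  induction M with
  | zero =>
    have : (⋂ i, G i) = Set.univ := by
      ext ω; simp
    rw [this, L.univ]; simp
  | succ M ih =>
    have h1 := ih (fun i => G i.succ) fun i => h _
    have e : (⋂ i, G i) = G 0 ∩ ⋂ i : Fin M, G i.succ := by
      ext ω
      simp only [Set.mem_iInter, Set.mem_inter_iff]
      exact Fin.forall_fin_succ
    rw [e]
    have h2 := p_union_le L (G 0)ᶜ (⋂ i : Fin M, G i.succ)ᶜ
    rw [← Set.compl_inter, p_compl, p_compl L (⋂ i : Fin M, G i.succ)] at h2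
    have h3 := h 0
    push_cast
    linarith

theorem fkg_lower {M : ℕ} (G : Fin M → Set (Set P2)) (δ : ℝ) (hδ : 0 ≤ δ)
    (hG : ∀ i, IsLowerSet (G i)) (h : ∀ i, δ ≤ L.p (G i)) : δ ^ M ≤ L.p (⋂ i, G i) := by
  induction M with
  | zero =>
    have : (⋂ i, G i) = Set.univ := by
      ext ω; simp
    rw [this, L.univ]; simp
  | succ M ih =>
    have h1 := ih (fun i => G i.succ) (fun i => hG _) fun i => h _
    have e : (⋂ i, G i) = G 0 ∩ ⋂ i : Fin M, G i.succ := by
      ext ω
      simp only [Set.mem_iInter, Set.mem_inter_iff]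
      exact Fin.forall_fin_succ
    rw [e]
    have h2 := assoc_lower L (hG 0) (isLowerSet_iInter fun i : Fin M => hG i.succ)
    have h3 := h 0
    rw [pow_succ']
    calc δ * δ ^ M ≤ L.p (G 0) * L.p (⋂ i : Fin M, G i.succ) :=
          mul_le_mul h3 h1 (pow_nonneg hδ _) (L.nonneg _)
      _ ≤ _ := h2

end fam

/-! ### the bridge -/

theorem layer_iff {S : Set P2} {n : ℕ} : Layer S 0 n (2 * n) ↔
    ∀ u v : P2, u ∉ Bb (2 * n) → v ∈ Bb n → ¬ Relation.ReflTransGen (StepIn Sᶜ) u v := by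
  unfold Layer
  have e1 : bal 0 (n : ℤ) = Bb n := bal_eq n
  have e2 : bal 0 (2 * (n : ℤ)) = Bb (2 * n) := by
    rw [← bal_eq]; push_cast; rfl
  rw [e1, e2]

theorem univ_layer (n : ℕ) : (Set.univ : Set P2) ∈ {ω : Set P2 | Layer ω 0 n (2 * n)} := by
  show Layer Set.univ 0 n (2 * n)
  rw [layer_iff]
  intro u v hu hv p
  rcases Relation.ReflTransGen.cases_head p with h | ⟨c, h, _⟩
  · subst h
    apply hu
    obtain ⟨h1, h2, h3⟩ := hv
    have : (n : ℤ) ≤ ((2 * n : ℕ) : ℤ) := by push_cast; omega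
    exact ⟨h1.trans this, h2.trans this, h3.trans this⟩
  · exact h.1 trivial

theorem univ_not_layer (n : ℕ) :
    (Set.univ : Set P2) ∈ {ω : Set P2 | ¬ Layer ωᶜ 0 n (2 * n)} := by
  show ¬ Layer (Set.univ)ᶜ 0 n (2 * n)
  rw [layer_iff]
  intro h
  have hu : (((2 * n + 1 : ℕ) : ℤ), 0) ∉ Bb (2 * n) := by
    unfold Bb
    simp only [Set.mem_ofPred_eq, abs_le]
    push_cast
    omega
  have hv : ((0 : ℤ), (0 : ℤ)) ∈ Bb n := by
    unfold Bb
    simp
  refine h _ _ hu hv ?_
  rw [compl_compl]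
  exact Crest.Agent.R144.Pst967.path_h 0 _ 0 fun _ _ _ => Set.mem_univ _

/-- **the bridge** -/
theorem qrsw_of (hQ : QF) : QRSW := by
  intro c0 hc0
  obtain ⟨M1, hM1⟩ := Play948.pLay 3240
  obtain ⟨η', hη', k, J0, hJ⟩ := hQ (c0 / (2 * (M1 + 1))) (by positivity)
  obtain ⟨M2, hM2⟩ := Play948.pLay (3240 * k)
  set η : ℝ := min (min (η' / 16) (c0 / (16 * (M1 + 1)))) ((η' / 2) ^ M2 / 2) with hη
  have hηpos : 0 < η := by
    rw [hη]
    refine lt_min (lt_min ?_ ?_) ?_ <;> positivity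
  have hη1 : η ≤ η' / 16 := (min_le_left _ _).trans (min_le_left _ _)
  have hη2 : η ≤ c0 / (16 * (M1 + 1)) := (min_le_left _ _).trans (min_le_right _ _)
  have hη3 : η ≤ (η' / 2) ^ M2 / 2 := min_le_right _ _
  refine ⟨η, 180, 18 * 180 ^ (J0 + 9 * k + 9), hηpos, ?_⟩
  intro n hn L hinv hred
  -- the size
  set J := Nat.log 180 (n / 18) with hJdef
  set T := 180 ^ J with hT
  have hn18 : 180 ^ (J0 + 9 * k + 9) ≤ n / 18 := by
    rw [Nat.le_div_iff_mul_le (by norm_num)]
    linarith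
  have hpos : 0 < n / 18 := lt_of_lt_of_le (by positivity) hn18
  have hJle : J0 + 9 * k + 9 ≤ J := by
    rw [hJdef]
    exact Nat.le_log_of_pow_le (by norm_num) hn18
  have hTn : 18 * T ≤ n := by
    have := Nat.pow_log_le_self 180 hpos.ne'
    rw [← hJdef, ← hT, Nat.le_div_iff_mul_le (by norm_num)] at this
    linarith
  have hnT : n ≤ 3240 * T := by
    have := Nat.lt_pow_succ_log_self (b := 180) (by norm_num) (n / 18)
    rw [← hJdef, pow_succ, ← hT] at this
    omega
  have hTJ : J < T := by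
    rw [hT]; exact Nat.lt_pow_self (by norm_num)
  -- the law
  have hI : Inv (toLw L) (60 * n) (2 * η) := inv_of hηpos.le (by omega) hinv
  have hI' : Inv (toLw L) (60 * n) η' := by
    have hle : 2 * η ≤ η' := by linarith
    exact ⟨fun t h1 h2 E hE hl => (hI.tr t h1 h2 E hE hl).trans hle,
      fun E hE hl => (hI.ro E hE hl).trans hle, fun E hE hl => (hI.sg E hE hl).trans hle⟩
  -- the red layer has small probability
  have hredp : (toLw L).p {ω | Layer ωᶜ 0 n (2 * n)} ≤ η := by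
    have h1 := p_compl (toLw L) {ω | Layer ωᶜ 0 n (2 * n)}
    have h2 : {ω : Set P2 | Layer ωᶜ 0 n (2 * n)}ᶜ = {ω | ¬ Layer ωᶜ 0 n (2 * n)} := rfl
    rw [h2] at h1
    have h3 := toLw_of_mem L (univ_not_layer n)
    linarith
  -- no red long crossings
  have hrh : ∀ t : ℕ, T ≤ k * t → t ≤ T → (toLw L).p (rhard t) ≤ η' := by
    intro t h1 h2
    by_contra hcon
    push Not at hcon
    have hk : 1 ≤ k := by
      rcases Nat.eq_zero_or_pos k with h3 | h3
      · rw [h3] at h1; omega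
      · exact h3
    have ht9 : 9 ≤ t := by
      by_contra h3
      have : k * t ≤ k * 8 := Nat.mul_le_mul_left k (by omega)
      omega
    have h3240 : n ≤ 3240 * k * t := by
      calc n ≤ 3240 * T := hnT
        _ ≤ 3240 * (k * t) := Nat.mul_le_mul_left _ h1
        _ = 3240 * k * t := by ring
    obtain ⟨g, hg, hgl⟩ := hM2 n t ht9 (by omega) h3240
    have hG : ∀ i, IsLowerSet (act (g i) (rhard t)) := fun i => act_lower (rhard_lower t)
    have hnear : ∀ i, η' / 2 ≤ (toLw L).p (act (g i) (rhard t)) := by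
      intro i
      have hup : IsUpperSet (rhard t)ᶜ := (rhard_lower t).compl
      have h4 := pl_near hI (by linarith) (isPl_mono (by omega) (hg i)) hup
        (loc_rhard (by omega) (by omega))
      rw [act_compl, p_compl, p_compl] at h4
      have h5 := abs_le.1 h4
      linarith [h5.1, h5.2]
    have h6 := fkg_lower (toLw L) (fun i => act (g i) (rhard t)) (η' / 2) (by positivity) hG hnear
    have h7 : (⋂ i, act (g i) (rhard t)) ⊆ {ω | Layer ωᶜ 0 n (2 * n)} := by
      intro ω hω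
      rw [Set.mem_iInter] at hω
      show Layer ωᶜ 0 n (2 * n)
      rw [layer_iff]
      exact hgl ωᶜ fun i => hω i
    have h8 := p_mono (toLw L) h7
    have h9 : 0 < (η' / 2) ^ M2 := by positivity
    linarith
  have hhard := hJ J (by omega) (toLw L) (60 * n) hI' (by
    rw [← hT]; omega) (by rw [← hT]; exact hrh)
  rw [← hT] at hhard
  -- blue layer
  obtain ⟨g, hg, hgl⟩ := hM1 n T (by omega) hTn hnT
  have hδ : ∀ i, (toLw L).p (act (g i) (hard T))ᶜ ≤ c0 / (M1 + 1) := by
    intro i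
    have h4 := pl_near hI (by linarith) (isPl_mono (by omega) (hg i)) (hard_upper T)
      (loc_hard (by omega) (by omega))
    have h5 := abs_le.1 h4
    rw [p_compl]
    have h6 : c0 / (2 * (M1 + 1)) + 8 * (c0 / (16 * (M1 + 1))) = c0 / (M1 + 1) := by
      field_simp
      ring
    linarith [h5.1, h5.2]
  have h1 := union_bound (toLw L) (fun i => act (g i) (hard T)) _ hδ
  have h2 : (⋂ i, act (g i) (hard T)) ⊆ {ω | Layer ω 0 n (2 * n)} := by
    intro ω hω
    rw [Set.mem_iInter] at hω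
    show Layer ω 0 n (2 * n)
    rw [layer_iff]
    exact hgl ω fun i => hω i
  have h3 := p_mono (toLw L) h2
  have h4 : (M1 : ℝ) * (c0 / (M1 + 1)) ≤ c0 := by
    rw [mul_div_assoc', div_le_iff₀ (by positivity)]
    nlinarith
  have h5 := toLw_of_mem L (univ_layer n)
  linarith

end Crest.Agent.R144.Qbr356
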