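import Crest.Agent.R144.Mk3_696

/-!
# R144, marked model, part 4: helper121's ONE (helper696)

`one` : if a layer of `{y}` (closed for the second representation) separates `ball a (m+1)` from the outside of
`ball a N` with probability `q` under `E3 c F`, then there is a simply connected `D`, `ball a m ⊆ D ⊆ ball a (N+1)`,
such that `q * P_D (no closed layer in A(u, 2u)) ≤ 4 * P_F (a minus closed path crosses A(u, 2u))`.
-/

set_option autoImplicit false
set_option linter.unusedSectionVars false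

noncomputable section

namespace Crest.Agent.R144.Mk696

open Finset
open Crest.Agent.R144.It844 (P2 Lip adj_symm adj_iff adj_comm lip_iff)
open Crest.ProbabilityR.HexHeights (Adj)
open Crest.Agent.R144.Zg349 Crest.Agent.R144.Zd349 Crest.Agent.R144.Zm349 Crest.Agent.R144.Ze349
open Crest.Agent.R144.Zs349
open Crest.Agent.R144.Rsw867
open Crest.Agent.R144.Xc851 (C3 fst3 snd3 ew3 wt3 E3 EX V3 E3_fst EX_eq S2 avz avy kz ky E3_cond E3_cond'
  E3_rf rf3 rf3_s2 rf3_s1 E3_mono E3_congr E3_add E3_smul E3_sub E3_nonneg E3_const sum_zs_prod kz_sum ky_sum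
  EX_mono EX_congr EX_nonneg VX EX_add EX_smul)

theorem mono_path {S1 S2 : Set P2} (h : ∀ x ∈ S1, ∀ y ∈ S2, ¬ Adj x y) {u v : P2} (hu : u ∈ S1)
    (p : Relation.ReflTransGen (StepIn (S1 ∪ S2)) u v) : v ∈ S1 ∧ Relation.ReflTransGen (StepIn S1) u v := by
  induction p with
  | refl => exact ⟨hu, Relation.ReflTransGen.refl⟩
  | @tail b d _ h2 ih =>
    have hd : d ∈ S1 := by
      rcases h2.2.1 with h3 | h3
      · exact h3
      · exact absurd h2.2.2 (h b ih.1 d h3)
    exact ⟨hd, ih.2.tail ⟨ih.1, hd, h2.2.2⟩⟩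

/-- no crossing by `S1` and none by `S2`, non-adjacent: no crossing by `S1 ∪ S2` -/
theorem sepr_compl_union {S1 S2 : Set P2} (h : ∀ x ∈ S1, ∀ y ∈ S2, ¬ Adj x y) {a : P2} {m N : ℕ}
    (h1 : Sepr S1ᶜ a m N) (h2 : Sepr S2ᶜ a m N) : Sepr (S1 ∪ S2)ᶜ a m N := by
  intro u v hu hv p
  rw [compl_compl] at p
  rcases Relation.ReflTransGen.cases_head p with h3 | ⟨w, h3, _⟩
  · subst h3
    exact h1 u u hu hv Relation.ReflTransGen.refl
  · rcases h3.1 with h4 | h4
    · exact h1 u v hu hv (by rw [compl_compl]; exact (mono_path h h4 p).2)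
    · rw [Set.union_comm] at p
      exact h2 u v hu hv (by
        rw [compl_compl]
        exact (mono_path (fun x hx y hy ha => h y hy x hx (adj_symm ha)) h4 p).2)

/-- triangles closed for the second representation with second colour `b` -/
def yT (b : Bool) (ω : C3) : Set P2 := {x | ω.2.2 x = true ∧ s2 (ω.1 x) = b}

open Classical in
/-- some `yT b` path crosses the annulus -/
def yG (b : Bool) (a : P2) (m N : ℕ) (ω : C3) : ℝ := if Sepr (yT b ω)ᶜ a m N then 0 else 1

theorem yG_nonneg (b : Bool) (a : P2) (m N : ℕ) (ω : C3) : 0 ≤ yG b a m N ω := by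
  unfold yG; split_ifs <;> norm_num

/-- both signs have the same probability -/
theorem E3_yG (c : ℝ) {D : Finset P2} {a : P2} {m N : ℕ} (hmN : m ≤ N) (hD : ball a (N + 1) ⊆ D) (b : Bool) :
    E3 c D (yG b a m N) = E3 c D (yG (!b) a m N) := by
  rw [← E3_rf c D (yG b a m N)]
  refine E3_congr fun ω _ => ?_
  unfold yG
  have key : Sepr (yT b (rf3 D ω))ᶜ a m N ↔ Sepr (yT (!b) ω)ᶜ a m N := by
    have h1 : ∀ t ∈ ball a (N + 1), (t ∈ (yT b (rf3 D ω))ᶜ ↔ t ∈ (yT (!b) ω)ᶜ) := by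
      intro t ht
      rw [Set.mem_compl_iff, Set.mem_compl_iff, not_iff_not]
      unfold yT
      simp only [Set.mem_ofPred_eq]
      rw [rf3_s2 (mem_VF.2 ⟨t, hD ht, base_mem_up t⟩)]
      have e : (rf3 D ω).2.2 t = ω.2.2 t := rfl
      rw [e]
      generalize s2 (ω.1 t) = x
      generalize ω.2.2 t = y
      revert x y b
      decide
    exact ⟨Sepr.congr hmN fun t ht _ h => (h1 t ht).1 h, Sepr.congr hmN fun t ht _ h => (h1 t ht).2 h⟩
  by_cases h : Sepr (yT (!b) ω)ᶜ a m N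
  · rw [if_pos h, if_pos (key.2 h)]
  · rw [if_neg h, if_neg fun h' => h (key.1 h')]

/-- no crossing by `y`-closed triangles of either sign: a layer of triangles closed for the first representation -/
theorem layer_of {c : ℝ} {D : Finset P2} {a : P2} {m N : ℕ} (hmN : m ≤ N) (hD : ball a (N + 1) ⊆ D) {ω : C3}
    (hω : V3 c D ω) (h1 : Sepr (yT true ω)ᶜ a m N) (h2 : Sepr (yT false ω)ᶜ a m N) :
    Sepr {t | ω.2.1 t = true} a m N := by
  set W : Set P2 := (ball a (N + 1) : Set P2) with hW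
  have far : ∀ x ∈ yT true ω ∩ W, ∀ y ∈ yT false ω ∩ W, ¬ Adj x y := by
    rintro x ⟨⟨hx1, hx2⟩, hxW⟩ y ⟨⟨hy1, hy2⟩, hyW⟩ ha
    obtain ⟨v, h3, h4⟩ := adj_site ha
    have key : ∀ t, t ∈ ball a (N + 1) → ω.2.2 t = true → ∀ v ∈ up t, s2 (ω.1 v) = s2 (ω.1 t) := by
      intro t ht hy v hv
      obtain ⟨e1, e2⟩ := hω.c2_y (hD ht) hy
      obtain ⟨i, rfl⟩ := mem_up_iff.1 hv
      fin_cases i
      · rfl
      · exact e1.symm
      · exact e2.symm
    have e1 := key x hxW hx1 v h3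
    have e2 := key y hyW hy1 v h4
    rw [e1, hx2, hy2] at e2
    exact absurd e2 (by decide)
  have h3 := sepr_compl_union far
    (h1.mono (Set.compl_subset_compl.2 Set.inter_subset_left))
    (h2.mono (Set.compl_subset_compl.2 Set.inter_subset_left))
  refine h3.congr hmN fun t ht _ h4 => ?_
  show ω.2.1 t = true
  rcases hω.disj t with h5 | h5
  · exact h5
  · exfalso
    apply h4
    rcases hb : s2 (ω.1 t) with _ | _
    · exact Or.inr ⟨⟨h5, hb⟩, ht⟩
    · exact Or.inl ⟨⟨h5, hb⟩, ht⟩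

open Classical in
/-- minus closed crossing -/
def mG (a : P2) (m N : ℕ) (ω : Cfg) : ℝ := if Sepr {x | mC ω x}ᶜ a m N then 0 else 1

theorem mG_in1 {A : Finset P2} {a : P2} {m N : ℕ} (hmN : m ≤ N) (hA : ball a (N + 1) ⊆ A) :
    In1 A (mG a m N) := by
  intro ω ω' h1 h2
  have key : ∀ t ∈ ball a (N + 1), (mC ω t ↔ mC ω' t) := fun t ht => by
    unfold mC
    rw [h1 t (hA ht), h2 t (hA ht)]
  have h3 : Sepr {x | mC ω x}ᶜ a m N ↔ Sepr {x | mC ω' x}ᶜ a m N :=
    ⟨Sepr.congr hmN fun t ht _ h h' => h ((key t ht).2 h'),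
      Sepr.congr hmN fun t ht _ h h' => h ((key t ht).1 h')⟩
  unfold mG
  by_cases h : Sepr {x | mC ω x}ᶜ a m N
  · rw [if_pos h, if_pos (h3.1 h)]
  · rw [if_neg h, if_neg fun h' => h (h3.2 h')]

theorem mG_ind (a : P2) (m N : ℕ) : mG a m N = ind {ω | ¬ Sepr {x | ¬ mC ω x} a m N} := by
  funext ω
  by_cases h : Sepr {x | ¬ mC ω x} a m N
  · rw [ind_of_not_mem (A := {ω | ¬ Sepr {x | ¬ mC ω x} a m N}) (fun h' => h' h)]
    exact if_pos h
  · rw [ind_of_mem (A := {ω | ¬ Sepr {x | ¬ mC ω x} a m N}) h]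
    exact if_neg h

open Classical in
/-- **ONE.** -/
theorem one {c : ℝ} (hc : 1 ≤ c) (hc2 : c ≤ 2) {F : Finset P2} {a : P2} {m N u u' : ℕ} (hmN : m + 1 ≤ N)
    (hF : ball a (N + 2) ⊆ F) (huu : u ≤ u') (hu : u' + 1 ≤ m) :
    ∃ D : Finset P2, SC D ∧ ball a m ⊆ D ∧ D ⊆ ball a (N + 1) ∧
      E3 c F (fun ω => if Sepr {t | ω.2.2 t = true} a (m + 1) N then 1 else 0) *
        (1 - Pr c D {w | Sepr {x | w.2 x = true} a u u'}) ≤
          4 * Pr c F {w | ¬ Sepr {x | ¬ mC w x} a u u'} := by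
  obtain ⟨e, D, h1, h2, h3, h4⟩ := one_dom3 hc hc2 hmN hF
    (mG_in1 (a := a) (m := u) (N := u') huu (ball_mono a hu))
    (fun ω => by unfold mG; split_ifs <;> norm_num)
  refine ⟨D, h1, h2, h3, ?_⟩
  have hD : ball a (u' + 1) ⊆ D := (ball_mono a hu).trans h2
  set q := E3 c F (fun ω => if Sepr {t | ω.2.2 t = true} a (m + 1) N then 1 else 0) with hq
  have hq0 : 0 ≤ q := E3_nonneg hc hc2 fun ω _ => by split_ifs <;> norm_num
  have e1 : E3 c D (fun ω => mG a u u' (Xc851.ng (addH (off e) (fst3 ω)).1, ω.2.2)) =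
      E3 c D (yG (!e) a u u') := by
    refine E3_congr fun ω _ => ?_
    unfold mG yG
    have : {x | mC (Xc851.ng (addH (off e) (fst3 ω)).1, ω.2.2) x} = yT (!e) ω := by
      ext x
      unfold mC yT
      simp only [Set.mem_ofPred_eq, Xc851.s1_ng, addH, fst3, s2_off]
      generalize s2 (ω.1 x) = p
      generalize ω.2.2 x = r
      clear h4
      revert p r
      cases e <;> decide
    rw [this]
  have e2 : E3 c D (yG e a u u') = E3 c D (yG (!e) a u u') := E3_yG c huu hD e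
  have e3 : 1 - Pr c D {w | Sepr {x | w.2 x = true} a u u'} ≤ 2 * E3 c D (yG (!e) a u u') := by
    have h5 : Pr c D {w | Sepr {x | w.2 x = true} a u u'} =
        E3 c D (fun ω => if Sepr {x | ω.2.1 x = true} a u u' then 1 else 0) := by
      rw [Pr_eq, ← E3_fst]
      refine E3_congr fun ω _ => ?_
      rfl
    have h7 : 2 * E3 c D (yG (!e) a u u') = E3 c D (yG e a u u') + E3 c D (yG (!e) a u u') := by
      rw [e2]; ring
    rw [h5, h7, ← E3_add]
    nth_rewrite 1 [← E3_const hc D 1]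
    rw [← E3_sub]
    refine E3_mono hc hc2 fun ω hω => ?_
    by_cases h8 : Sepr {x | ω.2.1 x = true} a u u'
    · rw [if_pos h8, sub_self]
      exact add_nonneg (yG_nonneg _ _ _ _ _) (yG_nonneg _ _ _ _ _)
    · rw [if_neg h8, sub_zero]
      by_contra h9
      push Not at h9
      have g1 : Sepr (yT e ω)ᶜ a u u' := by
        by_contra h10
        have : yG e a u u' ω = 1 := if_neg h10
        have := yG_nonneg (!e) a u u' ω
        linarith
      have g2 : Sepr (yT (!e) ω)ᶜ a u u' := by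
        by_contra h10
        have : yG (!e) a u u' ω = 1 := if_neg h10
        have := yG_nonneg e a u u' ω
        linarith
      refine h8 ?_
      rcases e with _ | _
      · exact layer_of huu hD hω g2 g1
      · exact layer_of huu hD hω g1 g2
  rw [e1] at h4
  rw [Pr_eq c F, ← mG_ind]
  calc q * (1 - Pr c D {w | Sepr {x | w.2 x = true} a u u'}) ≤ q * (2 * E3 c D (yG (!e) a u u')) :=
        mul_le_mul_of_nonneg_left e3 hq0
    _ = 2 * (q * E3 c D (yG (!e) a u u')) := by ring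
    _ ≤ 2 * (2 * E c F (mG a u u')) := by linarith
    _ = 4 * E c F (mG a u u') := by ring

end Crest.Agent.R144.Mk696
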