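import Crest.Agent.R144.Rw2_146

/-!
# R144, R1 top (helper756): the ordered mixture of the maximal laws

`mx c n a b f` = average over `K ∈ [a, b)` of `E c (hexB (K * n)) f`:
* linear, positive, normalised;
* `mx_assoc` : positive association (Chebyshev, the family is ordered by `dom_mono`);
* `Col` : an increasing equivariant site colouring (`plusS`, `plusC`, `nMin`);
* `mx_inv` : approximate invariance, error `C / (b - a)`, for all increasing events at once.
-/

set_option autoImplicit false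
set_option linter.unusedVariables false

noncomputable section

namespace Crest.Agent.R144.Qp756

open Finset
open Crest.Agent.R144.It844 (P2 adj_iff)
open Crest.Agent.R144.Zg349 Crest.Agent.R144.Zd349 Crest.Agent.R144.Zm349 Crest.Agent.R144.Ze349
open Crest.Agent.R144.Zf349
open Crest.Agent.R144.Pst967 (hexB mem_hexB hexB_mono conn_hexB stepIn_symm path_symm)
open Crest.Agent.R144.Rsw867 Crest.Agent.R144.Rw146
open Crest.ProbabilityR.HexHeights (Adj)

/-! ### the mixture -/

/-- average over `K ∈ [a, b)` of the maximal laws on `hexB (K n)` -/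
def mx (c : ℝ) (n a b : ℕ) (f : Cfg → ℝ) : ℝ :=
  (∑ K ∈ Finset.Ico a b, E c (hexB (K * n)) f) / ((b : ℝ) - a)

theorem den_pos {a b : ℕ} (h : a < b) : (0 : ℝ) < (b : ℝ) - a := by
  have : (a : ℝ) < b := by exact_mod_cast h
  linarith

theorem card_den {a b : ℕ} (h : a < b) : ((Finset.Ico a b).card : ℝ) = (b : ℝ) - a := by
  rw [Nat.card_Ico, Nat.cast_sub h.le]

theorem mx_add (c : ℝ) (n a b : ℕ) (f g : Cfg → ℝ) :
    mx c n a b (fun ω => f ω + g ω) = mx c n a b f + mx c n a b g := by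
  simp only [mx, E_add, Finset.sum_add_distrib, add_div]

theorem mx_sub (c : ℝ) (n a b : ℕ) (f g : Cfg → ℝ) :
    mx c n a b (fun ω => f ω - g ω) = mx c n a b f - mx c n a b g := by
  simp only [mx, E_sub, Finset.sum_sub_distrib, sub_div]

theorem mx_smul (c : ℝ) (n a b : ℕ) (r : ℝ) (f : Cfg → ℝ) :
    mx c n a b (fun ω => r * f ω) = r * mx c n a b f := by
  simp only [mx, E_smul, ← Finset.mul_sum, mul_div_assoc]

theorem mx_const {c : ℝ} (hc : 1 ≤ c) {n a b : ℕ} (h : a < b) (r : ℝ) :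
    mx c n a b (fun _ => r) = r := by
  have hd := den_pos h
  simp only [mx, E_const hc, Finset.sum_const, nsmul_eq_mul]
  rw [card_den h]
  field_simp

theorem mx_mono {c : ℝ} (hc : 1 ≤ c) {n a b : ℕ} (h : a < b) {f g : Cfg → ℝ}
    (hfg : ∀ F ω, Valid F ω → f ω ≤ g ω) : mx c n a b f ≤ mx c n a b g :=
  div_le_div_of_nonneg_right (Finset.sum_le_sum fun K _ => E_mono hc fun ω hω => hfg _ ω hω)
    (den_pos h).le

theorem mx_congr {c : ℝ} {n a b : ℕ} {f g : Cfg → ℝ}
    (hfg : ∀ F ω, Valid F ω → f ω = g ω) : mx c n a b f = mx c n a b g := by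
  unfold mx
  rw [Finset.sum_congr rfl fun K _ => E_congr fun ω hω => hfg _ ω hω]

theorem mx_nonneg {c : ℝ} (hc : 1 ≤ c) {n a b : ℕ} (h : a < b) {f : Cfg → ℝ}
    (hf : ∀ F ω, Valid F ω → 0 ≤ f ω) : 0 ≤ mx c n a b f :=
  div_nonneg (Finset.sum_nonneg fun K _ => E_nonneg hc fun ω hω => hf _ ω hω) (den_pos h).le

theorem sc_hexB (n : ℕ) : SC (hexB n) := by
  rw [← ball_zero_eq]
  exact sc_ball 0 n

/-- the family is ordered -/
theorem E_anti {c : ℝ} (hc : 1 ≤ c) {n K K' : ℕ} (h : K ≤ K') {f : Cfg → ℝ} (hf : IncP f) :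
    E c (hexB (K' * n)) f ≤ E c (hexB (K * n)) f :=
  dom_mono hc (sc_hexB _) (sc_hexB _) (hexB_mono (Nat.mul_le_mul_right n h)) hf

theorem mx_le_left {c : ℝ} (hc : 1 ≤ c) {n a b : ℕ} (h : a < b) {f : Cfg → ℝ} (hf : IncP f) :
    mx c n a b f ≤ E c (hexB (a * n)) f := by
  rw [mx, div_le_iff₀ (den_pos h), ← card_den h, mul_comm, ← nsmul_eq_mul]
  exact Finset.sum_le_card_nsmul _ _ _ fun K hK => E_anti hc (Finset.mem_Ico.1 hK).1 hf

theorem right_le_mx {c : ℝ} (hc : 1 ≤ c) {n a b : ℕ} (h : a < b) {f : Cfg → ℝ} (hf : IncP f) :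
    E c (hexB (b * n)) f ≤ mx c n a b f := by
  rw [mx, le_div_iff₀ (den_pos h), ← card_den h, mul_comm, ← nsmul_eq_mul]
  exact Finset.card_nsmul_le_sum _ _ _ fun K hK => E_anti hc (Finset.mem_Ico.1 hK).2.le hf

/-- **the ordered mixture is positively associated** -/
theorem mx_assoc {c : ℝ} (hc : 1 ≤ c) {n a b : ℕ} (h : a < b) {f g : Cfg → ℝ} (hf : IncP f)
    (hg : IncP g) : mx c n a b f * mx c n a b g ≤ mx c n a b (fun ω => f ω * g ω) := by
  have hd := den_pos h
  have hm : MonovaryOn (fun K : ℕ => E c (hexB (K * n)) f) (fun K : ℕ => E c (hexB (K * n)) g)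
      (Finset.Ico a b : Finset ℕ) := by
    intro i _ j _ hij
    rcases le_total i j with h | h
    · exact absurd (E_anti (n := n) hc h hg) (not_le.2 hij)
    · exact E_anti hc h hf
  have h1 := hm.sum_mul_sum_le_card_mul_sum
  have h2 : ∑ K ∈ Finset.Ico a b, E c (hexB (K * n)) f * E c (hexB (K * n)) g ≤
      ∑ K ∈ Finset.Ico a b, E c (hexB (K * n)) (fun ω => f ω * g ω) :=
    Finset.sum_le_sum fun K _ => assoc hc (sc_hexB _) hf hg
  rw [card_den h] at h1
  unfold mx
  rw [div_mul_div_comm, div_le_div_iff₀ (mul_pos hd hd) hd]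
  have h3 := mul_le_mul_of_nonneg_left h2 hd.le
  nlinarith [mul_le_mul_of_nonneg_right (h1.trans h3) hd.le]

end Crest.Agent.R144.Qp756
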