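import Crest.Agent.R144.Th0_121
import Crest.Agent.R144.Qp1_756

/-!
# R144, block R2 (THM2), mixing (helper121, over Qp1_756)

* `ColE` : an increasing, equivariant colouring of the triangles (`pC`, `¬ mC`);
* `mixL` : the law of the colouring under the ordered mixture;
* `mixP` : `MixP c col`, with `colE_p`, `colE_m` the two instances.
-/

set_option autoImplicit false
set_option linter.unusedVariables false

noncomputable section

namespace Crest.Agent.R144.Th121

open Finset
open Crest.Agent.R144.It844 (P2 adj_iff adj_symm)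
open Crest.Agent.R144.Zg349 Crest.Agent.R144.Zd349 Crest.Agent.R144.Zm349 Crest.Agent.R144.Ze349
open Crest.Agent.R144.Zs349 (closed_c1)
open Crest.Agent.R144.Pst967 (hexB mem_hexB hexB_mono conn_hexB stepIn_symm path_symm)
open Crest.Agent.R144.Rsw867
open Crest.Agent.R144.Rw146
open Crest.Agent.R144.Qr315 (Law Layer pre Loc bal)
open Crest.Agent.R144.Qp756 (mx mx_add mx_const mx_mono mx_nonneg mx_assoc mx_le_left right_le_mx den_pos
  card_den)

/-- an increasing equivariant colouring -/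
structure ColE (c : ℝ) (col : Cfg → Set P2) : Prop where
  inc : ∀ ω ω', LeP ω ω' → col ω ⊆ col ω'
  equi : ∀ {σ τ : P2 ≃ P2}, Aut σ τ → ∀ {F : Finset P2} {ω : Cfg}, Valid F ω → wt c F ω ≠ 0 →
    col (actC σ τ ω) = τ ⁻¹' col ω

theorem s1_act {c : ℝ} {σ τ : P2 ≃ P2} (h : Aut σ τ) {F : Finset P2} {ω : Cfg} (hω : Valid F ω)
    (hw : wt c F ω ≠ 0) {t : P2} (ht : ω.2 (τ t) = true) : s1 (ω.1 (σ t)) = s1 (ω.1 (τ t)) :=
  closed_c1 hω hw ht ((h t t).2 (base_mem_up t))

theorem colE_p (c : ℝ) : ColE c (fun ω => {x | pC ω x}) where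
  inc := fun ω ω' h t ht => h.p t ht
  equi := by
    intro σ τ h F ω hω hw
    ext t
    show ω.2 (τ t) = true ∧ s1 (ω.1 (σ t)) = true ↔ ω.2 (τ t) = true ∧ s1 (ω.1 (τ t)) = true
    constructor
    · rintro ⟨h1, h2⟩
      exact ⟨h1, by rw [← s1_act h hω hw h1]; exact h2⟩
    · rintro ⟨h1, h2⟩
      exact ⟨h1, by rw [s1_act h hω hw h1]; exact h2⟩

theorem colE_m (c : ℝ) : ColE c (fun ω => {x | ¬ mC ω x}) where
  inc := fun ω ω' h t (ht : ¬ mC ω t) (h' : mC ω' t) => ht (h.m t h')
  equi := by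
    intro σ τ h F ω hω hw
    ext t
    show ¬ (ω.2 (τ t) = true ∧ s1 (ω.1 (σ t)) = false) ↔ ¬ (ω.2 (τ t) = true ∧ s1 (ω.1 (τ t)) = false)
    refine not_congr ?_
    constructor
    · rintro ⟨h1, h2⟩
      exact ⟨h1, by rw [← s1_act h hω hw h1]; exact h2⟩
    · rintro ⟨h1, h2⟩
      exact ⟨h1, by rw [s1_act h hω hw h1]; exact h2⟩

theorem ColE.incP {c : ℝ} {col : Cfg → Set P2} (h : ColE c col) {A : Set (Set P2)} (hA : IsUpperSet A) :
    IncP (ind {ω | col ω ∈ A}) := fun ω ω' hl => ind_le_ind fun hω => hA (h.inc ω ω' hl) hω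

theorem ColE.incS {c : ℝ} {col : Cfg → Set P2} (h : ColE c col) {A : Set (Set P2)} (hA : IsUpperSet A) :
    IncS {ω | col ω ∈ A} := fun ω ω' hl hω => hA (h.inc ω ω' hl) hω

/-- transport -/
theorem ColE.act {c : ℝ} (hc : 1 ≤ c) {col : Cfg → Set P2} (h : ColE c col) {σ τ : P2 ≃ P2}
    (ha : Aut σ τ) {F F0 : Finset P2} (hF : F0.map τ.toEmbedding = F) (A : Set (Set P2)) :
    Pr c F {ω | col ω ∈ pre τ A} = Pr c F0 {ω | col ω ∈ A} := by
  have h1 := Pr_map ha c F0 {ω | col ω ∈ A}
  rw [hF] at h1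
  rw [← h1]
  refine le_antisymm (Pr_le_supp hc fun ω hω hw h2 => ?_) (Pr_le_supp hc fun ω hω hw h2 => ?_)
  · show col (actC σ τ ω) ∈ A
    rw [h.equi ha hω hw]
    exact h2
  · have h3 : col (actC σ τ ω) ∈ A := h2
    rw [h.equi ha hω hw] at h3
    exact h3

/-- the law of the colouring under the ordered mixture -/
def mixL {c : ℝ} (hc : 1 ≤ c) {col : Cfg → Set P2} (h : ColE c col) (n : ℕ) {a b : ℕ} (hab : a < b) :
    Law where
  P A := mx c n a b (ind {ω | col ω ∈ A})
  nonneg A := mx_nonneg hc hab fun _ ω _ => ind_nonneg _ ω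
  univ := by
    have e : ind {ω : Cfg | col ω ∈ (Set.univ : Set (Set P2))} = fun _ => (1 : ℝ) := by
      funext ω
      exact ind_of_mem (Set.mem_univ (col ω))
    rw [e, mx_const hc hab]
  mono A B hAB := mx_mono hc hab fun _ ω _ => ind_le_ind fun hω => hAB hω
  modular A B := by
    rw [← mx_add, ← mx_add]
    congr 1
    funext ω
    by_cases hA : col ω ∈ A <;> by_cases hB : col ω ∈ B <;>
      simp [ind, hA, hB]
  fkg A B hA hB := by
    refine (mx_assoc hc hab (h.incP hA) (h.incP hB)).trans (le_of_eq ?_)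
    congr 1
    funext ω
    by_cases hA' : col ω ∈ A <;> by_cases hB' : col ω ∈ B <;>
      simp [ind, hA', hB']
  empty := by
    have e : ind {ω : Cfg | col ω ∈ (∅ : Set (Set P2))} = fun _ => (0 : ℝ) := by
      funext ω
      exact ind_of_not_mem (Set.notMem_empty (col ω))
    rw [e, mx_const hc hab]

/-- sums over a shifted interval -/
theorem sum_shift (g : ℕ → ℝ) (h0 : ∀ k, 0 ≤ g k) (h1 : ∀ k, g k ≤ 1) (C a m : ℕ) :
    ∑ k ∈ Finset.Ico a (a + m), g k ≤ ∑ k ∈ Finset.Ico a (a + m), g (k + C) + C := by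
  have e1 : ∑ k ∈ Finset.Ico a (a + m), g (k + C) = ∑ k ∈ Finset.Ico (a + C) (a + m + C), g k := by
    rw [Finset.sum_Ico_add' g a (a + m) C]
  have e2 : ∑ k ∈ Finset.Ico a (a + m + C), g k =
      ∑ k ∈ Finset.Ico a (a + C), g k + ∑ k ∈ Finset.Ico (a + C) (a + m + C), g k := by
    rw [Finset.sum_Ico_consecutive g (by omega) (by omega)]
  have e3 : ∑ k ∈ Finset.Ico a (a + m), g k ≤ ∑ k ∈ Finset.Ico a (a + m + C), g k :=
    Finset.sum_le_sum_of_subset_of_nonneg (Finset.Ico_subset_Ico_right (by omega)) fun k _ _ => h0 k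
  have e4 : ∑ k ∈ Finset.Ico a (a + C), g k ≤ C := by
    refine (Finset.sum_le_card_nsmul _ _ 1 fun k _ => h1 k).trans ?_
    rw [Nat.card_Ico]
    simp
  rw [e1]
  linarith

theorem mx_Pr (c : ℝ) (n a b : ℕ) (A : Set Cfg) :
    mx c n a b (ind A) = (∑ K ∈ Finset.Ico a b, Pr c (hexB (K * n)) A) / ((b : ℝ) - a) := rfl

/-- `mixL` is approximately invariant -/
theorem mixL_inv {c : ℝ} (hc : 1 ≤ c) {col : Cfg → Set P2} (h : ColE c col) {n a M C : ℕ} (hM : 1 ≤ M)
    {ρ : ℝ} (hρ : (C : ℝ) / M ≤ ρ) (hab : a < a + M) : (mixL hc h n hab).Inv (C * n) ρ where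
  tr E hE _ v hv := by
    show mx c n a (a + M) (ind {ω | col ω ∈ E}) ≤
      mx c n a (a + M) (ind {ω | col ω ∈ pre (Qr315.tr v) E}) + ρ
    rw [mx_Pr, mx_Pr]
    have hM0 : (0 : ℝ) < M := by exact_mod_cast hM
    have e : ((a + M : ℕ) : ℝ) - a = M := by push_cast; ring
    rw [e]
    have h1 := sum_shift (fun k => Pr c (hexB (k * n)) {ω | col ω ∈ E}) (fun k => Pr_nonneg hc _ _)
      (fun k => Pr_le_one hc _ _) C a M
    have h2 : ∑ k ∈ Finset.Ico a (a + M), Pr c (hexB ((k + C) * n)) {ω | col ω ∈ E} ≤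
        ∑ k ∈ Finset.Ico a (a + M), Pr c (hexB (k * n)) {ω | col ω ∈ pre (Qr315.tr v) E} := by
      refine Finset.sum_le_sum fun k _ => ?_
      have h3 := h.act hc (aut_tr v) (F := hexB (k * n)) (F0 := ball (-v) (k * n)) ?_ E
      · have h4 : {ω : Cfg | col ω ∈ pre (Qr315.tr v) E} = {ω | col ω ∈ pre (Equiv.addRight v) E} := rfl
        rw [h4, h3]
        refine IncS.mono_dom hc (sc_ball _ _) (sc_hexB _) ?_ (h.incS hE)
        intro x hx
        rw [mem_ball] at hx
        rw [mem_hexB]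
        have hv' : |v.1 - 0| ≤ ((C * n : ℕ) : ℤ) ∧ |v.2 - 0| ≤ ((C * n : ℕ) : ℤ) ∧
          |v.1 - 0 + (v.2 - 0)| ≤ ((C * n : ℕ) : ℤ) := hv
        have e5 : (((k + C) * n : ℕ) : ℤ) = ((k * n : ℕ) : ℤ) + ((C * n : ℕ) : ℤ) := by push_cast; ring
        rw [e5]
        simp only [Prod.fst_neg, Prod.snd_neg, sub_neg_eq_add, sub_zero, abs_le] at hx hv' ⊢
        omega
      · ext w
        rw [Finset.mem_map]
        constructor
        · rintro ⟨u, hu, rfl⟩
          rw [mem_ball'] at hu
          simpa using hu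
        · intro hw
          refine ⟨w - v, ?_, by simp⟩
          rw [mem_ball']
          simpa using hw
    have h3 : (∑ k ∈ Finset.Ico a (a + M), Pr c (hexB (k * n)) {ω | col ω ∈ E}) / M ≤
        (∑ k ∈ Finset.Ico a (a + M), Pr c (hexB (k * n)) {ω | col ω ∈ pre (Qr315.tr v) E} + C) / M :=
      div_le_div_of_nonneg_right (by linarith) hM0.le
    rw [add_div] at h3
    linarith
  rot E hE _ := by
    have hρ0 : 0 ≤ ρ := le_trans (by positivity) hρ
    show mx c n a (a + M) (ind {ω | col ω ∈ E}) ≤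
      mx c n a (a + M) (ind {ω | col ω ∈ pre Qr315.rot E}) + ρ
    rw [mx_Pr, mx_Pr]
    have h2 : ∀ k, Pr c (hexB (k * n)) {ω | col ω ∈ pre Qr315.rot E} =
        Pr c (hexB (k * n)) {ω | col ω ∈ E} := by
      intro k
      have h3 := h.act hc (aut_ro.trans (aut_tr (1, 0))) (F := hexB (k * n)) (F0 := hexB (k * n)) ?_ E
      · have h4 : {ω : Cfg | col ω ∈ pre Qr315.rot E} =
            {ω | col ω ∈ pre (roT.trans (Equiv.addRight (1, 0))) E} := by
          have : Qr315.rot = ⇑(roT.trans (Equiv.addRight (1, 0))) := by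
            funext v
            simp only [Equiv.trans_apply, roT_apply, Equiv.coe_addRight, Qr315.rot]
            ext
            · simp
            · simp
          rw [this]
        rw [h4]
        exact h3
      · ext w
        rw [Finset.mem_map]
        constructor
        · rintro ⟨u, hu, rfl⟩
          simp only [Equiv.coe_toEmbedding, Equiv.trans_apply, roT_apply, Equiv.coe_addRight,
            Prod.mk_add_mk, mem_hexB, abs_le] at *
          omega
        · intro hw
          refine ⟨(w.2, -w.1 - w.2), ?_, ?_⟩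
          · simp only [mem_hexB, abs_le] at *
            omega
          · simp only [Equiv.coe_toEmbedding, Equiv.trans_apply, roT_apply, Equiv.coe_addRight,
              Prod.mk_add_mk]
            ext
            · show -w.2 - (-w.1 - w.2) - 1 + 1 = w.1
              ring
            · show w.2 + 0 = w.2
              ring
    rw [Finset.sum_congr rfl fun k _ => h2 k]
    linarith
  rfx E hE _ := by
    have hρ0 : 0 ≤ ρ := le_trans (by positivity) hρ
    show mx c n a (a + M) (ind {ω | col ω ∈ E}) ≤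
      mx c n a (a + M) (ind {ω | col ω ∈ pre Qr315.rfx E}) + ρ
    rw [mx_Pr, mx_Pr]
    have h2 : ∀ k, Pr c (hexB (k * n)) {ω | col ω ∈ pre Qr315.rfx E} =
        Pr c (hexB (k * n)) {ω | col ω ∈ E} := by
      intro k
      have h3 := h.act hc ((aut_sw.trans aut_ro).trans (aut_tr (1, 0))) (F := hexB (k * n))
        (F0 := hexB (k * n)) ?_ E
      · have h4 : {ω : Cfg | col ω ∈ pre Qr315.rfx E} =
            {ω | col ω ∈ pre ((swE.trans roT).trans (Equiv.addRight (1, 0))) E} := by
          have : Qr315.rfx = ⇑((swE.trans roT).trans (Equiv.addRight (1, 0))) := by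
            funext v
            simp only [Equiv.trans_apply, roT_apply, swE_apply, Equiv.coe_addRight, Qr315.rfx]
            ext
            · show -v.1 - v.2 = -v.2 - v.1 - 1 + 1
              ring
            · show v.2 = v.2 + 0
              ring
          rw [this]
        rw [h4]
        exact h3
      · ext w
        rw [Finset.mem_map]
        constructor
        · rintro ⟨u, hu, rfl⟩
          simp only [Equiv.coe_toEmbedding, Equiv.trans_apply, roT_apply, swE_apply, Equiv.coe_addRight,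
            Prod.mk_add_mk, mem_hexB, abs_le] at *
          omega
        · intro hw
          refine ⟨(-w.1 - w.2, w.2), ?_, ?_⟩
          · simp only [mem_hexB, abs_le] at *
            omega
          · simp only [Equiv.coe_toEmbedding, Equiv.trans_apply, roT_apply, swE_apply,
              Equiv.coe_addRight, Prod.mk_add_mk]
            ext
            · show -w.2 - (-w.1 - w.2) - 1 + 1 = w.1
              ring
            · show w.2 + 0 = w.2
              ring
    rw [Finset.sum_congr rfl fun k _ => h2 k]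
    linarith

/-- **MIX** -/
theorem mixP {c : ℝ} (hc : 1 ≤ c) {col : Cfg → Set P2} (h : ColE c col) : MixP c col := by
  intro C ρ hρ
  obtain ⟨M, hM⟩ := exists_nat_gt ((C : ℝ) / ρ)
  refine ⟨M + 1, fun n Ka hn => ⟨mixL hc h n (show Ka < Ka + (M + 1) by omega), ?_, fun A hA => ?_⟩⟩
  · refine mixL_inv hc h (by omega) ?_ _
    rw [div_lt_iff₀ hρ] at hM
    rw [div_le_iff₀ (by positivity)]
    push_cast
    nlinarith
  · exact ⟨right_le_mx hc (by omega) (h.incP hA), mx_le_left hc (by omega) (h.incP hA)⟩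

end Crest.Agent.R144.Th121
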