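import Crest.Agent.R144.Hf2_702
import Crest.Agent.R144.Pos2_561
import Crest.Agent.R144.Rw2_146
import Crest.Agent.R144.Qr0_315

/-!
# R144, R2 (THM2), block L5 (HEIGHTS), part 1: the law of `{h ≥ 1}` (helper948)

* `EH_fkg`, `E_fkg` : association of monotone functions of the heights under the F-type law;
* `HL c hc F` : the law of the random set `{v | 1 ≤ h v}` under `E c F`, as a `Law` of helper315;
* `HL_aut` : transport by lattice automorphisms;
* `layer_flip` : `{h ≥ 1}`-layers and `{h ≤ 0}`-layers have the same probability;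
* `heights` : under `QRSW`, if the F-type laws around `hexB l` agree up to `c1` in the ball of radius `C n`,
  then `c1 ≤ Pr c (hexB l) (Layer {v | 1 ≤ h v} 0 n (2 n))`.
-/

set_option autoImplicit false
set_option linter.unusedSimpArgs false
set_option linter.unusedVariables false

noncomputable section

namespace Crest.Agent.R144.Ht948

open Finset
open Crest.Agent.R161.Lsm375
open Crest.Agent.R144.It844 (P2 adj_iff adj_symm E3 E3_eq_tw lsm_E3 tw Lip)
open Crest.Agent.R144.Zg349 Crest.Agent.R144.Zd349 Crest.Agent.R144.Zm349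
open Crest.Agent.R144.Hf702 (EH SH E_eq_EH E3_eq_tw' SH_one_pos)
open Crest.Agent.R144.Rsw867
open Crest.Agent.R144.Pst967 (hexB mem_hexB hexB_mono)
open Crest.Agent.R144.Pos561 (rf rf_of_mem rf_of_notMem E_rf)
open Crest.Agent.R144.Rw146
open Crest.Agent.R144.Qr315 (bal Layer Law pre Loc QRSW)
open Crest.ProbabilityR.HexHeights (Adj)

/-! ### association -/

theorem hv_inf {F : Finset P2} {h g : P2 → ℤ} (hh : HV F h) (hg : HV F g) : HV F (h ⊓ g) where
  lip t ht i j := by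
    have h1 := hh.lip t ht i j
    have h2 := hg.lip t ht i j
    simp only [Pi.inf_apply]
    rw [abs_le] at *
    omega
  bd v hv := by
    rcases hh.bd v hv with h1 | h1 <;> rcases hg.bd v hv with h2 | h2 <;>
      simp only [Pi.inf_apply, h1, h2] <;> decide
  off v hv := by
    simp only [Pi.inf_apply, hh.off v hv, hg.off v hv]
    decide

theorem hv_sup {F : Finset P2} {h g : P2 → ℤ} (hh : HV F h) (hg : HV F g) : HV F (h ⊔ g) where
  lip t ht i j := by
    have h1 := hh.lip t ht i j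
    have h2 := hg.lip t ht i j
    simp only [Pi.sup_apply]
    rw [abs_le] at *
    omega
  bd v hv := by
    rcases hh.bd v hv with h1 | h1 <;> rcases hg.bd v hv with h2 | h2 <;>
      simp only [Pi.sup_apply, h1, h2] <;> decide
  off v hv := by
    simp only [Pi.sup_apply, hh.off v hv, hg.off v hv]
    decide

theorem SH_eq (x : ℝ) (F : Finset P2) (f : (P2 → ℤ) → ℝ) :
    SH x F f = ∑ h ∈ hts F, (∏ t ∈ F, E3 x h t) * f h := by
  unfold SH
  refine Finset.sum_congr rfl fun h hh => ?_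
  rw [Finset.prod_congr rfl fun t ht => (E3_eq_tw' x ((mem_hts.1 hh).lip t ht)).symm]

theorem EH_fkg {x : ℝ} (hx0 : 0 < x) (hx1 : x ≤ 1) (F : Finset P2) {f g : (P2 → ℤ) → ℝ}
    (hf : Monotone f) (hg : Monotone g) :
    EH x F f * EH x F g ≤ EH x F (fun h => f h * g h) := by
  classical
  have hl : LSM (fun h : P2 → ℤ => ∏ t ∈ F, E3 x h t) := LSM.prod _ fun _ _ => lsm_E3 hx0.le hx1 _
  have key := hl.fkg (hts F) (fun a ha b hb => ⟨mem_hts.2 (hv_inf (mem_hts.1 ha) (mem_hts.1 hb)),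
    mem_hts.2 (hv_sup (mem_hts.1 ha) (mem_hts.1 hb))⟩) (fun a _ b _ h => hf h) (fun a _ b _ h => hg h)
  have e1 : ∑ h ∈ hts F, (∏ t ∈ F, E3 x h t) = SH x F (fun _ => 1) := by
    rw [SH_eq]
    simp only [mul_one]
  rw [← SH_eq, ← SH_eq, e1, ← SH_eq x F (fun h => f h * g h)] at key
  have hp := SH_one_pos x F
  unfold EH
  rw [div_mul_div_comm, div_le_div_iff₀ (by positivity) hp]
  nlinarith [key, hp]

theorem exists_x {c : ℝ} (hc : 1 ≤ c) : ∃ x : ℝ, 0 < x ∧ x ≤ 1 ∧ (x ^ 2)⁻¹ = c := by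
  have h0 : 0 < c := by linarith
  refine ⟨(Real.sqrt c)⁻¹, by positivity, ?_, ?_⟩
  · exact inv_le_one_of_one_le₀ (Real.one_le_sqrt.2 hc)
  · rw [inv_pow, inv_inv, Real.sq_sqrt h0.le]

/-- **height FKG for the F-type law** -/
theorem E_fkg {c : ℝ} (hc : 1 ≤ c) (F : Finset P2) {f g : (P2 → ℤ) → ℝ}
    (hf : Monotone f) (hg : Monotone g) :
    E c F (fun ω => f ω.1) * E c F (fun ω => g ω.1) ≤ E c F (fun ω => f ω.1 * g ω.1) := by
  obtain ⟨x, hx0, hx1, rfl⟩ := exists_x hc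
  rw [E_eq_EH hx0.ne', E_eq_EH hx0.ne', E_eq_EH hx0.ne' F (fun h => f h * g h)]
  exact EH_fkg hx0 hx1 F hf hg

/-! ### the law of `{h ≥ 1}` -/

/-- the set `{h ≥ 1}` -/
def up1 (ω : Cfg) : Set P2 := {v | 1 ≤ ω.1 v}

/-- the event `{h ≥ 1} ∈ A` -/
def ev (A : Set (Set P2)) : Set Cfg := {ω | up1 ω ∈ A}

theorem E_ind_up {c : ℝ} (F : Finset P2) (A : Set (Set P2)) :
    Pr c F (ev A) = E c F (fun ω => Set.indicator A (fun _ => (1 : ℝ)) {v | 1 ≤ ω.1 v}) := by
  classical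
  rw [Pr_eq]
  refine E_congr fun ω _ => ?_
  unfold ind
  by_cases h : {v | 1 ≤ ω.1 v} ∈ A
  · rw [Set.indicator_of_mem h]
    exact if_pos h
  · rw [Set.indicator_of_notMem h]
    exact if_neg h

theorem mono_ind {A : Set (Set P2)} (hA : IsUpperSet A) :
    Monotone fun h : P2 → ℤ => Set.indicator A (fun _ => (1 : ℝ)) {v | 1 ≤ h v} := by
  classical
  intro h g hhg
  have hs : {v | 1 ≤ h v} ⊆ {v | 1 ≤ g v} := fun v hv => le_trans hv (hhg v)
  by_cases h1 : {v | 1 ≤ h v} ∈ A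
  · have h2 : {v | 1 ≤ g v} ∈ A := hA hs h1
    simp only [Set.indicator_of_mem h1, Set.indicator_of_mem h2, le_refl]
  · simp only [Set.indicator_of_notMem h1]
    exact Set.indicator_nonneg (fun _ _ => zero_le_one) _

/-- **the law of `{h ≥ 1}` under the F-type law** -/
def HL (c : ℝ) (hc : 1 ≤ c) (F : Finset P2) : Law where
  P A := Pr c F (ev A)
  nonneg A := Pr_nonneg hc F _
  univ := Pr_univ hc F
  mono A B h := Pr_mono hc fun ω hω => h hω
  modular A B := by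
    show Pr c F (ev (A ∪ B)) + Pr c F (ev (A ∩ B)) = Pr c F (ev A) + Pr c F (ev B)
    rw [Pr_eq, Pr_eq, Pr_eq, Pr_eq, ← E_add, ← E_add]
    refine E_congr fun ω _ => ?_
    by_cases h1 : ω ∈ ev A <;> by_cases h2 : ω ∈ ev B
    · rw [ind_of_mem (A := ev (A ∪ B)) (Or.inl h1), ind_of_mem (A := ev (A ∩ B)) ⟨h1, h2⟩,
        ind_of_mem h1, ind_of_mem h2]
    · rw [ind_of_mem (A := ev (A ∪ B)) (Or.inl h1),
        ind_of_not_mem (A := ev (A ∩ B)) (fun h => h2 h.2), ind_of_mem h1, ind_of_not_mem h2]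
    · rw [ind_of_mem (A := ev (A ∪ B)) (Or.inr h2),
        ind_of_not_mem (A := ev (A ∩ B)) (fun h => h1 h.1), ind_of_not_mem h1, ind_of_mem h2]
      ring
    · rw [ind_of_not_mem (A := ev (A ∪ B)) (fun h => h.elim h1 h2),
        ind_of_not_mem (A := ev (A ∩ B)) (fun h => h1 h.1), ind_of_not_mem h1, ind_of_not_mem h2]
  fkg A B hA hB := by
    have h1 := E_fkg hc F (mono_ind hA) (mono_ind hB)
    rw [← E_ind_up, ← E_ind_up] at h1
    refine h1.trans (le_of_eq ?_)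
    rw [E_ind_up]
    refine E_congr fun ω _ => ?_
    by_cases h1 : {v | 1 ≤ ω.1 v} ∈ A <;> by_cases h2 : {v | 1 ≤ ω.1 v} ∈ B
    · rw [Set.indicator_of_mem h1, Set.indicator_of_mem h2,
        Set.indicator_of_mem (show _ ∈ A ∩ B from ⟨h1, h2⟩), mul_one]
    · rw [Set.indicator_of_notMem h2, Set.indicator_of_notMem (show _ ∉ A ∩ B from fun h => h2 h.2),
        mul_zero]
    · rw [Set.indicator_of_notMem h1, Set.indicator_of_notMem (show _ ∉ A ∩ B from fun h => h1 h.1),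
        zero_mul]
    · rw [Set.indicator_of_notMem h1, Set.indicator_of_notMem (show _ ∉ A ∩ B from fun h => h1 h.1),
        zero_mul]
  empty := (E_congr fun ω _ => ind_of_not_mem (show ω ∉ ev ∅ from fun h => h)).trans (E_const hc F 0)

theorem HL_P {c : ℝ} (hc : 1 ≤ c) (F : Finset P2) (A : Set (Set P2)) :
    (HL c hc F).P A = Pr c F (ev A) := rfl

/-! ### transport -/

theorem ev_pre (σ τ : P2 → P2) (A : Set (Set P2)) :
    ev (pre σ A) = {ω | actC σ τ ω ∈ ev A} := rfl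

theorem HL_aut {c : ℝ} (hc : 1 ≤ c) {σ τ : P2 ≃ P2} (h : Aut σ τ) {F F0 : Finset P2}
    (hF : F0.map τ.toEmbedding = F) (A : Set (Set P2)) :
    (HL c hc F).P (pre σ A) = (HL c hc F0).P A := by
  rw [HL_P, HL_P, ev_pre σ τ, ← hF]
  exact Pr_map h c F0 (ev A)

/-- events depending on the heights in `ball 0 m` only -/
def LocH (m : ℕ) (A : Set Cfg) : Prop :=
  ∀ ω ω' : Cfg, (∀ v ∈ ball 0 m, ω.1 v = ω'.1 v) → (ω ∈ A ↔ ω' ∈ A)

/-- the F-type laws of the heights agree up to `δ` in `ball 0 m`, for all domains between `ball 0 N`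
and `G` -/
def TVH (c : ℝ) (m N : ℕ) (G : Finset P2) (δ : ℝ) : Prop :=
  ∀ F, SC F → F ⊆ G → ball 0 N ⊆ F → ∀ A : Set Cfg, LocH m A → |Pr c F A - Pr c G A| ≤ δ

theorem mem_bal {a v : P2} {n : ℤ} : v ∈ bal a n ↔
    |v.1 - a.1| ≤ n ∧ |v.2 - a.2| ≤ n ∧ |v.1 - a.1 + (v.2 - a.2)| ≤ n := Iff.rfl

theorem bal_eq (a : P2) (n : ℕ) : bal a (n : ℤ) = (ball a n : Set P2) := by
  ext v
  rw [mem_bal, Finset.mem_coe, mem_ball]

theorem ball_sub {a b : P2} {m n k : ℕ} (h : a - b ∈ bal 0 (k : ℤ)) (hk : m + k ≤ n) :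
    ball a m ⊆ ball b n := by
  intro v hv
  rw [mem_ball] at hv ⊢
  rw [mem_bal] at h
  obtain ⟨h1, h2, h3⟩ := h
  obtain ⟨h4, h5, h6⟩ := hv
  simp only [Prod.fst_sub, Prod.snd_sub, Prod.fst_zero, Prod.snd_zero, sub_zero, abs_le] at *
  have hk' : (m : ℤ) + k ≤ n := by exact_mod_cast hk
  omega

theorem locH_ev {W : ℕ} {A : Set (Set P2)} (hA : Loc (bal 0 W) A) : LocH W (ev A) := by
  intro ω ω' h
  have e : up1 ω ∩ bal 0 W = up1 ω' ∩ bal 0 W := by
    ext v
    rw [bal_eq]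
    constructor
    · rintro ⟨h1, h2⟩
      refine ⟨?_, h2⟩
      show 1 ≤ ω'.1 v
      rw [← h v h2]
      exact h1
    · rintro ⟨h1, h2⟩
      refine ⟨?_, h2⟩
      show 1 ≤ ω.1 v
      rw [h v h2]
      exact h1
  show up1 ω ∈ A ↔ up1 ω' ∈ A
  rw [hA (up1 ω), hA (up1 ω'), e]

theorem HL_shift {c : ℝ} (hc : 1 ≤ c) {W N l : ℕ} {δ : ℝ} (h : TVH c W N (hexB (l + W)) δ)
    (hl : N + W ≤ l) {σ τ : P2 ≃ P2} (hst : Aut σ τ) {a : P2} (ha : a ∈ bal 0 (W : ℤ))
    (hF : (ball a l).map τ.toEmbedding = hexB l) {A : Set (Set P2)} (hA : Loc (bal 0 W) A) :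
    (HL c hc (hexB l)).P A ≤ (HL c hc (hexB l)).P (pre σ A) + 2 * δ := by
  rw [HL_aut hc hst hF, HL_P, HL_P]
  have key : ∀ b : P2, b ∈ bal 0 (W : ℤ) → |Pr c (ball b l) (ev A) - Pr c (hexB (l + W)) (ev A)| ≤ δ := by
    intro b hb
    refine h _ (sc_ball b l) ?_ ?_ _ (locH_ev hA)
    · rw [← Rsw867.ball_zero_eq]
      refine ball_sub (k := W) ?_ le_rfl
      rw [sub_zero]
      exact hb
    · refine ball_sub (k := W) ?_ hl
      rw [mem_bal] at hb ⊢
      simp only [Prod.fst_sub, Prod.snd_sub, Prod.fst_zero, Prod.snd_zero, sub_zero, zero_sub,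
        Prod.fst_neg, Prod.snd_neg, abs_le] at *
      omega
  have h1 := key 0 (by
    rw [mem_bal]
    simp)
  have h2 := key a ha
  rw [Rsw867.ball_zero_eq] at h1
  rw [abs_le] at h1 h2
  linarith

theorem inv_HL {c : ℝ} (hc : 1 ≤ c) {W N l : ℕ} {δ : ℝ} (h : TVH c W N (hexB (l + W)) δ)
    (hl : N + W ≤ l) (hW : 1 ≤ W) : (HL c hc (hexB l)).Inv W (2 * δ) where
  tr E _ hE a ha := by
    refine HL_shift hc h hl (aut_tr a) (a := -a) ?_ ?_ hE
    · rw [mem_bal] at ha ⊢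
      simp only [Prod.fst_neg, Prod.snd_neg, Prod.fst_zero, Prod.snd_zero, sub_zero, abs_le] at *
      omega
    · ext v
      rw [Finset.mem_map]
      constructor
      · rintro ⟨w, hw, rfl⟩
        rw [mem_ball'] at hw
        simpa using hw
      · intro hv
        refine ⟨v - a, ?_, by simp⟩
        rw [mem_ball']
        simpa using hv
  rot E _ hE := by
    refine HL_shift hc h hl aut_ro (a := (0, -1)) ?_ ?_ hE
    · rw [mem_bal]
      have : (1 : ℤ) ≤ W := by exact_mod_cast hW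
      simp only [Prod.fst_zero, Prod.snd_zero, sub_zero, abs_le]
      omega
    · ext v
      rw [Finset.mem_map]
      constructor
      · rintro ⟨w, hw, rfl⟩
        rw [mem_ball] at hw
        simp only [Equiv.coe_toEmbedding, roT_apply, mem_hexB, abs_le] at *
        omega
      · intro hv
        refine ⟨roT.symm v, ?_, by simp⟩
        have e : roT.symm v = (v.2, -v.1 - v.2 - 1) := rfl
        rw [mem_ball, e]
        simp only [mem_hexB, abs_le] at *
        omega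
  rfx E _ hE := by
    have hA : Aut (swE.trans roE) (swE.trans roT) := fun t v => (aut_ro _ _).trans (aut_sw _ _)
    have e : Qr315.rfx = ⇑(swE.trans roE) := by
      funext v
      ext
      · show -v.1 - v.2 = -v.2 - v.1
        ring
      · rfl
    rw [e]
    refine HL_shift hc h hl hA (a := (-1, 0)) ?_ ?_ hE
    · rw [mem_bal]
      have : (1 : ℤ) ≤ W := by exact_mod_cast hW
      simp only [Prod.fst_zero, Prod.snd_zero, sub_zero, abs_le]
      omega
    · ext v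
      rw [Finset.mem_map]
      constructor
      · rintro ⟨w, hw, rfl⟩
        rw [mem_ball] at hw
        simp only [Equiv.coe_toEmbedding, Equiv.trans_apply, swE_apply, roT_apply, mem_hexB,
          abs_le] at *
        omega
      · intro hv
        refine ⟨(-v.1 - v.2 - 1, v.2), ?_, ?_⟩
        · rw [mem_ball]
          simp only [mem_hexB, abs_le] at *
          omega
        · simp only [Equiv.coe_toEmbedding, Equiv.trans_apply, swE_apply, roT_apply]
          ext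
          · show -v.2 - (-v.1 - v.2 - 1) - 1 = v.1
            ring
          · rfl

/-! ### reflection -/

theorem layer_iff {S : Set P2} {a : P2} {m N : ℕ} : Layer S a (m : ℤ) (N : ℤ) ↔ Sepr S a m N := by
  unfold Layer Sepr
  rw [bal_eq, bal_eq]
  rfl

/-- the `{h ≥ 1}`-layers and the `{h ≤ 0}`-layers have the same probability -/
theorem layer_flip {c : ℝ} {l m n : ℕ} (hmn : m ≤ n) (hn : n + 1 ≤ l) :
    Pr c (hexB l) {ω | Sepr (up1 ω)ᶜ 0 m n} = Pr c (hexB l) {ω | Sepr (up1 ω) 0 m n} := by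
  have hV : ∀ v ∈ ball 0 (n + 1), v ∈ VF (hexB l) := by
    intro v hv
    rw [Rsw867.ball_zero_eq] at hv
    exact Zg349.mem_VF.2 ⟨v, hexB_mono hn hv, by rw [mem_up]; exact Or.inl rfl⟩
  rw [Pr_eq, Pr_eq, ← E_rf c (hexB l) (ind {ω | Sepr (up1 ω) 0 m n})]
  refine E_congr fun ω _ => ?_
  have key : ∀ v ∈ ball 0 (n + 1), (v ∈ up1 (rf (hexB l) ω) ↔ v ∈ (up1 ω)ᶜ) := by
    intro v hv
    show 1 ≤ (rf (hexB l) ω).1 v ↔ ¬ 1 ≤ ω.1 v
    rw [rf_of_mem (hV v hv)]
    omega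
  refine le_antisymm (ind_le_ind fun h => ?_) (ind_le_ind fun h => ?_)
  · exact Sepr.congr hmn (fun t ht _ h1 => (key t ht).2 h1) h
  · exact Sepr.congr hmn (fun t ht _ h1 => (key t ht).1 h1) h

/-! ### the conclusion of L5 -/

/-- **L5 (heights).**  A `{h ≥ 1}`-layer exists with probability at least `c1` in the annulus
`A(n, 2 n)` as soon as the F-type laws in the domains near `hexB l` agree up to `c1` in `ball 0 (C n)`. -/
theorem heights (hQ : QRSW) : ∃ (c1 : ℝ) (C n0 : ℕ), 0 < c1 ∧ 1 ≤ C ∧ ∀ c : ℝ, 1 ≤ c → ∀ n N l : ℕ, n0 ≤ n →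
    N + C * n ≤ l → TVH c (C * n) N (hexB (l + C * n)) c1 →
      c1 ≤ Pr c (hexB l) {ω | Sepr (up1 ω) 0 n (2 * n)} := by
  obtain ⟨η, C, n0, hη, H⟩ := hQ (1 / 2) (by norm_num)
  refine ⟨min (η / 2) (1 / 4), C + 3, n0 + 1, by positivity, by omega, fun c hc n N l hn hl hT => ?_⟩
  by_contra hcon
  push Not at hcon
  have hW : 1 ≤ (C + 3) * n := by
    have : 1 ≤ n := by omega
    nlinarith
  have hI := inv_HL hc hT hl hW
  have hmon : C * n ≤ (C + 3) * n := Nat.mul_le_mul_right n (by omega)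
  have hI' : (HL c hc (hexB l)).Inv (C * n) η := by
    have h2 : 2 * min (η / 2) (1 / 4) ≤ η := by
      have := min_le_left (η / 2) (1 / 4 : ℝ)
      linarith
    have hloc : ∀ E : Set (Set P2), Loc (bal 0 ((C * n : ℕ) : ℤ)) E →
        Loc (bal 0 (((C + 3) * n : ℕ) : ℤ)) E := by
      intro E hE ω
      rw [hE ω, hE (ω ∩ bal 0 (((C + 3) * n : ℕ) : ℤ))]
      have hs : bal 0 ((C * n : ℕ) : ℤ) ⊆ bal 0 (((C + 3) * n : ℕ) : ℤ) := by
        rw [bal_eq, bal_eq]
        exact_mod_cast ball_mono 0 hmon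
      rw [Set.inter_assoc, Set.inter_eq_right.2 hs]
    refine ⟨fun E h1 h3 a ha => (hI.tr E h1 (hloc E h3) a ?_).trans (by linarith),
      fun E h1 h3 => (hI.rot E h1 (hloc E h3)).trans (by linarith),
      fun E h1 h3 => (hI.rfx E h1 (hloc E h3)).trans (by linarith)⟩
    rw [bal_eq] at ha ⊢
    exact_mod_cast ball_mono 0 hmon ha
  have hflip := layer_flip (c := c) (l := l) (m := n) (n := 2 * n) (by omega)
    (by nlinarith : 2 * n + 1 ≤ l)
  have e2 : ((2 * n : ℕ) : ℤ) = 2 * (n : ℤ) := by push_cast; ring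
  have h3 := H n (by omega) (HL c hc (hexB l)) hI' (by
    rw [HL_P]
    have e : ev {ω | ¬ Layer ωᶜ 0 (n : ℤ) (2 * (n : ℤ))} = {ω : Cfg | Sepr (up1 ω)ᶜ 0 n (2 * n)}ᶜ := by
      ext ω
      show ¬ Layer (up1 ω)ᶜ 0 (n : ℤ) (2 * (n : ℤ)) ↔ ¬ Sepr (up1 ω)ᶜ 0 n (2 * n)
      rw [← e2, layer_iff]
    rw [e, Pr_compl hc, hflip]
    have := min_le_left (η / 2) (1 / 4 : ℝ)
    linarith)
  rw [HL_P] at h3
  have e : ev {ω | Layer ω 0 (n : ℤ) (2 * (n : ℤ))} = {ω : Cfg | Sepr (up1 ω) 0 n (2 * n)} := by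
    ext ω
    show Layer (up1 ω) 0 (n : ℤ) (2 * (n : ℤ)) ↔ Sepr (up1 ω) 0 n (2 * n)
    rw [← e2, layer_iff]
  rw [e] at h3
  have := min_le_right (η / 2) (1 / 4 : ℝ)
  linarith

end Crest.Agent.R144.Ht948
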