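import Crest.Agent.R144.Tvp3_643
import Crest.Agent.R144.Ht1_948

/-!
# R144, integer models: (T2) in the form `TVH` (helper948)

* `tv2` : `|Pr c F₁ A - Pr c F₂ A| ≤ Pr c F₂ (BlkP 0 (m + 1) N ∩ UpB (ball 0 m) F₂)ᶜ` for `LocH m A`;
* `tvh_of` : the hypothesis of `Ht948.heights` from the same event in the big domain.
-/

set_option autoImplicit false

noncomputable section

namespace Crest.Agent.R144.TvG948

open Finset
open Crest.Agent.R144.It844 (P2)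
open Crest.Agent.R144.Zg349 Crest.Agent.R144.Zk349 Crest.Agent.R144.Zd349 Crest.Agent.R144.Zm349
open Crest.Agent.R144.Ze349 Crest.Agent.R144.Zf349 Crest.Agent.R144.Zs349
open Crest.Agent.R144.Rsw867
open Crest.Agent.R144.Tvp643
open Crest.Agent.R144.Ht948

theorem locB_ind {m : ℕ} {A : Set Cfg} (hA : LocH m A) : LocB (ball 0 m) (ind A) := by
  intro ω ω' hv _
  have h : ω ∈ A ↔ ω' ∈ A := hA ω ω' fun v hv' => hv v (mem_VF.2 ⟨v, hv', base_mem_up v⟩)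
  unfold ind
  by_cases h1 : ω ∈ A
  · rw [if_pos h1, if_pos (h.1 h1)]
  · rw [if_neg h1, if_neg fun h2 => h1 (h.2 h2)]

theorem Pr_ind (c : ℝ) (F : Finset P2) (A : Set Cfg) : Pr c F A = E c F (ind A) := rfl

theorem tv2 {c : ℝ} (hc : 1 ≤ c) {F₁ F₂ : Finset P2} (h1 : SC F₁) (h2 : SC F₂) (h12 : F₁ ⊆ F₂)
    {m N : ℕ} (hmN : m + 1 ≤ N) (hN : ball 0 N ⊆ F₁) {A : Set Cfg} (hA : LocH m A) :
    |Pr c F₁ A - Pr c F₂ A| ≤ Pr c F₂ (BlkP 0 (m + 1) N ∩ UpB (ball 0 m) F₂)ᶜ :=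
  tv_heights hc h1 h2 h12 hmN hN (locB_ind hA)
    (ind_nonneg A) (ind_le_one A)

theorem tvh_of {c : ℝ} (hc : 1 ≤ c) {G : Finset P2} (hG : SC G) {m N : ℕ} (hmN : m + 1 ≤ N) {δ : ℝ}
    (h : Pr c G (BlkP 0 (m + 1) N ∩ UpB (ball 0 m) G)ᶜ ≤ δ) : TVH c m N G δ :=
  fun _ hF hFG hN _ hA => (tv2 hc hF hG hFG hmN hN hA).trans h

end Crest.Agent.R144.TvG948
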