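import Crest.Agent.R144.Xc3_851

/-!
# R144: the joint law of both FK representations (helper851), part 4: LEV

* `Xh F h` : sites joined by `{h ≤ 0}` to non-interior sites of height `≤ 0`; `Vh F h` : interior sites neither in
  nor next to `Xh F h`; on the neighbours of `Vh F h` the height is exactly `1` (`bd_Vh`), the region is unchanged
  by `exch 1 (Vh F h)` (`Vh_exch`);
* **`lev_Ba`, `lev_B`** : `P({h ≥ 1} separates ∩ plus closed layer inside) ≤ P(y-closed layer)`.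
-/

set_option autoImplicit false
set_option linter.unusedSectionVars false

noncomputable section

namespace Crest.Agent.R144.Xc851

open Finset
open Crest.Agent.R144.It844 (P2 Lip adj_iff adj_symm lip_iff)
open Crest.Agent.R144.Zg349 Crest.Agent.R144.Zk349 Crest.Agent.R144.Zd349 Crest.Agent.R144.Zm349
open Crest.Agent.R144.Ze349
open Crest.Agent.R144.Rsw867
open Crest.ProbabilityR.HexHeights (Adj)

/-- sites joined by `{h ≤ 0}` to a non-interior site of height `≤ 0` -/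
def Xh (F : Finset P2) (h : P2 → ℤ) : Set P2 :=
  {v | ∃ u, u ∉ IV F ∧ h u ≤ 0 ∧ Relation.ReflTransGen (StepIn {w | h w ≤ 0}) u v}

theorem Xh_le {F : Finset P2} {h : P2 → ℤ} {v : P2} (hv : v ∈ Xh F h) : h v ≤ 0 := by
  obtain ⟨u, _, hu, hp⟩ := hv
  rcases Relation.ReflTransGen.cases_tail hp with h1 | ⟨w, _, h1⟩
  · rw [h1]; exact hu
  · exact h1.2.1

theorem Xh_step {F : Finset P2} {h : P2 → ℤ} {v w : P2} (hv : v ∈ Xh F h) (ha : Adj v w)
    (hw : h w ≤ 0) : w ∈ Xh F h := by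
  have h0 := Xh_le hv
  obtain ⟨u, h1, h2, hp⟩ := hv
  exact ⟨u, h1, h2, hp.tail ⟨h0, hw, ha⟩⟩

open Classical in
/-- the region inside -/
def Vh (F : Finset P2) (h : P2 → ℤ) : Finset P2 :=
  (IV F).filter fun v => v ∉ Xh F h ∧ ∀ w, Adj v w → w ∉ Xh F h

open Classical in
theorem mem_Vh {F : Finset P2} {h : P2 → ℤ} {v : P2} :
    v ∈ Vh F h ↔ v ∈ IV F ∧ v ∉ Xh F h ∧ ∀ w, Adj v w → w ∉ Xh F h := by
  unfold Vh
  rw [Finset.mem_filter]

theorem Vh_sub (F : Finset P2) (h : P2 → ℤ) : Vh F h ⊆ IV F := fun _ hv => (mem_Vh.1 hv).1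

/-- the height is exactly `1` around the region -/
theorem bd_Vh {F : Finset P2} {h : P2 → ℤ} (hh : HV F h) : Bd 1 (Vh F h) h := by
  intro v hv w hw ha
  rw [mem_Vh] at hv
  have h1 : w ∉ Xh F h := hv.2.2 w ha
  by_cases hI : w ∈ IV F
  · have h2 : ∃ x, Adj w x ∧ x ∈ Xh F h := by
      by_contra hcon
      push Not at hcon
      exact hw (mem_Vh.2 ⟨hI, h1, hcon⟩)
    obtain ⟨x, hx, hxX⟩ := h2
    have h3 := Xh_le hxX
    have h4 : 0 < h w := by
      by_contra h5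
      exact h1 (Xh_step hxX (adj_symm hx) (by omega))
    have h5 := abs_le.1 (hh.toLip w x hx)
    omega
  · rcases hh.bd w hI with h2 | h2
    · exact absurd ⟨w, hI, h2.le, Relation.ReflTransGen.refl⟩ h1
    · exact h2

/-- the explored set is unchanged by the exchange -/
theorem Xh_exch {F : Finset P2} (ω : C3) : Xh F (exch 1 (Vh F ω.1) ω).1 = Xh F ω.1 := by
  have h0 : ∀ v, v ∉ Vh F ω.1 → (exch 1 (Vh F ω.1) ω).1 v = ω.1 v := fun v hv => exch_out hv
  have hX : ∀ v ∈ Xh F ω.1, v ∉ Vh F ω.1 := fun v hv h => (mem_Vh.1 h).2.1 hv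
  have hN : ∀ v ∈ Xh F ω.1, ∀ w, Adj v w → w ∉ Vh F ω.1 := fun v hv w ha h =>
    (mem_Vh.1 h).2.2 v (adj_symm ha) hv
  ext v
  constructor
  · rintro ⟨u, h1, h2, hp⟩
    have hu : u ∉ Vh F ω.1 := fun h => h1 (Vh_sub F ω.1 h)
    have hu' : u ∈ Xh F ω.1 := ⟨u, h1, by rw [← h0 u hu]; exact h2, Relation.ReflTransGen.refl⟩
    induction hp with
    | refl => exact hu'
    | @tail b d _ h3 ih =>
      refine Xh_step ih h3.2.2 ?_
      rw [← h0 d (hN b ih d h3.2.2)]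
      exact h3.2.1
  · rintro ⟨u, h1, h2, hp⟩
    have hu : u ∉ Vh F ω.1 := fun h => h1 (Vh_sub F ω.1 h)
    have key : v ∈ Xh F ω.1 ∧ v ∈ Xh F (exch 1 (Vh F ω.1) ω).1 := by
      induction hp with
      | refl => exact ⟨⟨u, h1, h2, Relation.ReflTransGen.refl⟩,
          ⟨u, h1, by rw [h0 u hu]; exact h2, Relation.ReflTransGen.refl⟩⟩
      | @tail b d _ h3 ih =>
        have h4 : d ∈ Xh F ω.1 := Xh_step ih.1 h3.2.2 h3.2.1
        refine ⟨h4, Xh_step ih.2 h3.2.2 ?_⟩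
        rw [h0 d (hX d h4)]
        exact h3.2.1
    exact key.2

theorem Vh_exch {F : Finset P2} (ω : C3) : Vh F (exch 1 (Vh F ω.1) ω).1 = Vh F ω.1 := by
  ext v
  rw [mem_Vh, mem_Vh, Xh_exch]

/-- the region contains the inner ball if `{h ≥ 1}` separates -/
theorem ball_sub_Vh {F : Finset P2} {a : P2} {t N : ℕ} (hB : ball a (N + 2) ⊆ F) (htN : t ≤ N)
    {h : P2 → ℤ} (hL : Sepr {v | 1 ≤ h v} a t N) {k : ℕ} (hk : k + 1 ≤ t) : ball a k ⊆ Vh F h := by
  have hX : ∀ v ∈ ball a t, v ∉ Xh F h := by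
    rintro v hv ⟨u, h1, _, hp⟩
    have hu : u ∉ ball a N := fun h2 =>
      h1 (mem_IV_ball (fun x hx => hB (ball_mono a (by omega) hx)) h2)
    refine hL u v hu hv (path_mono ?_ hp)
    intro w hw
    show ¬ (1 ≤ h w)
    have : h w ≤ 0 := hw
    omega
  intro v hv
  rw [mem_Vh]
  refine ⟨mem_IV_ball (fun x hx => hB (ball_mono a (by omega) hx)) hv,
    hX v (ball_mono a (by omega) hv), fun w ha => hX w (ball_mono a hk (adj_ball hv ha))⟩

open Classical in
/-- **LEV**, any centre. -/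
theorem lev_Ba {c : ℝ} (hc : 1 ≤ c) (hc2 : c ≤ 2) {F : Finset P2} {a : P2} {t N u : ℕ}
    (hB : ball a (N + 2) ⊆ F) (htN : t ≤ N) (hut : 2 * u + 2 ≤ t) :
    Pr c F ({ω | Sepr {v | 1 ≤ ω.1 v} a t N} ∩ BlkP a u (2 * u)) ≤ pBa c F a u (2 * u) := by
  -- the events
  set f : C3 → ℝ := fun ω => ind (BlkP a u (2 * u)) (fst3 ω) with hf
  set g : C3 → ℝ := fun ω => if Sepr {x | ω.2.2 x = true} a u (2 * u) then 1 else 0 with hg
  set 𝒱 : Finset (Finset P2) := (IV F).powerset.filter fun V => ball a (2 * u + 1) ⊆ V with h𝒱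
  have hf0 : ∀ ω, 0 ≤ f ω := fun ω => ind_nonneg _ _
  have hg0 : ∀ ω, 0 ≤ g ω := fun ω => by rw [hg]; dsimp only; split_ifs <;> norm_num
  -- step 1
  have e0 : Pr c F ({ω | Sepr {v | 1 ≤ ω.1 v} a t N} ∩ BlkP a u (2 * u)) =
      E3 c F (fun ω => ind ({ω : Cfg | Sepr {v | 1 ≤ ω.1 v} a t N} ∩ BlkP a u (2 * u)) (fst3 ω)) := by
    rw [Pr_eq, ← E3_fst]
  have h1 : E3 c F (fun ω => ind ({ω : Cfg | Sepr {v | 1 ≤ ω.1 v} a t N} ∩ BlkP a u (2 * u)) (fst3 ω)) ≤
      E3 c F (fun ω => ∑ V ∈ 𝒱, if Vh F ω.1 = V then f ω else 0) := by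
    refine E3_mono hc hc2 fun ω hω => ?_
    have hs0 : 0 ≤ ∑ V ∈ 𝒱, if Vh F ω.1 = V then f ω else 0 :=
      Finset.sum_nonneg fun V _ => by split_ifs <;> first | exact hf0 ω | exact le_rfl
    by_cases hm : fst3 ω ∈ {ω : Cfg | Sepr {v | 1 ≤ ω.1 v} a t N} ∩ BlkP a u (2 * u)
    · have hV : Vh F ω.1 ∈ 𝒱 := by
        rw [h𝒱, Finset.mem_filter, Finset.mem_powerset]
        exact ⟨Vh_sub F ω.1, ball_sub_Vh hB htN hm.1 (by omega)⟩
      rw [Finset.sum_ite_eq 𝒱 (Vh F ω.1) fun _ => f ω, if_pos hV, ind_of_mem hm, hf]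
      dsimp only
      rw [ind_of_mem hm.2]
    · rw [ind_of_not_mem hm]
      exact hs0
  -- sums and expectations
  have hsum : ∀ q : Finset P2 → C3 → ℝ, E3 c F (fun ω => ∑ V ∈ 𝒱, q V ω) = ∑ V ∈ 𝒱, E3 c F (q V) := by
    intro q
    generalize 𝒱 = S
    induction S using Finset.induction_on with
    | empty =>
      simp only [Finset.sum_empty]
      exact E3_const hc F 0
    | insert x s hx ih =>
      rw [Finset.sum_insert hx, ← ih, ← E3_add]
      simp only [Finset.sum_insert hx]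
  -- step 2 : exchange
  have h2 : ∀ V ∈ 𝒱, E3 c F (fun ω => if Vh F ω.1 = V then f ω else 0) ≤
      E3 c F (fun ω => if Vh F ω.1 = V then g ω else 0) := by
    intro V hV
    rw [h𝒱, Finset.mem_filter, Finset.mem_powerset] at hV
    have hinv := E3_exch c (k := 1) (F := F) (V := V) hV.1
      (P := fun ω => HV F ω.1 ∧ Vh F ω.1 = V) (fun ω h => by
        have := bd_Vh h.1
        rwa [h.2] at this) (fun ω h => by
        have hb : Bd 1 V ω.1 := by
          have := bd_Vh h.1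
          rwa [h.2] at this
        refine ⟨exch_hv hV.1 h.1 hb, ?_⟩
        have := Vh_exch (F := F) ω
        rw [h.2] at this
        exact this) f
    have e1 : E3 c F (fun ω => if Vh F ω.1 = V then f ω else 0) =
        E3 c F (fun ω => if HV F ω.1 ∧ Vh F ω.1 = V then f ω else 0) :=
      E3_congr fun ω hω => by simp only [hω.ht, true_and]
    have e2 : E3 c F (fun ω => if HV F ω.1 ∧ Vh F ω.1 = V then f ω else 0) =
        E3 c F (fun ω => if HV F ω.1 ∧ Vh F ω.1 = V then f (exch 1 V ω) else 0) := by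
      convert hinv.symm
    rw [e1, e2]
    refine E3_mono hc hc2 fun ω hω => ?_
    by_cases hVω : Vh F ω.1 = V
    · rw [if_pos ⟨hω.ht, hVω⟩, if_pos hVω]
      have key : fst3 (exch 1 V ω) ∈ BlkP a u (2 * u) → Sepr {x | ω.2.2 x = true} a u (2 * u) := by
        intro hP
        refine Sepr.congr (by omega) (fun s hs _ hp => ?_) hP
        have hsV : ∃ w ∈ V, w ∈ up s := ⟨s, hV.2 hs, base_up s⟩
        have h3 : (exch 1 V ω).2.1 s = true := hp.1
        rw [exch_z hsV] at h3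
        exact h3
      rw [hf, hg]
      dsimp only
      by_cases hP : fst3 (exch 1 V ω) ∈ BlkP a u (2 * u)
      · rw [ind_of_mem hP, if_pos (key hP)]
      · rw [ind_of_not_mem hP]
        exact hg0 ω
    · rw [if_neg fun h => hVω h.2, if_neg hVω]
  -- conclusion
  rw [e0]
  refine h1.trans ?_
  rw [hsum fun V ω => if Vh F ω.1 = V then f ω else 0]
  refine (Finset.sum_le_sum h2).trans ?_
  rw [← hsum fun V ω => if Vh F ω.1 = V then g ω else 0]
  refine E3_mono hc hc2 fun ω _ => ?_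
  rw [Finset.sum_ite_eq 𝒱 (Vh F ω.1) fun _ => g ω]
  by_cases hV : Vh F ω.1 ∈ 𝒱
  · rw [if_pos hV]
  · rw [if_neg hV]
    exact hg0 ω

/-- **LEV**, the form of the R2 table. -/
theorem lev_B {c : ℝ} (hc : 1 ≤ c) (hc2 : c ≤ 2) {F : Finset P2} {t N u : ℕ}
    (hB : ball 0 (N + 2) ⊆ F) (htN : t ≤ N) (hut : 2 * u + 8 ≤ t) :
    Pr c F ({ω | Sepr {v | 1 ≤ ω.1 v} 0 t N} ∩ BlkP 0 u (2 * u)) ≤ pB c F u (2 * u) := by
  rw [pB_eq]
  exact lev_Ba hc hc2 hB htN (by omega)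

end Crest.Agent.R144.Xc851
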