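import Crest.Agent.R144.Th2_121
import Crest.Agent.R144.Thm_121
import Crest.Agent.R144.Rw2_146
import Crest.Agent.R144.Xc4_851
import Crest.Agent.R144.Mk4_696
import Crest.Agent.R144.TvG_948

/-!
# R144, block R2 (THM2), file 3 (helper121)

* `weak` : `WeakRSW c` from single-scale RSW and the leaves;
* `flip`, `lev`, `tv2`, `one` : the leaves.
-/

set_option autoImplicit false
set_option linter.unusedVariables false

noncomputable section

namespace Crest.Agent.R144.Th121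

open Finset
open Crest.Agent.R144.It844 (P2 adj_iff adj_symm)
open Crest.Agent.R144.Zg349 Crest.Agent.R144.Zd349 Crest.Agent.R144.Zm349 Crest.Agent.R144.Ze349
open Crest.Agent.R144.Pst967 (hexB mem_hexB hexB_mono conn_hexB stepIn_symm path_symm)
open Crest.Agent.R144.Rsw867
open Crest.Agent.R144.Rw146
open Crest.Agent.R144.Ht948 (up1 LocH TVH heights layer_iff)
open Crest.Agent.R144.Qr315 (Law Layer QRSW)

/-- FLIP holds (helper851) -/
theorem flip {c : ℝ} (hc : 1 ≤ c) (hc2 : c ≤ 2) : Flip c := fun F t N v hF hB htN hv hvt =>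
  Xc851.flip_B hc hc2 hF hB htN hvt

/-- LEV holds (helper851) -/
theorem lev {c : ℝ} (hc : 1 ≤ c) (hc2 : c ≤ 2) : Lev c := fun F t N u _ hB htN _ hut =>
  Xc851.lev_B hc hc2 hB htN hut

/-- ONE holds (helper696) -/
theorem one {c : ℝ} (hc : 1 ≤ c) (hc2 : c ≤ 2) : One c := by
  intro F t N u _ hB htN hu hut
  obtain ⟨m, rfl⟩ : ∃ m, t = m + 1 := ⟨t - 1, by omega⟩
  obtain ⟨D, h1, h2, h3, h4⟩ := Mk696.one hc hc2 (a := 0) (m := m) (N := N) (u := u) (u' := 2 * u) htN hB
    (by omega) (by omega)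
  exact ⟨D, h1, h2, h3.trans ((ball_mono 0 (by omega)).trans hB), h4⟩

/-- TV2 holds (helper643, helper948) -/
theorem tv2 {c : ℝ} (hc : 1 ≤ c) : TV2 c := by
  intro F1 F2 m N h1 h2 h12 hB hmN A hA
  refine (TvG948.tv2 hc h1 h2 h12 hmN hB hA).trans (Pr_mono hc ?_)
  refine Set.compl_subset_compl.2 (Set.inter_subset_inter_right _ ?_)
  rintro ω ⟨u, hu, v, hv, hp⟩
  exact ⟨u, mem_VF.2 ⟨u, hu, base_mem_up u⟩, v, hv, hp⟩

/-- **THM2**: the weakest RSW statement from single-scale RSW -/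
theorem weak (hQ : QRSW) {c : ℝ} (hc : 1 ≤ c) (hc2 : c ≤ 2) : WeakRSW c := by
  have hMm := mixP hc (colE_m c)
  have hMp := mixP hc (colE_p c)
  obtain ⟨c1, s1, K1, k1, l1, n1, hc1, hs1, hk1, hl4, hlK, H1⟩ := plus_heights hQ
  set s : ℝ := min s1 (c1 / 8) with hs
  have hs0 : 0 < s := lt_min hs1 (by positivity)
  obtain ⟨K, L, n2, p, hp, HW⟩ := window hQ hc hc2 (one hc hc2) hMm hMp hs0 (K' := 100 * K1) (Lw := 100 * k1)
    (by omega) (by omega)
  by_contra hcon
  unfold WeakRSW at hcon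
  push Not at hcon
  obtain ⟨n, hn, hbl⟩ := hcon (K + 100 * K1) 2 L (n1 + n2 + 1) (min p (c1 / 8)) (lt_min hp (by positivity))
  obtain ⟨v, hv1, hv2, hv⟩ := HW n (by omega) fun n' h1 h2 => by
    refine lt_of_le_of_lt ?_ ((hbl n' h1 h2).trans_le (min_le_left _ _))
    exact Pr_mono_dom hc (sc_hexB _) (sc_hexB _) (hexB_mono (Nat.mul_le_mul_right _ (by omega)))
      (decS_blk 0 n' (2 * n'))
  have hvL : v ≤ L * n := le_trans (Nat.le_mul_of_pos_left v (by omega)) hv2
  have hk : 100 * v ≤ 100 * k1 * v := by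
    have : 100 * k1 * v = k1 * (100 * v) := by ring
    rw [this]
    exact Nat.le_mul_of_pos_left _ hk1
  -- heights
  have h1 := H1 c hc (tv2 hc) (100 * v) (by omega) fun u hu1 hu2 =>
    (hv u (by omega) (by
      have : 100 * k1 * v = k1 * (100 * v) := by ring
      rw [this]; exact hu2)).mono hc (min_le_left _ _) (by omega)
  set F : Finset P2 := hexB (l1 * (100 * v)) with hF
  have hFsc : SC F := sc_hexB _
  have h4 : 4 * (100 * v) ≤ l1 * (100 * v) := Nat.mul_le_mul_right _ hl4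
  have h2 := lev hc hc2 F (100 * v) (2 * (100 * v)) (10 * v) hFsc (by
    rw [Rsw867.ball_zero_eq]; exact hexB_mono (by omega)) (by omega) (by omega) (by omega)
  have h3 := flip hc hc2 F (10 * v) (2 * (10 * v)) v hFsc (by
    rw [Rsw867.ball_zero_eq]; exact hexB_mono (by omega)) (by omega) (by omega) (by omega)
  have hFv : F ⊆ hexB (100 * K1 * v) := by
    refine hexB_mono ?_
    calc l1 * (100 * v) ≤ K1 * (100 * v) := Nat.mul_le_mul_right _ hlK
      _ = 100 * K1 * v := by ring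
  have h5 : Pr c F (BlkP 0 v (2 * v))ᶜ ≤ s := by
    refine (hv v le_rfl (by omega)).dom hc hFsc ?_
    rw [Rsw867.ball_zero_eq]
    exact hFv
  have h6 : Pr c F (BlkP 0 (10 * v) (2 * (10 * v)))ᶜ ≤ s := by
    refine (hv (10 * v) (by omega) (by omega)).dom hc hFsc ?_
    rw [Rsw867.ball_zero_eq]
    exact hFv.trans (hexB_mono (Nat.mul_le_mul_left _ (by omega)))
  have h7 : Pr c F (Blk 0 v (2 * v)) ≤ c1 / 8 := by
    refine blk_le (K := K + 100 * K1) (u := v) hc ((hbl v hv1 hvL).le.trans (min_le_right _ _)) hFsc ?_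
    rw [Rsw867.ball_zero_eq]
    exact hFv.trans (hexB_mono (Nat.mul_le_mul_right _ (by omega)))
  have h8 : Pr c F {ω | Sepr (up1 ω) 0 (100 * v) (2 * (100 * v))} ≤
      Pr c F ({ω | Sepr (up1 ω) 0 (100 * v) (2 * (100 * v))} ∩ BlkP 0 (10 * v) (2 * (10 * v))) +
        Pr c F (BlkP 0 (10 * v) (2 * (10 * v)))ᶜ := by
    refine (Pr_mono hc ?_).trans (Pr_union_le hc F _ _)
    intro ω hω
    by_cases h : ω ∈ BlkP 0 (10 * v) (2 * (10 * v))
    · exact Or.inl ⟨hω, h⟩
    · exact Or.inr h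
  have h9 : s ≤ c1 / 8 := min_le_right _ _
  have h10 : pB c F (10 * v) (2 * (10 * v)) ≤ s + c1 / 8 := by linarith
  linarith

/-- RSW for the integer models -/
theorem rswz (hQ : QRSW) {c : ℝ} (hc : 1 ≤ c) (hc2 : c ≤ 2) : RSWZ c :=
  rswz_of_weak hc (weak hQ hc hc2)

end Crest.Agent.R144.Th121
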