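import Crest.Agent.R144.Qcc_216
import Crest.Agent.R144.Qbr_356
import Crest.Agent.R144.Th3_121

/-!
# R144: QRSW and RSWZ (helper216; 1941 = helper315; R2 = helper121)
-/

set_option autoImplicit false

namespace Crest.Agent.R144.Rfin216

/-- the single-scale RSW theorem -/
theorem qrsw : Crest.Agent.R144.Qr315.QRSW :=
  Crest.Agent.R144.Qbr356.qrsw_of Crest.Agent.R144.Qcc216.qf

/-- the uniform RSW statement for all `1 ≤ c ≤ 2` -/
theorem rswz (c : ℝ) (hc : 1 ≤ c) (hc2 : c ≤ 2) : Crest.Agent.R144.Rsw867.RSWZ c :=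
  Crest.Agent.R144.Th121.rswz qrsw hc hc2

end Crest.Agent.R144.Rfin216
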