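import Crest.Agent.R144.Fin4_830
import Crest.Agent.R144.Rfin_216
import Crest.Agent.R144.Gb1_349
import Crest.Agent.R144.Cd3_617
import Crest.Agent.R144.Ctg_830
import Crest.Agent.R144.Fh3_353

/-! R144 (helper830): final wiring of S0195 / S0196 from the cell bound.

* `p1_of_cell` : interior Gaussianity from the cell bound (helpers 617, 349, 136 and `Ctg830.domContig`);
* `s0195_of_cell`, `s0196_of_cell` : everything except the cell bound is a theorem. -/

set_option autoImplicit false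

open Topology Filter MeasureTheory
open scoped ContDiff

namespace Crest.Agent.R144.Fin830

/-- the cell bound for every plane layer -/
def Cell (x : ℝ) : Prop :=
  ∀ (P : Measure Pst967.Hz) (κ : ℝ), Plane x P κ → ∀ δ : ℕ → ℝ, (∀ n, 0 < δ n) →
    Tendsto δ atTop (𝓝 0) → Cd617.CellBd P δ

/-- interior Gaussianity from the cell bound -/
theorem p1_of_cell {x : ℝ} (h : Cell x) : P1 x :=
  Dom136.P1_of (Gb349.planeGauss fun P κ hP δ hδ hδ0 =>
    Cd617.ccw_of_cell hP hδ hδ0 (h P κ hP δ hδ hδ0)) (Ctg830.domContig x)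

/-- **S0195 from the cell bound** -/
theorem s0195_of_cell {x : ℝ} (hC : Cell x) (hx : 1 / Real.sqrt 2 ≤ x) (hx1 : x ≤ 1) :
    ∃ σ : ℝ, 0 < σ ∧ ∀ (D : Set ℂ) (γ : ℝ → ℂ) (φ : ℂ → ℂ),
      Crest.ProbabilityR.HexHeights.IsC2JordanDomain D γ → DifferentiableOn ℂ φ D →
      Set.BijOn φ D (Metric.ball (0 : ℂ) 1) →
      ∀ (δ : ℕ → ℝ) (F : ℕ → Finset (ℤ × ℤ)),
        Crest.ProbabilityR.HexHeights.IsInsideApprox D γ δ F →
      ∀ f : ℂ → ℝ, ContDiff ℝ ∞ f → HasCompactSupport f → tsupport f ⊆ D →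
        (∀ t : ℝ, Filter.Tendsto (fun n : ℕ => Crest.ProbabilityR.HexHeights.heightExpect (F n) x
            (fun h => Complex.exp (Complex.I *
              (t * Crest.ProbabilityR.HexHeights.pairing (δ n) f h / σ : ℝ))))
          Filter.atTop
          (nhds (Complex.exp
            (-(Crest.ProbabilityR.HexHeights.domainGreenForm φ f * t ^ 2 / 2 : ℝ))))) ∧
        ∀ k : ℕ, Filter.Tendsto (fun n : ℕ => Crest.ProbabilityR.HexHeights.heightExpect (F n) x
            (fun h => ((Crest.ProbabilityR.HexHeights.pairing (δ n) f h / σ) ^ k : ℝ)))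
          Filter.atTop
          (nhds ((if Even k then Crest.ProbabilityR.HexHeights.domainGreenForm φ f ^ (k / 2) *
              ((k - 1).doubleFactorial : ℝ) else 0 : ℝ) : ℂ)) :=
  s0195_of_top Rfin216.rswz hx hx1 (p1_of_cell hC) (Fh353.c2 x)

/-- **S0196 from the cell bound** -/
theorem s0196_of_cell (hC : Cell 1) :
    ∃ σ : ℝ, 0 < σ ∧ ∀ (D : Set ℂ) (γ : ℝ → ℂ) (θ : ℝ) (φ : ℂ → ℂ),
      Crest.ProbabilityR.TriHeights.IsSmoothMarkedDomain D γ θ → DifferentiableOn ℂ φ D →
      Set.BijOn φ D (Metric.ball (0 : ℂ) 1) →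
      ∀ (δ : ℕ → ℝ) (T : ℕ → Finset Crest.ProbabilityR.TriHeights.Tri) (ea eb : ℕ → (ℤ × ℤ) × (ℤ × ℤ)) (c : ℕ → ℝ → ℂ),
        Crest.ProbabilityR.TriHeights.IsMarkedApprox γ θ δ T ea eb c →
      ∀ f : ℂ → ℝ, ContDiff ℝ ∞ f → HasCompactSupport f → tsupport f ⊆ D →
        (∀ t : ℝ, Filter.Tendsto (fun n : ℕ => Crest.ProbabilityR.TriHeights.twoArcExpect (T n) (Crest.ProbabilityR.TriHeights.arcPlus (δ n) (T n) (c n) θ) (Crest.ProbabilityR.TriHeights.arcMinus (δ n) (T n) (c n) θ)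
            (fun H => Complex.exp (Complex.I *
              (t * (Crest.ProbabilityR.TriHeights.affinePairing (δ n) (T n) f (Crest.ProbabilityR.TriHeights.oddHeight H) -
              (Crest.ProbabilityR.TriHeights.twoArcExpect (T n) (Crest.ProbabilityR.TriHeights.arcPlus (δ n) (T n) (c n) θ) (Crest.ProbabilityR.TriHeights.arcMinus (δ n) (T n) (c n) θ) (fun H' => (Crest.ProbabilityR.TriHeights.affinePairing (δ n) (T n) f (Crest.ProbabilityR.TriHeights.oddHeight H') : ℂ))).re) / σ : ℝ))))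
          Filter.atTop
          (nhds (Complex.exp (-(Crest.ProbabilityR.HexHeights.domainGreenForm φ f * t ^ 2 / 2 : ℝ))))) ∧
        ∀ k : ℕ, Filter.Tendsto (fun n : ℕ => Crest.ProbabilityR.TriHeights.twoArcExpect (T n) (Crest.ProbabilityR.TriHeights.arcPlus (δ n) (T n) (c n) θ) (Crest.ProbabilityR.TriHeights.arcMinus (δ n) (T n) (c n) θ)
            (fun H => (((Crest.ProbabilityR.TriHeights.affinePairing (δ n) (T n) f (Crest.ProbabilityR.TriHeights.oddHeight H) -
              (Crest.ProbabilityR.TriHeights.twoArcExpect (T n) (Crest.ProbabilityR.TriHeights.arcPlus (δ n) (T n) (c n) θ) (Crest.ProbabilityR.TriHeights.arcMinus (δ n) (T n) (c n) θ) (fun H' => (Crest.ProbabilityR.TriHeights.affinePairing (δ n) (T n) f (Crest.ProbabilityR.TriHeights.oddHeight H') : ℂ))).re) / σ) ^ k : ℝ)))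
          Filter.atTop
          (nhds ((if Even k then Crest.ProbabilityR.HexHeights.domainGreenForm φ f ^ (k / 2) *
              ((k - 1).doubleFactorial : ℝ) else 0 : ℝ) : ℂ)) :=
  s0196_of_top Rfin216.rswz (p1_of_cell hC) (Fh353.c2 1)

end Crest.Agent.R144.Fin830
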