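import Crest.Agent.R144.Fin6_830
import Crest.Agent.R144.Cell_311
import Crest.Agent.R144.Cd2_169

/-!
# R144: the cell theorem, from helper169's `stepA` and helper311's `cell_of`
-/

set_option autoImplicit false

noncomputable section

namespace Crest.Agent.R144.Fin830

/-- **the cell theorem** -/
theorem cell (x : ℝ) : Cell x := Cell311.cell_of fun P κ h δ hδ hδ0 K L hK hL m η z0 u hη hu hs =>
  Cd169.stepA h hδ hδ0 hK hL m hη hu hs

end Crest.Agent.R144.Fin830
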