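import Mathlib
import Crest.Agent.R144.Skel97_144
import Crest.Agent.R144.MW1_121

/-!
# R144 (S0197), top glue, version for the untilted law (helper144; docs 1739, 1760)

`UpperB0 u`, `FieldAt I v ε n`, `FieldB l`: the one-sided bounds at `s = 0`, the lower one in the
form of a tangent field (`MW121.Tan`) with `E tr (jac Y * jac Y) ≤ v + ε`, `E |X'(Y) - v| ≤ ε`.

`exists_kappa0`: one constant `κ`, `0 < κ ≤ 2/π`, with `Var ≤ κ g + ε` and `FieldAt I (κ g) ε n`
eventually, for every instance.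
-/

set_option autoImplicit false

namespace Crest.Agent.R144.Skel144

open Filter Topology Metric MeasureTheory ProbabilityTheory
open Crest.ProbabilityR.TriHeights Crest.Agent.R144.Ham560 Crest.Agent.R144.Tilt714
open Crest.Agent.R144
open scoped NNReal ENNReal Real ContDiff

section abs

set_option linter.unusedSectionVars false

variable {V : Type*} [Fintype V] [DecidableEq V]

/-- normalised volume of a set -/
lemma integral_unif {K : Set (V → ℝ)} (G : (V → ℝ) → ℝ) :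
    ∫ x, G x ∂((volume K)⁻¹ • volume.restrict K) = (volume K).toReal⁻¹ * ∫ x in K, G x := by
  rw [integral_smul_measure, ENNReal.toReal_inv, smul_eq_mul]

/-- Cramer-Rao in trace form for the normalised volume -/
theorem cramer_rao_trace {Y : (V → ℝ) → (V → ℝ)} {c : ℝ≥0} {K : Set (V → ℝ)} {t0 : ℝ}
    (hT : MW121.Tan K Y c t0) (hK : MeasurableSet K) (hKb : Bornology.IsBounded K)
    {G : (V → ℝ) → ℝ} {L : ℝ≥0} (hG : LipschitzWith L G) (m : ℝ) :
    2 * (∫ h in K, fderiv ℝ G h (Y h)) - (∫ h in K, (MW121.jac Y h * MW121.jac Y h).trace) ≤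
      ∫ h in K, (G h - m) ^ 2 := by
  have hm : LipschitzWith L (fun h => G h - m) := by
    intro x y
    simpa using hG x y
  have h1 := MW121.ibp hT hK hKb hm
  have h2 := MW121.reilly hT hK hKb
  have hfd : ∀ h, fderiv ℝ (fun h => G h - m) h = fderiv ℝ G h := fun h => fderiv_sub_const m
  simp only [hfd] at h1
  have hi1 : IntegrableOn (fun h => (G h - m) * (MW121.jac Y h).trace) K :=
    MW121.integrableOn_mul_trace hT.lip hK hKb hm
  obtain ⟨M, hM0, hM⟩ := MW121.exists_lip_bound hKb hm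
  have hi2 : IntegrableOn (fun h => (G h - m) ^ 2) K := by
    refine MW121.integrableOn_of_bound hK hKb ?_ (M := M ^ 2) ?_
    · exact ((hm.continuous.measurable).pow_const 2).aestronglyMeasurable
    · intro h hh
      rw [abs_pow]
      exact pow_le_pow_left₀ (abs_nonneg _) (by simpa using hM h hh) 2
  have hi3 : IntegrableOn (fun h => (MW121.jac Y h).trace ^ 2) K := by
    refine MW121.integrableOn_of_bound hK hKb
      ((MW121.measurable_trace Y).pow_const 2).aestronglyMeasurable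
      (M := (Fintype.card V * (c : ℝ)) ^ 2) ?_
    intro h _
    rw [abs_pow]
    exact pow_le_pow_left₀ (abs_nonneg _) (MW121.abs_trace_le hT.lip h) 2
  have h3 : 0 ≤ ∫ h in K, ((G h - m) + (MW121.jac Y h).trace) ^ 2 :=
    integral_nonneg fun h => sq_nonneg _
  have h4 : ∫ h in K, ((G h - m) + (MW121.jac Y h).trace) ^ 2 =
      (∫ h in K, (G h - m) ^ 2) + 2 * (∫ h in K, (G h - m) * (MW121.jac Y h).trace) +
        ∫ h in K, (MW121.jac Y h).trace ^ 2 := by
    have i4 : IntegrableOn (fun h => 2 * ((G h - m) * (MW121.jac Y h).trace)) K := hi1.const_mul 2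
    have i5 : IntegrableOn (fun h => (G h - m) ^ 2 + 2 * ((G h - m) * (MW121.jac Y h).trace)) K :=
      hi2.add i4
    rw [← integral_const_mul, ← integral_add hi2 i4, ← integral_add i5 hi3]
    refine integral_congr_ae (Eventually.of_forall fun h => ?_)
    simp only
    ring
  linarith

end abs

/-- upper variance bound, untilted law -/
def UpperB0 (u : ℝ) : Prop :=
  ∀ I : Inst, ∀ ε : ℝ, 0 < ε → ∀ᶠ n in atTop, Var[I.X n; I.P0 n] ≤ u * I.g + ε

/-- a Stein field with value `v` up to `ε` -/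
def FieldAt (I : Inst) (v ε : ℝ) (n : ℕ) : Prop :=
  ∃ (Y : (I.Fr n → ℝ) → (I.Fr n → ℝ)) (c : ℝ≥0) (t0 : ℝ),
    MW121.Tan (ham (I.Fr n) (I.Ed n) (I.xi n)) Y c t0 ∧
    ∫ x, (MW121.jac Y x * MW121.jac Y x).trace ∂(I.P0 n) ≤ v + ε ∧
    ∫ x, |fderiv ℝ (I.X n) x (Y x) - v| ∂(I.P0 n) ≤ ε

/-- the lower bound in the form of Stein fields -/
def FieldB (l : ℝ) : Prop :=
  ∀ I : Inst, ∀ ε : ℝ, 0 < ε → ∀ᶠ n in atTop, FieldAt I (l * I.g) ε n

section inst

variable (I : Inst) (n : ℕ)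

lemma ham_measurable : MeasurableSet (ham (I.Fr n) (I.Ed n) (I.xi n)) :=
  isClosed_ham.measurableSet

lemma ham_bounded : Bornology.IsBounded (ham (I.Fr n) (I.Ed n) (I.xi n)) :=
  (I.isCompact_ham n).isBounded

lemma vol_ne_zero : volume (ham (I.Fr n) (I.Ed n) (I.xi n)) ≠ 0 :=
  volume_ham_ne_zero (I.abs_xi_le n)

lemma vol_ne_top : volume (ham (I.Fr n) (I.Ed n) (I.xi n)) ≠ ⊤ :=
  (volume_ham_lt_top (I.anch n)).ne

lemma P0_eq : I.P0 n = (volume (ham (I.Fr n) (I.Ed n) (I.xi n)))⁻¹ •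
    volume.restrict (ham (I.Fr n) (I.Ed n) (I.xi n)) := rfl

/-- the affine pairing is Lipschitz -/
lemma lip_X : ∃ L : ℝ≥0, LipschitzWith L (I.X n) := by
  -- linear part
  let A : (I.Fr n → ℝ) →ₗ[ℝ] ℝ :=
    { toFun := fun x => I.X n x - I.X n 0
      map_add' := by
        intro x y
        have h1 := pairX_affine (I.δ n) (I.T n) (I.Ap n) (I.Am n) I.a I.f
          ((2 : ℝ) • x) ((2 : ℝ) • y) (1 / 2)
        have h2 := pairX_affine (I.δ n) (I.T n) (I.Ap n) (I.Am n) I.a I.f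
          ((2 : ℝ) • x) 0 (1 / 2)
        have h3 := pairX_affine (I.δ n) (I.T n) (I.Ap n) (I.Am n) I.a I.f
          ((2 : ℝ) • y) 0 (1 / 2)
        have e1 : (1 - (1 / 2 : ℝ)) • (2 : ℝ) • x + (1 / 2 : ℝ) • (2 : ℝ) • y = x + y := by
          ext i; simp; ring
        have e2 : (1 - (1 / 2 : ℝ)) • (2 : ℝ) • x + (1 / 2 : ℝ) • (0 : I.Fr n → ℝ) = x := by
          ext i; simp; ring
        have e3 : (1 - (1 / 2 : ℝ)) • (2 : ℝ) • y + (1 / 2 : ℝ) • (0 : I.Fr n → ℝ) = y := by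
          ext i; simp; ring
        rw [e1] at h1
        rw [e2] at h2
        rw [e3] at h3
        show I.X n (x + y) - I.X n 0 = (I.X n x - I.X n 0) + (I.X n y - I.X n 0)
        simp only [Inst.X] at *
        linarith
      map_smul' := by
        intro r x
        show I.X n (r • x) - I.X n 0 = r • (I.X n x - I.X n 0)
        have h1 := pairX_affine (I.δ n) (I.T n) (I.Ap n) (I.Am n) I.a I.f 0 x r
        have e1 : (1 - r) • (0 : I.Fr n → ℝ) + r • x = r • x := by simp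
        rw [e1] at h1
        simp only [Inst.X, smul_eq_mul] at *
        linarith }
  have hA : ∀ x, I.X n x = LinearMap.toContinuousLinearMap A x + I.X n 0 := by
    intro x
    show I.X n x = (I.X n x - I.X n 0) + I.X n 0
    ring
  refine ⟨‖LinearMap.toContinuousLinearMap A‖₊, ?_⟩
  have h1 := (LinearMap.toContinuousLinearMap A).lipschitz
  intro x y
  rw [hA x, hA y]
  simpa using h1 x y

/-- a Stein field gives a lower bound for the variance -/
theorem FieldAt.var_ge {I : Inst} {v ε : ℝ} {n : ℕ} (h : FieldAt I v ε n) :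
    v - 3 * ε ≤ Var[I.X n; I.P0 n] := by
  obtain ⟨Y, c, t0, hT, h1, h2⟩ := h
  obtain ⟨L, hL⟩ := lip_X I n
  have hK := ham_measurable I n
  have hKb := ham_bounded I n
  have hv0 : 0 < (volume (ham (I.Fr n) (I.Ed n) (I.xi n))).toReal :=
    ENNReal.toReal_pos (vol_ne_zero I n) (vol_ne_top I n)
  have key := cramer_rao_trace hT hK hKb hL (∫ x, I.X n x ∂(I.P0 n))
  have hvar : Var[I.X n; I.P0 n] = ∫ x, (I.X n x - ∫ x, I.X n x ∂(I.P0 n)) ^ 2 ∂(I.P0 n) :=
    variance_eq_integral (I.continuous_X n).measurable.aemeasurable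
  rw [hvar]
  have e1 : ∫ x, (I.X n x - ∫ x, I.X n x ∂(I.P0 n)) ^ 2 ∂(I.P0 n) = _ := integral_unif _
  have e2 : ∫ x, (MW121.jac Y x * MW121.jac Y x).trace ∂(I.P0 n) = _ := integral_unif _
  have e3 : ∫ x, fderiv ℝ (I.X n) x (Y x) ∂(I.P0 n) = _ := integral_unif _
  have hmul := mul_le_mul_of_nonneg_left key (inv_nonneg.mpr hv0.le)
  rw [mul_sub, ← mul_assoc, mul_comm _ (2 : ℝ), mul_assoc, ← e1, ← e2, ← e3] at hmul
  -- the linear term
  have hi : Integrable (fun x => fderiv ℝ (I.X n) x (Y x)) (I.P0 n) := by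
    have := MW121.integrableOn_fderiv_apply hT.lip hK hKb hL
    exact this.smul_measure (ENNReal.inv_ne_top.mpr (vol_ne_zero I n))
  have h3 : |∫ x, (fderiv ℝ (I.X n) x (Y x) - v) ∂(I.P0 n)| ≤ ε :=
    (abs_integral_le_integral_abs).trans h2
  rw [integral_sub hi (integrable_const v), integral_const, probReal_univ, one_smul,
    abs_le] at h3
  linarith [h3.1]

/-- moving the value of a Stein field -/
theorem FieldAt.move {I : Inst} {v v' ε ε' : ℝ} {n : ℕ} (h : FieldAt I v ε n)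
    (hv : |v - v'| ≤ ε' - ε) : FieldAt I v' ε' n := by
  obtain ⟨Y, c, t0, hT, h1, h2⟩ := h
  obtain ⟨L, hL⟩ := lip_X I n
  have hv' := abs_le.mp hv
  refine ⟨Y, c, t0, hT, by linarith, ?_⟩
  have hi : Integrable (fun x => fderiv ℝ (I.X n) x (Y x)) (I.P0 n) := by
    have := MW121.integrableOn_fderiv_apply hT.lip (ham_measurable I n) (ham_bounded I n) hL
    exact this.smul_measure (ENNReal.inv_ne_top.mpr (vol_ne_zero I n))
  have i1 : Integrable (fun x => |fderiv ℝ (I.X n) x (Y x) - v|) (I.P0 n) :=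
    (hi.sub (integrable_const v)).abs
  have i2 : Integrable (fun x => |fderiv ℝ (I.X n) x (Y x) - v'|) (I.P0 n) :=
    (hi.sub (integrable_const v')).abs
  calc ∫ x, |fderiv ℝ (I.X n) x (Y x) - v'| ∂(I.P0 n)
      ≤ ∫ x, (|fderiv ℝ (I.X n) x (Y x) - v| + |v - v'|) ∂(I.P0 n) := by
        refine integral_mono i2 (i1.add (integrable_const _)) fun x => ?_
        exact abs_sub_le _ _ _
    _ = (∫ x, |fderiv ℝ (I.X n) x (Y x) - v| ∂(I.P0 n)) + |v - v'| := by
        rw [integral_add i1 (integrable_const _), integral_const, probReal_univ, one_smul]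
    _ ≤ ε' := by linarith

end inst

lemma g_nonneg0 {u : ℝ} (hu : 0 < u) (hU : UpperB0 u) (I : Inst) : 0 ≤ I.g := by
  by_contra hg
  push Not at hg
  have h1 := hU I (-(u * I.g) / 2) (by nlinarith [mul_neg_of_pos_of_neg hu hg])
  obtain ⟨n, hn⟩ := h1.exists
  have h2 : 0 ≤ Var[I.X n; I.P0 n] := variance_nonneg _ _
  nlinarith [mul_neg_of_pos_of_neg hu hg]

lemma field_le_upper {l u : ℝ} (hL : FieldB l) (hU : UpperB0 u) {I : Inst} (hg : 0 < I.g) :
    l ≤ u := by
  by_contra hlu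
  push Not at hlu
  have hd : 0 < (l - u) * I.g := mul_pos (by linarith) hg
  have h1 := hL I ((l - u) * I.g / 5) (by linarith)
  have h2 := hU I ((l - u) * I.g / 5) (by linarith)
  obtain ⟨n, hn1, hn2⟩ := (h1.and h2).exists
  have := hn1.var_ge
  nlinarith

/-- the zero field -/
lemma fieldAt_zero (I : Inst) {ε : ℝ} (hε : 0 < ε) (n : ℕ) : FieldAt I 0 ε n := by
  refine ⟨fun _ => 0, 0, 1, ⟨LipschitzWith.const 0, one_pos, fun h hh t _ => by simpa using hh⟩,
    ?_, ?_⟩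
  · have h1 : ∀ x : I.Fr n → ℝ,
        MW121.jac (fun _ : I.Fr n → ℝ => (0 : I.Fr n → ℝ)) x = 0 := by
      intro x; ext u v; simp [MW121.jac_apply]
    simp [h1, hε.le]
  · simp [hε.le]

/-- **the constant**, untilted version -/
theorem exists_kappa0 (ab : ℕ → ℝ → ℝ) {c0 : ℝ} (hc0 : 0 < c0) (er : ℕ → ℝ) (r0 : ℕ)
    (her0 : ∀ r, r0 ≤ r → 0 < er r) (her : Tendsto er atTop (𝓝 0))
    {B : ℝ} (hPos : ∀ r, r0 ≤ r → ∀ L, ab r L ≤ B)
    (hUp : ∀ r, r0 ≤ r → ∀ L, 0 < ab r L → UpperB0 (c0 / ab r L))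
    (hLo : ∀ r, r0 ≤ r → ∀ b, 0 ≤ b → (∀ L, ab r L ≤ b) → FieldB (c0 / (b + er r)))
    (hKap : ∀ r, r0 ≤ r → ∀ b, 0 ≤ b → (∀ L, ab r L ≤ b) → c0 / (b + er r) ≤ 2 / π) :
    ∃ κ : ℝ, 0 < κ ∧ κ ≤ 2 / π ∧ ∀ I : Inst, ∀ ε : ℝ, 0 < ε →
      ∀ᶠ n in atTop, Var[I.X n; I.P0 n] ≤ κ * I.g + ε ∧ FieldAt I (κ * I.g) ε n := by
  have hπ : 0 < π := Real.pi_pos
  set b : ℕ → ℝ := fun r => max 0 (⨆ L, ab r L) with hb
  have hbdd : ∀ r, r0 ≤ r → BddAbove (Set.range (ab r)) := fun r hr =>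
    ⟨B, by rintro _ ⟨L, rfl⟩; exact hPos r hr L⟩
  have hb0 : ∀ r, 0 ≤ b r := fun r => le_max_left _ _
  have hbL : ∀ r, r0 ≤ r → ∀ L, ab r L ≤ b r := fun r hr L =>
    (le_ciSup (hbdd r hr) L).trans (le_max_right _ _)
  have hbe : ∀ r, r0 ≤ r → 0 < b r + er r := fun r hr => by linarith [hb0 r, her0 r hr]
  have hlow : ∀ r, r0 ≤ r → c0 * π / 2 ≤ b r + er r := by
    intro r hr
    have h1 := hKap r hr (b r) (hb0 r) (hbL r hr)
    rw [div_le_div_iff₀ (hbe r hr) hπ] at h1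
    linarith
  have hc1 : 0 < c0 * π / 2 := by positivity
  have hgood : ∀ η : ℝ, 0 < η → ∃ r1, r0 ≤ r1 ∧ ∀ r, r1 ≤ r → er r < η := by
    intro η hη
    have h1 : ∀ᶠ r in atTop, er r < η := (tendsto_order.mp her).2 η hη
    obtain ⟨r1, hr1⟩ := eventually_atTop.mp (h1.and (eventually_ge_atTop r0))
    exact ⟨max r1 r0, le_max_right _ _, fun r hr => (hr1 r ((le_max_left _ _).trans hr)).1⟩
  have hsup : ∀ r, r0 ≤ r → ∀ η : ℝ, 0 < η → er r < c0 * π / 2 → ∃ L, b r - η < ab r L := by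
    intro r hr η hη he
    have h1 : 0 < b r := by linarith [hlow r hr]
    have h2 : b r = ⨆ L, ab r L := by
      rcases max_choice (0 : ℝ) (⨆ L, ab r L) with h | h
      · exact absurd (show b r = 0 from h) h1.ne'
      · exact h
    have h3 : b r - η < ⨆ L, ab r L := by rw [← h2]; linarith
    exact exists_lt_of_lt_ciSup h3
  obtain ⟨r1, hr1, hr1'⟩ := hgood (c0 * π / 4) (by positivity)
  obtain ⟨L1, hL1⟩ := hsup r1 hr1 (c0 * π / 4) (by positivity) (by linarith [hr1' r1 le_rfl])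
  have hab1 : 0 < ab r1 L1 := by linarith [hlow r1 hr1, hr1' r1 le_rfl]
  have hgn : ∀ I : Inst, 0 ≤ I.g := g_nonneg0 (by positivity) (hUp r1 hr1 L1 hab1)
  by_cases hex : ∃ I : Inst, 0 < I.g
  · obtain ⟨I0, hI0⟩ := hex
    have hcmp : ∀ r, r0 ≤ r → ∀ r', r0 ≤ r' → ∀ L, ab r' L ≤ b r + er r := by
      intro r hr r' hr' L
      by_cases h : 0 < ab r' L
      · have h1 := field_le_upper (hLo r hr (b r) (hb0 r) (hbL r hr)) (hUp r' hr' L h) hI0
        rw [div_le_div_iff₀ (hbe r hr) h] at h1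
        have h2 : c0 * ab r' L ≤ c0 * (b r + er r) := by linarith
        exact le_of_mul_le_mul_left h2 hc0
      · linarith [hbe r hr]
    have hcmp' : ∀ r, r0 ≤ r → ∀ r', r0 ≤ r' → b r' ≤ b r + er r := by
      intro r hr r' hr'
      refine max_le (hbe r hr).le ?_
      exact ciSup_le fun L => hcmp r hr r' hr' L
    set β : ℝ := sInf {x | ∃ r, r0 ≤ r ∧ x = b r + er r} with hβ
    have hne : {x | ∃ r, r0 ≤ r ∧ x = b r + er r}.Nonempty := ⟨_, r0, le_rfl, rfl⟩
    have hbb : BddBelow {x | ∃ r, r0 ≤ r ∧ x = b r + er r} :=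
      ⟨c0 * π / 2, by rintro _ ⟨r, hr, rfl⟩; exact hlow r hr⟩
    have hβ0 : c0 * π / 2 ≤ β := le_csInf hne (by rintro _ ⟨r, hr, rfl⟩; exact hlow r hr)
    have hβ1 : ∀ r, r0 ≤ r → b r ≤ β := fun r hr =>
      le_csInf hne (by rintro _ ⟨r', hr', rfl⟩; exact hcmp' r' hr' r hr)
    have hβ2 : ∀ r, r0 ≤ r → β ≤ b r + er r := fun r hr => csInf_le hbb ⟨r, hr, rfl⟩
    have hβp : 0 < β := lt_of_lt_of_le hc1 hβ0
    refine ⟨c0 / β, by positivity, by rw [div_le_div_iff₀ hβp hπ]; linarith, ?_⟩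
    intro I ε hε
    set G : ℝ := I.g with hG
    have hG0 : 0 ≤ G := hgn I
    have hcont : Tendsto (fun x : ℝ => c0 / x * G) (𝓝 β) (𝓝 (c0 / β * G)) :=
      ((tendsto_const_nhds.div tendsto_id hβp.ne').mul_const G)
    obtain ⟨η, hη, hη'⟩ := Metric.tendsto_nhds_nhds.mp hcont (ε / 2) (by positivity)
    set η1 : ℝ := min (η / 4) (min (β / 4) (c0 * π / 4)) with hη1
    have hη10 : 0 < η1 := lt_min (by positivity) (lt_min (by positivity) (by positivity))
    have e1 : η1 ≤ η / 4 := min_le_left _ _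
    have e2 : η1 ≤ β / 4 := (min_le_right _ _).trans (min_le_left _ _)
    have e3 : η1 ≤ c0 * π / 4 := (min_le_right _ _).trans (min_le_right _ _)
    obtain ⟨r, hr, hr'⟩ := hgood η1 hη10
    have her' := hr' r le_rfl
    obtain ⟨L, hL⟩ := hsup r hr η1 hη10 (by linarith)
    have f1 := hβ1 r hr
    have f2 := hβ2 r hr
    have f3 := hbL r hr L
    have habp : 0 < ab r L := by linarith
    have u1 := hUp r hr L habp I (ε / 2) (by positivity)
    have u2 := hLo r hr (b r) (hb0 r) (hbL r hr) I (ε / 2) (by positivity)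
    have k1 := hη' (x := ab r L) (by
      rw [Real.dist_eq, abs_lt]; constructor <;> linarith)
    have k2 := hη' (x := b r + er r) (by
      rw [Real.dist_eq, abs_lt]; constructor <;> linarith [her0 r hr])
    rw [Real.dist_eq] at k1 k2
    filter_upwards [u1, u2] with n hn1 hn2
    refine ⟨by linarith [(abs_lt.mp k1).2], hn2.move ?_⟩
    linarith [k2]
  · push Not at hex
    refine ⟨2 / π, by positivity, le_rfl, ?_⟩
    intro I ε hε
    have hg : I.g = 0 := le_antisymm (hex I) (hgn I)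
    have u1 := hUp r1 hr1 L1 hab1 I ε hε
    filter_upwards [u1] with n hn
    rw [hg, mul_zero] at hn ⊢
    exact ⟨hn, fieldAt_zero I hε n⟩

end Crest.Agent.R144.Skel144
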