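import Mathlib
import Crest.Agent.R144.Skel99_144
import Crest.Agent.R144.Stein2_540

/-!
# R144 (S0197), the end of the chain (helper144): POS + UP' + LO + KAP imply the literal S0197
-/

set_option autoImplicit false

namespace Crest.Agent.R144.Skel144

open Filter Topology Metric MeasureTheory ProbabilityTheory
open Crest.ProbabilityR.TriHeights Crest.Agent.R144.Ham560 Crest.Agent.R144.Tilt714
open Crest.Agent.R144
open scoped NNReal ENNReal Real ContDiff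

/-- the output of `exists_kappa1` is 540's `SteinAsymp` -/
theorem steinAsymp_of {κ : ℝ} (h : ∀ I : Inst, ∀ ε : ℝ, 0 < ε →
      ∀ᶠ n in atTop, Var[I.X n; I.P0 n] ≤ κ * I.g + ε ∧ FieldAt I (κ * I.g) ε n) :
    Stein540.SteinAsymp κ := by
  intro a ha0 ha1 D γ θ φ hD hφ hbij δ T ea eb c hM f hf hfc hfs
  set I : Inst := ⟨a, ha0, ha1, D, γ, θ, φ, hD, hφ, hbij, δ, T, ea, eb, c, hM, f, hf, hfc, hfs⟩
    with hI
  refine ⟨Eventually.of_forall fun n v hv => I.arcs_disj n v hv,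
    Eventually.of_forall fun n => I.anch n, fun ε hε => ?_, fun ε hε => ?_⟩
  · exact (h I ε hε).mono fun n hn => hn.1
  · exact (h I ε hε).mono fun n hn => hn.2

/-- **S0197 from the four block outputs.** -/
theorem s0197_of_blocks0 (ab : ℕ → ℝ → ℝ) {c0 : ℝ} (hc0 : 0 < c0) (er : ℕ → ℝ) (r0 : ℕ)
    (her0 : ∀ r, r0 ≤ r → 0 < er r) (her : Tendsto er atTop (𝓝 0))
    {B : ℝ} (hPos : ∀ r, r0 ≤ r → ∀ L, ab r L ≤ B)
    (hUp : ∀ b, 0 < b → (∃ r1, ∀ r, r1 ≤ r → ∃ L, b ≤ ab r L) → UpperB0 (c0 / b))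
    (hLo : ∀ r, r0 ≤ r → ∀ b, 0 ≤ b → (∀ L, ab r L ≤ b) → FieldB (c0 / (b + er r)))
    (hKap : ∀ r, r0 ≤ r → ∀ b, 0 ≤ b → (∀ L, ab r L ≤ b) → c0 / (b + er r) ≤ 2 / π) :
    ∃ A σ lam : ℝ, 0 < A ∧ 0 < σ ∧ σ ^ 2 = 1 / ((2 / Real.sqrt 3) * A) ∧ 0 < lam ∧
      lam ^ 2 = Real.pi / (8 * (2 / Real.sqrt 3) * A) ∧ lam ≤ 1 / 2 ∧
      ∀ a : ℝ, 0 < a → a ≤ 1 / 2 → ∀ (D : Set ℂ) (γ : ℝ → ℂ) (θ : ℝ) (φ : ℂ → ℂ),
      Crest.ProbabilityR.TriHeights.IsSmoothMarkedDomain D γ θ → DifferentiableOn ℂ φ D →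
      Set.BijOn φ D (Metric.ball (0 : ℂ) 1) →
      ∀ (δ : ℕ → ℝ) (T : ℕ → Finset Crest.ProbabilityR.TriHeights.Tri) (ea eb : ℕ → (ℤ × ℤ) × (ℤ × ℤ)) (c : ℕ → ℝ → ℂ),
        Crest.ProbabilityR.TriHeights.IsMarkedApprox γ θ δ T ea eb c →
      ∀ f : ℂ → ℝ, ContDiff ℝ ∞ f → HasCompactSupport f → tsupport f ⊆ D →
        ∀ t : ℝ, Filter.Tendsto (fun n : ℕ => Crest.ProbabilityR.TriHeights.realExpect (T n) (Crest.ProbabilityR.TriHeights.arcPlus (δ n) (T n) (c n) θ) (Crest.ProbabilityR.TriHeights.arcMinus (δ n) (T n) (c n) θ) a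
            (fun h => Complex.exp (Complex.I *
              (t * (Crest.ProbabilityR.TriHeights.affinePairing (δ n) (T n) f h -
              (Crest.ProbabilityR.TriHeights.realExpect (T n) (Crest.ProbabilityR.TriHeights.arcPlus (δ n) (T n) (c n) θ) (Crest.ProbabilityR.TriHeights.arcMinus (δ n) (T n) (c n) θ) a (fun h' => (Crest.ProbabilityR.TriHeights.affinePairing (δ n) (T n) f h' : ℂ))).re) / σ : ℝ))))
          Filter.atTop
          (nhds (Complex.exp (-(Crest.ProbabilityR.HexHeights.domainGreenForm φ f * t ^ 2 / 2 : ℝ)))) := by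
  obtain ⟨κ, h1, h2, h3⟩ := exists_kappa1 ab hc0 er r0 her0 her hPos hUp hLo hKap
  exact Stein540.s0197_of_stein h1 h2 (steinAsymp_of h3)

end Crest.Agent.R144.Skel144
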