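import Mathlib
import Crest.Agent.R144.Skel98_144

/-!
# R144 (S0197), top glue, final form 2 (helper144; after 95's msg 9899)

`exists_kappa2`: the constant from POS, UP', LoD and KapD: the scale `r1` of the lower bound may
depend on the instance and on the accuracy (no universal error `er r`).
-/

set_option autoImplicit false

namespace Crest.Agent.R144.Skel144

open Filter Topology Metric MeasureTheory ProbabilityTheory
open Crest.ProbabilityR.TriHeights Crest.Agent.R144.Ham560 Crest.Agent.R144.Tilt714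
open Crest.Agent.R144
open scoped NNReal ENNReal Real ContDiff

/-- **LoD** (95, msg 9899): the lower bound in the form of trial fields, the scale may depend on the
instance, the accuracy and a lower bound of `b` -/
def LoD (ab : ℕ → ℝ → ℝ) (c0 : ℝ) : Prop :=
  ∀ I : Inst, ∀ ε : ℝ, 0 < ε → ∀ b0 : ℝ, 0 < b0 → ∃ r1, ∀ r, r1 ≤ r → ∀ b, b0 ≤ b →
    (∀ L, ab r L ≤ b) → ∀ᶠ n in atTop, FieldAt I (c0 / b * I.g) ε n

/-- **KapD** (95, msg 9899) -/
def KapD (ab : ℕ → ℝ → ℝ) (c0 : ℝ) : Prop :=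
  ∀ ε : ℝ, 0 < ε → ∃ r1, ∀ r, r1 ≤ r → ∃ L, c0 * π / 2 - ε ≤ ab r L

/-- **UP'** -/
def UpD (ab : ℕ → ℝ → ℝ) (c0 : ℝ) : Prop :=
  ∀ b, 0 < b → (∃ r1, ∀ r, r1 ≤ r → ∃ L, b ≤ ab r L) → UpperB0 (c0 / b)

/-- **the constant**, final form 2 -/
theorem exists_kappa2 (ab : ℕ → ℝ → ℝ) {c0 : ℝ} (hc0 : 0 < c0) (r0 : ℕ)
    {B : ℝ} (hPos : ∀ r, r0 ≤ r → ∀ L, ab r L ≤ B)
    (hUp : UpD ab c0) (hLo : LoD ab c0) (hKap : KapD ab c0) :
    ∃ κ : ℝ, 0 < κ ∧ κ ≤ 2 / π ∧ ∀ I : Inst, ∀ ε : ℝ, 0 < ε →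
      ∀ᶠ n in atTop, Var[I.X n; I.P0 n] ≤ κ * I.g + ε ∧ FieldAt I (κ * I.g) ε n := by
  have hπ : 0 < π := Real.pi_pos
  set b : ℕ → ℝ := fun r => ⨆ L, ab r L with hb
  have hbdd : ∀ r, r0 ≤ r → BddAbove (Set.range (ab r)) := fun r hr =>
    ⟨B, by rintro _ ⟨L, rfl⟩; exact hPos r hr L⟩
  have hbL : ∀ r, r0 ≤ r → ∀ L, ab r L ≤ b r := fun r hr L => le_ciSup (hbdd r hr) L
  have hbB : ∀ r, r0 ≤ r → b r ≤ B := fun r hr => ciSup_le fun L => hPos r hr L
  have hlow : ∀ ε : ℝ, 0 < ε → ∀ᶠ r in atTop, c0 * π / 2 - ε ≤ b r := by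
    intro ε hε
    obtain ⟨r1, h1⟩ := hKap ε hε
    filter_upwards [eventually_ge_atTop r1, eventually_ge_atTop r0] with r hr hr'
    obtain ⟨L, hL⟩ := h1 r hr
    exact hL.trans (hbL r hr' L)
  have hc1 : 0 < c0 * π / 2 := by positivity
  have hge : IsBoundedUnder (· ≥ ·) atTop b := ⟨c0 * π / 2 - 1, by
    simpa using hlow 1 one_pos⟩
  have hle : IsBoundedUnder (· ≤ ·) atTop b := ⟨B, by
    simpa using (eventually_ge_atTop r0).mono fun r hr => hbB r hr⟩
  have hco : IsCoboundedUnder (· ≥ ·) atTop b := hle.isCoboundedUnder_ge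
  set β : ℝ := liminf b atTop with hβ
  have hβ0 : c0 * π / 2 ≤ β := by
    refine le_of_forall_pos_sub_le fun η hη => ?_
    exact le_liminf_of_le hco (hlow η hη)
  have hβp : 0 < β := lt_of_lt_of_le hc1 hβ0
  -- upper bounds
  have hUp' : ∀ b', 0 < b' → b' < β → UpperB0 (c0 / b') := by
    intro b' hb' hbb
    obtain ⟨b'', h1, h2⟩ := exists_between hbb
    have h3 : ∀ᶠ r in atTop, b'' < b r := eventually_lt_of_lt_liminf h2 hge
    obtain ⟨r1, hr1⟩ := eventually_atTop.mp (h3.and (eventually_ge_atTop r0))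
    refine hUp b' hb' ⟨r1, fun r hr => ?_⟩
    obtain ⟨h4, h5⟩ := hr1 r hr
    have h7 : b' < ⨆ L, ab r L := h1.trans h4
    obtain ⟨L, hL⟩ := exists_lt_of_lt_ciSup h7
    exact ⟨L, hL.le⟩
  have hgn : ∀ I : Inst, 0 ≤ I.g :=
    g_nonneg0 (u := c0 / (β / 2)) (by positivity) (hUp' (β / 2) (by positivity) (by linarith))
  refine ⟨c0 / β, by positivity, by rw [div_le_div_iff₀ hβp hπ]; linarith, ?_⟩
  intro I ε hε
  set G : ℝ := I.g with hG
  have hG0 : 0 ≤ G := hgn I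
  have hcont : Tendsto (fun x : ℝ => c0 / x * G) (𝓝 β) (𝓝 (c0 / β * G)) :=
    ((tendsto_const_nhds.div tendsto_id hβp.ne').mul_const G)
  obtain ⟨η, hη, hη'⟩ := Metric.tendsto_nhds_nhds.mp hcont (ε / 2) (by positivity)
  set η1 : ℝ := min (η / 4) (β / 4) with hη1
  have hη10 : 0 < η1 := lt_min (by positivity) (by positivity)
  have e1 : η1 ≤ η / 4 := min_le_left _ _
  have e2 : η1 ≤ β / 4 := min_le_right _ _
  -- scale for the field
  obtain ⟨r1, hr1⟩ := hLo I (ε / 2) (by positivity) (β / 2) (by positivity)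
  have q1 : ∃ᶠ r in atTop, b r < β + η1 := frequently_lt_of_liminf_lt hco (by linarith)
  have q2 : ∀ᶠ r in atTop, β - η1 < b r := eventually_lt_of_lt_liminf (by linarith) hge
  obtain ⟨r, p1, p2, p3, hr⟩ :=
    (q1.and_eventually (q2.and ((eventually_ge_atTop r1).and (eventually_ge_atTop r0)))).exists
  have u1 := hUp' (β - η1) (by linarith) (by linarith) I (ε / 2) (by positivity)
  have u2 := hr1 r p3 (b r) (by linarith) (hbL r hr)
  have k1 := hη' (x := β - η1) (by rw [Real.dist_eq, abs_lt]; constructor <;> linarith)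
  have k2 := hη' (x := b r) (by
    rw [Real.dist_eq, abs_lt]; constructor <;> linarith)
  rw [Real.dist_eq] at k1 k2
  filter_upwards [u1, u2] with n hn1 hn2
  refine ⟨by linarith [(abs_lt.mp k1).2], hn2.move ?_⟩
  linarith [k2]

end Crest.Agent.R144.Skel144
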