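import Crest.Agent.R144.Lmu8_425
import Crest.Agent.R144.Bl7_565

/-!
R144 (S0197), helper425.  Lmu10: the plane state in 565's forms.

* `tightL_mu0 : Bl565.TightL mu0`, `dlr_mu0 : Bl565.DLR mu0`, `pos` : POS.
-/

set_option autoImplicit false

open MeasureTheory Set Filter Topology
open scoped ENNReal

noncomputable section

namespace Crest.Agent.R144.Lw425

open Crest.Agent.R144.Ham560

theorem tightL_mu0 : Bl565.TightL Lc279.mu0 := by
  intro V S hS e he
  have h := mu0_tight (hS.toR he)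
  rw [wgt_map_c] at h
  have e1 : (64 * ((6 : ℕ) : ℝ) ^ 2 * e) = 2304 * e := by norm_num
  rw [e1] at h
  refine (measure_mono ?_).trans h
  intro g hg p hp
  obtain ⟨q, hq, rfl⟩ := List.mem_map.mp hp
  exact hg q hq

theorem dlr_mu0 : Bl565.DLR Lc279.mu0 := fun K _ _ hf => dlr hf K

theorem inv_mu0 : Bl565.Inv Lc279.mu0 := mu0_inv

/-- **POS.** -/
theorem pos {P : Bl565.Par} (hP : Bl565.Small P) (r : ℕ) (L : ℝ) :
    Bl565.abT P Lc279.mu0 r L ≤ 63 / 4 * (2 * P.Lam / P.eps) ^ 2 :=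
  Bl565.abT_le hP tightL_mu0 dlr_mu0 r L

end Crest.Agent.R144.Lw425
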