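import Crest.Agent.R144.Uid3_674
import Crest.Agent.R144.Bl1_565
import Crest.Agent.R144.Cnt2_268

/-!
# R144 (S0197), block UID (helper674), part 4: final forms

* `prm_ps` : 565's shapes with `rho + eps ≤ e0`, `4 ≤ Lam` are admissible;
* `off_of_compact`, `sub_of_compact` : sites over a compact subset of `D`;
* `uid1`, `uid1'`, `uid2`, `uid3` : (U1), (U2), (U3);
* `mc_mono_edges` : monotonicity in the window and the edges;
* `tail_tb`, `moment_tb`, `tight_zero`, `moment_zero` : any graph with joint density bounds, zero data.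
-/

set_option autoImplicit false

open MeasureTheory Set Filter Topology
open scoped ENNReal NNReal

noncomputable section

namespace Crest.Agent.R144.Uid674

open Crest.Agent.R144.Skel144
open Crest.Agent.R144.Ham560 (ext ham nbr mem_nbr Fresh tight hamP measurableSet_ham Anch)
open Crest.Agent.R144.Tri560
open Crest.Agent.R144.Zb560
open Crest.Agent.R144.LoB95 (mc exists_mc length_le_mc measurable_mc)
open Crest.Agent.R144.Kor620 (P2 nrm FullE)
open Crest.Agent.R144.Uig714 (Off delta_small latE_inst)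
open Crest.Agent.R144.Bl565 (Par ps)
open Crest.ProbabilityR.TriHeights Crest.ProbabilityR.HexHeights

/-! ### Parameters -/

/-- small parameters of 565's shapes -/
structure SmallU (P : Par) : Prop where
  tiny : P.rho + P.eps ≤ e0
  big : 4 ≤ P.Lam

theorem exists_small : ∃ P : Par, SmallU P := by
  have h := e0_pos
  exact ⟨⟨e0 / 2, e0 / 2, 4, by positivity, by positivity, by norm_num⟩, by simp, by simp⟩

theorem ps_lip (k : Fin 3) (a b : P2) (h : Adj a b) : |ps k a - ps k b| ≤ 1 := by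
  have h1 := KorE761.adj_cases h
  obtain ⟨a1, a2⟩ := a
  obtain ⟨b1, b2⟩ := b
  simp only at h1
  have key : ∀ x : ℤ, x.natAbs ≤ 1 → |(x : ℝ)| ≤ 1 := by
    intro x hx
    have : |x| ≤ 1 := by rw [abs_le]; omega
    exact_mod_cast this
  have e : ps k (a1, a2) - ps k (b1, b2) =
      ((![a1 - b1, a2 - b2, -(a1 - b1 + (a2 - b2))] k : ℤ) : ℝ) := by
    fin_cases k
    · simp [ps]
    · simp [ps]
    · simp [ps]; ring
  rw [e]
  refine key _ ?_
  fin_cases k
  · simp; omega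
  · simp; omega
  · simp; omega

theorem prm_ps {P : Par} (h : SmallU P) (c0 : ℝ) : Prm P.rho P.eps P.Lam c0 1 ps where
  hρ := P.rho_pos.le
  hε := P.eps_pos
  small := h.tiny
  hΛ := by have := h.big; linarith
  hL := by have := h.big; linarith
  hφ := ps_lip

/-! ### Sites over a compact set -/

variable (I : Inst)

theorem mark_notMem (s : ℝ) : I.γ s ∉ I.D := by
  intro h
  have h1 : I.γ s ∈ frontier I.D := by
    rw [← I.hD.2.2.2.2.2.2.2.1]; exact mem_range_self s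
  rw [I.hD.1.frontier_eq] at h1
  exact h1.2 h

theorem off_of_compact {K : Set ℂ} (hK : IsCompact K) (hKD : K ⊆ I.D) :
    ∃ ε₁ : ℝ, 0 < ε₁ ∧ ∀ n u, centre (I.δ n) u ∈ K → Off I ε₁ n u := by
  have key : ∀ p : ℂ, p ∉ I.D → ∃ ε : ℝ, 0 < ε ∧ ∀ z ∈ K, ε ≤ dist z p := by
    intro p hp
    have hp' : p ∉ K := fun h => hp (hKD h)
    rcases K.eq_empty_or_nonempty with rfl | hne
    · exact ⟨1, one_pos, by simp⟩
    · have h1 : 0 < Metric.infDist p K :=
        (hK.isClosed.notMem_iff_infDist_pos hne).mp hp'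
      refine ⟨_, h1, fun z hz => ?_⟩
      rw [dist_comm]
      exact Metric.infDist_le_dist_of_mem hz
  obtain ⟨ε, hε, h1⟩ := key _ (mark_notMem I 0)
  obtain ⟨ε', hε', h2⟩ := key _ (mark_notMem I I.θ)
  exact ⟨min ε ε', lt_min hε hε', fun n u hu =>
    ⟨(min_le_left _ _).trans (h1 _ hu), (min_le_right _ _).trans (h2 _ hu)⟩⟩

theorem sub_of_compact {K : Set ℂ} (hK : IsCompact K) (hKD : K ⊆ I.D) :
    ∀ᶠ n in atTop, ∀ u, centre (I.δ n) u ∈ K → u ∈ I.Fr n :=
  (Cnt268.sites_tri I.hD I.hM).inn K hK hKD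

/-! ### (U1), (U2), (U3) -/

variable {κ : Type*} [Fintype κ] {ρ ε Λ c0 L : ℝ} {φs : κ → P2 → ℝ}

/-- **(U1)**, every power -/
theorem uid1 (H : Prm ρ ε Λ c0 L φs) {ε₁ : ℝ} (hε₁ : 0 < ε₁) (p : ℕ) :
    ∃ C : ℝ, 0 < C ∧ ∀ᶠ n in atTop, ∀ S : Finset P2, S ⊆ I.Fr n → (∀ v ∈ S, Off I ε₁ n v) →
      I.δ n ^ 2 * ∑ w ∈ S, ∫ x, (MC I n S ρ ε Λ c0 φs w x : ℝ) ^ (p + 1) ∂(I.P0 n) ≤ C := by
  obtain ⟨C, hC, h⟩ := uid_moment I H hε₁ (p + 1)
  refine ⟨C, hC, ?_⟩
  filter_upwards [h 0] with n hn S hS hoff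
  have h1 := hn S hS hoff
  rw [pow_zero, mul_one] at h1
  refine le_trans (le_of_eq ?_) h1
  congr 1
  refine Finset.sum_congr rfl fun w _ => integral_congr_ae (Eventually.of_forall fun x => ?_)
  simp only
  split_ifs with h2
  · rfl
  · have : MC I n S ρ ε Λ c0 φs w x = 0 := by omega
    rw [this]; simp

/-- **(U2)** -/
theorem uid2 (H : Prm ρ ε Λ c0 L φs) {ε₁ : ℝ} (hε₁ : 0 < ε₁) :
    ∃ t : ℕ → ℝ, (∀ j, 0 ≤ t j) ∧ (∀ a : ℕ, Tendsto (fun j : ℕ => (j : ℝ) ^ a * t j) atTop (𝓝 0)) ∧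
      ∀ j : ℕ, ∀ᶠ n in atTop, ∀ S : Finset P2, S ⊆ I.Fr n → (∀ v ∈ S, Off I ε₁ n v) →
        I.δ n ^ 2 * ∑ w ∈ S, ∫ x, (if j < MC I n S ρ ε Λ c0 φs w x then
          (MC I n S ρ ε Λ c0 φs w x : ℝ) else 0) ∂(I.P0 n) ≤ t j := by
  obtain ⟨C, hC, h⟩ := uid_moment I H hε₁ 1
  refine ⟨fun j => C * (1 / 2) ^ j, fun j => by positivity, fun a => ?_, fun j => ?_⟩
  · have h1 := (tendsto_pow_const_mul_const_pow_of_abs_lt_one a (r := (1 / 2 : ℝ)) (by
      rw [abs_of_pos (by norm_num)]; norm_num)).const_mul C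
    rw [mul_zero] at h1
    refine h1.congr fun j => ?_
    ring
  · simpa using h j

/-- **(U3)** -/
theorem uid3 (H : Prm ρ ε Λ c0 L φs) {ε₁ : ℝ} (hε₁ : 0 < ε₁) {Rg : ℕ → Finset P2}
    (hRg : ∀ᶠ n in atTop, Rg n ⊆ I.Fr n ∧ ∀ v ∈ Rg n, Off I ε₁ n v) {c : ℝ} (hc : 0 < c) (a : ℕ) :
    Tendsto (fun n => (I.δ n ^ a)⁻¹ *
      (I.P0 n).real {x | ∃ w ∈ Rg n, c / I.δ n ≤ MC I n (Rg n) ρ ε Λ c0 φs w x}) atTop (𝓝 0) := by
  refine squeeze_zero' (Eventually.of_forall fun n => ?_) ?_ I.hM.2.1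
  · have := I.hM.1 n
    have h0 : 0 ≤ (I.P0 n).real {x | ∃ w ∈ Rg n, c / I.δ n ≤ MC I n (Rg n) ρ ε Λ c0 φs w x} :=
      measureReal_nonneg
    positivity
  · filter_upwards [uid_far I H hε₁ hc (a + 1), hRg] with n hn hR
    have hδ := I.hM.1 n
    have h1 := hn (Rg n) hR.1 hR.2
    have h2 : (I.P0 n).real {x | ∃ w ∈ Rg n, c / I.δ n ≤ MC I n (Rg n) ρ ε Λ c0 φs w x} ≤
        I.δ n ^ (a + 1) := by
      refine le_trans (measureReal_mono ?_ (measure_ne_top _ _)) h1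
      rintro x ⟨w, _, hw⟩
      exact ⟨w, hw⟩
    rw [inv_mul_le_iff₀ (by positivity), ← pow_succ]
    exact h2

/-! ### Monotonicity -/

theorem mc_mono_edges {U : Type*} [DecidableEq U] {S S' : Finset U} {E E' : Finset (U × U)}
    (hS : S ⊆ S') (hE : ∀ a ∈ S, ∀ b ∈ S, b ∈ nbr E a → b ∈ nbr E' a) (φs : κ → U → ℝ)
    (h : U → ℝ) (w : U) : mc S E ρ ε Λ c0 φs h w ≤ mc S' E' ρ ε Λ c0 φs h w := by
  classical
  refine Finset.sup_le fun l hl => ?_
  obtain ⟨h1, i, h2⟩ := Finset.mem_filter.mp hl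
  refine length_le_mc (i := i) ?_ h2
  rcases mem_pt.mp h1 with rfl | ⟨h3, h4, h5, h6⟩
  · exact single_mem_pt w
  · refine mem_pt.mpr (Or.inr ⟨h3, fun a ha => hS (h4 a ha), h5, ?_⟩)
    clear hl h1 h2 h3 h5
    induction l with
    | nil => simp
    | cons a s ih =>
      match s with
      | [] => simp
      | b :: t =>
        rw [List.isChain_cons_cons] at h6 ⊢
        exact ⟨hE a (h4 a (by simp)) b (h4 b (by simp)) h6.1,
          ih (fun c hc => h4 c (List.mem_cons_of_mem _ hc)) h6.2⟩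

/-! ### Laws with joint density bounds -/

section TB

variable {U : Type*} [DecidableEq U] {F S : Finset U} {E : Finset (U × U)} {ξ : U → ℝ}
  {ψs : κ → U → ℝ} {w : U} {μ : Measure (F → ℝ)}

/-- tails of the lengths of the cheap paths from joint density bounds -/
theorem tail_tb [IsProbabilityMeasure μ] (hSF : S ⊆ F) (hn : ∀ v ∈ F, (nbr E v).card ≤ 6)
    (hρ : 0 ≤ ρ) (hε : 0 < ε) (hsm : ρ + ε ≤ e0) (hΛ : 0 < Λ) (hL : 4 * L ≤ Λ)
    (hψ : ∀ i a b, b ∈ nbr E a → |ψs i a - ψs i b| ≤ L)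
    (hTB : ∀ T : List (U × U), Fresh F E T →
      μ (tS F ξ (ρ + ε) T) ≤ ENNReal.ofReal (2304 * (ρ + ε)) ^ T.length)
    {k0 : ℕ} (hk0 : 4 * c0 ≤ Λ * k0) (k : ℕ) :
    μ.real {x | mc S E ρ ε Λ c0 ψs (ext F ξ x) w = k} ≤ (AU : ℝ) ^ (k0 + 1) / (AU : ℝ) ^ k := by
  classical
  have hAU := one_le_AU
  by_cases hk : k ≤ k0
  · refine measureReal_le_one.trans ?_
    rw [le_div_iff₀ (by positivity), one_mul]
    exact pow_le_pow_right₀ hAU (by omega)
  · push Not at hk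
    obtain ⟨m, rfl⟩ : ∃ m, k = m + 1 := ⟨k - 1, by omega⟩
    have hm : 4 * c0 ≤ Λ * (m : ℝ) := by
      have : (k0 : ℝ) ≤ m := by exact_mod_cast (by omega : k0 ≤ m)
      nlinarith
    have hsub : {x : F → ℝ | mc S E ρ ε Λ c0 ψs (ext F ξ x) w = m + 1} ⊆
        ⋃ T ∈ Zb560.Fam S E m w, tS F ξ (ρ + ε) T := by
      intro x hx
      simp only [Set.mem_ofPred_eq] at hx
      obtain ⟨i, l, hl, h1, h2⟩ := exists_mc (K := m + 1) (by omega) hx.ge
      have h3 := length_le_mc hl h2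
      exact bad_subset hε hΛ hL (hψ i) hm (mem_bad hl (by omega) h2.le)
    have hd0 : 0 ≤ 1 / (12 * (AU : ℝ)) := by positivity
    have hd1 : 1 / (12 * (AU : ℝ)) ≤ 1 := by
      rw [div_le_one (by positivity)]; linarith
    have h1 : μ {x : F → ℝ | mc S E ρ ε Λ c0 ψs (ext F ξ x) w = m + 1} ≤
        ENNReal.ofReal (1 / (AU : ℝ) ^ m) := by
      calc _ ≤ ∑ T ∈ Zb560.Fam S E m w, μ (tS F ξ (ρ + ε) T) :=
            (measure_mono hsub).trans (measure_biUnion_finset_le _ _)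
        _ ≤ ∑ _T ∈ Zb560.Fam S E m w, ENNReal.ofReal ((1 / (12 * (AU : ℝ))) ^ m) := by
            refine Finset.sum_le_sum fun T hT => ?_
            refine (hTB T (Fresh_mono hSF (Fam_fresh hT))).trans ?_
            rw [← ENNReal.ofReal_pow (by positivity)]
            apply ENNReal.ofReal_le_ofReal
            have := (Fam_len hT).1
            exact weight_le (by positivity) hd0 hd1 (le_e0 hsm) (by omega)
        _ = (Zb560.Fam S E m w).card * ENNReal.ofReal ((1 / (12 * (AU : ℝ))) ^ m) := by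
            rw [Finset.sum_const, nsmul_eq_mul]
        _ ≤ ENNReal.ofReal (12 ^ m) * ENNReal.ofReal ((1 / (12 * (AU : ℝ))) ^ m) := by
            gcongr
            rw [← ENNReal.ofReal_natCast]
            apply ENNReal.ofReal_le_ofReal
            have := Fam_card (V := S) (E := E) (n := 6) (fun v hv => hn v (hSF hv)) m w
            exact_mod_cast this
        _ = ENNReal.ofReal (1 / (AU : ℝ) ^ m) := by
            rw [← ENNReal.ofReal_mul (by positivity), ← mul_pow, ← one_div_pow]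
            congr 2
            field_simp
    have h2 : μ.real {x : F → ℝ | mc S E ρ ε Λ c0 ψs (ext F ξ x) w = m + 1} ≤
        1 / (AU : ℝ) ^ m := by
      rw [measureReal_def]
      exact ENNReal.toReal_le_of_le_ofReal (by positivity) h1
    refine h2.trans ?_
    rw [div_le_div_iff₀ (by positivity) (by positivity), one_mul, pow_succ']
    have : (AU : ℝ) ≤ (AU : ℝ) ^ (k0 + 1) := le_self_pow₀ hAU (by omega)
    gcongr

/-- universal constants of the moments -/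
def Cm (p k0 : ℕ) : ℝ := (pow_le_exp p).choose * (AU : ℝ) ^ (k0 + 1)

theorem Cm_pos (p k0 : ℕ) : 0 < Cm p k0 := by
  have h1 := (pow_le_exp p).choose_spec.1
  have h2 := one_le_AU
  unfold Cm
  positivity

/-- moments from tails -/
theorem moment_of_tail {Ω : Type*} [MeasurableSpace Ω] {ν : Measure Ω} [IsProbabilityMeasure ν]
    {N : Ω → ℕ} (hN : Measurable N) {M : ℕ} (hM : ∀ x, N x ≤ M) {k0 : ℕ}
    (h : ∀ k, ν.real {x | N x = k} ≤ (AU : ℝ) ^ (k0 + 1) / (AU : ℝ) ^ k) (p j : ℕ) :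
    ∫ x, (if j < N x then (N x : ℝ) ^ p else 0) ∂ν ≤ Cm p k0 * (1 / 2) ^ j := by
  classical
  obtain ⟨hCp, hpe⟩ := (pow_le_exp p).choose_spec
  set Cp := (pow_le_exp p).choose with hCpd
  have hAU := one_le_AU
  have hAU4 : (4 : ℝ) ≤ AU := by
    have : 4 ≤ AU := by have := AU_96; omega
    exact_mod_cast this
  set G : Finset ℕ := Finset.Ico (j + 1) (M + 1) with hG
  have hms : ∀ k : ℕ, MeasurableSet {x | N x = k} := fun k => hN (measurableSet_singleton k)
  have hpt : ∀ x, (if j < N x then (N x : ℝ) ^ p else 0) ≤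
      ∑ k ∈ G, ({x | N x = k}.indicator (fun _ => (k : ℝ) ^ p) x) := by
    intro x
    refine (moment_pt (p := p) (hM x) G False fun _ hj => ?_).trans (le_of_eq ?_)
    · rw [hG, Finset.mem_Ico]
      have := hM x
      omega
    · simp only [if_false, add_zero, Set.indicator, Set.mem_ofPred_eq]
  have hi : ∀ k : ℕ, Integrable (fun x => {x | N x = k}.indicator (fun _ => (k : ℝ) ^ p) x) ν :=
    fun k => (integrable_const _).indicator (hms k)
  calc ∫ x, (if j < N x then (N x : ℝ) ^ p else 0) ∂ν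
      ≤ ∫ x, ∑ k ∈ G, ({x | N x = k}.indicator (fun _ => (k : ℝ) ^ p) x) ∂ν := by
        refine integral_mono_of_nonneg (Eventually.of_forall fun x => ?_)
          (integrable_finsetSum _ fun k _ => hi k) (Eventually.of_forall hpt)
        simp only [Pi.zero_apply]
        split_ifs <;> positivity
    _ = ∑ k ∈ G, (k : ℝ) ^ p * ν.real {x | N x = k} := by
        rw [integral_finsetSum _ fun k _ => hi k]
        refine Finset.sum_congr rfl fun k _ => ?_
        rw [integral_indicator_const _ (hms k), smul_eq_mul, mul_comm]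
    _ ≤ ∑ k ∈ G, Cm p k0 * (1 / 2) ^ k := by
        refine Finset.sum_le_sum fun k _ => ?_
        have h1 : (AU : ℝ) ^ (k0 + 1) / (AU : ℝ) ^ k ≤ (AU : ℝ) ^ (k0 + 1) * (1 / 4) ^ k := by
          rw [one_div_pow, mul_one_div]
          gcongr
        calc (k : ℝ) ^ p * ν.real {x | N x = k}
            ≤ (Cp * 2 ^ k) * ((AU : ℝ) ^ (k0 + 1) * (1 / 4) ^ k) :=
              mul_le_mul (hpe k) ((h k).trans h1) measureReal_nonneg (by positivity)
          _ = Cm p k0 * (2 ^ k * (1 / 4) ^ k) := by rw [Cm]; ring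
          _ = Cm p k0 * (1 / 2) ^ k := by rw [← mul_pow]; norm_num
    _ = Cm p k0 * ∑ k ∈ G, (1 / 2 : ℝ) ^ k := by rw [Finset.mul_sum]
    _ ≤ Cm p k0 * (1 / 2) ^ j := by
        have := Cm_pos p k0
        gcongr
        exact geom_le (by norm_num) le_rfl G fun k hk => by
          rw [hG, Finset.mem_Ico] at hk; omega

/-- **moments of the lengths of the cheap paths, any graph with joint density bounds** -/
theorem moment_tb [IsProbabilityMeasure μ] (hSF : S ⊆ F) (hn : ∀ v ∈ F, (nbr E v).card ≤ 6)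
    (hρ : 0 ≤ ρ) (hε : 0 < ε) (hsm : ρ + ε ≤ e0) (hΛ : 0 < Λ) (hL : 4 * L ≤ Λ)
    (hψ : ∀ i a b, b ∈ nbr E a → |ψs i a - ψs i b| ≤ L)
    (hTB : ∀ T : List (U × U), Fresh F E T →
      μ (tS F ξ (ρ + ε) T) ≤ ENNReal.ofReal (2304 * (ρ + ε)) ^ T.length)
    {k0 : ℕ} (hk0 : 4 * c0 ≤ Λ * k0) (p j : ℕ) :
    ∫ x, (if j < mc S E ρ ε Λ c0 ψs (ext F ξ x) w then
      (mc S E ρ ε Λ c0 ψs (ext F ξ x) w : ℝ) ^ p else 0) ∂μ ≤ Cm p k0 * (1 / 2) ^ j := by
  refine moment_of_tail (N := fun x => mc S E ρ ε Λ c0 ψs (ext F ξ x) w) (M := S.card + 1) ?_ ?_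
    (fun k => tail_tb hSF hn hρ hε hsm hΛ hL hψ hTB hk0 k) p j
  · exact (measurable_mc S E w).comp (measurable_pi_iff.mpr fun u =>
      (Ham560.continuous_ext (F := F) (ξ := ξ) u).measurable)
  · intro x
    exact Finset.sup_le fun l hl => length_pt (Finset.mem_filter.mp hl).1

/-- zero data: joint density bounds -/
theorem tight_zero (hA : Anch F E) (hn : ∀ v ∈ F, (nbr E v).card ≤ 6) {e : ℝ} (he : 0 < e)
    {T : List (U × U)} (hT : Fresh F E T) :
    hamP F E 0 (tS F 0 e T) ≤ ENNReal.ofReal (2304 * e) ^ T.length := by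
  have hv : volume (ham F E 0) ≠ 0 := Ham560.volume_ham_ne_zero (fun u => by simp)
  have h1 := Ham560.vol_tight_le (ξ := 0) hT (n := 6) hn he
  have e6 : (64 : ℝ) * ((6 : ℕ) : ℝ) ^ 2 * e = 2304 * e := by norm_num
  rw [e6] at h1
  have hm : MeasurableSet (tS F 0 e T : Set (F → ℝ)) := by
    have : tS F 0 e T = ⋂ q ∈ {q | q ∈ T}, {x : F → ℝ | 1 - e ≤ |ext F 0 x q.1 - ext F 0 x q.2|} := by
      ext x; simp [tS]
    rw [this]
    refine (isClosed_biInter fun q _ => ?_).measurableSet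
    exact isClosed_le continuous_const
      (((Ham560.continuous_ext q.1).sub (Ham560.continuous_ext q.2)).abs)
  refine LC121.hamP_le hA hv hm ?_
  exact h1

/-- **moments of the lengths of the cheap paths, zero data (tori)** -/
theorem moment_zero (hA : Anch F E) (hSF : S ⊆ F) (hn : ∀ v ∈ F, (nbr E v).card ≤ 6)
    (hρ : 0 ≤ ρ) (hε : 0 < ε) (hsm : ρ + ε ≤ e0) (hΛ : 0 < Λ) (hL : 4 * L ≤ Λ)
    (hψ : ∀ i a b, b ∈ nbr E a → |ψs i a - ψs i b| ≤ L)
    {k0 : ℕ} (hk0 : 4 * c0 ≤ Λ * k0) (p j : ℕ) :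
    ∫ x, (if j < mc S E ρ ε Λ c0 ψs (ext F 0 x) w then
      (mc S E ρ ε Λ c0 ψs (ext F 0 x) w : ℝ) ^ p else 0) ∂(hamP F E 0) ≤
        Cm p k0 * (1 / 2) ^ j := by
  have : IsProbabilityMeasure (hamP F E 0) :=
    Ham560.isProbabilityMeasure_hamP hA (fun u => by simp)
  exact moment_tb hSF hn hρ hε hsm hΛ hL hψ (fun T hT => tight_zero hA hn (by linarith) hT) hk0 p j

end TB

end Crest.Agent.R144.Uid674
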