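import Mathlib
import Crest.Agent.R144.Uid4_674
import Crest.Agent.R144.Lmu9_425
import Crest.Agent.R144.Bl6_565

/-!
# R144 (S0197): one choice of the block parameters for all blocks (helper144)
-/

set_option autoImplicit false

namespace Crest.Agent.R144.Par144

open Crest.Agent.R144

/-- all smallness conditions on the parameters -/
structure PAll (P : Bl565.Par) : Prop where
  s565 : Bl565.Small P
  s425 : Lw425.Small P
  s674 : Uid674.SmallU P

theorem exists_par : ∃ P : Bl565.Par, PAll P ∧ P.Lam = 4 := by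
  have h := Uid674.e0_pos
  set t : ℝ := min Uid674.e0 (1 / (2304 * 576)) with ht
  have ht0 : 0 < t := lt_min h (by norm_num)
  refine ⟨⟨t / 2, t / 2, 4, by positivity, by positivity, by norm_num⟩, ⟨⟨?_, le_rfl⟩, ⟨?_, le_rfl⟩,
    ⟨?_, le_rfl⟩⟩, rfl⟩
  · have h1 : t ≤ 1 / (2304 * 576) := min_le_right _ _
    show 2304 * (t / 2 + t / 2) ≤ 1 / 576
    linarith
  · have h1 : t ≤ 1 / (2304 * 576) := min_le_right _ _
    show 12 * Lw425.dpar (t / 2) (t / 2) < 1
    unfold Lw425.dpar
    have h2 : Real.sqrt (64 * 6 ^ 2 * (t / 2 + t / 2)) ≤ 1 / 24 := by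
      apply Real.sqrt_le_iff.mpr
      constructor
      · norm_num
      · linarith
    linarith
  · show t / 2 + t / 2 ≤ Uid674.e0
    have h1 : t ≤ Uid674.e0 := min_le_left _ _
    linarith

end Crest.Agent.R144.Par144
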