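import Crest.Agent.R144.Upp8_296
import Crest.Agent.R144.Uig13_714

/-!
R144 / S0197, approach P, upper bound, part 9 (helper296): `UpHyp` at every instance.

* `upHyp_inst` : all fields of `UpHyp` with `u n = uf ((δ n)⁻¹ • Y n)`, `Kx I ρ`, `Kc I ρ`;
* `upperB0_of_blk` : `UpperB0 (√3 / 2 / b)` from `BlkHyp` alone.
-/

set_option autoImplicit false
set_option linter.unusedSectionVars false
set_option linter.unusedVariables false

open Filter Set Metric Topology MeasureTheory ProbabilityTheory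

namespace Crest.Agent.R144.Upp296

open Crest.Agent.R144.Flat296 Crest.ProbabilityR.HexHeights Crest.ProbabilityR.TriHeights
  Crest.Agent.R144.Lat549 Crest.Agent.R144.Geo268 Crest.Agent.R144.Skel144 Crest.Agent.R144.Ham560
  Crest.Agent.R144.Uig714
open Crest.Agent.R144.Fa812 (uf)

variable {I : Inst}

lemma bd_uf_nice {n : ℕ} {Y : (I.Fr n → ℝ) → (I.Fr n → ℝ)}
    (h : Hsu498.Nice (I.Fr n) (I.Ed n) (I.xi n) Y) : Bd (uf ((I.δ n)⁻¹ • Y)) := by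
  obtain ⟨B, hB0, hB⟩ := h.bdd
  refine Fa812.bd_uf (M := |(I.δ n)⁻¹| * B)
    ((h.smooth.continuous.measurable).const_smul ((I.δ n)⁻¹ : ℝ)) fun x v => ?_
  show |(I.δ n)⁻¹ * Y x v| ≤ _
  rw [abs_mul]
  refine mul_le_mul_of_nonneg_left ?_ (abs_nonneg _)
  exact (norm_le_pi_norm (Y x) v).trans (hB x)

/-- the linear response in terms of the flow -/
lemma lin_eq {n : ℕ} {Y : (I.Fr n → ℝ) → (I.Fr n → ℝ)}
    (h : Hsu498.Nice (I.Fr n) (I.Ed n) (I.xi n) Y) {ρ : ℝ} {j : Fin 2 → P2 → ℝ}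
    (hs : ∀ Y : P2 → ℝ, (∀ v, v ∉ I.Fr n → Y v = 0) →
      ∑ v ∈ I.Fr n, wA (I.δ n) I.f v * Y v =
        I.δ n * ∑ i, ∑ x ∈ Kx I ρ n, j i x * (Y (x + dir i) - Y x)) :
    ∫ x, ∑ v : I.Fr n, wA (I.δ n) I.f v * Y x v ∂(I.P0 n) =
      I.δ n ^ 2 * ∑ i, Ex (I.P0 n) (Kx I ρ n)
        (fun x ω => j i x * dd (dir i) (uf ((I.δ n)⁻¹ • Y)) x ω) := by
  have hδ := I.hM.1 n
  have hbd := bd_uf_nice h
  have e1 : ∀ x : I.Fr n → ℝ, ∑ v : I.Fr n, wA (I.δ n) I.f v * Y x v =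
      I.δ n ^ 2 * ∑ i, ∑ a ∈ Kx I ρ n, j i a * dd (dir i) (uf ((I.δ n)⁻¹ • Y)) a x := by
    intro x
    have e2 := hs (fun v => ext (I.Fr n) 0 (Y x) v) (fun v hv => by
      rw [ext_notMem hv]; rfl)
    have e3 : ∑ v ∈ I.Fr n, wA (I.δ n) I.f v * ext (I.Fr n) 0 (Y x) v =
        ∑ v : I.Fr n, wA (I.δ n) I.f v * Y x v := by
      rw [← Finset.sum_coe_sort (I.Fr n) (fun v => wA (I.δ n) I.f v * ext (I.Fr n) 0 (Y x) v)]
      refine Finset.sum_congr rfl fun v _ => ?_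
      rw [ext_mem v.2]
    rw [← e3, e2, Finset.mul_sum, Finset.mul_sum]
    refine Finset.sum_congr rfl fun i _ => ?_
    rw [Finset.mul_sum, Finset.mul_sum]
    refine Finset.sum_congr rfl fun a _ => ?_
    have e4 : dd (dir i) (uf ((I.δ n)⁻¹ • Y)) a x =
        (I.δ n)⁻¹ * (ext (I.Fr n) 0 (Y x) (a + dir i) - ext (I.Fr n) 0 (Y x) a) := by
      show uf ((I.δ n)⁻¹ • Y) (a + dir i) x - uf ((I.δ n)⁻¹ • Y) a x = _
      rw [Uig714.uf_smul, Uig714.uf_smul]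
      unfold KorE761.lab
      ring
    rw [e4]
    field_simp
  simp only [e1]
  rw [integral_const_mul]
  congr 1
  rw [integral_finsetSum]
  · refine Finset.sum_congr rfl fun i _ => ?_
    unfold Ex
    rw [integral_finsetSum]
    intro a _
    exact ((hbd.dd _).integrable _ a).const_mul _
  · intro i _
    exact integrable_finsetSum _ fun a _ => ((hbd.dd _).integrable _ a).const_mul _

/-- **`UpHyp` at every instance** -/
theorem upHyp_inst {ε ρ : ℝ} {j : ℕ → Fin 2 → P2 → ℝ} (hF : Flow I ε ρ j) :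
    ∃ Y : ∀ n, (I.Fr n → ℝ) → (I.Fr n → ℝ),
      (∀ n, Hsu498.Nice (I.Fr n) (I.Ed n) (I.xi n) (Y n)) ∧
      (∃ C : ℝ, 0 < C ∧ ∀ᶠ n in atTop, EnI n (Y n) ≤ C) ∧
      UpHyp I.P0 I.δ (fun n => uf ((I.δ n)⁻¹ • Y n)) (fun n => Var[I.X n; I.P0 n])
        (fun n => EnI n (Y n)) (Kx I ρ) (Kc I ρ) j := by
  obtain ⟨Y, hY, hV, C, hC, hE⟩ := exists_seq I
  have hYF : ∀ᶠ n in atTop, NiceF I n (Y n) := Eventually.of_forall fun n => niceF_of_nice (hY n)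
  have hCe : ∀ᶠ n in atTop, EnI n (Y n) ≤ C := hE.mono fun n hn => hn.1
  refine ⟨Y, hY, ⟨C, hC, hCe⟩, ?_⟩
  refine
    { prob := fun n => inferInstance
      bd := fun n => bd_uf_nice (hY n)
      marg := fun k L => Kc_marg ρ k L
      sub := fun k => Eventually.of_forall fun n => Kc_sub ρ k n
      area := Kc_area I ρ
      grad := up_grad hF.pos hYF hCe
      ui := up_ui hF.pos hYF hCe
      layer := up_layer hF.pos hYF hCe
      var := fun ε' hε' => ?_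
      jb := hF.jb
      jc := hF.jc }
  have hlim : ∀ᶠ n : ℕ in atTop, 1 / ((n : ℝ) + 1) < ε' :=
    tendsto_one_div_add_atTop_nhds_zero_nat.eventually (gt_mem_nhds hε')
  filter_upwards [hV, hF.sbp, hlim] with n h1 h2 h3
  rw [lin_eq (hY n) (ρ := ρ) (j := j n) h2] at h1
  linarith

/-- **`UP'` from `BlkHyp` alone.** -/
theorem upperB0_of_blk {b : ℝ} (hb : 0 < b) {O : Type} [Fintype O] [Nonempty O]
    {A : ℕ → O → Fin 2 → Fin 2 → ℝ} {r0 : ℕ}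
    (hA : ∀ r, r0 ≤ r → ∀ y : Fin 2 → ℝ,
      b * iso y ≤ qf (fun i j => (Fintype.card O : ℝ)⁻¹ * ∑ o, A r o i j) y)
    (H : ∀ (I : Inst) (ρ : ℝ), 0 < ρ → ∀ Y : ∀ n, (I.Fr n → ℝ) → (I.Fr n → ℝ),
      (∀ n, Hsu498.Nice (I.Fr n) (I.Ed n) (I.xi n) (Y n)) →
      ∀ C : ℝ, 0 < C → (∀ᶠ n in atTop, EnI n (Y n) ≤ C) →
      ∃ (B : ℕ → O → ∀ n, Fin 2 → Fin 2 → Fld (I.Fr n → ℝ)) (Lr : ℕ → ℝ),
        BlkHyp I.P0 I.δ (fun n => uf ((I.δ n)⁻¹ • Y n)) (fun n => EnI n (Y n)) (Kc I ρ) O r0 B A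
          Lr) : UpperB0 (Real.sqrt 3 / 2 / b) := by
  refine upperB0_of hb hA fun I ε ρ j hε hF => ?_
  obtain ⟨Y, hY, ⟨C, hC, hE⟩, hU⟩ := upHyp_inst hF
  obtain ⟨B, Lr, hB⟩ := H I ρ hF.pos Y hY C hC hE
  refine ⟨Kx I ρ, _, _, Kc I ρ, B, Lr, fun n => ⟨fun x hx => ?_, fun x hx h1 h2 => ?_⟩, hU, hB⟩
  · exact mem_KS.2 (mem_Kx.1 hx).1
  · exact mem_Kx.2 ⟨mem_KS.1 hx, h1, h2⟩

/-- the shared scalar is nonpositive at nonpositive truncation -/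
theorem abT_nonpos {P : Bl565.Par} {μ : Measure (P2 → ℝ)} {r : ℕ} {L : ℝ} (hL : L ≤ 0) :
    Bl565.abT P μ r L ≤ 0 := by
  unfold Bl565.abT
  refine mul_nonpos_of_nonneg_of_nonpos (by norm_num) (Finset.sum_nonpos fun o _ => ?_)
  refine integral_nonpos fun h => ?_
  show (if _ then _ else _) ≤ (0 : ℝ)
  split_ifs with hc
  · exact hc.trans hL
  · exact le_rfl

/-- `hUp` of `Fin97_144` from `BlkHyp` with 565's matrices -/
theorem hUp_of_blk {P : Bl565.Par} {μ : Measure (P2 → ℝ)} (hμ : Bl565.Inv μ) {r0 : ℕ}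
    (H : ∀ L : ℕ → ℝ, (∀ r, 0 < L r) →
      ∀ (I : Inst) (ρ : ℝ), 0 < ρ → ∀ Y : ∀ n, (I.Fr n → ℝ) → (I.Fr n → ℝ),
      (∀ n, Hsu498.Nice (I.Fr n) (I.Ed n) (I.xi n) (Y n)) →
      ∀ C : ℝ, 0 < C → (∀ᶠ n in atTop, EnI n (Y n) ≤ C) →
      ∃ (B : ℕ → Fin 3 → ∀ n, Fin 2 → Fin 2 → Fld (I.Fr n → ℝ)) (Lr : ℕ → ℝ),
        BlkHyp I.P0 I.δ (fun n => uf ((I.δ n)⁻¹ • Y n)) (fun n => EnI n (Y n)) (Kc I ρ) (Fin 3) r0
          B (fun r o => Bl565.Amat P μ r (L r) o) Lr) :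
    ∀ b : ℝ, 0 < b → (∃ r1, ∀ r, r1 ≤ r → ∃ L, b ≤ Bl565.abT P μ r L) →
      UpperB0 (Real.sqrt 3 / 2 / b) := by
  intro b hb ⟨r1, hr1⟩
  classical
  set L : ℕ → ℝ := fun r => if h : r1 ≤ r then (hr1 r h).choose else 1 with hL
  have hL' : ∀ r, r1 ≤ r → b ≤ Bl565.abT P μ r (L r) := fun r hr => by
    simp only [hL, dif_pos hr]
    exact (hr1 r hr).choose_spec
  have hL0 : ∀ r, 0 < L r := fun r => by
    by_cases hr : r1 ≤ r
    · by_contra hcon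
      have h1 := hL' r hr
      have h2 := abT_nonpos (P := P) (μ := μ) (r := r) (not_lt.1 hcon)
      linarith
    · simp only [hL, dif_neg hr]; norm_num
  refine upperB0_of_blk hb (O := Fin 3) (A := fun r o => Bl565.Amat P μ r (L r) o)
    (r0 := max r0 r1) (fun r hr y => hA_of_abT hμ (hL' r ((le_max_right _ _).trans hr)) y)
    fun I ρ hρ Y hY C hC hE => ?_
  obtain ⟨B, Lr, hB⟩ := H L hL0 I ρ hρ Y hY C hC hE
  have hle : ∀ {r}, max r0 r1 ≤ r → r0 ≤ r := fun h => (le_max_left _ _).trans h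
  refine ⟨B, Lr, ?_⟩
  exact
    { bd := fun r hr => hB.bd r (hle hr)
      le := fun r hr => hB.le r (hle hr)
      psd := fun r hr => hB.psd r (hle hr)
      lln := fun r hr => hB.lln r (hle hr)
      fas := fun θ Λ ε1 hθ hΛ hε1 => by
        obtain ⟨C, hC, r2, h⟩ := hB.fas θ Λ ε1 hθ hΛ hε1
        exact ⟨C, hC, r2, fun r hr hr' => h r hr (hle hr')⟩ }

end Crest.Agent.R144.Upp296
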