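import Crest.Agent.R144.Upi2_540
import Crest.Agent.R144.Upp9_296
import Crest.Agent.R144.Fa9_812
import Crest.Agent.R144.Lmu10_425
import Crest.Agent.R144.Skel100_144

/-!
R144 (S0197), helper540.  UPI-3: the upper block of S0197, complete.

* `blkHyp_inst`: `BlkHyp` at every instance, for helper565's truncated block matrices;
* `upD`: the row `UpD` of `Skel100_144`.
-/

set_option autoImplicit false
set_option linter.unusedSectionVars false

open MeasureTheory Filter Topology ProbabilityTheory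
open scoped ENNReal NNReal

noncomputable section

namespace Crest.Agent.R144.Upi540

open Crest.Agent.R144.Flat296 (P2 Fld bm)
open Crest.Agent.R144.Upp296
open Crest.Agent.R144.Bl565 (Par bbL bbO qd Amat abT)
open Crest.Agent.R144.Skel144 (Inst UpperB0 UpD)
open Crest.Agent.R144.Lc279 (mu0)
open Crest.Agent.R144.Uig714 (Kc Kx mem_Kc mem_Kx EnI)
open Crest.Agent.R144.Fa812 (uf)

/-- **`BlkHyp` at every instance** -/
theorem blkHyp_inst {P : Par} (hP : Fa812.SmallP P) {L : ℕ → ℝ} (hL : ∀ r, 0 < L r) (I : Inst)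
    {ρ : ℝ} (hρ : 0 < ρ) {Y : ∀ n, (I.Fr n → ℝ) → (I.Fr n → ℝ)}
    (hY : ∀ n, Hsu498.Nice (I.Fr n) (I.Ed n) (I.xi n) (Y n)) {C : ℝ}
    (hC : ∀ᶠ n in atTop, EnI n (Y n) ≤ C) :
    BlkHyp I.P0 I.δ (fun n => uf ((I.δ n)⁻¹ • Y n)) (fun n => EnI n (Y n)) (Kc I ρ) (Fin 3) 2
      (Bi P I L) (fun r o => Amat P mu0 r (L r) o) (fun r => 2 * L r) :=
  blkHyp_of _ _ (by norm_num) (fun r _ => hL r) (Fa812.fas_inst hP hρ hY hC L le_rfl)

/-- **the upper block of S0197** -/
theorem upD {P : Par} (hP : Fa812.SmallP P) :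
    UpD (fun r L => abT P mu0 r L) (Real.sqrt 3 / 2) :=
  hUp_of_blk (P := P) (μ := mu0) (r0 := 2) Lw425.inv_mu0 fun L hL I ρ hρ Y hY C _ hE =>
    ⟨Bi P I L, fun r => 2 * L r, blkHyp_inst hP hL I hρ hY hE⟩

end Crest.Agent.R144.Upi540
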