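import Mathlib
import Crest.Agent.R144.Fin98_144
import Crest.Agent.R144.Par_144
import Crest.Agent.R144.Upi3_540
import Crest.Agent.R144.Lmu10_425

/-!
# R144 (S0197), helper144: the literal S0197 from the two last rows LoD and KapD
(POS = helper425, UP = helper540 are theorems and are plugged in here)
-/

set_option autoImplicit false

namespace Crest.Agent.R144.Skel144

open Filter Topology Metric MeasureTheory ProbabilityTheory
open Crest.Agent.R144
open scoped NNReal ENNReal Real ContDiff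

theorem smallP_of_pAll {P : Bl565.Par} (hP : Par144.PAll P) : Fa812.SmallP P :=
  ⟨hP.s674.tiny, hP.s674.big⟩

/-- **S0197 from LoD and KapD** -/
theorem s0197_of_two {P : Bl565.Par} (hP : Par144.PAll P)
    (hLo : LoD (fun r L => Bl565.abT P Lc279.mu0 r L) (Real.sqrt 3 / 2))
    (hKap : KapD (fun r L => Bl565.abT P Lc279.mu0 r L) (Real.sqrt 3 / 2)) :
    ∃ A σ lam : ℝ, 0 < A ∧ 0 < σ ∧ σ ^ 2 = 1 / ((2 / Real.sqrt 3) * A) ∧ 0 < lam ∧
      lam ^ 2 = Real.pi / (8 * (2 / Real.sqrt 3) * A) ∧ lam ≤ 1 / 2 ∧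
      ∀ a : ℝ, 0 < a → a ≤ 1 / 2 → ∀ (D : Set ℂ) (γ : ℝ → ℂ) (θ : ℝ) (φ : ℂ → ℂ),
      Crest.ProbabilityR.TriHeights.IsSmoothMarkedDomain D γ θ → DifferentiableOn ℂ φ D →
      Set.BijOn φ D (Metric.ball (0 : ℂ) 1) →
      ∀ (δ : ℕ → ℝ) (T : ℕ → Finset Crest.ProbabilityR.TriHeights.Tri) (ea eb : ℕ → (ℤ × ℤ) × (ℤ × ℤ)) (c : ℕ → ℝ → ℂ),
        Crest.ProbabilityR.TriHeights.IsMarkedApprox γ θ δ T ea eb c →
      ∀ f : ℂ → ℝ, ContDiff ℝ ∞ f → HasCompactSupport f → tsupport f ⊆ D →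
        ∀ t : ℝ, Filter.Tendsto (fun n : ℕ => Crest.ProbabilityR.TriHeights.realExpect (T n) (Crest.ProbabilityR.TriHeights.arcPlus (δ n) (T n) (c n) θ) (Crest.ProbabilityR.TriHeights.arcMinus (δ n) (T n) (c n) θ) a
            (fun h => Complex.exp (Complex.I *
              (t * (Crest.ProbabilityR.TriHeights.affinePairing (δ n) (T n) f h -
              (Crest.ProbabilityR.TriHeights.realExpect (T n) (Crest.ProbabilityR.TriHeights.arcPlus (δ n) (T n) (c n) θ) (Crest.ProbabilityR.TriHeights.arcMinus (δ n) (T n) (c n) θ) a (fun h' => (Crest.ProbabilityR.TriHeights.affinePairing (δ n) (T n) f h' : ℂ))).re) / σ : ℝ))))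
          Filter.atTop
          (nhds (Complex.exp (-(Crest.ProbabilityR.HexHeights.domainGreenForm φ f * t ^ 2 / 2 : ℝ)))) :=
  s0197_of_blocks1 _ (by positivity) 0 (fun r _ L => Lw425.pos hP.s565 r L)
    (Upi540.upD (smallP_of_pAll hP)) hLo hKap

end Crest.Agent.R144.Skel144
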