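import Mathlib
import Crest.Agent.R144.Set4_268
import Crest.Agent.R144.Rw1_146

/-! R144 (helper353), block B6 of doc 1945, file 1: at small scales the complement of the free sites
is, in one of the six orientations of the lattice preserving the up triangles, an approximate half
plane `{α x + β y ≥ 0}` with `β ≥ 4/5`, `0 ≤ α ≤ 19/20`. -/

set_option autoImplicit false

open Set Topology Filter Metric

namespace Crest.Agent.R144.Fr353

open Crest.ProbabilityR.HexHeights (Adj centre)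
open Crest.Agent.R144.It844 (P2)
open Crest.Agent.R144.Rw146 (Aut aut_sw aut_ro swE roE roT)
open Crest.Agent.R144.Set268

/-- lattice ball -/
noncomputable abbrev lb := Crest.Agent.R144.Rsw867.ball

/-- `N` is, in the ball of radius `C L` around `o`, between two half planes -/
structure HP (N : Set P2) (o : P2) (L : ℕ) (C : ℕ) (α β ε : ℝ) : Prop where
  a0 : 0 ≤ α
  a1 : α ≤ 19 / 20
  b0 : 4 / 5 ≤ β
  b1 : β ≤ 1
  nrm : α ^ 2 + β ^ 2 - α * β = 3 / 4
  out : ∀ v ∈ lb o (C * L), ε * L ≤ α * (v.1 - o.1) + β * (v.2 - o.2) → v ∈ N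
  inn : ∀ v ∈ lb o (C * L), α * (v.1 - o.1) + β * (v.2 - o.2) ≤ -(ε * L) → v ∉ N

/-! ### six orientations -/

/-- the real part of `z * conj w` -/
noncomputable def ip (z w : ℂ) : ℝ := z.re * w.re + z.im * w.im

theorem centre_re (δ : ℝ) (v : P2) : (centre δ v).re = δ * (v.1 + v.2 / 2) := by
  unfold centre
  simp
  left
  ring

theorem centre_im (δ : ℝ) (v : P2) : (centre δ v).im = δ * (v.2 * (Real.sqrt 3 / 2)) := by
  unfold centre
  simp

theorem sqrt3_sq : Real.sqrt 3 * Real.sqrt 3 = 3 := Real.mul_self_sqrt (by norm_num)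
theorem sqrt3_pos : 0 < Real.sqrt 3 := Real.sqrt_pos.2 (by norm_num)
theorem sqrt3_lo : 1.732 < Real.sqrt 3 := by
  rw [Real.lt_sqrt (by norm_num)]
  norm_num
theorem sqrt3_hi : Real.sqrt 3 < 1.7321 := by
  rw [Real.sqrt_lt' (by norm_num)]
  norm_num

/-- an orientation -/
structure Ori (σ : P2 ≃ P2) (u : ℂ) (α β : ℝ) : Prop where
  aut : ∃ τ, Aut σ τ
  add : ∀ v w, σ (v + w) = σ v + σ w
  iso : ∀ δ v, ‖centre δ (σ v)‖ = ‖centre δ v‖
  lin : ∀ δ v, ip (centre δ (σ v)) u = δ * (α * v.1 + β * v.2)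

theorem norm_centre_sq (δ : ℝ) (v : P2) :
    ‖centre δ v‖ ^ 2 = δ ^ 2 * ((v.1 : ℝ) ^ 2 + v.1 * v.2 + (v.2 : ℝ) ^ 2) := by
  rw [← Complex.normSq_eq_norm_sq, Complex.normSq_apply, centre_re, centre_im]
  have := sqrt3_sq
  linear_combination (δ ^ 2 * (v.2 : ℝ) ^ 2 / 4) * this

theorem iso_of {σ : P2 ≃ P2} (h : ∀ v, ((σ v).1 : ℝ) ^ 2 + (σ v).1 * (σ v).2 + ((σ v).2 : ℝ) ^ 2 =
    (v.1 : ℝ) ^ 2 + v.1 * v.2 + (v.2 : ℝ) ^ 2) (δ : ℝ) (v : P2) :
    ‖centre δ (σ v)‖ = ‖centre δ v‖ := by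
  have h1 := norm_centre_sq δ (σ v)
  rw [h v, ← norm_centre_sq] at h1
  exact (sq_eq_sq₀ (norm_nonneg _) (norm_nonneg _)).1 h1

/-- the closest lattice direction -/
theorem exists_ori (u : ℂ) (hu : ‖u‖ = 1) : ∃ (σ : P2 ≃ P2) (α β : ℝ), Ori σ u α β ∧ 0 ≤ α ∧
    α ≤ 19 / 20 ∧ 4 / 5 ≤ β ∧ β ≤ 1 ∧ α ^ 2 + β ^ 2 - α * β = 3 / 4 := by
  set x := u.re with hx
  set y := u.im with hy
  set s := Real.sqrt 3 with hs
  have hs2 : s * s = 3 := sqrt3_sq
  have hs0 : 0 < s := sqrt3_pos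
  have hs1 : 1.732 < s := sqrt3_lo
  have hs3 : s < 1.7321 := sqrt3_hi
  have hxy : x * x + y * y = 1 := by
    have h1 : ‖u‖ ^ 2 = 1 := by rw [hu]; norm_num
    rw [← Complex.normSq_eq_norm_sq, Complex.normSq_apply] at h1
    exact h1
  -- the numerical consequences
  have num : ∀ α β : ℝ, α ^ 2 + β ^ 2 - α * β = 3 / 4 → s / 2 ≤ β →
      0 ≤ α ∧ α ≤ 19 / 20 ∧ 4 / 5 ≤ β ∧ β ≤ 1 ∧ α ^ 2 + β ^ 2 - α * β = 3 / 4 := by
    intro α β h1 h2
    have h3 : β ≤ 1 := by nlinarith [sq_nonneg (α - β / 2)]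
    have h4 : 3 / 4 ≤ β * β := by nlinarith
    have h5 : (α - β / 2) ^ 2 ≤ 3 / 16 := by nlinarith
    have h6 : |α - β / 2| ≤ s / 4 := by
      refine abs_le_of_sq_le_sq ?_ (by positivity)
      nlinarith
    rw [abs_le] at h6
    refine ⟨by linarith, by linarith, by linarith, h3, h1⟩
  have hor : s / 2 ≤ |x| ∨ s / 2 ≤ |x / 2 + s / 2 * y| ∨ s / 2 ≤ |-x / 2 + s / 2 * y| := by
    by_contra hcon
    push Not at hcon
    obtain ⟨h1, h2, h3⟩ := hcon
    have hX := abs_nonneg x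
    have hY := abs_nonneg y
    have hX2 : |x| * |x| = x * x := abs_mul_abs_self x
    have hY2 : |y| * |y| = y * y := abs_mul_abs_self y
    have h4 : |x| / 2 + s / 2 * |y| < s / 2 := by
      rw [abs_lt] at h2 h3
      rcases abs_cases x with ⟨e1, _⟩ | ⟨e1, _⟩ <;> rcases abs_cases y with ⟨e2, _⟩ | ⟨e2, _⟩ <;>
        rw [e1, e2] <;> nlinarith [h2.1, h2.2, h3.1, h3.2]
    have h5 : |y| < 1 - |x| * s / 3 := by
      have : s * |y| < s * (1 - |x| * s / 3) := by nlinarith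
      exact lt_of_mul_lt_mul_left this hs0.le
    have h6 : |y| * |y| < (1 - |x| * s / 3) * (1 - |x| * s / 3) := by
      have h7 : 0 ≤ 1 - |x| * s / 3 := hY.trans h5.le
      nlinarith
    have h8 : 0 < |x| * (|x| * 4 / 3 - 2 * s / 3) := by nlinarith
    have h9 : 0 < |x| * 4 / 3 - 2 * s / 3 := by
      by_contra hc
      push Not at hc
      nlinarith
    linarith
  -- the six orientations
  have o1 : Ori (Equiv.refl P2) u x (x / 2 + s / 2 * y) := by
    refine ⟨⟨Equiv.refl _, fun t v => Iff.rfl⟩, fun _ _ => rfl, fun _ _ => rfl, fun δ v => ?_⟩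
    simp only [Equiv.refl_apply, ip, centre_re, centre_im]
    ring
  have o2 : Ori swE u (x / 2 + s / 2 * y) x := by
    refine ⟨⟨_, aut_sw⟩, fun _ _ => rfl, iso_of fun v => ?_, fun δ v => ?_⟩
    · simp only [Crest.Agent.R144.Rw146.swE_apply]; ring
    · simp only [Crest.Agent.R144.Rw146.swE_apply, ip, centre_re, centre_im]
      ring
  have o3 : Ori roE u (-x / 2 + s / 2 * y) (-x) := by
    refine ⟨⟨_, aut_ro⟩, fun v w => ?_, iso_of fun v => ?_, fun δ v => ?_⟩
    · simp only [Crest.Agent.R144.Rw146.roE_apply, Prod.fst_add, Prod.snd_add, Prod.mk_add_mk]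
      ext
      · simp only; ring
      · rfl
    · simp only [Crest.Agent.R144.Rw146.roE_apply]; push_cast; ring
    · simp only [Crest.Agent.R144.Rw146.roE_apply, ip, centre_re, centre_im]
      push_cast
      ring
  have o4 : Ori (swE.trans roE) u (-x) (-x / 2 + s / 2 * y) := by
    refine ⟨⟨_, aut_sw.trans aut_ro⟩, fun v w => ?_, iso_of fun v => ?_, fun δ v => ?_⟩
    · simp only [Equiv.trans_apply, Crest.Agent.R144.Rw146.swE_apply,
        Crest.Agent.R144.Rw146.roE_apply, Prod.fst_add, Prod.snd_add, Prod.mk_add_mk]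
      ext
      · simp only; ring
      · rfl
    · simp only [Equiv.trans_apply, Crest.Agent.R144.Rw146.swE_apply,
        Crest.Agent.R144.Rw146.roE_apply]
      push_cast; ring
    · simp only [Equiv.trans_apply, Crest.Agent.R144.Rw146.swE_apply,
        Crest.Agent.R144.Rw146.roE_apply, ip, centre_re, centre_im]
      push_cast
      ring
  have o5 : Ori (roE.trans roE) u (-(x / 2 + s / 2 * y)) (-(-x / 2 + s / 2 * y)) := by
    refine ⟨⟨_, aut_ro.trans aut_ro⟩, fun v w => ?_, iso_of fun v => ?_, fun δ v => ?_⟩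
    · simp only [Equiv.trans_apply, Crest.Agent.R144.Rw146.roE_apply, Prod.fst_add, Prod.snd_add,
        Prod.mk_add_mk]
      ext <;> (simp only; ring)
    · simp only [Equiv.trans_apply, Crest.Agent.R144.Rw146.roE_apply]
      push_cast; ring
    · simp only [Equiv.trans_apply, Crest.Agent.R144.Rw146.roE_apply, ip, centre_re, centre_im]
      push_cast
      ring
  have o6 : Ori (swE.trans (roE.trans roE)) u (-(-x / 2 + s / 2 * y)) (-(x / 2 + s / 2 * y)) := by
    refine ⟨⟨_, aut_sw.trans (aut_ro.trans aut_ro)⟩, fun v w => ?_, iso_of fun v => ?_,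
      fun δ v => ?_⟩
    · simp only [Equiv.trans_apply, Crest.Agent.R144.Rw146.swE_apply,
        Crest.Agent.R144.Rw146.roE_apply, Prod.fst_add, Prod.snd_add, Prod.mk_add_mk]
      ext <;> (simp only; ring)
    · simp only [Equiv.trans_apply, Crest.Agent.R144.Rw146.swE_apply,
        Crest.Agent.R144.Rw146.roE_apply]
      push_cast; ring
    · simp only [Equiv.trans_apply, Crest.Agent.R144.Rw146.swE_apply,
        Crest.Agent.R144.Rw146.roE_apply, ip, centre_re, centre_im]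
      push_cast
      ring
  rcases hor with h | h | h
  · rcases le_abs'.1 h with h1 | h1
    · exact ⟨_, _, _, o3, num _ _ (by linear_combination (3 / 4) * hxy + (y ^ 2 / 4) * hs2)
        (by linarith)⟩
    · exact ⟨_, _, _, o2, num _ _ (by linear_combination (3 / 4) * hxy + (y ^ 2 / 4) * hs2)
        (by linarith)⟩
  · rcases le_abs'.1 h with h1 | h1
    · exact ⟨_, _, _, o6, num _ _ (by linear_combination (3 / 4) * hxy + (y ^ 2 / 4) * hs2)
        (by linarith)⟩
    · exact ⟨_, _, _, o1, num _ _ (by linear_combination (3 / 4) * hxy + (y ^ 2 / 4) * hs2)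
        (by linarith)⟩
  · rcases le_abs'.1 h with h1 | h1
    · exact ⟨_, _, _, o5, num _ _ (by linear_combination (3 / 4) * hxy + (y ^ 2 / 4) * hs2)
        (by linarith)⟩
    · exact ⟨_, _, _, o4, num _ _ (by linear_combination (3 / 4) * hxy + (y ^ 2 / 4) * hs2)
        (by linarith)⟩

/-! ### approximate half planes -/

theorem ip_sub (a b w : ℂ) : ip (a - b) w = ip a w - ip b w := by
  simp only [ip, Complex.sub_re, Complex.sub_im]
  ring

theorem ip_neg (a w : ℂ) : ip a (-w) = -ip a w := by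
  simp only [ip, Complex.neg_re, Complex.neg_im]
  ring

theorem abs_ip_le (a w : ℂ) (hw : ‖w‖ = 1) : |ip a w| ≤ ‖a‖ := by
  have h1 : ip a w = (a * (starRingEnd ℂ) w).re := by
    simp only [ip, Complex.mul_re, Complex.conj_re, Complex.conj_im]
    ring
  rw [h1]
  refine (Complex.abs_re_le_norm _).trans ?_
  rw [norm_mul, RCLike.norm_conj, hw, mul_one]

theorem norm_add_sq' (a w : ℂ) (r : ℝ) (hw : ‖w‖ = 1) :
    ‖a - r * w‖ ^ 2 = ‖a‖ ^ 2 - 2 * r * ip a w + r ^ 2 := by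
  have h1 : ‖w‖ ^ 2 = 1 := by rw [hw]; norm_num
  rw [← Complex.normSq_eq_norm_sq, Complex.normSq_apply] at h1
  rw [← Complex.normSq_eq_norm_sq, ← Complex.normSq_eq_norm_sq, Complex.normSq_apply,
    Complex.normSq_apply]
  simp only [ip, Complex.sub_re, Complex.sub_im, Complex.mul_re, Complex.mul_im, Complex.ofReal_re,
    Complex.ofReal_im, zero_mul, sub_zero, add_zero]
  linear_combination r ^ 2 * h1

theorem continuous_ip (p w : ℂ) : Continuous fun z : ℂ => ip (z - p) w := by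
  unfold ip
  fun_prop

/-- sites of a lattice ball are Euclid close -/
theorem norm_centre_le {δ : ℝ} (hδ : 0 ≤ δ) {v : P2} {k : ℕ} (h1 : |v.1| ≤ k) (h2 : |v.2| ≤ k)
    (h3 : |v.1 + v.2| ≤ k) : ‖centre δ v‖ ≤ δ * k := by
  have h4 := norm_centre_sq δ v
  have key : (v.1 : ℝ) ^ 2 + v.1 * v.2 + (v.2 : ℝ) ^ 2 ≤ (k : ℝ) ^ 2 := by
    have e : v.1 ^ 2 + v.1 * v.2 + v.2 ^ 2 ≤ (k : ℤ) ^ 2 := by
      rw [abs_le] at h1 h2 h3
      rcases le_total 0 v.1 with a | a <;> rcases le_total 0 v.2 with b | b <;>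
        [nlinarith; skip; skip; nlinarith]
      · rcases le_total 0 (v.1 + v.2) with c | c <;> nlinarith
      · rcases le_total 0 (v.1 + v.2) with c | c <;> nlinarith
    exact_mod_cast e
  refine abs_le_of_sq_le_sq' ?_ (by positivity) |>.2
  rw [h4, mul_pow]
  exact mul_le_mul_of_nonneg_left key (sq_nonneg _)

variable {D : Set ℂ} {γ : ℝ → ℂ} {P : Finset ℂ} {δ : ℕ → ℝ} {Λ : ℕ → Finset (ℤ × ℤ)}
  {τ : ℕ → ℤ × ℤ → ℤ}

theorem exists_site {δ : ℝ} (hδ : 0 < δ) (z : ℂ) : ∃ v : P2, dist (centre δ v) z ≤ δ := by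
  obtain ⟨w, hw⟩ := Crest.Agent.R144.HexTil353.exists_cell hδ z
  exact ⟨w, by rw [dist_comm]; exact Crest.Agent.R144.Cov353.dist_le_cell hδ hw⟩

/-- **the non-free sites are an approximate half plane at small scales** -/
theorem halfplane (h : Setup D γ P δ Λ τ) (C : ℕ) :
    ∃ ρ1 > 0, ∀ p ∈ frontier D, ∃ (σ : P2 ≃ P2) (u : ℂ) (α β : ℝ) (o : ℕ → P2), Ori σ u α β ∧
      (∀ n, dist (centre (δ n) (σ (o n))) p ≤ δ n) ∧
      ∀ ρ, 0 < ρ → ρ ≤ ρ1 → ∀ᶠ n in atTop, HP {v | σ v ∉ Λ n} (o n) ⌊ρ / δ n⌋₊ C α β 1 := by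
  obtain ⟨r0, hr0, hball⟩ := exists_balls h.dom h.c2
  refine ⟨r0 / (2 * (C + 1) ^ 2), by positivity, fun p hp => ?_⟩
  obtain ⟨n, hn, hb⟩ := hball p hp
  obtain ⟨hb1, hb2⟩ := hb r0 hr0 le_rfl
  obtain ⟨σ, α, β, ho, ha0, ha1, hb0, hb1', hnrm⟩ := exists_ori (-n) (by rw [norm_neg]; exact hn)
  choose w hw using fun k => exists_site (h.sites.pos k) p
  refine ⟨σ, -n, α, β, fun k => σ.symm (w k), ho, fun k => by rw [σ.apply_symm_apply]; exact hw k,
    fun ρ hρ hρ1 => ?_⟩
  have hC : (0 : ℝ) ≤ C := Nat.cast_nonneg _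
  have hρ2 : (C + 1) ^ 2 * ρ < r0 := by
    rw [le_div_iff₀ (by positivity)] at hρ1
    nlinarith [show 0 < ((C : ℝ) + 1) ^ 2 * ρ by positivity]
  -- the two compact sets
  set K1 : Set ℂ := closedBall p ((C + 1) * ρ) ∩ {z | ρ / 2 ≤ ip (z - p) n} with hK1
  set K2 : Set ℂ := closedBall p ((C + 1) * ρ) ∩ {z | ip (z - p) n ≤ -(ρ / 2)} with hK2
  have hK1c : IsCompact K1 := (isCompact_closedBall _ _).inter_right
    (isClosed_le continuous_const (continuous_ip p n))
  have hK2c : IsCompact K2 := (isCompact_closedBall _ _).inter_right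
    (isClosed_le (continuous_ip p n) continuous_const)
  have hsq : ∀ z ∈ closedBall p ((C + 1) * ρ), ‖z - p‖ ^ 2 ≤ ((C + 1) * ρ) ^ 2 := by
    intro z hz
    rw [mem_closedBall, dist_eq_norm] at hz
    exact pow_le_pow_left₀ (norm_nonneg _) hz 2
  have hK1s : K1 ⊆ D := by
    rintro z ⟨hz1, hz2⟩
    apply hb1
    rw [Metric.mem_ball, dist_eq_norm]
    have e1 : z - (p + r0 * n) = (z - p) - r0 * n := by ring
    refine lt_of_pow_lt_pow_left₀ 2 hr0.le ?_
    rw [e1, norm_add_sq' _ _ _ hn]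
    have h1 := hsq z hz1
    have h2 : ρ / 2 ≤ ip (z - p) n := hz2
    nlinarith
  have hK2s : K2 ⊆ (closure D)ᶜ := by
    rintro z ⟨hz1, hz2⟩ hz3
    refine disjoint_left.1 hb2 ?_ hz3
    rw [Metric.mem_ball, dist_eq_norm]
    have e1 : z - (p - r0 * n) = (z - p) - r0 * (-n) := by ring
    refine lt_of_pow_lt_pow_left₀ 2 hr0.le ?_
    rw [e1, norm_add_sq' _ _ _ (by rw [norm_neg]; exact hn), ip_neg]
    have h1 := hsq z hz1
    have h2 : ip (z - p) n ≤ -(ρ / 2) := hz2
    nlinarith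
  obtain ⟨ε, hε, hεs⟩ := hK2c.exists_cthickening_subset_open isClosed_closure.isOpen_compl hK2s
  filter_upwards [h.free hK1c hK1s, h.sites.out (ε / 2) (by positivity),
    h.sites.small (show 0 < ρ / 4 by positivity)] with k hk1 hk2 hk3
  have hδ := h.sites.pos k
  set m := ⌊ρ / δ k⌋₊ with hm
  have hm1 : (m : ℝ) * δ k ≤ ρ := by
    have := Nat.floor_le (show 0 ≤ ρ / δ k by positivity)
    rw [le_div_iff₀ hδ] at this
    exact this
  have hm2 : ρ < (m + 1) * δ k := by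
    have := Nat.lt_floor_add_one (ρ / δ k)
    rw [div_lt_iff₀ hδ] at this
    exact this
  -- position of a site of the ball
  have hpos : ∀ v ∈ lb (σ.symm (w k)) (C * m), centre (δ k) (σ v) ∈ closedBall p ((C + 1) * ρ) ∧
      |ip (centre (δ k) (σ v) - p) n +
        δ k * (α * (v.1 - (σ.symm (w k)).1) + β * (v.2 - (σ.symm (w k)).2))| ≤ δ k := by
    intro v hv
    rw [Crest.Agent.R144.Rsw867.mem_ball] at hv
    set o := σ.symm (w k) with hodef
    have hwo : w k = σ o := (σ.apply_symm_apply _).symm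
    have e1 : σ v = σ (v - o) + w k := by
      rw [hwo, ← ho.add, sub_add_cancel]
    have e2 : centre (δ k) (σ v) = centre (δ k) (σ (v - o)) + centre (δ k) (w k) := by
      rw [e1]
      unfold centre
      push_cast [Prod.fst_add, Prod.snd_add]
      ring
    have h1 : ‖centre (δ k) (v - o)‖ ≤ δ k * (C * m : ℕ) :=
      norm_centre_le hδ.le hv.1 hv.2.1 hv.2.2
    rw [← ho.iso] at h1
    have h2 := hw k
    rw [dist_eq_norm] at h2
    constructor
    · rw [mem_closedBall, dist_eq_norm, e2]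
      have e3 : centre (δ k) (σ (v - o)) + centre (δ k) (w k) - p =
        centre (δ k) (σ (v - o)) + (centre (δ k) (w k) - p) := by ring
      rw [e3]
      refine (norm_add_le _ _).trans ?_
      push_cast at h1
      nlinarith
    · have e3 : centre (δ k) (σ v) - p = centre (δ k) (σ (v - o)) - (p - centre (δ k) (w k)) := by
        rw [e2]; ring
      have e4 := ho.lin (δ k) (v - o)
      rw [ip_neg] at e4
      have e5 : ((v - o).1 : ℝ) = v.1 - o.1 := by push_cast [Prod.fst_sub]; ring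
      have e6 : ((v - o).2 : ℝ) = v.2 - o.2 := by push_cast [Prod.snd_sub]; ring
      rw [e5, e6] at e4
      rw [e3, ip_sub]
      have e7 : ip (centre (δ k) (σ (v - o))) n - ip (p - centre (δ k) (w k)) n +
          δ k * (α * (v.1 - o.1) + β * (v.2 - o.2)) = -ip (p - centre (δ k) (w k)) n := by
        linarith
      rw [e7, abs_neg]
      refine (abs_ip_le _ _ hn).trans ?_
      rw [norm_sub_rev]
      exact h2
  refine ⟨ha0, ha1, hb0, hb1', hnrm, ?_, ?_⟩
  · intro v hv hf hvΛ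
    obtain ⟨h1, h2⟩ := hpos v hv
    rw [abs_le] at h2
    have h3 : ip (centre (δ k) (σ v) - p) n ≤ -(ρ / 2) := by nlinarith
    have h4 : centre (δ k) (σ v) ∈ K2 := ⟨h1, h3⟩
    have h5 := hk2 _ hvΛ
    have h6 := cthickening_subset_thickening' hε (by linarith : ε / 2 < ε) D h5
    rw [mem_thickening_iff] at h6
    obtain ⟨d, hd, hdd⟩ := h6
    refine hεs ?_ (subset_closure hd)
    exact mem_cthickening_of_dist_le d _ ε K2 h4 (by rw [dist_comm]; exact hdd.le)
  · intro v hv hf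
    obtain ⟨h1, h2⟩ := hpos v hv
    rw [abs_le] at h2
    have h3 : ρ / 2 ≤ ip (centre (δ k) (σ v) - p) n := by nlinarith
    show ¬ (σ v ∉ Λ k)
    rw [not_not]
    exact hk1 _ ⟨h1, h3⟩

end Crest.Agent.R144.Fr353
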