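import Crest.Agent.R144.Fr1_353
import Crest.Agent.R144.Bnd3_991

/-! R144 (helper353), block B6 of doc 1945, file 2: 991's `Frame` from an approximate half plane and
local connectivity next to the two exterior points. -/

set_option autoImplicit false

namespace Crest.Agent.R144.Fr353

open Crest.ProbabilityR.HexHeights (Adj)
open Crest.Agent.R144.It844 (P2 adj_iff)
open Crest.Agent.R144.Zg349 (StepIn)
open Crest.Agent.R144.Rsw867 (ball mem_ball ball_mono)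
open Crest.Agent.R144.Bnd991 (Frame wd mg)
open Relation (ReflTransGen)

/-! ### constants -/

def M1 (K : ℕ) : ℕ := 4 * K + 40
def XX (K R S : ℕ) : ℕ := M1 K + S + R + K + 4
def TT (K : ℕ) : ℕ := 2 * K + 8
def WW (K R S : ℕ) : ℕ := 2 * XX K R S + TT K
def ZZ (K R S : ℕ) : ℕ := 2 * XX K R S + 4
def M2 (K R S : ℕ) : ℕ := 4 * XX K R S + TT K + 10
def CC (K R S : ℕ) : ℕ := M2 K R S + K + 20

/-- points of the coarse lattice -/
def pt (o : P2) (m : ℕ) (c : ℤ × ℤ) : P2 := (o.1 + m * c.1, o.2 + m * c.2)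

/-- heights of the two exterior points -/
noncomputable def YY (α β : ℝ) (X : ℕ) : Bool → ℤ
  | false => ⌈(α * X + 2) / β⌉
  | true => ⌈(2 - α * X) / β⌉

/-- coarse position of the exterior points -/
noncomputable def cb (α β : ℝ) (X : ℕ) : Bool → ℤ × ℤ
  | false => (-(X : ℤ), YY α β X false)
  | true => ((X : ℤ), YY α β X true)

noncomputable def n1 (α β : ℝ) (K R S : ℕ) : ℤ := YY α β (XX K R S) false - TT K + WW K R S
noncomputable def n2 (α β : ℝ) (K R S : ℕ) : ℤ := YY α β (XX K R S) true - TT K + WW K R S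

/-- coarse chain -/
noncomputable def cc (α β : ℝ) (K R S : ℕ) (i : ℕ) : ℤ × ℤ :=
  if (i : ℤ) ≤ n1 α β K R S then (-(XX K R S : ℤ), YY α β (XX K R S) false - TT K - i)
  else if (i : ℤ) ≤ n1 α β K R S + 2 * XX K R S then
    (-(XX K R S : ℤ) + (i - n1 α β K R S), -(WW K R S : ℤ))
  else ((XX K R S : ℤ), -(WW K R S : ℤ) + (i - n1 α β K R S - 2 * XX K R S))

noncomputable def kk (α β : ℝ) (K R S : ℕ) : ℕ :=
  (n1 α β K R S + 2 * XX K R S + n2 α β K R S).toNat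

/-! ### coarse geometry -/

theorem mem_big {o v : P2} {m k B : ℕ} {c : ℤ × ℤ} (hv : v ∈ ball (pt o m c) (k * m))
    (h1 : |c.1| + k ≤ B) (h2 : |c.2| + k ≤ B) (h3 : |c.1 + c.2| + k ≤ B) : v ∈ ball o (B * m) := by
  have hm : (0 : ℤ) ≤ m := Int.natCast_nonneg _
  have key : ∀ x y z c' : ℤ, |z| ≤ (k * m : ℕ) → |c'| + k ≤ B → x = z + m * c' → |x| ≤ (B * m : ℕ) := by
    intro x y z c' hz hc hx
    rw [hx]
    push_cast at hz ⊢
    have e1 : |(m : ℤ) * c'| = m * |c'| := by rw [abs_mul, abs_of_nonneg hm]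
    have e2 := abs_add_le z (m * c')
    rw [e1] at e2
    nlinarith
  rw [mem_ball] at hv ⊢
  unfold pt at hv
  refine ⟨key _ 0 _ _ hv.1 h1 (by ring), key _ 0 _ _ hv.2.1 h2 (by ring),
    key _ 0 _ _ hv.2.2 h3 (by ring)⟩

theorem not_mem_small {o v : P2} {m k B : ℕ} {c : ℤ × ℤ} (hm : 1 ≤ m)
    (hv : v ∈ ball (pt o m c) (k * m)) (h : B + k < |c.1| ∨ B + k < |c.2|) :
    v ∉ ball o (B * m) := by
  have hm' : (1 : ℤ) ≤ m := by exact_mod_cast hm
  have key : ∀ x z c' : ℤ, |z| ≤ (k * m : ℕ) → (B : ℤ) + k < |c'| → x = z + m * c' →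
      ¬ |x| ≤ (B * m : ℕ) := by
    intro x z c' hz hc hx hcon
    push_cast at hz hcon
    have e1 : |(m : ℤ) * c'| = m * |c'| := by rw [abs_mul, abs_of_nonneg (by omega)]
    have e2 : (m : ℤ) * c' = x - z := by rw [hx]; ring
    have e3 := abs_sub x z
    rw [← e2, e1] at e3
    nlinarith
  intro hcon
  rw [mem_ball] at hv hcon
  unfold pt at hv
  rcases h with h | h
  · exact key _ _ _ hv.1 h (by ring) hcon.1
  · exact key _ _ _ hv.2.1 h (by ring) hcon.2.1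

/-- the linear form on a ball -/
theorem form_le {α β : ℝ} (ha0 : 0 ≤ α) (ha1 : α ≤ 1) (hb0 : 0 ≤ β) (hb1 : β ≤ 1) {x y k : ℝ}
    (h1 : |x| ≤ k) (h2 : |y| ≤ k) (h3 : |x + y| ≤ k) : |α * x + β * y| ≤ k := by
  rw [abs_le] at *
  obtain ⟨h1, h1'⟩ := h1
  obtain ⟨h2, h2'⟩ := h2
  obtain ⟨h3, h3'⟩ := h3
  rcases le_total 0 x with a | a <;> rcases le_total 0 y with b | b
  · constructor <;> nlinarith [mul_nonneg ha0 a, mul_nonneg hb0 b,
      mul_nonneg (sub_nonneg.2 ha1) a, mul_nonneg (sub_nonneg.2 hb1) b]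
  · constructor <;> nlinarith [mul_nonneg ha0 a, mul_nonneg hb0 (neg_nonneg.2 b),
      mul_nonneg (sub_nonneg.2 ha1) a, mul_nonneg (sub_nonneg.2 hb1) (neg_nonneg.2 b)]
  · constructor <;> nlinarith [mul_nonneg ha0 (neg_nonneg.2 a), mul_nonneg hb0 b,
      mul_nonneg (sub_nonneg.2 ha1) (neg_nonneg.2 a), mul_nonneg (sub_nonneg.2 hb1) b]
  · constructor <;> nlinarith [mul_nonneg ha0 (neg_nonneg.2 a), mul_nonneg hb0 (neg_nonneg.2 b),
      mul_nonneg (sub_nonneg.2 ha1) (neg_nonneg.2 a), mul_nonneg (sub_nonneg.2 hb1) (neg_nonneg.2 b)]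

theorem form_ball {α β : ℝ} (ha0 : 0 ≤ α) (ha1 : α ≤ 1) (hb0 : 0 ≤ β) (hb1 : β ≤ 1) {o v : P2}
    {m k : ℕ} {c : ℤ × ℤ} (hv : v ∈ ball (pt o m c) (k * m)) :
    |(α * (v.1 - o.1) + β * (v.2 - o.2)) - m * (α * c.1 + β * c.2)| ≤ k * m := by
  rw [mem_ball] at hv
  unfold pt at hv
  obtain ⟨h1, h2, h3⟩ := hv
  have g1 : |((v.1 : ℝ) - (o.1 + m * c.1))| ≤ k * m := by exact_mod_cast h1
  have g2 : |((v.2 : ℝ) - (o.2 + m * c.2))| ≤ k * m := by exact_mod_cast h2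
  have g3 : |((v.1 : ℝ) - (o.1 + m * c.1)) + ((v.2 : ℝ) - (o.2 + m * c.2))| ≤ k * m := by
    exact_mod_cast h3
  have := form_le ha0 ha1 hb0 hb1 g1 g2 g3
  have e : (α * (v.1 - o.1) + β * (v.2 - o.2)) - m * (α * c.1 + β * c.2) =
      α * ((v.1 : ℝ) - (o.1 + m * c.1)) + β * ((v.2 : ℝ) - (o.2 + m * c.2)) := by ring
  rw [e]
  exact this

theorem path_vert {S : Set P2} {x y : ℤ} (k : ℕ) (h : ∀ t : ℕ, t ≤ k → ((x, y + t) : P2) ∈ S) :
    ReflTransGen (StepIn S) (x, y) (x, y + k) := by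
  induction k with
  | zero => simpa using ReflTransGen.refl
  | succ k ih =>
    refine (ih fun t ht => h t (by omega)).tail ⟨h k (by omega), ?_, ?_⟩
    · exact h (k + 1) le_rfl
    · rw [adj_iff]
      right; right; left
      push_cast
      simp only [Prod.mk.injEq, true_and]
      ring

theorem path_left {S : Set P2} {x y : ℤ} (k : ℕ) (h : ∀ t : ℕ, t ≤ k → ((x + t, y) : P2) ∈ S) :
    ReflTransGen (StepIn S) (x, y) (x + k, y) := by
  induction k with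
  | zero => simpa using ReflTransGen.refl
  | succ k ih =>
    refine (ih fun t ht => h t (by omega)).tail ⟨h k (by omega), ?_, ?_⟩
    · exact h (k + 1) le_rfl
    · rw [adj_iff]
      left
      push_cast
      simp only [Prod.mk.injEq, and_true]
      ring

/-! ### the numbers of the frame -/

section
variable {α β : ℝ}

theorem YYf_bd (ha0 : 0 ≤ α) (ha1 : α ≤ 19 / 20) (hb0 : 4 / 5 ≤ β) (hb1 : β ≤ 1) (X : ℕ) :
    α * X + 2 ≤ β * YY α β X false ∧ β * YY α β X false ≤ α * X + 3 ∧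
      1 ≤ YY α β X false ∧ YY α β X false ≤ 2 * X + 4 := by
  have hb : 0 < β := by linarith
  have hX : (0 : ℝ) ≤ X := Nat.cast_nonneg _
  have h1 := Int.le_ceil ((α * X + 2) / β)
  have h2 := Int.ceil_lt_add_one ((α * X + 2) / β)
  rw [div_le_iff₀ hb] at h1
  have h2' : (⌈(α * X + 2) / β⌉ : ℝ) * β < α * X + 2 + β := by
    have := mul_lt_mul_of_pos_right h2 hb
    rw [add_mul, one_mul, div_mul_cancel₀ _ hb.ne'] at this
    exact this
  unfold YY
  have hax : 0 ≤ α * X := mul_nonneg ha0 hX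
  refine ⟨by linarith, by linarith, ?_, ?_⟩
  · rw [Int.one_le_ceil_iff]
    positivity
  · have h3 : ((⌈(α * X + 2) / β⌉ : ℤ) : ℝ) ≤ ((2 * X + 4 : ℤ) : ℝ) := by
      push_cast
      by_contra hcon
      push Not at hcon
      nlinarith
    exact_mod_cast h3

theorem YYt_bd (ha0 : 0 ≤ α) (ha1 : α ≤ 19 / 20) (hb0 : 4 / 5 ≤ β) (hb1 : β ≤ 1) (X : ℕ) :
    2 - α * X ≤ β * YY α β X true ∧ β * YY α β X true ≤ 3 - α * X ∧
      -(2 * X : ℤ) ≤ YY α β X true ∧ YY α β X true ≤ 4 := by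
  have hb : 0 < β := by linarith
  have hX : (0 : ℝ) ≤ X := Nat.cast_nonneg _
  have h1 := Int.le_ceil ((2 - α * X) / β)
  have h2 := Int.ceil_lt_add_one ((2 - α * X) / β)
  rw [div_le_iff₀ hb] at h1
  have h2' : (⌈(2 - α * X) / β⌉ : ℝ) * β < 2 - α * X + β := by
    have := mul_lt_mul_of_pos_right h2 hb
    rw [add_mul, one_mul, div_mul_cancel₀ _ hb.ne'] at this
    exact this
  unfold YY
  have hax : 0 ≤ α * X := mul_nonneg ha0 hX
  refine ⟨by linarith, by linarith, ?_, ?_⟩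
  · have h3 : ((-(2 * X : ℤ) : ℤ) : ℝ) ≤ ((⌈(2 - α * X) / β⌉ : ℤ) : ℝ) := by
      push_cast
      by_contra hcon
      push Not at hcon
      nlinarith
    exact_mod_cast h3
  · have h3 : ((⌈(2 - α * X) / β⌉ : ℤ) : ℝ) ≤ ((4 : ℤ) : ℝ) := by
      push_cast
      by_contra hcon
      push Not at hcon
      nlinarith
    exact_mod_cast h3

/-- the coarse chain: position and linear form -/
theorem cc_spec (ha0 : 0 ≤ α) (ha1 : α ≤ 19 / 20) (hb0 : 4 / 5 ≤ β) (hb1 : β ≤ 1) (K R S : ℕ) {i : ℕ}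
    (hi : i ≤ kk α β K R S) :
    α * (cc α β K R S i).1 + β * (cc α β K R S i).2 ≤ -(K + 1) ∧
      |(cc α β K R S i).1| ≤ XX K R S ∧ |(cc α β K R S i).2| ≤ WW K R S + 4 ∧
      ((XX K R S : ℤ) ≤ |(cc α β K R S i).1| ∨ (WW K R S : ℤ) ≤ |(cc α β K R S i).2|) := by
  obtain ⟨l1, l2, l3, l4⟩ := YYf_bd ha0 ha1 hb0 hb1 (XX K R S)
  obtain ⟨t1, t2, t3, t4⟩ := YYt_bd ha0 ha1 hb0 hb1 (XX K R S)
  have hW : WW K R S = 2 * XX K R S + TT K := rfl
  have hT : TT K = 2 * K + 8 := rfl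
  have hN1 : n1 α β K R S = YY α β (XX K R S) false - TT K + WW K R S := rfl
  have hN2 : n2 α β K R S = YY α β (XX K R S) true - TT K + WW K R S := rfl
  have hn1 : 0 ≤ n1 α β K R S := by omega
  have hn2 : 0 ≤ n2 α β K R S := by omega
  have hi' : (i : ℤ) ≤ n1 α β K R S + 2 * XX K R S + n2 α β K R S := by
    unfold kk at hi
    omega
  have hK : (0 : ℝ) ≤ K := Nat.cast_nonneg _
  have hTr : ((TT K : ℕ) : ℝ) = 2 * K + 8 := by rw [hT]; push_cast; ring
  have hWr : ((WW K R S : ℕ) : ℝ) = 2 * (XX K R S : ℕ) + (2 * K + 8) := by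
    rw [hW]; push_cast; rw [hTr]
  have hX : (0 : ℝ) ≤ (XX K R S : ℕ) := Nat.cast_nonneg _
  unfold cc
  split_ifs with h1 h2
  · have hi0 : (0 : ℝ) ≤ i := Nat.cast_nonneg _
    refine ⟨?_, ?_, ?_, Or.inl ?_⟩
    · push_cast
      rw [hTr]
      nlinarith
    · simp only [abs_neg, Nat.abs_cast, le_refl]
    · simp only [abs_le]; omega
    · simp only [abs_neg, Nat.abs_cast, le_refl]
  · push Not at h1
    have h1r : ((n1 α β K R S : ℤ) : ℝ) < (i : ℝ) := by exact_mod_cast h1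
    have h2r : (i : ℝ) ≤ ((n1 α β K R S : ℤ) : ℝ) + 2 * (XX K R S : ℕ) := by exact_mod_cast h2
    refine ⟨?_, ?_, ?_, Or.inr ?_⟩
    · push_cast
      rw [hWr]
      nlinarith
    · simp only [abs_le]; omega
    · simp only [abs_le]; omega
    · simp only [abs_neg, Nat.abs_cast, le_refl]
  · push Not at h1 h2
    have h3 : (-(WW K R S : ℤ) + (i - n1 α β K R S - 2 * XX K R S)) ≤
      YY α β (XX K R S) true - TT K := by omega
    have h3r : ((-(WW K R S : ℤ) + (i - n1 α β K R S - 2 * XX K R S) : ℤ) : ℝ) ≤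
      ((YY α β (XX K R S) true : ℤ) : ℝ) - (2 * K + 8) := by
      rw [← hTr]
      exact_mod_cast h3
    refine ⟨?_, ?_, ?_, Or.inl ?_⟩
    · simp only
      have e : (((XX K R S : ℕ) : ℤ) : ℝ) = ((XX K R S : ℕ) : ℝ) := by norm_cast
      rw [e]
      nlinarith
    · simp only [Nat.abs_cast, le_refl]
    · simp only [abs_le]; omega
    · simp only [Nat.abs_cast, le_refl]

theorem cc_zero (ha0 : 0 ≤ α) (ha1 : α ≤ 19 / 20) (hb0 : 4 / 5 ≤ β) (hb1 : β ≤ 1) (K R S : ℕ) :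
    cc α β K R S 0 = (-(XX K R S : ℤ), YY α β (XX K R S) false - TT K) := by
  obtain ⟨l1, l2, l3, l4⟩ := YYf_bd ha0 ha1 hb0 hb1 (XX K R S)
  have hW : WW K R S = 2 * XX K R S + TT K := rfl
  have hN1 : n1 α β K R S = YY α β (XX K R S) false - TT K + WW K R S := rfl
  unfold cc
  rw [if_pos (by push_cast; omega)]
  push_cast
  rw [sub_zero]

theorem cc_kk (ha0 : 0 ≤ α) (ha1 : α ≤ 19 / 20) (hb0 : 4 / 5 ≤ β) (hb1 : β ≤ 1) (K R S : ℕ) :
    cc α β K R S (kk α β K R S) = ((XX K R S : ℤ), YY α β (XX K R S) true - TT K) := by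
  obtain ⟨l1, l2, l3, l4⟩ := YYf_bd ha0 ha1 hb0 hb1 (XX K R S)
  obtain ⟨t1, t2, t3, t4⟩ := YYt_bd ha0 ha1 hb0 hb1 (XX K R S)
  have hW : WW K R S = 2 * XX K R S + TT K := rfl
  have hT : TT K = 2 * K + 8 := rfl
  have hN1 : n1 α β K R S = YY α β (XX K R S) false - TT K + WW K R S := rfl
  have hN2 : n2 α β K R S = YY α β (XX K R S) true - TT K + WW K R S := rfl
  have hn1 : 0 ≤ n1 α β K R S := by omega
  have hn2 : 0 ≤ n2 α β K R S := by omega
  have hk : ((kk α β K R S : ℕ) : ℤ) = n1 α β K R S + 2 * XX K R S + n2 α β K R S := by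
    unfold kk
    omega
  have hM : 0 < XX K R S := by unfold XX; omega
  unfold cc
  rw [hk]
  split_ifs with h1 h2
  · omega
  · have h3 : n2 α β K R S = 0 := by omega
    ext
    · simp only; omega
    · simp only; omega
  · ext
    · rfl
    · simp only; omega

theorem cc_step (K R S : ℕ) (i : ℕ) :
    cc α β K R S (i + 1) - cc α β K R S i = (0, -1) ∨ cc α β K R S (i + 1) - cc α β K R S i = (1, 0) ∨
      cc α β K R S (i + 1) - cc α β K R S i = (0, 1) ∨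
      (kk α β K R S < i + 1) := by
  by_cases hk : kk α β K R S < i + 1
  · exact Or.inr (Or.inr (Or.inr hk))
  · unfold kk at hk
    have hN1 : n1 α β K R S = YY α β (XX K R S) false - TT K + WW K R S := rfl
    have hX : 0 < XX K R S := by unfold XX; omega
    unfold cc
    push_cast
    split_ifs with h1 h2 h3 h4 h5 h6 <;>
      simp only [Prod.mk_sub_mk, Prod.mk.injEq] <;> omega

theorem kk_le (ha0 : 0 ≤ α) (ha1 : α ≤ 19 / 20) (hb0 : 4 / 5 ≤ β) (hb1 : β ≤ 1) (K R S : ℕ) :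
    kk α β K R S ≤ 10 * XX K R S + 2 * TT K + 10 := by
  obtain ⟨l1, l2, l3, l4⟩ := YYf_bd ha0 ha1 hb0 hb1 (XX K R S)
  obtain ⟨t1, t2, t3, t4⟩ := YYt_bd ha0 ha1 hb0 hb1 (XX K R S)
  have hW : WW K R S = 2 * XX K R S + TT K := rfl
  have hN1 : n1 α β K R S = YY α β (XX K R S) false - TT K + WW K R S := rfl
  have hN2 : n2 α β K R S = YY α β (XX K R S) true - TT K + WW K R S := rfl
  unfold kk
  omega

end

end Crest.Agent.R144.Fr353
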