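import Crest.Agent.R144.Fr2_353

/-! R144 (helper353), block B6 of doc 1945, file 3: **991's `Frame`** from an approximate half plane
and local connectivity next to the two exterior points. -/

set_option autoImplicit false

namespace Crest.Agent.R144.Fr353

open Crest.ProbabilityR.HexHeights (Adj)
open Crest.Agent.R144.It844 (P2 adj_iff)
open Crest.Agent.R144.Zg349 (StepIn)
open Crest.Agent.R144.Rsw867 (ball mem_ball ball_mono path_mono)
open Crest.Agent.R144.Pst967 (path_symm)
open Crest.Agent.R144.Bnd991 (Frame wd mg)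
open Relation (ReflTransGen)

/-- linear relations between the constants, multiplied by `m` -/
theorem consts (K R S : ℕ) {m : ℕ} (hm : 1 ≤ m) :
    (XX K R S : ℤ) * m = M1 K * m + S * m + R * m + K * m + 4 * m ∧
    (M2 K R S : ℤ) * m = 4 * (XX K R S * m) + TT K * m + 10 * m ∧
    (ZZ K R S : ℤ) * m = 2 * (XX K R S * m) + 4 * m ∧
    (M1 K : ℤ) * m = 4 * (K * m) + 40 * m ∧ (TT K : ℤ) * m = 2 * (K * m) + 8 * m ∧
    (CC K R S : ℤ) * m = M2 K R S * m + K * m + 20 * m ∧
    (0 : ℤ) ≤ S * m ∧ (0 : ℤ) ≤ R * m ∧ (0 : ℤ) ≤ K * m ∧ (1 : ℤ) ≤ m := by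
  refine ⟨?_, ?_, ?_, ?_, ?_, ?_, by positivity, by positivity, by positivity, by exact_mod_cast hm⟩
  · unfold XX; push_cast; ring
  · unfold M2; push_cast; ring
  · unfold ZZ; push_cast; ring
  · unfold M1; push_cast; ring
  · unfold TT; push_cast; ring
  · unfold CC; push_cast; ring

set_option maxHeartbeats 1000000 in
theorem frame_of_hp {K A R S m : ℕ} (hm : 1 ≤ m) (hA : TT K ≤ A) (hRS : R ≤ S) {N : Set P2} {o : P2}
    {α β : ℝ} (h : HP N o m (CC K R S) α β 1)
    (hl : ∀ s, ∀ v ∈ N, v ∈ ball (pt o m (cb α β (XX K R S) s)) (R * m) →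
      ReflTransGen (StepIn {w | w ∈ N ∧ w ∈ ball (pt o m (cb α β (XX K R S) s)) (S * m)}) v
        (pt o m (cb α β (XX K R S) s))) :
    Frame K A R m (M1 K * m) (M2 K R S * m) (kk α β K R S) N o (o.2 + ZZ K R S * m)
      (fun s => pt o m (cb α β (XX K R S) s))
      (fun s => pt o m ((cb α β (XX K R S) s).1, (cb α β (XX K R S) s).2 - TT K))
      (fun i => pt o m (cc α β K R S i)) := by
  obtain ⟨ha0, ha1, hb0, hb1, -, hout, hinn⟩ := h
  obtain ⟨eX, eM2, eZ, eM1, eT, eC, pS, pR, pK, pm⟩ := consts K R S hm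
  obtain ⟨l1, l2, l3, l4⟩ := YYf_bd ha0 ha1 hb0 hb1 (XX K R S)
  obtain ⟨t1, t2, t3, t4⟩ := YYt_bd ha0 ha1 hb0 hb1 (XX K R S)
  have hspec : ∀ i, i ≤ kk α β K R S → _ := fun i hi => cc_spec ha0 ha1 hb0 hb1 K R S hi
  have hW : WW K R S = 2 * XX K R S + TT K := rfl
  have hT : TT K = 2 * K + 8 := rfl
  have hXn : XX K R S = M1 K + S + R + K + 4 := rfl
  have hM1n : M1 K = 4 * K + 40 := rfl
  have hM2n : M2 K R S = 4 * XX K R S + TT K + 10 := rfl
  have hCCn : CC K R S = M2 K R S + K + 20 := rfl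
  have hZn : ZZ K R S = 2 * XX K R S + 4 := rfl
  have hc0 := cc_zero ha0 ha1 hb0 hb1 K R S
  have hck := cc_kk ha0 ha1 hb0 hb1 K R S
  obtain ⟨X, hX⟩ : ∃ X : ℕ, XX K R S = X := ⟨_, rfl⟩
  obtain ⟨Yf, hYf⟩ : ∃ Yf : ℤ, YY α β X false = Yf := ⟨_, rfl⟩
  obtain ⟨Yt, hYt⟩ : ∃ Yt : ℤ, YY α β X true = Yt := ⟨_, rfl⟩
  have hc1 : cb α β X false = (-(X : ℤ), Yf) := by rw [← hYf]; rfl
  have hc2 : cb α β X true = ((X : ℤ), Yt) := by rw [← hYt]; rfl
  rw [hX] at eX eM2 eZ l1 l2 l3 l4 t1 t2 t3 t4 hW hXn hM2n hZn hc0 hck hl ⊢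
  simp only [hX] at hspec
  rw [hYf] at l1 l2 l3 l4 hc0
  rw [hYt] at t1 t2 t3 t4 hck
  have ha1' : α ≤ 1 := by linarith
  have hb0' : 0 ≤ β := by linarith
  have pmr : (1 : ℝ) ≤ m := by exact_mod_cast hm
  have pKr : (0 : ℝ) ≤ K := Nat.cast_nonneg _
  have pXr : (0 : ℝ) ≤ X := Nat.cast_nonneg _
  have pm0 : (0 : ℤ) ≤ m := by omega
  -- products of the heights with m
  have yf1 : (m : ℤ) ≤ m * Yf := le_mul_of_one_le_right pm0 l3
  have yf2 : (m : ℤ) * Yf ≤ 2 * (X * m) + 4 * m := by
    have := mul_le_mul_of_nonneg_left l4 pm0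
    have e : (m : ℤ) * (2 * X + 4) = 2 * (X * m) + 4 * m := by ring
    rw [e] at this
    exact this
  have yt1 : -(2 * ((X : ℤ) * m)) ≤ m * Yt := by
    have := mul_le_mul_of_nonneg_left t3 pm0
    have e : (m : ℤ) * (-(2 * X)) = -(2 * (X * m)) := by ring
    rw [e] at this
    exact this
  have yt2 : (m : ℤ) * Yt ≤ 4 * m := by
    have := mul_le_mul_of_nonneg_left t4 pm0
    linarith
  -- membership in N
  have inN : ∀ v : P2, v ∈ ball o (CC K R S * m) →
      (m : ℝ) ≤ α * (v.1 - o.1) + β * (v.2 - o.2) → v ∈ N :=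
    fun v hv hf => hout v hv (by rw [one_mul]; exact hf)
  have hcb : ∀ s, |(cb α β X s).1| = X ∧ |(cb α β X s).2| ≤ 2 * X + 4 := by
    intro s
    cases s
    · rw [hc1]
      refine ⟨by simp only [abs_neg, Nat.abs_cast], ?_⟩
      simp only [abs_le]; omega
    · rw [hc2]
      refine ⟨by simp only [Nat.abs_cast], ?_⟩
      simp only [abs_le]; omega
  have hcbf : ∀ s, 2 ≤ α * (cb α β X s).1 + β * (cb α β X s).2 := by
    intro s
    cases s
    · rw [hc1]
      push_cast
      linarith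
    · rw [hc2]
      push_cast
      linarith
  -- the ball of radius `S m` around the exterior points
  have hbS : ∀ s, ∀ v ∈ ball (pt o m (cb α β X s)) (S * m), v ∈ ball o (M2 K R S * m) ∧
      v ∉ ball o (M1 K * m) := by
    intro s v hv
    obtain ⟨h1, h2⟩ := hcb s
    have h3 := abs_add_le (cb α β X s).1 (cb α β X s).2
    exact ⟨mem_big hv (by omega) (by omega) (by omega), not_mem_small hm hv (Or.inl (by omega))⟩
  have hleft : ∀ v ∈ ball (pt o m (cb α β X false)) (S * m), v.1 < o.1 - ((M1 K * m : ℕ) + 2) := by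
    intro v hv
    rw [mem_ball] at hv
    have h1 := hv.1
    rw [abs_le] at h1
    have e1 : (pt o m (cb α β X false)).1 = o.1 - X * m := by
      rw [hc1]
      unfold pt
      ring
    rw [e1] at h1
    push_cast at h1 ⊢
    omega
  have hright : ∀ v ∈ ball (pt o m (cb α β X true)) (S * m), o.1 + ((M1 K * m : ℕ) + 2) < v.1 := by
    intro v hv
    rw [mem_ball] at hv
    have h1 := hv.1
    rw [abs_le] at h1
    have e1 : (pt o m (cb α β X true)).1 = o.1 + X * m := by
      rw [hc2]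
      unfold pt
      ring
    rw [e1] at h1
    push_cast at h1 ⊢
    omega
  have hRSm : R * m ≤ S * m := Nat.mul_le_mul_right _ hRS
  have hCCm : M2 K R S * m + mg K m ≤ CC K R S * m := by
    unfold mg
    have : (CC K R S : ℕ) * m = M2 K R S * m + K * m + 20 * m := by rw [hCCn]; ring
    rw [this]
    nlinarith
  have hM2CC : M2 K R S * m ≤ CC K R S * m := by omega
  -- N on the slits
  have hslit : ∀ s, ∀ v : P2, (pt o m (cb α β X s)).1 ≤ v.1 →
      (pt o m (cb α β X s)).2 ≤ v.2 → v ∈ ball o (CC K R S * m) → v ∈ N := by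
    intro s v h1 h2 h3
    refine inN v h3 ?_
    have g1 : ((m : ℝ) * (cb α β X s).1) ≤ v.1 - o.1 := by
      have : (o.1 : ℤ) + m * (cb α β X s).1 ≤ v.1 := h1
      have : ((o.1 : ℤ) : ℝ) + m * (cb α β X s).1 ≤ v.1 := by exact_mod_cast this
      linarith
    have g2 : ((m : ℝ) * (cb α β X s).2) ≤ v.2 - o.2 := by
      have : (o.2 : ℤ) + m * (cb α β X s).2 ≤ v.2 := h2
      have : ((o.2 : ℤ) : ℝ) + m * (cb α β X s).2 ≤ v.2 := by exact_mod_cast this
      linarith
    have g3 := mul_le_mul_of_nonneg_left g1 ha0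
    have g4 := mul_le_mul_of_nonneg_left g2 hb0'
    have g5 := mul_le_mul_of_nonneg_left (hcbf s) (by linarith : (0 : ℝ) ≤ m)
    nlinarith
  refine ⟨hm, ?_, ?_, ?_, ?_, ?_, ?_, ?_, ?_, ?_, ?_, ?_, ?_, ?_, ?_, ?_, ?_, ?_, ?_⟩
  · -- rin
    unfold wd mg
    have : M1 K * m = 4 * (K * m) + 40 * m := by rw [hM1n]; ring
    rw [this]
    nlinarith
  · -- r12
    refine Nat.mul_lt_mul_of_pos_right ?_ (by omega)
    omega
  · -- strip
    intro v h1 h2 h3 h4
    refine inN v (ball_mono _ hCCm h4) ?_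
    have hsub : ((M1 K * m - mg K m : ℕ) : ℤ) = M1 K * m - ((K + 1) * m + 12) := by
      have : mg K m ≤ M1 K * m := by
        unfold mg
        have : M1 K * m = 4 * (K * m) + 40 * m := by rw [hM1n]; ring
        rw [this]
        nlinarith
      rw [Nat.cast_sub this]
      unfold mg
      push_cast
      ring
    have h1' : |v.1 - o.1| ≤ (K + 1) * m + 6 := by
      unfold wd at h1
      push_cast at h1
      linarith
    rw [mem_ball] at h3
    have hbb : M1 K * m - ((K + 1) * m + 12) - ((K + 1) * m + 6) ≤ v.2 - o.2 := by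
      by_contra hcon
      push Not at hcon
      apply h3
      rw [hsub]
      have h5 := abs_add_le (v.1 - o.1) (v.2 - o.2)
      have h6 : |v.2 - o.2| = v.2 - o.2 := abs_of_nonneg (by omega)
      have e1 : ((K : ℤ) + 1) * m = K * m + m := by ring
      refine ⟨by omega, by omega, by omega⟩
    have g1 : |((v.1 : ℝ) - o.1)| ≤ (K + 1) * m + 6 := by exact_mod_cast h1'
    have g2 : ((M1 K : ℕ) : ℝ) * m - ((K + 1) * m + 12) - ((K + 1) * m + 6) ≤ (v.2 : ℝ) - o.2 := by
      exact_mod_cast hbb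
    have g3 : ((M1 K : ℕ) : ℝ) = 4 * K + 40 := by rw [hM1n]; push_cast; ring
    rw [g3] at g2
    rw [abs_le] at g1
    have hKm : (0 : ℝ) ≤ K * m := by positivity
    have g4 : -((K + 1) * m + 6 : ℝ) ≤ α * ((v.1 : ℝ) - o.1) := by
      nlinarith [mul_nonneg ha0 (by nlinarith [g1.1] : (0 : ℝ) ≤ ((v.1 : ℝ) - o.1) + ((K + 1) * m + 6)),
        mul_nonneg (sub_nonneg.2 ha1') (by positivity : (0 : ℝ) ≤ (K + 1) * m + 6)]
    have g5 : (0 : ℝ) ≤ (v.2 : ℝ) - o.2 := by nlinarith
    have g6 : 4 / 5 * ((v.2 : ℝ) - o.2) ≤ β * ((v.2 : ℝ) - o.2) := mul_le_mul_of_nonneg_right hb0 g5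
    nlinarith
  · -- slit
    intro s v h1 _ h2 h3
    exact hslit s v h1 h2 (ball_mono _ hCCm h3)
  · -- ballb
    intro s v hv
    exact hbS s v (ball_mono _ hRSm hv)
  · intro v hv
    exact hleft v (ball_mono _ hRSm hv)
  · intro v hv
    exact hright v (ball_mono _ hRSm hv)
  · -- yb
    intro s
    rw [mem_ball]
    have hAm : (TT K : ℤ) * m ≤ A * m := by
      have : ((TT K : ℕ) : ℤ) ≤ A := by exact_mod_cast hA
      exact mul_le_mul_of_nonneg_right this (by omega)
    have pT : (0 : ℤ) ≤ TT K * m := by positivity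
    simp only [pt]
    push_cast
    have e1 : o.2 + (m : ℤ) * ((cb α β X s).2 - TT K) - (o.2 + m * (cb α β X s).2) = -(TT K * m) := by
      ring
    rw [e1, sub_self, zero_add, abs_zero, abs_neg, abs_of_nonneg pT]
    exact ⟨pT.trans hAm, hAm, hAm⟩
  · -- a0
    show pt o m (cc α β K R S 0) = _
    rw [hc0, hc1]
  · -- ak
    show pt o m (cc α β K R S (kk α β K R S)) = _
    rw [hck, hc2]
  · -- chain
    intro i hi
    rw [mem_ball]
    simp only [pt]
    have e1 : o.1 + (m : ℤ) * (cc α β K R S (i + 1)).1 - (o.1 + m * (cc α β K R S i).1) =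
        m * (cc α β K R S (i + 1) - cc α β K R S i).1 := by
      rw [Prod.fst_sub]; ring
    have e2 : o.2 + (m : ℤ) * (cc α β K R S (i + 1)).2 - (o.2 + m * (cc α β K R S i).2) =
        m * (cc α β K R S (i + 1) - cc α β K R S i).2 := by
      rw [Prod.snd_sub]; ring
    rw [e1, e2]
    rcases cc_step (α := α) (β := β) K R S i with h1 | h1 | h1 | h1
    · rw [h1]; simp
    · rw [h1]; simp
    · rw [h1]; simp
    · omega
  · -- free
    intro i hi v hv
    obtain ⟨c1, c2, c3, -⟩ := hspec i hi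
    have h3 := abs_add_le (cc α β K R S i).1 (cc α β K R S i).2
    refine hinn v (mem_big hv (by omega) (by omega) (by omega)) ?_
    have h4 := form_ball ha0 ha1' hb0' hb1 hv
    rw [abs_le] at h4
    have h5 := mul_le_mul_of_nonneg_left c1 (by linarith : (0 : ℝ) ≤ m)
    nlinarith [h4.2]
  · -- inA
    intro i hi v hv
    obtain ⟨c1, c2, c3, c4⟩ := hspec i hi
    have h3 := abs_add_le (cc α β K R S i).1 (cc α β K R S i).2
    refine ⟨mem_big hv (by omega) (by omega) (by omega), not_mem_small hm hv ?_⟩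
    rcases c4 with c4 | c4
    · left; omega
    · right; omega
  · -- q0
    rw [eZ]; omega
  · -- q1
    rw [mem_ball, mem_ball]
    push_cast
    have e : o.2 + (ZZ K R S : ℤ) * m - o.2 = ZZ K R S * m := by ring
    simp only [sub_self, zero_add, abs_zero, e]
    rw [abs_of_nonneg (by positivity : (0 : ℤ) ≤ ZZ K R S * m)]
    refine ⟨⟨by omega, by omega, by omega⟩, fun h => ?_⟩
    have := h.2.1
    omega
  · -- q2
    rw [mem_ball, mem_ball]
    push_cast
    simp only [abs_le]
    refine ⟨⟨by omega, by omega, by omega⟩, fun h => ?_⟩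
    have := h.2.1
    omega
  · -- pl
    intro v hvN hv
    have p1 := path_mono (T := {w | w ∈ N ∧ w ∈ ball o (M2 K R S * m) ∧ w ∉ ball o (M1 K * m) ∧
      (w.1 < o.1 ∨ w = (o.1, o.2 + ZZ K R S * m))}) (fun w hw =>
        ⟨hw.1, (hbS false w hw.2).1, (hbS false w hw.2).2, Or.inl (by
          have := hleft w hw.2
          push_cast at this
          omega)⟩) (hl false v hvN hv)
    refine p1.trans ?_
    -- up
    obtain ⟨k1, hk1⟩ : ∃ k1 : ℕ, (k1 : ℤ) = ZZ K R S * m - m * Yf :=
      ⟨(ZZ K R S * m - m * Yf : ℤ).toNat, by rw [Int.toNat_of_nonneg]; omega⟩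
    obtain ⟨k2, hk2⟩ : ∃ k2 : ℕ, (k2 : ℤ) = X * m := ⟨X * m, by push_cast; ring⟩
    have e1 : pt o m (cb α β X false) = (o.1 - X * m, o.2 + m * Yf) := by
      rw [hc1]
      unfold pt
      ext
      · simp only; ring
      · rfl
    have p2 := path_vert (S := {w | w ∈ N ∧ w ∈ ball o (M2 K R S * m) ∧ w ∉ ball o (M1 K * m) ∧
      (w.1 < o.1 ∨ w = (o.1, o.2 + ZZ K R S * m))}) (x := o.1 - X * m) (y := o.2 + m * Yf) k1 (by
        intro t ht
        have ht' : (t : ℤ) ≤ k1 := by exact_mod_cast ht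
        have hb : ((o.1 - X * m, o.2 + m * Yf + t) : P2) ∈ ball o (M2 K R S * m) := by
          rw [mem_ball]
          push_cast
          simp only [abs_le]
          omega
        refine ⟨hslit false _ ?_ ?_ (ball_mono _ hM2CC hb), hb, ?_, Or.inl ?_⟩
        · rw [e1]
        · rw [e1]; simp only; omega
        · rw [mem_ball]
          push_cast
          simp only [abs_le]
          omega
        · simp only; omega)
    have p3 := path_left (S := {w | w ∈ N ∧ w ∈ ball o (M2 K R S * m) ∧ w ∉ ball o (M1 K * m) ∧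
      (w.1 < o.1 ∨ w = (o.1, o.2 + ZZ K R S * m))}) (x := o.1 - X * m) (y := o.2 + ZZ K R S * m) k2 (by
        intro t ht
        have ht' : (t : ℤ) ≤ k2 := by exact_mod_cast ht
        have hb : ((o.1 - X * m + t, o.2 + ZZ K R S * m) : P2) ∈ ball o (M2 K R S * m) := by
          rw [mem_ball]
          push_cast
          simp only [abs_le]
          omega
        refine ⟨inN _ (ball_mono _ hM2CC hb) ?_, hb, ?_, ?_⟩
        · push_cast
          have g1 : ((ZZ K R S : ℕ) : ℝ) = 2 * X + 4 := by rw [hZn]; push_cast; ring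
          rw [g1]
          have g2 : (0 : ℝ) ≤ t := Nat.cast_nonneg _
          have g3 : (0 : ℝ) ≤ (X : ℝ) * m := by positivity
          have g4 : α * (X * m : ℝ) ≤ 19 / 20 * (X * m) := mul_le_mul_of_nonneg_right ha1 g3
          have g5 : 4 / 5 * ((2 * X + 4) * m : ℝ) ≤ β * ((2 * X + 4) * m) :=
            mul_le_mul_of_nonneg_right hb0 (by positivity)
          have g6 : 0 ≤ α * t := mul_nonneg ha0 g2
          nlinarith
        · rw [mem_ball]
          push_cast
          simp only [abs_le]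
          omega
        · rcases lt_or_eq_of_le ht' with h1 | h1
          · left; simp only; omega
          · right
            ext
            · simp only; omega
            · rfl)
    rw [e1]
    have e2 : o.2 + m * Yf + (k1 : ℤ) = o.2 + ZZ K R S * m := by omega
    have e3 : o.1 - X * m + (k2 : ℤ) = o.1 := by omega
    rw [e2] at p2
    rw [e3] at p3
    exact p2.trans p3
  · -- pr
    intro v hvN hv
    have p1 := path_mono (T := {w | w ∈ N ∧ w ∈ ball o (M2 K R S * m) ∧ w ∉ ball o (M1 K * m) ∧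
      (o.1 + 1 < w.1 ∨ w = (o.1 + 1, o.2 + ZZ K R S * m - 1))}) (fun w hw =>
        ⟨hw.1, (hbS true w hw.2).1, (hbS true w hw.2).2, Or.inl (by
          have := hright w hw.2
          push_cast at this
          omega)⟩) (hl true v hvN hv)
    refine p1.trans ?_
    obtain ⟨k1, hk1⟩ : ∃ k1 : ℕ, (k1 : ℤ) = ZZ K R S * m - 1 - m * Yt :=
      ⟨(ZZ K R S * m - 1 - m * Yt : ℤ).toNat, by rw [Int.toNat_of_nonneg]; omega⟩
    obtain ⟨k2, hk2⟩ : ∃ k2 : ℕ, (k2 : ℤ) = X * m - 1 :=
      ⟨(X * m - 1 : ℤ).toNat, by rw [Int.toNat_of_nonneg]; omega⟩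
    have e1 : pt o m (cb α β X true) = (o.1 + X * m, o.2 + m * Yt) := by
      rw [hc2]
      unfold pt
      ext
      · simp only; ring
      · rfl
    have p2 := path_vert (S := {w | w ∈ N ∧ w ∈ ball o (M2 K R S * m) ∧ w ∉ ball o (M1 K * m) ∧
      (o.1 + 1 < w.1 ∨ w = (o.1 + 1, o.2 + ZZ K R S * m - 1))}) (x := o.1 + X * m)
      (y := o.2 + m * Yt) k1 (by
        intro t ht
        have ht' : (t : ℤ) ≤ k1 := by exact_mod_cast ht
        have hb : ((o.1 + X * m, o.2 + m * Yt + t) : P2) ∈ ball o (M2 K R S * m) := by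
          rw [mem_ball]
          push_cast
          simp only [abs_le]
          omega
        refine ⟨hslit true _ ?_ ?_ (ball_mono _ hM2CC hb), hb, ?_, Or.inl ?_⟩
        · rw [e1]
        · rw [e1]; simp only; omega
        · rw [mem_ball]
          push_cast
          simp only [abs_le]
          omega
        · simp only; omega)
    have p3 := path_left (S := {w | w ∈ N ∧ w ∈ ball o (M2 K R S * m) ∧ w ∉ ball o (M1 K * m) ∧
      (o.1 + 1 < w.1 ∨ w = (o.1 + 1, o.2 + ZZ K R S * m - 1))}) (x := o.1 + 1)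
      (y := o.2 + ZZ K R S * m - 1) k2 (by
        intro t ht
        have ht' : (t : ℤ) ≤ k2 := by exact_mod_cast ht
        have hb : ((o.1 + 1 + t, o.2 + ZZ K R S * m - 1) : P2) ∈ ball o (M2 K R S * m) := by
          rw [mem_ball]
          push_cast
          simp only [abs_le]
          omega
        refine ⟨inN _ (ball_mono _ hM2CC hb) ?_, hb, ?_, ?_⟩
        · push_cast
          have g1 : ((ZZ K R S : ℕ) : ℝ) = 2 * X + 4 := by rw [hZn]; push_cast; ring
          rw [g1]
          have g2 : (0 : ℝ) ≤ t := Nat.cast_nonneg _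
          have g5 : 4 / 5 * ((2 * X + 4) * m - 1 : ℝ) ≤ β * ((2 * X + 4) * m - 1) :=
            mul_le_mul_of_nonneg_right hb0 (by nlinarith)
          have g6 : 0 ≤ α * (1 + t) := mul_nonneg ha0 (by linarith)
          nlinarith
        · rw [mem_ball]
          push_cast
          simp only [abs_le]
          omega
        · rcases Nat.eq_zero_or_pos t with h1 | h1
          · right; rw [h1]; ext
            · simp
            · rfl
          · left; simp only; omega)
    rw [e1]
    have e2 : o.2 + m * Yt + (k1 : ℤ) = o.2 + ZZ K R S * m - 1 := by omega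
    have e3 : o.1 + 1 + (k2 : ℤ) = o.1 + X * m := by omega
    rw [e2] at p2
    rw [e3] at p3
    exact p2.trans (path_symm p3)

end Crest.Agent.R144.Fr353
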