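import Crest.Agent.R144.Ga2a_617

/-!
# R144, block GAUSS, leaf GA2 (helper617), part b

* `Inv P g` : the neutral functionals have the same integral after transport by `g`; translations,
  `sw`, `th`, `rot`, all `rfl6 n m`;
* `rp6` : reflection positivity of the plane state across all the lines `{dot n v = m}`, `n ∈ Dir6`,
  for the (possibly unbounded) functionals `Fn S α F`;
* `sys6` : the reflection positive system (`RPSys`, helper695);
* `RPHyp6 P`, `rpHyp6 : PlaneState P → RPHyp6 P` : polynomial bound and Cauchy–Schwarz in the six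
  directions.
-/

set_option autoImplicit false

noncomputable section

namespace Crest.Agent.R144.Ga2617

open MeasureTheory Filter
open scoped ComplexConjugate
open Crest.ProbabilityR.HexHeights (Adj)
open Crest.Agent.R144.Ps643 (P2 Ht Loc FinLoc Neut Chg act tr Obs PlaneState)
open Crest.Agent.R144.Tp952 (th sw)
open Crest.Agent.R161.RPsys695 Crest.Agent.R161.Ray369

variable {P : Measure Ht}

theorem Fn.ae_bdd (hP : PlaneState P) {S : Set P2} {α : ℝ} {F : Ht → ℂ} (hF : Fn S α F) :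
    ∃ M : ℝ, ∀ᵐ h ∂P, ‖F h‖ ≤ M := by
  obtain ⟨M, hM⟩ := hF.bdd
  exact ⟨M, hP.lip.mono fun h hh => hM h hh⟩

theorem Fn.integrable (hP : PlaneState P) {S : Set P2} {α : ℝ} {F : Ht → ℂ} (hF : Fn S α F) :
    Integrable F P := by
  have := hP.prob
  obtain ⟨M, hM⟩ := hF.ae_bdd hP
  exact Integrable.of_bound hF.meas.aestronglyMeasurable M hM

theorem Fn.integrable_sq (hP : PlaneState P) {S : Set P2} {α : ℝ} {F : Ht → ℂ} (hF : Fn S α F) :
    Integrable (fun h => ‖F h‖ ^ 2) P := by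
  have := hP.prob
  obtain ⟨M, hM⟩ := hF.ae_bdd hP
  refine Integrable.of_bound (hF.meas.norm.pow_const 2).aestronglyMeasurable (M ^ 2) ?_
  filter_upwards [hM] with h hh
  rw [Real.norm_eq_abs, abs_of_nonneg (by positivity)]
  exact pow_le_pow_left₀ (norm_nonneg _) hh 2

/-- integrals of complex neutral functionals are preserved by `T` as soon as those of the bounded
real ones are -/
theorem integral_inv (hP : PlaneState P) {T : Ht → Ht}
    (hT : ∀ F : Ht → ℝ, Obs F → ∫ h, F (T h) ∂P = ∫ h, F h ∂P) (hTm : Measurable T)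
    (hL : ∀ h, Lp h → Lp (T h))
    {S : Finset P2} {F : Ht → ℂ} (hF : Fn (S : Set P2) 0 F) :
    ∫ h, F (T h) ∂P = ∫ h, F h ∂P := by
  have := hP.prob
  obtain ⟨F', M, hm, hl, hc, hb, he⟩ := hF.exists_trunc
  have hneut : ∀ h c, F' (fun v => h v + c) = F' h := fun h c => chg_neut hc h c
  have e1 : ∫ h, F (T h) ∂P = ∫ h, F' (T h) ∂P := by
    refine integral_congr_ae ?_
    filter_upwards [hP.lip] with h hh
    exact (he _ (hL h hh)).symm
  have e2 : ∫ h, F h ∂P = ∫ h, F' h ∂P := by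
    refine integral_congr_ae ?_
    filter_upwards [hP.lip] with h hh
    exact (he _ hh).symm
  rw [e1, e2]
  have i1 : Integrable (fun h => F' (T h)) P :=
    Integrable.of_bound (hm.comp hTm).aestronglyMeasurable M (Eventually.of_forall fun h => hb _)
  have i2 : Integrable F' P :=
    Integrable.of_bound hm.aestronglyMeasurable M (Eventually.of_forall fun h => hb _)
  have o1 : Obs (fun h => (F' h).re) :=
    { meas := Complex.measurable_re.comp hm
      bdd := ⟨M, fun h => (Complex.abs_re_le_norm _).trans (hb h)⟩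
      loc := ⟨S, fun h g hg => congrArg Complex.re (hl h g hg)⟩
      neut := fun h c => congrArg Complex.re (hneut h c) }
  have o2 : Obs (fun h => (F' h).im) :=
    { meas := Complex.measurable_im.comp hm
      bdd := ⟨M, fun h => (Complex.abs_im_le_norm _).trans (hb h)⟩
      loc := ⟨S, fun h g hg => congrArg Complex.im (hl h g hg)⟩
      neut := fun h c => congrArg Complex.im (hneut h c) }
  have r1 := hT _ o1
  have r2 := hT _ o2
  refine Complex.ext ?_ ?_
  · have a1 := Complex.reCLM.integral_comp_comm i1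
    have a2 := Complex.reCLM.integral_comp_comm i2
    simp only [Complex.reCLM_apply] at a1 a2
    rw [← a1, ← a2]
    exact r1
  · have a1 := Complex.imCLM.integral_comp_comm i1
    have a2 := Complex.imCLM.integral_comp_comm i2
    simp only [Complex.imCLM_apply] at a1 a2
    rw [← a1, ← a2]
    exact r2

/-- the site map `g` preserves adjacency and the integrals of the neutral functionals -/
structure Inv (P : Measure Ht) (g : P2 → P2) : Prop where
  adj : AdjMap g
  inv : ∀ (S : Finset P2) (F : Ht → ℂ), Fn (S : Set P2) 0 F → ∫ h, F (act g h) ∂P = ∫ h, F h ∂P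

theorem Fn.act_fin {S : Finset P2} {α : ℝ} {F : Ht → ℂ} (hF : Fn (S : Set P2) α F)
    {g : P2 → P2} (hg : AdjMap g) : Fn ((S.image g : Finset P2) : Set P2) α
      (fun h => F (Ps643.act g h)) := by
  rw [Finset.coe_image]
  exact hF.act hg

theorem Inv.comp {g k : P2 → P2} (hg : Inv P g) (hk : Inv P k) : Inv P (k ∘ g) := by
  refine ⟨hk.adj.comp hg.adj, fun S F hF => ?_⟩
  have h1 := hk.inv _ _ (hF.act_fin hg.adj)
  rw [← hg.inv S F hF, ← h1]
  rfl

theorem Inv.symm {g k : P2 → P2} (hg : Inv P g) (hk : AdjMap k) (h : ∀ v, g (k v) = v) :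
    Inv P k := by
  refine ⟨hk, fun S F hF => ?_⟩
  have h1 := hg.inv _ _ (hF.act_fin hk)
  rw [← h1]
  refine integral_congr_ae (Eventually.of_forall fun ω => ?_)
  have e : act k (act g ω) = ω := by
    funext v
    exact congrArg ω (h v)
  simp only [e]

theorem Inv.congr {g k : P2 → P2} (hg : Inv P g) (h : ∀ v, g v = k v) : Inv P k := by
  have : g = k := funext h
  rwa [← this]

theorem inv_tr (hP : PlaneState P) (a : P2) : Inv P (· + a) :=
  ⟨adjMap_add a, fun _ _ hF => integral_inv hP (T := act (tr a)) (hP.tr a) (measurable_act _)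
    (fun _ hh => (adjMap_add a).lp hh) hF⟩

theorem inv_sw (hP : PlaneState P) : Inv P sw :=
  ⟨sw_adj, fun _ _ hF => integral_inv hP hP.swap (measurable_act _) (fun _ hh => sw_adj.lp hh) hF⟩

theorem inv_th (hP : PlaneState P) : Inv P th :=
  ⟨th_adj, fun _ _ hF => integral_inv hP hP.theta (measurable_act _) (fun _ hh => th_adj.lp hh) hF⟩

theorem inv_rot (hP : PlaneState P) : Inv P rot := (inv_th hP).comp (inv_sw hP)

theorem inv_rotI (hP : PlaneState P) : Inv P rotI := (inv_rot hP).symm rotI_adj rot_rotI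

theorem rfl6_rot' (n : P2) (m : ℤ) (v : P2) :
    rfl6 (rotn n) m v = rot (rfl6 n m (rotI v)) := by
  rw [← rfl6_rot, rot_rotI]

theorem rfl6_add' (n : P2) (m : ℤ) (b v : P2) :
    rfl6 n (m + dot n b) v = rfl6 n m (v + -b) + b := by
  rw [← rfl6_add]
  simp

theorem inv_rfl6 (hP : PlaneState P) {n : P2} (hn : n ∈ Dir6) (m : ℤ) : Inv P (rfl6 n m) := by
  have key : Inv P (rfl6 n 0) := by
    refine dir6_induction (p := fun n => Inv P (rfl6 n 0)) ?_ ?_ hn
    · have := inv_th hP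
      rwa [th_eq] at this
    · intro n hn h
      exact (((inv_rotI hP).comp h).comp (inv_rot hP)).congr fun v => (rfl6_rot' n 0 v).symm
  obtain ⟨b, hb⟩ := exists_dot hn m
  refine (((inv_tr hP (-b)).comp key).comp (inv_tr hP b)).congr fun v => ?_
  have := rfl6_add' n 0 b v
  rw [hb, zero_add] at this
  exact this.symm

/-! ### reflection positivity in the six directions -/

/-- reflection positivity across the line `{dot n v = m}` -/
def RPd (P : Measure Ht) (n : P2) (m : ℤ) : Prop :=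
  ∀ (S : Finset P2) (α : ℝ) (F : Ht → ℂ), (∀ v ∈ S, m ≤ dot n v) → Fn (S : Set P2) α F →
    0 ≤ (∫ h, conj (F (act (rfl6 n m) h)) * F h ∂P).re

theorem pair_fn {S T : Finset P2} {α : ℝ} {F G : Ht → ℂ} (hF : Fn (S : Set P2) α F)
    (hG : Fn (T : Set P2) α G) : Fn ((S ∪ T : Finset P2) : Set P2) 0
      (fun h => conj (F h) * G h) := by
  have := hF.cj.mul hG
  rw [neg_add_cancel] at this
  rw [Finset.coe_union]
  exact this

theorem rpd_base (hP : PlaneState P) : RPd P (0, 1) 0 := by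
  intro S α F hS hF
  obtain ⟨F', M, hm, hl, hc, hb, he⟩ := hF.exists_trunc
  have h1 := hP.rp α F' hm ⟨M, hb⟩ hc ⟨S, fun v hv => by
    have := hS v hv
    simpa [dot] using this, hl⟩
  have e : ∫ h, conj (F (act (rfl6 (0, 1) 0) h)) * F h ∂P =
      ∫ h, conj (F' (act th h)) * F' h ∂P := by
    refine integral_congr_ae ?_
    filter_upwards [hP.lip] with h hh
    rw [he _ hh, he _ (th_adj.lp hh), th_eq]
  rw [e]
  exact h1

theorem rpd_shift (hP : PlaneState P) {n : P2} (hn : n ∈ Dir6) {m : ℤ} (h0 : RPd P n m) (b : P2) :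
    RPd P n (m + dot n b) := by
  intro S α F hS hF
  have hF1 := hF.act_fin (adjMap_add (-b))
  have h1 := h0 _ α _ (fun v hv => by
    rw [Finset.mem_image] at hv
    obtain ⟨w, hw, rfl⟩ := hv
    have := hS w hw
    have e : dot n (w + -b) = dot n w - dot n b := by simp [dot]; ring
    rw [e]
    linarith) hF1
  have hG := pair_fn (hF.act_fin (rfl6_adj hn (m + dot n b))) hF
  have h2 := (inv_tr hP (-b)).inv _ _ hG
  rw [← h2]
  refine h1.trans (le_of_eq ?_)
  congr 1
  refine integral_congr_ae (Eventually.of_forall fun ω => ?_)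
  simp only
  have e : act (rfl6 n (m + dot n b)) (act (· + -b) ω) = act (· + -b) (act (rfl6 n m) ω) := by
    funext v
    refine congrArg ω ?_
    rw [rfl6_add']
    simp
  rw [e]

theorem rpd_rot (hP : PlaneState P) {n : P2} (hn : n ∈ Dir6) {m : ℤ} (h0 : RPd P n m) :
    RPd P (rotn n) m := by
  intro S α F hS hF
  have hF1 := hF.act_fin rotI_adj
  have h1 := h0 _ α _ (fun v hv => by
    rw [Finset.mem_image] at hv
    obtain ⟨w, hw, rfl⟩ := hv
    have := hS w hw
    rw [← dot_rotn, rot_rotI]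
    exact this) hF1
  have hG := pair_fn (hF.act_fin (rfl6_adj (rotn_mem hn) m)) hF
  have h2 := (inv_rotI hP).inv _ _ hG
  rw [← h2]
  refine h1.trans (le_of_eq ?_)
  congr 1
  refine integral_congr_ae (Eventually.of_forall fun ω => ?_)
  simp only
  have e : act (rfl6 (rotn n) m) (act rotI ω) = act rotI (act (rfl6 n m) ω) := by
    funext v
    refine congrArg ω ?_
    rw [rfl6_rot', rotI_rot]
  rw [e]

/-- **Reflection positivity across all lines.** -/
theorem rp6 (hP : PlaneState P) {n : P2} (hn : n ∈ Dir6) (m : ℤ) : RPd P n m := by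
  have key : RPd P n 0 := by
    have : n ∈ Dir6 ∧ RPd P n 0 := by
      refine dir6_induction (p := fun n => n ∈ Dir6 ∧ RPd P n 0) ⟨by simp [Dir6], rpd_base hP⟩ ?_ hn
      intro n hn h
      exact ⟨rotn_mem hn, rpd_rot hP hn h.2⟩
    exact this.2
  obtain ⟨b, hb⟩ := exists_dot hn m
  have := rpd_shift hP hn key b
  rwa [hb, zero_add] at this

/-! ### the reflection positive system -/

/-- neutral local functionals -/
def NN : Submodule ℂ (Ht → ℂ) where
  carrier := {F | ∃ S : Finset P2, Fn (S : Set P2) 0 F}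
  add_mem' := by
    rintro F G ⟨S, hS⟩ ⟨T, hT⟩
    exact ⟨S ∪ T, by rw [Finset.coe_union]; exact hS.add hT⟩
  zero_mem' := ⟨∅, Fn.zero _ _⟩
  smul_mem' := by
    rintro r F ⟨S, hS⟩
    exact ⟨S, hS.smul r⟩

/-- local functionals of charge `α` of the closed half plane `{m ≤ dot n v}` -/
def VV (n : P2) (m : ℤ) (α : ℝ) : Submodule ℂ (Ht → ℂ) where
  carrier := {F | ∃ S : Finset P2, (∀ v ∈ S, m ≤ dot n v) ∧ Fn (S : Set P2) α F}
  add_mem' := by
    rintro F G ⟨S, hS, hF⟩ ⟨T, hT, hG⟩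
    refine ⟨S ∪ T, fun v hv => ?_, by rw [Finset.coe_union]; exact hF.add hG⟩
    rcases Finset.mem_union.1 hv with h | h
    · exact hS v h
    · exact hT v h
  zero_mem' := ⟨∅, by simp, Fn.zero _ _⟩
  smul_mem' := by
    rintro r F ⟨S, hS, hF⟩
    exact ⟨S, hS, hF.smul r⟩

theorem integral_inv_real {g : P2 → P2} (hg : Inv P g) {S : Finset P2} {α : ℝ} {F : Ht → ℂ}
    (hF : Fn (S : Set P2) α F) : ∫ h, ‖F (act g h)‖ ^ 2 ∂P = ∫ h, ‖F h‖ ^ 2 ∂P := by
  have h1 := hg.inv _ _ (hF.norm_pow 2)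
  have e1 : ∫ h, ((‖F (act g h)‖ ^ 2 : ℝ) : ℂ) ∂P = ((∫ h, ‖F (act g h)‖ ^ 2 ∂P : ℝ) : ℂ) :=
    integral_ofReal
  have e2 : ∫ h, ((‖F h‖ ^ 2 : ℝ) : ℂ) ∂P = ((∫ h, ‖F h‖ ^ 2 ∂P : ℝ) : ℂ) := integral_ofReal
  rw [e1, e2] at h1
  exact Complex.ofReal_injective h1

theorem norm_integral_le (hP : PlaneState P) {S T : Set P2} {α β : ℝ} {A B : Ht → ℂ}
    (hA : Fn S α A) (hB : Fn T β B) :
    ‖∫ ω, conj (A ω) * B ω ∂P‖ ≤ ((∫ ω, ‖A ω‖ ^ 2 ∂P) + ∫ ω, ‖B ω‖ ^ 2 ∂P) / 2 := by
  have hA2 := hA.integrable_sq hP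
  have hB2 := hB.integrable_sq hP
  have hAB : Integrable (fun ω => conj (A ω) * B ω) P := (hA.cj.mul hB).integrable hP
  calc ‖∫ ω, conj (A ω) * B ω ∂P‖ ≤ ∫ ω, ‖conj (A ω) * B ω‖ ∂P := norm_integral_le_integral_norm _
    _ ≤ ∫ ω, (‖A ω‖ ^ 2 + ‖B ω‖ ^ 2) / 2 ∂P := by
        refine integral_mono hAB.norm ((hA2.add hB2).div_const 2) fun ω => ?_
        simp only [norm_mul, RCLike.norm_conj]
        nlinarith [sq_nonneg (‖A ω‖ - ‖B ω‖)]
    _ = ((∫ ω, ‖A ω‖ ^ 2 ∂P) + ∫ ω, ‖B ω‖ ^ 2 ∂P) / 2 := by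
        rw [integral_div, integral_add hA2 hB2]

theorem sys_mem_V {n : P2} (hn : n ∈ Dir6) {m : ℤ} {α : ℝ} {F : Ht → ℂ} (hF : F ∈ VV n m α)
    {k : ℤ} (hk : 0 ≤ k) : (fun ω => F (trans (k • stp n) ω)) ∈ VV n (m + 2 * k) α := by
  obtain ⟨S, hS, hF⟩ := hF
  refine ⟨S.image (· + k • stp n), fun v hv => ?_, hF.act_fin (adjMap_add _)⟩
  rw [Finset.mem_image] at hv
  obtain ⟨w, hw, rfl⟩ := hv
  have := hS w hw
  rw [dot_add, dot_smul, dot_stp hn]
  linarith

theorem VV_mono {n : P2} {m m' : ℤ} (h : m' ≤ m) {α : ℝ} {F : Ht → ℂ} (hF : F ∈ VV n m α) :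
    F ∈ VV n m' α := by
  obtain ⟨S, hS, hF⟩ := hF
  exact ⟨S, fun v hv => h.trans (hS v hv), hF⟩

theorem act_rfl6_rfl6 {n : P2} (hn : n ∈ Dir6) (m : ℤ) (ω : Ht) :
    act (rfl6 n m) (act (rfl6 n m) ω) = ω := by
  funext v
  exact congrArg ω (rfl6_rfl6 hn m v)

/-- **The reflection positive system of the plane state** (direction `n`, line `{dot n v = m}`,
charge `α`). -/
def sys6 (hP : PlaneState P) {n : P2} (hn : n ∈ Dir6) (m : ℤ) (α : ℝ) : RPSys Ht where
  E F := ∫ ω, F ω ∂P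
  N := NN
  V := VV n m α
  θ := act (rfl6 n m)
  τ := trans (stp n)
  θθ := act_rfl6_rfl6 hn m
  τθτ ω := by
    funext v
    exact congrArg ω (rfl6_add_stp hn m v)
  mem_N := by
    rintro F ⟨S, _, hF⟩ G ⟨T, _, hG⟩
    exact ⟨_, pair_fn (hF.act_fin (rfl6_adj hn m)) hG⟩
  mem_V F hF := by
    have := sys_mem_V hn hF (k := 1) (by norm_num)
    rw [one_smul] at this
    exact VV_mono (by linarith) this
  E_add := by
    rintro F ⟨S, hF⟩ G ⟨T, hG⟩
    exact integral_add (hF.integrable hP) (hG.integrable hP)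
  E_smul r F _ := by
    simp only [Pi.smul_apply, smul_eq_mul]
    exact integral_const_mul r F
  E_conj F _ G _ := integral_conj
  E_θ := by
    rintro F ⟨S, _, hF⟩ G ⟨T, _, hG⟩
    have h1 := (inv_rfl6 hP hn m).inv _ _ (pair_fn hF (hG.act_fin (rfl6_adj hn m)))
    rw [← h1]
    refine integral_congr_ae (Eventually.of_forall fun ω => ?_)
    simp only [act_rfl6_rfl6 hn]
  E_τ := by
    rintro F ⟨S, hF⟩
    exact (inv_tr hP (stp n)).inv _ _ hF
  rp0 := by
    rintro F ⟨S, hS, hF⟩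
    exact rp6 hP hn m S α F hS hF
  rp1 F hF := by
    have h0 := sys_mem_V hn hF (k := 1) (by norm_num)
    rw [one_smul] at h0
    obtain ⟨S, hS, hF1⟩ := h0
    have h1 := rp6 hP hn (m + 1) S α _ (fun v hv => by have := hS v hv; linarith) hF1
    refine h1.trans (le_of_eq ?_)
    congr 1
    refine integral_congr_ae (Eventually.of_forall fun ω => ?_)
    simp only
    have e : trans (stp n) (act (rfl6 n (m + 1)) ω) = act (rfl6 n m) ω := by
      funext v
      exact congrArg ω (rfl6_succ_add_stp hn m v)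
    rw [e]
  bdd := by
    rintro F ⟨S, _, hF⟩
    refine ⟨∫ ω, ‖F ω‖ ^ 2 ∂P, fun k => ?_⟩
    simp only [trans_iterate]
    have hB := hF.act_fin (adjMap_add (k • stp n))
    have hA := hB.act_fin (rfl6_adj hn m)
    have h1 := norm_integral_le hP hA hB
    have h2 : ∫ ω, ‖F (act (· + k • stp n) ω)‖ ^ 2 ∂P = ∫ ω, ‖F ω‖ ^ 2 ∂P :=
      integral_inv_real (inv_tr hP (k • stp n)) hF
    have h3 : ∫ ω, ‖F (act (· + k • stp n) (act (rfl6 n m) ω))‖ ^ 2 ∂P = ∫ ω, ‖F ω‖ ^ 2 ∂P :=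
      (integral_inv_real (inv_rfl6 hP hn m) hB).trans h2
    rw [h2, h3] at h1
    exact (Complex.re_le_norm _).trans (h1.trans (le_of_eq (by ring)))

theorem B_le (hP : PlaneState P) {g : P2 → P2} (hg : Inv P g) {S : Finset P2} {α : ℝ} {F : Ht → ℂ}
    (hF : Fn (S : Set P2) α F) :
    (∫ ω, conj (F (act g ω)) * F ω ∂P).re ≤ ∫ ω, ‖F ω‖ ^ 2 ∂P := by
  have h1 := norm_integral_le hP (hF.act_fin hg.adj) hF
  rw [integral_inv_real hg hF] at h1
  exact (Complex.re_le_norm _).trans (h1.trans (le_of_eq (by ring)))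

/-- a functional of the left half plane, reflected -/
theorem left_mem {n : P2} (hn : n ∈ Dir6) {m : ℤ} {S : Finset P2} {A : Ht → ℂ} {α : ℝ}
    (hA : Fn (S : Set P2) (-α) A) (hS : ∀ v ∈ S, dot n v ≤ m) :
    (fun ω => conj (A (act (rfl6 n m) ω))) ∈ VV n m α := by
  refine ⟨S.image (rfl6 n m), fun v hv => ?_, ?_⟩
  · rw [Finset.mem_image] at hv
    obtain ⟨w, hw, rfl⟩ := hv
    have := hS w hw
    rw [dot_rfl6 hn]
    linarith
  · have := (hA.act_fin (rfl6_adj hn m)).cj
    rwa [neg_neg] at this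

theorem B_left_le (hP : PlaneState P) {n : P2} (hn : n ∈ Dir6) (m : ℤ) {S : Finset P2}
    {A : Ht → ℂ} {α : ℝ} (hA : Fn (S : Set P2) (-α) A) :
    (∫ ω, conj ((fun ω => conj (A (act (rfl6 n m) ω))) (act (rfl6 n m) ω)) *
      (fun ω => conj (A (act (rfl6 n m) ω))) ω ∂P).re ≤ ∫ ω, ‖A ω‖ ^ 2 ∂P := by
  have h1 := B_le hP (inv_rfl6 hP hn m) (hA.act_fin (rfl6_adj hn m)).cj
  refine h1.trans (le_of_eq ?_)
  simp only [RCLike.norm_conj]
  exact integral_inv_real (inv_rfl6 hP hn m) hA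

/-- Output of the plane state used in the peeling. -/
structure RPHyp6 (P : Measure Ht) : Prop where
  /-- polynomial bound in the six directions -/
  pb : ∀ n ∈ Dir6, ∀ (m : ℤ) (S T : Finset P2) (A B : Ht → ℂ) (α : ℝ),
    Fn (S : Set P2) (-α) A → Fn (T : Set P2) α B → (∀ v ∈ S, dot n v ≤ m) →
    (∀ v ∈ T, m ≤ dot n v) →
    PolyBound (fun k : ℕ => ∫ h, A h * B (trans ((k : ℤ) • stp n) h) ∂P)
      (√(∫ h, ‖A h‖ ^ 2 ∂P) * √(∫ h, ‖B h‖ ^ 2 ∂P))
  /-- Cauchy–Schwarz inequality across the line `{dot n v = m}` -/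
  cs : ∀ n ∈ Dir6, ∀ (m : ℤ) (S T : Finset P2) (A B : Ht → ℂ) (α : ℝ),
    Fn (S : Set P2) (-α) A → Fn (T : Set P2) α B → (∀ v ∈ S, dot n v ≤ m) →
    (∀ v ∈ T, m ≤ dot n v) →
    ‖∫ h, A h * B h ∂P‖ ≤
      √(∫ h, ‖A h‖ ^ 2 ∂P) * √(∫ h, conj (B (act (rfl6 n m) h)) * B h ∂P).re

/-- **`RPHyp6` for the plane state.** -/
theorem rpHyp6 (hP : PlaneState P) : RPHyp6 P where
  pb := by
    intro n hn m S T A B α hA hB hS hT
    have hAm := left_mem hn hA hS
    have hBm : B ∈ VV n m α := ⟨T, hT, hB⟩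
    have key := (sys6 hP hn m α).polyBound hAm hBm
    have e1 : (fun k : ℕ => (sys6 hP hn m α).E (fun ω =>
        conj ((fun ω => conj (A (act (rfl6 n m) ω))) ((sys6 hP hn m α).θ ω)) *
          B ((sys6 hP hn m α).τ^[k] ω))) =
        fun k : ℕ => ∫ ω, A ω * B (trans ((k : ℤ) • stp n) ω) ∂P := by
      funext k
      change ∫ ω, conj (conj (A (act (rfl6 n m) (act (rfl6 n m) ω)))) *
        B ((trans (stp n))^[k] ω) ∂P = _
      refine integral_congr_ae (Eventually.of_forall fun ω => ?_)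
      simp only [act_rfl6_rfl6 hn, Complex.conj_conj, trans_iterate, natCast_zsmul]
    rw [e1] at key
    refine key.mono ?_
    exact mul_le_mul (Real.sqrt_le_sqrt (B_left_le hP hn m hA))
      (Real.sqrt_le_sqrt (B_le hP (inv_rfl6 hP hn m) hB)) (Real.sqrt_nonneg _) (Real.sqrt_nonneg _)
  cs := by
    intro n hn m S T A B α hA hB hS hT
    have hAm := left_mem hn hA hS
    have hBm : B ∈ VV n m α := ⟨T, hT, hB⟩
    have key := (sys6 hP hn m α).cauchy_schwarz hAm hBm
    change ‖∫ ω, conj ((fun ω => conj (A (act (rfl6 n m) ω))) (act (rfl6 n m) ω)) * B ω ∂P‖ ≤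
      √(∫ ω, conj ((fun ω => conj (A (act (rfl6 n m) ω))) (act (rfl6 n m) ω)) *
        (fun ω => conj (A (act (rfl6 n m) ω))) ω ∂P).re *
      √(∫ ω, conj (B (act (rfl6 n m) ω)) * B ω ∂P).re at key
    have e1 : ∫ ω, conj ((fun ω => conj (A (act (rfl6 n m) ω))) (act (rfl6 n m) ω)) * B ω ∂P =
        ∫ ω, A ω * B ω ∂P := by
      refine integral_congr_ae (Eventually.of_forall fun ω => ?_)
      simp only [act_rfl6_rfl6 hn, Complex.conj_conj]
    rw [e1] at key
    refine key.trans ?_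
    exact mul_le_mul_of_nonneg_right (Real.sqrt_le_sqrt (B_left_le hP hn m hA))
      (Real.sqrt_nonneg _)

end Crest.Agent.R144.Ga2617
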