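import Crest.Agent.R144.Ga1_867
import Crest.Agent.R144.Ga2b_617

/-!
# R144, GA3 (helper572): peeling for a plane state on the triangular lattice

`PProb6 P` : four groups of charged functionals (bounded by `1` on Lipschitz heights) around an
observable `O n` (bounded in `L²(P)`) which is asymptotically small in the half plane sense (reflection
in the line `x = ℓ n`).  `PProb6.tendsto`: the correlation of the product with `O n` tends to `0`.
`PIn.uniform`: the same uniformly over all admissible groups.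
-/

set_option autoImplicit false

noncomputable section

open Filter Topology MeasureTheory
open scoped ComplexConjugate

namespace Crest.Agent.R144.Ga3572

open Crest.ProbabilityR.HexHeights (Adj)
open Crest.Agent.R161.Ray369
open Crest.Agent.R144.Ps643 (P2 Ht Loc FinLoc Neut Chg act tr Obs PlaneState lin)
open Crest.Agent.R144.Ga2617 (trans Lp Fn rfl6 RPHyp6 rpHyp6 stp trans_trans)
open Crest.Agent.R144.Ga1867 (Fun6 pos4 PeelData6)

/-! ### functionals -/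

theorem fn_prod {ι : Type*} (s : Finset ι) {S : Set P2} {α : ι → ℝ} {F : ι → Ht → ℂ}
    (h : ∀ i ∈ s, Fn S (α i) (F i)) : Fn S (∑ i ∈ s, α i) (fun ω => ∏ i ∈ s, F i ω) :=
  (Fn.prod (S := fun _ => S) s h).mono (by
    intro v hv
    simp only [Set.mem_iUnion] at hv
    obtain ⟨_, _, h⟩ := hv
    exact h)

theorem fn_trans {S : Finset P2} {α : ℝ} {F : Ht → ℂ} (hF : Fn (S : Set P2) α F) (a : P2) :
    Fn ((S.image (· + a) : Finset P2) : Set P2) α (fun h => F (trans a h)) :=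
  (hF.trans a).mono (by rw [Finset.coe_image])

/-! ### geometry -/

/-- support function of the box `[p₁,p₂] × [q₁,q₂]` -/
def boxH (p₁ p₂ q₁ q₂ : ℝ) (e : ℤ × ℤ) : ℝ :=
  max ((e.1 : ℝ) * p₁) (e.1 * p₂) + max ((e.2 : ℝ) * q₁) (e.2 * q₂)

theorem le_boxH {p₁ p₂ q₁ q₂ x y : ℝ} (e : ℤ × ℤ) (h1 : p₁ ≤ x) (h2 : x ≤ p₂) (h3 : q₁ ≤ y)
    (h4 : y ≤ q₂) : (e.1 : ℝ) * x + e.2 * y ≤ boxH p₁ p₂ q₁ q₂ e := by
  have aux : ∀ (c a b t : ℝ), a ≤ t → t ≤ b → c * t ≤ max (c * a) (c * b) := by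
    intro c a b t h1 h2
    rcases le_total 0 c with hc | hc
    · exact (mul_le_mul_of_nonneg_left h2 hc).trans (le_max_right _ _)
    · exact (mul_le_mul_of_nonpos_left h1 hc).trans (le_max_left _ _)
  exact add_le_add (aux _ _ _ _ h1 h2) (aux _ _ _ _ h3 h4)

theorem boxH_le {p₁ p₂ q₁ q₂ L : ℝ} (e : ℤ × ℤ) (h1 : |p₁| ≤ L) (h2 : |p₂| ≤ L) (h3 : |q₁| ≤ L)
    (h4 : |q₂| ≤ L) : boxH p₁ p₂ q₁ q₂ e ≤ L * (|(e.1 : ℝ)| + |(e.2 : ℝ)|) := by
  have aux : ∀ (c t : ℝ), |t| ≤ L → c * t ≤ L * |c| := by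
    intro c t h
    calc c * t ≤ |c * t| := le_abs_self _
      _ = |c| * |t| := abs_mul _ _
      _ ≤ |c| * L := by gcongr
      _ = L * |c| := mul_comm _ _
  unfold boxH
  rw [mul_add]
  exact add_le_add (max_le (aux _ _ h1) (aux _ _ h2)) (max_le (aux _ _ h3) (aux _ _ h4))

/-- Geometry of a peeling problem: the column `x ≤ x₁`, the rows `y₀ ≤ y ≤ y₁`, margin `γ`, all
contained in `[-L, L]²` (index coordinates); `x₀` is the left side of the block containing the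
observable. -/
structure PGeo where
  x₀ : ℝ
  x₁ : ℝ
  y₀ : ℝ
  y₁ : ℝ
  γ : ℝ
  L : ℝ
  γpos : 0 < γ
  hx : x₀ + γ ≤ x₁ - γ
  hy : y₀ + γ ≤ y₁ - γ
  hx₀ : -L ≤ x₀ - γ
  hx₁ : x₁ + γ ≤ L
  hy₀ : -L ≤ y₀ - γ
  hy₁ : y₁ + γ ≤ L

namespace PGeo

variable (G : PGeo)

/-- regions of the groups: `0` right, `1` up, `2` down, `3` left; -/
def reg (i : Fin 4) (x y : ℝ) : Prop :=
  match i with
  | 0 => G.x₁ + G.γ ≤ x ∧ x ≤ G.L ∧ -G.L ≤ y ∧ y ≤ G.L
  | 1 => -G.L ≤ x ∧ x ≤ G.x₁ - G.γ ∧ G.y₁ + G.γ ≤ y ∧ y ≤ G.L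
  | 2 => -G.L ≤ x ∧ x ≤ G.x₁ - G.γ ∧ -G.L ≤ y ∧ y ≤ G.y₀ - G.γ
  | 3 => -G.L ≤ x ∧ x ≤ G.x₀ - G.γ ∧ G.y₀ + G.γ ≤ y ∧ y ≤ G.y₁ - G.γ

/-- region of the observable -/
def regO (x y : ℝ) : Prop :=
  G.x₀ + G.γ ≤ x ∧ x ≤ G.x₁ - G.γ ∧ G.y₀ + G.γ ≤ y ∧ y ≤ G.y₁ - G.γ

/-- support functions of the groups (`3`: static group and observable) -/
def hiR (i : Fin 4) (e : ℤ × ℤ) : ℝ :=
  match i with
  | 0 => boxH (G.x₁ + G.γ) G.L (-G.L) G.L e
  | 1 => boxH (-G.L) (G.x₁ - G.γ) (G.y₁ + G.γ) G.L e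
  | 2 => boxH (-G.L) (G.x₁ - G.γ) (-G.L) (G.y₀ - G.γ) e
  | 3 => boxH (-G.L) (G.x₁ - G.γ) (G.y₀ + G.γ) (G.y₁ - G.γ) e

theorem Lpos : 0 < G.L := by
  have := G.γpos; have := G.hx; have := G.hx₀; have := G.hx₁
  linarith

theorem le_hiR (i : Fin 4) (e : ℤ × ℤ) {x y : ℝ} (h : G.reg i x y) :
    (e.1 : ℝ) * x + e.2 * y ≤ G.hiR i e := by
  have := G.γpos; have := G.hx; have := G.hx₀; have := G.hx₁
  fin_cases i
  · obtain ⟨h1, h2, h3, h4⟩ := h
    exact le_boxH e h1 h2 h3 h4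
  · obtain ⟨h1, h2, h3, h4⟩ := h
    exact le_boxH e h1 h2 h3 h4
  · obtain ⟨h1, h2, h3, h4⟩ := h
    exact le_boxH e h1 h2 h3 h4
  · obtain ⟨h1, h2, h3, h4⟩ := h
    exact le_boxH e h1 (by linarith) h3 h4

theorem le_hiO (e : ℤ × ℤ) {x y : ℝ} (h : G.regO x y) :
    (e.1 : ℝ) * x + e.2 * y ≤ G.hiR 3 e := by
  have := G.γpos; have := G.hx; have := G.hx₀; have := G.hx₁
  obtain ⟨h1, h2, h3, h4⟩ := h
  exact le_boxH e (by linarith) h2 h3 h4

theorem hiR_le (i : Fin 4) (e : ℤ × ℤ) : G.hiR i e ≤ G.L * (|(e.1 : ℝ)| + |(e.2 : ℝ)|) := by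
  have := G.γpos; have := G.hx; have := G.hx₀; have := G.hx₁
  have := G.hy; have := G.hy₀; have := G.hy₁; have := G.Lpos
  fin_cases i
  · exact boxH_le e (abs_le.2 ⟨by linarith, by linarith⟩) (abs_le.2 ⟨by linarith, by linarith⟩)
      (abs_le.2 ⟨by linarith, by linarith⟩) (abs_le.2 ⟨by linarith, by linarith⟩)
  · exact boxH_le e (abs_le.2 ⟨by linarith, by linarith⟩) (abs_le.2 ⟨by linarith, by linarith⟩)
      (abs_le.2 ⟨by linarith, by linarith⟩) (abs_le.2 ⟨by linarith, by linarith⟩)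
  · exact boxH_le e (abs_le.2 ⟨by linarith, by linarith⟩) (abs_le.2 ⟨by linarith, by linarith⟩)
      (abs_le.2 ⟨by linarith, by linarith⟩) (abs_le.2 ⟨by linarith, by linarith⟩)
  · exact boxH_le e (abs_le.2 ⟨by linarith, by linarith⟩) (abs_le.2 ⟨by linarith, by linarith⟩)
      (abs_le.2 ⟨by linarith, by linarith⟩) (abs_le.2 ⟨by linarith, by linarith⟩)

end PGeo

/-- state, mesh, observable: everything except the groups -/
structure PIn (P : Measure Ht) where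
  G : PGeo
  prob : IsProbabilityMeasure P
  lip : ∀ᵐ h ∂P, Lp h
  rp : RPHyp6 P
  δ : ℕ → ℝ
  δpos : ∀ n, 0 < δ n
  δlim : Tendsto δ atTop (𝓝 0)
  /-- the observable -/
  O : ℕ → Ht → ℂ
  M : ℝ
  M0 : 0 ≤ M
  hO : ∀ n, ∫ h, ‖O n h‖ ^ 2 ∂P ≤ M ^ 2
  T : ℕ → Finset P2
  β : ℕ → ℝ
  fnO : ∀ n, Fn (T n : Set P2) (β n) (O n)
  suppO : ∀ n, ∀ v ∈ T n, G.regO (δ n * v.1) (δ n * v.2)
  /-- reflection lines -/
  ℓ : ℕ → ℤ
  hℓ : Tendsto (fun n => δ n * (ℓ n : ℝ)) atTop (𝓝 G.x₀)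
  hℓL : ∀ n, G.x₀ ≤ δ n * (ℓ n : ℝ)
  small : Tendsto (fun n => (∫ h, conj (O n (act (rfl6 (1, 0) (ℓ n)) h)) * O n h ∂P).re)
    atTop (𝓝 0)

/-- Data of a peeling problem for the state `P`. -/
structure PProb6 (P : Measure Ht) extends PIn P where
  /-- the four groups -/
  A : ℕ → Fin 4 → Ht → ℂ
  hA : ∀ n i h, Lp h → ‖A n i h‖ ≤ 1
  S : ℕ → Fin 4 → Finset P2
  α : ℕ → Fin 4 → ℝ
  fnA : ∀ n i, Fn (S n i : Set P2) (α n i) (A n i)
  suppA : ∀ n i, ∀ v ∈ S n i, G.reg i (δ n * v.1) (δ n * v.2)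
  neutral : ∀ n, ∑ i, α n i + β n = 0

namespace PProb6

variable {P : Measure Ht} (D : PProb6 P)

/-- functional of all groups except `X` -/
def oth (n : ℕ) (X : Fin 3) (z : Fin 3 → P2) (h : Ht) : ℂ :=
  (∏ i ∈ Finset.univ.erase X, D.A n i.castSucc (trans (z i) h)) * (D.A n 3 h * D.O n h)

/-- the correlation with displaced groups -/
def c (n : ℕ) (z : Fin 3 → P2) : ℂ :=
  ∫ h, (∏ i : Fin 3, D.A n i.castSucc (trans (z i) h)) * (D.A n 3 h * D.O n h) ∂P

theorem norm_prod_le {ι : Type*} (s : Finset ι) (f : ι → ℂ) (h : ∀ i ∈ s, ‖f i‖ ≤ 1) :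
    ‖∏ i ∈ s, f i‖ ≤ 1 := by
  rw [norm_prod]
  exact Finset.prod_le_one (fun i _ => norm_nonneg _) h

theorem norm_oth_le (n : ℕ) (X : Fin 3) (z : Fin 3 → P2) {h : Ht} (hh : Lp h) :
    ‖D.oth n X z h‖ ≤ ‖D.O n h‖ := by
  unfold oth
  rw [norm_mul, norm_mul]
  calc _ ≤ 1 * (1 * ‖D.O n h‖) := by
        gcongr
        · exact norm_prod_le _ _ fun i _ => D.hA n _ _ (hh.trans _)
        · exact D.hA n _ _ hh
    _ = ‖D.O n h‖ := by ring

/-- `L²`-integrability of functionals of finitely many heights -/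
theorem integrable_sq (D : PIn P) {S : Set P2} {α : ℝ} {F : Ht → ℂ} (hF : Fn S α F) :
    Integrable (fun h => ‖F h‖ ^ 2) P := by
  have := D.prob
  obtain ⟨M, hM⟩ := hF.bdd
  refine Integrable.of_bound ((hF.meas.norm.pow_const 2).aestronglyMeasurable) (M ^ 2) ?_
  filter_upwards [D.lip] with h hh
  have h1 := hM h hh
  rw [Real.norm_eq_abs, abs_of_nonneg (by positivity)]
  gcongr

theorem sqrt_int_le_one (D : PIn P) {S : Set P2} {α : ℝ} {F : Ht → ℂ} (hF : Fn S α F)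
    (h1 : ∀ h, Lp h → ‖F h‖ ≤ 1) : √(∫ h, ‖F h‖ ^ 2 ∂P) ≤ 1 := by
  have := D.prob
  rw [Real.sqrt_le_left zero_le_one]
  have h := integral_mono_ae (integrable_sq D hF) (integrable_const (1 : ℝ)) (by
    filter_upwards [D.lip] with h hh
    have := h1 h hh
    exact pow_le_one₀ (norm_nonneg _) this)
  simpa using h

theorem sqrt_int_le_M (D : PIn P) (n : ℕ) {S : Set P2} {α : ℝ} {F : Ht → ℂ} (hF : Fn S α F)
    (h1 : ∀ h, Lp h → ‖F h‖ ≤ ‖D.O n h‖) : √(∫ h, ‖F h‖ ^ 2 ∂P) ≤ D.M := by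
  have := D.prob
  rw [Real.sqrt_le_left D.M0]
  refine (integral_mono_ae (integrable_sq D hF) (integrable_sq D (D.fnO n)) ?_).trans (D.hO n)
  filter_upwards [D.lip] with h hh
  have := h1 h hh
  gcongr

/-- support functions at stage `n` -/
def hi (n : ℕ) (i : Fin 4) (e : ℤ × ℤ) : ℤ := ⌊D.G.hiR i e / D.δ n⌋

theorem hi_mul_le (n : ℕ) (i : Fin 4) (e : ℤ × ℤ) : (D.hi n i e : ℝ) * D.δ n ≤ D.G.hiR i e := by
  have := Int.floor_le (D.G.hiR i e / D.δ n)
  rwa [le_div_iff₀ (D.δpos n)] at this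

theorem dot_le_of (n : ℕ) (i : Fin 4) (e : ℤ × ℤ) (v : P2)
    (h : (e.1 : ℝ) * (D.δ n * v.1) + e.2 * (D.δ n * v.2) ≤ D.G.hiR i e) :
    Ga1867.dot e v ≤ D.hi n i e := by
  unfold hi
  rw [Int.le_floor, le_div_iff₀ (D.δpos n)]
  unfold Ga1867.dot
  push_cast
  linarith

theorem dot_le (n : ℕ) (i : Fin 4) (e : ℤ × ℤ) (v : P2) (hv : v ∈ D.S n i) :
    Ga1867.dot e v ≤ D.hi n i e := D.dot_le_of n i e v (D.G.le_hiR i e (D.suppA n i v hv))

theorem dot_le_O (n : ℕ) (e : ℤ × ℤ) (v : P2) (hv : v ∈ D.T n) :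
    Ga1867.dot e v ≤ D.hi n 3 e := D.dot_le_of n 3 e v (D.G.le_hiO e (D.suppO n v hv))

theorem dot_neg_le (n : ℕ) (i : Fin 4) (e : ℤ × ℤ) (v : P2) (hv : v ∈ D.S n i) :
    -D.hi n i (-e) ≤ Ga1867.dot e v := by
  have := D.dot_le n i (-e) v hv
  have h2 : Ga1867.dot (-e) v = -Ga1867.dot e v := by
    simp [Ga1867.dot]
    ring
  rw [h2] at this
  linarith

theorem dot_add (e a b : ℤ × ℤ) : Ga1867.dot e (a + b) = Ga1867.dot e a + Ga1867.dot e b := by
  simp [Ga1867.dot]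
  ring

/-- support of the functional `oth` -/
def Soth (n : ℕ) (X : Fin 3) (z : Fin 3 → P2) : Finset P2 :=
  ((Finset.univ.erase X).biUnion fun i => (D.S n i.castSucc).image (· + z i)) ∪
    (D.S n 3 ∪ D.T n)

theorem fn_oth (n : ℕ) (X : Fin 3) (z : Fin 3 → P2) :
    Fn (D.Soth n X z : Set P2) (-(D.α n X.castSucc)) (D.oth n X z) := by
  have h1 : Fn (D.Soth n X z : Set P2) (∑ i ∈ Finset.univ.erase X, D.α n i.castSucc)
      (fun h => ∏ i ∈ Finset.univ.erase X, D.A n i.castSucc (trans (z i) h)) := by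
    refine fn_prod _ fun i hi => Fn.mono (fn_trans (D.fnA n i.castSucc) (z i)) ?_
    intro v hv
    simp only [Soth, Finset.coe_union, Set.mem_union, Finset.mem_coe]
    left
    rw [Finset.mem_biUnion]
    exact ⟨i, hi, by simpa using hv⟩
  have h3 : Fn (D.Soth n X z : Set P2) (D.α n 3) (D.A n 3) := by
    refine Fn.mono (D.fnA n 3) ?_
    intro v hv
    simp only [Soth, Finset.coe_union, Set.mem_union]
    exact Or.inr (Or.inl hv)
  have h4 : Fn (D.Soth n X z : Set P2) (D.β n) (D.O n) := by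
    refine Fn.mono (D.fnO n) ?_
    intro v hv
    simp only [Soth, Finset.coe_union, Set.mem_union]
    exact Or.inr (Or.inr hv)
  have h2 := h1.mul' (h3.mul' h4)
  have h3 : ∑ i ∈ Finset.univ.erase X, D.α n i.castSucc + (D.α n 3 + D.β n) =
      -(D.α n X.castSucc) := by
    have h4 := D.neutral n
    rw [Fin.sum_univ_castSucc] at h4
    have h5 : (Fin.last 3) = 3 := rfl
    rw [h5] at h4
    have h6 := Finset.add_sum_erase Finset.univ (fun i : Fin 3 => D.α n i.castSucc)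
      (Finset.mem_univ X)
    linarith
  rw [h3] at h2
  exact h2

theorem fn_all (n : ℕ) (z : Fin 3 → P2) :
    Fn ((Finset.univ.biUnion (fun i : Fin 3 => (D.S n i.castSucc).image (· + z i)) ∪
      D.S n 3 : Finset P2) : Set P2) (-(D.β n))
      (fun h => (∏ i : Fin 3, D.A n i.castSucc (trans (z i) h)) * D.A n 3 h) := by
  set U : Finset P2 := Finset.univ.biUnion (fun i : Fin 3 => (D.S n i.castSucc).image (· + z i)) ∪
      D.S n 3 with hU
  have h1 : Fn (U : Set P2) (∑ i : Fin 3, D.α n i.castSucc)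
      (fun h => ∏ i : Fin 3, D.A n i.castSucc (trans (z i) h)) := by
    refine fn_prod _ fun i hi => Fn.mono (fn_trans (D.fnA n i.castSucc) (z i)) ?_
    intro v hv
    simp only [hU, Finset.coe_union, Set.mem_union, Finset.mem_coe]
    left
    rw [Finset.mem_biUnion]
    exact ⟨i, Finset.mem_univ i, by simpa using hv⟩
  have h3 : Fn (U : Set P2) (D.α n 3) (D.A n 3) := by
    refine Fn.mono (D.fnA n 3) ?_
    intro v hv
    simp only [hU, Finset.coe_union, Set.mem_union]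
    exact Or.inr hv
  have h2 := h1.mul' h3
  have h4 : ∑ i : Fin 3, D.α n i.castSucc + D.α n 3 = -(D.β n) := by
    have h4 := D.neutral n
    rw [Fin.sum_univ_castSucc] at h4
    have h5 : (Fin.last 3) = 3 := rfl
    rw [h5] at h4
    linarith
  rw [h4] at h2
  exact h2

theorem norm_c_le (n : ℕ) (z : Fin 3 → P2) : ‖D.c n z‖ ≤ D.M := by
  have := D.prob
  have hM := D.M0
  have h1 : ‖D.c n z‖ ≤ ∫ h, ‖D.O n h‖ ∂P := by
    unfold c
    refine norm_integral_le_of_norm_le ?_ ?_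
    · obtain ⟨M, hM⟩ := (D.fnO n).bdd
      refine Integrable.of_bound ((D.fnO n).meas.norm.aestronglyMeasurable) M ?_
      filter_upwards [D.lip] with h hh
      rw [norm_norm]
      exact hM h hh
    · filter_upwards [D.lip] with h hh
      rw [norm_mul, norm_mul]
      calc _ ≤ 1 * (1 * ‖D.O n h‖) := by
            gcongr
            · exact norm_prod_le _ _ fun i _ => D.hA n _ _ (hh.trans _)
            · exact D.hA n _ _ hh
        _ = ‖D.O n h‖ := by ring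
  refine h1.trans ?_
  -- `∫ ‖O‖ ≤ √∫ ‖O‖²`
  have h2 : (∫ h, ‖D.O n h‖ ∂P) ^ 2 ≤ D.M ^ 2 := by
    refine le_trans ?_ (D.hO n)
    have hint := integrable_sq D.toPIn (D.fnO n)
    have hint1 : Integrable (fun h => ‖D.O n h‖) P := by
      obtain ⟨M, hM⟩ := (D.fnO n).bdd
      refine Integrable.of_bound ((D.fnO n).meas.norm.aestronglyMeasurable) M ?_
      filter_upwards [D.lip] with h hh
      rw [norm_norm]
      exact hM h hh
    set m := ∫ h, ‖D.O n h‖ ∂P with hm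
    have h3 : 0 ≤ ∫ h, (‖D.O n h‖ - m) ^ 2 ∂P := integral_nonneg fun h => sq_nonneg _
    have h4 : ∫ h, (‖D.O n h‖ - m) ^ 2 ∂P = ∫ h, ‖D.O n h‖ ^ 2 ∂P - m ^ 2 := by
      have e : ∀ h, (‖D.O n h‖ - m) ^ 2 = (‖D.O n h‖ ^ 2 - 2 * m * ‖D.O n h‖) + m ^ 2 := by
        intro h; ring
      have i1 : Integrable (fun h => ‖D.O n h‖ ^ 2 - 2 * m * ‖D.O n h‖) P :=
        hint.sub (hint1.const_mul _)
      have i2 : ∫ h, (‖D.O n h‖ ^ 2 - 2 * m * ‖D.O n h‖) ∂P =
          ∫ h, ‖D.O n h‖ ^ 2 ∂P - 2 * m * m := by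
        rw [integral_sub hint (hint1.const_mul _), integral_const_mul]
      simp only [e]
      rw [integral_add i1 (integrable_const _), i2]
      simp only [integral_const, probReal_univ, one_smul]
      ring
    linarith
  exact (abs_le_of_sq_le_sq' h2 hM).2

theorem c_update (n : ℕ) (X : Fin 3) (z : Fin 3 → P2) (w : P2) :
    D.c n (Function.update z X w) =
      ∫ h, D.oth n X z h * D.A n X.castSucc (trans w h) ∂P := by
  unfold c oth
  refine integral_congr_ae (Eventually.of_forall fun ω => ?_)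
  simp only
  rw [← Finset.mul_prod_erase Finset.univ
    (fun i : Fin 3 => D.A n i.castSucc (trans (Function.update z X w i) ω)) (Finset.mem_univ X)]
  rw [Function.update_self]
  have : ∏ i ∈ Finset.univ.erase X, D.A n i.castSucc (trans (Function.update z X w i) ω) =
      ∏ i ∈ Finset.univ.erase X, D.A n i.castSucc (trans (z i) ω) := by
    refine Finset.prod_congr rfl fun i hi => ?_
    rw [Function.update_of_ne (Finset.ne_of_mem_erase hi)]
  rw [this]
  ring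

/-- the two descriptions of the six directions -/
theorem dir6 {ν τ : ℤ × ℤ} (h : Ga1867.Dir6 ν τ) : ν ∈ Ga2617.Dir6 ∧ τ = stp ν := by
  rcases h with ⟨rfl, rfl⟩ | ⟨rfl, rfl⟩ | ⟨rfl, rfl⟩ | ⟨rfl, rfl⟩ | ⟨rfl, rfl⟩ | ⟨rfl, rfl⟩ <;>
    exact ⟨by simp [Ga2617.Dir6], by simp [Ga2617.stp]⟩

theorem pb (n : ℕ) (ν τ : ℤ × ℤ) (he : Ga1867.Dir6 ν τ) (X : Fin 3) (z : Fin 3 → ℤ × ℤ)
    (hz : ∀ Y : Fin 4, Y ≠ X.castSucc →
      D.hi n Y ν + Ga1867.dot ν (pos4 z Y) + 0 ≤ -D.hi n X.castSucc (-ν) + Ga1867.dot ν (z X)) :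
    PolyBound (fun k : ℕ => D.c n (Function.update z X (z X + (k : ℤ) • τ))) D.M := by
  have := D.prob
  obtain ⟨hν, rfl⟩ := dir6 he
  set b : ℤ := -D.hi n X.castSucc (-ν) + Ga1867.dot ν (z X) with hb
  have h := D.rp.pb ν hν b (D.Soth n X z) ((D.S n X.castSucc).image (· + z X))
    (D.oth n X z) (fun ω => D.A n X.castSucc (trans (z X) ω)) (D.α n X.castSucc)
    (D.fn_oth n X z) (fn_trans (D.fnA n _) _) ?_ ?_
  · have heq : (fun k : ℕ => D.c n (Function.update z X (z X + (k : ℤ) • stp ν))) =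
        fun k : ℕ => ∫ ω, D.oth n X z ω *
          D.A n X.castSucc (trans (z X) (trans ((k : ℤ) • stp ν) ω)) ∂P := by
      funext k
      rw [D.c_update]
      refine integral_congr_ae (Eventually.of_forall fun ω => ?_)
      simp only
      rw [trans_trans]
    rw [heq]
    refine h.mono ?_
    calc _ ≤ D.M * 1 := by
          gcongr
          · exact D.M0
          · exact sqrt_int_le_M D.toPIn n (D.fn_oth n X z) fun h hh => D.norm_oth_le n X z hh
          · exact sqrt_int_le_one D.toPIn (fn_trans (D.fnA n _) _) fun h hh =>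
              D.hA n _ _ (hh.trans _)
      _ = D.M := mul_one _
  · intro v hv
    change Ga1867.dot ν v ≤ b
    simp only [Soth, Finset.mem_union, Finset.mem_biUnion, Finset.mem_image] at hv
    rcases hv with ⟨i, hi, w, hw, rfl⟩ | hv | hv
    · have h1 := hz i.castSucc (fun h => Finset.ne_of_mem_erase hi (Fin.castSucc_injective _ h))
      have h2 : pos4 z i.castSucc = z i := by
        unfold pos4
        rw [dif_pos (by simp)]
        rfl
      rw [h2] at h1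
      rw [dot_add]
      have := D.dot_le n _ ν w hw
      linarith
    · have h1 := hz 3 (fun h => absurd (congrArg Fin.val h) (by simp; omega))
      have h2 : pos4 z 3 = 0 := by
        unfold pos4
        rw [dif_neg (by decide)]
      rw [h2] at h1
      have h3 : Ga1867.dot ν 0 = 0 := by simp [Ga1867.dot]
      rw [h3] at h1
      have := D.dot_le n _ ν v hv
      linarith
    · have h1 := hz 3 (fun h => absurd (congrArg Fin.val h) (by simp; omega))
      have h2 : pos4 z 3 = 0 := by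
        unfold pos4
        rw [dif_neg (by decide)]
      rw [h2] at h1
      have h3 : Ga1867.dot ν 0 = 0 := by simp [Ga1867.dot]
      rw [h3] at h1
      have := D.dot_le_O n ν v hv
      linarith
  · intro v hv
    change b ≤ Ga1867.dot ν v
    simp only [Finset.mem_image] at hv
    obtain ⟨w, hw, rfl⟩ := hv
    rw [dot_add]
    have := D.dot_neg_le n _ ν w hw
    linarith

/-- geometric condition under which Cauchy–Schwarz applies -/
def good (n : ℕ) : Prop := D.δ n * (D.ℓ n : ℝ) ≤ D.G.x₀ + D.G.γ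

open Classical in
/-- bound for the correlation when all groups are left of the line -/
def eps (n : ℕ) : ℝ :=
  if D.good n then √(∫ h, conj (D.O n (act (rfl6 (1, 0) (D.ℓ n)) h)) * D.O n h ∂P).re
  else D.M

theorem eps_lim : Tendsto D.eps atTop (𝓝 0) := by
  have h1 : Tendsto (fun n => √(∫ h, conj (D.O n (act (rfl6 (1, 0) (D.ℓ n)) h)) *
      D.O n h ∂P).re) atTop (𝓝 0) := by
    have := D.small.sqrt
    rwa [Real.sqrt_zero] at this
  refine h1.congr' ?_
  have hγ := D.G.γpos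
  filter_upwards [D.hℓ.eventually (ge_mem_nhds (by linarith : D.G.x₀ < D.G.x₀ + D.G.γ))] with n h4
  unfold eps
  rw [if_pos]
  exact h4

theorem base (n : ℕ) (z : Fin 3 → ℤ × ℤ)
    (hz : ∀ X : Fin 3, D.hi n X.castSucc (1, 0) + (z X).1 + 0 ≤ D.ℓ n) :
    ‖D.c n z‖ ≤ D.eps n := by
  have := D.prob
  unfold eps
  split_ifs with hg
  swap
  · exact D.norm_c_le n z
  have hδ := D.δpos n
  have h := D.rp.cs (1, 0) (by simp [Ga2617.Dir6]) (D.ℓ n) _ (D.T n) _ (D.O n) (D.β n)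
    (D.fn_all n z) (D.fnO n) ?_ ?_
  · have e1 : D.c n z = ∫ ω, (∏ i : Fin 3, D.A n i.castSucc (trans (z i) ω)) * D.A n 3 ω *
        D.O n ω ∂P := by
      unfold c
      refine integral_congr_ae (Eventually.of_forall fun ω => ?_)
      simp only
      ring
    rw [e1]
    refine h.trans ?_
    calc _ ≤ 1 * √(∫ h, conj (D.O n (act (rfl6 (1, 0) (D.ℓ n)) h)) * D.O n h ∂P).re := by
          gcongr
          refine sqrt_int_le_one D.toPIn (D.fn_all n z) fun ω hω => ?_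
          rw [norm_mul]
          calc _ ≤ (1 : ℝ) * 1 := by
                gcongr
                · exact norm_prod_le _ _ fun i _ => D.hA n _ _ (hω.trans _)
                · exact D.hA n _ _ hω
            _ = 1 := one_mul _
      _ = _ := one_mul _
  · intro v hv
    simp only [Finset.mem_union, Finset.mem_biUnion, Finset.mem_image] at hv
    rcases hv with ⟨i, hi, w, hw, rfl⟩ | hv
    · have h1 := hz i
      have h2 := D.dot_le n _ (1, 0) w hw
      simp only [Ga1867.dot, one_mul, zero_mul, add_zero] at h2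
      simp only [Ga2617.dot, Prod.fst_add, one_mul, zero_mul, add_zero]
      linarith
    · have h1 := D.suppA n 3 v hv
      have h2 : D.δ n * (v.1 : ℝ) ≤ D.G.x₀ - D.G.γ := h1.2.1
      have h3 := D.hℓL n
      have hγ := D.G.γpos
      have h4 : ((v.1 : ℤ) : ℝ) ≤ (D.ℓ n : ℝ) := by
        refine le_of_mul_le_mul_left ?_ hδ
        linarith
      simp only [Ga2617.dot, one_mul, zero_mul, add_zero]
      exact_mod_cast h4
  · intro v hv
    have h1 := D.suppO n v hv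
    have h2 : D.G.x₀ + D.G.γ ≤ D.δ n * (v.1 : ℝ) := h1.1
    have h3 : D.δ n * (D.ℓ n : ℝ) ≤ D.G.x₀ + D.G.γ := hg
    have h4 : (D.ℓ n : ℝ) ≤ (v.1 : ℝ) := by
      refine le_of_mul_le_mul_left ?_ hδ
      linarith
    simp only [Ga2617.dot, one_mul, zero_mul, add_zero]
    exact_mod_cast h4

theorem boxH_10 (p₁ p₂ q₁ q₂ : ℝ) (h : p₁ ≤ p₂) : boxH p₁ p₂ q₁ q₂ (1, 0) = p₂ := by
  simp [boxH, h]

theorem boxH_m10 (p₁ p₂ q₁ q₂ : ℝ) (h : p₁ ≤ p₂) : boxH p₁ p₂ q₁ q₂ (-1, 0) = -p₁ := by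
  simp [boxH, h]

theorem boxH_01 (p₁ p₂ q₁ q₂ : ℝ) (h : q₁ ≤ q₂) : boxH p₁ p₂ q₁ q₂ (0, 1) = q₂ := by
  simp [boxH, h]

theorem boxH_0m1 (p₁ p₂ q₁ q₂ : ℝ) (h : q₁ ≤ q₂) : boxH p₁ p₂ q₁ q₂ (0, -1) = -q₁ := by
  simp [boxH, h]

/-- the abstract peeling problem -/
def toPeel : PeelData6 where
  c := D.c
  δ := D.δ
  δpos := D.δpos
  δlim := D.δlim
  C := D.M
  κ := 0
  κ0 := le_refl 0
  hi := D.hi
  loO := D.ℓ
  L := D.G.L
  Lpos := D.G.Lpos
  g := 2 * D.G.γ
  gpos := by have := D.G.γpos; positivity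
  hi_le := fun n Y e _ => (D.hi_mul_le n Y e).trans (D.G.hiR_le Y e)
  loO_ge := by
    intro n
    have := D.hℓL n
    have := D.G.γpos; have := D.G.hx₀
    linarith
  home_D := by
    intro n
    have h1 := D.hi_mul_le n 3 (0, -1)
    have h2 := D.hi_mul_le n 2 (0, 1)
    have := D.G.γpos; have := D.G.hx; have := D.G.hx₀; have := D.G.hx₁
    have := D.G.hy; have := D.G.hy₀; have := D.G.hy₁
    change _ ≤ boxH (-D.G.L) (D.G.x₁ - D.G.γ) (D.G.y₀ + D.G.γ) (D.G.y₁ - D.G.γ) _ at h1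
    change _ ≤ boxH (-D.G.L) (D.G.x₁ - D.G.γ) (-D.G.L) (D.G.y₀ - D.G.γ) _ at h2
    rw [boxH_0m1 _ _ _ _ (by linarith)] at h1
    rw [boxH_01 _ _ _ _ (by linarith)] at h2
    linarith
  home_U := by
    intro n Y hY
    have h2 := D.hi_mul_le n 1 (0, -1)
    have := D.G.γpos; have := D.G.hx; have := D.G.hx₀; have := D.G.hx₁
    have := D.G.hy; have := D.G.hy₀; have := D.G.hy₁
    change _ ≤ boxH (-D.G.L) (D.G.x₁ - D.G.γ) (D.G.y₁ + D.G.γ) D.G.L _ at h2
    rw [boxH_0m1 _ _ _ _ (by linarith)] at h2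
    rcases hY with rfl | rfl
    · have h1 := D.hi_mul_le n 2 (0, 1)
      change _ ≤ boxH (-D.G.L) (D.G.x₁ - D.G.γ) (-D.G.L) (D.G.y₀ - D.G.γ) _ at h1
      rw [boxH_01 _ _ _ _ (by linarith)] at h1
      linarith
    · have h1 := D.hi_mul_le n 3 (0, 1)
      change _ ≤ boxH (-D.G.L) (D.G.x₁ - D.G.γ) (D.G.y₀ + D.G.γ) (D.G.y₁ - D.G.γ) _ at h1
      rw [boxH_01 _ _ _ _ (by linarith)] at h1
      linarith
  home_R := by
    intro n Y hY
    have h2 := D.hi_mul_le n 0 (-1, 0)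
    have := D.G.γpos; have := D.G.hx; have := D.G.hx₀; have := D.G.hx₁
    have := D.G.hy; have := D.G.hy₀; have := D.G.hy₁
    change _ ≤ boxH (D.G.x₁ + D.G.γ) D.G.L (-D.G.L) D.G.L _ at h2
    rw [boxH_m10 _ _ _ _ (by linarith)] at h2
    have h1 := D.hi_mul_le n Y (1, 0)
    have h3 : D.G.hiR Y (1, 0) = D.G.x₁ - D.G.γ := by
      fin_cases Y
      · exact absurd rfl hY
      · exact boxH_10 _ _ _ _ (by linarith)
      · exact boxH_10 _ _ _ _ (by linarith)
      · exact boxH_10 _ _ _ _ (by linarith)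
    rw [h3] at h1
    linarith
  pb := fun n ν τ he X z hz => D.pb n ν τ he X z hz
  ε := D.eps
  εlim := D.eps_lim
  base := fun n z hz => D.base n z hz

/-- **Peeling theorem.** -/
theorem tendsto : Tendsto (fun n => ∫ h, (∏ i : Fin 4, D.A n i h) * D.O n h ∂P) atTop (𝓝 0) := by
  have h := D.toPeel.tendsto_home
  refine h.congr fun n => ?_
  change D.c n 0 = _
  unfold c
  refine integral_congr_ae (Eventually.of_forall fun ω => ?_)
  simp only [Pi.zero_apply]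
  have h0 : trans (0 : ℤ × ℤ) ω = ω := Ga2617.trans_zero ω
  simp only [h0]
  rw [Fin.prod_univ_castSucc (n := 3)]
  have h5 : (Fin.last 3) = 3 := rfl
  rw [h5]
  ring

end PProb6

end Crest.Agent.R144.Ga3572
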