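import Crest.Agent.R144.Ga3_572

/-!
# R144, GA3 (helper572), part b: uniform forms of the Ward identity with patches

* `PIn.uniform`: uniform over all admissible groups of functionals;
* `PIn.uniform_patches`: the same for finitely many patches, each contained in one of the four regions;
* `ward_grid`: patches = cells of a square grid (index coordinates) with corridors of width `2γ`.
-/

set_option autoImplicit false

noncomputable section

open Filter Topology MeasureTheory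
open scoped ComplexConjugate

namespace Crest.Agent.R144.Ga3572

open Crest.Agent.R144.Ps643 (P2 Ht Loc FinLoc Neut Chg act tr Obs PlaneState lin)
open Crest.Agent.R144.Ga2617 (trans Lp Fn rfl6 RPHyp6 rpHyp6 stp)

namespace PIn

variable {P : Measure Ht} (E : PIn P)

/-- admissible groups at stage `n` -/
structure Adm (n : ℕ) (A : Fin 4 → Ht → ℂ) (S : Fin 4 → Finset P2) (α : Fin 4 → ℝ) : Prop where
  hA : ∀ i h, Lp h → ‖A i h‖ ≤ 1
  fnA : ∀ i, Fn (S i : Set P2) (α i) (A i)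
  suppA : ∀ i, ∀ v ∈ S i, E.G.reg i (E.δ n * v.1) (E.δ n * v.2)
  neutral : ∑ i, α i + E.β n = 0

/-- the trivial group -/
theorem adm_zero (n : ℕ) :
    E.Adm n (fun _ _ => 0) (fun _ => ∅) (fun i => if i = 0 then -E.β n else 0) where
  hA := fun i h _ => by simp
  fnA := fun i => Fn.zero _ _
  suppA := fun i v hv => by simp at hv
  neutral := by simp

theorem uniform {ε : ℝ} (hε : 0 < ε) : ∃ N : ℕ, ∀ n, N ≤ n → ∀ (A : Fin 4 → Ht → ℂ)
    (S : Fin 4 → Finset P2) (α : Fin 4 → ℝ), E.Adm n A S α →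
    ‖∫ h, (∏ i, A i h) * E.O n h ∂P‖ ≤ ε := by
  classical
  by_contra hcon
  push Not at hcon
  -- data at stage `n`
  have hch : ∀ n, ∃ D : (Fin 4 → Ht → ℂ) × (Fin 4 → Finset P2) × (Fin 4 → ℝ),
      E.Adm n D.1 D.2.1 D.2.2 ∧
      ((∃ D' : (Fin 4 → Ht → ℂ) × (Fin 4 → Finset P2) × (Fin 4 → ℝ), E.Adm n D'.1 D'.2.1 D'.2.2 ∧
        ε < ‖∫ h, (∏ i, D'.1 i h) * E.O n h ∂P‖) → ε < ‖∫ h, (∏ i, D.1 i h) * E.O n h ∂P‖) := by
    intro n
    by_cases hb : ∃ D' : (Fin 4 → Ht → ℂ) × (Fin 4 → Finset P2) × (Fin 4 → ℝ),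
        E.Adm n D'.1 D'.2.1 D'.2.2 ∧ ε < ‖∫ h, (∏ i, D'.1 i h) * E.O n h ∂P‖
    · obtain ⟨D', h1, h2⟩ := hb
      exact ⟨D', h1, fun _ => h2⟩
    · exact ⟨(fun _ _ => 0, fun _ => ∅, fun i => if i = 0 then -E.β n else 0), E.adm_zero n,
        fun h => absurd h hb⟩
  choose D hD hbad using hch
  let Q : PProb6 P :=
    { E with
      A := fun n => (D n).1
      hA := fun n => (hD n).hA
      S := fun n => (D n).2.1
      α := fun n => (D n).2.2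
      fnA := fun n => (hD n).fnA
      suppA := fun n => (hD n).suppA
      neutral := fun n => (hD n).neutral }
  have ht := Q.tendsto
  have h0 : ∀ᶠ n in atTop, ‖∫ h, (∏ i : Fin 4, (D n).1 i h) * E.O n h ∂P‖ < ε := by
    have := (tendsto_zero_iff_norm_tendsto_zero.1 ht).eventually_lt_const hε
    exact this
  obtain ⟨N, hN⟩ := eventually_atTop.1 h0
  obtain ⟨n, hn, A, S, α, hadm, hlt⟩ := hcon N
  have h1 := hbad n ⟨(A, S, α), hadm, hlt⟩
  exact absurd (hN n hn) (not_lt.2 h1.le)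

/-- **Ward identity with patches**: uniform over finitely many (any number of) patches, each of them
contained in one of the four regions of `E.G`. -/
theorem uniform_patches {ε : ℝ} (hε : 0 < ε) : ∃ N : ℕ, ∀ n, N ≤ n → ∀ {ι : Type} (K : Finset ι)
    (g : ι → Fin 4) (A : ι → Ht → ℂ) (S : ι → Finset P2) (α : ι → ℝ),
    (∀ k ∈ K, ∀ h, Lp h → ‖A k h‖ ≤ 1) → (∀ k ∈ K, Fn (S k : Set P2) (α k) (A k)) →
    (∀ k ∈ K, ∀ v ∈ S k, E.G.reg (g k) (E.δ n * v.1) (E.δ n * v.2)) →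
    ∑ k ∈ K, α k + E.β n = 0 → ‖∫ h, (∏ k ∈ K, A k h) * E.O n h ∂P‖ ≤ ε := by
  classical
  obtain ⟨N, hN⟩ := E.uniform hε
  refine ⟨N, fun n hn ι K g A S α h1 h2 h3 h4 => ?_⟩
  have h := hN n hn (fun i h => ∏ k ∈ K with g k = i, A k h)
    (fun i => (K.filter (g · = i)).biUnion S) (fun i => ∑ k ∈ K with g k = i, α k)
    { hA := fun i h hh => PProb6.norm_prod_le _ _ fun k hk => h1 k (Finset.mem_filter.1 hk).1 h hh
      fnA := fun i => fn_prod _ fun k hk => (h2 k (Finset.mem_filter.1 hk).1).mono (by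
        intro v hv
        simp only [Finset.coe_biUnion, Set.mem_iUnion]
        exact ⟨k, hk, hv⟩)
      suppA := fun i v hv => by
        obtain ⟨k, hk, hv'⟩ := Finset.mem_biUnion.1 hv
        obtain ⟨hk1, hk2⟩ := Finset.mem_filter.1 hk
        have := h3 k hk1 v hv'
        rwa [hk2] at this
      neutral := by
        rw [Finset.sum_fiberwise]
        exact h4 }
  refine le_trans (le_of_eq ?_) h
  congr 1
  refine integral_congr_ae (Eventually.of_forall fun ω => ?_)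
  simp only
  congr 1
  exact (Finset.prod_fiberwise K g fun k => A k ω).symm

end PIn

/-- the cell `k` of the square grid of side `r` (index coordinates), shrunk by `γ` on each side -/
def Cell (r γ : ℝ) (k : P2) (x y : ℝ) : Prop :=
  r * k.1 + γ ≤ x ∧ x ≤ r * (k.1 + 1) - γ ∧ r * k.2 + γ ≤ y ∧ y ≤ r * (k.2 + 1) - γ

/-- region of the cell `k` relative to the cell `k₀` -/
def grp (k₀ k : P2) : Fin 4 :=
  if k₀.1 < k.1 then 0 else if k₀.2 < k.2 then 1 else if k.2 < k₀.2 then 2 else 3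

/-- geometry of a grid problem -/
def gridGeo {r γ : ℝ} (hγ : 0 < γ) (hr : 2 * γ ≤ r) (K : Finset P2) (k₀ : P2) : PGeo where
  x₀ := r * k₀.1
  x₁ := r * (k₀.1 + 1)
  y₀ := r * k₀.2
  y₁ := r * (k₀.2 + 1)
  γ := γ
  L := r * (∑ k ∈ insert k₀ K, (|(k.1 : ℝ)| + |(k.2 : ℝ)|) + 1) + γ
  γpos := hγ
  hx := by linarith
  hy := by linarith
  hx₀ := by
    have hr0 : 0 < r := by linarith
    have h1 : (|(k₀.1 : ℝ)| + |(k₀.2 : ℝ)|) ≤ ∑ k ∈ insert k₀ K, (|(k.1 : ℝ)| + |(k.2 : ℝ)|) :=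
      Finset.single_le_sum (f := fun k : P2 => |(k.1 : ℝ)| + |(k.2 : ℝ)|)
        (fun k _ => by positivity) (Finset.mem_insert_self _ _)
    have h2 := neg_abs_le (k₀.1 : ℝ)
    have h3 := abs_nonneg (k₀.2 : ℝ)
    nlinarith [mul_le_mul_of_nonneg_left h1 hr0.le, mul_le_mul_of_nonneg_left h2 hr0.le]
  hx₁ := by
    have hr0 : 0 < r := by linarith
    have h1 : (|(k₀.1 : ℝ)| + |(k₀.2 : ℝ)|) ≤ ∑ k ∈ insert k₀ K, (|(k.1 : ℝ)| + |(k.2 : ℝ)|) :=
      Finset.single_le_sum (f := fun k : P2 => |(k.1 : ℝ)| + |(k.2 : ℝ)|)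
        (fun k _ => by positivity) (Finset.mem_insert_self _ _)
    have h2 := le_abs_self (k₀.1 : ℝ)
    have h3 := abs_nonneg (k₀.2 : ℝ)
    nlinarith [mul_le_mul_of_nonneg_left h1 hr0.le, mul_le_mul_of_nonneg_left h2 hr0.le]
  hy₀ := by
    have hr0 : 0 < r := by linarith
    have h1 : (|(k₀.1 : ℝ)| + |(k₀.2 : ℝ)|) ≤ ∑ k ∈ insert k₀ K, (|(k.1 : ℝ)| + |(k.2 : ℝ)|) :=
      Finset.single_le_sum (f := fun k : P2 => |(k.1 : ℝ)| + |(k.2 : ℝ)|)
        (fun k _ => by positivity) (Finset.mem_insert_self _ _)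
    have h2 := neg_abs_le (k₀.2 : ℝ)
    have h3 := abs_nonneg (k₀.1 : ℝ)
    nlinarith [mul_le_mul_of_nonneg_left h1 hr0.le, mul_le_mul_of_nonneg_left h2 hr0.le]
  hy₁ := by
    have hr0 : 0 < r := by linarith
    have h1 : (|(k₀.1 : ℝ)| + |(k₀.2 : ℝ)|) ≤ ∑ k ∈ insert k₀ K, (|(k.1 : ℝ)| + |(k.2 : ℝ)|) :=
      Finset.single_le_sum (f := fun k : P2 => |(k.1 : ℝ)| + |(k.2 : ℝ)|)
        (fun k _ => by positivity) (Finset.mem_insert_self _ _)
    have h2 := le_abs_self (k₀.2 : ℝ)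
    have h3 := abs_nonneg (k₀.1 : ℝ)
    nlinarith [mul_le_mul_of_nonneg_left h1 hr0.le, mul_le_mul_of_nonneg_left h2 hr0.le]

theorem grid_reg {r γ : ℝ} (hγ : 0 < γ) (hr : 2 * γ ≤ r) {K : Finset P2} {k₀ k : P2} (hk : k ∈ K)
    (hne : k ≠ k₀) {x y : ℝ} (h : Cell r γ k x y) :
    (gridGeo hγ hr K k₀).reg (grp k₀ k) x y := by
  have hr0 : 0 < r := by linarith
  obtain ⟨h1, h2, h3, h4⟩ := h
  have hs : (|(k.1 : ℝ)| + |(k.2 : ℝ)|) ≤ ∑ k ∈ insert k₀ K, (|(k.1 : ℝ)| + |(k.2 : ℝ)|) :=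
    Finset.single_le_sum (f := fun k : P2 => |(k.1 : ℝ)| + |(k.2 : ℝ)|)
      (fun k _ => by positivity) (Finset.mem_insert_of_mem hk)
  have a1 := neg_abs_le (k.1 : ℝ)
  have a2 := le_abs_self (k.1 : ℝ)
  have a3 := neg_abs_le (k.2 : ℝ)
  have a4 := le_abs_self (k.2 : ℝ)
  have a5 := abs_nonneg (k.1 : ℝ)
  have a6 := abs_nonneg (k.2 : ℝ)
  set s := ∑ k ∈ insert k₀ K, (|(k.1 : ℝ)| + |(k.2 : ℝ)|) with hsd
  have m0 := mul_le_mul_of_nonneg_left hs hr0.le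
  have m1 := mul_le_mul_of_nonneg_left a1 hr0.le
  have m2 := mul_le_mul_of_nonneg_left a2 hr0.le
  have m3 := mul_le_mul_of_nonneg_left a3 hr0.le
  have m4 := mul_le_mul_of_nonneg_left a4 hr0.le
  have m5 := mul_nonneg hr0.le a5
  have m6 := mul_nonneg hr0.le a6
  have hL : (gridGeo hγ hr K k₀).L = r * (s + 1) + γ := rfl
  have x1 : -(r * (s + 1) + γ) ≤ x := by nlinarith
  have x2 : x ≤ r * (s + 1) + γ := by nlinarith
  have y1 : -(r * (s + 1) + γ) ≤ y := by nlinarith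
  have y2 : y ≤ r * (s + 1) + γ := by nlinarith
  unfold grp
  split_ifs with c1 c2 c3
  · refine ⟨?_, x2, y1, y2⟩
    have : (k₀.1 : ℝ) + 1 ≤ k.1 := by exact_mod_cast c1
    change r * (k₀.1 + 1) + γ ≤ x
    nlinarith [mul_le_mul_of_nonneg_left this hr0.le]
  · refine ⟨x1, ?_, ?_, y2⟩
    · have : (k.1 : ℝ) ≤ k₀.1 := by exact_mod_cast (not_lt.1 c1)
      change x ≤ r * (k₀.1 + 1) - γ
      nlinarith [mul_le_mul_of_nonneg_left this hr0.le]
    · have : (k₀.2 : ℝ) + 1 ≤ k.2 := by exact_mod_cast c2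
      change r * (k₀.2 + 1) + γ ≤ y
      nlinarith [mul_le_mul_of_nonneg_left this hr0.le]
  · refine ⟨x1, ?_, y1, ?_⟩
    · have : (k.1 : ℝ) ≤ k₀.1 := by exact_mod_cast (not_lt.1 c1)
      change x ≤ r * (k₀.1 + 1) - γ
      nlinarith [mul_le_mul_of_nonneg_left this hr0.le]
    · have : (k.2 : ℝ) + 1 ≤ k₀.2 := by exact_mod_cast c3
      change y ≤ r * k₀.2 - γ
      nlinarith [mul_le_mul_of_nonneg_left this hr0.le]
  · have e2 : k.2 = k₀.2 := le_antisymm (not_lt.1 c2) (not_lt.1 c3)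
    have e1 : k.1 < k₀.1 := by
      refine lt_of_le_of_ne (not_lt.1 c1) fun e => hne (Prod.ext e e2)
    have e2' : (k.2 : ℝ) = k₀.2 := by exact_mod_cast e2
    refine ⟨x1, ?_, ?_, ?_⟩
    · have : (k.1 : ℝ) + 1 ≤ k₀.1 := by exact_mod_cast e1
      change x ≤ r * k₀.1 - γ
      nlinarith [mul_le_mul_of_nonneg_left this hr0.le]
    · change r * k₀.2 + γ ≤ y
      rw [← e2']
      exact h3
    · change y ≤ r * (k₀.2 + 1) - γ
      rw [← e2']
      exact h4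

/-- lattice lines converging to `x₀` from the right -/
theorem exists_line {δ : ℕ → ℝ} (δpos : ∀ n, 0 < δ n) (δlim : Tendsto δ atTop (𝓝 0)) (x₀ : ℝ) :
    ∃ ℓ : ℕ → ℤ, Tendsto (fun n => δ n * (ℓ n : ℝ)) atTop (𝓝 x₀) ∧
      (∀ n, x₀ ≤ δ n * (ℓ n : ℝ)) ∧ ∀ n, δ n * (ℓ n : ℝ) < x₀ + δ n := by
  have h1 : ∀ n, x₀ ≤ δ n * ((⌈x₀ / δ n⌉ : ℤ) : ℝ) := fun n => by
    have := Int.le_ceil (x₀ / δ n)
    rw [div_le_iff₀ (δpos n)] at this
    linarith
  have h2 : ∀ n, δ n * ((⌈x₀ / δ n⌉ : ℤ) : ℝ) < x₀ + δ n := fun n => by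
    have := Int.ceil_lt_add_one (x₀ / δ n)
    have h3 := mul_lt_mul_of_pos_left this (δpos n)
    rw [mul_add, mul_div_cancel₀ _ (δpos n).ne', mul_one] at h3
    exact h3
  refine ⟨fun n => ⌈x₀ / δ n⌉, ?_, h1, h2⟩
  refine tendsto_of_tendsto_of_tendsto_of_le_of_le tendsto_const_nhds
    (h := fun n => x₀ + δ n) ?_ h1 fun n => (h2 n).le
  simpa using δlim.const_add x₀

/-- **Ward identity with grid patches.** -/
theorem ward_grid {P : Measure Ht} (hP : PlaneState P) {δ : ℕ → ℝ} (δpos : ∀ n, 0 < δ n)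
    (δlim : Tendsto δ atTop (𝓝 0)) {r γ : ℝ} (hγ : 0 < γ) (hr : 2 * γ ≤ r) (K : Finset P2)
    (k₀ : P2) (hk₀ : k₀ ∉ K) {O : ℕ → Ht → ℂ} {M : ℝ} (hM : 0 ≤ M)
    (hO : ∀ n, ∫ h, ‖O n h‖ ^ 2 ∂P ≤ M ^ 2) {T : ℕ → Finset P2} {β : ℕ → ℝ}
    (fnO : ∀ n, Fn (T n : Set P2) (β n) (O n))
    (suppO : ∀ n, ∀ v ∈ T n, Cell r γ k₀ (δ n * v.1) (δ n * v.2))
    (ℓ : ℕ → ℤ) (hℓ : Tendsto (fun n => δ n * (ℓ n : ℝ)) atTop (𝓝 (r * k₀.1)))
    (hℓL : ∀ n, r * k₀.1 ≤ δ n * (ℓ n : ℝ))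
    (small : Tendsto (fun n => (∫ h, conj (O n (act (rfl6 (1, 0) (ℓ n)) h)) * O n h ∂P).re)
      atTop (𝓝 0)) {ε : ℝ} (hε : 0 < ε) :
    ∃ N : ℕ, ∀ n, N ≤ n → ∀ (A : P2 → Ht → ℂ) (S : P2 → Finset P2) (α : P2 → ℝ),
      (∀ k ∈ K, ∀ h, Lp h → ‖A k h‖ ≤ 1) → (∀ k ∈ K, Fn (S k : Set P2) (α k) (A k)) →
      (∀ k ∈ K, ∀ v ∈ S k, Cell r γ k (δ n * v.1) (δ n * v.2)) →
      ∑ k ∈ K, α k + β n = 0 → ‖∫ h, (∏ k ∈ K, A k h) * O n h ∂P‖ ≤ ε := by
  let E : PIn P :=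
    { G := gridGeo hγ hr K k₀
      prob := hP.prob
      lip := hP.lip
      rp := rpHyp6 hP
      δ := δ
      δpos := δpos
      δlim := δlim
      O := O
      M := M
      M0 := hM
      hO := hO
      T := T
      β := β
      fnO := fnO
      suppO := fun n v hv => suppO n v hv
      ℓ := ℓ
      hℓ := hℓ
      hℓL := hℓL
      small := small }
  obtain ⟨N, hN⟩ := E.uniform_patches hε
  refine ⟨N, fun n hn A S α h1 h2 h3 h4 => ?_⟩
  refine hN n hn K (grp k₀) A S α h1 h2 (fun k hk v hv => ?_) h4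
  exact grid_reg hγ hr hk (fun e => hk₀ (by rw [← e]; exact hk)) (h3 k hk v hv)

end Crest.Agent.R144.Ga3572
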