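import Crest.Agent.R144.Pst5_967
import Crest.Agent.R161.Topo_374

/-!
# R144, planar input X1 on the triangular lattice (helper585)

Sites `P2 = ℤ × ℤ`, adjacency `HexHeights.Adj`, walks `ReflTransGen (StepIn S)`.
`xx w = 2 * w.1 + w.2` is (twice) the horizontal coordinate; `w.2` is the row.

* `cross` : a walk in `W` from `a` to `b` and a walk in `C` from `p` to `q` share a site, if the rows of
  `W` are between the rows of `p`, `q` and the abscissae of `C` are between those of `a`, `b`.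
* `cross_par` : the same with the slanted coordinate `w.1` in place of `xx w`.
* `rot` : rotation by 120 degrees, `rfl'` : reflection in a vertical line.
-/

set_option autoImplicit false

noncomputable section

namespace Crest.Agent.R144.Hex585

open Crest.Agent.R144.It844 (P2 adj_iff)
open Crest.Agent.R144.Zg349 (StepIn)
open Crest.Agent.R144.Pst967 (path_symm stepIn_symm)
open Crest.ProbabilityR.HexHeights (Adj)
open Crest.Agent.R161.Topo374 (Nbr Walk)

/-- walk inside a set of sites -/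
abbrev Path (S : Set P2) (u v : P2) : Prop := Relation.ReflTransGen (StepIn S) u v

/-- twice the horizontal coordinate -/
def xx (w : P2) : ℤ := 2 * w.1 + w.2

/-- the brick of a site -/
def brick (w : P2) : Set (ℤ × ℤ) := {c | c.2 = w.2 ∧ (c.1 = xx w ∨ c.1 = xx w + 1)}

def bricks (S : Set P2) : Set (ℤ × ℤ) := {c | ∃ w ∈ S, c ∈ brick w}

theorem brick_inj {u v : P2} {c : ℤ × ℤ} (hu : c ∈ brick u) (hv : c ∈ brick v) : u = v := by
  obtain ⟨a, b⟩ := u
  obtain ⟨d, e⟩ := v
  obtain ⟨h1, h2⟩ := hu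
  obtain ⟨h3, h4⟩ := hv
  simp only [xx] at *
  have : b = e := by omega
  subst this
  have : a = d := by omega
  subst this
  rfl

theorem left_mem (w : P2) : (xx w, w.2) ∈ brick w := ⟨rfl, Or.inl rfl⟩
theorem right_mem (w : P2) : (xx w + 1, w.2) ∈ brick w := ⟨rfl, Or.inr rfl⟩

theorem brick_walk {S : Set P2} {w : P2} (hw : w ∈ S) {c d : ℤ × ℤ} (hc : c ∈ brick w)
    (hd : d ∈ brick w) : Walk (bricks S) c d := by
  have hc' : c ∈ bricks S := ⟨w, hw, hc⟩
  have hd' : d ∈ bricks S := ⟨w, hw, hd⟩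
  obtain ⟨c1, c2⟩ := c
  obtain ⟨d1, d2⟩ := d
  obtain ⟨h1, h2⟩ := hc
  obtain ⟨h3, h4⟩ := hd
  simp only at h1 h2 h3 h4
  by_cases h : c1 = d1
  · have : c2 = d2 := by omega
    subst h
    subst this
    exact Walk.refl hc'
  · refine Walk.step hc' hd' ?_
    unfold Nbr
    simp only
    omega

theorem step_walk {S : Set P2} {u v : P2} (hu : u ∈ S) (hv : v ∈ S) (h : Adj u v) {c d : ℤ × ℤ}
    (hc : c ∈ brick u) (hd : d ∈ brick v) : Walk (bricks S) c d := by
  have key : ∃ c' ∈ brick u, ∃ d' ∈ brick v, Nbr c' d' := by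
    obtain ⟨a, b⟩ := u
    rcases adj_iff.1 h with h | h | h | h | h | h <;> subst h
    · exact ⟨_, right_mem _, _, left_mem _, Or.inl ⟨rfl, Or.inl (by simp only [xx]; ring)⟩⟩
    · exact ⟨_, left_mem _, _, right_mem _, Or.inl ⟨rfl, Or.inr (by simp only [xx]; ring)⟩⟩
    · exact ⟨_, right_mem _, _, left_mem _, Or.inr ⟨by simp only [xx]; ring, Or.inl rfl⟩⟩
    · exact ⟨_, left_mem _, _, right_mem _,
        Or.inr ⟨by simp only [xx]; ring, Or.inr (by simp only; ring)⟩⟩
    · exact ⟨_, right_mem _, _, left_mem _,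
        Or.inr ⟨by simp only [xx]; ring, Or.inr (by simp only; ring)⟩⟩
    · exact ⟨_, left_mem _, _, right_mem _, Or.inr ⟨by simp only [xx]; ring, Or.inl rfl⟩⟩
  obtain ⟨c', hc', d', hd', hn⟩ := key
  exact ((brick_walk hu hc hc').trans (Walk.step ⟨u, hu, hc'⟩ ⟨v, hv, hd'⟩ hn)).trans
    (brick_walk hv hd' hd)

theorem path_walk {S : Set P2} {u v : P2} (hu : u ∈ S) (h : Path S u v) {c d : ℤ × ℤ}
    (hc : c ∈ brick u) (hd : d ∈ brick v) : Walk (bricks S) c d := by
  induction h generalizing d with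
  | refl => exact brick_walk hu hc hd
  | @tail w x _ h2 ih => exact (ih (left_mem w)).trans (step_walk h2.1 h2.2.1 h2.2.2 (left_mem w) hd)

theorem path_right {S : Set P2} {u v : P2} (hu : u ∈ S) (h : Path S u v) : v ∈ S := by
  induction h with
  | refl => exact hu
  | tail _ h2 _ => exact h2.2.1

/-- **X1**, horizontal coordinate form. -/
theorem cross {W C : Set P2} {a b p q : P2} (ha : a ∈ W) (hab : Path W a b) (hp : p ∈ C)
    (hpq : Path C p q) (hW : ∀ w ∈ W, p.2 ≤ w.2 ∧ w.2 ≤ q.2)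
    (hC : ∀ w ∈ C, xx a ≤ xx w ∧ xx w ≤ xx b) : (W ∩ C).Nonempty := by
  have h1 : Walk (bricks W) (xx a, a.2) (xx b + 1, b.2) :=
    path_walk ha hab (left_mem a) (right_mem b)
  have h2 : Walk (bricks C) (xx p, p.2) (xx q, q.2) := path_walk hp hpq (left_mem p) (left_mem q)
  obtain ⟨c, ⟨u, hu, hcu⟩, ⟨v, hv, hcv⟩⟩ := Crest.Agent.R161.Topo374.cross h1 h2
    (by
      rintro c ⟨w, hw, hc⟩
      have := hW w hw
      simp only [hc.1]
      exact this)
    (by
      rintro c ⟨w, hw, hc⟩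
      have := hC w hw
      rcases hc.2 with h | h <;> simp only [h] <;> omega)
  exact ⟨u, hu, by rw [brick_inj hcu hcv]; exact hv⟩

/-- horizontal ray to the left of `a` -/
def rayL (a : P2) : Set P2 := {w | w.2 = a.2 ∧ w.1 ≤ a.1}
/-- horizontal ray to the right of `a` -/
def rayR (a : P2) : Set P2 := {w | w.2 = a.2 ∧ a.1 ≤ w.1}

theorem path_mono {S T : Set P2} (h : S ⊆ T) {u v : P2} (p : Path S u v) : Path T u v :=
  Relation.ReflTransGen.mono (fun _ _ hab => ⟨h hab.1, h hab.2.1, hab.2.2⟩) _ _ p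

theorem path_row {S : Set P2} (a : P2) (n : ℕ)
    (h : ∀ k : ℕ, k ≤ n → (a.1 + k, a.2) ∈ S) : Path S a (a.1 + n, a.2) := by
  induction n with
  | zero =>
    have : ((a.1 + ((0 : ℕ) : ℤ), a.2) : P2) = a := by ext <;> simp
    rw [this]
  | succ n ih =>
    refine (ih fun k hk => h k (by omega)).tail ⟨h n (by omega), h (n + 1) le_rfl, ?_⟩
    rw [adj_iff]
    left
    exact Prod.ext (by push_cast; ring) rfl

/-- travel along a row -/
theorem path_row' {S : Set P2} {x y j : ℤ} (hxy : x ≤ y) (h : ∀ i, x ≤ i → i ≤ y → (i, j) ∈ S) :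
    Path S (x, j) (y, j) := by
  obtain ⟨n, rfl⟩ : ∃ n : ℕ, y = x + n := ⟨(y - x).toNat, by omega⟩
  exact path_row (x, j) n fun k hk => by
    show ((x + (k : ℤ), j) : P2) ∈ S
    exact h (x + (k : ℤ)) (by omega) (by omega)

theorem path_rayL {a : P2} {x : ℤ} (h : x ≤ a.1) : Path (rayL a) (x, a.2) a :=
  path_row' (y := a.1) h fun _ _ hi => ⟨rfl, hi⟩

theorem path_rayR {a : P2} {x : ℤ} (h : a.1 ≤ x) : Path (rayR a) a (x, a.2) :=
  path_row' (x := a.1) h fun _ hi _ => ⟨rfl, hi⟩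

/-- **X1**, slanted form: `W` runs from the line `w.1 = a.1` to the line `w.1 = b.1`, `C` lives
between these two lines. -/
theorem cross_par {W C : Set P2} {a b p q : P2} (ha : a ∈ W) (hab : Path W a b) (hp : p ∈ C)
    (hpq : Path C p q) (hW : ∀ w ∈ W, p.2 ≤ w.2 ∧ w.2 ≤ q.2)
    (hC : ∀ w ∈ C, a.1 ≤ w.1 ∧ w.1 ≤ b.1) (hCr : ∀ w ∈ C, p.2 ≤ w.2 ∧ w.2 ≤ q.2) :
    (W ∩ C).Nonempty := by
  set W' : Set P2 := W ∪ (rayL a ∪ rayR b) with hW'
  have hb : b ∈ W := path_right ha hab
  have haW := hW a ha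
  have hbW := hW b hb
  set a' : P2 := (a.1 - (q.2 - p.2) , a.2) with ha'
  set b' : P2 := (b.1 + (q.2 - p.2), b.2) with hb'
  have hpq' : p.2 ≤ q.2 := haW.1.trans haW.2
  have h1 : Path W' a' b' := by
    have e1 : Path W' a' a := path_mono (fun w hw => Or.inr (Or.inl hw)) (path_rayL (by omega))
    have e2 : Path W' a b := path_mono (fun w hw => Or.inl hw) hab
    have e3 : Path W' b b' := path_mono (fun w hw => Or.inr (Or.inr hw)) (path_rayR (by omega))
    exact (e1.trans e2).trans e3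
  have h2 : a' ∈ W' := Or.inr (Or.inl ⟨rfl, by simp only [ha']; omega⟩)
  obtain ⟨w, hw, hwC⟩ := cross h2 h1 hp hpq
    (by
      rintro w (h | h | h)
      · exact hW w h
      · rw [h.1]; exact haW
      · rw [h.1]; exact hbW)
    (by
      intro w hw
      have h3 := hC w hw
      have h4 := hCr w hw
      simp only [xx, ha', hb']
      omega)
  rcases hw with h | h | h
  · exact ⟨w, h, hwC⟩
  · have h3 := hC w hwC
    have : w = a := Prod.ext (le_antisymm h.2 h3.1) h.1
    exact ⟨w, this ▸ ha, hwC⟩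
  · have h3 := hC w hwC
    have : w = b := Prod.ext (le_antisymm h3.2 h.2) h.1
    exact ⟨w, this ▸ hb, hwC⟩

/-- **X1** in the form of 1941: a connected set touching the lowest and the highest row of a strip
meets every walk of the strip from its left to its right. -/
theorem x1 {W C : Set P2} {a b p q : P2} {j0 j1 : ℤ} (hp : p ∈ C) (hp0 : p.2 = j0)
    (hq1 : q.2 = j1) (hpq : Path C p q) (ha : a ∈ W) (hab : Path W a b)
    (hW : ∀ w ∈ W, j0 ≤ w.2 ∧ w.2 ≤ j1) (hC : ∀ w ∈ C, xx a ≤ xx w ∧ xx w ≤ xx b) :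
    (W ∩ C).Nonempty := by
  subst hp0
  subst hq1
  exact cross ha hab hp hpq hW hC

/-! ### symmetries -/

/-- rotation by 120 degrees -/
def rot : P2 ≃ P2 where
  toFun w := (-w.1 - w.2, w.1)
  invFun w := (w.2, -w.1 - w.2)
  left_inv w := Prod.ext rfl (by simp only; ring)
  right_inv w := Prod.ext (by simp only; ring) rfl

/-- reflection in the vertical line through `0` -/
def refl' : P2 ≃ P2 where
  toFun w := (-w.1 - w.2, w.2)
  invFun w := (-w.1 - w.2, w.2)
  left_inv w := Prod.ext (by simp only; ring) rfl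
  right_inv w := Prod.ext (by simp only; ring) rfl

theorem adj_rot {u v : P2} : Adj (rot u) (rot v) ↔ Adj u v := by
  obtain ⟨a, b⟩ := u
  obtain ⟨c, d⟩ := v
  rw [adj_iff, adj_iff]
  simp only [rot, Equiv.coe_fn_mk, Prod.mk.injEq]
  omega

theorem adj_refl' {u v : P2} : Adj (refl' u) (refl' v) ↔ Adj u v := by
  obtain ⟨a, b⟩ := u
  obtain ⟨c, d⟩ := v
  rw [adj_iff, adj_iff]
  simp only [refl', Equiv.coe_fn_mk, Prod.mk.injEq]
  omega

theorem xx_refl' (w : P2) : xx (refl' w) = - xx w := by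
  simp only [refl', xx, Equiv.coe_fn_mk]
  ring

/-- a graph isomorphism carries walks to walks -/
theorem path_map {S T : Set P2} (g : P2 → P2) (hg : ∀ u v, Adj u v → Adj (g u) (g v))
    (hS : ∀ w ∈ S, g w ∈ T) {u v : P2} (p : Path S u v) : Path T (g u) (g v) := by
  induction p with
  | refl => exact .refl
  | tail _ h ih => exact ih.tail ⟨hS _ h.1, hS _ h.2.1, hg _ _ h.2.2⟩

end Crest.Agent.R144.Hex585
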