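import Crest.Agent.R144.Hex1_585

/-!
# R144, planar input X2 (Hex) on the triangular lattice (helper585)

* `hex` : in every two-colouring of the parallelogram `Rect x0 x1 y0 y1` there is a left-right walk of
  the first colour or a bottom-top walk of the second colour.
-/

set_option autoImplicit false

noncomputable section

namespace Crest.Agent.R144.Hex585

open Finset
open Crest.Agent.R144.It844 (P2 adj_iff)
open Crest.Agent.R144.Zg349 (StepIn)
open Crest.Agent.R144.Pst967 (path_symm stepIn_symm)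
open Crest.ProbabilityR.HexHeights (Adj)
open Crest.Agent.R161.Topo374 (ind ind_true ind_false zmod2_add_self zmod2_eq_of_add)

/-- parallelogram -/
def Rect (x0 x1 y0 y1 : ℤ) : Set P2 := {w | (x0 ≤ w.1 ∧ w.1 ≤ x1) ∧ y0 ≤ w.2 ∧ w.2 ≤ y1}

/-- mod 2 count of `S`-`T` contacts on the edge `u v` -/
def ec (s t : P2 → ZMod 2) (u v : P2) : ZMod 2 := s u * t v + t u * s v

theorem tri_zero (s t : P2 → ZMod 2) (u v w : P2) (h0 : ∀ x, s x * t x = 0)
    (h : ∀ x y z : P2, (x = u ∨ x = v ∨ x = w) → (y = u ∨ y = v ∨ y = w) → (z = u ∨ z = v ∨ z = w) →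
      s x = 1 → t y = 1 → s z = 1 ∨ t z = 1) :
    ec s t u v + ec s t v w + ec s t u w = 0 := by
  have hu := h0 u
  have hv := h0 v
  have hw := h0 w
  have h1 := h u v w (Or.inl rfl) (Or.inr (Or.inl rfl)) (Or.inr (Or.inr rfl))
  have h2 := h v u w (Or.inr (Or.inl rfl)) (Or.inl rfl) (Or.inr (Or.inr rfl))
  have h3 := h u w v (Or.inl rfl) (Or.inr (Or.inr rfl)) (Or.inr (Or.inl rfl))
  have h4 := h w u v (Or.inr (Or.inr rfl)) (Or.inl rfl) (Or.inr (Or.inl rfl))
  have h5 := h v w u (Or.inr (Or.inl rfl)) (Or.inr (Or.inr rfl)) (Or.inl rfl)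
  have h6 := h w v u (Or.inr (Or.inr rfl)) (Or.inr (Or.inl rfl)) (Or.inl rfl)
  unfold ec
  generalize s u = a at *
  generalize s v = b at *
  generalize s w = c at *
  generalize t u = d at *
  generalize t v = e at *
  generalize t w = f at *
  clear h h0
  have z2 : ∀ x : ZMod 2, x = 0 ∨ x = 1 := by decide
  rcases z2 a with rfl | rfl <;> rcases z2 b with rfl | rfl <;> rcases z2 c with rfl | rfl <;>
    rcases z2 d with rfl | rfl <;> rcases z2 e with rfl | rfl <;> rcases z2 f with rfl | rfl <;>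
    first
    | rfl
    | (exfalso; simp_all)

theorem ind_eq_one {p : Prop} : ind p = 1 ↔ p := by
  constructor
  · intro h
    by_contra hp
    rw [ind_false hp] at h
    exact absurd h (by decide)
  · exact ind_true

/-- **X2** (Hex). -/
theorem hex (A : Set P2) {x0 x1 y0 y1 : ℤ} (hx : x0 ≤ x1) (hy : y0 ≤ y1) :
    (∃ a b : P2, a.1 = x0 ∧ b.1 = x1 ∧ a ∈ A ∩ Rect x0 x1 y0 y1 ∧ b ∈ A ∩ Rect x0 x1 y0 y1 ∧
      Path (A ∩ Rect x0 x1 y0 y1) a b) ∨
    (∃ p q : P2, p.2 = y0 ∧ q.2 = y1 ∧ p ∈ Aᶜ ∩ Rect x0 x1 y0 y1 ∧ q ∈ Aᶜ ∩ Rect x0 x1 y0 y1 ∧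
      Path (Aᶜ ∩ Rect x0 x1 y0 y1) p q) := by
  by_contra hcon
  rw [not_or] at hcon
  obtain ⟨hL, hB⟩ := hcon
  set R := Rect x0 x1 y0 y1 with hR
  -- reached from the left in `A`
  set S : P2 → Prop := fun v => v ∈ A ∩ R ∧ ∃ a : P2, a.1 = x0 ∧ a ∈ A ∩ R ∧ Path (A ∩ R) a v with hS
  set T : P2 → Prop := fun v => v ∈ Aᶜ ∩ R ∧ ∃ a : P2, a.2 = y0 ∧ a ∈ Aᶜ ∩ R ∧ Path (Aᶜ ∩ R) a v
    with hT
  have hSr : ∀ v, S v → v.1 < x1 := by
    rintro v ⟨h1, a, h2, h3, h4⟩
    rcases lt_or_eq_of_le h1.2.1.2 with h | h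
    · exact h
    · exact absurd ⟨a, v, h2, h, h3, h1, h4⟩ hL
  have hTt : ∀ v, T v → v.2 < y1 := by
    rintro v ⟨h1, a, h2, h3, h4⟩
    rcases lt_or_eq_of_le h1.2.2.2 with h | h
    · exact h
    · exact absurd ⟨a, v, h2, h, h3, h1, h4⟩ hB
  have hSn : ∀ u v, S u → v ∈ A ∩ R → Adj u v → S v := by
    rintro u v ⟨h1, a, h2, h3, h4⟩ hv hadj
    exact ⟨hv, a, h2, h3, h4.tail ⟨h1, hv, hadj⟩⟩
  have hTn : ∀ u v, T u → v ∈ Aᶜ ∩ R → Adj u v → T v := by
    rintro u v ⟨h1, a, h2, h3, h4⟩ hv hadj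
    exact ⟨hv, a, h2, h3, h4.tail ⟨h1, hv, hadj⟩⟩
  have hSl : ∀ v : P2, v ∈ A ∩ R → v.1 = x0 → S v := fun v hv h => ⟨hv, v, h, hv, .refl⟩
  have hTb : ∀ v : P2, v ∈ Aᶜ ∩ R → v.2 = y0 → T v := fun v hv h => ⟨hv, v, h, hv, .refl⟩
  -- labels
  set Ls : P2 → Prop := fun v => v.1 = x0 - 1 ∨ S v with hLs
  set Lt : P2 → Prop := fun v => (v.2 = y0 - 1 ∧ x0 ≤ v.1 ∧ v.1 ≤ x1) ∨ T v with hLt
  set s : P2 → ZMod 2 := fun v => ind (Ls v) with hs
  set t : P2 → ZMod 2 := fun v => ind (Lt v) with ht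
  have hdis : ∀ v, ¬ (Ls v ∧ Lt v) := by
    rintro v ⟨h1 | h1, h2 | h2⟩
    · omega
    · have := h2.1.2.1.1; omega
    · have := h1.1.2.2.1; omega
    · exact h2.1.1 h1.1.1
  have h0 : ∀ v, s v * t v = 0 := by
    intro v
    by_cases h1 : Ls v
    · have h2 : ¬ Lt v := fun h => hdis v ⟨h1, h⟩
      simp only [hs, ht, ind_false h2, mul_zero]
    · simp only [hs, ht, ind_false h1, zero_mul]
  -- the key relation for mutually adjacent sites in the enlarged parallelogram
  have key : ∀ u v w : P2, (x0 - 1 ≤ w.1 ∧ w.1 ≤ x1 + 1) → (y0 - 1 ≤ w.2 ∧ w.2 ≤ y1 + 1) →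
      (u = w ∨ Adj u w) → (v = w ∨ Adj v w) → Ls u → Lt v → Ls w ∨ Lt w := by
    intro u v w h1 h2 hu hv hsu htv
    rcases hu with rfl | hu
    · exact Or.inl hsu
    rcases hv with rfl | hv
    · exact Or.inr htv
    by_cases hwR : w ∈ R
    · by_cases hwA : w ∈ A
      · left
        right
        rcases hsu with h | h
        · refine hSl w ⟨hwA, hwR⟩ ?_
          have h3 := hwR.1.1
          have h4 := adj_iff.1 hu
          rcases h4 with h4 | h4 | h4 | h4 | h4 | h4 <;> rw [h4] at h3 ⊢ <;> simp only at h3 ⊢ <;> omega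
        · exact hSn u w h ⟨hwA, hwR⟩ hu
      · right
        right
        rcases htv with h | h
        · refine hTb w ⟨hwA, hwR⟩ ?_
          have h3 := hwR.2.1
          have h4 := adj_iff.1 hv
          rcases h4 with h4 | h4 | h4 | h4 | h4 | h4 <;> rw [h4] at h3 ⊢ <;> simp only at h3 ⊢ <;> omega
        · exact hTn v w h ⟨hwA, hwR⟩ hv
    · -- `w` is in the extra frame
      have h3 : ¬ ((x0 ≤ w.1 ∧ w.1 ≤ x1) ∧ y0 ≤ w.2 ∧ w.2 ≤ y1) := hwR
      by_cases hl : w.1 = x0 - 1
      · exact Or.inl (Or.inl hl)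
      by_cases hr : w.1 = x1 + 1
      · exfalso
        have h4 : u.1 ≤ x1 - 1 := by
          rcases hsu with h | h
          · omega
          · have := hSr u h; omega
        rcases adj_iff.1 hu with h5 | h5 | h5 | h5 | h5 | h5 <;> rw [h5] at hr <;> simp only at hr <;>
          omega
      by_cases hb : w.2 = y0 - 1
      · exact Or.inr (Or.inl ⟨hb, by omega, by omega⟩)
      · exfalso
        have hw : w.2 = y1 + 1 := by omega
        have h4 : v.2 ≤ y1 - 1 := by
          rcases htv with h | h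
          · omega
          · have := hTt v h; omega
        rcases adj_iff.1 hv with h5 | h5 | h5 | h5 | h5 | h5 <;> rw [h5] at hw <;> simp only at hw <;>
          omega
  -- the two triangles of a lozenge
  have htri : ∀ i j : ℤ, x0 - 1 ≤ i → i ≤ x1 → y0 - 1 ≤ j → j ≤ y1 →
      ec s t (i, j) (i + 1, j) + ec s t (i, j) (i, j + 1) + ec s t (i, j + 1) (i + 1, j + 1) +
        ec s t (i + 1, j) (i + 1, j + 1) = 0 := by
    intro i j h1 h2 h3 h4
    have a1 : Adj (i, j) (i + 1, j) := adj_iff.2 (by simp)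
    have a2 : Adj (i, j) (i, j + 1) := adj_iff.2 (by simp)
    have a3 : Adj (i + 1, j) (i, j + 1) := adj_iff.2 (by simp)
    have a4 : Adj (i, j + 1) (i + 1, j + 1) := adj_iff.2 (by simp)
    have a5 : Adj (i + 1, j) (i + 1, j + 1) := adj_iff.2 (by simp)
    have sy : ∀ {u v : P2}, Adj u v → Adj v u := fun {u v} h =>
      (stepIn_symm (S := Set.univ) ⟨trivial, trivial, h⟩).2.2
    have up := tri_zero s t (i, j) (i + 1, j) (i, j + 1) h0 (by
      intro x y z hx hy hz hsx hty
      have e1 : Ls x := ind_eq_one.1 hsx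
      have e2 : Lt y := ind_eq_one.1 hty
      have hz1 : (x0 - 1 ≤ z.1 ∧ z.1 ≤ x1 + 1) ∧ (y0 - 1 ≤ z.2 ∧ z.2 ≤ y1 + 1) := by
        rcases hz with rfl | rfl | rfl <;> simp only <;> omega
      have hxz : x = z ∨ Adj x z := by
        rcases hx with rfl | rfl | rfl <;> rcases hz with rfl | rfl | rfl <;>
          first
          | exact Or.inl rfl
          | exact Or.inr a1
          | exact Or.inr a2
          | exact Or.inr a3
          | exact Or.inr (sy a1)
          | exact Or.inr (sy a2)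
          | exact Or.inr (sy a3)
      have hyz : y = z ∨ Adj y z := by
        rcases hy with rfl | rfl | rfl <;> rcases hz with rfl | rfl | rfl <;>
          first
          | exact Or.inl rfl
          | exact Or.inr a1
          | exact Or.inr a2
          | exact Or.inr a3
          | exact Or.inr (sy a1)
          | exact Or.inr (sy a2)
          | exact Or.inr (sy a3)
      rcases key x y z hz1.1 hz1.2 hxz hyz e1 e2 with h | h
      · exact Or.inl (ind_true h)
      · exact Or.inr (ind_true h))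
    have dn := tri_zero s t (i + 1, j) (i, j + 1) (i + 1, j + 1) h0 (by
      intro x y z hx hy hz hsx hty
      have e1 : Ls x := ind_eq_one.1 hsx
      have e2 : Lt y := ind_eq_one.1 hty
      have hz1 : (x0 - 1 ≤ z.1 ∧ z.1 ≤ x1 + 1) ∧ (y0 - 1 ≤ z.2 ∧ z.2 ≤ y1 + 1) := by
        rcases hz with rfl | rfl | rfl <;> simp only <;> omega
      have hxz : x = z ∨ Adj x z := by
        rcases hx with rfl | rfl | rfl <;> rcases hz with rfl | rfl | rfl <;>
          first
          | exact Or.inl rfl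
          | exact Or.inr a3
          | exact Or.inr a4
          | exact Or.inr a5
          | exact Or.inr (sy a3)
          | exact Or.inr (sy a4)
          | exact Or.inr (sy a5)
      have hyz : y = z ∨ Adj y z := by
        rcases hy with rfl | rfl | rfl <;> rcases hz with rfl | rfl | rfl <;>
          first
          | exact Or.inl rfl
          | exact Or.inr a3
          | exact Or.inr a4
          | exact Or.inr a5
          | exact Or.inr (sy a3)
          | exact Or.inr (sy a4)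
          | exact Or.inr (sy a5)
      rcases key x y z hz1.1 hz1.2 hxz hyz e1 e2 with h | h
      · exact Or.inl (ind_true h)
      · exact Or.inr (ind_true h))
    have h5 := zmod2_add_self (ec s t (i + 1, j) (i, j + 1))
    generalize ec s t (i, j) (i + 1, j) = e1 at *
    generalize ec s t (i + 1, j) (i, j + 1) = e2 at *
    generalize ec s t (i, j) (i, j + 1) = e3 at *
    generalize ec s t (i, j + 1) (i + 1, j + 1) = e4 at *
    generalize ec s t (i + 1, j) (i + 1, j + 1) = e5 at *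
    clear h5
    revert up dn
    revert e1 e2 e3 e4 e5
    decide
  -- vertical contacts on the left and on the right vanish
  have hvl : ∀ j, ec s t (x0 - 1, j) (x0 - 1, j + 1) = 0 := by
    intro j
    have h1 : ∀ j, t (x0 - 1, j) = 0 := by
      intro j
      apply ind_false
      rintro (h | h)
      · simp only at h; omega
      · have := h.1.2.1.1; simp only at this; omega
    simp only [ec, h1, mul_zero, zero_mul, add_zero]
  have hvr : ∀ j, ec s t (x1 + 1, j) (x1 + 1, j + 1) = 0 := by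
    intro j
    have h1 : ∀ j, t (x1 + 1, j) = 0 := by
      intro j
      apply ind_false
      rintro (h | h)
      · simp only at h; omega
      · have := h.1.2.1.2; simp only at this; omega
    simp only [ec, h1, mul_zero, zero_mul, add_zero]
  set H : ℤ → ZMod 2 := fun j => ∑ i ∈ Icc (x0 - 1) x1, ec s t (i, j) (i + 1, j) with hH
  have hstep : ∀ j, y0 - 1 ≤ j → j ≤ y1 → H j = H (j + 1) := by
    intro j h1 h2
    apply zmod2_eq_of_add
    simp only [hH]
    rw [← Finset.sum_add_distrib]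
    have h3 : ∀ i ∈ Icc (x0 - 1) x1, ec s t (i, j) (i + 1, j) + ec s t (i, j + 1) (i + 1, j + 1) =
        (fun i => ec s t (i, j) (i, j + 1)) i + (fun i => ec s t (i, j) (i, j + 1)) (i + 1) := by
      intro i hi
      rw [mem_Icc] at hi
      have h4 := htri i j hi.1 hi.2 h1 h2
      simp only
      generalize ec s t (i, j) (i + 1, j) = e1 at *
      generalize ec s t (i, j) (i, j + 1) = e3 at *
      generalize ec s t (i, j + 1) (i + 1, j + 1) = e4 at *
      generalize ec s t (i + 1, j) (i + 1, j + 1) = e5 at *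
      revert h4
      revert e1 e3 e4 e5
      decide
    rw [Finset.sum_congr rfl h3]
    have h5 : ∀ (f : ℤ → ZMod 2) (a : ℤ) (n : ℕ), ∑ i ∈ Icc a (a + n), (f i + f (i + 1)) =
        f a + f (a + n + 1) := by
      intro f a n
      induction n with
      | zero => simp
      | succ n ih =>
        have : Icc a (a + ((n + 1 : ℕ) : ℤ)) = insert (a + n + 1) (Icc a (a + n)) := by
          ext x
          simp only [mem_Icc, mem_insert]
          push_cast
          omega
        rw [this, Finset.sum_insert (by simp), ih]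
        push_cast
        have e := zmod2_add_self (f (a + n + 1))
        rw [show a + ((n : ℤ) + 1) + 1 = a + n + 1 + 1 by ring]
        calc f (a + n + 1) + f (a + n + 1 + 1) + (f a + f (a + n + 1))
            = f a + f (a + n + 1 + 1) + (f (a + n + 1) + f (a + n + 1)) := by ring
          _ = _ := by rw [e, add_zero]
    obtain ⟨n, hn⟩ : ∃ n : ℕ, x1 = x0 - 1 + n := ⟨(x1 - (x0 - 1)).toNat, by omega⟩
    have h6 := h5 (fun i => ec s t (i, j) (i, j + 1)) (x0 - 1) n
    rw [← hn] at h6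
    rw [h6]
    show ec s t (x0 - 1, j) (x0 - 1, j + 1) + ec s t (x1 + 1, j) (x1 + 1, j + 1) = 0
    rw [hvl j, hvr j, add_zero]
  have hconst : ∀ n : ℕ, y0 - 1 + n ≤ y1 + 1 → H (y0 - 1) = H (y0 - 1 + n) := by
    intro n
    induction n with
    | zero => intro _; simp
    | succ n ih =>
      intro h
      push_cast at h ⊢
      rw [ih (by omega), hstep (y0 - 1 + n) (by omega) (by omega)]
      congr 1
      ring
  -- the top row
  have htop : H (y1 + 1) = 0 := by
    simp only [hH]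
    apply Finset.sum_eq_zero
    intro i _
    have h1 : ∀ i, t (i, y1 + 1) = 0 := by
      intro i
      apply ind_false
      rintro (h | h)
      · simp only at h; omega
      · have := hTt _ h; simp only at this; omega
    simp only [ec, h1, mul_zero, zero_mul, add_zero]
  -- the bottom row
  have hbot : H (y0 - 1) = 1 := by
    simp only [hH]
    have h1 : ∀ i, x0 ≤ i → s (i, y0 - 1) = 0 := by
      intro i hi
      apply ind_false
      rintro (h | h)
      · simp only at h; omega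
      · have := h.1.2.2.1; simp only at this; omega
    have h2 : s (x0 - 1, y0 - 1) = 1 := ind_true (Or.inl rfl)
    have h3 : t (x0, y0 - 1) = 1 := ind_true (Or.inl ⟨rfl, le_rfl, hx⟩)
    have h4 : t (x0 - 1, y0 - 1) = 0 := by
      apply ind_false
      rintro (h | h)
      · simp only at h; omega
      · have := h.1.2.1.1; simp only at this; omega
    rw [Finset.sum_eq_single_of_mem (x0 - 1) (by rw [mem_Icc]; omega)]
    · have : x0 - 1 + 1 = x0 := by ring
      rw [this]
      simp only [ec, h2, h3, h4, one_mul, zero_mul, add_zero]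
    · intro i hi hne
      rw [mem_Icc] at hi
      have e1 := h1 i (by omega)
      have e2 := h1 (i + 1) (by omega)
      simp only [ec, e1, e2, mul_zero, zero_mul, add_zero]
  have h1 := hconst (y1 + 1 - (y0 - 1)).toNat (by omega)
  have h2 : y0 - 1 + ((y1 + 1 - (y0 - 1)).toNat : ℤ) = y1 + 1 := by omega
  rw [h2, hbot, htop] at h1
  exact absurd h1 (by decide)

/-- Hex with the colours exchanged. -/
theorem hex' (A : Set P2) {x0 x1 y0 y1 : ℤ} (hx : x0 ≤ x1) (hy : y0 ≤ y1) :
    (∃ p q : P2, p.2 = y0 ∧ q.2 = y1 ∧ p ∈ A ∩ Rect x0 x1 y0 y1 ∧ q ∈ A ∩ Rect x0 x1 y0 y1 ∧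
      Path (A ∩ Rect x0 x1 y0 y1) p q) ∨
    (∃ a b : P2, a.1 = x0 ∧ b.1 = x1 ∧ a ∈ Aᶜ ∩ Rect x0 x1 y0 y1 ∧ b ∈ Aᶜ ∩ Rect x0 x1 y0 y1 ∧
      Path (Aᶜ ∩ Rect x0 x1 y0 y1) a b) := by
  have h := hex Aᶜ hx hy
  rw [compl_compl] at h
  exact h.symm

/-- not both -/
theorem hex_not_both (A : Set P2) {x0 x1 y0 y1 : ℤ} {a b p q : P2} (ha1 : a.1 = x0) (hb1 : b.1 = x1)
    (ha : a ∈ A ∩ Rect x0 x1 y0 y1) (hab : Path (A ∩ Rect x0 x1 y0 y1) a b) (hp1 : p.2 = y0)
    (hq1 : q.2 = y1) (hp : p ∈ Aᶜ ∩ Rect x0 x1 y0 y1)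
    (hpq : Path (Aᶜ ∩ Rect x0 x1 y0 y1) p q) : False := by
  subst ha1 hb1 hp1 hq1
  obtain ⟨w, h1, h2⟩ := cross_par ha hab hp hpq (fun w hw => hw.2.2) (fun w hw => hw.2.1)
    (fun w hw => hw.2.2)
  exact h2.1 h1.1

end Crest.Agent.R144.Hex585
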