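import Crest.Agent.R144.Hf10_702
import Crest.Agent.R144.Cw11_643
import Crest.Agent.R144.Pst11_967

/-!
# R144 HALF (helper702), file 11: the plane state input `PSq` from helper643's `Lim2`
-/

set_option autoImplicit false

noncomputable section

namespace Crest.Agent.R144.Hf702

open Finset MeasureTheory Filter Topology
open Crest.Agent.R144.It844 (P2)
open Crest.Agent.R144.Pst967 (Hz toR measurable_toR hexB mem_hexB)
open Crest.Agent.R144.Rsw867 (ball mem_ball)
open Crest.Agent.R144.Ps643 (Ht lin measurable_lin PlaneState)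
open Crest.Agent.R144.Ps643.PlaneState (vg)
open Crest.Agent.R144.Cw643 (CV BX mem_BX cov_CV Lim2)

theorem sum_shift {V : Finset P2} {a : P2} {m : ℕ} (hV : ∀ v ∈ V, v - a ∈ BX m) (u : P2 → ℝ) :
    ∑ p ∈ BX m, (if p + a ∈ V then u (p + a) else 0) = ∑ v ∈ V, u v := by
  rw [← Finset.sum_filter]
  refine Finset.sum_bij (fun p _ => p + a) ?_ ?_ ?_ ?_
  · intro p hp
    exact (Finset.mem_filter.1 hp).2
  · intro p _ q _ h
    exact add_right_cancel h
  · intro v hv
    exact ⟨v - a, Finset.mem_filter.2 ⟨hV v hv, by simpa using hv⟩, by simp⟩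
  · intro p _
    rfl

theorem CV_shift (W : P2 → ℝ) {V : Finset P2} {a : P2} {m : ℕ} (hV : ∀ v ∈ V, v - a ∈ BX m)
    (h : P2 → ℝ) :
    CV W (BX m) (fun p => if p + a ∈ V then h (p + a) else 0) (BX m)
      (fun p => if p + a ∈ V then h (p + a) else 0) = CV W V h V h := by
  unfold CV
  congr 1
  rw [← sum_shift hV]
  refine Finset.sum_congr rfl fun p _ => ?_
  by_cases hp : p + a ∈ V
  · rw [if_pos hp, ← sum_shift hV]
    refine Finset.sum_congr rfl fun q _ => ?_
    beta_reduce
    by_cases hq : q + a ∈ V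
    · rw [if_pos hp, if_pos hq, if_pos hq, add_sub_add_right_eq_sub]
    · rw [if_neg hq, if_neg hq]; ring
  · rw [if_neg hp]
    refine Finset.sum_eq_zero fun q _ => ?_
    beta_reduce
    rw [if_neg hp]
    ring

/-- **the plane state input** -/
theorem psq_of {P : Measure Hz} (hP : PlaneState (P.map toR)) {κ : ℝ}
    (hκ : Lim2 (vg (P.map toR)) κ) : PSq P := by
  obtain ⟨K, hK, hsq⟩ := hκ.sq
  intro A
  refine ⟨K * ((A : ℝ) + 1) ^ 8, fun s hs a V h hV hA h0 => ?_⟩
  have hsR : (1 : ℝ) ≤ s := by exact_mod_cast hs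
  have hVB : ∀ v ∈ V, v - a ∈ BX (A * s) := by
    intro v hv
    have := mem_ball.1 (hV hv)
    rw [mem_BX]
    exact ⟨this.1, this.2.1⟩
  have e1 : ∫ ω, Ln V h ω ^ 2 ∂P = ∫ ω, lin V h ω * lin V h ω ∂(P.map toR) := by
    have hm : Measurable fun ω : Ht => lin V h ω * lin V h ω :=
      (measurable_lin V h).mul (measurable_lin V h)
    rw [integral_map measurable_toR.aemeasurable hm.aestronglyMeasurable]
    refine integral_congr_ae (Eventually.of_forall fun ω => ?_)
    show Ln V h ω ^ 2 = lin V h (toR ω) * lin V h (toR ω)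
    rw [sq]
    rfl
  rw [e1, cov_CV hP h0 h0, ← CV_shift _ hVB]
  have hA0 : (0 : ℝ) ≤ A := Nat.cast_nonneg A
  refine hsq (A * s) s (A + 1) _ hsR (by linarith) ?_ ?_ ?_
  · push_cast
    nlinarith
  · intro p _
    split_ifs with hp
    · refine (hA _ hp).trans ?_
      exact div_le_div_of_nonneg_right (by linarith) (by positivity)
    · rw [abs_zero]; positivity
  · rw [sum_shift hVB h]
    exact h0

end Crest.Agent.R144.Hf702
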