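import Crest.Agent.R161.Abs_375
import Crest.Agent.R144.It2_844

/-!
# R144, block HALF (helper702), part 1: absolute values around the centre `1/2`, general finite graph

Heights `h : V → ℤ` are written `h = hh k σ`, `hh k σ v = k v + 1` if `σ v = 1` and `- k v` if `σ v = -1`, so
`h v - 1/2 = σ v * (k v + 1/2)`.  The edge weight is `ph x a b` (`1` if `a = b`, `x` if `|a - b| = 1`, `0` else).

* `prod_ph` : the weight of `hh k σ` = weight of `k` times a ferromagnetic weight `G x E (Tk E k)` of `σ`;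
* `dom_R`   : the law of `k` is stochastically increasing in the domain `(I, E)`;
* `MPos`    : "increasing positive" functions; `expect_mono` : expectations of `MPos` functions increase
  with the domain; `expect_nonneg`.
-/

set_option autoImplicit false
set_option linter.unusedSectionVars false
set_option linter.unusedVariables false

noncomputable section

namespace Crest.Agent.R144.Hf702

open Finset
open Crest.Agent.R161.Gks375 Crest.Agent.R161.Abs375
open Crest.Agent.R144.It844 (ph ph_nonneg ph_shift ph_neg ph_comm lsm_pair)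

section gen

variable {V K : Type*} [Fintype V] [DecidableEq V] [DecidableEq K]

/-- the height with absolute value `k + 1/2` and sign `σ` around `1/2` -/
def hh (k : V → ℕ) (σ : V → ℤˣ) (v : V) : ℤ := if σ v = 1 then (k v : ℤ) + 1 else -(k v : ℤ)

theorem hh_sub (k : V → ℕ) (σ : V → ℤˣ) (v : V) :
    ((hh k σ v : ℤ) : ℝ) - 1 / 2 = ((σ v : ℤ) : ℝ) * ((k v : ℝ) + 1 / 2) := by
  unfold hh
  rcases Int.units_eq_one_or (σ v) with h | h
  · rw [if_pos h, h]; push_cast; ring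
  · rw [if_neg (by rw [h]; decide), h]; push_cast; ring

/-- sign factor of an edge with both absolute values minimal -/
def pe (x : ℝ) (i j : K → V) (e : K) (σ : V → ℤˣ) : ℝ := if σ (i e) = σ (j e) then 1 else x

theorem pe_nonneg {x : ℝ} (hx0 : 0 ≤ x) (i j : K → V) (e : K) (σ : V → ℤˣ) : 0 ≤ pe x i j e σ := by
  unfold pe; split_ifs <;> linarith

theorem pe_ferro {x : ℝ} (hx0 : 0 ≤ x) (hx1 : x ≤ 1) (i j : K → V) (e : K) : Ferro (pe x i j e) := by
  by_cases hij : i e = j e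
  · exact Ferro.one.congr fun σ => by unfold pe; rw [hij, if_pos rfl]
  · refine (Ferro.affine (a := (1 + x) / 2) (b := (1 - x) / 2) (by linarith) (by linarith)
      {i e, j e}).congr fun σ => ?_
    have : chi {i e, j e} σ = ((σ (i e) : ℤ) : ℝ) * ((σ (j e) : ℤ) : ℝ) := by
      simp [chi, Finset.prod_pair hij]
    rw [this]
    unfold pe
    rcases Int.units_eq_one_or (σ (i e)) with h1 | h1 <;>
      rcases Int.units_eq_one_or (σ (j e)) with h2 | h2 <;> simp [h1, h2] <;> ring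

theorem ph_hh {x : ℝ} (i j : K → V) (k : V → ℕ) (σ : V → ℤˣ) (e : K) :
    ph x (hh k σ (i e)) (hh k σ (j e)) = ph x (k (i e)) (k (j e)) *
      (if k (i e) = 0 ∧ k (j e) = 0 then pe x i j e σ else
        (if σ (i e) = σ (j e) then 1 else 0)) := by
  have hne : ((-1 : ℤˣ) = 1) = False := by simp
  have hne' : ((1 : ℤˣ) = -1) = False := by simp
  unfold hh pe
  rcases Int.units_eq_one_or (σ (i e)) with h1 | h1 <;>
    rcases Int.units_eq_one_or (σ (j e)) with h2 | h2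
  · rw [h1, h2]
    simp only [if_true]
    rw [ph_shift]
    simp
  · rw [h1, h2]
    simp only [if_true, hne, hne', if_false]
    unfold ph
    by_cases h : k (i e) = 0 ∧ k (j e) = 0
    · rw [if_pos h, h.1, h.2]; simp
    · rw [if_neg h, mul_zero, if_neg]
      intro h3
      apply h
      have : (k (i e) : ℤ) + 1 - -(k (j e) : ℤ) ≤ 1 := (le_abs_self _).trans h3
      omega
  · rw [h1, h2]
    simp only [if_true, hne, hne', if_false]
    unfold ph
    by_cases h : k (i e) = 0 ∧ k (j e) = 0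
    · rw [if_pos h, h.1, h.2]; simp
    · rw [if_neg h, mul_zero, if_neg]
      intro h3
      apply h
      have : -(-(k (i e) : ℤ) - ((k (j e) : ℤ) + 1)) ≤ 1 := (neg_le_abs _).trans h3
      omega
  · rw [h1, h2]
    simp only [if_true, hne, hne', if_false]
    rw [ph_neg]
    simp

/-- edges carrying a sign constraint -/
def Tk (i j : K → V) (E : Finset K) (k : V → ℕ) : Finset K :=
  E.filter fun e => ¬ (k (i e) = 0 ∧ k (j e) = 0)

/-- sign weight -/
def G (x : ℝ) (i j : K → V) (E T : Finset K) (σ : V → ℤˣ) : ℝ :=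
  (∏ e ∈ E, pe x i j e σ) * ic i j T σ

/-- absolute value weight -/
def wk (x : ℝ) (i j : K → V) (E : Finset K) (k : V → ℕ) : ℝ :=
  ∏ e ∈ E, ph x (k (i e)) (k (j e))

theorem prod_ph {x : ℝ} (i j : K → V) (E : Finset K) (k : V → ℕ) (σ : V → ℤˣ) :
    ∏ e ∈ E, ph x (hh k σ (i e)) (hh k σ (j e)) = wk x i j E k * G x i j E (Tk i j E k) σ := by
  unfold wk G ic Tk
  rw [Finset.prod_filter, ← Finset.prod_mul_distrib, ← Finset.prod_mul_distrib]
  refine Finset.prod_congr rfl fun e _ => ?_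
  rw [ph_hh]
  by_cases h : k (i e) = 0 ∧ k (j e) = 0
  · rw [if_pos h, if_neg (not_not.2 h), mul_one]
  · rw [if_neg h, if_pos h]
    unfold pe
    split_ifs <;> ring

theorem G_nonneg {x : ℝ} (hx0 : 0 ≤ x) (i j : K → V) (E T : Finset K) (σ : V → ℤˣ) :
    0 ≤ G x i j E T σ :=
  mul_nonneg (Finset.prod_nonneg fun e _ => pe_nonneg hx0 i j e σ) (ic_nonneg i j T σ)

theorem G_ferro {x : ℝ} (hx0 : 0 ≤ x) (hx1 : x ≤ 1) (i j : K → V) (E T : Finset K) :
    Ferro (G x i j E T) :=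
  (Ferro.prod E fun e _ => pe_ferro hx0 hx1 i j e).mul (ic_ferro i j T)

/-- sign partition function -/
def Zs (x : ℝ) (i j : K → V) (E T : Finset K) : ℝ := ∑ σ : V → ℤˣ, G x i j E T σ

theorem Zs_pos {x : ℝ} (hx0 : 0 ≤ x) (i j : K → V) (E T : Finset K) : 0 < Zs x i j E T := by
  refine Finset.sum_pos' (fun σ _ => G_nonneg hx0 i j E T σ) ⟨1, Finset.mem_univ _, ?_⟩
  have h1 : ∏ e ∈ E, pe x i j e 1 = 1 := Finset.prod_eq_one fun e _ => by unfold pe; simp
  have h2 : ic i j T 1 = 1 := by rw [ic_eq, if_pos]; intro k _; rfl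
  unfold G
  rw [h1, h2]
  norm_num

/-- fewer constraints, bigger partition function -/
theorem Zs_anti {x : ℝ} (hx0 : 0 ≤ x) (i j : K → V) (E : Finset K) {T T' : Finset K} (h : T ⊆ T') :
    Zs x i j E T' ≤ Zs x i j E T := by
  refine Finset.sum_le_sum fun σ _ => mul_le_mul_of_nonneg_left ?_
    (Finset.prod_nonneg fun e _ => pe_nonneg hx0 i j e σ)
  rw [ic_eq, ic_eq]
  split_ifs with h1 h2 h2
  · exact le_rfl
  · exact absurd (fun k hk => h1 k (h hk)) h2
  · norm_num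
  · exact le_rfl

/-- average over the signs -/
def av (x : ℝ) (i j : K → V) (E T : Finset K) (f : (V → ℤˣ) → ℝ) : ℝ :=
  (∑ σ : V → ℤˣ, G x i j E T σ * f σ) / Zs x i j E T

theorem Zs_mul_av {x : ℝ} (hx0 : 0 ≤ x) (i j : K → V) (E T : Finset K) (f : (V → ℤˣ) → ℝ) :
    Zs x i j E T * av x i j E T f = ∑ σ : V → ℤˣ, G x i j E T σ * f σ := by
  unfold av
  field_simp [(Zs_pos hx0 i j E T).ne']

theorem av_nonneg {x : ℝ} (hx0 : 0 ≤ x) (hx1 : x ≤ 1) (i j : K → V) (E T : Finset K)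
    {f : (V → ℤˣ) → ℝ} (hf : Pos f) : 0 ≤ av x i j E T f :=
  div_nonneg ((G_ferro hx0 hx1 i j E T).pos.mul hf).sum_nonneg (Zs_pos hx0 i j E T).le

theorem av_sub (x : ℝ) (i j : K → V) (E T : Finset K) (f g : (V → ℤˣ) → ℝ) :
    av x i j E T (fun σ => f σ - g σ) = av x i j E T f - av x i j E T g := by
  unfold av
  rw [← sub_div, ← Finset.sum_sub_distrib]
  congr 1
  exact Finset.sum_congr rfl fun σ _ => by ring

theorem ic_sdiff (i j : K → V) {T T' : Finset K} (h : T ⊆ T') (σ : V → ℤˣ) :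
    ic i j T σ * ic i j (T' \ T) σ = ic i j T' σ := by
  have := ic_inter_sdiff i j T' T σ
  rwa [Finset.inter_eq_right.mpr h] at this

theorem prod_sdiff' {f : K → ℝ} {E E' : Finset K} (h : E ⊆ E') :
    (∏ e ∈ E, f e) * ∏ e ∈ E' \ E, f e = ∏ e ∈ E', f e := by
  rw [mul_comm]; exact Finset.prod_sdiff h

/-- **Griffiths**: averages of `Pos` functions increase with edges and constraints. -/
theorem av_mono {x : ℝ} (hx0 : 0 ≤ x) (hx1 : x ≤ 1) (i j : K → V) {E E' T T' : Finset K}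
    (hE : E ⊆ E') (hT : T ⊆ T') {f : (V → ℤˣ) → ℝ} (hf : Pos f) :
    av x i j E T f ≤ av x i j E' T' f := by
  unfold av
  rw [div_le_div_iff₀ (Zs_pos hx0 i j E T) (Zs_pos hx0 i j E' T')]
  have hg : Pos (fun σ => (∏ e ∈ E' \ E, pe x i j e σ) * ic i j (T' \ T) σ) :=
    (Pos.prod _ fun e _ => (pe_ferro hx0 hx1 i j e).pos).mul (ic_ferro i j _).pos
  have key := gks2 (G_ferro hx0 hx1 i j E T) hf hg
  have e1 : ∀ σ, G x i j E T σ * ((∏ e ∈ E' \ E, pe x i j e σ) * ic i j (T' \ T) σ) =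
      G x i j E' T' σ := fun σ => by
    unfold G
    rw [← ic_sdiff i j hT, ← prod_sdiff' hE]
    ring
  have e2 : ∑ σ, G x i j E T σ * ((∏ e ∈ E' \ E, pe x i j e σ) * ic i j (T' \ T) σ) =
      Zs x i j E' T' := Finset.sum_congr rfl fun σ _ => e1 σ
  have e3 : ∑ σ, G x i j E T σ * (f σ * ((∏ e ∈ E' \ E, pe x i j e σ) * ic i j (T' \ T) σ)) =
      ∑ σ, G x i j E' T' σ * f σ :=
    Finset.sum_congr rfl fun σ _ => by rw [← e1 σ]; ring
  rw [e2, e3] at key
  calc _ ≤ _ := key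
    _ = _ := by unfold Zs; ring

/-- **The partition function inequality for domination.** -/
theorem Zs_dom {x : ℝ} (hx0 : 0 ≤ x) (hx1 : x ≤ 1) (i j : K → V) {E E' T T' Ti : Finset K}
    (hE : E ⊆ E') (h1 : Ti ⊆ T) (h2 : Ti ⊆ T') :
    Zs x i j E T * Zs x i j E' T' ≤ Zs x i j E Ti * Zs x i j E' (T ∪ T') := by
  have hf : Pos (fun σ => ic i j (T \ Ti) σ) := (ic_ferro i j _).pos
  have hg : Pos (fun σ => (∏ e ∈ E' \ E, pe x i j e σ) * ic i j (T' \ Ti) σ) :=
    (Pos.prod _ fun e _ => (pe_ferro hx0 hx1 i j e).pos).mul (ic_ferro i j _).pos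
  have key := gks2 (G_ferro hx0 hx1 i j E Ti) hf hg
  have e1 : ∀ σ, G x i j E Ti σ * ic i j (T \ Ti) σ = G x i j E T σ := fun σ => by
    unfold G
    rw [← ic_sdiff i j h1]; ring
  have e2 : ∀ σ, G x i j E Ti σ * ((∏ e ∈ E' \ E, pe x i j e σ) * ic i j (T' \ Ti) σ) =
      G x i j E' T' σ := fun σ => by
    unfold G
    rw [← ic_sdiff i j h2, ← prod_sdiff' hE]; ring
  have e3 : ∀ σ, G x i j E Ti σ * (ic i j (T \ Ti) σ *
      ((∏ e ∈ E' \ E, pe x i j e σ) * ic i j (T' \ Ti) σ)) = G x i j E' (T ∪ T') σ := fun σ => by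
    unfold G
    rw [← prod_sdiff' hE]
    have : ic i j Ti σ * (ic i j (T \ Ti) σ * ic i j (T' \ Ti) σ) = ic i j (T ∪ T') σ := by
      rw [ic_eq, ic_eq, ic_eq, ic_eq]
      by_cases hA : ∀ k ∈ T ∪ T', σ (i k) = σ (j k)
      · rw [if_pos hA, if_pos fun k hk => hA k (Finset.mem_union_left _ (h1 hk)),
          if_pos fun k hk => hA k (Finset.mem_union_left _ (Finset.mem_sdiff.1 hk).1),
          if_pos fun k hk => hA k (Finset.mem_union_right _ (Finset.mem_sdiff.1 hk).1)]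
        norm_num
      · rw [if_neg hA]
        push Not at hA
        obtain ⟨k, hk, hne⟩ := hA
        by_cases hki : k ∈ Ti
        · rw [if_neg fun h => hne (h k hki), zero_mul]
        · rcases Finset.mem_union.1 hk with hk | hk
          · have : ¬ ∀ k ∈ T \ Ti, σ (i k) = σ (j k) :=
              fun h => hne (h k (Finset.mem_sdiff.2 ⟨hk, hki⟩))
            rw [if_neg this]; ring
          · have : ¬ ∀ k ∈ T' \ Ti, σ (i k) = σ (j k) :=
              fun h => hne (h k (Finset.mem_sdiff.2 ⟨hk, hki⟩))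
            rw [if_neg this]; ring
    rw [← this]; ring
  have k1 : ∑ σ, G x i j E Ti σ * ic i j (T \ Ti) σ = Zs x i j E T :=
    Finset.sum_congr rfl fun σ _ => e1 σ
  have k2 : ∑ σ, G x i j E Ti σ * ((∏ e ∈ E' \ E, pe x i j e σ) * ic i j (T' \ Ti) σ) =
      Zs x i j E' T' := Finset.sum_congr rfl fun σ _ => e2 σ
  have k3 : ∑ σ, G x i j E Ti σ * (ic i j (T \ Ti) σ *
      ((∏ e ∈ E' \ E, pe x i j e σ) * ic i j (T' \ Ti) σ)) = Zs x i j E' (T ∪ T') :=
    Finset.sum_congr rfl fun σ _ => e3 σ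
  rw [k1, k2, k3] at key
  exact key

open Classical in
/-- the law (unnormalised) of the absolute values -/
def R (x : ℝ) (i j : K → V) (I : Finset V) (E : Finset K) (k : V → ℕ) : ℝ :=
  (if ∀ v, v ∉ I → k v = 0 then 1 else 0) * wk x i j E k * Zs x i j E (Tk i j E k)

theorem wk_nonneg {x : ℝ} (hx0 : 0 ≤ x) (i j : K → V) (E : Finset K) (k : V → ℕ) :
    0 ≤ wk x i j E k := Finset.prod_nonneg fun e _ => ph_nonneg hx0 _ _

theorem R_nonneg {x : ℝ} (hx0 : 0 ≤ x) (i j : K → V) (I : Finset V) (E : Finset K) (k : V → ℕ) :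
    0 ≤ R x i j I E k := by
  unfold R
  refine mul_nonneg (mul_nonneg ?_ (wk_nonneg hx0 i j E k)) (Zs_pos hx0 i j E _).le
  split_ifs <;> norm_num

theorem ph_lsm {x : ℝ} (hx0 : 0 ≤ x) (hx1 : x ≤ 1) (a b c d : ℕ) :
    ph x a b * ph x c d ≤ ph x ((min a c : ℕ) : ℤ) ((min b d : ℕ) : ℤ) *
      ph x ((max a c : ℕ) : ℤ) ((max b d : ℕ) : ℤ) := by
  have := (lsm_pair hx0 hx1).2 ((a : ℤ), (b : ℤ)) ((c : ℤ), (d : ℤ))
  simpa [Nat.cast_min, Nat.cast_max] using this

/-- **Domination**: the absolute values increase with the domain. -/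
theorem dom_R {x : ℝ} (hx0 : 0 ≤ x) (hx1 : x ≤ 1) (i j : K → V) {I I' : Finset V}
    {E E' : Finset K} (hI : I ⊆ I') (hE : E ⊆ E')
    (hIE : ∀ e ∈ E', e ∉ E → i e ∉ I ∧ j e ∉ I) : Dom (R x i j I E) (R x i j I' E') := by
  refine ⟨R_nonneg hx0 i j I E, R_nonneg hx0 i j I' E', fun k k' => ?_⟩
  have hR := mul_nonneg (R_nonneg hx0 i j I E (k ⊓ k')) (R_nonneg hx0 i j I' E' (k ⊔ k'))
  by_cases hk : ∀ v, v ∉ I → k v = 0
  swap
  · have : R x i j I E k = 0 := by unfold R; rw [if_neg hk]; ring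
    rw [this, zero_mul]; exact hR
  by_cases hk' : ∀ v, v ∉ I' → k' v = 0
  swap
  · have : R x i j I' E' k' = 0 := by unfold R; rw [if_neg hk']; ring
    rw [this, mul_zero]; exact hR
  have h1 : ∀ v, v ∉ I → (k ⊓ k') v = 0 := fun v hv => by
    simp [Pi.inf_apply, hk v hv]
  have h2 : ∀ v, v ∉ I' → (k ⊔ k') v = 0 := fun v hv => by
    simp [Pi.sup_apply, hk v (fun h => hv (hI h)), hk' v hv]
  unfold R
  rw [if_pos hk, if_pos hk', if_pos h1, if_pos h2, one_mul, one_mul, one_mul, one_mul]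
  have hw : wk x i j E k * wk x i j E' k' ≤ wk x i j E (k ⊓ k') * wk x i j E' (k ⊔ k') := by
    unfold wk
    rw [← prod_sdiff' (f := fun e => ph x (k' (i e)) (k' (j e))) hE,
      ← prod_sdiff' (f := fun e => ph x ((k ⊔ k') (i e) : ℕ) ((k ⊔ k') (j e) : ℕ)) hE,
      ← mul_assoc, ← mul_assoc, ← Finset.prod_mul_distrib, ← Finset.prod_mul_distrib]
    refine mul_le_mul ?_ (le_of_eq ?_) (Finset.prod_nonneg fun e _ => ph_nonneg hx0 _ _)
      (Finset.prod_nonneg fun e _ => mul_nonneg (ph_nonneg hx0 _ _) (ph_nonneg hx0 _ _))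
    · refine Finset.prod_le_prod (fun e _ => mul_nonneg (ph_nonneg hx0 _ _) (ph_nonneg hx0 _ _))
        fun e _ => ?_
      exact ph_lsm hx0 hx1 _ _ _ _
    · refine Finset.prod_congr rfl fun e he => ?_
      obtain ⟨he1, he2⟩ := Finset.mem_sdiff.1 he
      obtain ⟨h3, h4⟩ := hIE e he1 he2
      simp [Pi.sup_apply, hk _ h3, hk _ h4]
  have hT : Tk i j E k ∪ Tk i j E' k' = Tk i j E' (k ⊔ k') := by
    unfold Tk
    ext e
    simp only [Finset.mem_union, Finset.mem_filter, Pi.sup_apply]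
    by_cases heE : e ∈ E
    · have := hE heE
      simp only [heE, this, true_and]
      omega
    · by_cases heE' : e ∈ E'
      · obtain ⟨h3, h4⟩ := hIE e heE' heE
        simp [heE, heE', hk _ h3, hk _ h4]
      · simp [heE, heE']
  have hz := Zs_dom hx0 hx1 i j hE (T := Tk i j E k) (T' := Tk i j E' k')
    (Ti := Tk i j E (k ⊓ k'))
    (by
      intro e he
      unfold Tk at he ⊢
      rw [Finset.mem_filter] at he ⊢
      refine ⟨he.1, fun h => he.2 ?_⟩
      simp [Pi.inf_apply, h.1, h.2])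
    (by
      intro e he
      unfold Tk at he ⊢
      rw [Finset.mem_filter] at he ⊢
      refine ⟨hE he.1, fun h => he.2 ?_⟩
      simp [Pi.inf_apply, h.1, h.2])
  rw [hT] at hz
  calc wk x i j E k * Zs x i j E (Tk i j E k) * (wk x i j E' k' * Zs x i j E' (Tk i j E' k'))
      = (wk x i j E k * wk x i j E' k') *
        (Zs x i j E (Tk i j E k) * Zs x i j E' (Tk i j E' k')) := by ring
    _ ≤ (wk x i j E (k ⊓ k') * wk x i j E' (k ⊔ k')) *
        (Zs x i j E (Tk i j E (k ⊓ k')) * Zs x i j E' (Tk i j E' (k ⊔ k'))) :=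
        mul_le_mul hw hz (mul_nonneg (Zs_pos hx0 i j E _).le (Zs_pos hx0 i j E' _).le)
          (mul_nonneg (wk_nonneg hx0 i j E _) (wk_nonneg hx0 i j E' _))
    _ = _ := by ring

/-! ### increasing positive functions -/

/-- nonnegative combinations of characters with coefficients increasing in the absolute values -/
structure MPos (Φ : (V → ℕ) → (V → ℤˣ) → ℝ) : Prop where
  pos : ∀ k, Pos (Φ k)
  mono : ∀ k k', k ≤ k' → Pos (fun σ => Φ k' σ - Φ k σ)

theorem MPos.const {r : ℝ} (hr : 0 ≤ r) : MPos (fun (_ : V → ℕ) (_ : V → ℤˣ) => r) :=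
  ⟨fun _ => Pos.const hr, fun _ _ _ => Pos.zero.congr fun _ => sub_self _⟩

theorem MPos.zero : MPos (fun (_ : V → ℕ) (_ : V → ℤˣ) => (0 : ℝ)) := MPos.const le_rfl

theorem MPos.congr {Φ Ψ : (V → ℕ) → (V → ℤˣ) → ℝ} (h : MPos Φ) (e : ∀ k σ, Ψ k σ = Φ k σ) :
    MPos Ψ :=
  ⟨fun k => (h.pos k).congr (e k), fun k k' hk => (h.mono k k' hk).congr fun σ => by rw [e, e]⟩

theorem MPos.add {Φ Ψ : (V → ℕ) → (V → ℤˣ) → ℝ} (h : MPos Φ) (h' : MPos Ψ) :
    MPos (fun k σ => Φ k σ + Ψ k σ) :=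
  ⟨fun k => (h.pos k).add (h'.pos k), fun k k' hk =>
    ((h.mono k k' hk).add (h'.mono k k' hk)).congr fun σ => by ring⟩

theorem MPos.smul {Φ : (V → ℕ) → (V → ℤˣ) → ℝ} (h : MPos Φ) {r : ℝ} (hr : 0 ≤ r) :
    MPos (fun k σ => r * Φ k σ) :=
  ⟨fun k => (h.pos k).smul hr, fun k k' hk => ((h.mono k k' hk).smul hr).congr fun σ => by ring⟩

theorem MPos.mul {Φ Ψ : (V → ℕ) → (V → ℤˣ) → ℝ} (h : MPos Φ) (h' : MPos Ψ) :
    MPos (fun k σ => Φ k σ * Ψ k σ) :=
  ⟨fun k => (h.pos k).mul (h'.pos k), fun k k' hk =>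
    (((h.mono k k' hk).mul (h'.pos k')).add ((h.pos k).mul (h'.mono k k' hk))).congr
      fun σ => by ring⟩

theorem MPos.pow {Φ : (V → ℕ) → (V → ℤˣ) → ℝ} (h : MPos Φ) (n : ℕ) :
    MPos (fun k σ => Φ k σ ^ n) := by
  induction n with
  | zero => exact (MPos.const zero_le_one).congr fun k σ => pow_zero _
  | succ n ih => exact (ih.mul h).congr fun k σ => pow_succ _ _

theorem MPos.sum {κ : Type*} (s : Finset κ) {Φ : κ → (V → ℕ) → (V → ℤˣ) → ℝ}
    (h : ∀ a ∈ s, MPos (Φ a)) : MPos (fun k σ => ∑ a ∈ s, Φ a k σ) := by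
  classical
  induction s using Finset.induction_on with
  | empty => exact MPos.zero.congr fun k σ => by simp
  | insert a s ha ih =>
    refine ((h a (Finset.mem_insert_self a s)).add
      (ih fun b hb => h b (Finset.mem_insert_of_mem hb))).congr fun k σ => ?_
    rw [Finset.sum_insert ha]

theorem MPos.prod {κ : Type*} (s : Finset κ) {Φ : κ → (V → ℕ) → (V → ℤˣ) → ℝ}
    (h : ∀ a ∈ s, MPos (Φ a)) : MPos (fun k σ => ∏ a ∈ s, Φ a k σ) := by
  classical
  induction s using Finset.induction_on with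
  | empty => exact (MPos.const zero_le_one).congr fun k σ => by simp
  | insert a s ha ih =>
    refine ((h a (Finset.mem_insert_self a s)).mul
      (ih fun b hb => h b (Finset.mem_insert_of_mem hb))).congr fun k σ => ?_
    rw [Finset.prod_insert ha]

/-- the centred height is `MPos` -/
theorem MPos.height (v : V) : MPos (fun (k : V → ℕ) (σ : V → ℤˣ) => ((hh k σ v : ℤ) : ℝ) - 1 / 2) := by
  refine ⟨fun k => ((Pos.spin v).smul (r := (k v : ℝ) + 1 / 2) (by positivity)).congr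
    fun σ => by rw [hh_sub]; ring, fun k k' hk => ?_⟩
  have h1 : (0 : ℝ) ≤ (k' v : ℝ) - (k v : ℝ) := by
    have : (k v : ℝ) ≤ (k' v : ℝ) := by exact_mod_cast hk v
    linarith
  refine ((Pos.spin v).smul h1).congr fun σ => ?_
  rw [hh_sub, hh_sub]; ring

/-- the pairing of the centred height with a nonnegative function -/
theorem MPos.linear {f : V → ℝ} (hf : ∀ v, 0 ≤ f v) (s : Finset V) :
    MPos (fun (k : V → ℕ) (σ : V → ℤˣ) => ∑ v ∈ s, f v * (((hh k σ v : ℤ) : ℝ) - 1 / 2)) :=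
  MPos.sum s fun v _ => (MPos.height v).smul (hf v)

theorem av_MPos_mono {x : ℝ} (hx0 : 0 ≤ x) (hx1 : x ≤ 1) (i j : K → V) (E : Finset K)
    {Φ : (V → ℕ) → (V → ℤˣ) → ℝ} (hΦ : MPos Φ) {k k' : V → ℕ} (hk : k ≤ k') :
    av x i j E (Tk i j E k) (Φ k) ≤ av x i j E (Tk i j E k') (Φ k') := by
  have hT : Tk i j E k ⊆ Tk i j E k' := by
    intro e he
    unfold Tk at he ⊢
    rw [Finset.mem_filter] at he ⊢
    refine ⟨he.1, fun h => he.2 ?_⟩
    have h1 := hk (i e)
    have h2 := hk (j e)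
    rw [h.1] at h1
    rw [h.2] at h2
    exact ⟨Nat.le_zero.1 h1, Nat.le_zero.1 h2⟩
  have h1 := av_mono hx0 hx1 i j (E := E) (E' := E) (Finset.Subset.refl E) hT (hΦ.pos k)
  have h2 := av_nonneg hx0 hx1 i j E (Tk i j E k') (hΦ.mono k k' hk)
  rw [av_sub] at h2
  linarith

/-- the box of absolute values `≤ M` -/
def box (M : ℕ) : Finset (V → ℕ) := Fintype.piFinset fun _ => Finset.range (M + 1)

theorem mem_box {M : ℕ} {k : V → ℕ} : k ∈ box (V := V) M ↔ ∀ v, k v ≤ M := by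
  unfold box
  rw [Fintype.mem_piFinset]
  exact forall_congr' fun v => by rw [Finset.mem_range, Nat.lt_succ_iff]

open Classical in
/-- unnormalised expectation over the box -/
def SS (x : ℝ) (i j : K → V) (I : Finset V) (E : Finset K) (M : ℕ)
    (Φ : (V → ℕ) → (V → ℤˣ) → ℝ) : ℝ :=
  ∑ k ∈ box (V := V) M, ∑ σ : V → ℤˣ, (if ∀ v, v ∉ I → k v = 0 then 1 else 0) *
    (∏ e ∈ E, ph x (hh k σ (i e)) (hh k σ (j e))) * Φ k σ

theorem SS_eq {x : ℝ} (hx0 : 0 ≤ x) (i j : K → V) (I : Finset V) (E : Finset K) (M : ℕ)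
    (Φ : (V → ℕ) → (V → ℤˣ) → ℝ) :
    SS x i j I E M Φ =
      ∑ k ∈ box (V := V) M, R x i j I E k * av x i j E (Tk i j E k) (Φ k) := by
  unfold SS
  refine Finset.sum_congr rfl fun k _ => ?_
  unfold R
  rw [mul_assoc _ (Zs x i j E _) (av x i j E _ _), Zs_mul_av hx0, Finset.mul_sum]
  refine Finset.sum_congr rfl fun σ _ => ?_
  rw [prod_ph]
  ring

theorem SS_one {x : ℝ} (hx0 : 0 ≤ x) (i j : K → V) (I : Finset V) (E : Finset K) (M : ℕ) :
    SS x i j I E M (fun _ _ => 1) = ∑ k ∈ box (V := V) M, R x i j I E k := by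
  rw [SS_eq hx0]
  refine Finset.sum_congr rfl fun k _ => ?_
  have : av x i j E (Tk i j E k) (fun _ => (1 : ℝ)) = 1 := by
    unfold av
    rw [div_eq_one_iff_eq (Zs_pos hx0 i j E _).ne']
    unfold Zs
    exact Finset.sum_congr rfl fun σ _ => mul_one _
  rw [this, mul_one]

theorem box_inf_sup {M : ℕ} {a b : V → ℕ} (ha : a ∈ box (V := V) M) (hb : b ∈ box (V := V) M) :
    a ⊓ b ∈ box (V := V) M ∧ a ⊔ b ∈ box (V := V) M := by
  rw [mem_box] at ha hb
  rw [mem_box, mem_box]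
  refine ⟨fun v => ?_, fun v => ?_⟩
  · rw [Pi.inf_apply]; exact inf_le_of_left_le (ha v)
  · rw [Pi.sup_apply]; exact sup_le (ha v) (hb v)

/-- **Expectations of `MPos` functions are nonnegative.** -/
theorem SS_nonneg {x : ℝ} (hx0 : 0 ≤ x) (hx1 : x ≤ 1) (i j : K → V) (I : Finset V) (E : Finset K)
    (M : ℕ) {Φ : (V → ℕ) → (V → ℤˣ) → ℝ} (hΦ : MPos Φ) : 0 ≤ SS x i j I E M Φ := by
  rw [SS_eq hx0]
  exact Finset.sum_nonneg fun k _ => mul_nonneg (R_nonneg hx0 i j I E k)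
    (av_nonneg hx0 hx1 i j E _ (hΦ.pos k))

/-- **Expectations of `MPos` functions increase with the domain.** -/
theorem SS_mono {x : ℝ} (hx0 : 0 ≤ x) (hx1 : x ≤ 1) (i j : K → V) {I I' : Finset V}
    {E E' : Finset K} (hI : I ⊆ I') (hE : E ⊆ E')
    (hIE : ∀ e ∈ E', e ∉ E → i e ∉ I ∧ j e ∉ I) (M : ℕ)
    {Φ : (V → ℕ) → (V → ℤˣ) → ℝ} (hΦ : MPos Φ) :
    SS x i j I E M Φ * SS x i j I' E' M (fun _ _ => 1) ≤
      SS x i j I E M (fun _ _ => 1) * SS x i j I' E' M Φ := by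
  have h1 := (dom_R hx0 hx1 i j hI hE hIE).expect_le (box (V := V) M)
    (fun a ha b hb => box_inf_sup ha hb)
    (f := fun k => av x i j E' (Tk i j E' k) (Φ k))
    (fun a _ b _ hab => av_MPos_mono hx0 hx1 i j E' hΦ hab)
  rw [SS_one hx0, SS_one hx0, SS_eq hx0 i j I' E', SS_eq hx0 i j I E]
  refine le_trans (mul_le_mul_of_nonneg_right (Finset.sum_le_sum fun k _ => ?_)
    (Finset.sum_nonneg fun k _ => R_nonneg hx0 i j I' E' k)) h1
  refine mul_le_mul_of_nonneg_left (av_mono hx0 hx1 i j hE ?_ (hΦ.pos k)) (R_nonneg hx0 i j I E k)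
  intro e he
  unfold Tk at he ⊢
  rw [Finset.mem_filter] at he ⊢
  exact ⟨hE he.1, he.2⟩

/-- **Griffiths II for heights**: `E[Φ] E[Ψ] ≤ E[Φ Ψ]`. -/
theorem SS_gks {x : ℝ} (hx0 : 0 ≤ x) (hx1 : x ≤ 1) (i j : K → V) (I : Finset V)
    (E : Finset K) (M : ℕ) {Φ Ψ : (V → ℕ) → (V → ℤˣ) → ℝ} (hΦ : MPos Φ) (hΨ : MPos Ψ) :
    SS x i j I E M Φ * SS x i j I E M Ψ ≤
      SS x i j I E M (fun _ _ => 1) * SS x i j I E M (fun k σ => Φ k σ * Ψ k σ) := by
  have hD := dom_R hx0 hx1 i j (Finset.Subset.refl I) (Finset.Subset.refl E)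
    (fun e he hne => absurd he hne)
  -- tilt by the average of `Φ`
  have hU : Dom (R x i j I E) (fun k => R x i j I E k * av x i j E (Tk i j E k) (Φ k)) :=
    Dom.of_lsm_mono ⟨hD.1, hD.2.2⟩ (fun k => av_nonneg hx0 hx1 i j E _ (hΦ.pos k))
      (fun k k' hk => av_MPos_mono hx0 hx1 i j E hΦ hk)
  have h1 := hU.expect_le (box (V := V) M) (fun a ha b hb => box_inf_sup ha hb)
    (f := fun k => av x i j E (Tk i j E k) (Ψ k))
    (fun a _ b _ hab => av_MPos_mono hx0 hx1 i j E hΨ hab)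
  rw [SS_one hx0, SS_eq hx0 i j I E M Φ, SS_eq hx0 i j I E M Ψ, SS_eq hx0 i j I E M, mul_comm]
  refine h1.trans (mul_le_mul_of_nonneg_left (Finset.sum_le_sum fun k _ => ?_)
    (Finset.sum_nonneg fun k _ => R_nonneg hx0 i j I E k))
  rw [mul_assoc]
  refine mul_le_mul_of_nonneg_left ?_ (R_nonneg hx0 i j I E k)
  have h2 := gks2 (G_ferro hx0 hx1 i j E (Tk i j E k)) (hΦ.pos k) (hΨ.pos k)
  have hz := Zs_pos hx0 i j E (Tk i j E k)
  unfold av
  rw [div_mul_div_comm, div_le_div_iff₀ (mul_pos hz hz) hz]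
  calc _ ≤ ((∑ σ, G x i j E (Tk i j E k) σ) * ∑ σ, G x i j E (Tk i j E k) σ * (Φ k σ * Ψ k σ)) *
        Zs x i j E (Tk i j E k) := mul_le_mul_of_nonneg_right h2 hz.le
    _ = _ := by unfold Zs; ring

end gen

end Crest.Agent.R144.Hf702
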