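import Crest.Agent.R144.Zd_349

/-!
# R144: the F-type model `(h, z)`: finite volume law and the `(s1, Z)` marginal (helper349)

* `conf F`, `wt c F`, `Z c F`, `pr`, `E`, `EC`, `Pr`, `mu` in the style of R161/Defs_372;
* `sum_conf` : exact sum over `(T, A, Z)` = (minus sites of `s1`, minus sites of `s2`, closed triangles);
* `sum_conf_tz` : the `(T, Z)` marginal is `2^|VF| / 4^|F| * fw up c F T Z * ncl F Z`.
-/

set_option autoImplicit false
set_option linter.unusedSectionVars false

noncomputable section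

namespace Crest.Agent.R144.Zm349

open Finset MeasureTheory
open Crest.Agent.R144.It844 (P2 Lip Cst)
open Crest.Agent.R144.Zg349 Crest.Agent.R144.Zk349 Crest.Agent.R144.Zd349
open Crest.Agent.R144.HyA349 Crest.Agent.R144.HyB349 Crest.Agent.R144.HyC349
open Crest.ProbabilityR.HexHeights (Adj)

/-- interior sites with `s1 = -` -/
def tm (F : Finset P2) (h : P2 → ℤ) : Finset P2 := (IV F).filter fun v => s1 (h v) = false
/-- sites with `s2 = -` -/
def am (F : Finset P2) (h : P2 → ℤ) : Finset P2 := (VF F).filter fun v => s2 (h v) = false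

theorem tm_sub (F : Finset P2) (h : P2 → ℤ) : tm F h ⊆ IV F := Finset.filter_subset _ _
theorem am_sub (F : Finset P2) (h : P2 → ℤ) : am F h ⊆ VF F := Finset.filter_subset _ _

theorem mem_tm {F : Finset P2} {h : P2 → ℤ} (hh : HV F h) {v : P2} :
    v ∈ tm F h ↔ s1 (h v) = false := by
  unfold tm
  rw [Finset.mem_filter, and_iff_right_iff_imp]
  intro h1
  by_contra h2
  rw [hh.s1_bd h2] at h1
  exact absurd h1 (by decide)

theorem mem_am {F : Finset P2} {h : P2 → ℤ} (hh : HV F h) {v : P2} :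
    v ∈ am F h ↔ s2 (h v) = false := by
  unfold am
  rw [Finset.mem_filter, and_iff_right_iff_imp]
  intro h1
  by_contra h2
  rw [hh.off v h2] at h1
  exact absurd h1 (by decide)

theorem c1_iff {F : Finset P2} {h : P2 → ℤ} (hh : HV F h) (t : P2) :
    C1 h t ↔ M3 (cr t) (ch (tm F h)) := by
  rw [m3_ch, mem_tm hh, mem_tm hh, mem_tm hh]
  unfold C1
  generalize s1 (h (cr t 0)) = a
  generalize s1 (h (cr t 1)) = b
  generalize s1 (h (cr t 2)) = d
  revert a b d
  decide

theorem c2_iff {F : Finset P2} {h : P2 → ℤ} (hh : HV F h) (t : P2) :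
    C2 h t ↔ M3 (cr t) (ch (am F h)) := by
  rw [m3_ch, mem_am hh, mem_am hh, mem_am hh]
  unfold C2
  generalize s2 (h (cr t 0)) = a
  generalize s2 (h (cr t 1)) = b
  generalize s2 (h (cr t 2)) = d
  revert a b d
  decide

theorem height_inj' {F : Finset P2} {h g : P2 → ℤ} (hh : HV F h) (hg : HV F g)
    (e1 : tm F h = tm F g) (e2 : am F h = am F g) : h = g := by
  have k : ∀ a b : Bool, (a = false ↔ b = false) → a = b := by decide
  refine height_inj hh hg (fun v => k _ _ ?_) (fun v => k _ _ ?_)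
  · rw [← mem_tm hh, ← mem_tm hg, e1]
  · rw [← mem_am hh, ← mem_am hg, e2]

theorem hv_finite (F : Finset P2) : {h : P2 → ℤ | HV F h}.Finite := by
  classical
  refine Set.Finite.of_finite_image (f := fun h => (tm F h, am F h))
    (Set.Finite.subset (((IV F).powerset ×ˢ (VF F).powerset : Finset _).finite_toSet) ?_) ?_
  · rintro _ ⟨h, _, rfl⟩
    simp only [Finset.coe_product, Finset.coe_powerset, Set.mem_prod, Set.mem_preimage,
      Set.mem_powerset_iff, Finset.coe_subset]
    exact ⟨tm_sub F h, am_sub F h⟩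
  · intro h hh g hg e
    have := Prod.ext_iff.1 e
    exact height_inj' hh hg this.1 this.2

/-- admissible heights -/
def hts (F : Finset P2) : Finset (P2 → ℤ) := (hv_finite F).toFinset

theorem mem_hts {F : Finset P2} {h : P2 → ℤ} : h ∈ hts F ↔ HV F h := by simp [hts]

/-- closed indicator -/
def zb (F Z : Finset P2) (t : P2) : Bool := decide (t ∉ F ∨ t ∈ Z)

theorem zb_inj {F Z Z' : Finset P2} (hZ : Z ⊆ F) (hZ' : Z' ⊆ F) (h : zb F Z = zb F Z') : Z = Z' := by
  ext t
  have := congrFun h t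
  unfold zb at this
  rw [decide_eq_decide] at this
  by_cases ht : t ∈ F
  · tauto
  · exact ⟨fun h => absurd (hZ h) ht, fun h => absurd (hZ' h) ht⟩

open Classical in
/-- admissible closed indicators -/
def zs (F : Finset P2) : Finset (P2 → Bool) := F.powerset.image (zb F)

theorem mem_zs {F : Finset P2} {z : P2 → Bool} : z ∈ zs F ↔ ∀ t, t ∉ F → z t = true := by
  classical
  unfold zs
  rw [Finset.mem_image]
  constructor
  · rintro ⟨Z, _, rfl⟩ t ht
    unfold zb
    rw [decide_eq_true_eq]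
    exact Or.inl ht
  · intro h
    refine ⟨F.filter fun t => z t = true, by simp, ?_⟩
    funext t
    unfold zb
    by_cases ht : t ∈ F
    · rcases hz : z t with _ | _
      · rw [decide_eq_false_iff_not]; simp [ht, hz]
      · rw [decide_eq_true_eq]; simp [ht, hz]
    · rw [h t ht, decide_eq_true_eq]
      exact Or.inl ht

/-- valid configurations -/
structure Valid (F : Finset P2) (ω : Cfg) : Prop where
  ht : HV F ω.1
  cl : ∀ t, t ∉ F → ω.2 t = true

/-- the finite set of valid configurations -/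
def conf (F : Finset P2) : Finset Cfg := hts F ×ˢ zs F

theorem mem_conf {F : Finset P2} {ω : Cfg} : ω ∈ conf F ↔ Valid F ω := by
  unfold conf
  rw [Finset.mem_product, mem_hts, mem_zs]
  exact ⟨fun h => ⟨h.1, h.2⟩, fun h => ⟨h.1, h.2⟩⟩

/-- weight of one triangle -/
def ew (c : ℝ) (ω : Cfg) (t : P2) : ℝ :=
  if ω.2 t then (if C1 ω.1 t then 1 else 0)
  else (if C2 ω.1 t then (if C1 ω.1 t then c - 1 else 1) else 0)

/-- weight of a configuration -/
def wt (c : ℝ) (F : Finset P2) (ω : Cfg) : ℝ := ∏ t ∈ F, ew c ω t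

theorem ew_nonneg {c : ℝ} (hc : 1 ≤ c) (ω : Cfg) (t : P2) : 0 ≤ ew c ω t := by
  unfold ew
  split_ifs <;> first | exact zero_le_one | exact le_rfl | linarith

theorem wt_nonneg {c : ℝ} (hc : 1 ≤ c) (F : Finset P2) (ω : Cfg) : 0 ≤ wt c F ω :=
  Finset.prod_nonneg fun t _ => ew_nonneg hc ω t

/-- the flat configuration -/
def flat : Cfg := (fun _ => 0, fun _ => true)

theorem valid_flat (F : Finset P2) : Valid F flat where
  ht := ⟨fun _ _ _ _ => by simp [flat], fun _ _ => Or.inl rfl, fun _ _ => rfl⟩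
  cl := fun _ _ => rfl

theorem wt_flat (c : ℝ) (F : Finset P2) : wt c F flat = 1 := by
  unfold wt ew flat C1
  simp

/-- partition function -/
def Z (c : ℝ) (F : Finset P2) : ℝ := ∑ ω ∈ conf F, wt c F ω

theorem Z_pos {c : ℝ} (hc : 1 ≤ c) (F : Finset P2) : 0 < Z c F := by
  refine Finset.sum_pos' (fun ω _ => wt_nonneg hc F ω) ⟨flat, mem_conf.2 (valid_flat F), ?_⟩
  rw [wt_flat]
  exact one_pos

open Classical in
/-- probability of a configuration -/
def pr (c : ℝ) (F : Finset P2) (ω : Cfg) : ℝ := if Valid F ω then wt c F ω / Z c F else 0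

theorem pr_of_valid (c : ℝ) {F : Finset P2} {ω : Cfg} (h : Valid F ω) :
    pr c F ω = wt c F ω / Z c F := if_pos h

theorem pr_of_not_valid (c : ℝ) {F : Finset P2} {ω : Cfg} (h : ¬ Valid F ω) : pr c F ω = 0 :=
  if_neg h

theorem pr_nonneg {c : ℝ} (hc : 1 ≤ c) (F : Finset P2) (ω : Cfg) : 0 ≤ pr c F ω := by
  unfold pr
  split_ifs
  · exact div_nonneg (wt_nonneg hc F ω) (Z_pos hc F).le
  · exact le_rfl

theorem sum_pr {c : ℝ} (hc : 1 ≤ c) (F : Finset P2) : ∑ ω ∈ conf F, pr c F ω = 1 := by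
  have : ∀ ω ∈ conf F, pr c F ω = wt c F ω / Z c F := fun ω h => pr_of_valid c (mem_conf.1 h)
  rw [Finset.sum_congr rfl this, ← Finset.sum_div]
  exact div_self (Z_pos hc F).ne'

/-- expectation (real observables) -/
def E (c : ℝ) (F : Finset P2) (f : Cfg → ℝ) : ℝ := ∑ ω ∈ conf F, pr c F ω * f ω

/-- expectation (complex observables) -/
def EC (c : ℝ) (F : Finset P2) (f : Cfg → ℂ) : ℂ := ∑ ω ∈ conf F, (pr c F ω : ℂ) * f ω

theorem E_add (c : ℝ) (F : Finset P2) (f g : Cfg → ℝ) :
    E c F (fun ω => f ω + g ω) = E c F f + E c F g := by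
  simp only [E, mul_add, Finset.sum_add_distrib]

theorem E_sub (c : ℝ) (F : Finset P2) (f g : Cfg → ℝ) :
    E c F (fun ω => f ω - g ω) = E c F f - E c F g := by
  simp only [E, mul_sub, Finset.sum_sub_distrib]

theorem E_smul (c : ℝ) (F : Finset P2) (a : ℝ) (f : Cfg → ℝ) :
    E c F (fun ω => a * f ω) = a * E c F f := by
  simp only [E, Finset.mul_sum]
  exact Finset.sum_congr rfl fun ω _ => by ring

theorem E_const {c : ℝ} (hc : 1 ≤ c) (F : Finset P2) (a : ℝ) : E c F (fun _ => a) = a := by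
  simp only [E, ← Finset.sum_mul, sum_pr hc, one_mul]

theorem E_congr {c : ℝ} {F : Finset P2} {f g : Cfg → ℝ} (h : ∀ ω, Valid F ω → f ω = g ω) :
    E c F f = E c F g :=
  Finset.sum_congr rfl fun ω hω => by rw [h ω (mem_conf.1 hω)]

theorem E_mono {c : ℝ} (hc : 1 ≤ c) {F : Finset P2} {f g : Cfg → ℝ}
    (h : ∀ ω, Valid F ω → f ω ≤ g ω) : E c F f ≤ E c F g :=
  Finset.sum_le_sum fun ω hω => mul_le_mul_of_nonneg_left (h ω (mem_conf.1 hω)) (pr_nonneg hc F ω)

theorem E_nonneg {c : ℝ} (hc : 1 ≤ c) {F : Finset P2} {f : Cfg → ℝ}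
    (h : ∀ ω, Valid F ω → 0 ≤ f ω) : 0 ≤ E c F f :=
  Finset.sum_nonneg fun ω hω => mul_nonneg (pr_nonneg hc F ω) (h ω (mem_conf.1 hω))

theorem E_sum {ι : Type*} (c : ℝ) (F : Finset P2) (s : Finset ι) (f : ι → Cfg → ℝ) :
    E c F (fun ω => ∑ i ∈ s, f i ω) = ∑ i ∈ s, E c F (f i) := by
  simp only [E, Finset.mul_sum]
  exact Finset.sum_comm

theorem E_eq_div {c : ℝ} (F : Finset P2) (f : Cfg → ℝ) :
    E c F f = (∑ ω ∈ conf F, wt c F ω * f ω) / Z c F := by
  unfold E
  rw [Finset.sum_div]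
  refine Finset.sum_congr rfl fun ω hω => ?_
  rw [pr_of_valid c (mem_conf.1 hω)]
  ring

open Classical in
/-- probability of an event -/
def Pr (c : ℝ) (F : Finset P2) (A : Set Cfg) : ℝ := E c F (fun ω => if ω ∈ A then 1 else 0)

/-- the law as a measure on `Cfg` -/
def mu (c : ℝ) (F : Finset P2) : Measure Cfg :=
  ∑ ω ∈ conf F, ENNReal.ofReal (pr c F ω) • Measure.dirac ω

theorem mu_prob {c : ℝ} (hc : 1 ≤ c) (F : Finset P2) : IsProbabilityMeasure (mu c F) := by
  constructor
  unfold mu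
  rw [Measure.finsetSum_apply]
  simp only [Measure.smul_apply, Measure.dirac_apply_of_mem (Set.mem_univ _), smul_eq_mul, mul_one]
  rw [← ENNReal.ofReal_sum_of_nonneg fun ω _ => pr_nonneg hc F ω, sum_pr hc, ENNReal.ofReal_one]

/-- unnormalised expectation -/
def S (c : ℝ) (F : Finset P2) (f : Cfg → ℝ) : ℝ := ∑ ω ∈ conf F, wt c F ω * f ω

theorem E_eq_S (c : ℝ) (F : Finset P2) (f : Cfg → ℝ) : E c F f = S c F f / Z c F := E_eq_div F f

theorem S_one (c : ℝ) (F : Finset P2) : S c F (fun _ => 1) = Z c F := by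
  unfold S Z
  exact Finset.sum_congr rfl fun ω _ => mul_one _

/-! ### sums over colours -/

open Classical in
/-- sums over admissible heights as sums over pairs of colour sets -/
theorem sum_hts {F : Finset P2} (hF : SC F) (G : Finset P2 → Finset P2 → ℝ) :
    ∑ h ∈ hts F, G (tm F h) (am F h) = ∑ T ∈ (IV F).powerset, ∑ A ∈ (VF F).powerset,
      if ∀ t ∈ F, M3 (cr t) (ch T) ∨ M3 (cr t) (ch A) then G T A else 0 := by
  rw [← Finset.sum_product', ← Finset.sum_filter]
  refine Finset.sum_bij (fun h _ => (tm F h, am F h)) ?_ ?_ ?_ ?_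
  · intro h hh
    rw [mem_hts] at hh
    rw [Finset.mem_filter, Finset.mem_product, Finset.mem_powerset, Finset.mem_powerset]
    refine ⟨⟨tm_sub F h, am_sub F h⟩, fun t ht => ?_⟩
    rw [← c1_iff hh, ← c2_iff hh]
    exact c1_or_c2 (hh.lip t ht)
  · intro h hh g hg e
    rw [mem_hts] at hh hg
    have := Prod.ext_iff.1 e
    exact height_inj' hh hg this.1 this.2
  · rintro ⟨T, A⟩ hTA
    rw [Finset.mem_filter, Finset.mem_product, Finset.mem_powerset, Finset.mem_powerset] at hTA
    obtain ⟨⟨hT, hA⟩, hc⟩ := hTA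
    obtain ⟨h, hh, h1, h2⟩ := exists_height hF hT hA hc
    have k : ∀ (a : Bool) (p : Prop), (a = true ↔ ¬ p) → (a = false ↔ p) := by
      intro a p h
      rcases a with _ | _
      · simpa using h
      · simpa using h
    refine ⟨h, mem_hts.2 hh, Prod.ext ?_ ?_⟩
    · ext v
      rw [mem_tm hh]
      exact k _ _ (h1 v)
    · ext v
      rw [mem_am hh]
      exact k _ _ (h2 v)
  · intro h _
    rfl

theorem sum_zs (F : Finset P2) (G : (P2 → Bool) → ℝ) :
    ∑ z ∈ zs F, G z = ∑ Z ∈ F.powerset, G (zb F Z) := by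
  classical
  unfold zs
  rw [Finset.sum_image]
  intro Z hZ Z' hZ' h
  exact zb_inj (Finset.mem_powerset.1 (by exact_mod_cast hZ))
    (Finset.mem_powerset.1 (by exact_mod_cast hZ')) h

/-- closed triangles of `F` -/
def zm (F : Finset P2) (ω : Cfg) : Finset P2 := F.filter fun t => ω.2 t = true

theorem zm_zb {F Z : Finset P2} (hZ : Z ⊆ F) (h : P2 → ℤ) : zm F (h, zb F Z) = Z := by
  ext t
  unfold zm zb
  rw [Finset.mem_filter]
  simp only [decide_eq_true_eq]
  constructor
  · rintro ⟨h1, h2 | h2⟩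
    · exact absurd h1 h2
    · exact h2
  · intro h1
    exact ⟨hZ h1, Or.inr h1⟩

/-- triangle weight in terms of `(T, A, Z)` -/
def ewS (c : ℝ) (T A Z : Finset P2) (t : P2) : ℝ :=
  if t ∈ Z then (if M3 (cr t) (ch T) then 1 else 0)
  else (if M3 (cr t) (ch A) then (if M3 (cr t) (ch T) then c - 1 else 1) else 0)

theorem ew_eq {F Z : Finset P2} {h : P2 → ℤ} (hh : HV F h) (c : ℝ) {t : P2}
    (ht : t ∈ F) : ew c (h, zb F Z) t = ewS c (tm F h) (am F h) Z t := by
  unfold ew ewS
  have e : (zb F Z t = true) ↔ t ∈ Z := by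
    unfold zb
    rw [decide_eq_true_eq]
    constructor
    · rintro (h | h)
      · exact absurd ht h
      · exact h
    · exact Or.inr
  simp only [c1_iff hh, c2_iff hh, e]

/-- **The model in terms of the two colours and the closed triangles.** -/
theorem sum_conf {F : Finset P2} (hF : SC F) (c : ℝ)
    (f : Finset P2 → Finset P2 → Finset P2 → ℝ) :
    S c F (fun ω => f (tm F ω.1) (am F ω.1) (zm F ω)) =
      ∑ T ∈ (IV F).powerset, ∑ A ∈ (VF F).powerset, ∑ Z ∈ F.powerset,
        (∏ t ∈ F, ewS c T A Z t) * f T A Z := by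
  classical
  unfold S conf
  rw [Finset.sum_product]
  have h1 : ∀ h ∈ hts F, ∑ z ∈ zs F, wt c F (h, z) * f (tm F h) (am F h) (zm F (h, z)) =
      (fun T A => ∑ Z ∈ F.powerset, (∏ t ∈ F, ewS c T A Z t) * f T A Z) (tm F h) (am F h) := by
    intro h hh
    rw [mem_hts] at hh
    rw [sum_zs]
    refine Finset.sum_congr rfl fun Z hZ => ?_
    rw [zm_zb (Finset.mem_powerset.1 hZ)]
    congr 1
    exact Finset.prod_congr rfl fun t ht => ew_eq hh c ht
  refine (Finset.sum_congr rfl h1).trans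
    ((sum_hts hF fun T A => ∑ Z ∈ F.powerset, (∏ t ∈ F, ewS c T A Z t) * f T A Z).trans ?_)
  refine Finset.sum_congr rfl fun T _ => Finset.sum_congr rfl fun A _ => ?_
  split_ifs with h
  · rfl
  · push Not at h
    obtain ⟨t, ht, h1, h2⟩ := h
    symm
    refine Finset.sum_eq_zero fun Z _ => ?_
    rw [Finset.prod_eq_zero ht, zero_mul]
    unfold ewS
    rw [if_neg h1, if_neg h2]
    split_ifs <;> rfl

theorem cs_iff {T : Finset P2} {t : P2} : Cs up T t ↔ M3 (cr t) (ch T) := by
  rw [m3_ch]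
  unfold Cs
  constructor
  · rintro (h | h)
    · have := fun i => h _ (cr_mem_up t i)
      simp only [this]
      decide
    · have := fun i => h _ (cr_mem_up t i)
      simp only [this]
      decide
  · rintro ⟨h1, h2⟩
    by_cases h0 : cr t 0 ∈ T
    · left
      intro v hv
      obtain ⟨i, rfl⟩ := mem_up_iff.1 hv
      fin_cases i
      · exact h0
      · exact h1.1 h0
      · exact h2.1 h0
    · right
      intro v hv
      obtain ⟨i, rfl⟩ := mem_up_iff.1 hv
      fin_cases i
      · exact h0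
      · exact fun h => h0 (h1.2 h)
      · exact fun h => h0 (h2.2 h)

/-- **The `(s1, Z)` marginal.** -/
theorem sum_conf_tz {F : Finset P2} (hF : SC F) (c : ℝ) (f : Finset P2 → Finset P2 → ℝ) :
    S c F (fun ω => f (tm F ω.1) (zm F ω)) =
      2 ^ (VF F).card / 4 ^ F.card *
        ∑ T ∈ (IV F).powerset, ∑ Z ∈ F.powerset, fw up c F T Z * ncl F Z * f T Z := by
  have h := sum_conf hF c (fun T _ Z => f T Z)
  rw [h, Finset.mul_sum]
  refine Finset.sum_congr rfl fun T _ => ?_
  rw [Finset.sum_comm, Finset.mul_sum]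
  refine Finset.sum_congr rfl fun Z hZ => ?_
  rw [Finset.mem_powerset] at hZ
  -- split the product
  have e1 : ∀ A : Finset P2, ∏ t ∈ F, ewS c T A Z t =
      ((∏ t ∈ Z, if M3 (cr t) (ch T) then (1 : ℝ) else 0) *
        ∏ t ∈ F \ Z, if M3 (cr t) (ch T) then c - 1 else 1) *
      ∏ t ∈ F \ Z, (if M3 (cr t) (ch A) then (1 : ℝ) else 0) := by
    intro A
    rw [← Finset.prod_inter_mul_prod_sdiff F Z, Finset.inter_eq_right.2 hZ, mul_assoc,
      ← Finset.prod_mul_distrib]
    congr 1
    · refine Finset.prod_congr rfl fun t ht => ?_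
      unfold ewS
      rw [if_pos ht]
    · refine Finset.prod_congr rfl fun t ht => ?_
      unfold ewS
      rw [if_neg (Finset.mem_sdiff.1 ht).2]
      split_ifs <;> ring
  have e2 : fw up c F T Z = 4 ^ Z.card * ((∏ t ∈ Z, if M3 (cr t) (ch T) then (1 : ℝ) else 0) *
        ∏ t ∈ F \ Z, if M3 (cr t) (ch T) then c - 1 else 1) := by
    unfold fw
    rw [← Finset.prod_inter_mul_prod_sdiff F Z, Finset.inter_eq_right.2 hZ, ← mul_assoc,
      ← Finset.prod_const, ← Finset.prod_mul_distrib]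
    congr 1
    · refine Finset.prod_congr rfl fun t ht => ?_
      simp only [cs_iff]
      rw [if_pos ht, if_pos ht]
      split_ifs <;> ring
    · refine Finset.prod_congr rfl fun t ht => ?_
      simp only [cs_iff]
      rw [if_neg (Finset.mem_sdiff.1 ht).2, if_neg (Finset.mem_sdiff.1 ht).2]
  have e3 : (F \ Z).card + Z.card = F.card := Finset.card_sdiff_add_card_eq_card hZ
  rw [← Finset.sum_mul, Finset.sum_congr rfl fun A _ => e1 A, ← Finset.mul_sum, count_F hF hZ, e2,
    ← e3, pow_add]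
  have h4 : (4 : ℝ) ^ (F \ Z).card ≠ 0 := by positivity
  have h5 : (4 : ℝ) ^ Z.card ≠ 0 := by positivity
  field_simp

end Crest.Agent.R144.Zm349
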