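import Crest.Agent.R144.Hf1_702
import Crest.Agent.R144.Zm_349

/-!
# R144, block HALF (helper702), part 2: the F-type model around the centre `1/2`

`EH x F f` = expectation of `f h` under the height marginal of the F-type law `E c F`, `c = x⁻²`
(`E_eq_EH`).  `Inc S Φ` = `Φ` depends on the heights in `S` and is an increasing positive function of
`h - 1/2` (closed under sums, products, nonnegative multiples; contains `h v - 1/2`, `v ∈ S`).

* `EH_mono`  : `F ⊆ F'`, `Inc (VF F) Φ` ⟹ `EH x F Φ ≤ EH x F' Φ`;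
* `EH_nonneg`, `EH_gks`;
* the same with an arbitrary set `I ⊆ IV F` of free sites (values `{0, 1}` off `I`): `EI x F I`,
  `EI_mono`, `EI_nonneg`, `EI_gks`, `EI_self : EI x F (IV F) = EH x F`.
-/

set_option autoImplicit false
set_option linter.unusedSectionVars false
set_option linter.unusedVariables false

noncomputable section

namespace Crest.Agent.R144.Hf702

open Finset
open Crest.Agent.R161.Gks375 Crest.Agent.R161.Abs375
open Crest.Agent.R144.It844 (P2 ph ph_nonneg Lip Cst tw E3 E3_eq_tw)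
open Crest.Agent.R144.Zg349 Crest.Agent.R144.Zd349 Crest.Agent.R144.Zm349

/-! ### the height marginal -/

/-- unnormalised expectation of a function of the heights -/
def SH (x : ℝ) (F : Finset P2) (f : (P2 → ℤ) → ℝ) : ℝ :=
  ∑ h ∈ hts F, (∏ t ∈ F, tw x h t) * f h

/-- expectation of a function of the heights in the F-type model -/
def EH (x : ℝ) (F : Finset P2) (f : (P2 → ℤ) → ℝ) : ℝ := SH x F f / SH x F fun _ => 1

theorem tw_nonneg (x : ℝ) (h : P2 → ℤ) (t : P2) : 0 ≤ tw x h t := by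
  unfold tw; split_ifs
  · norm_num
  · positivity

theorem flat_mem (F : Finset P2) : (fun _ : P2 => (0 : ℤ)) ∈ hts F :=
  mem_hts.2 ⟨fun _ _ _ _ => by simp, fun _ _ => Or.inl rfl, fun _ _ => rfl⟩

theorem SH_one_pos (x : ℝ) (F : Finset P2) : 0 < SH x F fun _ => 1 := by
  unfold SH
  refine Finset.sum_pos' (fun h _ => by
    rw [mul_one]; exact Finset.prod_nonneg fun t _ => tw_nonneg x h t) ⟨_, flat_mem F, ?_⟩
  have : ∏ t ∈ F, tw x (fun _ : P2 => (0 : ℤ)) t = 1 :=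
    Finset.prod_eq_one fun t _ => by
      unfold tw; rw [if_pos ⟨rfl, rfl⟩]
  rw [this]; norm_num

theorem EH_const (x : ℝ) (F : Finset P2) (a : ℝ) : EH x F (fun _ => a) = a := by
  unfold EH
  have : SH x F (fun _ => a) = a * SH x F (fun _ => 1) := by
    unfold SH
    rw [Finset.mul_sum]
    exact Finset.sum_congr rfl fun h _ => by ring
  rw [this, mul_div_assoc, div_self (SH_one_pos x F).ne', mul_one]

theorem EH_add (x : ℝ) (F : Finset P2) (f g : (P2 → ℤ) → ℝ) :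
    EH x F (fun h => f h + g h) = EH x F f + EH x F g := by
  unfold EH SH
  rw [← add_div, ← Finset.sum_add_distrib]
  congr 1
  exact Finset.sum_congr rfl fun h _ => by ring

theorem EH_sub (x : ℝ) (F : Finset P2) (f g : (P2 → ℤ) → ℝ) :
    EH x F (fun h => f h - g h) = EH x F f - EH x F g := by
  unfold EH SH
  rw [← sub_div, ← Finset.sum_sub_distrib]
  congr 1
  exact Finset.sum_congr rfl fun h _ => by ring

theorem EH_smul (x : ℝ) (F : Finset P2) (a : ℝ) (f : (P2 → ℤ) → ℝ) :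
    EH x F (fun h => a * f h) = a * EH x F f := by
  unfold EH SH
  rw [mul_div_assoc', Finset.mul_sum]
  congr 1
  exact Finset.sum_congr rfl fun h _ => by ring

theorem EH_sum {ι : Type*} (x : ℝ) (F : Finset P2) (s : Finset ι) (f : ι → (P2 → ℤ) → ℝ) :
    EH x F (fun h => ∑ i ∈ s, f i h) = ∑ i ∈ s, EH x F (f i) := by
  unfold EH SH
  rw [← Finset.sum_div, Finset.sum_comm]
  congr 1
  exact Finset.sum_congr rfl fun h _ => by rw [Finset.mul_sum]

theorem EH_congr {x : ℝ} {F : Finset P2} {f g : (P2 → ℤ) → ℝ} (h : ∀ a, HV F a → f a = g a) :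
    EH x F f = EH x F g := by
  unfold EH SH
  congr 1
  exact Finset.sum_congr rfl fun a ha => by rw [h a (mem_hts.1 ha)]

theorem EH_le {x : ℝ} {F : Finset P2} {f g : (P2 → ℤ) → ℝ} (h : ∀ a, HV F a → f a ≤ g a) :
    EH x F f ≤ EH x F g := by
  unfold EH SH
  refine div_le_div_of_nonneg_right ?_ (SH_one_pos x F).le
  exact Finset.sum_le_sum fun a ha => mul_le_mul_of_nonneg_left (h a (mem_hts.1 ha))
    (Finset.prod_nonneg fun t _ => tw_nonneg x a t)

theorem EH_nonneg_of {x : ℝ} {F : Finset P2} {f : (P2 → ℤ) → ℝ} (h : ∀ a, HV F a → 0 ≤ f a) :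
    0 ≤ EH x F f := by
  have := EH_le (x := x) h
  rwa [EH_const] at this

/-- summing out the closed indicators -/
theorem sum_zs_wt (c : ℝ) {F : Finset P2} {h : P2 → ℤ} (hh : HV F h) :
    ∑ z ∈ zs F, wt c F (h, z) = ∏ t ∈ F, if Cst h t then c else 1 := by
  rw [sum_zs]
  have h1 : ∀ t ∈ F, (if Cst h t then c else (1 : ℝ)) = (if C1 h t then (1 : ℝ) else 0) +
      (if C2 h t then (if C1 h t then c - 1 else 1) else 0) := by
    intro t ht
    have k1 := cst_iff (hh.lip t ht)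
    have k2 := c1_or_c2 (hh.lip t ht)
    by_cases a : C1 h t
    · by_cases b : C2 h t
      · rw [if_pos (k1.2 ⟨a, b⟩), if_pos a, if_pos b, if_pos a]; ring
      · rw [if_neg (fun e => b (k1.1 e).2), if_pos a, if_neg b]; ring
    · have b := k2.resolve_left a
      rw [if_neg (fun e => a (k1.1 e).1), if_neg a, if_pos b, if_neg a]; ring
  rw [Finset.prod_congr rfl h1, Finset.prod_add]
  refine Finset.sum_congr rfl fun Z hZ => ?_
  rw [Finset.mem_powerset] at hZ
  unfold wt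
  rw [← Finset.prod_inter_mul_prod_sdiff F Z, Finset.inter_eq_right.2 hZ]
  congr 1
  · refine Finset.prod_congr rfl fun t ht => ?_
    have : zb F Z t = true := by unfold zb; rw [decide_eq_true_eq]; exact Or.inr ht
    unfold ew
    rw [if_pos this]
  · refine Finset.prod_congr rfl fun t ht => ?_
    obtain ⟨h1, h2⟩ := Finset.mem_sdiff.1 ht
    have : ¬ zb F Z t = true := by
      unfold zb; rw [decide_eq_true_eq]; push Not; exact ⟨h1, h2⟩
    unfold ew
    rw [if_neg this]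

theorem tw_mul {x : ℝ} (hx : x ≠ 0) (h : P2 → ℤ) (t : P2) :
    (x ^ 2)⁻¹ * tw x h t = if Cst h t then (x ^ 2)⁻¹ else 1 := by
  unfold tw
  split_ifs
  · rw [mul_one]
  · field_simp

/-- **The height marginal of the F-type law** (`c = x⁻²`). -/
theorem E_eq_EH {x : ℝ} (hx : x ≠ 0) (F : Finset P2) (f : (P2 → ℤ) → ℝ) :
    E ((x ^ 2)⁻¹) F (fun ω => f ω.1) = EH x F f := by
  rw [E_eq_div]
  have key : ∀ g : (P2 → ℤ) → ℝ, ∑ ω ∈ conf F, wt ((x ^ 2)⁻¹) F ω * g ω.1 =
      ((x ^ 2)⁻¹) ^ F.card * SH x F g := by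
    intro g
    unfold conf SH
    rw [Finset.sum_product, Finset.mul_sum]
    refine Finset.sum_congr rfl fun h hh => ?_
    have h1 := sum_zs_wt ((x ^ 2)⁻¹) (mem_hts.1 hh)
    have h2 : ∑ z ∈ zs F, wt ((x ^ 2)⁻¹) F (h, z) * g h =
        (∏ t ∈ F, if Cst h t then (x ^ 2)⁻¹ else 1) * g h := by
      rw [← Finset.sum_mul, h1]
    refine h2.trans ?_
    rw [← Finset.prod_congr rfl fun t _ => tw_mul hx h t, Finset.prod_mul_distrib,
      Finset.prod_const]
    ring
  have h1 := key f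
  have h2 := key fun _ => 1
  simp only [mul_one] at h2
  unfold Z EH
  rw [h1, h2, mul_div_mul_left _ _ (pow_ne_zero _ (inv_ne_zero (pow_ne_zero 2 hx)))]

/-! ### the finite graph model -/

/-- absolute value index -/
def kof (a : ℤ) : ℕ := if 1 ≤ a then (a - 1).toNat else (-a).toNat
/-- sign -/
def sg (a : ℤ) : ℤˣ := if 1 ≤ a then 1 else -1

theorem hh_kof_sg (a : ℤ) : (if sg a = 1 then (kof a : ℤ) + 1 else -(kof a : ℤ)) = a := by
  unfold sg kof
  by_cases h : 1 ≤ a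
  · simp only [if_pos h, if_true]; omega
  · have : ((-1 : ℤˣ) = 1) = False := by simp
    simp only [if_neg h, this, if_false]; omega

theorem kof_hh (k : ℕ) (s : ℤˣ) : kof (if s = 1 then (k : ℤ) + 1 else -(k : ℤ)) = k := by
  unfold kof
  rcases Int.units_eq_one_or s with h | h
  · simp only [h, if_true]
    rw [if_pos (by omega)]; omega
  · have : ((-1 : ℤˣ) = 1) = False := by simp
    simp only [h, this, if_false]
    rw [if_neg (by omega)]; omega

theorem sg_hh (k : ℕ) (s : ℤˣ) : sg (if s = 1 then (k : ℤ) + 1 else -(k : ℤ)) = s := by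
  unfold sg
  rcases Int.units_eq_one_or s with h | h
  · simp only [h, if_true]
    rw [if_pos (by omega)]
  · have : ((-1 : ℤˣ) = 1) = False := by simp
    simp only [h, this, if_false]
    rw [if_neg (by omega)]

section W

variable (W : Finset P2)

/-- extension by zero of the heights on `W` -/
def ext (k : ↥W → ℕ) (σ : ↥W → ℤˣ) (v : P2) : ℤ := if hv : v ∈ W then hh k σ ⟨v, hv⟩ else 0

variable {W}

theorem ext_of {k : ↥W → ℕ} {σ : ↥W → ℤˣ} {v : P2} (hv : v ∈ W) :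
    ext W k σ v = hh k σ ⟨v, hv⟩ := dif_pos hv

/-- embedding of sites -/
def pt (h0 : (0 : P2) ∈ W) (v : P2) : ↥W := if hv : v ∈ W then ⟨v, hv⟩ else ⟨0, h0⟩

theorem pt_of (h0 : (0 : P2) ∈ W) {v : P2} (hv : v ∈ W) : pt h0 v = ⟨v, hv⟩ := dif_pos hv

/-- first endpoint of the edge `(t, k)` -/
def ei (h0 : (0 : P2) ∈ W) (e : P2 × Fin 3) : ↥W := pt h0 (cr e.1 e.2)
/-- second endpoint -/
def ej (h0 : (0 : P2) ∈ W) (e : P2 × Fin 3) : ↥W := pt h0 (cr e.1 (e.2 + 1))

/-- interior sites -/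
def iI (W I : Finset P2) : Finset ↥W := Finset.univ.filter fun v => (v : P2) ∈ I
/-- edges -/
def eE (F : Finset P2) : Finset (P2 × Fin 3) := F ×ˢ Finset.univ

theorem cr_mem {F : Finset P2} {t : P2} (ht : t ∈ F) (k : Fin 3) : cr t k ∈ VF F :=
  mem_VF.2 ⟨t, ht, cr_mem_up t k⟩

theorem prod_E3 (h0 : (0 : P2) ∈ W) (x : ℝ) {F : Finset P2} (hW : VF F ⊆ W) (k : ↥W → ℕ)
    (σ : ↥W → ℤˣ) :
    ∏ e ∈ eE F, ph x (hh k σ (ei h0 e)) (hh k σ (ej h0 e)) = ∏ t ∈ F, E3 x (ext W k σ) t := by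
  unfold eE
  rw [Finset.prod_product]
  refine Finset.prod_congr rfl fun t ht => ?_
  have h1 : ∀ i : Fin 3, hh k σ (pt h0 (cr t i)) = ext W k σ (cr t i) := fun i => by
    have := hW (cr_mem ht i)
    rw [pt_of h0 this, ext_of this]
  simp only [ei, ej, h1, Fin.prod_univ_three]
  have e2 : (2 : Fin 3) + 1 = 0 := rfl
  have e1 : (1 : Fin 3) + 1 = 2 := rfl
  have e0 : (0 : Fin 3) + 1 = 1 := rfl
  rw [e0, e1, e2]
  unfold E3
  simp only [cr0, cr1, cr2]
  rw [Crest.Agent.R144.It844.ph_comm x (ext W k σ (t.1, t.2 + 1)) (ext W k σ t)]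
  ring

theorem E3_ne_zero {x : ℝ} {h : P2 → ℤ} {t : P2} (hn : E3 x h t ≠ 0) (i j : Fin 3) :
    |h (cr t i) - h (cr t j)| ≤ 1 := by
  unfold E3 at hn
  have h1 : |h t - h (t.1 + 1, t.2)| ≤ 1 := by
    by_contra hc; apply hn; unfold ph; rw [if_neg hc]; ring
  have h2 : |h t - h (t.1, t.2 + 1)| ≤ 1 := by
    by_contra hc; apply hn; unfold ph; rw [if_neg (c := |h t - h (t.1, t.2 + 1)| ≤ 1) hc]; ring
  have h3 : |h (t.1 + 1, t.2) - h (t.1, t.2 + 1)| ≤ 1 := by
    by_contra hc; apply hn; unfold ph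
    rw [if_neg (c := |h (t.1 + 1, t.2) - h (t.1, t.2 + 1)| ≤ 1) hc]; ring
  fin_cases i <;> fin_cases j <;>
    simp only [Fin.zero_eta, Fin.mk_one, Fin.reduceFinMk, cr0, cr1, cr2, sub_self, abs_zero,
      zero_le_one] <;> first | assumption | (rw [abs_sub_comm]; assumption)

theorem E3_eq_tw' (x : ℝ) {h : P2 → ℤ} {t : P2} (hl : ∀ i j, |h (cr t i) - h (cr t j)| ≤ 1) :
    E3 x h t = tw x h t := by
  have h1 := hl 0 1
  have h2 := hl 0 2
  have h3 := hl 1 2
  simp only [cr0, cr1, cr2] at h1 h2 h3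
  unfold E3 ph
  rw [if_pos h1, if_pos h2, if_pos h3]
  rw [abs_le] at h1 h2 h3
  by_cases e1 : h t = h (t.1 + 1, t.2)
  · by_cases e2 : h t = h (t.1, t.2 + 1)
    · have hc : Cst h t := ⟨e1, e2⟩
      rw [tw, if_pos hc, if_pos e1, if_pos e2, if_pos (e1 ▸ e2)]
      norm_num
    · have hc : ¬ Cst h t := fun hc => e2 hc.2
      rw [tw, if_neg hc, if_pos e1, if_neg e2, if_neg (e1 ▸ e2)]
      ring
  · by_cases e2 : h t = h (t.1, t.2 + 1)
    · have hc : ¬ Cst h t := fun hc => e1 hc.1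
      rw [tw, if_neg hc, if_neg e1, if_pos e2, if_neg (fun e => e1 (e2.trans e.symm))]
      ring
    · have hc : ¬ Cst h t := fun hc => e1 hc.1
      have e3 : h (t.1 + 1, t.2) = h (t.1, t.2 + 1) := by omega
      rw [tw, if_neg hc, if_neg e1, if_neg e2, if_pos e3]
      ring

theorem E3_congr (x : ℝ) {h g : P2 → ℤ} {t : P2} (he : ∀ i, h (cr t i) = g (cr t i)) :
    E3 x h t = E3 x g t := by
  have h1 := he 0
  have h2 := he 1
  have h3 := he 2
  simp only [cr0, cr1, cr2] at h1 h2 h3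
  unfold E3
  rw [h1, h2, h3]

/-- free signs off `VF F` -/
def Rs (W F : Finset P2) : Finset (↥W → ℤˣ) :=
  Finset.univ.filter fun ρ => ∀ v : ↥W, (v : P2) ∈ VF F → ρ v = 1

theorem Rs_card_pos (W F : Finset P2) : 0 < (Rs W F).card :=
  Finset.card_pos.2 ⟨1, by unfold Rs; simp⟩

open Classical in
/-- admissible heights with free sites `I` -/
def htsI (F I : Finset P2) : Finset (P2 → ℤ) :=
  (hts F).filter fun h => ∀ v, v ∉ I → h v = 0 ∨ h v = 1

theorem mem_htsI {F I : Finset P2} {h : P2 → ℤ} :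
    h ∈ htsI F I ↔ HV F h ∧ ∀ v, v ∉ I → h v = 0 ∨ h v = 1 := by
  classical
  unfold htsI
  rw [Finset.mem_filter, mem_hts]

theorem htsI_self (F : Finset P2) : htsI F (IV F) = hts F := by
  ext h
  rw [mem_htsI, mem_hts]
  exact ⟨fun h1 => h1.1, fun h1 => ⟨h1, h1.bd⟩⟩

/-- unnormalised expectation, free sites `I` -/
def SI (x : ℝ) (F I : Finset P2) (f : (P2 → ℤ) → ℝ) : ℝ :=
  ∑ h ∈ htsI F I, (∏ t ∈ F, tw x h t) * f h

/-- expectation, free sites `I` -/
def EI (x : ℝ) (F I : Finset P2) (f : (P2 → ℤ) → ℝ) : ℝ := SI x F I f / SI x F I fun _ => 1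

theorem EI_self (x : ℝ) (F : Finset P2) (f : (P2 → ℤ) → ℝ) : EI x F (IV F) f = EH x F f := by
  unfold EI EH SI SH
  rw [htsI_self]

theorem SI_one_pos (x : ℝ) (F I : Finset P2) : 0 < SI x F I fun _ => 1 := by
  unfold SI
  refine Finset.sum_pos' (fun h _ => by
    rw [mul_one]; exact Finset.prod_nonneg fun t _ => tw_nonneg x h t)
    ⟨_, mem_htsI.2 ⟨mem_hts.1 (flat_mem F), fun _ _ => Or.inl rfl⟩, ?_⟩
  have : ∏ t ∈ F, tw x (fun _ : P2 => (0 : ℤ)) t = 1 :=
    Finset.prod_eq_one fun t _ => by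
      unfold tw; rw [if_pos ⟨rfl, rfl⟩]
  rw [this]; norm_num

open Classical in
/-- the configurations of the graph model that contribute -/
def Sc (W F I : Finset P2) (M : ℕ) : Finset ((↥W → ℕ) × (↥W → ℤˣ)) :=
  (box (V := ↥W) M ×ˢ Finset.univ).filter fun p =>
    (∀ v : ↥W, v ∉ iI W I → p.1 v = 0) ∧ ∀ t ∈ F, ∀ i j, |ext W p.1 p.2 (cr t i) - ext W p.1 p.2 (cr t j)| ≤ 1

/-- **The graph model reproduces the F-type model.** -/
theorem SS_eq_SI (h0 : (0 : P2) ∈ W) (x : ℝ) {F I : Finset P2} (hI' : I ⊆ IV F) (hW : VF F ⊆ W) {M : ℕ}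
    (hM : ∀ h ∈ hts F, ∀ v, kof (h v) ≤ M) (Φ : (P2 → ℤ) → ℝ)
    (hΦ : ∀ h h' : P2 → ℤ, (∀ v ∈ VF F, h v = h' v) → Φ h = Φ h') :
    SS x (ei h0) (ej h0) (iI W I) (eE F) M (fun k σ => Φ (ext W k σ)) =
      (Rs W F).card * SI x F I Φ := by
  classical
  have hI : ∀ v : ↥W, v ∈ iI W I ↔ (v : P2) ∈ I := fun v => by simp [iI]
  -- step 1: restrict to the contributing configurations
  have s1 : SS x (ei h0) (ej h0) (iI W I) (eE F) M (fun k σ => Φ (ext W k σ)) =
      ∑ p ∈ Sc W F I M, (∏ t ∈ F, E3 x (ext W p.1 p.2) t) * Φ (ext W p.1 p.2) := by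
    unfold SS Sc
    rw [Finset.sum_filter, Finset.sum_product]
    refine Finset.sum_congr rfl fun k _ => Finset.sum_congr rfl fun σ _ => ?_
    rw [prod_E3 h0 x hW]
    dsimp only
    by_cases h1 : ∀ v : ↥W, v ∉ iI W I → k v = 0
    · rw [if_pos h1, one_mul]
      by_cases h2 : ∀ t ∈ F, ∀ i j, |ext W k σ (cr t i) - ext W k σ (cr t j)| ≤ 1
      · rw [if_pos ⟨h1, h2⟩]
      · rw [if_neg (fun h => h2 h.2)]
        push Not at h2
        obtain ⟨t, ht, i, j, hij⟩ := h2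
        rw [Finset.prod_eq_zero ht, zero_mul]
        by_contra hne
        exact absurd (E3_ne_zero hne i j) (not_le.2 hij)
    · rw [if_neg h1, if_neg (fun h => h1 h.1)]; ring
  rw [s1]
  -- step 2: bijection
  have s2 : ∑ p ∈ Sc W F I M, (∏ t ∈ F, E3 x (ext W p.1 p.2) t) * Φ (ext W p.1 p.2) =
      ∑ q ∈ htsI F I ×ˢ Rs W F, (∏ t ∈ F, tw x q.1 t) * Φ q.1 := by
    refine Finset.sum_nbij' (i := fun p => (fun v => if v ∈ VF F then ext W p.1 p.2 v else 0,
        fun v => if (v : P2) ∈ VF F then 1 else p.2 v))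
      (j := fun q => (fun v => kof (q.1 v), fun v => if (v : P2) ∈ VF F then sg (q.1 v) else q.2 v))
      ?_ ?_ ?_ ?_ ?_
    · rintro ⟨k, σ⟩ hp
      unfold Sc at hp
      rw [Finset.mem_filter, Finset.mem_product] at hp
      obtain ⟨-, h1, h2⟩ := hp
      dsimp only at h1 h2 ⊢
      rw [Finset.mem_product, mem_htsI]
      have hbd : ∀ v, v ∉ I → (if v ∈ VF F then ext W k σ v else 0) = 0 ∨
          (if v ∈ VF F then ext W k σ v else 0) = 1 := by
        intro v hv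
        by_cases hvF : v ∈ VF F
        · rw [if_pos hvF, ext_of (hW hvF)]
          have := h1 ⟨v, hW hvF⟩ (fun h => hv ((hI _).1 h))
          unfold hh
          rw [this]
          split_ifs
          · right; norm_num
          · left; norm_num
        · rw [if_neg hvF]; exact Or.inl rfl
      refine ⟨⟨⟨fun t ht i j => ?_, fun v hv => hbd v fun h => hv (hI' h),
        fun v hv => if_neg hv⟩, hbd⟩, ?_⟩
      · simp only [if_pos (cr_mem ht i), if_pos (cr_mem ht j)]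
        exact h2 t ht i j
      · unfold Rs
        rw [Finset.mem_filter]
        exact ⟨Finset.mem_univ _, fun v hv => if_pos hv⟩
    · rintro ⟨h, ρ⟩ hq
      rw [Finset.mem_product] at hq
      obtain ⟨hq1, hq2⟩ := hq
      dsimp only at hq1 hq2 ⊢
      obtain ⟨hV, hV2⟩ := mem_htsI.1 hq1
      have ee : ∀ v ∈ VF F, ext W (fun v : ↥W => kof (h v))
          (fun v : ↥W => if (v : P2) ∈ VF F then sg (h v) else ρ v) v = h v := fun v hv => by
        rw [ext_of (hW hv)]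
        unfold hh
        simp only [if_pos hv]
        exact hh_kof_sg (h v)
      unfold Sc
      rw [Finset.mem_filter, Finset.mem_product, mem_box]
      refine ⟨⟨fun v => hM h (mem_hts.2 hV) _, Finset.mem_univ _⟩, fun v hv => ?_,
        fun t ht i j => ?_⟩
      · dsimp only
        rw [hI] at hv
        rcases hV2 _ hv with h1 | h1 <;> rw [h1] <;> rfl
      · dsimp only
        rw [ee _ (cr_mem ht i), ee _ (cr_mem ht j)]
        exact hV.lip t ht i j
    · rintro ⟨k, σ⟩ hp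
      unfold Sc at hp
      rw [Finset.mem_filter, Finset.mem_product] at hp
      obtain ⟨-, h1, -⟩ := hp
      dsimp only at h1 ⊢
      refine Prod.ext ?_ ?_
      · funext v
        dsimp only
        by_cases hv : (v : P2) ∈ VF F
        · rw [if_pos hv, ext_of v.2]
          exact kof_hh _ _
        · rw [if_neg hv]
          rw [h1 v (fun h => hv (IV_sub_VF F (hI' ((hI v).1 h))))]
          rfl
      · funext v
        dsimp only
        by_cases hv : (v : P2) ∈ VF F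
        · rw [if_pos hv, if_pos hv, ext_of v.2]
          exact sg_hh _ _
        · rw [if_neg hv, if_neg hv]
    · rintro ⟨h, ρ⟩ hq
      rw [Finset.mem_product] at hq
      obtain ⟨hq1, hq2⟩ := hq
      dsimp only at hq1 hq2 ⊢
      have hV := (mem_htsI.1 hq1).1
      refine Prod.ext ?_ ?_
      · funext v
        dsimp only
        by_cases hv : v ∈ VF F
        · rw [if_pos hv, ext_of (hW hv)]
          unfold hh
          simp only [if_pos hv]
          exact hh_kof_sg (h v)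
        · rw [if_neg hv, hV.off v hv]
      · funext v
        dsimp only
        by_cases hv : (v : P2) ∈ VF F
        · rw [if_pos hv]
          unfold Rs at hq2
          rw [Finset.mem_filter] at hq2
          exact (hq2.2 v hv).symm
        · rw [if_neg hv, if_neg hv]
    · rintro ⟨k, σ⟩ hp
      unfold Sc at hp
      rw [Finset.mem_filter, Finset.mem_product] at hp
      obtain ⟨-, h1, h2⟩ := hp
      dsimp only at h1 h2 ⊢
      have ee : ∀ v ∈ VF F, ext W k σ v = if v ∈ VF F then ext W k σ v else 0 :=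
        fun v hv => by rw [if_pos hv]
      rw [hΦ (ext W k σ) (fun v => if v ∈ VF F then ext W k σ v else 0) ee]
      congr 1
      refine Finset.prod_congr rfl fun t ht => ?_
      rw [E3_congr x (g := fun v => if v ∈ VF F then ext W k σ v else 0)
        fun i => ee _ (cr_mem ht i)]
      refine E3_eq_tw' x fun i j => ?_
      simp only [if_pos (cr_mem ht i), if_pos (cr_mem ht j)]
      exact h2 t ht i j
  rw [s2, Finset.sum_product]
  unfold SI
  rw [Finset.mul_sum]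
  refine Finset.sum_congr rfl fun h _ => ?_
  simp only [Finset.sum_const, nsmul_eq_mul]

theorem exists_box (F : Finset P2) : ∃ M : ℕ, ∀ h ∈ hts F, ∀ v, kof (h v) ≤ M := by
  refine ⟨(hts F).sup fun h => (VF F).sup fun v => kof (h v), fun h hh v => ?_⟩
  by_cases hv : v ∈ VF F
  · exact (Finset.le_sup (f := fun v => kof (h v)) hv).trans
      (Finset.le_sup (f := fun h : P2 → ℤ => (VF F).sup fun v => kof (h v)) hh)
  · rw [(mem_hts.1 hh).off v hv]
    exact Nat.zero_le _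

end W

/-! ### increasing positive functions of the heights -/

/-- `Φ` depends on the heights in `S` and is an increasing positive function of `h - 1/2` -/
structure Inc (S : Finset P2) (Φ : (P2 → ℤ) → ℝ) : Prop where
  dep : ∀ h h' : P2 → ℤ, (∀ v ∈ S, h v = h' v) → Φ h = Φ h'
  mp : ∀ W : Finset P2, S ⊆ W → MPos fun (k : ↥W → ℕ) (σ : ↥W → ℤˣ) => Φ (ext W k σ)

theorem Inc.const (S : Finset P2) {r : ℝ} (hr : 0 ≤ r) : Inc S fun _ => r :=
  ⟨fun _ _ _ => rfl, fun _ _ => MPos.const hr⟩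

theorem Inc.height {S : Finset P2} {v : P2} (hv : v ∈ S) : Inc S fun h => (h v : ℝ) - 1 / 2 :=
  ⟨fun h h' e => by rw [e v hv], fun W hW => (MPos.height (V := ↥W) ⟨v, hW hv⟩).congr
    fun k σ => by rw [ext_of (hW hv)]⟩

theorem Inc.add {S : Finset P2} {Φ Ψ : (P2 → ℤ) → ℝ} (h : Inc S Φ) (h' : Inc S Ψ) :
    Inc S fun a => Φ a + Ψ a :=
  ⟨fun a b e => by rw [h.dep a b e, h'.dep a b e], fun W hW => (h.mp W hW).add (h'.mp W hW)⟩

theorem Inc.mul {S : Finset P2} {Φ Ψ : (P2 → ℤ) → ℝ} (h : Inc S Φ) (h' : Inc S Ψ) :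
    Inc S fun a => Φ a * Ψ a :=
  ⟨fun a b e => by rw [h.dep a b e, h'.dep a b e], fun W hW => (h.mp W hW).mul (h'.mp W hW)⟩

theorem Inc.smul {S : Finset P2} {Φ : (P2 → ℤ) → ℝ} (h : Inc S Φ) {r : ℝ} (hr : 0 ≤ r) :
    Inc S fun a => r * Φ a :=
  ⟨fun a b e => by rw [h.dep a b e], fun W hW => (h.mp W hW).smul hr⟩

theorem Inc.pow {S : Finset P2} {Φ : (P2 → ℤ) → ℝ} (h : Inc S Φ) (n : ℕ) :
    Inc S fun a => Φ a ^ n :=
  ⟨fun a b e => by rw [h.dep a b e], fun W hW => (h.mp W hW).pow n⟩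

theorem Inc.sum {ι : Type*} {S : Finset P2} (s : Finset ι) {Φ : ι → (P2 → ℤ) → ℝ}
    (h : ∀ a ∈ s, Inc S (Φ a)) : Inc S fun g => ∑ a ∈ s, Φ a g :=
  ⟨fun a b e => Finset.sum_congr rfl fun i hi => (h i hi).dep a b e,
    fun W hW => MPos.sum s fun i hi => (h i hi).mp W hW⟩

theorem Inc.prod {ι : Type*} {S : Finset P2} (s : Finset ι) {Φ : ι → (P2 → ℤ) → ℝ}
    (h : ∀ a ∈ s, Inc S (Φ a)) : Inc S fun g => ∏ a ∈ s, Φ a g :=
  ⟨fun a b e => Finset.prod_congr rfl fun i hi => (h i hi).dep a b e,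
    fun W hW => MPos.prod s fun i hi => (h i hi).mp W hW⟩

theorem Inc.mono {S S' : Finset P2} (hS : S ⊆ S') {Φ : (P2 → ℤ) → ℝ} (h : Inc S Φ) : Inc S' Φ :=
  ⟨fun a b e => h.dep a b fun v hv => e v (hS hv), fun W hW => h.mp W (hS.trans hW)⟩

/-- nonnegative linear statistics of `h - 1/2` -/
theorem Inc.linear {S : Finset P2} {f : P2 → ℝ} (hf : ∀ v, 0 ≤ f v) :
    Inc S fun h => ∑ v ∈ S, f v * ((h v : ℝ) - 1 / 2) :=
  Inc.sum S fun v hv => (Inc.height hv).smul (hf v)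

/-- **(H2) monotonicity in the domain**, arbitrary sets of free sites. -/
theorem EI_mono {x : ℝ} (hx0 : 0 ≤ x) (hx1 : x ≤ 1) {F F' I I' : Finset P2} (hF : F ⊆ F')
    (hI1 : I ⊆ IV F) (hI1' : I' ⊆ IV F') (hII : I ⊆ I') {Φ : (P2 → ℤ) → ℝ} (hΦ : Inc (VF F) Φ) :
    EI x F I Φ ≤ EI x F' I' Φ := by
  classical
  set W : Finset P2 := insert 0 (VF F') with hWdef
  have h0 : (0 : P2) ∈ W := Finset.mem_insert_self _ _
  have hW' : VF F' ⊆ W := Finset.subset_insert _ _
  have hW : VF F ⊆ W := (VF_mono hF).trans hW'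
  obtain ⟨M1, hM1⟩ := exists_box F
  obtain ⟨M2, hM2⟩ := exists_box F'
  have hM1' : ∀ h ∈ hts F, ∀ v, kof (h v) ≤ max M1 M2 := fun h hh v =>
    (hM1 h hh v).trans (le_max_left _ _)
  have hM2' : ∀ h ∈ hts F', ∀ v, kof (h v) ≤ max M1 M2 := fun h hh v =>
    (hM2 h hh v).trans (le_max_right _ _)
  have hI : iI W I ⊆ iI W I' := fun v hv => by
    unfold iI at hv ⊢
    rw [Finset.mem_filter] at hv ⊢
    exact ⟨hv.1, hII hv.2⟩
  have hE : eE F ⊆ eE F' := Finset.product_subset_product_left hF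
  have hIE : ∀ e ∈ eE F', e ∉ eE F → ei h0 e ∉ iI W I ∧ ej h0 e ∉ iI W I := by
    rintro ⟨t, k⟩ he hne
    unfold eE at he hne
    rw [Finset.mem_product] at he hne
    have ht : t ∈ F' := he.1
    have ht' : t ∉ F := fun h => hne ⟨h, Finset.mem_univ _⟩
    have key : ∀ i : Fin 3, pt h0 (cr t i) ∉ iI W I := fun i hi => by
      unfold iI at hi
      rw [Finset.mem_filter, pt_of h0 (hW' (cr_mem ht i))] at hi
      exact ht' (mem_IV'.1 (hI1 hi.2) t (cr_mem_up t i))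
    exact ⟨key _, key _⟩
  have key := SS_mono hx0 hx1 (ei h0) (ej h0) hI hE hIE (max M1 M2) (hΦ.mp W hW)
  have hΦ' : Inc (VF F') Φ := hΦ.mono (VF_mono hF)
  have e1 := SS_eq_SI h0 x hI1 hW hM1' Φ hΦ.dep
  have e2 := SS_eq_SI h0 x hI1 hW hM1' (fun _ => 1) (fun _ _ _ => rfl)
  have e3 := SS_eq_SI h0 x hI1' hW' hM2' Φ hΦ'.dep
  have e4 := SS_eq_SI h0 x hI1' hW' hM2' (fun _ => 1) (fun _ _ _ => rfl)
  rw [e1, e2, e3, e4] at key
  unfold EI
  have p1 : (0 : ℝ) < (Rs W F).card := by exact_mod_cast Rs_card_pos W F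
  have p2 : (0 : ℝ) < (Rs W F').card := by exact_mod_cast Rs_card_pos W F'
  rw [div_le_div_iff₀ (SI_one_pos x F I) (SI_one_pos x F' I')]
  have p3 : 0 < ((Rs W F).card : ℝ) * (Rs W F').card := mul_pos p1 p2
  refine le_of_mul_le_mul_left ?_ p3
  calc _ = _ := by ring
    _ ≤ _ := key
    _ = _ := by ring

theorem EI_nonneg {x : ℝ} (hx0 : 0 ≤ x) (hx1 : x ≤ 1) {F I : Finset P2} (hI1 : I ⊆ IV F)
    {Φ : (P2 → ℤ) → ℝ} (hΦ : Inc (VF F) Φ) : 0 ≤ EI x F I Φ := by
  classical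
  set W : Finset P2 := insert 0 (VF F) with hWdef
  have h0 : (0 : P2) ∈ W := Finset.mem_insert_self _ _
  have hW : VF F ⊆ W := Finset.subset_insert _ _
  obtain ⟨M, hM⟩ := exists_box F
  have key := SS_nonneg hx0 hx1 (ei h0) (ej h0) (iI W I) (eE F) M (hΦ.mp W hW)
  rw [SS_eq_SI h0 x hI1 hW hM Φ hΦ.dep] at key
  have p1 : (0 : ℝ) < (Rs W F).card := by exact_mod_cast Rs_card_pos W F
  exact div_nonneg (nonneg_of_mul_nonneg_right key p1) (SI_one_pos x F I).le

/-- **Griffiths II for the centred heights**, arbitrary free sites. -/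
theorem EI_gks {x : ℝ} (hx0 : 0 ≤ x) (hx1 : x ≤ 1) {F I : Finset P2} (hI1 : I ⊆ IV F)
    {Φ Ψ : (P2 → ℤ) → ℝ} (hΦ : Inc (VF F) Φ) (hΨ : Inc (VF F) Ψ) :
    EI x F I Φ * EI x F I Ψ ≤ EI x F I fun h => Φ h * Ψ h := by
  classical
  set W : Finset P2 := insert 0 (VF F) with hWdef
  have h0 : (0 : P2) ∈ W := Finset.mem_insert_self _ _
  have hW : VF F ⊆ W := Finset.subset_insert _ _
  obtain ⟨M, hM⟩ := exists_box F
  have key := SS_gks hx0 hx1 (ei h0) (ej h0) (iI W I) (eE F) M (hΦ.mp W hW) (hΨ.mp W hW)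
  have e1 := SS_eq_SI h0 x hI1 hW hM Φ hΦ.dep
  have e2 := SS_eq_SI h0 x hI1 hW hM Ψ hΨ.dep
  have e3 := SS_eq_SI h0 x hI1 hW hM (fun _ => 1) (fun _ _ _ => rfl)
  have e4 := SS_eq_SI h0 x hI1 hW hM (fun h => Φ h * Ψ h) (hΦ.mul hΨ).dep
  rw [e1, e2, e3, e4] at key
  unfold EI
  have p1 : (0 : ℝ) < (Rs W F).card := by exact_mod_cast Rs_card_pos W F
  have p2 := SI_one_pos x F I
  rw [div_mul_div_comm, div_le_div_iff₀ (mul_pos p2 p2) p2]
  have key2 : SI x F I Φ * SI x F I Ψ ≤ SI x F I (fun _ => 1) * SI x F I (fun h => Φ h * Ψ h) := by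
    refine le_of_mul_le_mul_left ?_ (mul_pos p1 p1)
    calc _ = _ := by ring
      _ ≤ _ := key
      _ = _ := by ring
  calc _ ≤ (SI x F I (fun _ => 1) * SI x F I (fun h => Φ h * Ψ h)) * SI x F I (fun _ => 1) :=
        mul_le_mul_of_nonneg_right key2 p2.le
    _ = _ := by ring

/-- **(H2) monotonicity in the domain.** -/
theorem EH_mono {x : ℝ} (hx0 : 0 ≤ x) (hx1 : x ≤ 1) {F F' : Finset P2} (hF : F ⊆ F')
    {Φ : (P2 → ℤ) → ℝ} (hΦ : Inc (VF F) Φ) : EH x F Φ ≤ EH x F' Φ := by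
  rw [← EI_self, ← EI_self]
  exact EI_mono hx0 hx1 hF (Finset.Subset.refl _) (Finset.Subset.refl _) (IV_mono hF) hΦ

theorem EH_nonneg {x : ℝ} (hx0 : 0 ≤ x) (hx1 : x ≤ 1) {F : Finset P2}
    {Φ : (P2 → ℤ) → ℝ} (hΦ : Inc (VF F) Φ) : 0 ≤ EH x F Φ := by
  rw [← EI_self]
  exact EI_nonneg hx0 hx1 (Finset.Subset.refl _) hΦ

/-- **Griffiths II for the centred heights.** -/
theorem EH_gks {x : ℝ} (hx0 : 0 ≤ x) (hx1 : x ≤ 1) {F : Finset P2}
    {Φ Ψ : (P2 → ℤ) → ℝ} (hΦ : Inc (VF F) Φ) (hΨ : Inc (VF F) Ψ) :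
    EH x F Φ * EH x F Ψ ≤ EH x F fun h => Φ h * Ψ h := by
  rw [← EI_self, ← EI_self, ← EI_self]
  exact EI_gks hx0 hx1 (Finset.Subset.refl _) hΦ hΨ

end Crest.Agent.R144.Hf702
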