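import Crest.Agent.R144.Hf2_702
import Crest.Agent.R144.Dpl5_702

/-!
# R144, block HALF (helper702), part 3: moments and reflection in the F-type model

* `nat2_htsI`, `EI_abs_moment`, `EH_abs_moment` : all moments from the second one;
* `EI_refl` : symmetry under `h ↦ 1 - h`; `EI_linear_zero`.
-/

set_option autoImplicit false
set_option linter.unusedVariables false

noncomputable section

namespace Crest.Agent.R144.Hf702

open Finset
open Crest.Agent.R144.It844 (P2 Lip Cst tw)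
open Crest.Agent.R144.Dpl702
open Crest.Agent.R144.Zg349 Crest.Agent.R144.Zd349 Crest.Agent.R144.Zm349

theorem nat2_htsI {x : ℝ} (hx : x ^ 2 ≤ 1) (F I : Finset P2) :
    Nat2 (htsI F I) (fun h => ∏ t ∈ F, tw x h t) := by
  refine ⟨fun h _ => Finset.prod_nonneg fun t _ => tw_nonneg x h t, fun a ha b hb => ?_,
    fun a ha b hb => ?_⟩
  · rw [mem_htsI] at ha hb
    obtain ⟨ha1, ha2⟩ := ha
    obtain ⟨hb1, hb2⟩ := hb
    have key : ∀ p q : ℤ, (p = 0 ∨ p = 1) → (q = 0 ∨ q = 1) →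
        ((p + q) / 2 = 0 ∨ (p + q) / 2 = 1) ∧ ((p + q + 1) / 2 = 0 ∨ (p + q + 1) / 2 = 1) := by
      rintro p q (rfl | rfl) (rfl | rfl) <;> decide
    have l1 := lip_fl ha1.toLip hb1.toLip
    have l2 := lip_ce ha1.toLip hb1.toLip
    have cl : ∀ {h : P2 → ℤ}, Lip h → ∀ t ∈ F, ∀ i j, |h (cr t i) - h (cr t j)| ≤ 1 := by
      intro h hl t _ i j
      rw [Crest.Agent.R144.It844.lip_iff] at hl
      obtain ⟨h1, h2, h3⟩ := hl t
      fin_cases i <;> fin_cases j <;>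
        simp only [Fin.zero_eta, Fin.mk_one, Fin.reduceFinMk, cr0, cr1, cr2, sub_self, abs_zero,
          zero_le_one] <;> first | assumption | (rw [abs_sub_comm]; assumption)
    constructor
    · rw [mem_htsI]
      refine ⟨⟨cl l1, fun v hv => (key _ _ (ha1.bd v hv) (hb1.bd v hv)).1, fun v hv => ?_⟩,
        fun v hv => (key _ _ (ha2 v hv) (hb2 v hv)).1⟩
      simp only [fl, ha1.off v hv, hb1.off v hv]; rfl
    · rw [mem_htsI]
      refine ⟨⟨cl l2, fun v hv => (key _ _ (ha1.bd v hv) (hb1.bd v hv)).2, fun v hv => ?_⟩,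
        fun v hv => (key _ _ (ha2 v hv) (hb2 v hv)).2⟩
      simp only [ce, ha1.off v hv, hb1.off v hv]; rfl
  · exact prod_tw_fl_ce hx F (mem_htsI.1 ha).1.toLip (mem_htsI.1 hb).1.toLip

theorem EI_abs_moment {x : ℝ} (hx0 : 0 ≤ x) (hx1 : x ≤ 1) (F I : Finset P2) {X : (P2 → ℤ) → ℝ}
    {L σ : ℝ} (hX : MidLin (htsI F I) X L) (hL : 0 ≤ L) (hσ : 0 ≤ σ)
    (hv : EI x F I (fun h => X h ^ 2) ≤ σ ^ 2) (n : ℕ) :
    EI x F I (fun h => |X h| ^ n) ≤ 2 * Cm n * (4 * σ + L) ^ n := by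
  have hx2 : x ^ 2 ≤ 1 := pow_le_one₀ hx0 hx1
  have hZ : 0 < ∑ h ∈ htsI F I, ∏ t ∈ F, tw x h t := by
    have := SI_one_pos x F I
    unfold SI at this
    simpa using this
  have e : ∀ Φ : (P2 → ℤ) → ℝ, EI x F I Φ =
      (∑ h ∈ htsI F I, (∏ t ∈ F, tw x h t) * Φ h) / ∑ h ∈ htsI F I, ∏ t ∈ F, tw x h t := by
    intro Φ
    unfold EI SI
    simp only [mul_one]
  rw [e] at hv ⊢
  exact abs_moment (nat2_htsI hx2 F I) hZ hX hL hσ hv n

/-- moments of linear statistics -/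
theorem EI_abs_moment_linear {x : ℝ} (hx0 : 0 ≤ x) (hx1 : x ≤ 1) (F I S : Finset P2) (f : P2 → ℝ)
    {σ : ℝ} (hσ : 0 ≤ σ) (hv : EI x F I (fun h => (∑ v ∈ S, f v * ((h v : ℝ) - 1 / 2)) ^ 2) ≤ σ ^ 2)
    (n : ℕ) :
    EI x F I (fun h => |∑ v ∈ S, f v * ((h v : ℝ) - 1 / 2)| ^ n) ≤
      2 * Cm n * (4 * σ + ∑ v ∈ S, |f v|) ^ n := by
  have e : ∀ h : P2 → ℤ, ∑ v ∈ S, f v * ((h v : ℝ) - 1 / 2) =
      ∑ v ∈ S, f v * (h v : ℝ) - ∑ v ∈ S, f v * (1 / 2) := fun h => by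
    rw [← Finset.sum_sub_distrib]
    exact Finset.sum_congr rfl fun v _ => by ring
  have hX : MidLin (htsI F I) (fun h => ∑ v ∈ S, f v * ((h v : ℝ) - 1 / 2)) (∑ v ∈ S, |f v|) := by
    have := (midLin_sum (htsI F I) S f).sub_const (∑ v ∈ S, f v * (1 / 2))
    intro a ha b hb
    have h1 := this a ha b hb
    simp only [e]
    exact h1
  exact EI_abs_moment hx0 hx1 F I hX (Finset.sum_nonneg fun _ _ => abs_nonneg _) hσ hv n

/-! ### reflection -/

/-- `h ↦ 1 - h` on the sites of `F` -/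
def rfl1 (F : Finset P2) (h : P2 → ℤ) (v : P2) : ℤ := if v ∈ VF F then 1 - h v else h v

theorem rfl1_invol (F : Finset P2) (h : P2 → ℤ) : rfl1 F (rfl1 F h) = h := by
  funext v
  unfold rfl1
  by_cases hv : v ∈ VF F
  · simp only [if_pos hv]; ring
  · simp only [if_neg hv]

theorem rfl1_mem {F I : Finset P2} {h : P2 → ℤ} (hh : h ∈ htsI F I) : rfl1 F h ∈ htsI F I := by
  rw [mem_htsI] at hh ⊢
  obtain ⟨h1, h2⟩ := hh
  have key : ∀ v, (h v = 0 ∨ h v = 1) → rfl1 F h v = 0 ∨ rfl1 F h v = 1 := by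
    intro v hv
    unfold rfl1
    split_ifs
    · rcases hv with hv | hv <;> rw [hv] <;> decide
    · exact hv
  refine ⟨⟨fun t ht i j => ?_, fun v hv => key v (h1.bd v hv), fun v hv => ?_⟩,
    fun v hv => key v (h2 v hv)⟩
  · unfold rfl1
    rw [if_pos (cr_mem ht i), if_pos (cr_mem ht j)]
    have := h1.lip t ht j i
    rw [show 1 - h (cr t i) - (1 - h (cr t j)) = h (cr t j) - h (cr t i) by ring]
    exact this
  · unfold rfl1
    rw [if_neg hv]
    exact h1.off v hv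

theorem tw_rfl1 (x : ℝ) {F : Finset P2} {t : P2} (ht : t ∈ F) (h : P2 → ℤ) :
    tw x (rfl1 F h) t = tw x h t := by
  unfold tw
  have e : Cst (rfl1 F h) t ↔ Cst h t := by
    have h0 := cr_mem ht 0
    have h1 := cr_mem ht 1
    have h2 := cr_mem ht 2
    simp only [cr0, cr1, cr2] at h0 h1 h2
    unfold Cst rfl1
    rw [if_pos h0, if_pos h1, if_pos h2]
    constructor
    · rintro ⟨a, b⟩; exact ⟨by omega, by omega⟩
    · rintro ⟨a, b⟩; exact ⟨by omega, by omega⟩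
  by_cases hc : Cst h t
  · rw [if_pos hc, if_pos (e.2 hc)]
  · rw [if_neg hc, if_neg fun h' => hc (e.1 h')]

theorem EI_refl (x : ℝ) (F I : Finset P2) (Φ : (P2 → ℤ) → ℝ) :
    EI x F I (fun h => Φ (rfl1 F h)) = EI x F I Φ := by
  unfold EI
  congr 1
  unfold SI
  refine Finset.sum_nbij' (i := rfl1 F) (j := rfl1 F) (fun h hh => rfl1_mem hh)
    (fun h hh => rfl1_mem hh) (fun h _ => rfl1_invol F h) (fun h _ => rfl1_invol F h) fun h hh => ?_
  congr 1
  exact (Finset.prod_congr rfl fun t ht => tw_rfl1 x ht h).symm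

theorem EI_smul (x : ℝ) (F I : Finset P2) (a : ℝ) (f : (P2 → ℤ) → ℝ) :
    EI x F I (fun h => a * f h) = a * EI x F I f := by
  unfold EI SI
  rw [mul_div_assoc', Finset.mul_sum]
  congr 1
  exact Finset.sum_congr rfl fun h _ => by ring

theorem EI_congr {x : ℝ} {F I : Finset P2} {f g : (P2 → ℤ) → ℝ} (h : ∀ a ∈ htsI F I, f a = g a) :
    EI x F I f = EI x F I g := by
  unfold EI SI
  congr 1
  exact Finset.sum_congr rfl fun a ha => by rw [h a ha]

theorem EI_add (x : ℝ) (F I : Finset P2) (f g : (P2 → ℤ) → ℝ) :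
    EI x F I (fun h => f h + g h) = EI x F I f + EI x F I g := by
  unfold EI SI
  rw [← add_div, ← Finset.sum_add_distrib]
  congr 1
  exact Finset.sum_congr rfl fun h _ => by ring

theorem EI_sum {ι : Type*} (x : ℝ) (F I : Finset P2) (s : Finset ι) (f : ι → (P2 → ℤ) → ℝ) :
    EI x F I (fun h => ∑ i ∈ s, f i h) = ∑ i ∈ s, EI x F I (f i) := by
  unfold EI SI
  rw [← Finset.sum_div, Finset.sum_comm]
  congr 1
  exact Finset.sum_congr rfl fun h _ => by rw [Finset.mul_sum]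

theorem EI_const (x : ℝ) (F I : Finset P2) (a : ℝ) : EI x F I (fun _ => a) = a := by
  unfold EI
  have : SI x F I (fun _ => a) = a * SI x F I (fun _ => 1) := by
    unfold SI
    rw [Finset.mul_sum]
    exact Finset.sum_congr rfl fun h _ => by ring
  rw [this, mul_div_assoc, div_self (SI_one_pos x F I).ne', mul_one]

theorem EI_le {x : ℝ} {F I : Finset P2} {f g : (P2 → ℤ) → ℝ} (h : ∀ a ∈ htsI F I, f a ≤ g a) :
    EI x F I f ≤ EI x F I g := by
  unfold EI SI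
  refine div_le_div_of_nonneg_right ?_ (SI_one_pos x F I).le
  exact Finset.sum_le_sum fun a ha => mul_le_mul_of_nonneg_left (h a ha)
    (Finset.prod_nonneg fun t _ => tw_nonneg x a t)

/-- odd functions have zero mean -/
theorem EI_height (x : ℝ) (F I : Finset P2) {v : P2} (hv : v ∈ VF F) :
    EI x F I (fun h => (h v : ℝ) - 1 / 2) = 0 := by
  have h1 := EI_refl x F I (fun h => (h v : ℝ) - 1 / 2)
  have h2 : EI x F I (fun h => ((rfl1 F h v : ℤ) : ℝ) - 1 / 2) =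
      -1 * EI x F I (fun h => (h v : ℝ) - 1 / 2) := by
    rw [← EI_smul]
    refine EI_congr fun h _ => ?_
    unfold rfl1
    rw [if_pos hv]
    push_cast
    ring
  rw [h2] at h1
  linarith

theorem EI_linear_zero (x : ℝ) (F I : Finset P2) {S : Finset P2} (hS : S ⊆ VF F) (f : P2 → ℝ) :
    EI x F I (fun h => ∑ v ∈ S, f v * ((h v : ℝ) - 1 / 2)) = 0 := by
  rw [EI_sum]
  refine Finset.sum_eq_zero fun v hv => ?_
  rw [EI_smul, EI_height x F I (hS hv), mul_zero]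

/-- Cauchy–Schwarz -/
theorem EI_cs (x : ℝ) (F I : Finset P2) (f g : (P2 → ℤ) → ℝ) :
    EI x F I (fun h => f h * g h) ^ 2 ≤
      EI x F I (fun h => f h ^ 2) * EI x F I (fun h => g h ^ 2) := by
  have key := Finset.sum_mul_sq_le_sq_mul_sq (htsI F I)
    (fun h => Real.sqrt (∏ t ∈ F, tw x h t) * f h) (fun h => Real.sqrt (∏ t ∈ F, tw x h t) * g h)
  have hs : ∀ h : P2 → ℤ, Real.sqrt (∏ t ∈ F, tw x h t) * Real.sqrt (∏ t ∈ F, tw x h t) =
      ∏ t ∈ F, tw x h t := fun h => Real.mul_self_sqrt (Finset.prod_nonneg fun t _ => tw_nonneg x h t)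
  have e1 : ∀ h : P2 → ℤ, Real.sqrt (∏ t ∈ F, tw x h t) * f h *
      (Real.sqrt (∏ t ∈ F, tw x h t) * g h) = (∏ t ∈ F, tw x h t) * (f h * g h) := fun h => by
    rw [mul_mul_mul_comm, hs]
  have e2 : ∀ (u : (P2 → ℤ) → ℝ) (h : P2 → ℤ), (Real.sqrt (∏ t ∈ F, tw x h t) * u h) ^ 2 =
      (∏ t ∈ F, tw x h t) * u h ^ 2 := fun u h => by
    rw [mul_pow, sq (Real.sqrt _), hs]
  simp only [e1, e2] at key
  unfold EI SI
  have hZ := SI_one_pos x F I
  unfold SI at hZ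
  rw [div_pow, div_mul_div_comm, ← sq]
  exact div_le_div_of_nonneg_right key (sq_nonneg _)

end Crest.Agent.R144.Hf702
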