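import Crest.Agent.R144.Hf4_702
import Crest.Agent.R144.Pst9_967

/-!
# R144, block HALF (helper702), part 5: exact decoupling across a plus-closed layer, F-type law

`B`, `F` finite with connected complement, `U = B ∩ F`.
* `dec` : `E_F[g φ] = E_F[g] E_U[φ]` for `g` a function of `(s1, z)` off `B` which vanishes unless the neighbours
  of `B` are plus closed (`PLay B`), `φ` a function of the colours on `VF U` and of `z` on `U` (`InC U φ`);
* `lft U h` : the F-type height on `U` with the same colours as `h`; `ω.1 ≡ lft U ω.1` modulo 4, equal on the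
  windows joined to the complement of `F` (`lft_eq`);
* `refl_layer` : reflection of the inside across the layer.
-/

set_option autoImplicit false
set_option linter.unusedVariables false

noncomputable section

namespace Crest.Agent.R144.Hf702

open Finset
open Crest.Agent.R144.It844 (P2 adj_symm adj_iff)
open Crest.Agent.R144.Zg349 Crest.Agent.R144.Zk349 Crest.Agent.R144.Zd349 Crest.Agent.R144.Zm349
open Crest.Agent.R144.Ze349
open Crest.Agent.R144.Pst967 (path_symm adj_of_share E_pos_congr wt_ne_zero)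
open Crest.Agent.R144.Rsw867
open Crest.ProbabilityR.HexHeights (Adj)

/-! ### geometry -/

theorem sc_inter {B F : Finset P2} (hB : SC B) (hF : SC F) : SC (B ∩ F) := by
  classical
  obtain ⟨w, -, hw⟩ := exists_far (B ∪ F) 0
  rw [Finset.mem_union] at hw
  push Not at hw
  have hmem : ∀ t, t ∈ (((B ∩ F : Finset P2) : Set P2)ᶜ) ↔ (t ∉ B ∨ t ∉ F) := by
    intro t
    rw [Set.mem_compl_iff, Finset.mem_coe, Finset.mem_inter, not_and_or]
  have key : ∀ t ∈ (((B ∩ F : Finset P2) : Set P2)ᶜ),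
      Relation.ReflTransGen (StepIn (((B ∩ F : Finset P2) : Set P2)ᶜ)) t w := by
    intro t ht
    rw [hmem] at ht
    rcases ht with ht | ht
    · have := hB t (by simpa using ht) w (by simpa using hw.1)
      refine Relation.ReflTransGen.mono (fun a b hab => ⟨?_, ?_, hab.2.2⟩) _ _ this
      · rw [hmem]; left; simpa using hab.1
      · rw [hmem]; left; simpa using hab.2.1
    · have := hF t (by simpa using ht) w (by simpa using hw.2)
      refine Relation.ReflTransGen.mono (fun a b hab => ⟨?_, ?_, hab.2.2⟩) _ _ this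
      · rw [hmem]; right; simpa using hab.1
      · rw [hmem]; right; simpa using hab.2.1
  intro u hu v hv
  exact (key u hu).trans (path_symm (key v hv))

/-- configurations of positive weight -/
def Ok (F : Finset P2) (ω : Cfg) : Prop :=
  Valid F ω ∧ ∀ t ∈ F, (ω.2 t = true → C1 ω.1 t) ∧ (ω.2 t = false → C2 ω.1 t)

theorem pc_plus {F : Finset P2} {ω : Cfg} (h : Ok F ω) {t : P2} (ht : pC ω t) {v : P2}
    (hv : v ∈ up t) : s1 (ω.1 v) = true := by
  by_cases htF : t ∈ F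
  · have h1 := (h.2 t htF).1 ht.1
    obtain ⟨i, rfl⟩ := mem_up_iff.1 hv
    obtain ⟨h2, h3⟩ := h1
    have h4 : s1 (ω.1 (cr t 0)) = true := ht.2
    fin_cases i
    · exact h4
    · exact h2 ▸ h4
    · exact h3 ▸ h4
  · exact h.1.ht.s1_bd fun hv' => htF (mem_IV'.1 hv' t hv)

/-- boundary sites of `U = B ∩ F` are plus when the layer is plus closed -/
theorem bd_plus {B F : Finset P2} {ω : Cfg} (h : Ok F ω) (hP : PLay B ω) {v : P2}
    (hv : v ∈ VF (B ∩ F)) (hv' : v ∉ IV (B ∩ F)) : s1 (ω.1 v) = true := by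
  obtain ⟨t, ht, htv⟩ := mem_VF.1 hv
  rw [mem_IV'] at hv'
  push Not at hv'
  obtain ⟨t', htv', ht'⟩ := hv'
  rw [Finset.mem_inter] at ht ht'
  by_cases hF' : t' ∈ F
  · have hB' : t' ∉ B := fun hh => ht' ⟨hh, hF'⟩
    rcases adj_of_share htv htv' with e | e
    · exact absurd (e ▸ ht.1) hB'
    · exact pc_plus h (hP t ht.1 t' hB' e) htv'
  · exact h.1.ht.s1_bd fun hh => hF' (mem_IV'.1 hh t' htv')

/-- same colours on a set of sites -/
def SameC (W : Finset P2) (g h : P2 → ℤ) : Prop := ∀ v ∈ W, s1 (g v) = s1 (h v) ∧ s2 (g v) = s2 (h v)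

theorem exists_lift {B F : Finset P2} (hB : SC B) (hF : SC F) {ω : Cfg} (h : Ok F ω)
    (hP : PLay B ω) : ∃ g, HV (B ∩ F) g ∧ SameC (VF (B ∩ F)) g ω.1 := by
  classical
  set U := B ∩ F with hU
  have hsub : U ⊆ F := Finset.inter_subset_right
  have hTm : ∀ v ∈ VF U, (v ∈ tm F ω.1 ∩ IV U ↔ v ∈ tm F ω.1) := by
    intro v hv
    rw [Finset.mem_inter]
    refine ⟨fun h => h.1, fun h1 => ⟨h1, ?_⟩⟩
    by_contra h2
    have := bd_plus h hP hv h2
    rw [mem_tm h.1.ht] at h1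
    rw [h1] at this
    exact absurd this (by decide)
  have hAm : ∀ v ∈ VF U, (v ∈ am F ω.1 ∩ VF U ↔ v ∈ am F ω.1) := by
    intro v hv
    rw [Finset.mem_inter]
    exact ⟨fun h => h.1, fun h1 => ⟨h1, hv⟩⟩
  obtain ⟨g, hg, g1, g2⟩ := exists_height (F := U) (T := tm F ω.1 ∩ IV U) (A := am F ω.1 ∩ VF U)
    (sc_inter hB hF) Finset.inter_subset_right Finset.inter_subset_right (by
      intro t ht
      have k := c1_or_c2 (h.1.ht.lip t (hsub ht))
      rw [c1_iff h.1.ht, c2_iff h.1.ht] at k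
      have e : ∀ i, cr t i ∈ VF U := fun i => cr_mem ht i
      rw [m3_ch, m3_ch] at k ⊢
      rw [hTm _ (e 0), hTm _ (e 1), hTm _ (e 2), hAm _ (e 0), hAm _ (e 1), hAm _ (e 2)]
      exact k)
  refine ⟨g, hg, fun v hv => ⟨?_, ?_⟩⟩
  · apply bool_eq_of_iff
    rw [g1, hTm v hv, mem_tm h.1.ht, sf_iff, not_not]
  · apply bool_eq_of_iff
    rw [g2, hAm v hv, mem_am h.1.ht]
    cases s2 (ω.1 v) <;> simp

theorem lift_unique {U : Finset P2} {g g' h : P2 → ℤ} (hg : HV U g) (hg' : HV U g')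
    (e : SameC (VF U) g h) (e' : SameC (VF U) g' h) : g = g' := by
  refine height_inj hg hg' (fun v => ?_) (fun v => ?_)
  · by_cases hv : v ∈ VF U
    · rw [(e v hv).1, (e' v hv).1]
    · rw [hg.off v hv, hg'.off v hv]
  · by_cases hv : v ∈ VF U
    · rw [(e v hv).2, (e' v hv).2]
    · rw [hg.off v hv, hg'.off v hv]

open Classical in
/-- the F-type height on `U` with the same colours -/
def lft (U : Finset P2) (h : P2 → ℤ) : P2 → ℤ :=
  if H : ∃ g, HV U g ∧ SameC (VF U) g h then H.choose else fun _ => 0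

theorem lft_spec {U : Finset P2} {h : P2 → ℤ} (H : ∃ g, HV U g ∧ SameC (VF U) g h) :
    HV U (lft U h) ∧ SameC (VF U) (lft U h) h := by
  unfold lft
  rw [dif_pos H]
  exact H.choose_spec

theorem lft_eq_of {U : Finset P2} {g h : P2 → ℤ} (hg : HV U g) (e : SameC (VF U) g h) :
    lft U h = g := by
  have := lft_spec ⟨g, hg, e⟩
  exact lift_unique this.1 hg this.2 e

theorem SameC.symm {W : Finset P2} {g h : P2 → ℤ} (e : SameC W g h) : SameC W h g :=
  fun v hv => ⟨(e v hv).1.symm, (e v hv).2.symm⟩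

theorem SameC.trans {W : Finset P2} {g h k : P2 → ℤ} (e : SameC W g h) (e' : SameC W h k) :
    SameC W g k := fun v hv => ⟨(e v hv).1.trans (e' v hv).1, (e v hv).2.trans (e' v hv).2⟩

theorem lft_congr {U : Finset P2} {h h' : P2 → ℤ} (e : SameC (VF U) h h') : lft U h = lft U h' := by
  by_cases H : ∃ g, HV U g ∧ SameC (VF U) g h
  · obtain ⟨g, hg, eg⟩ := H
    rw [lft_eq_of hg eg, lft_eq_of hg (eg.trans e)]
  · have H' : ¬ ∃ g, HV U g ∧ SameC (VF U) g h' := fun ⟨g, hg, eg⟩ => H ⟨g, hg, eg.trans e.symm⟩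
    unfold lft
    rw [dif_neg H, dif_neg H']

theorem lft_self {U : Finset P2} {h : P2 → ℤ} (hh : HV U h) : lft U h = h :=
  lft_eq_of hh fun _ _ => ⟨rfl, rfl⟩

/-- functions of the colours on `VF U` and of `z` on `U` -/
def InC (U : Finset P2) (φ : Cfg → ℝ) : Prop :=
  ∀ ω ω' : Cfg, SameC (VF U) ω.1 ω'.1 → (∀ t ∈ U, ω.2 t = ω'.2 t) → φ ω = φ ω'

theorem inC_lft (U : Finset P2) (Φ : (P2 → ℤ) → ℝ) : InC U fun ω => Φ (lft U ω.1) :=
  fun ω ω' h1 _ => by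
    show Φ (lft U ω.1) = Φ (lft U ω'.1)
    rw [lft_congr h1]

theorem InC.mul {U : Finset P2} {φ ψ : Cfg → ℝ} (h : InC U φ) (h' : InC U ψ) :
    InC U fun ω => φ ω * ψ ω := fun ω ω' h1 h2 => by
  show φ ω * ψ ω = φ ω' * ψ ω'
  rw [h ω ω' h1 h2, h' ω ω' h1 h2]

/-! ### sums over colours -/

/-- a height with given colours -/
def hcol (T A : Finset P2) (v : P2) : ℤ :=
  if v ∈ T then (if v ∈ A then 2 else 3) else (if v ∈ A then 1 else 0)

theorem s1_hcol (T A : Finset P2) (v : P2) : s1 (hcol T A v) = true ↔ v ∉ T := by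
  unfold hcol
  by_cases h1 : v ∈ T <;> by_cases h2 : v ∈ A <;> simp only [h1, h2, if_true, if_false] <;> decide

theorem s2_hcol (T A : Finset P2) (v : P2) : s2 (hcol T A v) = true ↔ v ∉ A := by
  unfold hcol
  by_cases h1 : v ∈ T <;> by_cases h2 : v ∈ A <;> simp only [h1, h2, if_true, if_false] <;> decide

/-- reference configuration -/
def rcf (F T A Z : Finset P2) : Cfg := (hcol T A, zb F Z)

theorem s1_rcf (F T A Z : Finset P2) (v : P2) : s1 ((rcf F T A Z).1 v) = true ↔ v ∉ T := s1_hcol T A v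
theorem s2_rcf (F T A Z : Finset P2) (v : P2) : s2 ((rcf F T A Z).1 v) = true ↔ v ∉ A := s2_hcol T A v
theorem z_rcf (F T A Z : Finset P2) (t : P2) : (rcf F T A Z).2 t = true ↔ (t ∉ F ∨ t ∈ Z) := by
  show zb F Z t = true ↔ _
  unfold zb
  rw [decide_eq_true_eq]

/-- functions of the colours and of `z` -/
def CZ (ψ : Cfg → ℝ) : Prop := ∀ ω ω' : Cfg, (∀ v, s1 (ω.1 v) = s1 (ω'.1 v)) →
  (∀ v, s2 (ω.1 v) = s2 (ω'.1 v)) → (∀ t, ω.2 t = ω'.2 t) → ψ ω = ψ ω'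

theorem S_cz {F : Finset P2} (hF : SC F) (c : ℝ) {ψ : Cfg → ℝ} (hψ : CZ ψ) :
    S c F ψ = ∑ T ∈ (IV F).powerset, ∑ A ∈ (VF F).powerset, ∑ Z ∈ F.powerset,
      (∏ t ∈ F, ewS c T A Z t) * ψ (rcf F T A Z) := by
  rw [← sum_conf hF c (fun T A Z => ψ (rcf F T A Z))]
  unfold S
  refine Finset.sum_congr rfl fun ω hω => ?_
  rw [mem_conf] at hω
  congr 1
  refine hψ _ _ (fun v => ?_) (fun v => ?_) (fun t => ?_)
  · apply bool_eq_of_iff
    rw [s1_rcf, mem_tm hω.ht, sf_iff, not_not]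
  · apply bool_eq_of_iff
    rw [s2_rcf, mem_am hω.ht]
    cases s2 (ω.1 v) <;> simp
  · apply bool_eq_of_iff
    rw [z_rcf]
    unfold zm
    rw [Finset.mem_filter]
    constructor
    · intro h
      by_cases ht : t ∈ F
      · exact Or.inr ⟨ht, h⟩
      · exact Or.inl ht
    · rintro (h | h)
      · exact hω.cl t h
      · exact h.2

theorem OffTZ.cz {B : Finset P2} {g : Cfg → ℝ} (hg : OffTZ B g) : CZ g := fun ω ω' h1 _ h3 =>
  hg ω ω' (fun v _ => h1 v) fun t _ => h3 t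

theorem InC.cz {U : Finset P2} {φ : Cfg → ℝ} (h : InC U φ) : CZ φ := fun ω ω' h1 h2 h3 =>
  h ω ω' (fun v _ => ⟨h1 v, h2 v⟩) fun t _ => h3 t

theorem CZ.mul {φ ψ : Cfg → ℝ} (h : CZ φ) (h' : CZ ψ) : CZ fun ω => φ ω * ψ ω :=
  fun ω ω' h1 h2 h3 => by
    show φ ω * ψ ω = φ ω' * ψ ω'
    rw [h ω ω' h1 h2 h3, h' ω ω' h1 h2 h3]

theorem ewS_congr {c : ℝ} {T A Z T' A' Z' : Finset P2} {t : P2}
    (hT : ∀ v ∈ up t, (v ∈ T ↔ v ∈ T')) (hZ : t ∈ Z ↔ t ∈ Z')
    (hA : t ∉ Z → ∀ v ∈ up t, (v ∈ A ↔ v ∈ A')) : ewS c T A Z t = ewS c T' A' Z' t := by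
  unfold ewS
  have e1 : M3 (cr t) (ch T) ↔ M3 (cr t) (ch T') := by
    rw [m3_ch, m3_ch, hT _ (cr_mem_up t 0), hT _ (cr_mem_up t 1), hT _ (cr_mem_up t 2)]
  by_cases hz : t ∈ Z
  · rw [if_pos hz, if_pos (hZ.1 hz)]
    by_cases h : M3 (cr t) (ch T)
    · rw [if_pos h, if_pos (e1.1 h)]
    · rw [if_neg h, if_neg fun h' => h (e1.2 h')]
  · rw [if_neg hz, if_neg fun h' => hz (hZ.2 h')]
    have e2 : M3 (cr t) (ch A) ↔ M3 (cr t) (ch A') := by
      rw [m3_ch, m3_ch, hA hz _ (cr_mem_up t 0), hA hz _ (cr_mem_up t 1), hA hz _ (cr_mem_up t 2)]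
    by_cases h : M3 (cr t) (ch A)
    · rw [if_pos h, if_pos (e2.1 h)]
      by_cases h' : M3 (cr t) (ch T)
      · rw [if_pos h', if_pos (e1.1 h')]
      · rw [if_neg h', if_neg fun h'' => h' (e1.2 h'')]
    · rw [if_neg h, if_neg fun h' => h (e2.2 h')]

/-- **factorisation of one term** -/
theorem term_split {B F : Finset P2} {c : ℝ} {g φ : Cfg → ℝ} (hg : OffTZ B g)
    (hP : ∀ ω, g ω ≠ 0 → PLay B ω) (hφ : InC (B ∩ F) φ) {T1 T2 A1 A2 Z1 Z2 : Finset P2}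
    (hT1 : T1 ⊆ IV F \ IV (B ∩ F)) (hT2 : T2 ⊆ IV (B ∩ F)) (hA1 : A1 ⊆ VF F \ VF (B ∩ F))
    (hA2 : A2 ⊆ VF (B ∩ F)) (hZ1 : Z1 ⊆ F \ (B ∩ F)) (hZ2 : Z2 ⊆ B ∩ F) :
    (∏ t ∈ F, ewS c (T2 ∪ T1) (A2 ∪ A1) (Z2 ∪ Z1) t) *
        (g (rcf F (T2 ∪ T1) (A2 ∪ A1) (Z2 ∪ Z1)) * φ (rcf F (T2 ∪ T1) (A2 ∪ A1) (Z2 ∪ Z1))) =
      ((∏ t ∈ F \ (B ∩ F), ewS c T1 A1 Z1 t) * g (rcf F T1 A1 Z1)) *
        ((∏ t ∈ B ∩ F, ewS c T2 A2 Z2 t) * φ (rcf (B ∩ F) T2 A2 Z2)) := by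
  classical
  set U := B ∩ F with hU
  have hUF : U ⊆ F := Finset.inter_subset_right
  have nT2 : ∀ v, v ∉ IV U → v ∉ T2 := fun v hv h => hv (hT2 h)
  have nZ2 : ∀ t, t ∉ U → t ∉ Z2 := fun v hv h => hv (hZ2 h)
  have nZ1 : ∀ t ∈ U, t ∉ Z1 := fun t ht h => (Finset.mem_sdiff.1 (hZ1 h)).2 ht
  have nA1 : ∀ v ∈ VF U, v ∉ A1 := fun t ht h => (Finset.mem_sdiff.1 (hA1 h)).2 ht
  have nA2 : ∀ v, v ∉ VF U → v ∉ A2 := fun t ht h => ht (hA2 h)
  have IVU : ∀ v, v ∉ IV B → v ∉ IV U := fun v hv h => hv (IV_mono Finset.inter_subset_left h)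
  -- (i)
  have hgg : g (rcf F (T2 ∪ T1) (A2 ∪ A1) (Z2 ∪ Z1)) = g (rcf F T1 A1 Z1) := by
    refine hg _ _ (fun v hv => ?_) (fun t ht => ?_)
    · apply bool_eq_of_iff
      rw [s1_rcf, s1_rcf, Finset.mem_union]
      have := nT2 v (IVU v hv)
      tauto
    · apply bool_eq_of_iff
      rw [z_rcf, z_rcf, Finset.mem_union]
      have := nZ2 t fun h => ht (Finset.mem_inter.1 h).1
      tauto
  rw [hgg]
  by_cases hg0 : g (rcf F T1 A1 Z1) = 0
  · rw [hg0]; ring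
  have hPL := hP _ hg0
  -- layer triangles
  have hlay : ∀ t ∈ U, ∀ t', t' ∈ F → t' ∉ U → Adj t t' → t' ∈ Z1 ∧ t' ∉ T1 := by
    intro t ht t' hF' ht' ha
    have h1 : t' ∉ B := fun h => ht' (Finset.mem_inter.2 ⟨h, hF'⟩)
    have h2 := hPL t (Finset.mem_inter.1 ht).1 t' h1 ha
    unfold pC at h2
    rw [z_rcf, s1_rcf] at h2
    refine ⟨?_, h2.2⟩
    rcases h2.1 with h3 | h3
    · exact absurd hF' h3
    · exact h3
  -- the product over the outside
  have hout : ∏ t ∈ F \ U, ewS c (T2 ∪ T1) (A2 ∪ A1) (Z2 ∪ Z1) t = ∏ t ∈ F \ U, ewS c T1 A1 Z1 t := by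
    refine Finset.prod_congr rfl fun t' ht' => ?_
    obtain ⟨hF', hU'⟩ := Finset.mem_sdiff.1 ht'
    refine ewS_congr (fun v hv => ?_) ?_ (fun hz v hv => ?_)
    · rw [Finset.mem_union]
      have := nT2 v fun h => hU' (mem_IV'.1 h t' hv)
      tauto
    · rw [Finset.mem_union]
      have := nZ2 t' hU'
      tauto
    · rw [Finset.mem_union]
      have hvU : v ∉ VF U := by
        intro h
        obtain ⟨t, ht, htv⟩ := mem_VF.1 h
        rcases adj_of_share htv hv with e | e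
        · exact hU' (e ▸ ht)
        · exact hz (Finset.mem_union_right _ (hlay t ht t' hF' hU' e).1)
      have := nA2 v hvU
      tauto
  rw [← Finset.prod_sdiff hUF, hout]
  by_cases hzero : ∏ t ∈ F \ U, ewS c T1 A1 Z1 t = 0
  · rw [hzero]; ring
  -- corners of layer triangles are plus
  have hT1' : ∀ v ∈ VF U, v ∉ T1 := by
    intro v hv hvT
    obtain ⟨t, ht, htv⟩ := mem_VF.1 hv
    obtain ⟨hIVF, hIVU⟩ := Finset.mem_sdiff.1 (hT1 hvT)
    rw [mem_IV'] at hIVU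
    push Not at hIVU
    obtain ⟨t', htv', ht'U⟩ := hIVU
    have hF' : t' ∈ F := mem_IV'.1 hIVF t' htv'
    rcases adj_of_share htv htv' with e | e
    · exact ht'U (e ▸ ht)
    · obtain ⟨h1, h2⟩ := hlay t ht t' hF' ht'U e
      apply hzero
      refine Finset.prod_eq_zero (Finset.mem_sdiff.2 ⟨hF', ht'U⟩) ?_
      unfold ewS
      rw [if_pos h1, if_neg]
      intro h3
      rw [m3_ch] at h3
      obtain ⟨i, rfl⟩ := mem_up_iff.1 htv'
      have h0 : cr t' 0 ∉ T1 := h2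
      fin_cases i
      · exact h0 hvT
      · exact h0 (h3.1.2 hvT)
      · exact h0 (h3.2.2 hvT)
  have hin : ∏ t ∈ U, ewS c (T2 ∪ T1) (A2 ∪ A1) (Z2 ∪ Z1) t = ∏ t ∈ U, ewS c T2 A2 Z2 t := by
    refine Finset.prod_congr rfl fun t ht => ?_
    refine ewS_congr (fun v hv => ?_) ?_ (fun _ v hv => ?_)
    · rw [Finset.mem_union]
      have := hT1' v (mem_VF.2 ⟨t, ht, hv⟩)
      tauto
    · rw [Finset.mem_union]
      have := nZ1 t ht
      tauto
    · rw [Finset.mem_union]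
      have := nA1 v (mem_VF.2 ⟨t, ht, hv⟩)
      tauto
  have hφφ : φ (rcf F (T2 ∪ T1) (A2 ∪ A1) (Z2 ∪ Z1)) = φ (rcf U T2 A2 Z2) := by
    refine hφ _ _ (fun v hv => ⟨?_, ?_⟩) (fun t ht => ?_)
    · apply bool_eq_of_iff
      rw [s1_rcf, s1_rcf, Finset.mem_union]
      have := hT1' v hv
      tauto
    · apply bool_eq_of_iff
      rw [s2_rcf, s2_rcf, Finset.mem_union]
      have := nA1 v hv
      tauto
    · apply bool_eq_of_iff
      rw [z_rcf, z_rcf, Finset.mem_union]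
      have h1 := nZ1 t ht
      have h2 := hUF ht
      tauto
  rw [hin, hφφ]
  ring

/-- **Exact decoupling across a plus-closed layer** (`B` in arbitrary position). -/
theorem dec {c : ℝ} (hc : 1 ≤ c) {B F : Finset P2} (hB : SC B) (hF : SC F) {g φ : Cfg → ℝ}
    (hg : OffTZ B g) (hP : ∀ ω, g ω ≠ 0 → PLay B ω) (hφ : InC (B ∩ F) φ) :
    E c F (fun ω => g ω * φ ω) = E c F g * E c (B ∩ F) φ := by
  classical
  set U := B ∩ F with hU
  have hUF : U ⊆ F := Finset.inter_subset_right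
  have hIV : IV U ⊆ IV F := IV_mono hUF
  have hVF : VF U ⊆ VF F := VF_mono hUF
  have key : ∀ ψ : Cfg → ℝ, InC U ψ → S c F (fun ω => g ω * ψ ω) =
      (∑ T1 ∈ (IV F \ IV U).powerset, ∑ A1 ∈ (VF F \ VF U).powerset, ∑ Z1 ∈ (F \ U).powerset,
        (∏ t ∈ F \ U, ewS c T1 A1 Z1 t) * g (rcf F T1 A1 Z1)) * S c U ψ := by
    intro ψ hψ
    rw [S_cz hF c ((OffTZ.cz hg).mul hψ.cz), S_cz (sc_inter hB hF) c hψ.cz,
      sum_powerset_split hIV, Finset.sum_mul]
    refine Finset.sum_congr rfl fun T1 hT1 => ?_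
    have hT1' := Finset.mem_powerset.1 hT1
    have h1 : ∀ T2 ∈ (IV U).powerset, ∑ A ∈ (VF F).powerset, ∑ Z ∈ F.powerset,
        (∏ t ∈ F, ewS c (T2 ∪ T1) A Z t) * (g (rcf F (T2 ∪ T1) A Z) * ψ (rcf F (T2 ∪ T1) A Z)) =
        ∑ A1 ∈ (VF F \ VF U).powerset, ∑ Z1 ∈ (F \ U).powerset,
          ∑ A2 ∈ (VF U).powerset, ∑ Z2 ∈ U.powerset,
          ((∏ t ∈ F \ U, ewS c T1 A1 Z1 t) * g (rcf F T1 A1 Z1)) *
            ((∏ t ∈ U, ewS c T2 A2 Z2 t) * ψ (rcf U T2 A2 Z2)) := by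
      intro T2 hT2
      rw [sum_powerset_split hVF]
      refine Finset.sum_congr rfl fun A1 hA1 => ?_
      rw [Finset.sum_comm]
      have h2 : ∀ A2 ∈ (VF U).powerset, ∑ Z ∈ F.powerset,
          (∏ t ∈ F, ewS c (T2 ∪ T1) (A2 ∪ A1) Z t) *
            (g (rcf F (T2 ∪ T1) (A2 ∪ A1) Z) * ψ (rcf F (T2 ∪ T1) (A2 ∪ A1) Z)) =
          ∑ Z1 ∈ (F \ U).powerset, ∑ Z2 ∈ U.powerset,
          ((∏ t ∈ F \ U, ewS c T1 A1 Z1 t) * g (rcf F T1 A1 Z1)) *
            ((∏ t ∈ U, ewS c T2 A2 Z2 t) * ψ (rcf U T2 A2 Z2)) := by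
        intro A2 hA2
        rw [sum_powerset_split hUF]
        refine Finset.sum_congr rfl fun Z1 hZ1 => Finset.sum_congr rfl fun Z2 hZ2 => ?_
        exact term_split hg hP hψ hT1' (Finset.mem_powerset.1 hT2) (Finset.mem_powerset.1 hA1)
          (Finset.mem_powerset.1 hA2) (Finset.mem_powerset.1 hZ1) (Finset.mem_powerset.1 hZ2)
      rw [Finset.sum_comm, Finset.sum_congr rfl h2, Finset.sum_comm]
    rw [Finset.sum_congr rfl h1, Finset.sum_comm, Finset.sum_mul]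
    refine Finset.sum_congr rfl fun A1 _ => ?_
    rw [Finset.sum_comm, Finset.sum_mul]
    refine Finset.sum_congr rfl fun Z1 _ => ?_
    rw [Finset.mul_sum]
    refine Finset.sum_congr rfl fun T2 _ => ?_
    rw [Finset.mul_sum]
    refine Finset.sum_congr rfl fun A2 _ => ?_
    rw [Finset.mul_sum]
  have k1 := key φ hφ
  have k2 := key (fun _ => 1) (fun _ _ _ _ => rfl)
  simp only [mul_one] at k2
  have e2 : S c F g = (∑ T1 ∈ (IV F \ IV U).powerset, ∑ A1 ∈ (VF F \ VF U).powerset,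
      ∑ Z1 ∈ (F \ U).powerset, (∏ t ∈ F \ U, ewS c T1 A1 Z1 t) * g (rcf F T1 A1 Z1)) * Z c U := by
    rw [k2, S_one]
  have z1 := Z_pos hc F
  have z2 := Z_pos hc U
  rw [E_eq_S, E_eq_S, E_eq_S, k1, e2]
  field_simp

end Crest.Agent.R144.Hf702
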