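import Crest.Agent.R144.Hf5_702

/-!
# R144, block HALF (helper702), part 6: level and reflection of the inside

* `lft_eq` : on triangles of `U = B ∩ F` joined inside `U` to a neighbour of the complement of `F`, the heights
  of `ω` and of its lift coincide;
* `rf U h` : reflection of the inside, `refl_layer : E_F[g(ω) Φ(ω.1)] = E_F[g(ω) Φ(rf U ω.1)]`.
-/

set_option autoImplicit false
set_option linter.unusedVariables false
set_option linter.unusedSectionVars false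

noncomputable section

namespace Crest.Agent.R144.Hf702

open Finset
open Crest.Agent.R144.It844 (P2 adj_symm adj_iff)
open Crest.Agent.R144.Zg349 Crest.Agent.R144.Zk349 Crest.Agent.R144.Zd349 Crest.Agent.R144.Zm349
open Crest.Agent.R144.Ze349
open Crest.Agent.R144.Pst967 (path_symm adj_of_share E_pos_congr wt_ne_zero)
open Crest.Agent.R144.Rsw867
open Crest.ProbabilityR.HexHeights (Adj)

/-- two heights with the same colours differ by a constant on a triangle -/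
theorem diff_const {h g : P2 → ℤ} {t : P2} (hl : ∀ i j, |h (cr t i) - h (cr t j)| ≤ 1)
    (gl : ∀ i j, |g (cr t i) - g (cr t j)| ≤ 1)
    (e : ∀ i, s1 (g (cr t i)) = s1 (h (cr t i)) ∧ s2 (g (cr t i)) = s2 (h (cr t i))) (i j : Fin 3) :
    h (cr t i) - g (cr t i) = h (cr t j) - g (cr t j) := by
  have m1 := mod4_of_s (e i).1 (e i).2
  have m2 := mod4_of_s (e j).1 (e j).2
  have l1 := abs_le.1 (hl i j)
  have l2 := abs_le.1 (gl i j)
  omega

theorem diff_const_up {h g : P2 → ℤ} {t : P2} (hl : ∀ i j, |h (cr t i) - h (cr t j)| ≤ 1)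
    (gl : ∀ i j, |g (cr t i) - g (cr t j)| ≤ 1)
    (e : ∀ v ∈ up t, s1 (g v) = s1 (h v) ∧ s2 (g v) = s2 (h v)) {v w : P2} (hv : v ∈ up t)
    (hw : w ∈ up t) : h v - g v = h w - g w := by
  obtain ⟨i, rfl⟩ := mem_up_iff.1 hv
  obtain ⟨j, rfl⟩ := mem_up_iff.1 hw
  exact diff_const hl gl (fun k => e _ (cr_mem_up t k)) i j

/-- **level zero** -/
theorem lft_eq {B F : Finset P2} (hB : SC B) (hF : SC F) {ω : Cfg} (h : Ok F ω) (hP : PLay B ω)
    {t : P2} (ht : t ∈ B ∩ F)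
    (hpath : ∃ t1 ∈ B ∩ F, ∃ t2, t2 ∉ F ∧ Adj t1 t2 ∧
      Relation.ReflTransGen (StepIn (((B ∩ F : Finset P2)) : Set P2)) t t1)
    {v : P2} (hv : v ∈ up t) : lft (B ∩ F) ω.1 v = ω.1 v := by
  obtain ⟨hg, e⟩ := lft_spec (exists_lift hB hF h hP)
  set U := B ∩ F with hU
  set g := lft U ω.1 with hgdef
  have hUF : U ⊆ F := Finset.inter_subset_right
  obtain ⟨t1, ht1, t2, ht2, ha, hp⟩ := hpath
  have step : ∀ t ∈ U, ∀ v ∈ up t, ∀ w ∈ up t, ω.1 v - g v = ω.1 w - g w := by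
    intro t ht v hv w hw
    exact diff_const_up (h.1.ht.lip t (hUF ht)) (hg.lip t ht)
      (fun u hu => e u (mem_VF.2 ⟨t, ht, hu⟩)) hv hw
  have hall : ∀ s, Relation.ReflTransGen (StepIn ((U : Finset P2) : Set P2)) t s → s ∈ U →
      ∀ w ∈ up s, ω.1 v - g v = ω.1 w - g w := by
    intro s hs
    induction hs with
    | refl => exact fun _ w hw => step t ht v hv w hw
    | @tail a b _ h2 ih =>
      intro hb w hw
      obtain ⟨hat, hbt, hab⟩ := h2
      have ha' : a ∈ U := by simpa using hat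
      obtain ⟨x, hx1, hx2⟩ := adj_site hab
      rw [ih ha' x hx1]
      exact step b hb x hx2 w hw
  obtain ⟨x, hx1, hx2⟩ := adj_site ha
  have h1 := hall t1 hp ht1 x hx1
  have hxF : x ∉ IV F := fun hh => ht2 (mem_IV'.1 hh t2 hx2)
  have hxU : x ∉ IV U := fun hh => ht2 (hUF (mem_IV'.1 hh t2 hx2))
  have m := mod4_of_s (e x (mem_VF.2 ⟨t1, ht1, hx1⟩)).1 (e x (mem_VF.2 ⟨t1, ht1, hx1⟩)).2
  have b1 := h.1.ht.bd x hxF
  have b2 := hg.bd x hxU
  omega

/-! ### reflection of the inside -/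

/-- reflection of the inside -/
def rf (U : Finset P2) (h : P2 → ℤ) (v : P2) : ℤ :=
  if v ∈ VF U then h v + 1 - 2 * lft U h v else h v

/-- reflected configuration -/
def rfc (U : Finset P2) (ω : Cfg) : Cfg := (rf U ω.1, ω.2)

theorem s1_add4 (a j : ℤ) (h : j % 4 = 0) : s1 (a + j) = s1 a := by
  rcases h' : s1 a with _ | _
  · rw [s1_false] at h'; rw [s1_false]; omega
  · rw [s1_true] at h'; rw [s1_true]; omega

theorem s2_add4 (a j : ℤ) (h : j % 4 = 0) : s2 (a + j) = s2 a := by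
  rcases h' : s2 a with _ | _
  · rw [s2_false] at h'; rw [s2_false]; omega
  · rw [s2_true] at h'; rw [s2_true]; omega

theorem half_of {a b : ℤ} (h : |a - b| ≤ 1) (hs : s1 a = s1 b) : a / 2 = b / 2 := by
  have h1 := abs_le.1 h
  rcases h' : s1 a with _ | _ <;> rw [h'] at hs
  · rw [s1_false] at h'; rw [eq_comm, s1_false] at hs; omega
  · rw [s1_true] at h'; rw [eq_comm, s1_true] at hs; omega

section
variable {B F : Finset P2} (hB : SC B) (hF : SC F) {ω : Cfg} (h : Ok F ω) (hP : PLay B ω)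
include hB hF h hP

theorem rf_mod {v : P2} (hv : v ∈ VF (B ∩ F)) :
    (ω.1 v - lft (B ∩ F) ω.1 v) % 4 = 0 := by
  obtain ⟨hg, e⟩ := lft_spec (exists_lift hB hF h hP)
  exact mod4_of_s (e v hv).1.symm (e v hv).2.symm

theorem s1_rf (v : P2) : s1 (rf (B ∩ F) ω.1 v) = s1 (ω.1 v) := by
  unfold rf
  by_cases hv : v ∈ VF (B ∩ F)
  · rw [if_pos hv]
    have m := rf_mod hB hF h hP hv
    have e1 : ω.1 v + 1 - 2 * lft (B ∩ F) ω.1 v =
        (1 - ω.1 v) + 2 * (ω.1 v - lft (B ∩ F) ω.1 v) := by ring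
    rw [e1, s1_add4 _ _ (by omega), s1_refl]
  · rw [if_neg hv]

theorem s2_rf {v : P2} (hv : v ∈ VF (B ∩ F)) : s2 (rf (B ∩ F) ω.1 v) = !s2 (ω.1 v) := by
  unfold rf
  rw [if_pos hv]
  have m := rf_mod hB hF h hP hv
  have e1 : ω.1 v + 1 - 2 * lft (B ∩ F) ω.1 v =
      (1 - ω.1 v) + 2 * (ω.1 v - lft (B ∩ F) ω.1 v) := by ring
  rw [e1, s2_add4 _ _ (by omega), s2_refl]

theorem rf_off {v : P2} (hv : v ∉ VF (B ∩ F)) : rf (B ∩ F) ω.1 v = ω.1 v := by
  unfold rf; rw [if_neg hv]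

/-- the layer triangles are closed and plus -/
theorem layer_closed {t' v : P2} (ht' : t' ∈ F) (hU' : t' ∉ B ∩ F) (hv : v ∈ up t')
    (hvU : v ∈ VF (B ∩ F)) : pC ω t' := by
  obtain ⟨t, ht, htv⟩ := mem_VF.1 hvU
  rcases adj_of_share htv hv with e | e
  · exact absurd (e ▸ ht) hU'
  · exact hP t (Finset.mem_inter.1 ht).1 t' (fun hh => hU' (Finset.mem_inter.2 ⟨hh, ht'⟩)) e

/-- boundary values of the lift -/
theorem lft_bd {t' v : P2} (hU' : t' ∉ B ∩ F) (hv : v ∈ up t') :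
    lft (B ∩ F) ω.1 v = 0 ∨ lft (B ∩ F) ω.1 v = 1 := by
  obtain ⟨hg, e⟩ := lft_spec (exists_lift hB hF h hP)
  exact hg.bd v fun hh => hU' (mem_IV'.1 hh t' hv)

theorem rf_half {t' v : P2} (hU' : t' ∉ B ∩ F) (hv : v ∈ up t') :
    rf (B ∩ F) ω.1 v / 2 = ω.1 v / 2 := by
  by_cases hvU : v ∈ VF (B ∩ F)
  · have m := rf_mod hB hF h hP hvU
    have b := lft_bd hB hF h hP hU' hv
    unfold rf
    rw [if_pos hvU]
    rcases b with b | b <;> rw [b] at m ⊢ <;> omega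
  · rw [rf_off hB hF h hP hvU]

theorem hv_rf : HV F (rf (B ∩ F) ω.1) := by
  obtain ⟨hg, e⟩ := lft_spec (exists_lift hB hF h hP)
  have hUF : B ∩ F ⊆ F := Finset.inter_subset_right
  refine ⟨fun t ht i j => ?_, fun v hv => ?_, fun v hv => ?_⟩
  · by_cases htU : t ∈ B ∩ F
    · have d := diff_const_up (h.1.ht.lip t ht) (hg.lip t htU)
        (fun u hu => e u (mem_VF.2 ⟨t, htU, hu⟩)) (cr_mem_up t i) (cr_mem_up t j)
      have l := abs_le.1 (hg.lip t htU i j)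
      unfold rf
      rw [if_pos (cr_mem htU i), if_pos (cr_mem htU j), abs_le]
      omega
    · by_cases hc : ∃ v ∈ up t, v ∈ VF (B ∩ F)
      · obtain ⟨v, hv, hvU⟩ := hc
        have hpc := layer_closed hB hF h hP ht htU hv hvU
        have q : ∀ k, rf (B ∩ F) ω.1 (cr t k) / 2 = ω.1 (cr t k) / 2 := fun k =>
          rf_half hB hF h hP htU (cr_mem_up t k)
        have q2 : ω.1 (cr t i) / 2 = ω.1 (cr t j) / 2 :=
          half_of (h.1.ht.lip t ht i j) (by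
            rw [pc_plus h hpc (cr_mem_up t i), pc_plus h hpc (cr_mem_up t j)])
        have q3 := q i
        have q4 := q j
        rw [abs_le]
        omega
      · push Not at hc
        rw [rf_off hB hF h hP (hc _ (cr_mem_up t i)), rf_off hB hF h hP (hc _ (cr_mem_up t j))]
        exact h.1.ht.lip t ht i j
  · have b := h.1.ht.bd v hv
    by_cases hvU : v ∈ VF (B ∩ F)
    · have m := rf_mod hB hF h hP hvU
      have b2 := hg.bd v fun hh => hv (IV_mono hUF hh)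
      unfold rf
      rw [if_pos hvU]
      omega
    · rw [rf_off hB hF h hP hvU]; exact b
  · rw [rf_off hB hF h hP fun hh => hv (VF_mono hUF hh)]
    exact h.1.ht.off v hv

theorem valid_rfc : Valid F (rfc (B ∩ F) ω) := ⟨hv_rf hB hF h hP, h.1.cl⟩

theorem c1_rf (t : P2) : C1 (rf (B ∩ F) ω.1) t ↔ C1 ω.1 t := by
  unfold C1
  rw [s1_rf hB hF h hP, s1_rf hB hF h hP, s1_rf hB hF h hP]

theorem c2_rf {t : P2} (ht : t ∈ F) (hz : ω.2 t = false) :
    C2 (rf (B ∩ F) ω.1) t ↔ C2 ω.1 t := by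
  by_cases htU : t ∈ B ∩ F
  · unfold C2
    rw [s2_rf hB hF h hP (cr_mem htU 0), s2_rf hB hF h hP (cr_mem htU 1),
      s2_rf hB hF h hP (cr_mem htU 2)]
    cases s2 (ω.1 (cr t 0)) <;> cases s2 (ω.1 (cr t 1)) <;> cases s2 (ω.1 (cr t 2)) <;> decide
  · have hn : ∀ v ∈ up t, v ∉ VF (B ∩ F) := by
      intro v hv hvU
      have := layer_closed hB hF h hP ht htU hv hvU
      rw [this.1] at hz
      exact absurd hz (by decide)
    unfold C2
    rw [rf_off hB hF h hP (hn _ (cr_mem_up t 0)), rf_off hB hF h hP (hn _ (cr_mem_up t 1)),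
      rf_off hB hF h hP (hn _ (cr_mem_up t 2))]

theorem ew_rfc (c : ℝ) {t : P2} (ht : t ∈ F) : ew c (rfc (B ∩ F) ω) t = ew c ω t := by
  have e1 := c1_rf hB hF h hP t
  unfold ew rfc
  dsimp only
  by_cases hz : ω.2 t = true
  · rw [if_pos hz, if_pos hz]
    by_cases hc : C1 ω.1 t
    · rw [if_pos hc, if_pos (e1.2 hc)]
    · rw [if_neg hc, if_neg fun hh => hc (e1.1 hh)]
  · have hz' : ω.2 t = false := by simpa using hz
    have e2 := c2_rf hB hF h hP ht hz'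
    rw [if_neg hz, if_neg hz]
    by_cases hc2 : C2 ω.1 t
    · rw [if_pos hc2, if_pos (e2.2 hc2)]
      by_cases hc : C1 ω.1 t
      · rw [if_pos hc, if_pos (e1.2 hc)]
      · rw [if_neg hc, if_neg fun hh => hc (e1.1 hh)]
    · rw [if_neg hc2, if_neg fun hh => hc2 (e2.1 hh)]

theorem wt_rfc (c : ℝ) : wt c F (rfc (B ∩ F) ω) = wt c F ω :=
  Finset.prod_congr rfl fun t ht => ew_rfc hB hF h hP c ht

theorem ok_rfc : Ok F (rfc (B ∩ F) ω) := by
  refine ⟨valid_rfc hB hF h hP, fun t ht => ⟨fun hz => ?_, fun hz => ?_⟩⟩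
  · exact (c1_rf hB hF h hP t).2 ((h.2 t ht).1 hz)
  · exact (c2_rf hB hF h hP ht hz).2 ((h.2 t ht).2 hz)

theorem lft_rf : lft (B ∩ F) (rf (B ∩ F) ω.1) = rfl1 (B ∩ F) (lft (B ∩ F) ω.1) := by
  obtain ⟨hg, e⟩ := lft_spec (exists_lift hB hF h hP)
  have h1 : HV (B ∩ F) (rfl1 (B ∩ F) (lft (B ∩ F) ω.1)) := by
    have := rfl1_mem (F := B ∩ F) (I := IV (B ∩ F)) (h := lft (B ∩ F) ω.1)
      (by rw [htsI_self, mem_hts]; exact hg)
    rw [htsI_self, mem_hts] at this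
    exact this
  refine lft_eq_of h1 fun v hv => ⟨?_, ?_⟩
  · rw [s1_rf hB hF h hP]
    unfold rfl1
    rw [if_pos hv, s1_refl, (e v hv).1]
  · rw [s2_rf hB hF h hP hv]
    unfold rfl1
    rw [if_pos hv, s2_refl, (e v hv).2]

theorem rfc_invol : rfc (B ∩ F) (rfc (B ∩ F) ω) = ω := by
  unfold rfc
  refine Prod.ext ?_ rfl
  dsimp only
  funext v
  by_cases hv : v ∈ VF (B ∩ F)
  · have e1 : rf (B ∩ F) (rf (B ∩ F) ω.1) v =
        rf (B ∩ F) ω.1 v + 1 - 2 * lft (B ∩ F) (rf (B ∩ F) ω.1) v := by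
      conv_lhs => unfold rf
      rw [if_pos hv]
      rfl
    rw [e1, lft_rf hB hF h hP]
    unfold rf rfl1
    rw [if_pos hv, if_pos hv]
    ring
  · have e1 : rf (B ∩ F) (rf (B ∩ F) ω.1) v = rf (B ∩ F) ω.1 v := by
      conv_lhs => unfold rf
      rw [if_neg hv]
      rfl
    rw [e1, rf_off hB hF h hP hv]

end

/-- **Reflection of the inside.** -/
theorem refl_layer {c : ℝ} {B F : Finset P2} (hB : SC B) (hF : SC F) {g : Cfg → ℝ}
    (hg : OffTZ B g) (hP : ∀ ω, g ω ≠ 0 → PLay B ω) (Φ : (P2 → ℤ) → ℝ) :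
    E c F (fun ω => g ω * Φ (rf (B ∩ F) ω.1)) = E c F (fun ω => g ω * Φ ω.1) := by
  classical
  rw [E_eq_S, E_eq_S]
  congr 1
  unfold S
  -- restrict to positive weight and nonzero `g`
  have hgr : ∀ ω : Cfg, Ok F ω → PLay B ω → g (rfc (B ∩ F) ω) = g ω := by
    intro ω h hp
    exact hg _ _ (fun v _ => s1_rf hB hF h hp v) (fun t _ => rfl)
  set K : Finset Cfg := (conf F).filter fun ω => Ok F ω ∧ g ω ≠ 0 with hK
  have red : ∀ Ψ : Cfg → ℝ, ∑ ω ∈ conf F, wt c F ω * (g ω * Ψ ω) =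
      ∑ ω ∈ K, wt c F ω * (g ω * Ψ ω) := by
    intro Ψ
    symm
    refine Finset.sum_subset (Finset.filter_subset _ _) fun ω hω hω' => ?_
    by_cases hw : wt c F ω = 0
    · rw [hw, zero_mul]
    · have hok : Ok F ω := ⟨mem_conf.1 hω, fun t ht => wt_ne_zero hw ht⟩
      by_cases hg0 : g ω = 0
      · rw [hg0, zero_mul, mul_zero]
      · exact absurd (Finset.mem_filter.2 ⟨hω, hok, hg0⟩) hω'
  rw [red (fun ω => Φ (rf (B ∩ F) ω.1)), red (fun ω => Φ ω.1)]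
  have hmem : ∀ ω ∈ K, rfc (B ∩ F) ω ∈ K := by
    intro ω hω
    obtain ⟨h1, h2, h3⟩ := Finset.mem_filter.1 hω
    refine Finset.mem_filter.2 ⟨mem_conf.2 (valid_rfc hB hF h2 (hP ω h3)),
      ok_rfc hB hF h2 (hP ω h3), ?_⟩
    rw [hgr ω h2 (hP ω h3)]
    exact h3
  refine Finset.sum_nbij' (i := rfc (B ∩ F)) (j := rfc (B ∩ F)) hmem hmem (fun ω hω => ?_)
    (fun ω hω => ?_) (fun ω hω => ?_)
  · obtain ⟨h1, h2, h3⟩ := Finset.mem_filter.1 hω
    exact rfc_invol hB hF h2 (hP ω h3)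
  · obtain ⟨h1, h2, h3⟩ := Finset.mem_filter.1 hω
    exact rfc_invol hB hF h2 (hP ω h3)
  · obtain ⟨h1, h2, h3⟩ := Finset.mem_filter.1 hω
    rw [wt_rfc hB hF h2 (hP ω h3) c, hgr ω h2 (hP ω h3)]
    rfl

end Crest.Agent.R144.Hf702
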