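import Crest.Agent.R144.Hf7_702
import Crest.Agent.R144.Pst11_967

/-!
# R144, block HALF (helper702), part 8: growth of the second moments in balls

`PSq P` : smeared heights of mass zero have bounded second moments in the plane.
`growth` : `E_{ball a (2 (K+1)^k n + 1)}[Y²] ≤ C (k + 3)²` for windows at scale `n` around `a`.
-/

set_option autoImplicit false
set_option linter.unusedVariables false

noncomputable section

namespace Crest.Agent.R144.Hf702

open Finset Filter Topology MeasureTheory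
open Crest.Agent.R144.It844 (P2 adj_symm adj_iff)
open Crest.Agent.R144.Zg349 Crest.Agent.R144.Zk349 Crest.Agent.R144.Zd349 Crest.Agent.R144.Zm349
open Crest.Agent.R144.Ze349
open Crest.Agent.R144.Pst967
open Crest.Agent.R144.Rsw867 hiding ball_zero_eq
open Crest.ProbabilityR.HexHeights (Adj)

/-- second moments of mass-zero smeared heights of the plane state -/
def PSq (P : Measure Hz) : Prop :=
  ∀ A : ℕ, ∃ C : ℝ, ∀ s : ℕ, 1 ≤ s → ∀ (a : P2) (V : Finset P2) (h : P2 → ℝ),
    V ⊆ ball a (A * s) → (∀ v ∈ V, |h v| ≤ A / (s : ℝ) ^ 2) → ∑ v ∈ V, h v = 0 →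
      ∫ ω, Ln V h ω ^ 2 ∂P ≤ C

theorem gobs_Ln_sq {V : Finset P2} {h : P2 → ℝ} (h0 : ∑ v ∈ V, h v = 0) :
    GObs fun ω : Hz => Ln V h ω ^ 2 := by
  refine ⟨⟨V, fun ω ω' e => ?_⟩, fun ω c => ?_⟩
  · have : Ln V h ω = Ln V h ω' := by
      unfold Ln
      exact Finset.sum_congr rfl fun v hv => by rw [e v (by simpa using hv)]
    show Ln V h ω ^ 2 = Ln V h ω' ^ 2
    rw [this]
  · have : Ln V h (fun v => ω v + c) = Ln V h ω := by
      unfold Ln
      have e : ∀ v ∈ V, h v * (((ω v + c : ℤ)) : ℝ) = h v * (ω v : ℝ) + h v * c := fun v _ => by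
        push_cast; ring
      rw [Finset.sum_congr rfl e, Finset.sum_add_distrib, ← Finset.sum_mul, h0, zero_mul, add_zero]
    show Ln V h (fun v => ω v + c) ^ 2 = Ln V h ω ^ 2
    rw [this]

/-- square window -/
def Qw (a : P2) (n : ℕ) : Finset P2 :=
  Finset.Ico a.1 (a.1 + n) ×ˢ Finset.Ico a.2 (a.2 + n)

theorem mem_Qw {a v : P2} {n : ℕ} :
    v ∈ Qw a n ↔ (a.1 ≤ v.1 ∧ v.1 < a.1 + n) ∧ (a.2 ≤ v.2 ∧ v.2 < a.2 + n) := by
  unfold Qw
  rw [Finset.mem_product, Finset.mem_Ico, Finset.mem_Ico]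

theorem card_Qw (a : P2) (n : ℕ) : ((Qw a n).card : ℝ) = (n : ℝ) ^ 2 := by
  unfold Qw
  rw [Finset.card_product, Int.card_Ico, Int.card_Ico,
    show (a.1 + n - a.1).toNat = n by omega, show (a.2 + n - a.2).toNat = n by omega]
  push_cast
  ring

theorem Qw_sub (a : P2) (n : ℕ) : Qw a n ⊆ ball a (2 * n) := by
  intro v hv
  rw [mem_Qw] at hv
  rw [mem_ball]
  simp only [abs_le]
  push_cast
  omega

theorem vf_ball (a : P2) (n : ℕ) : VF (ball a n) ⊆ ball a (n + 1) := by
  intro v hv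
  obtain ⟨t, ht, hvt⟩ := mem_VF.1 hv
  rw [mem_up] at hvt
  rcases hvt with rfl | rfl | rfl
  · exact ball_mono a (Nat.le_succ n) ht
  · refine adj_ball ht ?_
    rw [adj_iff]; left; rfl
  · refine adj_ball ht ?_
    rw [adj_iff]; right; right; left; rfl

theorem InB.sub {b : P2} {r : ℕ} {S : Finset P2} (h : InB b r S) : S ⊆ ball b r := fun v hv =>
  h v hv v (base_mem_up v)

theorem card_ball_le (a : P2) (n : ℕ) : ((ball a n).card : ℝ) ≤ (2 * n + 1) ^ 2 := by
  have h1 : ball a n ⊆ Finset.Icc (a.1 - n) (a.1 + n) ×ˢ Finset.Icc (a.2 - n) (a.2 + n) := by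
    intro v hv
    rw [mem_ball] at hv
    simp only [abs_le] at hv
    rw [Finset.mem_product, Finset.mem_Icc, Finset.mem_Icc]
    omega
  have h2 := Finset.card_le_card h1
  rw [Finset.card_product, Int.card_Icc, Int.card_Icc,
    show (a.1 + n + 1 - (a.1 - n)).toNat = 2 * n + 1 by omega,
    show (a.2 + n + 1 - (a.2 - n)).toNat = 2 * n + 1 by omega] at h2
  have h3 : ((ball a n).card : ℝ) ≤ (((2 * n + 1) * (2 * n + 1) : ℕ) : ℝ) := by exact_mod_cast h2
  refine h3.trans (le_of_eq ?_)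
  push_cast
  ring

/-- difference of two linear statistics -/
theorem Ln_sub (S S' : Finset P2) (w w' : P2 → ℝ) (h : P2 → ℤ) :
    Ln S w h - Ln S' w' h =
      Ln (S ∪ S') (fun v => (if v ∈ S then w v else 0) - (if v ∈ S' then w' v else 0)) h := by
  unfold Ln
  have e1 : ∑ v ∈ S, w v * (h v : ℝ) = ∑ v ∈ S ∪ S', (if v ∈ S then w v else 0) * (h v : ℝ) := by
    rw [← Finset.sum_subset (Finset.subset_union_left (s₁ := S) (s₂ := S'))]
    · exact Finset.sum_congr rfl fun v hv => by rw [if_pos hv]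
    · intro v _ hv; rw [if_neg hv, zero_mul]
  have e2 : ∑ v ∈ S', w' v * (h v : ℝ) = ∑ v ∈ S ∪ S', (if v ∈ S' then w' v else 0) * (h v : ℝ) := by
    rw [← Finset.sum_subset (Finset.subset_union_right (s₁ := S) (s₂ := S'))]
    · exact Finset.sum_congr rfl fun v hv => by rw [if_pos hv]
    · intro v _ hv; rw [if_neg hv, zero_mul]
  rw [e1, e2, ← Finset.sum_sub_distrib]
  exact Finset.sum_congr rfl fun v _ => by ring

theorem sum_diff (S S' : Finset P2) (w w' : P2 → ℝ) :
    ∑ v ∈ S ∪ S', ((if v ∈ S then w v else 0) - (if v ∈ S' then w' v else 0)) =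
      ∑ v ∈ S, w v - ∑ v ∈ S', w' v := by
  rw [Finset.sum_sub_distrib]
  congr 1
  · rw [Finset.sum_ite_mem, Finset.inter_eq_right.2 Finset.subset_union_left]
  · rw [Finset.sum_ite_mem, Finset.inter_eq_right.2 Finset.subset_union_right]

/-- windows with equal masses at comparable scales -/
theorem win_diff {P : Measure Hz} {A : ℕ} {C : ℝ}
    (hC : ∀ s : ℕ, 1 ≤ s → ∀ (a : P2) (V : Finset P2) (h : P2 → ℝ),
      V ⊆ ball a (A * s) → (∀ v ∈ V, |h v| ≤ A / (s : ℝ) ^ 2) → ∑ v ∈ V, h v = 0 →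
        ∫ ω, Ln V h ω ^ 2 ∂P ≤ C) {s : ℕ} (hs : 1 ≤ s) {a : P2} {S S' : Finset P2}
    {w w' : P2 → ℝ} (hS : S ⊆ ball a (A * s)) (hS' : S' ⊆ ball a (A * s))
    (hm : ∑ v ∈ S, w v = ∑ v ∈ S', w' v) {α α' : ℝ} (hα : 0 ≤ α) (hα' : 0 ≤ α') (hαA : α + α' ≤ A)
    (hw : ∀ v ∈ S, |w v| ≤ α / (s : ℝ) ^ 2) (hw' : ∀ v ∈ S', |w' v| ≤ α' / (s : ℝ) ^ 2) :
    (∫ ω, (Ln S w ω - Ln S' w' ω) ^ 2 ∂P ≤ C) ∧
      GObs fun ω : Hz => (Ln S w ω - Ln S' w' ω) ^ 2 := by
  have h0 : ∑ v ∈ S ∪ S', ((if v ∈ S then w v else 0) - (if v ∈ S' then w' v else 0)) = 0 := by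
    rw [sum_diff, hm, sub_self]
  have hs0 : (0 : ℝ) < (s : ℝ) ^ 2 := by positivity
  constructor
  · simp only [Ln_sub]
    refine hC s hs a _ _ (Finset.union_subset hS hS') (fun v _ => ?_) h0
    have b1 : |if v ∈ S then w v else 0| ≤ α / (s : ℝ) ^ 2 := by
      split_ifs with h
      · exact hw v h
      · rw [abs_zero]; positivity
    have b2 : |if v ∈ S' then w' v else 0| ≤ α' / (s : ℝ) ^ 2 := by
      split_ifs with h
      · exact hw' v h
      · rw [abs_zero]; positivity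
    calc _ ≤ |if v ∈ S then w v else 0| + |if v ∈ S' then w' v else 0| := abs_sub _ _
      _ ≤ α / (s : ℝ) ^ 2 + α' / (s : ℝ) ^ 2 := add_le_add b1 b2
      _ = (α + α') / (s : ℝ) ^ 2 := by ring
      _ ≤ _ := div_le_div_of_nonneg_right hαA hs0.le
  · simp only [Ln_sub]
    exact gobs_Ln_sq h0

theorem sq_sum_le (m : ℕ) (f : ℕ → ℝ) :
    (∑ i ∈ Finset.range m, f i) ^ 2 ≤ m * ∑ i ∈ Finset.range m, f i ^ 2 := by
  have := sq_sum_le_card_mul_sum_sq (s := Finset.range m) (f := f)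
  simpa using this

/-- **Growth of the second moments in balls.** -/
theorem growth {x : ℝ} (hx0 : 0 < x) (hx1 : x ≤ 1) {K : ℕ} {p : ℝ} (hR : RSW ((x ^ 2)⁻¹) K p)
    {P : Measure Hz} (hPS : PSq P)
    (hFL : ∀ f : Hz → ℝ, GObs f → FLim ((x ^ 2)⁻¹) f (∫ h, f h ∂P)) (A : ℕ) :
    ∃ C : ℝ, 0 ≤ C ∧ ∀ n : ℕ, 1 ≤ n → ∀ (a : P2) (S : Finset P2) (w : P2 → ℝ), InB a (n - 1) S →
      (∀ v, 0 ≤ w v) → (∀ v ∈ S, w v ≤ A / (n : ℝ) ^ 2) → ∀ k : ℕ,
        EH x (ball a (2 * ((K + 1) ^ k * n) + 1)) (fun h => Yn S w h ^ 2) ≤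
          C * ((k : ℝ) + 3) ^ 2 := by
  classical
  have hx2 : 0 < x ^ 2 := by positivity
  have hc : 1 ≤ (x ^ 2)⁻¹ := (one_le_inv₀ hx2).2 (pow_le_one₀ hx0.le hx1)
  set c := (x ^ 2)⁻¹ with hcdef
  have hp := hR.p0
  have hK4 := hR.K4
  obtain ⟨C0, hC0⟩ := hPS (8 * (K + 1) + 20 * A + 1)
  refine ⟨(|C0| + 1) / p, by positivity, fun n hn a S w hS hw0 hwA k => ?_⟩
  set A1 : ℕ := 8 * (K + 1) + 20 * A + 1 with hA1
  have hA1R : (A1 : ℝ) = 8 * (K + 1) + 20 * A + 1 := by rw [hA1]; push_cast; ring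
  have hnR : (1 : ℝ) ≤ n := by exact_mod_cast hn
  -- scales
  set L : ℕ → ℕ := fun i => (K + 1) ^ i * n with hL
  have hL1 : ∀ i, 1 ≤ L i := fun i => Nat.mul_pos (by positivity) hn
  have hLs : ∀ i, L (i + 1) = (K + 1) * L i := fun i => by
    simp only [hL, pow_succ]; ring
  have hL0 : L 0 = n := by simp [hL]
  -- mass
  set W : ℝ := ∑ v ∈ S, w v with hW
  have hW0 : 0 ≤ W := Finset.sum_nonneg fun v _ => hw0 v
  have hWA : W ≤ 9 * A := by
    have h1 : W ≤ S.card • ((A : ℝ) / (n : ℝ) ^ 2) := Finset.sum_le_card_nsmul _ _ _ hwA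
    have h2 : (S.card : ℝ) ≤ (2 * n + 1) ^ 2 := by
      have h3 : S ⊆ ball a n := hS.sub.trans (ball_mono a (Nat.sub_le n 1))
      exact le_trans (by exact_mod_cast Finset.card_le_card h3) (card_ball_le a n)
    rw [nsmul_eq_mul] at h1
    have h4 : (2 * (n : ℝ) + 1) ^ 2 ≤ 9 * (n : ℝ) ^ 2 := by nlinarith
    have h5 : (S.card : ℝ) * (A / (n : ℝ) ^ 2) ≤ (9 * (n : ℝ) ^ 2) * (A / (n : ℝ) ^ 2) :=
      mul_le_mul_of_nonneg_right (h2.trans h4) (by positivity)
    have h6 : (9 * (n : ℝ) ^ 2) * (A / (n : ℝ) ^ 2) = 9 * A := by field_simp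
    linarith
  -- windows
  set a' : P2 := (a.1 + 4 * (L (k + 1) : ℤ), a.2) with ha'
  set T : ℕ → Finset P2 := fun i =>
    if i = 0 then S else if i ≤ k + 2 then Qw a (L (i - 1)) else Qw a' (L (k + 1)) with hT
  set f : ℕ → P2 → ℝ := fun i =>
    if i = 0 then w else if i ≤ k + 2 then fun _ => W / (L (i - 1) : ℝ) ^ 2 else
      fun _ => W / (L (k + 1) : ℝ) ^ 2 with hf
  have T0 : T 0 = S := by simp [hT]
  have f0 : f 0 = w := by simp [hf]
  have Ti : ∀ i, i ≤ k + 1 → T (i + 1) = Qw a (L i) := by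
    intro i hi
    simp only [hT, Nat.add_eq_zero_iff, one_ne_zero, and_false, if_false, Nat.add_sub_cancel]
    rw [if_pos (by omega)]
  have fi : ∀ i, i ≤ k + 1 → f (i + 1) = fun _ => W / (L i : ℝ) ^ 2 := by
    intro i hi
    simp only [hf, Nat.add_eq_zero_iff, one_ne_zero, and_false, if_false, Nat.add_sub_cancel]
    rw [if_pos (by omega)]
  have Tk : T (k + 3) = Qw a' (L (k + 1)) := by
    simp only [hT]
    rw [if_neg (by omega), if_neg (by omega)]
  have fk : f (k + 3) = fun _ => W / (L (k + 1) : ℝ) ^ 2 := by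
    simp only [hf]
    rw [if_neg (by omega), if_neg (by omega)]
  -- masses of the square windows
  have massQ : ∀ (b : P2) (i : ℕ), ∑ v ∈ Qw b (L i), (fun _ : P2 => W / (L i : ℝ) ^ 2) v = W := by
    intro b i
    have hLi : (0 : ℝ) < (L i : ℝ) := by exact_mod_cast hL1 i
    rw [Finset.sum_const, nsmul_eq_mul, card_Qw]
    field_simp
  -- the differences
  have diff : ∀ i ∈ Finset.range (k + 3),
      (∫ ω, (Ln (T i) (f i) ω - Ln (T (i + 1)) (f (i + 1)) ω) ^ 2 ∂P ≤ C0) ∧
        GObs fun ω : Hz => (Ln (T i) (f i) ω - Ln (T (i + 1)) (f (i + 1)) ω) ^ 2 := by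
    intro i hi
    rw [Finset.mem_range] at hi
    rcases Nat.eq_zero_or_pos i with rfl | hipos
    · -- `w` against the window at scale `n`
      rw [T0, f0, Ti 0 (by omega), fi 0 (by omega), hL0]
      refine win_diff hC0 hn (a := a) (α := A) (α' := 9 * A) ?_ ?_ ?_ (by positivity)
        (by positivity) ?_ ?_ ?_
      · refine (hS.sub.trans (ball_mono a (Nat.sub_le n 1))).trans (ball_mono a ?_)
        exact Nat.le_mul_of_pos_left n (by omega)
      · refine (Qw_sub a n).trans (ball_mono a ?_)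
        exact Nat.mul_le_mul_right n (by omega)
      · have := massQ a 0
        rw [hL0] at this
        rw [this]
      · rw [hA1R]
        have : (0 : ℝ) ≤ K := Nat.cast_nonneg K
        have h2 : (0 : ℝ) ≤ A := Nat.cast_nonneg A
        linarith
      · intro v hv
        rw [abs_of_nonneg (hw0 v)]
        exact hwA v hv
      · intro v _
        rw [abs_of_nonneg (by positivity)]
        exact div_le_div_of_nonneg_right hWA (by positivity)
    · obtain ⟨j, rfl⟩ : ∃ j, i = j + 1 := ⟨i - 1, by omega⟩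
      by_cases hj : j ≤ k
      · -- consecutive scales
        rw [Ti j (by omega), fi j (by omega), Ti (j + 1) (by omega), fi (j + 1) (by omega)]
        have hLjp : (0 : ℝ) < (L j : ℝ) := by exact_mod_cast hL1 j
        refine win_diff hC0 (hL1 j) (a := a) (α := 9 * A) (α' := 9 * A) ?_ ?_ ?_ (by positivity)
          (by positivity) ?_ ?_ ?_
        · refine (Qw_sub a _).trans (ball_mono a ?_)
          exact Nat.mul_le_mul_right _ (by omega)
        · refine (Qw_sub a _).trans (ball_mono a ?_)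
          rw [hLs, ← mul_assoc]
          exact Nat.mul_le_mul_right _ (by omega)
        · rw [massQ, massQ]
        · rw [hA1R]
          have : (0 : ℝ) ≤ K := Nat.cast_nonneg K
          have h2 : (0 : ℝ) ≤ A := Nat.cast_nonneg A
          linarith
        · intro v _
          rw [abs_of_nonneg (by positivity)]
          exact div_le_div_of_nonneg_right hWA (by positivity)
        · intro v _
          rw [abs_of_nonneg (by positivity)]
          refine div_le_div₀ (by positivity) hWA (by positivity) ?_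
          have : (L j : ℝ) ≤ L (j + 1) := by
            rw [hLs]
            push_cast
            nlinarith [Nat.cast_nonneg (α := ℝ) K]
          exact pow_le_pow_left₀ hLjp.le this 2
      · -- the displaced window
        have hjk : j = k + 1 := by omega
        subst hjk
        rw [Ti (k + 1) le_rfl, fi (k + 1) le_rfl]
        rw [show k + 1 + 1 + 1 = k + 3 by ring, Tk, fk]
        refine win_diff hC0 (hL1 (k + 1)) (a := a) (α := 9 * A) (α' := 9 * A) ?_ ?_ ?_
          (by positivity) (by positivity) ?_ ?_ ?_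
        · refine (Qw_sub a _).trans (ball_mono a ?_)
          exact Nat.mul_le_mul_right _ (by omega)
        · intro v hv
          have h1 := Qw_sub a' _ hv
          rw [mem_ball] at h1 ⊢
          simp only [ha', abs_le] at h1 ⊢
          have h3 : (8 : ℤ) * (L (k + 1) : ℤ) ≤ (((A1 * L (k + 1) : ℕ)) : ℤ) := by
            have : 8 * L (k + 1) ≤ A1 * L (k + 1) := Nat.mul_le_mul_right _ (by omega)
            exact_mod_cast this
          push_cast at h1 h3 ⊢
          omega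
        · rw [massQ, massQ]
        · rw [hA1R]
          have : (0 : ℝ) ≤ K := Nat.cast_nonneg K
          have h2 : (0 : ℝ) ≤ A := Nat.cast_nonneg A
          linarith
        · intro v _
          rw [abs_of_nonneg (by positivity)]
          exact div_le_div_of_nonneg_right hWA (by positivity)
        · intro v _
          rw [abs_of_nonneg (by positivity)]
          exact div_le_div_of_nonneg_right hWA (by positivity)
  -- choose a big domain
  have hne := cls_scs.neBot
  have ev1 : ∀ᶠ F in lC scs, ∀ i ∈ Finset.range (k + 3),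
      E c F (fun ω => (Ln (T i) (f i) ω.1 - Ln (T (i + 1)) (f (i + 1)) ω.1) ^ 2) ≤ |C0| + 1 := by
    rw [Filter.eventually_all_finset]
    intro i hi
    obtain ⟨h1, h2⟩ := diff i hi
    have h3 : ∫ ω, (Ln (T i) (f i) ω - Ln (T (i + 1)) (f (i + 1)) ω) ^ 2 ∂P < |C0| + 1 := by
      have := le_abs_self C0
      linarith
    exact ((hFL _ h2).eventually_lt_const h3).mono fun F hF => hF.le
  have ev2 : ∀ᶠ F in lC scs, ball a (2 * L (k + 1) + 1) ⊆ F := mem_lC_of_subset _
  have ev3 : ∀ᶠ F in lC scs, F ∈ scs := mem_lC.2 ⟨∅, fun F hF _ => hF⟩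
  obtain ⟨F, ⟨hF1, hF2⟩, hF3⟩ := ((ev1.and ev2).and ev3).exists
  have hF : SC F := hF3
  -- probability of the layer
  have hPr : p ≤ Pr c F (BlkP a (L (k + 1)) (2 * L (k + 1))) := by
    have := hR.plus (L (k + 1)) (hL1 (k + 1)) a F hF (fun _ => 1) (fun _ => zero_le_one)
      (fun _ _ _ _ => rfl)
    simp only [one_mul] at this
    rw [E_const hc, mul_one] at this
    exact this
  -- the inequality
  have key := inner_le hx0 hx1 hF (a := a) (r := 2 * L k + 1) (m := L (k + 1)) (N := 2 * L (k + 1))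
    (by
      have h1 := hL1 k
      rw [hLs]
      nlinarith) (by omega) hF2 (S := S) (S' := Qw a' (L (k + 1))) (w := w)
    (w' := fun _ => W / (L (k + 1) : ℝ) ^ 2) hw0
    (hS.vf.trans (VF_mono (ball_mono a (by
      have h1 : n ≤ L k := Nat.le_mul_of_pos_left n (by positivity)
      omega))))
    (by
      intro v hv hv'
      have h1 := vf_ball a _ hv'
      rw [mem_Qw] at hv
      rw [mem_ball] at h1
      simp only [ha', abs_le] at hv h1
      have h2 := hL1 k
      have h3 := hLs k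
      have h4 : 5 ≤ L (k + 1) := by
        rw [h3]; nlinarith
      push_cast at h1 hv
      omega)
  have tele : ∀ ω : Cfg, Ln S w ω.1 - Ln (Qw a' (L (k + 1))) (fun _ => W / (L (k + 1) : ℝ) ^ 2) ω.1 =
      ∑ i ∈ Finset.range (k + 3), (Ln (T i) (f i) ω.1 - Ln (T (i + 1)) (f (i + 1)) ω.1) := by
    intro ω
    rw [Finset.sum_range_sub' (fun i => Ln (T i) (f i) ω.1), T0, f0, Tk, fk]
  have hup : E c F (fun ω => (Ln S w ω.1 -
      Ln (Qw a' (L (k + 1))) (fun _ => W / (L (k + 1) : ℝ) ^ 2) ω.1) ^ 2) ≤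
      ((k : ℝ) + 3) ^ 2 * (|C0| + 1) := by
    calc _ ≤ E c F (fun ω => ((k + 3 : ℕ) : ℝ) * ∑ i ∈ Finset.range (k + 3),
          (Ln (T i) (f i) ω.1 - Ln (T (i + 1)) (f (i + 1)) ω.1) ^ 2) := by
          refine E_mono hc fun ω _ => ?_
          rw [tele]
          exact sq_sum_le (k + 3) _
      _ = ((k + 3 : ℕ) : ℝ) * ∑ i ∈ Finset.range (k + 3),
          E c F (fun ω => (Ln (T i) (f i) ω.1 - Ln (T (i + 1)) (f (i + 1)) ω.1) ^ 2) := by
          rw [E_smul, E_sum]
      _ ≤ ((k + 3 : ℕ) : ℝ) * ∑ i ∈ Finset.range (k + 3), (|C0| + 1) :=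
          mul_le_mul_of_nonneg_left (Finset.sum_le_sum hF1) (Nat.cast_nonneg _)
      _ = _ := by
          rw [Finset.sum_const, Finset.card_range, nsmul_eq_mul]
          push_cast
          ring
  have e0 : 0 ≤ EH x (ball a (2 * L k + 1)) (fun h => Yn S w h ^ 2) :=
    EH_nonneg_of fun h _ => sq_nonneg _
  have hfin : EH x (ball a (2 * L k + 1)) (fun h => Yn S w h ^ 2) * p ≤
      ((k : ℝ) + 3) ^ 2 * (|C0| + 1) :=
    (mul_le_mul_of_nonneg_left hPr e0).trans (key.trans hup)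
  rw [div_mul_eq_mul_div, le_div_iff₀ hp]
  linarith

end Crest.Agent.R144.Hf702
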