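import Crest.Agent.R144.Hf8_702

/-!
# R144, block HALF (helper702), part 9: uniform second moments near the boundary, F-type laws

`fvar` : for every `A` there is `C` such that for `n ≥ 1`, `F` simply connected, `b ∉ F`, windows `S` with
`InB b (n - 1) S` and weights `|w v| ≤ A / n²` : `E_F[(∑ w (h - 1/2))²] ≤ C`.
-/

set_option autoImplicit false
set_option linter.unusedVariables false

noncomputable section

namespace Crest.Agent.R144.Hf702

open Finset Filter Topology MeasureTheory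
open Crest.Agent.R144.It844 (P2 adj_symm adj_iff)
open Crest.Agent.R144.Dpl702 (Cm cm_nonneg)
open Crest.Agent.R144.Zg349 Crest.Agent.R144.Zk349 Crest.Agent.R144.Zd349 Crest.Agent.R144.Zm349
open Crest.Agent.R144.Ze349
open Crest.Agent.R144.Pst967
open Crest.Agent.R144.Rsw867 hiding ball_zero_eq
open Crest.ProbabilityR.HexHeights (Adj)

/-- Cauchy–Schwarz for the F-type law -/
theorem E_cs {c : ℝ} (hc : 1 ≤ c) (F : Finset P2) (f g : Cfg → ℝ) :
    E c F (fun ω => f ω * g ω) ^ 2 ≤ E c F (fun ω => f ω ^ 2) * E c F (fun ω => g ω ^ 2) := by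
  have key := Finset.sum_mul_sq_le_sq_mul_sq (Zm349.conf F)
    (fun ω => Real.sqrt (pr c F ω) * f ω) (fun ω => Real.sqrt (pr c F ω) * g ω)
  have hs : ∀ ω : Cfg, Real.sqrt (pr c F ω) * Real.sqrt (pr c F ω) = pr c F ω := fun ω =>
    Real.mul_self_sqrt (pr_nonneg hc F ω)
  have e1 : ∀ ω : Cfg, Real.sqrt (pr c F ω) * f ω * (Real.sqrt (pr c F ω) * g ω) =
      pr c F ω * (f ω * g ω) := fun ω => by rw [mul_mul_mul_comm, hs]
  have e2 : ∀ (u : Cfg → ℝ) (ω : Cfg), (Real.sqrt (pr c F ω) * u ω) ^ 2 =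
      pr c F ω * u ω ^ 2 := fun u ω => by
    rw [mul_pow, sq (Real.sqrt _), hs]
  simp only [e1, e2] at key
  exact key

/-- the polynomial times geometric series -/
def SP (q : ℝ) : ℝ := ∑' i : ℕ, ((i : ℝ) + 4) ^ 2 * q ^ i

theorem summable_sp {q : ℝ} (h0 : 0 ≤ q) (h1 : q < 1) :
    Summable fun i : ℕ => ((i : ℝ) + 4) ^ 2 * q ^ i := by
  have hq : ‖q‖ < 1 := by rwa [Real.norm_of_nonneg h0]
  have s2 := summable_pow_mul_geometric_of_norm_lt_one 2 hq
  have s1 := summable_pow_mul_geometric_of_norm_lt_one 1 hq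
  have s0 := summable_pow_mul_geometric_of_norm_lt_one 0 hq
  refine ((s2.add (s1.mul_left 8)).add (s0.mul_left 16)).congr fun i => ?_
  ring

theorem sp_nonneg {q : ℝ} (h0 : 0 ≤ q) : 0 ≤ SP q := tsum_nonneg fun i => by positivity

theorem sum_le_sp {q : ℝ} (h0 : 0 ≤ q) (h1 : q < 1) (k : ℕ) :
    ∑ i ∈ Finset.range k, ((i : ℝ) + 4) ^ 2 * q ^ i ≤ SP q :=
  (summable_sp h0 h1).sum_le_tsum (Finset.range k) fun i _ => by positivity

/-- **Uniform second moments near the boundary**, nonnegative weights. -/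
theorem fvar_pos {x : ℝ} (hx0 : 0 < x) (hx1 : x ≤ 1) {K : ℕ} {p : ℝ} (hR : RSW ((x ^ 2)⁻¹) K p)
    {P : Measure Hz} (hPS : PSq P)
    (hFL : ∀ f : Hz → ℝ, GObs f → FLim ((x ^ 2)⁻¹) f (∫ h, f h ∂P)) (A : ℕ) :
    ∃ C : ℝ, 0 ≤ C ∧ ∀ n : ℕ, 1 ≤ n → ∀ (b : P2) (S : Finset P2) (w : P2 → ℝ), InB b (n - 1) S →
      (∀ v, 0 ≤ w v) → (∀ v ∈ S, w v ≤ A / (n : ℝ) ^ 2) → ∀ F : Finset P2, SC F → b ∉ F →
        E ((x ^ 2)⁻¹) F (fun ω => Yn S w ω.1 ^ 2) ≤ C := by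
  classical
  have hx2 : 0 < x ^ 2 := by positivity
  have hc : 1 ≤ (x ^ 2)⁻¹ := (one_le_inv₀ hx2).2 (pow_le_one₀ hx0.le hx1)
  set c := (x ^ 2)⁻¹ with hcdef
  have hp0 := hR.p0
  have hp1 := hR.p1
  obtain ⟨C1, hC1, hG⟩ := growth hx0 hx1 hR hPS hFL A
  set q : ℝ := Real.sqrt (1 - p) with hq
  have hq0 : 0 ≤ q := Real.sqrt_nonneg _
  have hq1 : q < 1 := by
    rw [hq, Real.sqrt_lt' one_pos]; linarith
  have hqq : q ^ 2 = 1 - p := Real.sq_sqrt (by linarith)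
  have hCm := cm_nonneg 4
  set G : ℝ := 8 * Real.sqrt C1 + 37 * A with hGdef
  have hG0 : 0 ≤ G := by positivity
  set D : ℝ := Real.sqrt (2 * Cm 4) * G ^ 2 with hD
  have hD0 : 0 ≤ D := by positivity
  have hsC1 : Real.sqrt C1 ^ 2 = C1 := Real.sq_sqrt hC1
  have hsC0 := Real.sqrt_nonneg C1
  have hA0 : (0 : ℝ) ≤ A := Nat.cast_nonneg A
  refine ⟨(18 * C1 + 41 * (A : ℝ) ^ 2) + D * SP q, by have := sp_nonneg hq0; positivity,
    fun n hn b S w hS hw0 hwA F hF hb => ?_⟩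
  have hnR : (1 : ℝ) ≤ n := by exact_mod_cast hn
  -- mass
  have hW0 : 0 ≤ ∑ v ∈ S, w v := Finset.sum_nonneg fun v _ => hw0 v
  have hWA : ∑ v ∈ S, w v ≤ 9 * A := by
    have h1 : ∑ v ∈ S, w v ≤ S.card • ((A : ℝ) / (n : ℝ) ^ 2) :=
      Finset.sum_le_card_nsmul _ _ _ hwA
    have h2 : (S.card : ℝ) ≤ (2 * n + 1) ^ 2 := by
      have h3 : S ⊆ ball b n := hS.sub.trans (ball_mono b (Nat.sub_le n 1))
      exact le_trans (by exact_mod_cast Finset.card_le_card h3) (card_ball_le b n)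
    rw [nsmul_eq_mul] at h1
    have h4 : (2 * (n : ℝ) + 1) ^ 2 ≤ 9 * (n : ℝ) ^ 2 := by nlinarith
    have h5 : (S.card : ℝ) * (A / (n : ℝ) ^ 2) ≤ (9 * (n : ℝ) ^ 2) * (A / (n : ℝ) ^ 2) :=
      mul_le_mul_of_nonneg_right (h2.trans h4) (by positivity)
    have h6 : (9 * (n : ℝ) ^ 2) * (A / (n : ℝ) ^ 2) = 9 * A := by field_simp
    linarith
  have hrad : ∀ k : ℕ, n - 1 ≤ 2 * ((K + 1) ^ k * n) + 1 := fun k => by
    have : n ≤ (K + 1) ^ k * n := Nat.le_mul_of_pos_left n (by positivity)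
    omega
  -- a priori bound in a ball
  have ap : ∀ (k : ℕ) (U : Finset P2), SC U → U ⊆ ball b (2 * ((K + 1) ^ k * n) + 1) →
      EH x U (fun h => Yn (S ∩ VF U) w h ^ 2) ≤ C1 * ((k : ℝ) + 3) ^ 2 := by
    intro k U hU hUk
    have h1 : EH x U (fun h => Yn (S ∩ VF U) w h ^ 2) ≤
        EH x (ball b (2 * ((K + 1) ^ k * n) + 1)) (fun h => Yn (S ∩ VF U) w h ^ 2) :=
      EH_mono hx0.le hx1 hUk (Yn_sq_inc Finset.inter_subset_right hw0)
    refine h1.trans (hG n hn b (S ∩ VF U) w (fun v hv => hS v (Finset.mem_inter.1 hv).1) hw0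
      (fun v hv => hwA v (Finset.mem_inter.1 hv).1) k)
  -- the part of the window off the domain
  have off : ∀ (U : Finset P2) (h : P2 → ℤ), HV U h →
      Yn S w h = Yn (S ∩ VF U) w h - (∑ v ∈ S \ VF U, w v) / 2 := by
    intro U h hh
    unfold Yn
    rw [← Finset.sum_inter_add_sum_sdiff S (VF U)]
    have : ∑ v ∈ S \ VF U, w v * ((h v : ℝ) - 1 / 2) = -(∑ v ∈ S \ VF U, w v) / 2 := by
      rw [neg_div, Finset.sum_div, ← Finset.sum_neg_distrib]
      refine Finset.sum_congr rfl fun v hv => ?_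
      rw [hh.off v (Finset.mem_sdiff.1 hv).2]
      push_cast
      ring
    rw [this]
    ring
  -- second moments
  have sec : ∀ (k : ℕ) (U : Finset P2), SC U → U ⊆ ball b (2 * ((K + 1) ^ k * n) + 1) →
      EH x U (fun h => Yn S w h ^ 2) ≤ 2 * (C1 * ((k : ℝ) + 3) ^ 2) + 81 * (A : ℝ) ^ 2 / 2 := by
    intro k U hU hUk
    have h1 := ap k U hU hUk
    have h2 : 0 ≤ ∑ v ∈ S \ VF U, w v := Finset.sum_nonneg fun v _ => hw0 v
    have h3 : ∑ v ∈ S \ VF U, w v ≤ 9 * A :=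
      (Finset.sum_le_sum_of_subset_of_nonneg Finset.sdiff_subset fun v _ _ => hw0 v).trans hWA
    calc EH x U (fun h => Yn S w h ^ 2)
        ≤ EH x U (fun h => 2 * Yn (S ∩ VF U) w h ^ 2 + 81 * (A : ℝ) ^ 2 / 2) := by
          refine EH_le fun h hh => ?_
          rw [off U h hh]
          nlinarith [sq_nonneg (Yn (S ∩ VF U) w h + (∑ v ∈ S \ VF U, w v) / 2)]
      _ = 2 * EH x U (fun h => Yn (S ∩ VF U) w h ^ 2) + 81 * (A : ℝ) ^ 2 / 2 := by
          rw [EH_add, EH_smul, EH_const]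
      _ ≤ _ := by linarith
  -- fourth moments
  have four : ∀ (k : ℕ) (U : Finset P2), SC U → U ⊆ ball b (2 * ((K + 1) ^ k * n) + 1) →
      E c U (fun ω => (Yn S w ω.1 ^ 2) ^ 2) ≤ 2 * Cm 4 * (G * ((k : ℝ) + 3)) ^ 4 := by
    intro k U hU hUk
    have h1 := sec k U hU hUk
    set σ : ℝ := (2 * Real.sqrt C1 + 7 * A) * ((k : ℝ) + 3) with hσ
    have hσ0 : 0 ≤ σ := by positivity
    have hk3 : (3 : ℝ) ≤ (k : ℝ) + 3 := by
      have : (0 : ℝ) ≤ k := Nat.cast_nonneg k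
      linarith
    have hσ2 : 2 * (C1 * ((k : ℝ) + 3) ^ 2) + 81 * (A : ℝ) ^ 2 / 2 ≤ σ ^ 2 := by
      rw [hσ, mul_pow]
      have h2 : (9 : ℝ) ≤ ((k : ℝ) + 3) ^ 2 := by nlinarith
      have h3 : 4 * C1 + 49 * (A : ℝ) ^ 2 ≤ (2 * Real.sqrt C1 + 7 * A) ^ 2 := by
        have e : (2 * Real.sqrt C1 + 7 * A) ^ 2 =
            4 * Real.sqrt C1 ^ 2 + 49 * (A : ℝ) ^ 2 + 28 * (Real.sqrt C1 * A) := by ring
        rw [e, hsC1]
        have : 0 ≤ Real.sqrt C1 * A := mul_nonneg hsC0 hA0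
        linarith
      have h4 : (4 * C1 + 49 * (A : ℝ) ^ 2) * ((k : ℝ) + 3) ^ 2 ≤
          (2 * Real.sqrt C1 + 7 * A) ^ 2 * ((k : ℝ) + 3) ^ 2 :=
        mul_le_mul_of_nonneg_right h3 (sq_nonneg _)
      have h5 : 0 ≤ C1 * ((k : ℝ) + 3) ^ 2 := by positivity
      have h6 : (A : ℝ) ^ 2 * 9 ≤ (A : ℝ) ^ 2 * ((k : ℝ) + 3) ^ 2 :=
        mul_le_mul_of_nonneg_left h2 (sq_nonneg _)
      nlinarith [sq_nonneg (A : ℝ)]
    have h2 := EI_abs_moment_linear hx0.le hx1 U (IV U) S w (σ := σ) hσ0 (by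
      rw [EI_self]
      exact h1.trans hσ2) 4
    have h3 : E c U (fun ω => (Yn S w ω.1 ^ 2) ^ 2) =
        EI x U (IV U) (fun h => |∑ v ∈ S, w v * ((h v : ℝ) - 1 / 2)| ^ 4) := by
      rw [EI_self, ← E_eq_EH hx0.ne']
      refine E_congr fun ω _ => ?_
      show (Yn S w ω.1 ^ 2) ^ 2 = |Yn S w ω.1| ^ 4
      rw [← pow_mul]
      exact (Even.pow_abs (by decide) _).symm
    rw [h3]
    refine h2.trans (mul_le_mul_of_nonneg_left ?_ (by positivity))
    have h4 : ∑ v ∈ S, |w v| ≤ 9 * A := by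
      refine le_trans (le_of_eq ?_) hWA
      exact Finset.sum_congr rfl fun v _ => abs_of_nonneg (hw0 v)
    have h5 : 0 ≤ ∑ v ∈ S, |w v| := Finset.sum_nonneg fun _ _ => abs_nonneg _
    refine pow_le_pow_left₀ (by positivity) ?_ 4
    rw [hσ, hGdef]
    nlinarith
  -- the recursion
  have rcs : ∀ (k : ℕ) (U : Finset P2), SC U → U ⊆ ball b (2 * ((K + 1) ^ k * n) + 1) → b ∉ U →
      E c U (fun ω => Yn S w ω.1 ^ 2) ≤ (18 * C1 + 41 * (A : ℝ) ^ 2) +
        D * ∑ i ∈ Finset.range k, ((i : ℝ) + 4) ^ 2 * q ^ i := by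
    intro k
    induction k with
    | zero =>
      intro U hU hUk _
      have h1 := sec 0 U hU hUk
      rw [← E_eq_EH hx0.ne'] at h1
      refine h1.trans ?_
      simp only [Nat.cast_zero, Finset.range_zero, Finset.sum_empty, mul_zero, add_zero, zero_add]
      nlinarith [sq_nonneg (A : ℝ)]
    | succ k ih =>
      intro U hU hUk hbU
      set M : ℝ := (18 * C1 + 41 * (A : ℝ) ^ 2) +
        D * ∑ i ∈ Finset.range k, ((i : ℝ) + 4) ^ 2 * q ^ i with hM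
      have hM0 : 0 ≤ M := by positivity
      have h1 := rec_step hc hU hbU (r := n - 1) (m := n) (N := 2 * ((K + 1) ^ k * n)) (by omega)
        (by
          have : n ≤ (K + 1) ^ k * n := Nat.le_mul_of_pos_left n (by positivity)
          omega) hS (w := w) hM0 ih
      have h2 := E_cs hc U (fun ω => Yn S w ω.1 ^ 2) (ind (BlkP b n (2 * ((K + 1) ^ k * n)))ᶜ)
      have h3 := four (k + 1) U hU hUk
      have h4 : E c U (fun ω => ind (BlkP b n (2 * ((K + 1) ^ k * n)))ᶜ ω ^ 2) ≤ (1 - p) ^ (k + 1) := by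
        have h5 := hR.iterP hc hU k hn (a := b) (g := fun _ => 1) (fun _ => zero_le_one)
          (fun _ _ _ _ => rfl)
        simp only [one_mul] at h5
        rw [E_const hc, mul_one] at h5
        refine le_trans (le_of_eq ?_) h5
        refine E_congr fun ω _ => ?_
        by_cases hω : ω ∈ (BlkP b n (2 * ((K + 1) ^ k * n)))ᶜ
        · rw [ind_of_mem hω]; norm_num
        · rw [ind_of_not_mem hω]; norm_num
      have h6 : E c U (fun ω => Yn S w ω.1 ^ 2 * ind (BlkP b n (2 * ((K + 1) ^ k * n)))ᶜ ω) ≤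
          D * (((k : ℝ) + 4) ^ 2 * q ^ k) := by
        set T : ℝ := E c U (fun ω => Yn S w ω.1 ^ 2 * ind (BlkP b n (2 * ((K + 1) ^ k * n)))ᶜ ω)
        have hT : T ^ 2 ≤ (D * (((k : ℝ) + 4) ^ 2 * q ^ (k + 1))) ^ 2 := by
          refine h2.trans ((mul_le_mul h3 h4 (E_nonneg hc fun ω _ => sq_nonneg _)
            (by positivity)).trans (le_of_eq ?_))
          rw [← hqq, hD]
          have hs : Real.sqrt (2 * Cm 4) ^ 2 = 2 * Cm 4 := Real.sq_sqrt (by positivity)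
          have e : (Real.sqrt (2 * Cm 4) * G ^ 2 * (((k : ℝ) + 4) ^ 2 * q ^ (k + 1))) ^ 2 =
              Real.sqrt (2 * Cm 4) ^ 2 * (G * ((k : ℝ) + 4)) ^ 4 * (q ^ 2) ^ (k + 1) := by ring
          rw [e, hs]
          push_cast
          ring
        have h7 : T ≤ D * (((k : ℝ) + 4) ^ 2 * q ^ (k + 1)) :=
          le_of_sq_le_sq hT (by positivity)
        refine h7.trans (mul_le_mul_of_nonneg_left (mul_le_mul_of_nonneg_left ?_ (sq_nonneg _)) hD0)
        exact pow_le_pow_of_le_one hq0 hq1.le (Nat.le_succ k)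
      rw [Finset.sum_range_succ, mul_add]
      linarith
  -- every domain is in some ball
  obtain ⟨k, hk⟩ : ∃ k : ℕ, F ⊆ ball b (2 * ((K + 1) ^ k * n) + 1) := by
    obtain ⟨m, hm⟩ := subset_hexB (F.image fun v => v - b)
    refine ⟨m, fun v hv => ?_⟩
    have h1 : v - b ∈ hexB m := hm (Finset.mem_image_of_mem _ hv)
    refine ball_mono b ?_ (mem_ball'.2 h1)
    have h2 : m ≤ (K + 1) ^ m := (Nat.lt_pow_self (by have := hR.K4; omega)).le
    have h3 : (K + 1) ^ m ≤ (K + 1) ^ m * n := Nat.le_mul_of_pos_right _ hn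
    omega
  refine (rcs k F hF hk hb).trans ?_
  have := mul_le_mul_of_nonneg_left (sum_le_sp hq0 hq1 k) hD0
  linarith

end Crest.Agent.R144.Hf702
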