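import Crest.Agent.R161.AtFkA_729

/-!
# R144 (integer heights): FK-type representation with TRIPLE hyperedges (helper349)

Abstract part, finite sets.  `ε` = hyperedges (up triangles), `dn e : Fin 3 → β` the three dual vertices of
`e` (down triangles adjacent to the up triangle `e`).  A hyperedge is *hard* (`hd`: the signs at its three
dual vertices agree) or *soft* (`sf c e = 4 hd + (c - 1)`, `c = x⁻² ≥ 1`).

* `psi c D C` : partition function with hard hyperedges `D`, soft hyperedges `C`;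
* `psi_super` : supermodularity (GKS2); `psi_mono_soft`; `sum_psi` : expansion of the soft hyperedges.

Adapted from R161/AtFkA_729 (edges there, triples here).
-/

set_option autoImplicit false

set_option linter.unusedSectionVars false
set_option linter.unusedSimpArgs false

namespace Crest.Agent.R144.HyA349

open Finset Crest.Agent.R161.Gks375 Crest.Agent.R161.Lsm375 Crest.Agent.R161.Abs375

/-- `c + χ_ab + χ_bc + χ_ca` is ferromagnetic. -/
theorem ferro_tri {ι : Type*} [Fintype ι] [DecidableEq ι] {c : ℝ} (hc : 1 ≤ c) (A B C : Finset ι) :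
    Ferro (fun σ : ι → ℤˣ => c + chi A σ * chi B σ + chi B σ * chi C σ + chi C σ * chi A σ) := by
  have hAB : Pos (fun σ : ι → ℤˣ => chi A σ * chi B σ) := (Pos.chi A).mul (Pos.chi B)
  have hBC : Pos (fun σ : ι → ℤˣ => chi B σ * chi C σ) := (Pos.chi B).mul (Pos.chi C)
  have hCA : Pos (fun σ : ι → ℤˣ => chi C σ * chi A σ) := (Pos.chi C).mul (Pos.chi A)
  have hc0 : 0 ≤ c := by linarith
  refine ⟨(((Pos.const hc0).add hAB).add hBC).add hCA, fun ρ => ?_⟩
  have key : ∀ (a b d : ℝ), 0 ≤ a → 0 ≤ b → 0 ≤ d → ∀ (e : ℝ), 0 ≤ e →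
      Pos (fun σ : ι → ℤˣ => e + a * (chi A σ * chi B σ) + b * (chi B σ * chi C σ) +
        d * (chi C σ * chi A σ)) := by
    intro a b d ha hb hd e he
    exact (((Pos.const he).add (hAB.smul ha)).add (hBC.smul hb)).add (hCA.smul hd)
  rcases chi_eq_one_or A ρ with ha | ha <;> rcases chi_eq_one_or B ρ with hb | hb <;>
    rcases chi_eq_one_or C ρ with hd | hd
  · refine (key (2 * c + 2) (2 * c + 2) (2 * c + 2) (by linarith) (by linarith) (by linarith)
      (c ^ 2 + 3) (by positivity)).congr fun σ => ?_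
    dsimp only
    rw [chi_mul_arg, chi_mul_arg, chi_mul_arg, ha, hb, hd]
    rcases chi_eq_one_or A σ with ha' | ha' <;> rcases chi_eq_one_or B σ with hb' | hb' <;>
      rcases chi_eq_one_or C σ with hd' | hd' <;> rw [ha', hb', hd'] <;> ring
  · refine (key (2 * c - 2) 0 0 (by linarith) (by linarith) (by linarith)
      (c ^ 2 - 1) (by nlinarith)).congr fun σ => ?_
    dsimp only
    rw [chi_mul_arg, chi_mul_arg, chi_mul_arg, ha, hb, hd]
    rcases chi_eq_one_or A σ with ha' | ha' <;> rcases chi_eq_one_or B σ with hb' | hb' <;>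
      rcases chi_eq_one_or C σ with hd' | hd' <;> rw [ha', hb', hd'] <;> ring
  · refine (key 0 0 (2 * c - 2) (by linarith) (by linarith) (by linarith)
      (c ^ 2 - 1) (by nlinarith)).congr fun σ => ?_
    dsimp only
    rw [chi_mul_arg, chi_mul_arg, chi_mul_arg, ha, hb, hd]
    rcases chi_eq_one_or A σ with ha' | ha' <;> rcases chi_eq_one_or B σ with hb' | hb' <;>
      rcases chi_eq_one_or C σ with hd' | hd' <;> rw [ha', hb', hd'] <;> ring
  · refine (key 0 (2 * c - 2) 0 (by linarith) (by linarith) (by linarith)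
      (c ^ 2 - 1) (by nlinarith)).congr fun σ => ?_
    dsimp only
    rw [chi_mul_arg, chi_mul_arg, chi_mul_arg, ha, hb, hd]
    rcases chi_eq_one_or A σ with ha' | ha' <;> rcases chi_eq_one_or B σ with hb' | hb' <;>
      rcases chi_eq_one_or C σ with hd' | hd' <;> rw [ha', hb', hd'] <;> ring
  · refine (key 0 (2 * c - 2) 0 (by linarith) (by linarith) (by linarith)
      (c ^ 2 - 1) (by nlinarith)).congr fun σ => ?_
    dsimp only
    rw [chi_mul_arg, chi_mul_arg, chi_mul_arg, ha, hb, hd]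
    rcases chi_eq_one_or A σ with ha' | ha' <;> rcases chi_eq_one_or B σ with hb' | hb' <;>
      rcases chi_eq_one_or C σ with hd' | hd' <;> rw [ha', hb', hd'] <;> ring
  · refine (key 0 0 (2 * c - 2) (by linarith) (by linarith) (by linarith)
      (c ^ 2 - 1) (by nlinarith)).congr fun σ => ?_
    dsimp only
    rw [chi_mul_arg, chi_mul_arg, chi_mul_arg, ha, hb, hd]
    rcases chi_eq_one_or A σ with ha' | ha' <;> rcases chi_eq_one_or B σ with hb' | hb' <;>
      rcases chi_eq_one_or C σ with hd' | hd' <;> rw [ha', hb', hd'] <;> ring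
  · refine (key (2 * c - 2) 0 0 (by linarith) (by linarith) (by linarith)
      (c ^ 2 - 1) (by nlinarith)).congr fun σ => ?_
    dsimp only
    rw [chi_mul_arg, chi_mul_arg, chi_mul_arg, ha, hb, hd]
    rcases chi_eq_one_or A σ with ha' | ha' <;> rcases chi_eq_one_or B σ with hb' | hb' <;>
      rcases chi_eq_one_or C σ with hd' | hd' <;> rw [ha', hb', hd'] <;> ring
  · refine (key (2 * c + 2) (2 * c + 2) (2 * c + 2) (by linarith) (by linarith) (by linarith)
      (c ^ 2 + 3) (by positivity)).congr fun σ => ?_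
    dsimp only
    rw [chi_mul_arg, chi_mul_arg, chi_mul_arg, ha, hb, hd]
    rcases chi_eq_one_or A σ with ha' | ha' <;> rcases chi_eq_one_or B σ with hb' | hb' <;>
      rcases chi_eq_one_or C σ with hd' | hd' <;> rw [ha', hb', hd'] <;> ring

/-! ### spins -/

section psi

variable {β ε : Type*} [DecidableEq β] [DecidableEq ε] (dn : ε → Fin 3 → β) (VA : Finset β)

/-- Spin at a dual vertex (`+` off `VA`). -/
def sp (σ : ↥VA → ℤˣ) (v : β) : ℤˣ := if h : v ∈ VA then σ ⟨v, h⟩ else 1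

/-- the three dual vertices of `e` carry equal signs -/
def Mono (σ : ↥VA → ℤˣ) (e : ε) : Prop :=
  sp VA σ (dn e 0) = sp VA σ (dn e 1) ∧ sp VA σ (dn e 1) = sp VA σ (dn e 2)

instance (σ : ↥VA → ℤˣ) (e : ε) : Decidable (Mono dn VA σ e) := by unfold Mono; infer_instance

/-- hard hyperedge -/
noncomputable def hd (e : ε) (σ : ↥VA → ℤˣ) : ℝ := if Mono dn VA σ e then 1 else 0

/-- soft hyperedge -/
noncomputable def sf (c : ℝ) (e : ε) (σ : ↥VA → ℤˣ) : ℝ :=
  if Mono dn VA σ e then c + 3 else c - 1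

theorem exists_chi_sp (v : β) : ∃ S : Finset ↥VA, ∀ σ, chi S σ = ((sp VA σ v : ℤ) : ℝ) := by
  by_cases h : v ∈ VA
  · refine ⟨{⟨v, h⟩}, fun σ => ?_⟩
    simp [chi, sp, h]
  · refine ⟨∅, fun σ => ?_⟩
    simp [chi, sp, h]

/-- characters of the three dual vertices -/
theorem exists_chi (e : ε) : ∃ A B C : Finset ↥VA, ∀ σ,
    chi A σ = ((sp VA σ (dn e 0) : ℤ) : ℝ) ∧ chi B σ = ((sp VA σ (dn e 1) : ℤ) : ℝ) ∧
      chi C σ = ((sp VA σ (dn e 2) : ℤ) : ℝ) := by
  obtain ⟨A, hA⟩ := exists_chi_sp VA (dn e 0)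
  obtain ⟨B, hB⟩ := exists_chi_sp VA (dn e 1)
  obtain ⟨C, hC⟩ := exists_chi_sp VA (dn e 2)
  exact ⟨A, B, C, fun σ => ⟨hA σ, hB σ, hC σ⟩⟩

theorem sf_eq_chi (c : ℝ) (e : ε) (σ : ↥VA → ℤˣ) :
    sf dn VA c e σ = c + ((sp VA σ (dn e 0) : ℤ) : ℝ) * ((sp VA σ (dn e 1) : ℤ) : ℝ) +
      ((sp VA σ (dn e 1) : ℤ) : ℝ) * ((sp VA σ (dn e 2) : ℤ) : ℝ) +
      ((sp VA σ (dn e 2) : ℤ) : ℝ) * ((sp VA σ (dn e 0) : ℤ) : ℝ) := by
  unfold sf Mono
  rcases Int.units_eq_one_or (sp VA σ (dn e 0)) with h1 | h1 <;>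
    rcases Int.units_eq_one_or (sp VA σ (dn e 1)) with h2 | h2 <;>
    rcases Int.units_eq_one_or (sp VA σ (dn e 2)) with h3 | h3 <;>
    simp [h1, h2, h3] <;> ring

theorem hd_eq_chi (e : ε) (σ : ↥VA → ℤˣ) :
    hd dn VA e σ = (1 / 4) * (1 + ((sp VA σ (dn e 0) : ℤ) : ℝ) * ((sp VA σ (dn e 1) : ℤ) : ℝ) +
      ((sp VA σ (dn e 1) : ℤ) : ℝ) * ((sp VA σ (dn e 2) : ℤ) : ℝ) +
      ((sp VA σ (dn e 2) : ℤ) : ℝ) * ((sp VA σ (dn e 0) : ℤ) : ℝ)) := by
  unfold hd Mono
  rcases Int.units_eq_one_or (sp VA σ (dn e 0)) with h1 | h1 <;>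
    rcases Int.units_eq_one_or (sp VA σ (dn e 1)) with h2 | h2 <;>
    rcases Int.units_eq_one_or (sp VA σ (dn e 2)) with h3 | h3 <;>
    simp [h1, h2, h3] <;> norm_num

theorem hd_ferro (e : ε) : Ferro (hd dn VA e) := by
  obtain ⟨A, B, C, h⟩ := exists_chi dn VA e
  refine ((Ferro.const (r := 1 / 4) (by norm_num)).mul
    (ferro_tri le_rfl A B C)).congr fun σ => ?_
  obtain ⟨h1, h2, h3⟩ := h σ
  rw [hd_eq_chi, h1, h2, h3]

theorem sf_ferro {c : ℝ} (hc : 1 ≤ c) (e : ε) : Ferro (sf dn VA c e) := by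
  obtain ⟨A, B, C, h⟩ := exists_chi dn VA e
  refine (ferro_tri hc A B C).congr fun σ => ?_
  obtain ⟨h1, h2, h3⟩ := h σ
  rw [sf_eq_chi, h1, h2, h3]

theorem hd_nonneg (e : ε) (σ : ↥VA → ℤˣ) : 0 ≤ hd dn VA e σ := by
  unfold hd; split_ifs <;> norm_num

theorem sf_nonneg {c : ℝ} (hc : 1 ≤ c) (e : ε) (σ : ↥VA → ℤˣ) : 0 ≤ sf dn VA c e σ := by
  unfold sf; split_ifs <;> linarith

theorem sf_eq (c : ℝ) (e : ε) (σ : ↥VA → ℤˣ) :
    sf dn VA c e σ = 4 * hd dn VA e σ + (c - 1) := by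
  unfold sf hd; split_ifs <;> ring

/-- Partition function with hard hyperedges `D` and soft hyperedges `C`. -/
noncomputable def psi (c : ℝ) (D C : Finset ε) : ℝ :=
  ∑ σ : ↥VA → ℤˣ, (∏ e ∈ D, hd dn VA e σ) * ∏ e ∈ C, sf dn VA c e σ

theorem psi_pos {c : ℝ} (hc : 1 ≤ c) (D C : Finset ε) : 0 < psi dn VA c D C := by
  unfold psi
  refine Finset.sum_pos' (fun σ _ => mul_nonneg
    (Finset.prod_nonneg fun e _ => hd_nonneg dn VA e σ)
    (Finset.prod_nonneg fun e _ => sf_nonneg dn VA hc e σ)) ⟨1, Finset.mem_univ _, ?_⟩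
  have h1 : ∀ v, sp VA (1 : ↥VA → ℤˣ) v = 1 := by
    intro v; unfold sp; split_ifs <;> rfl
  have h2 : ∀ e, Mono dn VA (1 : ↥VA → ℤˣ) e := fun e => by
    unfold Mono; rw [h1, h1, h1]; exact ⟨rfl, rfl⟩
  refine mul_pos (Finset.prod_pos fun e _ => ?_) (Finset.prod_pos fun e _ => ?_)
  · unfold hd; rw [if_pos (h2 e)]; norm_num
  · unfold sf; rw [if_pos (h2 e)]; linarith

/-- **Supermodularity.** -/
theorem psi_super {c : ℝ} (hc : 1 ≤ c) (D C D' C' : Finset ε) :
    psi dn VA c D C * psi dn VA c D' C' ≤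
      psi dn VA c (D ∩ D') (C ∩ C') * psi dn VA c (D ∪ D') (C ∪ C') := by
  have hw : Ferro (fun σ => (∏ e ∈ D ∩ D', hd dn VA e σ) *
      ∏ e ∈ C ∩ C', sf dn VA c e σ) :=
    (Ferro.prod _ fun e _ => hd_ferro dn VA e).mul
      (Ferro.prod _ fun e _ => sf_ferro dn VA hc e)
  have hf : Pos (fun σ => (∏ e ∈ D \ D', hd dn VA e σ) *
      ∏ e ∈ C \ C', sf dn VA c e σ) :=
    ((Ferro.prod _ fun e _ => hd_ferro dn VA e).mul
      (Ferro.prod _ fun e _ => sf_ferro dn VA hc e)).pos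
  have hg : Pos (fun σ => (∏ e ∈ D' \ D, hd dn VA e σ) *
      ∏ e ∈ C' \ C, sf dn VA c e σ) :=
    ((Ferro.prod _ fun e _ => hd_ferro dn VA e).mul
      (Ferro.prod _ fun e _ => sf_ferro dn VA hc e)).pos
  have key := gks2 hw hf hg
  have dec : ∀ (A B : Finset ε) (f : ε → ℝ), ∏ e ∈ A, f e =
      (∏ e ∈ A ∩ B, f e) * ∏ e ∈ A \ B, f e := by
    intro A B f
    exact (Finset.prod_inter_mul_prod_sdiff A B f).symm
  have decU : ∀ (A B : Finset ε) (f : ε → ℝ), ∏ e ∈ A ∪ B, f e =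
      (∏ e ∈ A ∩ B, f e) * ((∏ e ∈ A \ B, f e) * ∏ e ∈ B \ A, f e) := by
    intro A B f
    have h1 : A ∪ B = A ∪ (B \ A) := by ext x; simp [Finset.mem_union, Finset.mem_sdiff]
    rw [h1, Finset.prod_union Finset.disjoint_sdiff, dec A B f]
    ring
  have e1 : psi dn VA c D C = ∑ σ : ↥VA → ℤˣ,
      ((∏ e ∈ D ∩ D', hd dn VA e σ) * ∏ e ∈ C ∩ C', sf dn VA c e σ) *
      ((∏ e ∈ D \ D', hd dn VA e σ) * ∏ e ∈ C \ C', sf dn VA c e σ) := by
    unfold psi
    refine Finset.sum_congr rfl fun σ _ => ?_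
    rw [dec D D', dec C C']; ring
  have e2 : psi dn VA c D' C' = ∑ σ : ↥VA → ℤˣ,
      ((∏ e ∈ D ∩ D', hd dn VA e σ) * ∏ e ∈ C ∩ C', sf dn VA c e σ) *
      ((∏ e ∈ D' \ D, hd dn VA e σ) * ∏ e ∈ C' \ C, sf dn VA c e σ) := by
    unfold psi
    refine Finset.sum_congr rfl fun σ _ => ?_
    rw [dec D' D, dec C' C, Finset.inter_comm D' D, Finset.inter_comm C' C]; ring
  have e3 : psi dn VA c (D ∪ D') (C ∪ C') = ∑ σ : ↥VA → ℤˣ,
      ((∏ e ∈ D ∩ D', hd dn VA e σ) * ∏ e ∈ C ∩ C', sf dn VA c e σ) *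
      (((∏ e ∈ D \ D', hd dn VA e σ) * ∏ e ∈ C \ C', sf dn VA c e σ) *
      ((∏ e ∈ D' \ D, hd dn VA e σ) * ∏ e ∈ C' \ C, sf dn VA c e σ)) := by
    unfold psi
    refine Finset.sum_congr rfl fun σ _ => ?_
    rw [decU D D', decU C C']; ring
  rw [e1, e2, e3]
  exact key

/-- Monotone in the soft hyperedges. -/
theorem psi_mono_soft {c : ℝ} (hc : 1 ≤ c) (D : Finset ε) {C C' : Finset ε} (h : C ⊆ C') :
    psi dn VA c D C ≤ psi dn VA c D C' := by
  have step : ∀ (C : Finset ε) (e : ε), e ∉ C →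
      psi dn VA c D C ≤ psi dn VA c D (insert e C) := by
    intro C e he
    obtain ⟨A, B, G, hS⟩ := exists_chi dn VA e
    have hw : Pos (fun σ => (∏ e ∈ D, hd dn VA e σ) * ∏ e ∈ C, sf dn VA c e σ) :=
      ((Ferro.prod _ fun e _ => hd_ferro dn VA e).mul
        (Ferro.prod _ fun e _ => sf_ferro dn VA hc e)).pos
    have hp : Pos (fun σ => chi A σ * chi B σ + chi B σ * chi G σ + chi G σ * chi A σ) :=
      (((Pos.chi A).mul (Pos.chi B)).add ((Pos.chi B).mul (Pos.chi G))).add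
        ((Pos.chi G).mul (Pos.chi A))
    have h1 := (hw.mul hp).sum_nonneg
    have h2 : psi dn VA c D (insert e C) = c * psi dn VA c D C +
        ∑ σ : ↥VA → ℤˣ, ((∏ e ∈ D, hd dn VA e σ) * ∏ e ∈ C, sf dn VA c e σ) *
          (chi A σ * chi B σ + chi B σ * chi G σ + chi G σ * chi A σ) := by
      unfold psi
      rw [Finset.mul_sum, ← Finset.sum_add_distrib]
      refine Finset.sum_congr rfl fun σ _ => ?_
      obtain ⟨h1, h2, h3⟩ := hS σ
      rw [Finset.prod_insert he, sf_eq_chi, h1, h2, h3]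
      ring
    have h3 := psi_pos dn VA hc D C
    nlinarith
  have key : ∀ K : Finset ε, psi dn VA c D C ≤ psi dn VA c D (K ∪ C) := by
    intro K
    induction K using Finset.induction_on with
    | empty => simp
    | insert e K he ih =>
      by_cases h' : e ∈ K ∪ C
      · rw [Finset.insert_union, Finset.insert_eq_of_mem h']
        exact ih
      · rw [Finset.insert_union]
        exact ih.trans (step _ _ h')
  have := key C'
  rwa [Finset.union_eq_left.mpr h] at this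

/-- Expansion of soft hyperedges. -/
theorem sum_psi (c : ℝ) (D E : Finset ε) (hDE : Disjoint D E) :
    ∑ P ∈ E.powerset, 4 ^ P.card * (c - 1) ^ (E \ P).card * psi dn VA c (D ∪ P) ∅ =
      psi dn VA c D E := by
  unfold psi
  simp_rw [Finset.mul_sum]
  rw [Finset.sum_comm]
  refine Finset.sum_congr rfl fun σ _ => ?_
  have h1 : ∏ e ∈ E, sf dn VA c e σ =
      ∑ P ∈ E.powerset, (∏ e ∈ P, (4 * hd dn VA e σ)) * ∏ e ∈ E \ P, (c - 1) := by
    rw [← Finset.prod_add]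
    exact Finset.prod_congr rfl fun e _ => sf_eq dn VA c e σ
  rw [h1, Finset.mul_sum]
  refine Finset.sum_congr rfl fun P hP => ?_
  rw [Finset.mem_powerset] at hP
  rw [Finset.prod_union (Finset.disjoint_of_subset_right hP hDE), Finset.prod_mul_distrib,
    Finset.prod_const, Finset.prod_const, Finset.prod_empty]
  ring

end psi

end Crest.Agent.R144.HyA349
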