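import Crest.Agent.R144.HyB_349

/-!
# R144: the `Z`-form of the abstract `(s, Z)` measure, triple hyperedges (helper349)

`Z` = set of all closed hyperedges; `fw c E X Z` = product of the hyperedge weights: a hyperedge whose
corners are not all in `X` and not all off `X` cannot be closed (weight `0` if closed, `1` if not), otherwise
`4` if closed and `c - 1` if not.

* `En_Z` : `En f = psi ∅ · Σ_T Σ_Z fw · psi(Dp ∪ Dm ∪ Z) · f`.
-/

set_option autoImplicit false
set_option linter.unusedSectionVars false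

namespace Crest.Agent.R144.HyC349

open Finset Crest.Agent.R144.HyA349 Crest.Agent.R144.HyB349

variable {α β ε : Type*} [DecidableEq α] [DecidableEq β] [DecidableEq ε]
  (up : ε → Finset α) (dn : ε → Fin 3 → β) (VA : Finset β) (VI : Finset α) (EI : Finset ε)

/-- the corners of `e` are all in `X` or all off `X` -/
def Cs (X : Finset α) (e : ε) : Prop := (∀ v ∈ up e, v ∈ X) ∨ (∀ v ∈ up e, v ∉ X)

instance (X : Finset α) (e : ε) : Decidable (Cs up X e) := by unfold Cs; infer_instance

/-- FK hyperedge weights. -/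
noncomputable def fw (c : ℝ) (E : Finset ε) (X : Finset α) (Z : Finset ε) : ℝ :=
  ∏ e ∈ E, (if Cs up X e then (if e ∈ Z then 4 else c - 1) else (if e ∈ Z then 0 else 1))

/-- Separation hypotheses: the wiring hyperedges join fixed plus sites, resp. fixed minus sites; two
hyperedges sharing a free dual vertex share a corner. -/
structure Sep (η : BC α ε) : Prop where
  p : ∀ e ∈ η.Dp, ∀ v ∈ up e, v ∉ VI ∧ v ∉ η.T0
  m : ∀ e ∈ η.Dm, ∀ v ∈ up e, v ∈ η.T0
  sh : ∀ e ∈ EI ∪ η.Dp, ∀ e' ∈ EI ∪ η.Dm, ∀ i j, dn e i = dn e' j → dn e i ∈ VA →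
    ∃ v ∈ up e, v ∈ up e'
  ne : ∀ e ∈ EI, (up e).Nonempty

theorem hd_mul_self (e : ε) (σ : ↥VA → ℤˣ) :
    hd dn VA e σ * hd dn VA e σ = hd dn VA e σ := by
  unfold hd; split_ifs <;> norm_num

theorem prod_hd_mul_self (A : Finset ε) (σ : ↥VA → ℤˣ) :
    (∏ e ∈ A, hd dn VA e σ) * ∏ e ∈ A, hd dn VA e σ = ∏ e ∈ A, hd dn VA e σ := by
  rw [← Finset.prod_mul_distrib]
  exact Finset.prod_congr rfl fun e _ => hd_mul_self dn VA e σ

theorem prod_hd_union (A B : Finset ε) (σ : ↥VA → ℤˣ) :
    ∏ e ∈ A ∪ B, hd dn VA e σ =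
      (∏ e ∈ A, hd dn VA e σ) * ∏ e ∈ B, hd dn VA e σ := by
  have h1 : A ∪ B = A ∪ (B \ A) := by ext x; simp
  rw [h1, Finset.prod_union Finset.disjoint_sdiff,
    ← Finset.prod_inter_mul_prod_sdiff B A (fun e => hd dn VA e σ), ← mul_assoc]
  congr 1
  have h2 : ∏ e ∈ A, hd dn VA e σ =
      (∏ e ∈ B ∩ A, hd dn VA e σ) * ∏ e ∈ A \ B, hd dn VA e σ := by
    rw [Finset.inter_comm]
    exact (Finset.prod_inter_mul_prod_sdiff A B (fun e => hd dn VA e σ)).symm
  rw [h2]
  have h3 := prod_hd_mul_self dn VA (B ∩ A) σ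
  calc _ = ((∏ e ∈ B ∩ A, hd dn VA e σ) * ∏ e ∈ B ∩ A, hd dn VA e σ) *
          ∏ e ∈ A \ B, hd dn VA e σ := by rw [h3]
    _ = _ := by ring

/-- Splitting of the cluster count between two families without common free dual vertex. -/
theorem psi_split (c : ℝ) (A B : Finset ε)
    (hAB : ∀ e ∈ A, ∀ e' ∈ B, ∀ i j, dn e i = dn e' j → dn e i ∉ VA) :
    psi dn VA c (A ∪ B) ∅ * psi dn VA c ∅ ∅ =
      psi dn VA c A ∅ * psi dn VA c B ∅ := by
  classical
  unfold psi
  simp only [Finset.prod_empty, mul_one, prod_hd_union]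
  refine Crest.Agent.R161.AtFkA729.sum_indep
    (Finset.univ.filter fun i : ↥VA => ∃ e ∈ A, ∃ k, dn e k = (i : β)) _ _ ?_ ?_
  · intro σ τ h
    refine Finset.prod_congr rfl fun e he => ?_
    have key : ∀ k, sp VA σ (dn e k) = sp VA τ (dn e k) := by
      intro k
      unfold sp
      split_ifs with hv'
      · exact h ⟨dn e k, hv'⟩ (by
          rw [Finset.mem_filter]
          exact ⟨Finset.mem_univ _, e, he, k, rfl⟩)
      · rfl
    have hM : Mono dn VA σ e ↔ Mono dn VA τ e := by
      unfold Mono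
      rw [key 0, key 1, key 2]
    unfold hd
    by_cases h1 : Mono dn VA σ e
    · rw [if_pos h1, if_pos (hM.1 h1)]
    · rw [if_neg h1, if_neg (fun h2 => h1 (hM.2 h2))]
  · intro σ τ h
    refine Finset.prod_congr rfl fun e he => ?_
    have key : ∀ k, sp VA σ (dn e k) = sp VA τ (dn e k) := by
      intro k
      unfold sp
      split_ifs with hv'
      · refine h ⟨dn e k, hv'⟩ ?_
        rw [Finset.mem_filter]
        rintro ⟨-, e', he', j, hj⟩
        exact hAB e' he' e he j k hj (hj ▸ hv')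
      · rfl
    have hM : Mono dn VA σ e ↔ Mono dn VA τ e := by
      unfold Mono
      rw [key 0, key 1, key 2]
    unfold hd
    by_cases h1 : Mono dn VA σ e
    · rw [if_pos h1, if_pos (hM.1 h1)]
    · rw [if_neg h1, if_neg (fun h2 => h1 (hM.2 h2))]

theorem E12_disj (X : Finset α) (hne : ∀ e ∈ EI, (up e).Nonempty) :
    Disjoint (E1 up EI X) (E2 up EI X) := by
  rw [Finset.disjoint_left]
  intro e h1 h2
  simp only [E1, E2, Finset.mem_filter] at h1 h2
  obtain ⟨v, hv⟩ := hne e h1.1
  exact h2.2 v hv (h1.2 v hv)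

theorem fw_eq (c : ℝ) (X : Finset α) (hne : ∀ e ∈ EI, (up e).Nonempty) {Z : Finset ε}
    (hZ : Z ⊆ E1 up EI X ∪ E2 up EI X) :
    fw up c EI X Z =
      (4 ^ (Z ∩ E1 up EI X).card * (c - 1) ^ (E1 up EI X \ Z).card) *
      (4 ^ (Z ∩ E2 up EI X).card * (c - 1) ^ (E2 up EI X \ Z).card) := by
  have hsplit : EI = (EI.filter fun e => ¬ Cs up X e) ∪
      (E1 up EI X ∪ E2 up EI X) := by
    ext e
    simp only [E1, E2, Finset.mem_union, Finset.mem_filter]
    unfold Cs
    tauto
  have hd1 : Disjoint (EI.filter fun e => ¬ Cs up X e)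
      (E1 up EI X ∪ E2 up EI X) := by
    rw [Finset.disjoint_left]
    intro e h1 h2
    simp only [E1, E2, Finset.mem_union, Finset.mem_filter] at h1 h2
    have h3 := h1.2
    unfold Cs at h3
    tauto
  have part : ∀ A : Finset ε, (∀ e ∈ A, Cs up X e) →
      ∏ e ∈ A, (if Cs up X e then (if e ∈ Z then (4 : ℝ) else c - 1)
        else (if e ∈ Z then 0 else 1)) = 4 ^ (Z ∩ A).card * (c - 1) ^ (A \ Z).card := by
    intro A hA
    rw [← Finset.prod_inter_mul_prod_sdiff A Z]
    congr 1
    · rw [Finset.inter_comm, Finset.prod_congr (g := fun _ => (4 : ℝ)) rfl, Finset.prod_const]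
      intro e he
      rw [Finset.mem_inter] at he
      rw [if_pos (hA e he.2), if_pos he.1]
    · rw [Finset.prod_congr (g := fun _ => c - 1) rfl, Finset.prod_const]
      intro e he
      rw [Finset.mem_sdiff] at he
      rw [if_pos (hA e he.1), if_neg he.2]
  unfold fw
  conv_lhs => rw [hsplit]
  rw [Finset.prod_union hd1, Finset.prod_union (E12_disj up EI X hne)]
  rw [part (E1 up EI X) (by
    intro e he
    simp only [E1, Finset.mem_filter] at he
    exact Or.inl he.2), part (E2 up EI X) (by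
    intro e he
    simp only [E2, Finset.mem_filter] at he
    exact Or.inr he.2)]
  have h1 : ∏ e ∈ EI.filter fun e => ¬ Cs up X e,
      (if Cs up X e then (if e ∈ Z then (4 : ℝ) else c - 1)
        else (if e ∈ Z then 0 else 1)) = 1 := by
    refine Finset.prod_eq_one fun e he => ?_
    rw [Finset.mem_filter] at he
    rw [if_neg he.2, if_neg]
    intro hZe
    have := hZ hZe
    simp only [E1, E2, Finset.mem_union, Finset.mem_filter] at this
    have h2 := he.2
    unfold Cs at h2
    tauto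
  rw [h1, one_mul]

theorem fw_eq_zero (c : ℝ) (X : Finset α) {Z : Finset ε} (hZ : Z ⊆ EI)
    (h : ¬ Z ⊆ E1 up EI X ∪ E2 up EI X) : fw up c EI X Z = 0 := by
  rw [Finset.not_subset] at h
  obtain ⟨e, he, hne⟩ := h
  unfold fw
  apply Finset.prod_eq_zero (hZ he)
  simp only [E1, E2, Finset.mem_union, Finset.mem_filter] at hne
  have h1 : ¬ Cs up X e := by
    have := hZ he
    unfold Cs
    tauto
  rw [if_neg h1, if_pos he]

theorem fw_nonneg {c : ℝ} (hc : 1 ≤ c) (E : Finset ε) (X : Finset α) (Z : Finset ε) :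
    0 ≤ fw up c E X Z := by
  unfold fw
  refine Finset.prod_nonneg fun e _ => ?_
  split_ifs <;> linarith

variable {up dn VA VI EI}

/-- **Z-form** of the unnormalised expectation. -/
theorem En_Z (c : ℝ) {η : BC α ε} (hs : Sep up dn VA VI EI η)
    (f : Finset α → Finset ε → Finset ε → ℝ) :
    En up dn VA VI EI c η f = psi dn VA c ∅ ∅ *
      ∑ T ∈ VI.powerset, ∑ Z ∈ EI.powerset,
        fw up c EI (T ∪ η.T0) Z * psi dn VA c (η.Dp ∪ η.Dm ∪ Z) ∅ *
          f T (Z ∩ E2 up EI (T ∪ η.T0)) (Z ∩ E1 up EI (T ∪ η.T0)) := by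
  unfold En
  rw [Finset.mul_sum]
  refine Finset.sum_congr rfl fun T hT => ?_
  rw [Finset.mem_powerset] at hT
  set X := T ∪ η.T0 with hX
  -- restrict the left-hand side
  have hL : ∑ M ∈ EI.powerset, ∑ P ∈ EI.powerset,
      aw dn VA c η.Dm (E1 up EI X) M * aw dn VA c η.Dp (E2 up EI X) P * f T P M =
      ∑ q ∈ (E1 up EI X).powerset ×ˢ (E2 up EI X).powerset,
      aw dn VA c η.Dm (E1 up EI X) q.1 * aw dn VA c η.Dp (E2 up EI X) q.2 *
        f T q.2 q.1 := by
    rw [Finset.sum_product]
    symm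
    refine (Finset.sum_subset (Finset.powerset_mono.mpr (E1_sub up EI X)) ?_).trans ?_
    · intro M _ hM
      refine Finset.sum_eq_zero fun P _ => ?_
      have : aw dn VA c η.Dm (E1 up EI X) M = 0 := by
        unfold aw; rw [if_neg (fun h => hM (Finset.mem_powerset.mpr h))]
      rw [this]; ring
    · refine Finset.sum_congr rfl fun M _ => ?_
      refine Finset.sum_subset (Finset.powerset_mono.mpr (E2_sub up EI X)) ?_
      intro P _ hP
      have : aw dn VA c η.Dp (E2 up EI X) P = 0 := by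
        unfold aw; rw [if_neg (fun h => hP (Finset.mem_powerset.mpr h))]
      rw [this]; ring
  rw [hL]
  -- restrict the right-hand side
  have hsub : E1 up EI X ∪ E2 up EI X ⊆ EI :=
    Finset.union_subset (E1_sub up EI X) (E2_sub up EI X)
  have hR : ∑ Z ∈ EI.powerset, fw up c EI X Z * psi dn VA c (η.Dp ∪ η.Dm ∪ Z) ∅ *
        f T (Z ∩ E2 up EI X) (Z ∩ E1 up EI X) =
      ∑ Z ∈ (E1 up EI X ∪ E2 up EI X).powerset,
        fw up c EI X Z * psi dn VA c (η.Dp ∪ η.Dm ∪ Z) ∅ *
        f T (Z ∩ E2 up EI X) (Z ∩ E1 up EI X) := by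
    symm
    refine Finset.sum_subset (Finset.powerset_mono.mpr hsub) ?_
    intro Z hZ hZ'
    rw [fw_eq_zero up EI c X (Finset.mem_powerset.mp hZ)
      (fun h => hZ' (Finset.mem_powerset.mpr h))]
    ring
  rw [hR, Finset.mul_sum]
  have hdisj := E12_disj up EI X hs.ne
  refine Finset.sum_bij' (fun q _ => q.1 ∪ q.2)
    (fun Z _ => (Z ∩ E1 up EI X, Z ∩ E2 up EI X)) ?_ ?_ ?_ ?_ ?_
  · intro q hq
    simp only [Finset.mem_product, Finset.mem_powerset] at hq ⊢
    exact Finset.union_subset_union hq.1 hq.2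
  · intro Z _
    simp only [Finset.mem_product, Finset.mem_powerset]
    exact ⟨Finset.inter_subset_right, Finset.inter_subset_right⟩
  · rintro ⟨M, P⟩ hq
    simp only [Finset.mem_product, Finset.mem_powerset] at hq
    have h1 : (M ∪ P) ∩ E1 up EI X = M := by
      ext e
      have a : e ∈ M → e ∈ E1 up EI X := fun h => hq.1 h
      have b : e ∈ P → e ∈ E2 up EI X := fun h => hq.2 h
      have d : e ∈ E1 up EI X → e ∉ E2 up EI X := fun h1 h2 =>
        (Finset.disjoint_left.mp hdisj) h1 h2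
      simp only [Finset.mem_inter, Finset.mem_union]
      tauto
    have h2 : (M ∪ P) ∩ E2 up EI X = P := by
      ext e
      have a : e ∈ M → e ∈ E1 up EI X := fun h => hq.1 h
      have b : e ∈ P → e ∈ E2 up EI X := fun h => hq.2 h
      have d : e ∈ E1 up EI X → e ∉ E2 up EI X := fun h1 h2 =>
        (Finset.disjoint_left.mp hdisj) h1 h2
      simp only [Finset.mem_inter, Finset.mem_union]
      tauto
    simp only [h1, h2]
  · intro Z hZ
    rw [Finset.mem_powerset] at hZ
    simp only
    rw [← Finset.inter_union_distrib_left]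
    exact Finset.inter_eq_left.mpr hZ
  · rintro ⟨M, P⟩ hq
    simp only [Finset.mem_product, Finset.mem_powerset] at hq
    have h1 : (M ∪ P) ∩ E1 up EI X = M := by
      ext e
      have a : e ∈ M → e ∈ E1 up EI X := fun h => hq.1 h
      have b : e ∈ P → e ∈ E2 up EI X := fun h => hq.2 h
      have d : e ∈ E1 up EI X → e ∉ E2 up EI X := fun h1 h2 =>
        (Finset.disjoint_left.mp hdisj) h1 h2
      simp only [Finset.mem_inter, Finset.mem_union]
      tauto
    have h2 : (M ∪ P) ∩ E2 up EI X = P := by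
      ext e
      have a : e ∈ M → e ∈ E1 up EI X := fun h => hq.1 h
      have b : e ∈ P → e ∈ E2 up EI X := fun h => hq.2 h
      have d : e ∈ E1 up EI X → e ∉ E2 up EI X := fun h1 h2 =>
        (Finset.disjoint_left.mp hdisj) h1 h2
      simp only [Finset.mem_inter, Finset.mem_union]
      tauto
    have h3 : E1 up EI X \ (M ∪ P) = E1 up EI X \ M := by
      ext e
      have b : e ∈ P → e ∈ E2 up EI X := fun h => hq.2 h
      have d : e ∈ E1 up EI X → e ∉ E2 up EI X := fun h1 h2 =>
        (Finset.disjoint_left.mp hdisj) h1 h2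
      simp only [Finset.mem_sdiff, Finset.mem_union]
      tauto
    have h4 : E2 up EI X \ (M ∪ P) = E2 up EI X \ P := by
      ext e
      have b : e ∈ M → e ∈ E1 up EI X := fun h => hq.1 h
      have d : e ∈ E1 up EI X → e ∉ E2 up EI X := fun h1 h2 =>
        (Finset.disjoint_left.mp hdisj) h1 h2
      simp only [Finset.mem_sdiff, Finset.mem_union]
      tauto
    simp only
    rw [fw_eq up EI c X hs.ne (Finset.union_subset_union hq.1 hq.2), h1, h2, h3, h4]
    have h5 : η.Dp ∪ η.Dm ∪ (M ∪ P) = (η.Dp ∪ P) ∪ (η.Dm ∪ M) := by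
      ext e
      simp only [Finset.mem_union]
      tauto
    have hP : ∀ e ∈ η.Dp ∪ P, ∀ v ∈ up e, v ∉ X := by
      intro e he v hv
      rw [Finset.mem_union] at he
      rcases he with he | he
      · obtain ⟨a1, a3⟩ := hs.p e he v hv
        rw [hX]
        simp only [Finset.mem_union]
        exact fun h => h.elim (fun h => a1 (hT h)) a3
      · have := hq.2 he
        simp only [E2, Finset.mem_filter] at this
        exact this.2 v hv
    have hM : ∀ e ∈ η.Dm ∪ M, ∀ v ∈ up e, v ∈ X := by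
      intro e he v hv
      rw [Finset.mem_union] at he
      rcases he with he | he
      · have a1 := hs.m e he v hv
        rw [hX]
        simp only [Finset.mem_union]
        exact Or.inr a1
      · have := hq.1 he
        simp only [E1, Finset.mem_filter] at this
        exact this.2 v hv
    have h6 := psi_split dn VA c (η.Dp ∪ P) (η.Dm ∪ M) (by
      intro e he e' he' i j hij hmem
      have m1 : e ∈ EI ∪ η.Dp := by
        rw [Finset.mem_union] at he ⊢
        rcases he with he | he
        · exact Or.inr he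
        · exact Or.inl (E2_sub up EI X (hq.2 he))
      have m2 : e' ∈ EI ∪ η.Dm := by
        rw [Finset.mem_union] at he' ⊢
        rcases he' with he' | he'
        · exact Or.inr he'
        · exact Or.inl (E1_sub up EI X (hq.1 he'))
      obtain ⟨v, hv, hv'⟩ := hs.sh e m1 e' m2 i j hij hmem
      exact hP e he v hv (hM e' he' v hv'))
    rw [h5]
    unfold aw
    rw [if_pos hq.1, if_pos hq.2]
    calc _ = (4 ^ M.card * (c - 1) ^ (E1 up EI X \ M).card) *
            (4 ^ P.card * (c - 1) ^ (E2 up EI X \ P).card) *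
            (psi dn VA c (η.Dp ∪ P) ∅ * psi dn VA c (η.Dm ∪ M) ∅) * f T P M := by ring
      _ = _ := by rw [← h6]; ring

end Crest.Agent.R144.HyC349
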