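import Crest.Agent.R144.It3_844

/-!
# R144, integer models: product law of the heights with iid coins (helper844)

* `coinC U κ` : configurations `c : P2 → K` equal to `κ` off the finite set `U`;
* `cw p U c = ∏ u ∈ U, p (c u)`, `ec p U κ f = ∑ c ∈ coinC U κ, cw p U c • f c` (`∑ k, p k = 1`):
  expectation for coins in `U`, with values in the finite type `K`, law `p`;
* `exc x p Λ τ U κ F = ex x Λ τ (fun h => ec p U κ (F h))` : the product law;
* linearity, monotonicity, congruence, constants, one coin (`ec_one`), insertion (`ec_insert`),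
  factorisation (`ec_mul_indep`), Fubini (`exc_swap`);
* `exc_tower_random` : exploration of heights and coins: random volumes `D h c ⊆ Λ`, `E h c ⊆ U`;
* `exc_fkg` (association of monotone functions of `(h, c)`, `K` any finite chain), `exc_fkg_anti`
  (increasing in `h`, decreasing in `c`), `exc_mono_bc`.
-/

set_option autoImplicit false
set_option linter.unusedSectionVars false
set_option linter.unusedVariables false

noncomputable section

namespace Crest.Agent.R144.It844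

open Finset MeasureTheory
open Crest.ProbabilityR.HexHeights (Adj)
open Crest.Agent.R161.Lsm375

/-! ### abstract form of the tower property -/

theorem part_tower {α V : Type*} [DecidableEq α] [AddCommGroup V] [Module ℝ V] (S : Finset α)
    (B : α → Finset α) (hsub : ∀ a ∈ S, B a ⊆ S) (hself : ∀ a ∈ S, a ∈ B a)
    (hsym : ∀ a ∈ S, ∀ b ∈ B a, B b = B a) (W : α → ℝ) (v : α → α → ℝ)
    (hv : ∀ a ∈ S, ∀ b ∈ B a, v b = v a) (hW : ∀ a ∈ S, ∀ b ∈ B a, W a * v a b = W b * v a a)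
    (hZ : ∀ a ∈ S, ∑ b ∈ B a, v a b ≠ 0) (f : α → V) :
    ∑ a ∈ S, W a • ((∑ b ∈ B a, v a b)⁻¹ • ∑ b ∈ B a, v a b • f b) = ∑ a ∈ S, W a • f a := by
  have e1 : ∀ a ∈ S, W a • ((∑ b ∈ B a, v a b)⁻¹ • ∑ b ∈ B a, v a b • f b) =
      ∑ b ∈ S, (if b ∈ B a then (W a * (∑ b ∈ B a, v a b)⁻¹ * v a b) • f b else 0) := by
    intro a ha
    rw [← Finset.sum_filter]
    have e2 : S.filter (fun b => b ∈ B a) = B a := by
      ext b
      simp only [Finset.mem_filter]
      exact ⟨fun h => h.2, fun h => ⟨hsub a ha h, h⟩⟩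
    rw [e2, Finset.smul_sum, Finset.smul_sum]
    refine Finset.sum_congr rfl fun b _ => ?_
    rw [smul_smul, smul_smul]
  rw [Finset.sum_congr rfl e1, Finset.sum_comm]
  refine Finset.sum_congr rfl fun b hb => ?_
  have e3 : ∀ a ∈ S, (if b ∈ B a then (W a * (∑ b ∈ B a, v a b)⁻¹ * v a b) • f b else 0) =
      (if a ∈ B b then (v b a * ((∑ a ∈ B b, v b a)⁻¹ * W b)) • f b else 0) := by
    intro a ha
    by_cases h1 : b ∈ B a
    · have h2 : a ∈ B b := by rw [hsym a ha b h1]; exact hself a ha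
      rw [if_pos h1, if_pos h2]
      congr 1
      rw [hsym a ha b h1, hv a ha b h1]
      have := hW a ha b h1
      calc W a * (∑ b ∈ B a, v a b)⁻¹ * v a b = (W a * v a b) * (∑ b ∈ B a, v a b)⁻¹ := by ring
        _ = _ := by rw [this]; ring
    · have h2 : a ∉ B b := by
        intro h2
        apply h1
        rw [hsym b hb a h2]
        exact hself b hb
      rw [if_neg h1, if_neg h2]
  rw [Finset.sum_congr rfl e3, ← Finset.sum_filter]
  have e4 : S.filter (fun a => a ∈ B b) = B b := by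
    ext a
    simp only [Finset.mem_filter]
    exact ⟨fun h => h.2, fun h => ⟨hsub b hb h, h⟩⟩
  rw [e4, ← Finset.sum_smul, ← Finset.sum_mul]
  congr 1
  rw [← mul_assoc, mul_inv_cancel₀ (hZ b hb), one_mul]

/-! ### coins -/

section coin
variable {K : Type*} [Fintype K] [DecidableEq K]

/-- extension of `b : U → K` by `κ` -/
def extK (U : Finset P2) (κ : P2 → K) (b : U → K) (u : P2) : K := if h : u ∈ U then b ⟨u, h⟩ else κ u

/-- coin configurations equal to `κ` off `U` -/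
def coinC (U : Finset P2) (κ : P2 → K) : Finset (P2 → K) :=
  haveI := Classical.decEq (P2 → K)
  Finset.univ.image (extK U κ)

@[simp] theorem mem_coinC {U : Finset P2} {κ c : P2 → K} :
    c ∈ coinC U κ ↔ ∀ u, u ∉ U → c u = κ u := by
  classical
  simp only [coinC, Finset.mem_image, Finset.mem_univ, true_and]
  constructor
  · rintro ⟨b, rfl⟩ u hu
    simp [extK, hu]
  · intro h
    refine ⟨fun u => c u, funext fun u => ?_⟩
    by_cases hu : u ∈ U
    · simp [extK, hu]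
    · simp [extK, hu, h u hu]

theorem extK_inj (U : Finset P2) (κ : P2 → K) : Function.Injective (extK U κ) := by
  intro a b h
  funext u
  have := congrFun h u
  simpa [extK] using this

theorem self_mem_coinC {U : Finset P2} {κ : P2 → K} : κ ∈ coinC U κ := mem_coinC.2 fun _ _ => rfl

theorem coinC_congr {U : Finset P2} {κ κ' : P2 → K} (h : ∀ u, u ∉ U → κ u = κ' u) :
    coinC U κ = coinC U κ' := by
  ext c
  simp only [mem_coinC]
  exact forall_congr' fun u => forall_congr' fun hu => by rw [h u hu]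

/-- weight of a coin configuration -/
def cw (p : K → ℝ) (U : Finset P2) (c : P2 → K) : ℝ := ∏ u ∈ U, p (c u)

theorem cw_nonneg {p : K → ℝ} (hp : ∀ k, 0 ≤ p k) (U : Finset P2) (c : P2 → K) : 0 ≤ cw p U c :=
  Finset.prod_nonneg fun _ _ => hp _

theorem sum_coinC {M : Type*} [AddCommMonoid M] (U : Finset P2) (κ : P2 → K) (Φ : (P2 → K) → M) :
    ∑ c ∈ coinC U κ, Φ c = ∑ b : U → K, Φ (extK U κ b) := by
  classical
  have : coinC U κ = Finset.univ.image (extK U κ) := by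
    ext c
    simp [coinC]
  rw [this, Finset.sum_image fun a _ b _ h => extK_inj U κ h]

theorem sum_cw {p : K → ℝ} (hp : ∑ k, p k = 1) (U : Finset P2) (κ : P2 → K) :
    ∑ c ∈ coinC U κ, cw p U c = 1 := by
  classical
  rw [sum_coinC]
  have e : ∀ b : U → K, cw p U (extK U κ b) = ∏ u : U, p (b u) := by
    intro b
    unfold cw
    rw [← Finset.prod_attach]
    exact Finset.prod_congr rfl fun u _ => by simp [extK]
  rw [Finset.sum_congr rfl fun b _ => e b]
  have := (Finset.prod_univ_sum (fun _ : U => (Finset.univ : Finset K)) (fun _ k => p k)).symm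
  rw [Fintype.piFinset_univ] at this
  rw [this]
  simp [hp]

/-- expectation over the coins in `U` -/
def ec {V : Type*} [AddCommGroup V] [Module ℝ V] (p : K → ℝ) (U : Finset P2) (κ : P2 → K)
    (f : (P2 → K) → V) : V := ∑ c ∈ coinC U κ, cw p U c • f c

section ec
variable {V : Type*} [AddCommGroup V] [Module ℝ V] {p : K → ℝ} {U : Finset P2} {κ : P2 → K}

theorem ec_congr {f g : (P2 → K) → V} (h : ∀ c ∈ coinC U κ, f c = g c) :
    ec p U κ f = ec p U κ g := Finset.sum_congr rfl fun c hc => by rw [h c hc]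

theorem ec_congr_bc {κ' : P2 → K} (h : ∀ u, u ∉ U → κ u = κ' u) (f : (P2 → K) → V) :
    ec p U κ f = ec p U κ' f := by
  unfold ec; rw [coinC_congr h]

theorem ec_add (f g : (P2 → K) → V) :
    ec p U κ (fun c => f c + g c) = ec p U κ f + ec p U κ g := by
  simp only [ec, smul_add, Finset.sum_add_distrib]

theorem ec_smul (r : ℝ) (f : (P2 → K) → V) :
    ec p U κ (fun c => r • f c) = r • ec p U κ f := by
  simp only [ec, smul_comm _ r, ← Finset.smul_sum]

theorem ec_sum {ι : Type*} (s : Finset ι) (f : ι → (P2 → K) → V) :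
    ec p U κ (fun c => ∑ i ∈ s, f i c) = ∑ i ∈ s, ec p U κ (f i) := by
  simp only [ec, Finset.smul_sum]
  rw [Finset.sum_comm]

theorem ec_const (hp : ∑ k, p k = 1) (v : V) : ec p U κ (fun _ => v) = v := by
  unfold ec
  rw [← Finset.sum_smul, sum_cw hp, one_smul]

theorem ec_nonneg (hp : ∀ k, 0 ≤ p k) {f : (P2 → K) → ℝ} (hf : ∀ c ∈ coinC U κ, 0 ≤ f c) :
    0 ≤ ec p U κ f :=
  Finset.sum_nonneg fun c hc => mul_nonneg (cw_nonneg hp _ _) (hf c hc)

theorem ec_mono (hp : ∀ k, 0 ≤ p k) {f g : (P2 → K) → ℝ} (hf : ∀ c ∈ coinC U κ, f c ≤ g c) :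
    ec p U κ f ≤ ec p U κ g :=
  Finset.sum_le_sum fun c hc => mul_le_mul_of_nonneg_left (hf c hc) (cw_nonneg hp _ _)

@[simp] theorem ec_empty (f : (P2 → K) → V) : ec p ∅ κ f = f κ := by
  unfold ec
  have : coinC (∅ : Finset P2) κ = {κ} := by
    ext c
    simp only [mem_coinC, Finset.notMem_empty, not_false_eq_true, forall_true_left,
      Finset.mem_singleton]
    exact ⟨fun h => funext h, fun h => by simp [h]⟩
  rw [this]
  simp [cw]

theorem coinC_sub {U' : Finset P2} (hs : U' ⊆ U) {c c' : P2 → K} (hc : c ∈ coinC U κ)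
    (hc' : c' ∈ coinC U' c) : c' ∈ coinC U κ := by
  rw [mem_coinC] at *
  exact fun u hu => (hc' u fun h => hu (hs h)).trans (hc u hu)

theorem cw_split {U' : Finset P2} (hs : U' ⊆ U) (c : P2 → K) :
    cw p U c = cw p U' c * cw p (U \ U') c := by
  unfold cw
  rw [mul_comm, Finset.prod_sdiff hs]

theorem cw_congr {c c' : P2 → K} (h : ∀ u ∈ U, c u = c' u) : cw p U c = cw p U c' :=
  Finset.prod_congr rfl fun u hu => by rw [h u hu]

/-- random exploration of coins -/
theorem ec_tower_random (hp : ∑ k, p k = 1) (E : (P2 → K) → Finset P2)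
    (hsub : ∀ c ∈ coinC U κ, E c ⊆ U) (hE : ∀ c ∈ coinC U κ, ∀ c' ∈ coinC (E c) c, E c' = E c)
    (f : (P2 → K) → V) :
    ec p U κ f = ec p U κ (fun c => ec p (E c) c f) := by
  classical
  have key := part_tower (coinC U κ) (fun c => coinC (E c) c)
    (fun a ha b hb => coinC_sub (hsub a ha) ha hb) (fun a _ => self_mem_coinC)
    (fun a ha b hb => by
      show coinC (E b) b = coinC (E a) a
      rw [hE a ha b hb]
      exact coinC_congr fun u hu => mem_coinC.1 hb u hu)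
    (fun c => cw p U c) (fun a c => cw p (E a) c)
    (fun a ha b hb => by
      show (fun c => cw p (E b) c) = fun c => cw p (E a) c
      rw [hE a ha b hb])
    (fun a ha b hb => by
      show cw p U a * cw p (E a) b = cw p U b * cw p (E a) a
      rw [cw_split (hsub a ha) a, cw_split (hsub a ha) b,
        cw_congr (U := U \ E a) (c := b) (c' := a) fun u hu =>
          mem_coinC.1 hb u (Finset.mem_sdiff.1 hu).2]
      ring)
    (fun a ha => by
      show ∑ b ∈ coinC (E a) a, cw p (E a) b ≠ 0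
      rw [sum_cw hp]; exact one_ne_zero) f
  unfold ec
  rw [← key]
  refine Finset.sum_congr rfl fun c hc => ?_
  rw [sum_cw hp, inv_one, one_smul]

theorem ec_tower (hp : ∑ k, p k = 1) {U' : Finset P2} (hs : U' ⊆ U) (f : (P2 → K) → V) :
    ec p U κ f = ec p U κ (fun c => ec p U' c f) :=
  ec_tower_random hp (fun _ => U') (fun _ _ => hs) (fun _ _ _ _ => rfl) f

/-- one coin -/
theorem ec_singleton (u : P2) (f : (P2 → K) → V) :
    ec p {u} κ f = ∑ k, p k • f (Function.update κ u k) := by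
  classical
  unfold ec
  symm
  refine Finset.sum_bij (fun k _ => Function.update κ u k) ?_ ?_ ?_ ?_
  · intro k _
    rw [mem_coinC]
    intro w hw
    rw [Finset.mem_singleton] at hw
    simp [Function.update_of_ne hw]
  · intro a _ b _ h
    have := congrFun h u
    simpa using this
  · intro c hc
    refine ⟨c u, Finset.mem_univ _, ?_⟩
    funext w
    by_cases hw : w = u
    · subst hw; simp
    · rw [Function.update_of_ne hw]
      exact (mem_coinC.1 hc w (by simpa using hw)).symm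
  · intro k _
    simp [cw]

/-- the law of one coin -/
theorem ec_one (hp : ∑ k, p k = 1) {u : P2} (hu : u ∈ U) (φ : K → V) :
    ec p U κ (fun c => φ (c u)) = ∑ k, p k • φ k := by
  rw [ec_tower hp (U' := {u}) (by simpa using hu)]
  have : ∀ c, ec p {u} c (fun c => φ (c u)) = ∑ k, p k • φ k := by
    intro c
    rw [ec_singleton]
    simp
  simp only [this]
  exact ec_const hp _

/-- restriction to the coins which matter -/
theorem ec_restrict (hp : ∑ k, p k = 1) {U' : Finset P2} (hs : U' ⊆ U) (f : (P2 → K) → V)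
    (hf : ∀ c c' : P2 → K, (∀ u ∈ U', c u = c' u) → (∀ u, u ∉ U → c u = c' u) → f c = f c') :
    ec p U κ f = ec p U' κ f := by
  classical
  rw [ec_tower hp (U' := U \ U') Finset.sdiff_subset]
  -- `f` does not depend on the coins in `U \ U'`
  have e : ∀ c ∈ coinC U κ, ec p (U \ U') c f = f c := by
    intro c _
    rw [ec_congr (g := fun _ => f c) fun c' hc' => hf c' c (fun u hu => ?_) fun u hu => ?_]
    · exact ec_const hp _
    · exact mem_coinC.1 hc' u fun h => (Finset.mem_sdiff.1 h).2 hu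
    · exact mem_coinC.1 hc' u fun h => hu (Finset.mem_sdiff.1 h).1
  rw [ec_congr e, ec_tower hp hs]
  -- the inner law does not depend on the outer coins
  have e2 : ∀ c ∈ coinC U κ, ec p U' c f = ec p U' κ f := by
    intro c hc
    unfold ec
    refine Finset.sum_nbij' (fun a w => if w ∈ U' then a w else κ w)
      (fun a w => if w ∈ U' then a w else c w) ?_ ?_ ?_ ?_ ?_
    · intro a _
      rw [mem_coinC]
      intro w hw
      simp [hw]
    · intro a _
      rw [mem_coinC]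
      intro w hw
      simp [hw]
    · intro a ha
      funext w
      by_cases hw : w ∈ U'
      · simp [hw]
      · simp only [if_neg hw]; exact (mem_coinC.1 ha w hw).symm
    · intro a ha
      funext w
      by_cases hw : w ∈ U'
      · simp [hw]
      · simp only [if_neg hw]; exact (mem_coinC.1 ha w hw).symm
    · intro a ha
      rw [cw_congr (U := U') (c' := a) (c := fun w => if w ∈ U' then a w else κ w)
        fun u hu => by simp [hu]]
      congr 1
      refine hf _ _ (fun u hu => by simp [hu]) fun u hu => ?_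
      have hu' : u ∉ U' := fun h => hu (hs h)
      rw [if_neg hu', mem_coinC.1 ha u hu', mem_coinC.1 hc u hu]
  rw [ec_congr e2, ec_const hp]

theorem ec_insert (hp : ∑ k, p k = 1) {u : P2} (hu : u ∉ U) (f : (P2 → K) → V) :
    ec p (insert u U) κ f = ∑ k, p k • ec p U (Function.update κ u k) f := by
  classical
  rw [ec_tower hp (U' := U) (Finset.subset_insert _ _)]
  rw [ec_restrict hp (U' := {u}) (by simp)]
  · rw [ec_singleton]
  · intro c c' h1 h2
    refine ec_congr_bc (fun w hw => ?_) f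
    by_cases hwu : w = u
    · subst hwu; exact h1 w (by simp)
    · exact h2 w (by simp [hwu, hw])

/-- independence -/
theorem ec_mul_indep (hp : ∑ k, p k = 1) (A : Finset P2) (f g : (P2 → K) → ℝ)
    (hf : ∀ c c' : P2 → K, (∀ u, u ∉ A → c u = c' u) → f c = f c')
    (hg : ∀ c c' : P2 → K, (∀ u, u ∉ U → c u = c' u) → (∀ u ∈ A, c u = c' u) → g c = g c') :
    ec p U κ (fun c => f c * g c) = ec p U κ f * ec p U κ g := by
  classical
  have hs : A ∩ U ⊆ U := Finset.inter_subset_right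
  rw [ec_tower hp hs (fun c => f c * g c)]
  have e : ∀ c ∈ coinC U κ, ec p (A ∩ U) c (fun c => f c * g c) = ec p U κ g * f c := by
    intro c hc
    have e1 : ∀ c' ∈ coinC (A ∩ U) c, f c' * g c' = f c • g c' := by
      intro c' hc'
      rw [smul_eq_mul, hf c' c fun u hu => mem_coinC.1 hc' u fun h => hu (Finset.mem_inter.1 h).1]
    rw [ec_congr e1, ec_smul, smul_eq_mul, mul_comm]
    congr 1
    -- the mean of g given the coins off A
    rw [← ec_restrict (U := U) (U' := A ∩ U) hp hs (κ := c) g, ]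
    · exact ec_congr_bc (fun u hu => mem_coinC.1 hc u hu) g
    · intro a b h1 h2
      refine hg a b h2 fun u hu => ?_
      by_cases hU : u ∈ U
      · exact h1 u (Finset.mem_inter.2 ⟨hu, hU⟩)
      · exact h2 u hU
  rw [ec_congr e]
  have := ec_smul (p := p) (U := U) (κ := κ) (ec p U κ g) f
  simp only [smul_eq_mul] at this
  rw [this, mul_comm]

end ec

/-! ### the product law -/

/-- expectation for the product law of heights in `Λ` and coins in `U` -/
def exc {V : Type*} [AddCommGroup V] [Module ℝ V] (x : ℝ) (p : K → ℝ) (Λ : Finset P2) (τ : P2 → ℤ)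
    (U : Finset P2) (κ : P2 → K) (F : (P2 → ℤ) → (P2 → K) → V) : V :=
  ex x Λ τ (fun h => ec p U κ (F h))

section exc
variable {V : Type*} [AddCommGroup V] [Module ℝ V] {x : ℝ} {p : K → ℝ} {Λ : Finset P2}
  {τ : P2 → ℤ} {U : Finset P2} {κ : P2 → K}

theorem exc_eq_sum (F : (P2 → ℤ) → (P2 → K) → V) :
    exc x p Λ τ U κ F =
      (Z x Λ τ)⁻¹ • ∑ a ∈ conf Λ τ ×ˢ coinC U κ, (wt x Λ a.1 * cw p U a.2) • F a.1 a.2 := by
  unfold exc ex ec
  congr 1
  rw [Finset.sum_product]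
  refine Finset.sum_congr rfl fun h _ => ?_
  rw [Finset.smul_sum]
  exact Finset.sum_congr rfl fun c _ => by rw [smul_smul]

theorem exc_swap (F : (P2 → ℤ) → (P2 → K) → V) :
    exc x p Λ τ U κ F = ec p U κ (fun c => ex x Λ τ (fun h => F h c)) := by
  unfold exc ex ec
  rw [Finset.smul_sum]
  simp only [Finset.smul_sum]
  rw [Finset.sum_comm]
  refine Finset.sum_congr rfl fun c _ => Finset.sum_congr rfl fun h _ => ?_
  rw [smul_smul, smul_smul, smul_smul, smul_smul]
  congr 1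
  ring

theorem exc_congr {F G : (P2 → ℤ) → (P2 → K) → V}
    (h : ∀ a ∈ conf Λ τ, ∀ c ∈ coinC U κ, F a c = G a c) :
    exc x p Λ τ U κ F = exc x p Λ τ U κ G :=
  ex_congr fun a ha => ec_congr fun c hc => h a ha c hc

theorem exc_add (F G : (P2 → ℤ) → (P2 → K) → V) :
    exc x p Λ τ U κ (fun h c => F h c + G h c) = exc x p Λ τ U κ F + exc x p Λ τ U κ G := by
  unfold exc
  simp only [ec_add, ex_add]

theorem exc_smul (r : ℝ) (F : (P2 → ℤ) → (P2 → K) → V) :
    exc x p Λ τ U κ (fun h c => r • F h c) = r • exc x p Λ τ U κ F := by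
  unfold exc
  simp only [ec_smul, ex_smul]

theorem exc_const (hx : 0 < x) (hτ : Lip τ) (hp : ∑ k, p k = 1) (v : V) :
    exc x p Λ τ U κ (fun _ _ => v) = v := by
  unfold exc
  simp only [ec_const hp]
  exact ex_const hx hτ v

/-- the marginal law of the heights -/
theorem exc_fst (hp : ∑ k, p k = 1) (f : (P2 → ℤ) → V) :
    exc x p Λ τ U κ (fun h _ => f h) = ex x Λ τ f := by
  unfold exc
  simp only [ec_const hp]

/-- the marginal law of the coins -/
theorem exc_snd (hx : 0 < x) (hτ : Lip τ) (f : (P2 → K) → V) :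
    exc x p Λ τ U κ (fun _ c => f c) = ec p U κ f := by
  unfold exc
  exact ex_const hx hτ _

theorem exc_nonneg (hp : ∀ k, 0 ≤ p k) {F : (P2 → ℤ) → (P2 → K) → ℝ}
    (hF : ∀ a ∈ conf Λ τ, ∀ c ∈ coinC U κ, 0 ≤ F a c) : 0 ≤ exc x p Λ τ U κ F :=
  ex_nonneg fun a ha => ec_nonneg hp fun c hc => hF a ha c hc

theorem exc_mono (hp : ∀ k, 0 ≤ p k) {F G : (P2 → ℤ) → (P2 → K) → ℝ}
    (hF : ∀ a ∈ conf Λ τ, ∀ c ∈ coinC U κ, F a c ≤ G a c) :
    exc x p Λ τ U κ F ≤ exc x p Λ τ U κ G :=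
  ex_mono fun a ha => ec_mono hp fun c hc => hF a ha c hc

/-- **exploration / Markov property**: reveal a random set of heights and coins -/
theorem exc_tower_random (hx : 0 < x) (hp : ∑ k, p k = 1)
    (D : (P2 → ℤ) → (P2 → K) → Finset P2) (E : (P2 → ℤ) → (P2 → K) → Finset P2)
    (hDs : ∀ h ∈ conf Λ τ, ∀ c ∈ coinC U κ, D h c ⊆ Λ)
    (hEs : ∀ h ∈ conf Λ τ, ∀ c ∈ coinC U κ, E h c ⊆ U)
    (hDE : ∀ h ∈ conf Λ τ, ∀ c ∈ coinC U κ, ∀ h' ∈ conf (D h c) h, ∀ c' ∈ coinC (E h c) c,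
      D h' c' = D h c ∧ E h' c' = E h c) (F : (P2 → ℤ) → (P2 → K) → V) :
    exc x p Λ τ U κ F =
      exc x p Λ τ U κ (fun h c => exc x p (D h c) h (E h c) c F) := by
  classical
  have key := part_tower (conf Λ τ ×ˢ coinC U κ)
    (fun a => conf (D a.1 a.2) a.1 ×ˢ coinC (E a.1 a.2) a.2)
    (fun a ha b hb => by
      rw [Finset.mem_product] at *
      exact ⟨conf_sub (hDs _ ha.1 _ ha.2) ha.1 hb.1, coinC_sub (hEs _ ha.1 _ ha.2) ha.2 hb.2⟩)
    (fun a ha => by
      rw [Finset.mem_product] at *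
      exact ⟨self_mem_conf (mem_conf.1 ha.1).1, self_mem_coinC⟩)
    (fun a ha b hb => by
      rw [Finset.mem_product] at ha hb
      obtain ⟨h1, h2⟩ := hDE _ ha.1 _ ha.2 _ hb.1 _ hb.2
      show conf (D b.1 b.2) b.1 ×ˢ coinC (E b.1 b.2) b.2 = _
      rw [h1, h2, conf_congr fun v hv => (mem_conf.1 hb.1).2 v hv,
        coinC_congr fun u hu => mem_coinC.1 hb.2 u hu])
    (fun a => wt x Λ a.1 * cw p U a.2)
    (fun a b => wt x (D a.1 a.2) b.1 * cw p (E a.1 a.2) b.2)
    (fun a ha b hb => by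
      rw [Finset.mem_product] at ha hb
      obtain ⟨h1, h2⟩ := hDE _ ha.1 _ ha.2 _ hb.1 _ hb.2
      show (fun d : (P2 → ℤ) × (P2 → K) => wt x (D b.1 b.2) d.1 * cw p (E b.1 b.2) d.2) = _
      rw [h1, h2])
    (fun a ha b hb => by
      rw [Finset.mem_product] at ha hb
      show wt x Λ a.1 * cw p U a.2 * (wt x (D a.1 a.2) b.1 * cw p (E a.1 a.2) b.2) =
        wt x Λ b.1 * cw p U b.2 * (wt x (D a.1 a.2) a.1 * cw p (E a.1 a.2) a.2)
      rw [wt_split x (hDs _ ha.1 _ ha.2) a.1, wt_split x (hDs _ ha.1 _ ha.2) b.1,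
        outW_congr x (g := b.1) (h := a.1) fun v hv => (mem_conf.1 hb.1).2 v hv,
        cw_split (hEs _ ha.1 _ ha.2) a.2, cw_split (hEs _ ha.1 _ ha.2) b.2,
        cw_congr (U := U \ E a.1 a.2) (c := b.2) (c' := a.2) fun u hu =>
          mem_coinC.1 hb.2 u (Finset.mem_sdiff.1 hu).2]
      ring)
    (fun a ha => by
      rw [Finset.mem_product] at ha
      show ∑ b ∈ conf (D a.1 a.2) a.1 ×ˢ coinC (E a.1 a.2) a.2,
        wt x (D a.1 a.2) b.1 * cw p (E a.1 a.2) b.2 ≠ 0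
      rw [Finset.sum_product]
      simp only [← Finset.mul_sum]
      simp only [sum_cw hp, mul_one]
      exact (Z_pos hx (mem_conf.1 ha.1).1).ne')
    (fun a => F a.1 a.2)
  rw [exc_eq_sum, exc_eq_sum, ← key]
  congr 1
  refine Finset.sum_congr rfl fun a ha => ?_
  rw [Finset.mem_product] at ha
  congr 1
  rw [exc_eq_sum]
  congr 1
  rw [Finset.sum_product]
  simp only [← Finset.mul_sum]
  simp only [sum_cw hp, mul_one]
  rfl

/-- fixed volumes -/
theorem exc_tower (hx : 0 < x) (hp : ∑ k, p k = 1) {Λ' U' : Finset P2} (hΛ : Λ' ⊆ Λ)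
    (hU : U' ⊆ U) (F : (P2 → ℤ) → (P2 → K) → V) :
    exc x p Λ τ U κ F = exc x p Λ τ U κ (fun h c => exc x p Λ' h U' c F) :=
  exc_tower_random hx hp (fun _ _ => Λ') (fun _ _ => U') (fun _ _ _ _ => hΛ) (fun _ _ _ _ => hU)
    (fun _ _ _ _ _ _ _ _ => ⟨rfl, rfl⟩) F

/-- with a factor which is measurable with respect to the revealed part -/
theorem exc_tower_smul (hx : 0 < x) (hp : ∑ k, p k = 1)
    (D : (P2 → ℤ) → (P2 → K) → Finset P2) (E : (P2 → ℤ) → (P2 → K) → Finset P2)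
    (hDs : ∀ h ∈ conf Λ τ, ∀ c ∈ coinC U κ, D h c ⊆ Λ)
    (hEs : ∀ h ∈ conf Λ τ, ∀ c ∈ coinC U κ, E h c ⊆ U)
    (hDE : ∀ h ∈ conf Λ τ, ∀ c ∈ coinC U κ, ∀ h' ∈ conf (D h c) h, ∀ c' ∈ coinC (E h c) c,
      D h' c' = D h c ∧ E h' c' = E h c)
    (φ : (P2 → ℤ) → (P2 → K) → ℝ)
    (hφ : ∀ h ∈ conf Λ τ, ∀ c ∈ coinC U κ, ∀ h' ∈ conf (D h c) h, ∀ c' ∈ coinC (E h c) c,
      φ h' c' = φ h c) (F : (P2 → ℤ) → (P2 → K) → V) :
    exc x p Λ τ U κ (fun h c => φ h c • F h c) =
      exc x p Λ τ U κ (fun h c => φ h c • exc x p (D h c) h (E h c) c F) := by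
  rw [exc_tower_random hx hp D E hDs hEs hDE]
  refine exc_congr fun h hh c hc => ?_
  rw [← exc_smul]
  exact exc_congr fun h' hh' c' hc' => by rw [hφ h hh c hc h' hh' c' hc']

end exc

end coin

/-! ### association -/

section fkg
variable {K : Type*} [Fintype K] [LinearOrder K]

theorem lsm_coin {p : K → ℝ} (hp : ∀ k, 0 ≤ p k) (u : P2) : LSM (fun c : P2 → K => p (c u)) :=
  (LSM.linear hp).comp (fun c : P2 → K => c u) (fun _ _ => rfl) (fun _ _ => rfl)

theorem lsm_cw {p : K → ℝ} (hp : ∀ k, 0 ≤ p k) (U : Finset P2) : LSM (fun c : P2 → K => cw p U c) :=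
  LSM.prod _ fun u _ => lsm_coin hp u

theorem lsm_joint {x : ℝ} (hx0 : 0 ≤ x) (hx1 : x ≤ 1) {p : K → ℝ} (hp : ∀ k, 0 ≤ p k)
    (Λ U : Finset P2) : LSM (fun a : (P2 → ℤ) × (P2 → K) => WL x Λ a.1 * cw p U a.2) :=
  ((lsm_WL hx0 hx1 Λ).comp Prod.fst (fun _ _ => rfl) (fun _ _ => rfl)).mul
    ((lsm_cw hp U).comp Prod.snd (fun _ _ => rfl) (fun _ _ => rfl))

theorem coinC_inf_sup {U : Finset P2} {κ a b : P2 → K} (ha : a ∈ coinC U κ) (hb : b ∈ coinC U κ) :
    a ⊓ b ∈ coinC U κ ∧ a ⊔ b ∈ coinC U κ := by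
  rw [mem_coinC] at ha hb
  refine ⟨mem_coinC.2 fun u hu => ?_, mem_coinC.2 fun u hu => ?_⟩
  · simp [ha u hu, hb u hu]
  · simp [ha u hu, hb u hu]

theorem exc_real_eq {x : ℝ} {p : K → ℝ} {Λ : Finset P2} {τ : P2 → ℤ} {U : Finset P2} {κ : P2 → K}
    (F : (P2 → ℤ) → (P2 → K) → ℝ) :
    exc x p Λ τ U κ F = (Z x Λ τ)⁻¹ *
      ∑ a ∈ conf Λ τ ×ˢ coinC U κ, (WL x Λ a.1 * cw p U a.2) * F a.1 a.2 := by
  rw [exc_eq_sum, smul_eq_mul]
  congr 1
  refine Finset.sum_congr rfl fun a ha => ?_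
  rw [Finset.mem_product] at ha
  rw [WL_eq_wt x Λ (mem_conf.1 ha.1).1, smul_eq_mul]

theorem sum_joint {x : ℝ} {p : K → ℝ} (hp : ∑ k, p k = 1) (Λ : Finset P2) (τ : P2 → ℤ)
    (U : Finset P2) (κ : P2 → K) :
    ∑ a ∈ conf Λ τ ×ˢ coinC U κ, (WL x Λ a.1 * cw p U a.2) = Z x Λ τ := by
  rw [Finset.sum_product, Z_eq_WL]
  refine Finset.sum_congr rfl fun h _ => ?_
  simp only
  rw [← Finset.mul_sum, sum_cw hp, mul_one]

/-- **association of heights and coins** -/
theorem exc_fkg {x : ℝ} (hx0 : 0 < x) (hx1 : x ≤ 1) {p : K → ℝ} (hp0 : ∀ k, 0 ≤ p k)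
    (hp : ∑ k, p k = 1) {Λ : Finset P2} {τ : P2 → ℤ} (hτ : Lip τ) {U : Finset P2} {κ : P2 → K}
    {F G : (P2 → ℤ) → (P2 → K) → ℝ}
    (hF : ∀ h ∈ conf Λ τ, ∀ h' ∈ conf Λ τ, h ≤ h' → ∀ c ∈ coinC U κ, ∀ c' ∈ coinC U κ, c ≤ c' →
      F h c ≤ F h' c')
    (hG : ∀ h ∈ conf Λ τ, ∀ h' ∈ conf Λ τ, h ≤ h' → ∀ c ∈ coinC U κ, ∀ c' ∈ coinC U κ, c ≤ c' →
      G h c ≤ G h' c') :
    exc x p Λ τ U κ F * exc x p Λ τ U κ G ≤ exc x p Λ τ U κ (fun h c => F h c * G h c) := by
  classical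
  have key := (lsm_joint hx0.le hx1 hp0 Λ U).fkg (conf Λ τ ×ˢ coinC U κ)
    (fun a ha b hb => by
      rw [Finset.mem_product] at ha hb
      rw [Finset.mem_product, Finset.mem_product]
      have h1 := conf_inf_sup ha.1 hb.1
      have h2 := coinC_inf_sup ha.2 hb.2
      exact ⟨⟨h1.1, h2.1⟩, ⟨h1.2, h2.2⟩⟩)
    (f := fun a => F a.1 a.2) (g := fun a => G a.1 a.2)
    (fun a ha b hb hab => by
      rw [Finset.mem_product] at ha hb
      exact hF _ ha.1 _ hb.1 hab.1 _ ha.2 _ hb.2 hab.2)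
    (fun a ha b hb hab => by
      rw [Finset.mem_product] at ha hb
      exact hG _ ha.1 _ hb.1 hab.1 _ ha.2 _ hb.2 hab.2)
  rw [sum_joint hp] at key
  rw [exc_real_eq, exc_real_eq, exc_real_eq]
  have hZ := Z_pos hx0 hτ (Λ := Λ)
  rw [inv_mul_eq_div, inv_mul_eq_div, inv_mul_eq_div, div_mul_div_comm,
    div_le_div_iff₀ (by positivity) hZ]
  nlinarith [key, hZ]

/-- Holley / Ahlswede–Daykin comparison, any distributive lattice -/
theorem holley_sum' {α : Type*} [DistribLattice α] {μ : α → ℝ} (hμ : LSM μ) (A B : Finset α)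
    (hAB : ∀ a ∈ A, ∀ b ∈ B, a ⊓ b ∈ A ∧ a ⊔ b ∈ B) {f : α → ℝ}
    (hf : ∀ a ∈ A, ∀ b ∈ B, a ≤ b → f a ≤ f b) :
    (∑ a ∈ A, μ a * f a) * (∑ b ∈ B, μ b) ≤ (∑ a ∈ A, μ a) * ∑ b ∈ B, μ b * f b := by
  classical
  obtain ⟨m, hm⟩ : ∃ m : ℝ, (∀ a ∈ A, 0 ≤ f a + m) ∧ ∀ b ∈ B, 0 ≤ f b + m := by
    refine ⟨∑ a ∈ A ∪ B, |f a|, fun a ha => ?_, fun a ha => ?_⟩
    · have h1 : |f a| ≤ ∑ a ∈ A ∪ B, |f a| :=
        Finset.single_le_sum (f := fun a => |f a|) (fun b _ => abs_nonneg _)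
          (Finset.mem_union_left B ha)
      have h2 := neg_abs_le (f a)
      linarith
    · have h1 : |f a| ≤ ∑ a ∈ A ∪ B, |f a| :=
        Finset.single_le_sum (f := fun a => |f a|) (fun b _ => abs_nonneg _)
          (Finset.mem_union_right A ha)
      have h2 := neg_abs_le (f a)
      linarith
  set ιA : α → ℝ := fun a => if a ∈ A then 1 else 0
  set ιB : α → ℝ := fun a => if a ∈ B then 1 else 0
  have nA : ∀ a, 0 ≤ ιA a * (μ a * (f a + m)) := fun a => by
    by_cases h : a ∈ A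
    · simpa [ιA, h] using mul_nonneg (hμ.1 a) (hm.1 a h)
    · simp [ιA, h]
  have nB : ∀ a, 0 ≤ ιB a * μ a := fun a => by
    by_cases h : a ∈ B
    · simpa [ιB, h] using hμ.1 a
    · simp [ιB, h]
  have nA' : ∀ a, 0 ≤ ιA a * μ a := fun a => by
    by_cases h : a ∈ A
    · simpa [ιA, h] using hμ.1 a
    · simp [ιA, h]
  have nB' : ∀ a, 0 ≤ ιB a * (μ a * (f a + m)) := fun a => by
    by_cases h : a ∈ B
    · simpa [ιB, h] using mul_nonneg (hμ.1 a) (hm.2 a h)
    · simp [ιB, h]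
  have key := four_functions_theorem (α := α) (β := ℝ)
    (fun a => ιA a * (μ a * (f a + m))) (fun b => ιB b * μ b)
    (fun a => ιA a * μ a) (fun b => ιB b * (μ b * (f b + m)))
    nA nB nA' nB'
    (fun a b => by
      by_cases ha : a ∈ A
      · by_cases hb : b ∈ B
        · obtain ⟨h1, h2⟩ := hAB a ha b hb
          simp only [ιA, ιB, ha, hb, h1, h2, if_true, one_mul]
          have e1 : f a + m ≤ f (a ⊔ b) + m := by
            have := hf a ha _ h2 le_sup_left
            linarith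
          calc μ a * (f a + m) * μ b = (μ a * μ b) * (f a + m) := by ring
            _ ≤ (μ (a ⊓ b) * μ (a ⊔ b)) * (f (a ⊔ b) + m) :=
                mul_le_mul (hμ.2 a b) e1 (hm.1 a ha) (mul_nonneg (hμ.1 _) (hμ.1 _))
            _ = _ := by ring
        · simp only [ιB, hb, if_false, zero_mul, mul_zero]
          exact mul_nonneg (nA' _) (nB' _)
      · simp only [ιA, ha, if_false, zero_mul]
        exact mul_nonneg (nA' _) (nB' _))
    A B
  have e : ∀ (C : Finset α) (φ : α → ℝ),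
      ∑ a ∈ C, (if a ∈ C then (1 : ℝ) else 0) * φ a = ∑ a ∈ C, φ a := fun C φ =>
    Finset.sum_congr rfl fun a ha => by simp [ha]
  have e1 : ∀ (C D : Finset α) (φ : α → ℝ), (∀ a ∈ C, 0 ≤ φ a) →
      ∑ a ∈ D, (if a ∈ C then (1 : ℝ) else 0) * φ a ≤ ∑ a ∈ C, φ a := by
    intro C D φ hφ
    calc ∑ a ∈ D, (if a ∈ C then (1 : ℝ) else 0) * φ a = ∑ a ∈ D ∩ C, φ a := by
          rw [← Finset.filter_mem_eq_inter, Finset.sum_filter]
          exact Finset.sum_congr rfl fun a _ => by split_ifs <;> simp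
      _ ≤ _ := Finset.sum_le_sum_of_subset_of_nonneg Finset.inter_subset_right
          fun a ha _ => hφ a ha
  rw [e A, e B] at key
  have key2 : (∑ a ∈ A, μ a * (f a + m)) * (∑ b ∈ B, μ b) ≤
      (∑ a ∈ A, μ a) * ∑ b ∈ B, μ b * (f b + m) := by
    refine key.trans (mul_le_mul (e1 A _ _ fun a _ => hμ.1 a)
      (e1 B _ _ fun a ha => mul_nonneg (hμ.1 a) (hm.2 a ha)) ?_ ?_)
    · exact Finset.sum_nonneg fun a _ => nB' a
    · exact Finset.sum_nonneg fun a _ => hμ.1 a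
  have s1 : ∀ C : Finset α, ∑ a ∈ C, μ a * (f a + m) = ∑ a ∈ C, μ a * f a + m * ∑ a ∈ C, μ a := by
    intro C
    rw [Finset.mul_sum, ← Finset.sum_add_distrib]
    exact Finset.sum_congr rfl fun a _ => by ring
  rw [s1, s1] at key2
  nlinarith [key2]

/-- monotonicity in the boundary conditions, heights and coins -/
theorem exc_mono_bc {x : ℝ} (hx0 : 0 < x) (hx1 : x ≤ 1) {p : K → ℝ} (hp0 : ∀ k, 0 ≤ p k)
    (hp : ∑ k, p k = 1) {Λ : Finset P2} {τ τ' : P2 → ℤ} (hτ : Lip τ) (hτ' : Lip τ')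
    (hle : ∀ v, v ∉ Λ → τ v ≤ τ' v) {U : Finset P2} {κ κ' : P2 → K}
    (hκ : ∀ u, u ∉ U → κ u ≤ κ' u) {F : (P2 → ℤ) → (P2 → K) → ℝ}
    (hF : ∀ h ∈ conf Λ τ, ∀ h' ∈ conf Λ τ', h ≤ h' → ∀ c ∈ coinC U κ, ∀ c' ∈ coinC U κ', c ≤ c' →
      F h c ≤ F h' c') :
    exc x p Λ τ U κ F ≤ exc x p Λ τ' U κ' F := by
  classical
  have key := holley_sum' (lsm_joint hx0.le hx1 hp0 Λ U) (conf Λ τ ×ˢ coinC U κ)
    (conf Λ τ' ×ˢ coinC U κ')
    (fun a ha b hb => by
      rw [Finset.mem_product] at ha hb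
      rw [Finset.mem_product, Finset.mem_product]
      obtain ⟨ha1, ha2⟩ := ha
      obtain ⟨hb1, hb2⟩ := hb
      rw [mem_conf] at ha1 hb1
      rw [mem_coinC] at ha2 hb2
      refine ⟨⟨mem_conf.2 ⟨ha1.1.inf hb1.1, fun v hv => ?_⟩, mem_coinC.2 fun u hu => ?_⟩,
        ⟨mem_conf.2 ⟨ha1.1.sup hb1.1, fun v hv => ?_⟩, mem_coinC.2 fun u hu => ?_⟩⟩
      · show (a.1 ⊓ b.1) v = _
        simp only [Pi.inf_apply, ha1.2 v hv, hb1.2 v hv]
        exact min_eq_left (hle v hv)
      · show (a.2 ⊓ b.2) u = _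
        simp only [Pi.inf_apply, ha2 u hu, hb2 u hu]
        exact inf_eq_left.2 (hκ u hu)
      · show (a.1 ⊔ b.1) v = _
        simp only [Pi.sup_apply, ha1.2 v hv, hb1.2 v hv]
        exact max_eq_right (hle v hv)
      · show (a.2 ⊔ b.2) u = _
        simp only [Pi.sup_apply, ha2 u hu, hb2 u hu]
        exact sup_eq_right.2 (hκ u hu))
    (f := fun a => F a.1 a.2)
    (fun a ha b hb hab => by
      rw [Finset.mem_product] at ha hb
      exact hF _ ha.1 _ hb.1 hab.1 _ ha.2 _ hb.2 hab.2)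
  rw [sum_joint hp, sum_joint hp] at key
  have p1 := Z_pos hx0 hτ (Λ := Λ)
  have p2 := Z_pos hx0 hτ' (Λ := Λ)
  rw [exc_real_eq, exc_real_eq, inv_mul_eq_div, inv_mul_eq_div, div_le_div_iff₀ p1 p2]
  linarith

/-- coins with the opposite order -/
theorem exc_dual {V : Type*} [AddCommGroup V] [Module ℝ V] (x : ℝ) (p : K → ℝ) (Λ : Finset P2)
    (τ : P2 → ℤ) (U : Finset P2) (κ : P2 → K) (F : (P2 → ℤ) → (P2 → K) → V) :
    exc (K := Kᵒᵈ) x (fun k => p (OrderDual.ofDual k)) Λ τ U (fun u => OrderDual.toDual (κ u))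
      (fun h c => F h (fun u => OrderDual.ofDual (c u))) = exc x p Λ τ U κ F := rfl

/-- **association, increasing in the heights and decreasing in the coins** -/
theorem exc_fkg_anti {x : ℝ} (hx0 : 0 < x) (hx1 : x ≤ 1) {p : K → ℝ} (hp0 : ∀ k, 0 ≤ p k)
    (hp : ∑ k, p k = 1) {Λ : Finset P2} {τ : P2 → ℤ} (hτ : Lip τ) {U : Finset P2} {κ : P2 → K}
    {F G : (P2 → ℤ) → (P2 → K) → ℝ}
    (hF : ∀ h ∈ conf Λ τ, ∀ h' ∈ conf Λ τ, h ≤ h' → ∀ c ∈ coinC U κ, ∀ c' ∈ coinC U κ, c' ≤ c →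
      F h c ≤ F h' c')
    (hG : ∀ h ∈ conf Λ τ, ∀ h' ∈ conf Λ τ, h ≤ h' → ∀ c ∈ coinC U κ, ∀ c' ∈ coinC U κ, c' ≤ c →
      G h c ≤ G h' c') :
    exc x p Λ τ U κ F * exc x p Λ τ U κ G ≤ exc x p Λ τ U κ (fun h c => F h c * G h c) :=
  exc_fkg (K := Kᵒᵈ) (p := fun k => p (OrderDual.ofDual k))
    (κ := fun u => OrderDual.toDual (κ u)) hx0 hx1 (fun k => hp0 _) hp hτ
    (F := fun h c => F h (fun u => OrderDual.ofDual (c u)))
    (G := fun h c => G h (fun u => OrderDual.ofDual (c u)))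
    (fun h hh h' hh' hle c hc c' hc' hcc => hF h hh h' hh' hle _
      (mem_coinC.2 fun u hu => mem_coinC.1 hc u hu) _
      (mem_coinC.2 fun u hu => mem_coinC.1 hc' u hu) fun u => hcc u)
    (fun h hh h' hh' hle c hc c' hc' hcc => hG h hh h' hh' hle _
      (mem_coinC.2 fun u hu => mem_coinC.1 hc u hu) _
      (mem_coinC.2 fun u hu => mem_coinC.1 hc' u hu) fun u => hcc u)

end fkg

end Crest.Agent.R144.It844
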