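import Mathlib
import Crest.Agent.R144.TorE_95
import Crest.Agent.R144.Cw10_643
import Crest.Agent.R144.Con3_549
import Crest.Agent.R144.Skel98_144

/-!
# R144 (S0197), helper761, KAP-END: the constant of the lower bound is at most `2/π`

* `exists_psi`: a test function with positive Dirichlet energy;
* `le_of_low`: `Two V`, `V (1,0) ≤ 1/3` and `CV V b_n b_n ≥ l ∫ |∇ψ|² - ε` (frequently, for every
  test function, some admissible family `b_n`) imply `l ≤ π/(3√3) < 2/π`;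
* `FieldQ`, `FieldT`: Stein fields for the hammock law of a finite connected graph pinned at `o`,
  and for tori; `FieldQ.le_ex`, `FieldT.le_CV`: the variance lower bound;
* `kap_tori`: from the torus fields and local convergence of the torus variograms.
-/

set_option autoImplicit false
set_option linter.unusedSectionVars false

open MeasureTheory Set Function Filter Topology
open scoped ENNReal NNReal Real ContDiff Laplacian

noncomputable section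

namespace Crest.Agent.R144.KapE761

open Crest.Agent.R144.Tor95
open Crest.Agent.R144.Ham560 (ext ham hamP Anch)
open Crest.Agent.R144.Cw643 (CV Near Wt Lim2 lim2)
open Crest.Agent.R144.Con549 (IsTest energy_eq)
open Crest.Agent.R144.Tp952 (Two)
open Crest.Agent.R144.Skel144 (cramer_rao_trace integral_unif)

/-! ### the number -/

theorem const_lt : π / Real.sqrt 3 * (1 / 3) < 2 / π := by
  have hπ := Real.pi_pos
  have h3 : (0 : ℝ) < Real.sqrt 3 := by positivity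
  have h1 : π < 3.15 := Real.pi_lt_d2
  have h2 : (1.7 : ℝ) < Real.sqrt 3 := by
    rw [show (1.7 : ℝ) = Real.sqrt (1.7 ^ 2) by rw [Real.sqrt_sq]; norm_num]
    exact Real.sqrt_lt_sqrt (by norm_num) (by norm_num)
  rw [div_mul_div_comm, mul_one, div_lt_div_iff₀ (by positivity) hπ]
  nlinarith

/-! ### a test function -/

theorem exists_psi : ∃ ψ : ℂ → ℝ, ContDiff ℝ ∞ ψ ∧ HasCompactSupport ψ ∧
    0 < ∫ z, ‖fderiv ℝ ψ z‖ ^ 2 := by
  let B : ContDiffBump (0 : ℂ) := ⟨1, 2, one_pos, one_lt_two⟩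
  have hc : ContDiff ℝ ∞ (B : ℂ → ℝ) := B.contDiff
  have hs : HasCompactSupport (B : ℂ → ℝ) := B.hasCompactSupport
  refine ⟨B, hc, hs, ?_⟩
  have ht : IsTest univ (B : ℂ → ℝ) := ⟨hc, hs, subset_univ _⟩
  have hcont := Con549.continuous_fderiv_norm_sq ht
  have hint := Con549.integrable_energy ht
  have hnn : 0 ≤ ∫ z, ‖fderiv ℝ (B : ℂ → ℝ) z‖ ^ 2 := integral_nonneg fun z => by positivity
  refine lt_of_le_of_ne hnn fun h0 => ?_
  -- the derivative vanishes everywhere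
  have h1 : (fun z => ‖fderiv ℝ (B : ℂ → ℝ) z‖ ^ 2) =ᵐ[volume] 0 :=
    (integral_eq_zero_iff_of_nonneg (fun z => by positivity) hint).1 h0.symm
  have h2 : (fun z => ‖fderiv ℝ (B : ℂ → ℝ) z‖ ^ 2) = 0 :=
    hcont.ae_eq_iff_eq volume continuous_zero |>.1 h1
  have h3 : ∀ z, fderiv ℝ (B : ℂ → ℝ) z = 0 := by
    intro z
    have := congrFun h2 z
    simpa using this
  have h4 := is_const_of_fderiv_eq_zero (hc.differentiable (by simp)) h3 0 3
  have h5 : (B : ℂ → ℝ) 0 = 1 := B.one_of_mem_closedBall (by simp [B])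
  have h6 : (B : ℂ → ℝ) 3 = 0 := B.zero_of_le_dist (by
    simp only [dist_zero_right, B]
    norm_num)
  rw [h5, h6] at h4
  exact one_ne_zero h4

/-! ### the plane part -/

/-- the lower bound at the level of the variogram, for one test function -/
def LowV (V : ℤ × ℤ → ℝ) (l : ℝ) (ψ : ℂ → ℝ) : Prop :=
  ∃ (δ : ℕ → ℝ) (b : ℕ → ℤ × ℤ → ℝ) (s : ℕ → Finset (ℤ × ℤ)),
    (∀ n, 0 < δ n) ∧ Tendsto δ atTop (𝓝 0) ∧ Near δ b (fun z => -(Δ ψ) z) ∧
    (∀ᶠ n in atTop, Wt (s n) (b n)) ∧ ∀ ε : ℝ, 0 < ε → ∃ᶠ n in atTop,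
      l * (∫ z, ‖fderiv ℝ ψ z‖ ^ 2) - ε ≤ CV V (s n) (b n) (s n) (b n)

theorem LowV.le {V : ℤ × ℤ → ℝ} {κ l : ℝ} {ψ : ℂ → ℝ} (hκ : Lim2 V κ) (hψ : ContDiff ℝ ∞ ψ)
    (hc : HasCompactSupport ψ) (h : LowV V l ψ) :
    l * (∫ z, ‖fderiv ℝ ψ z‖ ^ 2) ≤ κ * ∫ z, ‖fderiv ℝ ψ z‖ ^ 2 := by
  obtain ⟨δ, b, s, hδ, hδ0, hb, hw, hl⟩ := h
  have ht : IsTest univ ψ := ⟨hψ, hc, subset_univ _⟩
  have h1 := hκ.lim δ ψ (fun z => -(Δ ψ) z) b b s s hδ hδ0 hψ hc
    (Cw643.continuous_lap hψ).neg (Cw643.hasCompactSupport_lap hc).neg hb hb hw hw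
  rw [energy_eq ht] at h1
  refine le_of_forall_pos_le_add fun ε hε => ?_
  refine le_of_forall_pos_le_add fun ε' hε' => ?_
  have h2 := (hl ε hε).and_eventually
    (h1.eventually (eventually_le_nhds (lt_add_of_pos_right _ hε')))
  obtain ⟨n, h3, h4⟩ := h2.exists
  linarith

/-- **the constant of the lower bound**, plane part -/
theorem le_of_low {V : ℤ × ℤ → ℝ} (hV : Two V) (h13 : V (1, 0) ≤ 1 / 3) {l : ℝ}
    (hlow : ∀ ψ : ℂ → ℝ, ContDiff ℝ ∞ ψ → HasCompactSupport ψ → LowV V l ψ) :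
    l ≤ π / Real.sqrt 3 * (1 / 3) ∧ l < 2 / π := by
  obtain ⟨κ, hκ, h1, -⟩ := lim2 hV
  obtain ⟨ψ, hψ, hc, hp⟩ := exists_psi
  have h2 := (hlow ψ hψ hc).le hκ hψ hc
  have h3 : l ≤ κ := le_of_mul_le_mul_right h2 hp
  have h4 : κ ≤ π / Real.sqrt 3 * (1 / 3) := h1.trans (by gcongr)
  exact ⟨h3.trans h4, (h3.trans h4).trans_lt const_lt⟩

/-! ### Stein fields on finite connected graphs -/

section graph

variable {Q : Type*} [Fintype Q] [DecidableEq Q]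

/-- the linear statistic, on the free coordinates of the law pinned at `o` -/
def XQ (o : Q) (w : Q → ℝ) : (↥(Finset.univ.erase o : Finset Q) → ℝ) → ℝ :=
  fun x => ∑ q, w q * ext (Finset.univ.erase o) 0 x q

/-- a Stein field for the hammock law on the graph `R` pinned at `o` -/
def FieldQ (R : Q → Q → Prop) (o : Q) (w : Q → ℝ) (v ε : ℝ) : Prop :=
  ∃ (Y : (↥(Finset.univ.erase o : Finset Q) → ℝ) → (↥(Finset.univ.erase o : Finset Q) → ℝ))
    (c : ℝ≥0) (t0 : ℝ),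
    MW121.Tan (ham (Finset.univ.erase o) (edg R) 0) Y c t0 ∧
    ∫ x, (MW121.jac Y x * MW121.jac Y x).trace ∂(hamP (Finset.univ.erase o) (edg R) 0) ≤ v + ε ∧
    ∫ x, |XQ o w (Y x) - v| ∂(hamP (Finset.univ.erase o) (edg R) 0) ≤ ε

theorem ext_add (o : Q) (x y : ↥(Finset.univ.erase o : Finset Q) → ℝ) (q : Q) :
    ext (Finset.univ.erase o) 0 (x + y) q =
      ext (Finset.univ.erase o) 0 x q + ext (Finset.univ.erase o) 0 y q := by
  by_cases h : q ∈ (Finset.univ.erase o : Finset Q)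
  · rw [Ham560.ext_mem h, Ham560.ext_mem h, Ham560.ext_mem h]; rfl
  · rw [Ham560.ext_notMem h, Ham560.ext_notMem h, Ham560.ext_notMem h]; simp

theorem ext_smul (o : Q) (r : ℝ) (x : ↥(Finset.univ.erase o : Finset Q) → ℝ) (q : Q) :
    ext (Finset.univ.erase o) 0 (r • x) q = r * ext (Finset.univ.erase o) 0 x q := by
  by_cases h : q ∈ (Finset.univ.erase o : Finset Q)
  · rw [Ham560.ext_mem h, Ham560.ext_mem h]; rfl
  · rw [Ham560.ext_notMem h, Ham560.ext_notMem h]; simp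

/-- `XQ` as a linear map -/
def XL (o : Q) (w : Q → ℝ) : (↥(Finset.univ.erase o : Finset Q) → ℝ) →ₗ[ℝ] ℝ where
  toFun := XQ o w
  map_add' x y := by
    simp only [XQ, ext_add, mul_add, Finset.sum_add_distrib]
  map_smul' r x := by
    simp only [XQ, ext_smul, RingHom.id_apply, smul_eq_mul, Finset.mul_sum]
    refine Finset.sum_congr rfl fun q _ => ?_
    ring

theorem XL_apply (o : Q) (w : Q → ℝ) (x : ↥(Finset.univ.erase o : Finset Q) → ℝ) :
    XL o w x = XQ o w x := rfl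

theorem fderiv_XQ (o : Q) (w : Q → ℝ) (x y : ↥(Finset.univ.erase o : Finset Q) → ℝ) :
    fderiv ℝ (XQ o w) x y = XQ o w y := by
  have h1 : XQ o w = (LinearMap.toContinuousLinearMap (XL o w) :
      (↥(Finset.univ.erase o : Finset Q) → ℝ) → ℝ) := rfl
  rw [h1, ContinuousLinearMap.fderiv]

theorem lip_XQ (o : Q) (w : Q → ℝ) : ∃ L : ℝ≥0, LipschitzWith L (XQ o w) :=
  ⟨_, (LinearMap.toContinuousLinearMap (XL o w)).lipschitz⟩

theorem anch_edg {R : Q → Q → Prop} {o : Q} (hc : Conn R o) :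
    Anch (Finset.univ.erase o) (edg R) := by
  intro v _
  refine ⟨o, by simp, ?_⟩
  have h := hc v
  clear * - h
  induction h with
  | refl => exact Relation.ReflTransGen.refl
  | @tail b c _ hbc ih =>
    by_cases hb : b = c
    · rw [← hb]; exact ih
    · refine Relation.ReflTransGen.head ?_ ih
      rw [Ham560.mem_nbr]
      exact ⟨hb, Or.inr (mem_edg.2 hbc)⟩

theorem FieldQ.le_ex {R : Q → Q → Prop} {o : Q} (hc : Conn R o) {w : Q → ℝ} (hw : ∑ q, w q = 0)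
    {v ε : ℝ} (h : FieldQ R o w v ε) :
    v - 3 * ε ≤ ex R o (fun h => (∑ q, w q * h q) * (∑ q, w q * h q)) := by
  obtain ⟨Y, c, t0, hT, h1, h2⟩ := h
  obtain ⟨L, hL⟩ := lip_XQ o w
  have hA : Anch (Finset.univ.erase o) (edg R) := anch_edg hc
  set K := ham (Finset.univ.erase o) (edg R) (0 : Q → ℝ) with hKdef
  have hK : MeasurableSet K := Ham560.isClosed_ham.measurableSet
  have hKb : Bornology.IsBounded K := (Ham560.isCompact_ham hA).isBounded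
  have hvn : volume K ≠ 0 := Ham560.volume_ham_ne_zero (fun u => by simp)
  have hvt : volume K ≠ ⊤ := (Ham560.volume_ham_lt_top hA).ne
  have hv0 : 0 < (volume K).toReal := ENNReal.toReal_pos hvn hvt
  have hP : IsProbabilityMeasure (hamP (Finset.univ.erase o) (edg R) (0 : Q → ℝ)) :=
    Ham560.isProbabilityMeasure_hamP hA (fun u => by simp)
  have key := cramer_rao_trace hT hK hKb hL 0
  simp only [fderiv_XQ, sub_zero] at key
  have e0 : ex R o (fun h => (∑ q, w q * h q) * (∑ q, w q * h q)) =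
      ∫ x, XQ o w x ^ 2 ∂(hamP (Finset.univ.erase o) (edg R) 0) := by
    rw [ex_eq_hamP hc (by fun_prop)]
    · refine integral_congr_ae (Eventually.of_forall fun x => ?_)
      simp only [XQ, pow_two]
    · intro h c
      simp only [mul_add, Finset.sum_add_distrib, ← Finset.sum_mul, hw, zero_mul, add_zero]
  have e1 : ∫ x, XQ o w x ^ 2 ∂(hamP (Finset.univ.erase o) (edg R) 0) = _ := integral_unif _
  have e2 : ∫ x, (MW121.jac Y x * MW121.jac Y x).trace ∂(hamP (Finset.univ.erase o) (edg R) 0) =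
    _ := integral_unif _
  have e3 : ∫ x, XQ o w (Y x) ∂(hamP (Finset.univ.erase o) (edg R) 0) = _ := integral_unif _
  have hmul := mul_le_mul_of_nonneg_left key (inv_nonneg.mpr hv0.le)
  rw [mul_sub, ← mul_assoc, mul_comm _ (2 : ℝ), mul_assoc, ← e1, ← e2, ← e3] at hmul
  have hi : Integrable (fun x => XQ o w (Y x)) (hamP (Finset.univ.erase o) (edg R) 0) := by
    have := MW121.integrableOn_fderiv_apply hT.lip hK hKb hL
    simp only [fderiv_XQ] at this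
    exact this.smul_measure (ENNReal.inv_ne_top.mpr hvn)
  have h3 : |∫ x, (XQ o w (Y x) - v) ∂(hamP (Finset.univ.erase o) (edg R) 0)| ≤ ε :=
    (abs_integral_le_integral_abs).trans h2
  rw [integral_sub hi (integrable_const v), integral_const, probReal_univ, one_smul,
    abs_le] at h3
  rw [e0]
  linarith [h3.1]

theorem FieldQ.le_var {R : Q → Q → Prop} {o : Q} (hc : Conn R o) {w : Q → ℝ}
    (hw : ∑ q, w q = 0) {v ε : ℝ} (h : FieldQ R o w v ε) :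
    v - 3 * ε ≤ -(1 / 2) * ∑ p, ∑ q, w p * w q * var2 R o p q := by
  rw [← ex_pair hc w w hw hw]
  exact h.le_ex hc hw

/-- the base point of the second moments is irrelevant -/
theorem FieldQ.le_var' {R : Q → Q → Prop} {o o' : Q} (hc : Conn R o) {w : Q → ℝ}
    (hw : ∑ q, w q = 0) {v ε : ℝ} (h : FieldQ R o w v ε) :
    v - 3 * ε ≤ -(1 / 2) * ∑ p, ∑ q, w p * w q * var2 R o' p q := by
  refine (h.le_var hc hw).trans (le_of_eq ?_)
  simp only [var2_gauge o' hc]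

end graph

/-! ### tori -/

section torus

variable (Γ : AddSubgroup (ℤ × ℤ)) [Fintype ((ℤ × ℤ) ⧸ Γ)]

open Classical in
/-- a Stein field for the hammock law on the torus pinned at `o`, statistic `∑ p ∈ s, b p h_p` -/
def FieldT (o : (ℤ × ℤ) ⧸ Γ) (s : Finset (ℤ × ℤ)) (b : ℤ × ℤ → ℝ) (v ε : ℝ) : Prop :=
  ∃ (Y : (↥(Finset.univ.erase o : Finset ((ℤ × ℤ) ⧸ Γ)) → ℝ) →
      (↥(Finset.univ.erase o : Finset ((ℤ × ℤ) ⧸ Γ)) → ℝ)) (c : ℝ≥0) (t0 : ℝ),
    MW121.Tan (ham (Finset.univ.erase o) (edg (Rt Γ)) 0) Y c t0 ∧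
    ∫ x, (MW121.jac Y x * MW121.jac Y x).trace
      ∂(hamP (Finset.univ.erase o) (edg (Rt Γ)) 0) ≤ v + ε ∧
    ∫ x, |(∑ p ∈ s, b p * ext (Finset.univ.erase o) 0 (Y x) (p : (ℤ × ℤ) ⧸ Γ)) - v|
      ∂(hamP (Finset.univ.erase o) (edg (Rt Γ)) 0) ≤ ε

theorem sum_push_fun {Q : Type*} [Fintype Q] [DecidableEq Q] (g : ℤ × ℤ → Q)
    (s : Finset (ℤ × ℤ)) (b : ℤ × ℤ → ℝ) (f : Q → ℝ) :
    ∑ q, (∑ x ∈ s with g x = q, b x) * f q = ∑ x ∈ s, b x * f (g x) := by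
  rw [← Finset.sum_fiberwise s g]
  refine Finset.sum_congr rfl fun q _ => ?_
  rw [Finset.sum_mul]
  refine Finset.sum_congr rfl fun x hx => ?_
  rw [(Finset.mem_filter.1 hx).2]

/-- **the variance lower bound on the torus** -/
theorem FieldT.le_CV {o : (ℤ × ℤ) ⧸ Γ} {s : Finset (ℤ × ℤ)} {b : ℤ × ℤ → ℝ}
    (hb : ∑ p ∈ s, b p = 0) {v ε : ℝ} (h : FieldT Γ o s b v ε) :
    v - 3 * ε ≤ CV (Vt Γ) s b s b := by
  classical
  set w : (ℤ × ℤ) ⧸ Γ → ℝ := fun q => ∑ x ∈ s with ((x : ℤ × ℤ) : (ℤ × ℤ) ⧸ Γ) = q, b x with hwd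
  have hw : ∑ q, w q = 0 := by
    rw [hwd, sum_push_one (fun x : ℤ × ℤ => (x : (ℤ × ℤ) ⧸ Γ)) s b, hb]
  have hQ : FieldQ (Rt Γ) o w v ε := by
    obtain ⟨Y, c, t0, hT, h1, h2⟩ := h
    refine ⟨Y, c, t0, by convert hT, by convert h1, ?_⟩
    convert h2 using 5
    rename_i x
    exact sum_push_fun (fun x : ℤ × ℤ => (x : (ℤ × ℤ) ⧸ Γ)) s b _
  have h1 := hQ.le_var' (o' := 0) (conn_Rt Γ o) hw
  rw [hwd, sum_push (fun x : ℤ × ℤ => (x : (ℤ × ℤ) ⧸ Γ)) s b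
    (fun p q => var2 (Rt Γ) 0 p q)] at h1
  simp only [var2_eq_Vt] at h1
  exact h1

end torus

/-! ### the limit along tori -/

theorem tendsto_CV {V : ℤ × ℤ → ℝ} {W : ℕ → ℤ × ℤ → ℝ}
    (h : ∀ x, Tendsto (fun n => W n x) atTop (𝓝 (V x))) (s : Finset (ℤ × ℤ)) (b : ℤ × ℤ → ℝ) :
    Tendsto (fun n => CV (W n) s b s b) atTop (𝓝 (CV V s b s b)) := by
  unfold CV
  refine Tendsto.const_mul _ ?_
  exact tendsto_finsetSum _ fun p _ => tendsto_finsetSum _ fun q _ => (h (p - q)).const_mul _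

/-- the literal input LOWT: Stein fields on the rectangular tori `rect (N k) (m k)`, for one test
function `ψ` -/
def LowT (N m : ℕ → ℤ) [∀ k, Fintype ((ℤ × ℤ) ⧸ rect (N k) (m k))] (l : ℝ) (ψ : ℂ → ℝ) : Prop :=
  ∃ (δ : ℕ → ℝ) (b : ℕ → ℤ × ℤ → ℝ) (s : ℕ → Finset (ℤ × ℤ)),
    (∀ n, 0 < δ n) ∧ Tendsto δ atTop (𝓝 0) ∧ Near δ b (fun z => -(Δ ψ) z) ∧
    (∀ᶠ n in atTop, Wt (s n) (b n)) ∧ ∀ ε : ℝ, 0 < ε → ∃ᶠ n in atTop, ∃ᶠ k in atTop,
      ∃ o, FieldT (rect (N k) (m k)) o (s n) (b n) (l * ∫ z, ‖fderiv ℝ ψ z‖ ^ 2) ε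

theorem LowT.lowV {V : ℤ × ℤ → ℝ} {N m : ℕ → ℤ} [∀ k, Fintype ((ℤ × ℤ) ⧸ rect (N k) (m k))]
    (h1 : ∀ x, Tendsto (fun n => Vt (rect (N n) (m n)) x) atTop (𝓝 (V x))) {l : ℝ} {ψ : ℂ → ℝ}
    (h : LowT N m l ψ) : LowV V l ψ := by
  obtain ⟨δ, b, s, hδ, hδ0, hb, hw, hl⟩ := h
  refine ⟨δ, b, s, hδ, hδ0, hb, hw, fun ε hε => ?_⟩
  refine ((hl (ε / 4) (by positivity)).and_eventually hw).mono fun n hn => ?_
  obtain ⟨hn, hwn⟩ := hn
  have h2 := tendsto_CV h1 (s n) (b n)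
  have h3 : ∀ᶠ k in atTop, CV (Vt (rect (N k) (m k))) (s n) (b n) (s n) (b n) <
      CV V (s n) (b n) (s n) (b n) + ε / 4 :=
    h2.eventually (eventually_lt_nhds (by linarith))
  obtain ⟨k, ⟨o, h4⟩, h5⟩ := (hn.and_eventually h3).exists
  have h6 := h4.le_CV _ hwn.2
  linarith

/-- **KAP-END**: the constant of the lower bound on the tori is `≤ π/(3√3) < 2/π` -/
theorem kap_tori {V : ℤ × ℤ → ℝ} {N m : ℕ → ℤ} (hm : Tendsto m atTop atTop)
    [∀ k, Fintype ((ℤ × ℤ) ⧸ rect (N k) (m k))]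
    [∀ k, Fintype ((ℤ × ℤ) ⧸ (rect (N k) (m k)).map swE.toAddMonoidHom)]
    (h1 : ∀ x, Tendsto (fun n => Vt (rect (N n) (m n)) x) atTop (𝓝 (V x)))
    (h2 : ∀ x, Tendsto (fun n => Vt ((rect (N n) (m n)).map swE.toAddMonoidHom) x) atTop
      (𝓝 (V x))) {l : ℝ}
    (hlow : ∀ ψ : ℂ → ℝ, ContDiff ℝ ∞ ψ → HasCompactSupport ψ → LowT N m l ψ) :
    l ≤ π / Real.sqrt 3 * (1 / 3) ∧ l < 2 / π := by
  have hV : Two V := two_of_lim V N m hm h1 h2
  have h13 : V (1, 0) ≤ 1 / 3 := le_of_tendsto' (h1 (1, 0)) fun n => Vt_e1_le _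
  exact le_of_low hV h13 fun ψ hψ hc => (hlow ψ hψ hc).lowV h1

/-- the literal `hKap` of `Fin97_144` -/
theorem hKap_of {V : ℤ × ℤ → ℝ} {N m : ℕ → ℤ} (hm : Tendsto m atTop atTop)
    [∀ k, Fintype ((ℤ × ℤ) ⧸ rect (N k) (m k))]
    [∀ k, Fintype ((ℤ × ℤ) ⧸ (rect (N k) (m k)).map swE.toAddMonoidHom)]
    (h1 : ∀ x, Tendsto (fun n => Vt (rect (N n) (m n)) x) atTop (𝓝 (V x)))
    (h2 : ∀ x, Tendsto (fun n => Vt ((rect (N n) (m n)).map swE.toAddMonoidHom) x) atTop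
      (𝓝 (V x))) (ab : ℕ → ℝ → ℝ) {c0 : ℝ} (er : ℕ → ℝ) (r0 : ℕ)
    (hlow : ∀ r, r0 ≤ r → ∀ b, 0 ≤ b → (∀ L, ab r L ≤ b) → ∀ ψ : ℂ → ℝ, ContDiff ℝ ∞ ψ →
      HasCompactSupport ψ → LowT N m (c0 / (b + er r)) ψ) :
    ∀ r, r0 ≤ r → ∀ b, 0 ≤ b → (∀ L, ab r L ≤ b) → c0 / (b + er r) ≤ 2 / π :=
  fun r hr b hb hab => (kap_tori hm h1 h2 (hlow r hr b hb hab)).2.le

end Crest.Agent.R144.KapE761
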