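import Mathlib
import Crest.Agent.R144.KapE1_761
import Crest.Agent.R144.Lmu3_425

/-!
# R144 (S0197), helper761, KAP-END, part 2

* `LowN V v ε ψ`: the lower bound at a fixed accuracy; `LowN.le`; **`kapD`**: the asymptotic form of
  (KAP) of helper95's msg 9899;
* `vg0 μ x = ∫ (h x - h 0)² dμ`; `TLC Γ μ` (local convergence of the torus states);
  `tendsto_Vt`, **`two_vg0`** : `Two (vg0 μ)` and `vg0_e1_le`.
-/

set_option autoImplicit false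
set_option linter.unusedSectionVars false

open MeasureTheory Set Function Filter Topology
open scoped ENNReal NNReal Real ContDiff Laplacian

noncomputable section

namespace Crest.Agent.R144.KapE761

open Crest.Agent.R144.Tor95
open Crest.Agent.R144.Cw643 (CV Near Wt Lim2 lim2)
open Crest.Agent.R144.Con549 (IsTest energy_eq)
open Crest.Agent.R144.Tp952 (Two)
open Crest.Agent.R144.Lw425 (LObs hd hd_comm hd_self hd_nonneg hd_eq_zero exists_step adj_iff_hd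
  hball mem_hball)
open Crest.ProbabilityR.HexHeights (Adj)

/-! ### fixed accuracy -/

/-- the lower bound with value `v` up to `ε`, for one test function -/
def LowN (V : ℤ × ℤ → ℝ) (v ε : ℝ) (ψ : ℂ → ℝ) : Prop :=
  ∃ (δ : ℕ → ℝ) (b : ℕ → ℤ × ℤ → ℝ) (s : ℕ → Finset (ℤ × ℤ)),
    (∀ n, 0 < δ n) ∧ Tendsto δ atTop (𝓝 0) ∧ Near δ b (fun z => -(Δ ψ) z) ∧
    (∀ᶠ n in atTop, Wt (s n) (b n)) ∧ ∃ᶠ n in atTop, v - ε ≤ CV V (s n) (b n) (s n) (b n)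

theorem LowN.le {V : ℤ × ℤ → ℝ} {κ v ε : ℝ} {ψ : ℂ → ℝ} (hκ : Lim2 V κ) (hψ : ContDiff ℝ ∞ ψ)
    (hc : HasCompactSupport ψ) (h : LowN V v ε ψ) :
    v - ε ≤ κ * ∫ z, ‖fderiv ℝ ψ z‖ ^ 2 := by
  obtain ⟨δ, b, s, hδ, hδ0, hb, hw, hl⟩ := h
  have ht : IsTest univ ψ := ⟨hψ, hc, subset_univ _⟩
  have h1 := hκ.lim δ ψ (fun z => -(Δ ψ) z) b b s s hδ hδ0 hψ hc
    (Cw643.continuous_lap hψ).neg (Cw643.hasCompactSupport_lap hc).neg hb hb hw hw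
  rw [energy_eq ht] at h1
  refine le_of_forall_pos_le_add fun ε' hε' => ?_
  have h2 := hl.and_eventually (h1.eventually (eventually_le_nhds (lt_add_of_pos_right _ hε')))
  obtain ⟨n, h3, h4⟩ := h2.exists
  linarith

/-- **(KAP), asymptotic form** -/
theorem kapD {V : ℤ × ℤ → ℝ} (hV : Two V) (h13 : V (1, 0) ≤ 1 / 3) (ab : ℕ → ℝ → ℝ) {c0 : ℝ}
    (hc0 : 0 < c0)
    (hlow : ∀ ψ : ℂ → ℝ, ContDiff ℝ ∞ ψ → HasCompactSupport ψ → ∀ ε : ℝ, 0 < ε → ∀ b0 : ℝ,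
      0 < b0 → ∃ r1, ∀ r, r1 ≤ r → ∀ b, b0 ≤ b → (∀ L, ab r L ≤ b) →
        LowN V (c0 / b * ∫ z, ‖fderiv ℝ ψ z‖ ^ 2) ε ψ) :
    ∀ ε : ℝ, 0 < ε → ∃ r1, ∀ r, r1 ≤ r → ∃ L, c0 * π / 2 - ε ≤ ab r L := by
  intro ε hε
  have hπ := Real.pi_pos
  set η : ℝ := c0 * π / 2 with hη
  have hη0 : 0 < η := by positivity
  set ε1 : ℝ := min ε (η / 2) with hε1
  have h1 : 0 < ε1 := lt_min hε (by positivity)
  have h2 : ε1 ≤ ε := min_le_left _ _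
  have h3 : ε1 ≤ η / 2 := min_le_right _ _
  obtain ⟨ψ, hψ, hc, hp⟩ := exists_psi
  obtain ⟨κ, hκ, h4, -⟩ := lim2 hV
  set D : ℝ := ∫ z, ‖fderiv ℝ ψ z‖ ^ 2 with hD
  set K : ℝ := π / Real.sqrt 3 * (1 / 3) with hK
  have hκK : κ ≤ K := h4.trans (by rw [hK]; gcongr)
  have hK2 : K < 2 / π := const_lt
  set e : ℝ := (2 / π - K) * D / 2 with he
  have he0 : 0 < e := by
    have : 0 < 2 / π - K := by linarith
    positivity
  obtain ⟨r1, hr1⟩ := hlow ψ hψ hc e he0 (η / 2) (by positivity)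
  refine ⟨r1, fun r hr => ?_⟩
  by_contra hcon
  push Not at hcon
  have h5 : ∀ L, ab r L ≤ η - ε1 := fun L => by linarith [hcon L]
  have h6 := (hr1 r hr (η - ε1) (by linarith) h5).le hκ hψ hc
  have h7 : 2 / π ≤ c0 / (η - ε1) := by
    rw [div_le_div_iff₀ hπ (by linarith)]
    nlinarith
  have h8 : 2 / π * D ≤ c0 / (η - ε1) * D := mul_le_mul_of_nonneg_right h7 hp.le
  have h9 : κ * D ≤ K * D := mul_le_mul_of_nonneg_right hκK hp.le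
  have h10 : 0 < (2 / π - K) * D := mul_pos (by linarith) hp
  have h11 : (2 / π - K) * D = 2 / π * D - K * D := by ring
  rw [he] at h6
  linarith

/-! ### the variogram of `μ₀` -/

/-- the variogram of a law of heights -/
def vg0 (μ : Measure (ℤ × ℤ → ℝ)) (x : ℤ × ℤ) : ℝ := ∫ h, (h x - h 0) ^ 2 ∂μ

/-- steps `≤ 1` along the edges imply `1`-Lipschitz -/
theorem lip_of_step {g : ℤ × ℤ → ℝ} (h1 : ∀ v w, hd v w = 1 → |g v - g w| ≤ 1) (v w : ℤ × ℤ) :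
    |g v - g w| ≤ (hd v w : ℝ) := by
  have key : ∀ (n : ℕ) (v w : ℤ × ℤ), hd v w ≤ n → |g v - g w| ≤ (hd v w : ℝ) := by
    intro n
    induction n with
    | zero =>
      intro v w h
      have h0 : hd v w = 0 := le_antisymm (by simpa using h) (hd_nonneg _ _)
      rw [hd_eq_zero h0, hd_self]; simp
    | succ n ih =>
      intro v w h
      by_cases hvw : v = w
      · subst hvw; rw [hd_self]; simp
      obtain ⟨c, hc1, hc2, _⟩ := exists_step hvw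
      have g1 := ih c w (by push_cast at h; omega)
      have g2 := h1 v c hc1
      have g3 := abs_sub_le (g v) (g c) (g w)
      have g4 : ((hd c w : ℤ) : ℝ) = hd v w - 1 := by rw [hc2]; push_cast; ring
      rw [g4] at g1
      linarith
  exact key (hd v w).toNat v w (Int.self_le_toNat _)

/-- the clipped normalised square of one height difference -/
def csq (x : ℤ × ℤ) (h : ℤ × ℤ → ℝ) : ℝ := min 1 ((h x - h 0) ^ 2 / ((hd x 0 : ℝ) + 1) ^ 2)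

theorem csq_LObs (x : ℤ × ℤ) : LObs (hd x 0).toNat (csq x) where
  meas := by
    refine measurable_const.min (Measurable.div_const ?_ _)
    exact ((measurable_pi_apply x).sub (measurable_pi_apply 0)).pow_const 2
  bd := by
    intro h
    have h1 : 0 ≤ (h x - h 0) ^ 2 / ((hd x 0 : ℝ) + 1) ^ 2 := by positivity
    rw [csq, abs_of_nonneg (le_min zero_le_one h1)]
    exact min_le_left _ _
  loc := by
    intro h h' hh
    have h1 : h x = h' x := hh x (mem_hball.mpr (Int.self_le_toNat _))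
    have h2 : h 0 = h' 0 := hh 0 (mem_hball.mpr (by rw [hd_self]; positivity))
    rw [csq, csq, h1, h2]
  shift := by
    intro h c
    rw [csq, csq, add_sub_add_right_eq_sub]

theorem csq_eq {x : ℤ × ℤ} {h : ℤ × ℤ → ℝ} (hh : |h x - h 0| ≤ (hd x 0 : ℝ)) :
    csq x h = (h x - h 0) ^ 2 / ((hd x 0 : ℝ) + 1) ^ 2 := by
  have h0 : (0 : ℝ) ≤ (hd x 0 : ℝ) := by exact_mod_cast hd_nonneg x 0
  refine min_eq_right ?_
  rw [div_le_one (by positivity)]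
  have := abs_le.mp hh
  nlinarith

theorem vg0_eq {μ : Measure (ℤ × ℤ → ℝ)} (hlip : ∀ᵐ h ∂μ, ∀ v w, |h v - h w| ≤ (hd v w : ℝ))
    (x : ℤ × ℤ) : vg0 μ x = ((hd x 0 : ℝ) + 1) ^ 2 * ∫ h, csq x h ∂μ := by
  have h0 : (0 : ℝ) ≤ (hd x 0 : ℝ) := by exact_mod_cast hd_nonneg x 0
  rw [vg0, ← integral_const_mul]
  refine integral_congr_ae ?_
  filter_upwards [hlip] with h hh
  rw [csq_eq (hh x 0)]
  field_simp

section torus

variable (Γ : AddSubgroup (ℤ × ℤ)) [Fintype ((ℤ × ℤ) ⧸ Γ)]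

theorem lip_torus {h : ((ℤ × ℤ) ⧸ Γ) → ℝ} (hh : h ∈ lip (Rt Γ)) (v w : ℤ × ℤ) :
    |h (v : (ℤ × ℤ) ⧸ Γ) - h (w : (ℤ × ℤ) ⧸ Γ)| ≤ (hd v w : ℝ) :=
  lip_of_step (g := fun z : ℤ × ℤ => h (z : (ℤ × ℤ) ⧸ Γ))
    (fun v w hvw => hh _ _ (Rt_mk ((adj_iff_hd v w).2 hvw))) v w

theorem Vt_eq_csq (x : ℤ × ℤ) : Vt Γ x = ((hd x 0 : ℝ) + 1) ^ 2 * exT Γ (csq x) := by
  have h0 : (0 : ℝ) ≤ (hd x 0 : ℝ) := by exact_mod_cast hd_nonneg x 0
  rw [Vt_eq_exT, exT, exT, ex, ex, ← mul_div_assoc, ← integral_const_mul]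
  congr 1
  rw [nu]
  refine setIntegral_congr_fun ((isClosed_lip _).inter (isClosed_gauge _)).measurableSet
    fun h hh => ?_
  simp only
  rw [csq_eq (lip_torus Γ hh.1 x 0)]
  field_simp

end torus

/-- local convergence of the states of a sequence of tori -/
def TLC (Γ : ℕ → AddSubgroup (ℤ × ℤ)) [∀ k, Fintype ((ℤ × ℤ) ⧸ Γ k)]
    (μ : Measure (ℤ × ℤ → ℝ)) : Prop :=
  ∀ r f, LObs r f → Tendsto (fun k => exT (Γ k) f) atTop (𝓝 (∫ h, f h ∂μ))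

theorem tendsto_Vt {Γ : ℕ → AddSubgroup (ℤ × ℤ)} [∀ k, Fintype ((ℤ × ℤ) ⧸ Γ k)]
    {μ : Measure (ℤ × ℤ → ℝ)} (hlip : ∀ᵐ h ∂μ, ∀ v w, |h v - h w| ≤ (hd v w : ℝ))
    (hT : TLC Γ μ) (x : ℤ × ℤ) : Tendsto (fun k => Vt (Γ k) x) atTop (𝓝 (vg0 μ x)) := by
  rw [vg0_eq hlip x]
  simp_rw [Vt_eq_csq]
  exact (hT _ _ (csq_LObs x)).const_mul _

section limit

variable {μ : Measure (ℤ × ℤ → ℝ)} {N m : ℕ → ℤ}
  [∀ k, Fintype ((ℤ × ℤ) ⧸ rect (N k) (m k))]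
  [∀ k, Fintype ((ℤ × ℤ) ⧸ (rect (N k) (m k)).map swE.toAddMonoidHom)]

theorem two_vg0 (hlip : ∀ᵐ h ∂μ, ∀ v w, |h v - h w| ≤ (hd v w : ℝ))
    (hm : Tendsto m atTop atTop) (h1 : TLC (fun k => rect (N k) (m k)) μ)
    (h2 : TLC (fun k => (rect (N k) (m k)).map swE.toAddMonoidHom) μ) : Two (vg0 μ) :=
  two_of_lim (vg0 μ) N m hm (tendsto_Vt hlip h1) (tendsto_Vt hlip h2)

theorem vg0_e1_le (hlip : ∀ᵐ h ∂μ, ∀ v w, |h v - h w| ≤ (hd v w : ℝ))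
    (h1 : TLC (fun k => rect (N k) (m k)) μ) : vg0 μ (1, 0) ≤ 1 / 3 :=
  le_of_tendsto' (tendsto_Vt hlip h1 (1, 0)) fun n => Vt_e1_le _

/-- **(KAP), asymptotic form, for the law `μ₀`** -/
theorem kapD_mu (hlip : ∀ᵐ h ∂μ, ∀ v w, |h v - h w| ≤ (hd v w : ℝ))
    (hm : Tendsto m atTop atTop) (h1 : TLC (fun k => rect (N k) (m k)) μ)
    (h2 : TLC (fun k => (rect (N k) (m k)).map swE.toAddMonoidHom) μ) (ab : ℕ → ℝ → ℝ) {c0 : ℝ}
    (hc0 : 0 < c0)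
    (hlow : ∀ ψ : ℂ → ℝ, ContDiff ℝ ∞ ψ → HasCompactSupport ψ → ∀ ε : ℝ, 0 < ε → ∀ b0 : ℝ,
      0 < b0 → ∃ r1, ∀ r, r1 ≤ r → ∀ b, b0 ≤ b → (∀ L, ab r L ≤ b) →
        LowN (vg0 μ) (c0 / b * ∫ z, ‖fderiv ℝ ψ z‖ ^ 2) ε ψ) :
    ∀ ε : ℝ, 0 < ε → ∃ r1, ∀ r, r1 ≤ r → ∃ L, c0 * π / 2 - ε ≤ ab r L :=
  kapD (two_vg0 hlip hm h1 h2) (vg0_e1_le hlip h1) ab hc0 hlow

end limit

end Crest.Agent.R144.KapE761
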