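import Mathlib
import Crest.Agent.R144.KapE2_761
import Crest.Agent.R144.Bl2_565

/-!
# R144 (S0197), helper761, KAP-END, part 3: Cramér–Rao under `μ₀` through DLR

* `cr_t`: trace form of Cramér–Rao with a free factor `t`;
* `LS`: a local bounded shift invariant Borel observable (any size), `Dlr μ`, `Dlr.ls`;
* `CV_vg0`: `CV (vg0 μ) s b s b = ∫ (∑ p ∈ s, b p h_p)² dμ`;
* **`cr_dlr`**: `2 t ∫ A dμ - t² ∫ B dμ ≤ CV (vg0 μ) s b s b` from tangent fields in the fibres of `I`.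
-/

set_option autoImplicit false
set_option linter.unusedSectionVars false

open MeasureTheory Set Function Filter Topology
open scoped ENNReal NNReal Real

noncomputable section

namespace Crest.Agent.R144.KapE761

open Crest.Agent.R144.Tor95
open Crest.Agent.R144.Ham560 (ext ham hamP Anch)
open Crest.Agent.R144.Cw643 (CV)
open Crest.Agent.R144.Lw425 (LObs hd hd_comm hd_self hd_nonneg hball mem_hball shft measurable_shft)
open Crest.Agent.R144.Lc279 (Ev lat mem_lat P2)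
open Crest.Agent.R144.Bl565 (anch_lat)
open Crest.Agent.R144.BQ565 (measurable_mean_param continuous_ext_pi)
open Crest.Agent.R144.Skel144 (integral_unif)

/-! ### Cramér–Rao with a factor -/

section abs

variable {V : Type*} [Fintype V] [DecidableEq V]

theorem cr_t {Y : (V → ℝ) → (V → ℝ)} {c : ℝ≥0} {K : Set (V → ℝ)} {t0 : ℝ}
    (hT : MW121.Tan K Y c t0) (hK : MeasurableSet K) (hKb : Bornology.IsBounded K)
    {G : (V → ℝ) → ℝ} {L : ℝ≥0} (hG : LipschitzWith L G) (t : ℝ) :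
    2 * t * (∫ h in K, fderiv ℝ G h (Y h)) -
      t ^ 2 * (∫ h in K, (MW121.jac Y h * MW121.jac Y h).trace) ≤ ∫ h in K, (G h) ^ 2 := by
  have h1 := MW121.ibp hT hK hKb hG
  have h2 := MW121.reilly hT hK hKb
  have hi1 : IntegrableOn (fun h => G h * (MW121.jac Y h).trace) K :=
    MW121.integrableOn_mul_trace hT.lip hK hKb hG
  obtain ⟨M, hM0, hM⟩ := MW121.exists_lip_bound hKb hG
  have hi2 : IntegrableOn (fun h => (G h) ^ 2) K := by
    refine MW121.integrableOn_of_bound hK hKb ?_ (M := M ^ 2) ?_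
    · exact ((hG.continuous.measurable).pow_const 2).aestronglyMeasurable
    · intro h hh
      rw [abs_pow]
      exact pow_le_pow_left₀ (abs_nonneg _) (by simpa using hM h hh) 2
  have hi3 : IntegrableOn (fun h => (MW121.jac Y h).trace ^ 2) K := by
    refine MW121.integrableOn_of_bound hK hKb
      ((MW121.measurable_trace Y).pow_const 2).aestronglyMeasurable
      (M := (Fintype.card V * (c : ℝ)) ^ 2) ?_
    intro h _
    rw [abs_pow]
    exact pow_le_pow_left₀ (abs_nonneg _) (MW121.abs_trace_le hT.lip h) 2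
  have h3 : 0 ≤ ∫ h in K, (G h + t * (MW121.jac Y h).trace) ^ 2 :=
    integral_nonneg fun h => sq_nonneg _
  have h4 : ∫ h in K, (G h + t * (MW121.jac Y h).trace) ^ 2 =
      (∫ h in K, (G h) ^ 2) + 2 * t * (∫ h in K, G h * (MW121.jac Y h).trace) +
        t ^ 2 * ∫ h in K, (MW121.jac Y h).trace ^ 2 := by
    have i4 : IntegrableOn (fun h => 2 * t * (G h * (MW121.jac Y h).trace)) K :=
      hi1.const_mul (2 * t)
    have i6 : IntegrableOn (fun h => t ^ 2 * (MW121.jac Y h).trace ^ 2) K := hi3.const_mul (t ^ 2)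
    have i5 : IntegrableOn (fun h => (G h) ^ 2 + 2 * t * (G h * (MW121.jac Y h).trace)) K :=
      hi2.add i4
    rw [← integral_const_mul, ← integral_const_mul, ← integral_add hi2 i4, ← integral_add i5 i6]
    refine integral_congr_ae (Eventually.of_forall fun h => ?_)
    simp only
    ring
  have h5 : t ^ 2 * ∫ h in K, (MW121.jac Y h).trace ^ 2 ≤
      t ^ 2 * ∫ h in K, (MW121.jac Y h * MW121.jac Y h).trace :=
    mul_le_mul_of_nonneg_left h2 (sq_nonneg t)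
  rw [h4] at h3
  rw [h1]
  linarith

end abs

/-! ### local observables of any size, DLR -/

/-- a local shift invariant bounded Borel observable -/
def LS (F : (ℤ × ℤ → ℝ) → ℝ) : Prop := ∃ (r : ℕ) (C : ℝ), 0 < C ∧ LObs r fun h => C⁻¹ * F h

theorem LS.measurable {F : (ℤ × ℤ → ℝ) → ℝ} (hF : LS F) : Measurable F := by
  obtain ⟨r, C, hC, h⟩ := hF
  have h1 := h.meas.const_mul C
  refine (congrArg Measurable ?_).mp h1
  funext z
  rw [← mul_assoc, mul_inv_cancel₀ hC.ne', one_mul]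

theorem LS.bdd {F : (ℤ × ℤ → ℝ) → ℝ} (hF : LS F) : ∃ C : ℝ, 0 < C ∧ ∀ h, |F h| ≤ C := by
  obtain ⟨r, C, hC, h⟩ := hF
  refine ⟨C, hC, fun z => ?_⟩
  have h1 := h.bd z
  rw [abs_mul, abs_of_pos (inv_pos.mpr hC), inv_mul_le_iff₀ hC, mul_one] at h1
  exact h1

theorem LS.mk' {F : (ℤ × ℤ → ℝ) → ℝ} (r : ℕ) (hm : Measurable F) {C : ℝ} (hC : ∀ h, |F h| ≤ C)
    (hl : ∀ h h', (∀ a ∈ hball r, h a = h' a) → F h = F h')
    (hs : ∀ h (c : ℝ), F (fun a => h a + c) = F h) : LS F := by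
  have hC0 : 0 < |C| + 1 := by positivity
  refine ⟨r, |C| + 1, hC0, ?_, ?_, ?_, ?_⟩
  · exact hm.const_mul _
  · intro h
    rw [abs_mul, abs_of_pos (inv_pos.mpr hC0), inv_mul_le_iff₀ hC0, mul_one]
    exact (hC h).trans ((le_abs_self C).trans (by linarith))
  · intro h h' hh
    rw [hl h h' hh]
  · intro h c
    simp only [hs h c]

theorem LS.local_shift {F : (ℤ × ℤ → ℝ) → ℝ} (hF : LS F) : ∃ r : ℕ,
    (∀ h h', (∀ a ∈ hball r, h a = h' a) → F h = F h') ∧
    (∀ h (c : ℝ), F (fun a => h a + c) = F h) := by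
  obtain ⟨r, C, hC, h⟩ := hF
  refine ⟨r, fun z z' hz => ?_, fun z c => ?_⟩
  · have h1 := h.loc z z' hz
    exact mul_left_cancel₀ (inv_ne_zero hC.ne') h1
  · have h1 := h.shift z c
    exact mul_left_cancel₀ (inv_ne_zero hC.ne') h1

/-- the DLR equation -/
def Dlr (μ : Measure (ℤ × ℤ → ℝ)) : Prop :=
  ∀ (I : Finset (ℤ × ℤ)) (r : ℕ) (F : (ℤ × ℤ → ℝ) → ℝ), LObs r F →
    ∫ h, F h ∂μ = ∫ h, Ev I (lat I) h F ∂μ

theorem Dlr.ls {μ : Measure (ℤ × ℤ → ℝ)} (hD : Dlr μ) (I : Finset (ℤ × ℤ))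
    {F : (ℤ × ℤ → ℝ) → ℝ} (hF : LS F) : ∫ h, F h ∂μ = ∫ h, Ev I (lat I) h F ∂μ := by
  obtain ⟨r, C, hC, h⟩ := hF
  have h1 := hD I r _ h
  have h2 : ∀ z, Ev I (lat I) z (fun h => C⁻¹ * F h) = C⁻¹ * Ev I (lat I) z F :=
    fun z => integral_const_mul _ _
  simp only [h2] at h1
  rw [integral_const_mul, integral_const_mul] at h1
  exact mul_left_cancel₀ (inv_ne_zero hC.ne') h1

theorem measurable_Ev {I : Finset (ℤ × ℤ)} {F : (ℤ × ℤ → ℝ) → ℝ} (hF : Measurable F) :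
    Measurable fun ζ : ℤ × ℤ → ℝ => Ev I (lat I) ζ F := by
  refine measurable_mean_param (f := fun ζ x => F (ext I ζ x)) ?_
  exact hF.comp (continuous_ext_pi).measurable

theorem ham_null {I : Finset (ℤ × ℤ)} {E : Finset ((ℤ × ℤ) × (ℤ × ℤ))} {ζ : ℤ × ℤ → ℝ}
    (h : volume (ham I E ζ) = 0) : hamP I E ζ = 0 := by
  rw [hamP, Measure.restrict_eq_zero.mpr h, smul_zero]

theorem isProb_of_ne {I : Finset (ℤ × ℤ)} {ζ : ℤ × ℤ → ℝ}
    (h : volume (ham I (lat I) ζ) ≠ 0) : IsProbabilityMeasure (hamP I (lat I) ζ) := by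
  constructor
  rw [hamP, Measure.smul_apply, Measure.restrict_apply_univ, smul_eq_mul]
  exact ENNReal.inv_mul_cancel h (Ham560.volume_ham_lt_top (anch_lat I)).ne

theorem finite_hamP (I : Finset (ℤ × ℤ)) (ζ : ℤ × ℤ → ℝ) :
    IsFiniteMeasure (hamP I (lat I) ζ) := by
  by_cases h : volume (ham I (lat I) ζ) = 0
  · rw [ham_null h]; infer_instance
  · have := isProb_of_ne h; infer_instance

theorem abs_Ev_le {I : Finset (ℤ × ℤ)} {F : (ℤ × ℤ → ℝ) → ℝ} {C : ℝ} (hC0 : 0 ≤ C)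
    (hC : ∀ h, |F h| ≤ C) (ζ : ℤ × ℤ → ℝ) : |Ev I (lat I) ζ F| ≤ C := by
  by_cases h : volume (ham I (lat I) ζ) = 0
  · rw [Ev, ham_null h]; simpa using hC0
  · have := isProb_of_ne h
    have h1 : ‖∫ x, F (ext I ζ x) ∂(hamP I (lat I) ζ)‖ ≤ C * (hamP I (lat I) ζ).real univ :=
      norm_integral_le_of_norm_le_const (Eventually.of_forall fun x => hC _)
    rw [probReal_univ, mul_one] at h1
    exact h1

theorem integrable_ext {I : Finset (ℤ × ℤ)} {F : (ℤ × ℤ → ℝ) → ℝ} (hF : LS F)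
    (ζ : ℤ × ℤ → ℝ) : Integrable (fun x => F (ext I ζ x)) (hamP I (lat I) ζ) := by
  have := finite_hamP I ζ
  obtain ⟨C, hC, hb⟩ := hF.bdd
  refine Integrable.of_bound (C := C) ?_ (Eventually.of_forall fun x => hb _)
  refine (hF.measurable.comp ?_).aestronglyMeasurable
  exact (continuous_ext_pi.comp (Continuous.prodMk_right ζ)).measurable

theorem integrable_Ev {μ : Measure (ℤ × ℤ → ℝ)} [IsProbabilityMeasure μ] {I : Finset (ℤ × ℤ)}
    {F : (ℤ × ℤ → ℝ) → ℝ} (hF : LS F) : Integrable (fun ζ => Ev I (lat I) ζ F) μ := by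
  obtain ⟨C, hC, hb⟩ := hF.bdd
  exact Integrable.of_bound (C := C) (measurable_Ev hF.measurable).aestronglyMeasurable
    (Eventually.of_forall fun ζ => abs_Ev_le hC.le hb ζ)

/-! ### linear statistics under a translation invariant law -/

/-- the linear statistic -/
def XS (s : Finset (ℤ × ℤ)) (b : ℤ × ℤ → ℝ) (h : ℤ × ℤ → ℝ) : ℝ := ∑ p ∈ s, b p * h p

theorem XS_shift {s : Finset (ℤ × ℤ)} {b : ℤ × ℤ → ℝ} (hb : ∑ p ∈ s, b p = 0)
    (h : ℤ × ℤ → ℝ) (c : ℝ) : XS s b (fun a => h a + c) = XS s b h := by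
  simp only [XS, mul_add, Finset.sum_add_distrib, ← Finset.sum_mul, hb, zero_mul, add_zero]

theorem XS_sq {s : Finset (ℤ × ℤ)} {b : ℤ × ℤ → ℝ} (hb : ∑ p ∈ s, b p = 0) (h : ℤ × ℤ → ℝ) :
    XS s b h ^ 2 = -(1 / 2) * ∑ p ∈ s, ∑ q ∈ s, b p * b q * (h p - h q) ^ 2 := by
  have e1 : ∑ p ∈ s, ∑ q ∈ s, b p * b q * (h p - h q) ^ 2 =
      (∑ p ∈ s, b p * h p ^ 2) * (∑ q ∈ s, b q) + (∑ p ∈ s, b p) * (∑ q ∈ s, b q * h q ^ 2) -
        2 * ((∑ p ∈ s, b p * h p) * (∑ q ∈ s, b q * h q)) := by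
    rw [Finset.sum_mul_sum, Finset.sum_mul_sum, Finset.sum_mul_sum, Finset.mul_sum,
      ← Finset.sum_add_distrib, ← Finset.sum_sub_distrib]
    refine Finset.sum_congr rfl fun p _ => ?_
    rw [Finset.mul_sum, ← Finset.sum_add_distrib, ← Finset.sum_sub_distrib]
    refine Finset.sum_congr rfl fun q _ => ?_
    ring
  rw [e1, hb, XS]
  ring

/-- a bound of the statistic on Lipschitz heights -/
def XB (s : Finset (ℤ × ℤ)) (b : ℤ × ℤ → ℝ) : ℝ := ∑ p ∈ s, |b p| * (hd p 0 : ℝ)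

theorem abs_XS_le {s : Finset (ℤ × ℤ)} {b : ℤ × ℤ → ℝ} (hb : ∑ p ∈ s, b p = 0)
    {h : ℤ × ℤ → ℝ} (hl : ∀ v w, |h v - h w| ≤ (hd v w : ℝ)) : |XS s b h| ≤ XB s b := by
  have e : XS s b h = ∑ p ∈ s, b p * (h p - h 0) := by
    rw [XS]
    simp only [mul_sub, Finset.sum_sub_distrib, ← Finset.sum_mul, hb, zero_mul, sub_zero]
  rw [e]
  refine (Finset.abs_sum_le_sum_abs _ _).trans (Finset.sum_le_sum fun p _ => ?_)
  rw [abs_mul]
  exact mul_le_mul_of_nonneg_left (hl p 0) (abs_nonneg _)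

/-- the clipped square of the statistic -/
def XC (s : Finset (ℤ × ℤ)) (b : ℤ × ℤ → ℝ) (h : ℤ × ℤ → ℝ) : ℝ :=
  min ((XB s b) ^ 2) (XS s b h ^ 2)

theorem measurable_XS (s : Finset (ℤ × ℤ)) (b : ℤ × ℤ → ℝ) : Measurable (XS s b) :=
  Finset.measurable_sum _ fun p _ => (measurable_pi_apply p).const_mul _

theorem XC_LS {s : Finset (ℤ × ℤ)} {b : ℤ × ℤ → ℝ} (hb : ∑ p ∈ s, b p = 0) : LS (XC s b) := by
  obtain ⟨r, hr⟩ := Lw425.exists_hball s
  refine LS.mk' (C := (XB s b) ^ 2) r ?_ ?_ ?_ ?_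
  · exact measurable_const.min ((measurable_XS s b).pow_const 2)
  · intro h
    rw [XC, abs_of_nonneg (le_min (sq_nonneg _) (sq_nonneg _))]
    exact min_le_left _ _
  · intro h h' hh
    have e : XS s b h = XS s b h' := Finset.sum_congr rfl fun p hp => by rw [hh p (hr p hp)]
    rw [XC, XC, e]
  · intro h c
    rw [XC, XC, XS_shift hb]

theorem XC_eq {s : Finset (ℤ × ℤ)} {b : ℤ × ℤ → ℝ} (hb : ∑ p ∈ s, b p = 0)
    {h : ℤ × ℤ → ℝ} (hl : ∀ v w, |h v - h w| ≤ (hd v w : ℝ)) : XC s b h = XS s b h ^ 2 := by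
  refine min_eq_right ?_
  rw [← sq_abs]
  exact pow_le_pow_left₀ (abs_nonneg _) (abs_XS_le hb hl) 2

section mu

variable {μ : Measure (ℤ × ℤ → ℝ)} [IsProbabilityMeasure μ]

theorem integrable_sq (hlip : ∀ᵐ h ∂μ, ∀ v w, |h v - h w| ≤ (hd v w : ℝ)) (p q : ℤ × ℤ) :
    Integrable (fun h : ℤ × ℤ → ℝ => (h p - h q) ^ 2) μ := by
  refine Integrable.of_bound (C := (hd p q : ℝ) ^ 2) ?_ ?_
  · exact (((measurable_pi_apply p).sub (measurable_pi_apply q)).pow_const 2).aestronglyMeasurable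
  · filter_upwards [hlip] with h hh
    rw [Real.norm_eq_abs, abs_pow]
    exact pow_le_pow_left₀ (abs_nonneg _) (hh p q) 2

theorem vg0_sub (htr : ∀ x, μ.map (shft x) = μ) (p q : ℤ × ℤ) :
    vg0 μ (p - q) = ∫ h, (h p - h q) ^ 2 ∂μ := by
  rw [vg0]
  nth_rewrite 1 [← htr q]
  rw [integral_map (measurable_shft q).aemeasurable]
  · refine integral_congr_ae (Eventually.of_forall fun h => ?_)
    simp only [shft]
    rw [show q + (p - q) = p by abel, add_zero, sub_self, sub_zero]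
  · exact (((measurable_pi_apply (p - q)).sub (measurable_pi_apply 0)).pow_const
      2).aestronglyMeasurable

theorem CV_vg0 (hlip : ∀ᵐ h ∂μ, ∀ v w, |h v - h w| ≤ (hd v w : ℝ))
    (htr : ∀ x, μ.map (shft x) = μ) {s : Finset (ℤ × ℤ)} {b : ℤ × ℤ → ℝ}
    (hb : ∑ p ∈ s, b p = 0) : CV (vg0 μ) s b s b = ∫ h, XS s b h ^ 2 ∂μ := by
  simp only [XS_sq hb]
  rw [integral_const_mul, integral_finsetSum]
  · unfold CV
    congr 1
    refine Finset.sum_congr rfl fun p _ => ?_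
    rw [integral_finsetSum]
    · refine Finset.sum_congr rfl fun q _ => ?_
      rw [integral_const_mul, vg0_sub htr]
    · intro q _
      exact (integrable_sq hlip p q).const_mul _
  · intro p _
    exact integrable_finsetSum _ fun q _ => (integrable_sq hlip p q).const_mul _

end mu

/-! ### Cramér–Rao in a fibre -/

theorem lip_ext {I : Finset (ℤ × ℤ)} {ζ : ℤ × ℤ → ℝ} (hζ : ∀ v w, |ζ v - ζ w| ≤ (hd v w : ℝ))
    {x : I → ℝ} (hx : x ∈ ham I (lat I) ζ) (v w : ℤ × ℤ) :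
    |ext I ζ x v - ext I ζ x w| ≤ (hd v w : ℝ) := by
  refine lip_of_step (fun v w hvw => ?_) v w
  by_cases h : v ∈ I ∨ w ∈ I
  · exact hx (v, w) (mem_lat.mpr ⟨hvw, h⟩)
  · push Not at h
    rw [Ham560.ext_notMem h.1, Ham560.ext_notMem h.2]
    have := hζ v w
    rw [hvw] at this
    simpa using this

/-- the statistic on a fibre is affine -/
theorem XS_ext_fderiv (I s : Finset (ℤ × ℤ)) (b ζ : ℤ × ℤ → ℝ) :
    (∃ L : ℝ≥0, LipschitzWith L fun x : I → ℝ => XS s b (ext I ζ x)) ∧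
      ∀ x y : I → ℝ, fderiv ℝ (fun x : I → ℝ => XS s b (ext I ζ x)) x y = XS s b (ext I 0 y) := by
  let A : (I → ℝ) →ₗ[ℝ] ℝ :=
    { toFun := fun y => XS s b (ext I 0 y)
      map_add' := by
        intro x y
        simp only [XS, ← Finset.sum_add_distrib]
        refine Finset.sum_congr rfl fun p _ => ?_
        by_cases h : p ∈ I
        · rw [Ham560.ext_mem h, Ham560.ext_mem h, Ham560.ext_mem h, ← mul_add]; rfl
        · rw [Ham560.ext_notMem h, Ham560.ext_notMem h, Ham560.ext_notMem h]; simp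
      map_smul' := by
        intro r x
        simp only [XS, RingHom.id_apply, smul_eq_mul, Finset.mul_sum]
        refine Finset.sum_congr rfl fun p _ => ?_
        by_cases h : p ∈ I
        · rw [Ham560.ext_mem h, Ham560.ext_mem h]
          simp only [Pi.smul_apply, smul_eq_mul]; ring
        · rw [Ham560.ext_notMem h, Ham560.ext_notMem h]; simp }
  have hA : (fun x : I → ℝ => XS s b (ext I ζ x)) =
      fun x => LinearMap.toContinuousLinearMap A x + XS s b (ext I ζ 0) := by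
    funext x
    change XS s b (ext I ζ x) = XS s b (ext I 0 x) + XS s b (ext I ζ 0)
    simp only [XS, ← Finset.sum_add_distrib]
    refine Finset.sum_congr rfl fun p _ => ?_
    by_cases h : p ∈ I
    · rw [Ham560.ext_mem h, Ham560.ext_mem h, Ham560.ext_mem h]; simp
    · rw [Ham560.ext_notMem h, Ham560.ext_notMem h, Ham560.ext_notMem h]; simp
  rw [hA]
  refine ⟨⟨‖LinearMap.toContinuousLinearMap A‖₊, fun x y => ?_⟩, fun x y => ?_⟩
  · simpa using (LinearMap.toContinuousLinearMap A).lipschitz x y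
  · rw [fderiv_add_const, ContinuousLinearMap.fderiv]
    rfl

/-- a Stein field in the fibre over `ζ`, with explicit observables of the configuration -/
def FibF (I s : Finset (ℤ × ℤ)) (b : ℤ × ℤ → ℝ) (A B : (ℤ × ℤ → ℝ) → ℝ) (ζ : ℤ × ℤ → ℝ) : Prop :=
  ∃ (Y : (I → ℝ) → (I → ℝ)) (c : ℝ≥0) (t0 : ℝ), MW121.Tan (ham I (lat I) ζ) Y c t0 ∧
    (∀ᵐ x ∂(volume.restrict (ham I (lat I) ζ)), A (ext I ζ x) ≤ XS s b (ext I 0 (Y x))) ∧
    (∀ᵐ x ∂(volume.restrict (ham I (lat I) ζ)),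
      (MW121.jac Y x * MW121.jac Y x).trace ≤ B (ext I ζ x))

theorem fib_le {I s : Finset (ℤ × ℤ)} {b : ℤ × ℤ → ℝ} (hb : ∑ p ∈ s, b p = 0)
    {A B : (ℤ × ℤ → ℝ) → ℝ} (hA : LS A) (hB : LS B) {ζ : ℤ × ℤ → ℝ}
    (hζ : ∀ v w, |ζ v - ζ w| ≤ (hd v w : ℝ)) (h : FibF I s b A B ζ) {t : ℝ} (ht : 0 ≤ t) :
    2 * t * Ev I (lat I) ζ A - t ^ 2 * Ev I (lat I) ζ B ≤ Ev I (lat I) ζ (XC s b) := by
  set K := ham I (lat I) ζ with hKdef
  by_cases hv : volume K = 0
  · have h0 : hamP I (lat I) ζ = 0 := ham_null hv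
    simp only [Ev, h0, integral_zero_measure]; simp
  obtain ⟨Y, c, t0, hT, h1, h2⟩ := h
  have hP := isProb_of_ne hv
  obtain ⟨⟨L, hL⟩, hfd⟩ := XS_ext_fderiv I s b ζ
  have hK : MeasurableSet K := Ham560.isClosed_ham.measurableSet
  have hKb : Bornology.IsBounded K := (Ham560.isCompact_ham (anch_lat I)).isBounded
  have hvt : volume K ≠ ⊤ := (Ham560.volume_ham_lt_top (anch_lat I)).ne
  have hv0 : 0 < (volume K).toReal := ENNReal.toReal_pos hv hvt
  have key := cr_t hT hK hKb hL t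
  simp only [hfd] at key
  have e1 : Ev I (lat I) ζ (XC s b) = (volume K).toReal⁻¹ * ∫ x in K, XS s b (ext I ζ x) ^ 2 := by
    rw [Ev]
    refine (integral_unif (K := K) (fun x => XC s b (ext I ζ x))).trans ?_
    congr 1
    refine setIntegral_congr_fun hK fun x hx => ?_
    exact XC_eq hb (lip_ext hζ hx)
  have e2 : Ev I (lat I) ζ A = (volume K).toReal⁻¹ * ∫ x in K, A (ext I ζ x) :=
    integral_unif (K := K) (fun x => A (ext I ζ x))
  have e3 : Ev I (lat I) ζ B = (volume K).toReal⁻¹ * ∫ x in K, B (ext I ζ x) :=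
    integral_unif (K := K) (fun x => B (ext I ζ x))
  have meas : ∀ {F : (ℤ × ℤ → ℝ) → ℝ}, LS F → IntegrableOn (fun x => F (ext I ζ x)) K := by
    intro F hF
    obtain ⟨C, hC, hbd⟩ := hF.bdd
    refine MW121.integrableOn_of_bound hK hKb (M := C) ?_ (fun x _ => hbd _)
    refine (hF.measurable.comp ?_).aestronglyMeasurable
    exact (continuous_ext_pi.comp (Continuous.prodMk_right ζ)).measurable
  have hi : IntegrableOn (fun x => XS s b (ext I 0 (Y x))) K := by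
    have := MW121.integrableOn_fderiv_apply hT.lip hK hKb hL
    simpa only [hfd] using this
  have hi2 : IntegrableOn (fun x => (MW121.jac Y x * MW121.jac Y x).trace) K := by
    have e : ∀ x, (MW121.jac Y x * MW121.jac Y x).trace =
        ∑ u, ∑ v, MW121.jac Y x u v * MW121.jac Y x v u := by
      intro x
      simp only [Matrix.trace, Matrix.diag_apply, Matrix.mul_apply]
    simp only [e]
    refine integrable_finsetSum _ fun u _ => integrable_finsetSum _ fun v _ => ?_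
    refine MW121.integrableOn_of_bound hK hKb (M := (c : ℝ) * c) ?_ (fun x _ => ?_)
    · exact ((MW121.measurable_jac Y u v).mul (MW121.measurable_jac Y v u)).aestronglyMeasurable
    · rw [abs_mul]
      exact mul_le_mul (MW121.abs_jac_le hT.lip x u v) (MW121.abs_jac_le hT.lip x v u)
        (abs_nonneg _) c.2
  have g1 : ∫ x in K, A (ext I ζ x) ≤ ∫ x in K, XS s b (ext I 0 (Y x)) :=
    integral_mono_ae (meas hA) hi h1
  have g2 : ∫ x in K, (MW121.jac Y x * MW121.jac Y x).trace ≤ ∫ x in K, B (ext I ζ x) :=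
    integral_mono_ae hi2 (meas hB) h2
  rw [e1, e2, e3]
  have g3 : 2 * t * (∫ x in K, A (ext I ζ x)) - t ^ 2 * (∫ x in K, B (ext I ζ x)) ≤
      ∫ x in K, XS s b (ext I ζ x) ^ 2 := by
    have g4 := mul_le_mul_of_nonneg_left g1 (by positivity : 0 ≤ 2 * t)
    have g5 := mul_le_mul_of_nonneg_left g2 (sq_nonneg t)
    linarith
  have g6 := mul_le_mul_of_nonneg_left g3 (inv_nonneg.mpr hv0.le)
  refine le_trans (le_of_eq ?_) g6
  ring

/-- **Cramér–Rao under a DLR law.** -/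
theorem cr_dlr {μ : Measure (ℤ × ℤ → ℝ)} [IsProbabilityMeasure μ]
    (hlip : ∀ᵐ h ∂μ, ∀ v w, |h v - h w| ≤ (hd v w : ℝ)) (htr : ∀ x, μ.map (shft x) = μ)
    (hD : Dlr μ) {I s : Finset (ℤ × ℤ)} {b : ℤ × ℤ → ℝ} (hb : ∑ p ∈ s, b p = 0)
    {A B : (ℤ × ℤ → ℝ) → ℝ} (hA : LS A) (hB : LS B)
    (hF : ∀ ζ : ℤ × ℤ → ℝ, (∀ v w, |ζ v - ζ w| ≤ (hd v w : ℝ)) → FibF I s b A B ζ)
    {t : ℝ} (ht : 0 ≤ t) :
    2 * t * (∫ h, A h ∂μ) - t ^ 2 * (∫ h, B h ∂μ) ≤ CV (vg0 μ) s b s b := by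
  have h1 : ∫ h, XS s b h ^ 2 ∂μ = ∫ h, XC s b h ∂μ := by
    refine integral_congr_ae ?_
    filter_upwards [hlip] with h hh
    rw [XC_eq hb hh]
  rw [CV_vg0 hlip htr hb, h1, hD.ls I (XC_LS hb), hD.ls I hA, hD.ls I hB,
    ← integral_const_mul, ← integral_const_mul, ← integral_sub]
  · refine integral_mono_ae ?_ (integrable_Ev (XC_LS hb)) ?_
    · exact ((integrable_Ev hA).const_mul _).sub ((integrable_Ev hB).const_mul _)
    · filter_upwards [hlip] with ζ hζ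
      exact fib_le hb hA hB hζ (hF ζ hζ) ht
  · exact (integrable_Ev hA).const_mul _
  · exact (integrable_Ev hB).const_mul _

end Crest.Agent.R144.KapE761
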