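import Mathlib
import Crest.Agent.R144.KapE3_761
import Crest.Agent.R144.Lc18_279
import Crest.Agent.R144.Lmu7_425

/-!
# R144 (S0197), helper761, KAP-END, part 4: the tori

* **`two_mu0 : Two (vg0 mu0)`**, **`mu0_e1_le`**, from helper279's local convergence on the tori;
* **`kapD_mu0`** : (KAP) in the asymptotic form from the lower bounds at fixed accuracy under `μ₀`;
* `cr_mu0` : Cramér–Rao under `μ₀`.
-/

set_option autoImplicit false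
set_option linter.unusedSectionVars false

open MeasureTheory Set Function Filter Topology
open scoped ENNReal NNReal Real ContDiff

noncomputable section

namespace Crest.Agent.R144.KapE761

open Crest.Agent.R144.Tor95
open Crest.Agent.R144.Tp952 (Two sw)
open Crest.Agent.R144.Cw643 (CV)
open Crest.Agent.R144.Lw425 (LObs hd)
open Crest.Agent.R144.Lc279 (Ev lat P2 mu0 isMu0 tlc_rect tlc_rect_sw)

theorem tendsto_k2 : Tendsto (fun k : ℕ => (k : ℤ) + 2) atTop atTop :=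
  tendsto_atTop_add_const_right _ _ tendsto_natCast_atTop_atTop

/-- **the variogram of `μ₀` satisfies `Two`** -/
theorem two_mu0 : Two (vg0 mu0) := by
  have h1 : ∀ k : ℕ, Finite ((ℤ × ℤ) ⧸ rect ((k : ℤ) + 3) ((k : ℤ) + 2)) := fun k =>
    finite_rect (by omega) (by omega)
  have h2 : ∀ k : ℕ, Finite ((ℤ × ℤ) ⧸
      (rect ((k : ℤ) + 3) ((k : ℤ) + 2)).map swE.toAddMonoidHom) := fun k => finite_map swE
  have i1 : ∀ k : ℕ, Fintype ((ℤ × ℤ) ⧸ rect ((k : ℤ) + 3) ((k : ℤ) + 2)) := fun k =>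
    Fintype.ofFinite _
  have i2 : ∀ k : ℕ, Fintype ((ℤ × ℤ) ⧸
      (rect ((k : ℤ) + 3) ((k : ℤ) + 2)).map swE.toAddMonoidHom) := fun k => Fintype.ofFinite _
  exact two_vg0 (N := fun k => (k : ℤ) + 3) (m := fun k => (k : ℤ) + 2) isMu0.lip tendsto_k2
    (fun r f hf => tlc_rect hf) (fun r f hf => tlc_rect_sw hf)

theorem mu0_e1_le : vg0 mu0 (1, 0) ≤ 1 / 3 := by
  have h1 : ∀ k : ℕ, Finite ((ℤ × ℤ) ⧸ rect ((k : ℤ) + 3) ((k : ℤ) + 2)) := fun k =>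
    finite_rect (by omega) (by omega)
  have h2 : ∀ k : ℕ, Finite ((ℤ × ℤ) ⧸
      (rect ((k : ℤ) + 3) ((k : ℤ) + 2)).map swE.toAddMonoidHom) := fun k => finite_map swE
  have i1 : ∀ k : ℕ, Fintype ((ℤ × ℤ) ⧸ rect ((k : ℤ) + 3) ((k : ℤ) + 2)) := fun k =>
    Fintype.ofFinite _
  have i2 : ∀ k : ℕ, Fintype ((ℤ × ℤ) ⧸
      (rect ((k : ℤ) + 3) ((k : ℤ) + 2)).map swE.toAddMonoidHom) := fun k => Fintype.ofFinite _
  exact vg0_e1_le (N := fun k => (k : ℤ) + 3) (m := fun k => (k : ℤ) + 2) isMu0.lip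
    (fun r f hf => tlc_rect hf)

/-- **(KAP), asymptotic form, for `μ₀`, from the lower bounds at fixed accuracy** -/
theorem kapD_mu0 (ab : ℕ → ℝ → ℝ) {c0 : ℝ} (hc0 : 0 < c0)
    (hlow : ∀ ψ : ℂ → ℝ, ContDiff ℝ ∞ ψ → HasCompactSupport ψ → ∀ ε : ℝ, 0 < ε → ∀ b0 : ℝ,
      0 < b0 → ∃ r1, ∀ r, r1 ≤ r → ∀ b, b0 ≤ b → (∀ L, ab r L ≤ b) →
        LowN (vg0 mu0) (c0 / b * ∫ z, ‖fderiv ℝ ψ z‖ ^ 2) ε ψ) :
    ∀ ε : ℝ, 0 < ε → ∃ r1, ∀ r, r1 ≤ r → ∃ L, c0 * π / 2 - ε ≤ ab r L :=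
  kapD two_mu0 mu0_e1_le ab hc0 hlow

theorem dlr_mu0' : Dlr mu0 := fun I _ _ hF => Lw425.dlr hF I

instance isProb_mu0 : IsProbabilityMeasure mu0 := isMu0.prob

/-- **Cramér–Rao under `μ₀`.** -/
theorem cr_mu0 {I s : Finset (ℤ × ℤ)} {b : ℤ × ℤ → ℝ} (hb : ∑ p ∈ s, b p = 0)
    {A B : (ℤ × ℤ → ℝ) → ℝ} (hA : LS A) (hB : LS B)
    (hF : ∀ ζ : ℤ × ℤ → ℝ, (∀ v w, |ζ v - ζ w| ≤ (hd v w : ℝ)) → FibF I s b A B ζ)
    {t : ℝ} (ht : 0 ≤ t) :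
    2 * t * (∫ h, A h ∂mu0) - t ^ 2 * (∫ h, B h ∂mu0) ≤ CV (vg0 mu0) s b s b :=
  cr_dlr isMu0.lip isMu0.trans dlr_mu0' hb hA hB hF ht

end Crest.Agent.R144.KapE761
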