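import Mathlib
import Crest.Agent.R144.Skel98_144
import Crest.Agent.R144.Con10_549
import Crest.Agent.R144.Cnt2_268

/-!
# R144 (S0197), LOW-LIM (helper549), part 1: test function, region, weights

* `exists_test` : a test function `u` with `∫ f u` and `∫ |∇u|²` close to the Green form;
* `exists_region` : an open region with null frontier around a compact set;
* `rg I G n` : the free sites in the region; `sites_rg`;
* `fderiv_X` : the derivative of the linear statistic; `tendsto_weights`.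
-/

set_option autoImplicit false

open MeasureTheory Metric Set Filter Topology Laplacian
open scoped ComplexConjugate ContDiff

namespace Crest.Agent.R144.LowL549

open Crest.Agent.R144.Skel144 Crest.Agent.R144.Con549 Crest.Agent.R144.Cnt268
open Crest.Agent.R144.Geo268 (Tst wA tri_eventually wA_eq ker_tent wK)
open Crest.Agent.R144.Ham560 (ext ham ext_mem ext_notMem)
open Crest.ProbabilityR.TriHeights
open Crest.ProbabilityR.HexHeights (centre domainGreenForm)

noncomputable section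

variable (I : Inst)

theorem isTest_f : IsTest I.D I.f := ⟨I.hf, I.hfc, I.hfs⟩

/-- the test function -/
theorem exists_test {ε : ℝ} (hε : 0 < ε) : ∃ u : ℂ → ℝ, IsTest I.D u ∧
    |(∫ z, I.f z * u z) - I.g| ≤ ε ∧ |(∫ z, ‖fderiv ℝ u z‖ ^ 2) - I.g| ≤ ε := by
  obtain ⟨ψ, B⟩ := exists_bih I.hD.1 I.hφ I.hbij
  obtain ⟨u, hu, h1, _, h3⟩ := exists_dirichlet B (isTest_f I) hε
  have h4 := dirichlet_le B hu (isTest_f I)
  have h5 := abs_lt.mp h3
  refine ⟨u, hu, ?_, ?_⟩
  · change |_ - domainGreenForm I.φ I.f| ≤ ε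
    rw [abs_le]
    constructor <;> linarith [h5.1, h5.2]
  · change |_ - domainGreenForm I.φ I.f| ≤ ε
    rw [abs_le]
    constructor <;> linarith [h5.1, h5.2]

theorem g_nonneg : 0 ≤ I.g := by
  obtain ⟨ψ, B⟩ := exists_bih I.hD.1 I.hφ I.hbij
  exact DG_nonneg B (isTest_f I)

/-- an open region with null frontier around a compact set -/
theorem exists_region {K D : Set ℂ} (hK : IsCompact K) (hD : IsOpen D) (hKD : K ⊆ D) :
    ∃ G : Set ℂ, IsOpen G ∧ IsCompact (closure G) ∧ closure G ⊆ D ∧ K ⊆ G ∧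
      volume (frontier G) = 0 := by
  have hx : ∀ x ∈ K, ∃ r : ℝ, 0 < r ∧ closedBall x r ⊆ D := by
    intro x hx
    obtain ⟨r, hr, h⟩ := Metric.isOpen_iff.mp hD x (hKD hx)
    exact ⟨r / 2, by positivity, (closedBall_subset_ball (by linarith)).trans h⟩
  choose! r hr hrD using hx
  obtain ⟨t, ht, hcov⟩ := hK.elim_nhds_subcover (fun x => ball x (r x))
    fun x hx => ball_mem_nhds x (hr x hx)
  have hcl : closure (⋃ x ∈ t, ball x (r x)) ⊆ ⋃ x ∈ t, closedBall x (r x) := by
    refine closure_minimal (iUnion₂_mono fun x _ => ball_subset_closedBall) ?_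
    exact t.finite_toSet.isClosed_biUnion fun x _ => isClosed_closedBall
  have hcp : IsCompact (⋃ x ∈ t, closedBall x (r x)) :=
    t.finite_toSet.isCompact_biUnion fun x _ => isCompact_closedBall _ _
  refine ⟨⋃ x ∈ t, ball x (r x), isOpen_biUnion fun x _ => isOpen_ball,
    hcp.of_isClosed_subset isClosed_closure hcl, ?_, hcov, ?_⟩
  · exact hcl.trans (iUnion₂_subset fun x hx => hrD x (ht x hx))
  · have hsub : frontier (⋃ x ∈ t, ball x (r x)) ⊆ ⋃ x ∈ t, sphere x (r x) := by
      intro z hz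
      have ho : IsOpen (⋃ x ∈ t, ball x (r x)) := isOpen_biUnion fun x _ => isOpen_ball
      rw [frontier, ho.interior_eq] at hz
      obtain ⟨x, hx, hzx⟩ := mem_iUnion₂.mp (hcl hz.1)
      refine mem_iUnion₂.mpr ⟨x, hx, ?_⟩
      have h1 : z ∉ ball x (r x) := fun h => hz.2 (mem_iUnion₂.mpr ⟨x, hx, h⟩)
      rw [mem_closedBall] at hzx
      rw [mem_ball, not_lt] at h1
      exact le_antisymm hzx h1
    refine measure_mono_null hsub ?_
    refine (measure_biUnion_null_iff t.countable_toSet).mpr fun x hx => ?_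
    exact Measure.addHaar_sphere_of_ne_zero volume x (hr x (ht x hx)).ne'

/-- the free sites of the region `G` -/
def rg (I : Inst) (G : Set ℂ) (n : ℕ) : Finset (ℤ × ℤ) := by
  classical
  exact (I.Fr n).filter fun v => centre (I.δ n) v ∈ G

theorem mem_rg {I : Inst} {G : Set ℂ} {n : ℕ} {v : ℤ × ℤ} :
    v ∈ rg I G n ↔ v ∈ I.Fr n ∧ centre (I.δ n) v ∈ G := by
  classical
  unfold rg
  rw [Finset.mem_filter]

theorem rg_subset (G : Set ℂ) (n : ℕ) : rg I G n ⊆ I.Fr n := fun _ hv => (mem_rg.mp hv).1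

theorem sites : Sites I.D I.δ I.Fr := sites_tri I.hD I.hM

theorem rg_full {G : Set ℂ} (hG : IsCompact (closure G)) (hGD : closure G ⊆ I.D) :
    ∀ᶠ n in atTop, ∀ v, centre (I.δ n) v ∈ G → v ∈ rg I G n := by
  filter_upwards [(sites I).inn _ hG hGD] with n hn v hv
  exact mem_rg.mpr ⟨hn v (subset_closure hv), hv⟩

theorem sites_rg {G : Set ℂ} (ho : IsOpen G) (hG : IsCompact (closure G)) (hGD : closure G ⊆ I.D)
    (hnull : volume (frontier G) = 0) : Sites G I.δ (rg I G) where
  opn := ho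
  bdd := hG.isBounded.subset subset_closure
  nul := hnull
  pos := I.hM.1
  lim := I.hM.2.1
  inn := by
    intro K hK hKG
    filter_upwards [rg_full I hG hGD] with n hn v hv
    exact hn v (hKG hv)
  out := by
    intro ε hε
    refine Eventually.of_forall fun n v hv => ?_
    exact self_subset_cthickening G (mem_rg.mp hv).2

/-- the derivative of the linear statistic -/
theorem fderiv_X : ∀ᶠ n in atTop, ∀ x Y : I.Fr n → ℝ,
    fderiv ℝ (I.X n) x Y = ∑ v : I.Fr n, wA (I.δ n) I.f v * Y v := by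
  have hT : Tst I.D I.f := ⟨I.hf.continuous, I.hfc, I.hfs⟩
  filter_upwards [tri_eventually I.hD I.hM hT] with n hn x Y
  have hX : ∀ x : I.Fr n → ℝ, I.X n x = ∑ v : I.Fr n, wA (I.δ n) I.f v * x v := by
    intro x
    change affinePairing (I.δ n) (I.T n) I.f (ext (I.Fr n) (I.xi n) x) = _
    rw [hn.2, ← Finset.sum_coe_sort]
    refine Finset.sum_congr rfl fun v _ => ?_
    rw [ext_mem v.2, mul_comm]
  let A : (I.Fr n → ℝ) →L[ℝ] ℝ :=
    ∑ v : I.Fr n, (wA (I.δ n) I.f v) • (ContinuousLinearMap.proj (R := ℝ) v : (I.Fr n → ℝ) →L[ℝ] ℝ)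
  have hA : ∀ x, A x = ∑ v : I.Fr n, wA (I.δ n) I.f v * x v := by
    intro x
    simp [A, _root_.sum_apply]
  have h1 : I.X n = fun x => A x := by
    funext x
    rw [hX, hA]
  rw [h1]
  rw [ContinuousLinearMap.fderiv]
  exact hA Y

/-- the total weight of a test function -/
theorem tendsto_weights {u : ℂ → ℝ} (hu : Continuous u) : Tendsto (fun n =>
    ∑ v ∈ I.Fr n, wA (I.δ n) I.f v * u (centre (I.δ n) v)) atTop
    (𝓝 (∫ z, I.f z * u z)) := by
  have hs := sites I
  have hfc : Continuous I.f := I.hf.continuous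
  -- uniform approximation of the weights
  obtain ⟨M, hM⟩ := (show Tst I.D I.f from ⟨hfc, I.hfc, I.hfs⟩).bdd
  have hR := hs.riemann (φ := fun z => I.f z * u z) (hfc.mul hu)
  have hint : ∫ z in I.D, I.f z * u z = ∫ z, I.f z * u z := by
    refine setIntegral_eq_integral_of_forall_compl_eq_zero fun z hz => ?_
    rw [(isTest_f I).eq_zero hz, zero_mul]
  rw [hint] at hR
  -- `u` is bounded near `D`
  obtain ⟨B, hB⟩ := (hs.compact_cth 1).exists_bound_of_continuousOn hu.continuousOn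
  have hB0 : ∀ᶠ n in atTop, ∀ v ∈ I.Fr n, |u (centre (I.δ n) v)| ≤ max B 0 := by
    filter_upwards [hs.out 1 one_pos] with n hn v hv
    exact (hB _ (hn v hv)).trans (le_max_left _ _)
  obtain ⟨Cc, hCc, hcard⟩ := hs.card_bdd
  rw [Metric.tendsto_atTop']
  intro ε hε
  set B' : ℝ := max B 0 + 1 with hB'
  have hB'0 : 0 < B' := by positivity
  set η : ℝ := ε / (4 * Cc * B') with hη
  have hη0 : 0 < η := by positivity
  -- uniform continuity of `f`
  have huc : UniformContinuous I.f := I.hfc.uniformContinuous_of_continuous hfc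
  obtain ⟨ρ, hρ, hρ'⟩ := Metric.uniformContinuous_iff.mp huc η hη0
  have e1 := hs.small (show 0 < ρ / 4 by positivity)
  have e2 : ∀ᶠ n in atTop, |vc (I.δ n) * ∑ v ∈ I.Fr n, I.f (centre (I.δ n) v) *
      u (centre (I.δ n) v) - ∫ z, I.f z * u z| < ε / 2 := by
    have := Metric.tendsto_nhds.mp hR (ε / 2) (by positivity)
    simpa only [Real.dist_eq] using this
  obtain ⟨N, hN⟩ := eventually_atTop.mp (e1.and (e2.and hB0))
  refine ⟨N, fun n hn => ?_⟩
  obtain ⟨a1, a2, a3⟩ := hN n hn.le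
  have hδ : 0 < I.δ n := I.hM.1 n
  rw [Real.dist_eq]
  have key : |∑ v ∈ I.Fr n, wA (I.δ n) I.f v * u (centre (I.δ n) v) -
      vc (I.δ n) * ∑ v ∈ I.Fr n, I.f (centre (I.δ n) v) * u (centre (I.δ n) v)| ≤ ε / 4 := by
    rw [Finset.mul_sum, ← Finset.sum_sub_distrib]
    refine (Finset.abs_sum_le_sum_abs _ _).trans ?_
    have h1 : ∀ v ∈ I.Fr n, |wA (I.δ n) I.f v * u (centre (I.δ n) v) -
        vc (I.δ n) * (I.f (centre (I.δ n) v) * u (centre (I.δ n) v))| ≤
        vc (I.δ n) * η * B' := by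
      intro v hv
      have h2 : |wA (I.δ n) I.f v - vc (I.δ n) * I.f (centre (I.δ n) v)| ≤ vc (I.δ n) * η := by
        rw [wA_eq hδ]
        refine wK_close ker_tent hδ.le hfc ⟨M, hM⟩ fun z hz => ?_
        have := hρ' (show dist z (centre (I.δ n) v) < ρ by rw [dist_eq_norm]; linarith)
        rw [Real.dist_eq] at this
        exact this.le
      have h3 : wA (I.δ n) I.f v * u (centre (I.δ n) v) -
          vc (I.δ n) * (I.f (centre (I.δ n) v) * u (centre (I.δ n) v)) =
          (wA (I.δ n) I.f v - vc (I.δ n) * I.f (centre (I.δ n) v)) * u (centre (I.δ n) v) := by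
        ring
      rw [h3, abs_mul]
      refine mul_le_mul h2 ?_ (abs_nonneg _) (mul_nonneg (vc_nonneg _) hη0.le)
      have := a3 v hv
      rw [hB']; linarith
    refine (Finset.sum_le_sum h1).trans ?_
    rw [Finset.sum_const, nsmul_eq_mul]
    have h4 : vc (I.δ n) ≤ I.δ n ^ 2 := by
      have h5 : Real.sqrt 3 ≤ 2 := by
        rw [show (2 : ℝ) = Real.sqrt 4 by rw [show (4 : ℝ) = 2 ^ 2 by norm_num]; simp]
        exact Real.sqrt_le_sqrt (by norm_num)
      unfold vc
      nlinarith [sq_nonneg (I.δ n)]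
    calc ((I.Fr n).card : ℝ) * (vc (I.δ n) * η * B') ≤
          ((I.Fr n).card : ℝ) * (I.δ n ^ 2 * η * B') := by gcongr
      _ = (I.δ n ^ 2 * (I.Fr n).card) * (η * B') := by ring
      _ ≤ Cc * (η * B') := by
          gcongr
          exact hcard n
      _ = ε / 4 := by rw [hη]; field_simp
  have h6 := abs_sub_le (∑ v ∈ I.Fr n, wA (I.δ n) I.f v * u (centre (I.δ n) v))
    (vc (I.δ n) * ∑ v ∈ I.Fr n, I.f (centre (I.δ n) v) * u (centre (I.δ n) v))
    (∫ z, I.f z * u z)
  linarith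

/-- uniform bound of the weights -/
theorem exists_wA_le : ∃ M : ℝ, 0 < M ∧ ∀ n v, |wA (I.δ n) I.f v| ≤ M * I.δ n ^ 2 := by
  obtain ⟨M, hM⟩ := (show Tst I.D I.f from ⟨I.hf.continuous, I.hfc, I.hfs⟩).bdd
  refine ⟨Real.sqrt 3 / 2 * |M| + 1, by positivity, fun n v => ?_⟩
  have hδ : 0 < I.δ n := I.hM.1 n
  rw [wA_eq hδ]
  refine (ker_tent.w_le hM v).trans ?_
  have h1 : M ≤ |M| := le_abs_self M
  have h2 : 0 ≤ Real.sqrt 3 / 2 * I.δ n ^ 2 := by positivity
  nlinarith [mul_le_mul_of_nonneg_left h1 h2, sq_nonneg (I.δ n)]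

end

end Crest.Agent.R144.LowL549
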