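import Mathlib
import Crest.Agent.R144.LowL1_549
import Crest.Agent.R144.LowL2_549
import Crest.Agent.R144.Con4_549
import Crest.Agent.R144.Lmu6_425

/-!
# R144 (S0197), LOW-LIM (helper549), part 5: limit of the main term

`LLN G δ Rg ν μ` : averaged local convergence of the laws `ν n` on the regions `Rg n`.
`slp u δ q i` : slope of `u ∘ centre δ` at `q` in index coordinates.
`main_le` : the sum over orientations and classes of the block functionals.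
-/

set_option autoImplicit false

open MeasureTheory Metric Set Filter Topology
open scoped ComplexConjugate ContDiff

namespace Crest.Agent.R144.LowL549

open Crest.Agent.R144.Skel144 Crest.Agent.R144.Con549 Crest.Agent.R144.Cnt268
open Crest.Agent.R144.Bl565 Crest.Agent.R144.HexTil353
open Crest.Agent.R144.Lc279 (P2 bx)
open Crest.Agent.R144.Lw425 (LObs hball hd mem_hball)
open Crest.ProbabilityR.HexHeights (centre)

noncomputable section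

/-- averaged local convergence -/
def LLN (G : Set ℂ) (δ : ℕ → ℝ) (Rg : ℕ → Finset P2) (ν : ℕ → Measure (P2 → ℝ))
    (μ : Measure (P2 → ℝ)) : Prop :=
  ∀ r f, LObs r f → ∀ F : ℂ → ℝ, Continuous F → HasCompactSupport F → tsupport F ⊆ G →
    Tendsto (fun n => δ n ^ 2 * ∑ v ∈ Rg n, F (centre (δ n) v) * ∫ h, f (fun a => h (v + a)) ∂(ν n))
      atTop (𝓝 (2 / Real.sqrt 3 * (∫ z, F z) * ∫ h, f h ∂μ))

/-- local observables up to scaling -/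
def SObs (r : ℕ) (f : (P2 → ℝ) → ℝ) : Prop := ∃ C : ℝ, 0 < C ∧ LObs r fun h => C⁻¹ * f h

theorem LLN.scaled {G : Set ℂ} {δ : ℕ → ℝ} {Rg : ℕ → Finset P2} {ν : ℕ → Measure (P2 → ℝ)}
    {μ : Measure (P2 → ℝ)} (h : LLN G δ Rg ν μ) {r : ℕ} {f : (P2 → ℝ) → ℝ} (hf : SObs r f)
    {F : ℂ → ℝ} (hF : Continuous F) (hFc : HasCompactSupport F) (hFs : tsupport F ⊆ G) :
    Tendsto (fun n => δ n ^ 2 * ∑ v ∈ Rg n, F (centre (δ n) v) *
      ∫ h, f (fun a => h (v + a)) ∂(ν n))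
      atTop (𝓝 (2 / Real.sqrt 3 * (∫ z, F z) * ∫ h, f h ∂μ)) := by
  obtain ⟨C, hC, hf⟩ := hf
  have h1 := (h r _ hf F hF hFc hFs).const_mul C
  have e1 : ∀ n, C * (δ n ^ 2 * ∑ v ∈ Rg n, F (centre (δ n) v) *
      ∫ h, C⁻¹ * f (fun a => h (v + a)) ∂(ν n)) =
      δ n ^ 2 * ∑ v ∈ Rg n, F (centre (δ n) v) * ∫ h, f (fun a => h (v + a)) ∂(ν n) := by
    intro n
    rw [mul_left_comm, Finset.mul_sum]
    congr 1
    refine Finset.sum_congr rfl fun v _ => ?_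
    rw [integral_const_mul]
    field_simp
  have e2 : C * (2 / Real.sqrt 3 * (∫ z, F z) * ∫ h, C⁻¹ * f h ∂μ) =
      2 / Real.sqrt 3 * (∫ z, F z) * ∫ h, f h ∂μ := by
    rw [integral_const_mul]
    field_simp
  simp only [e1, e2] at h1
  exact h1

theorem SObs.meas {r : ℕ} {f : (P2 → ℝ) → ℝ} (hf : SObs r f) : Measurable f := by
  obtain ⟨C, hC, hf⟩ := hf
  have h1 := hf.meas.const_mul C
  have e : (fun h => C * (C⁻¹ * f h)) = f := by
    funext h; field_simp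
  rwa [e] at h1

theorem SObs.bdd {r : ℕ} {f : (P2 → ℝ) → ℝ} (hf : SObs r f) : ∃ C : ℝ, ∀ h, |f h| ≤ C := by
  obtain ⟨C, hC, hf⟩ := hf
  refine ⟨C, fun h => ?_⟩
  have h1 := hf.bd h
  rw [abs_mul, abs_inv, abs_of_pos hC, inv_mul_le_iff₀ hC, mul_one] at h1
  exact h1

theorem SObs.shift {r : ℕ} {f : (P2 → ℝ) → ℝ} (hf : SObs r f) (h : P2 → ℝ) (c : ℝ) :
    f (fun a => h a + c) = f h := by
  obtain ⟨C, hC, hf⟩ := hf
  have h1 := hf.shift h c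
  have h2 : C⁻¹ ≠ 0 := inv_ne_zero hC.ne'
  exact mul_left_cancel₀ h2 h1

theorem sg_mem_hball (s : ℕ) (o : Fin 3) {R : ℕ} {v : P2} (hv : v ∈ hball R) :
    sg s o v ∈ hball (2 * R + 4 * s + 4) := by
  rw [mem_hball, Lw425.hd_le_iff] at hv ⊢
  simp only [Prod.fst_zero, Prod.snd_zero, sub_zero] at hv ⊢
  obtain ⟨⟨h1, h2⟩, ⟨h3, h4⟩, h5, h6⟩ := hv
  fin_cases o
  · change (_ ≤ (sg s 0 v).1 ∧ (sg s 0 v).1 ≤ _) ∧ (_ ≤ (sg s 0 v).2 ∧ (sg s 0 v).2 ≤ _) ∧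
      _ ≤ (sg s 0 v).1 + (sg s 0 v).2 ∧ (sg s 0 v).1 + (sg s 0 v).2 ≤ _
    rw [sg_zero]
    push_cast
    refine ⟨⟨?_, ?_⟩, ⟨?_, ?_⟩, ?_, ?_⟩ <;> omega
  · change (_ ≤ (sg s 1 v).1 ∧ (sg s 1 v).1 ≤ _) ∧ (_ ≤ (sg s 1 v).2 ∧ (sg s 1 v).2 ≤ _) ∧
      _ ≤ (sg s 1 v).1 + (sg s 1 v).2 ∧ (sg s 1 v).1 + (sg s 1 v).2 ≤ _
    rw [sg_one]
    push_cast
    refine ⟨⟨?_, ?_⟩, ⟨?_, ?_⟩, ?_, ?_⟩ <;> omega
  · change (_ ≤ (sg s 2 v).1 ∧ (sg s 2 v).1 ≤ _) ∧ (_ ≤ (sg s 2 v).2 ∧ (sg s 2 v).2 ≤ _) ∧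
      _ ≤ (sg s 2 v).1 + (sg s 2 v).2 ∧ (sg s 2 v).1 + (sg s 2 v).2 ≤ _
    rw [sg_two]
    push_cast
    refine ⟨⟨?_, ?_⟩, ⟨?_, ?_⟩, ?_, ?_⟩ <;> omega

/-- rotated local observables -/
theorem SObs.rot {r : ℕ} {f : (P2 → ℝ) → ℝ} (hf : SObs r f) (s : ℕ) (o : Fin 3) :
    SObs (2 * r + 4 * s + 4) fun h => f (fun v => h (sg s o v)) := by
  obtain ⟨C, hC, hf⟩ := hf
  exact ⟨C, hC,
    { meas := hf.meas.comp (measurable_rt (sg s o))
      bd := fun h => hf.bd _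
      loc := fun h h' hh => hf.loc _ _ fun a ha => hh _ (sg_mem_hball s o ha)
      shift := fun h c => hf.shift (fun v => h (sg s o v)) c }⟩

/-! ### slopes -/

/-- the edge directions of the index coordinates -/
def ev (i : Fin 2) : ℂ := ![cen 1 1 0, cen 1 0 1] i

/-- slope of `u` at `z`, in index coordinates -/
def nu (u : ℂ → ℝ) (z : ℂ) (i : Fin 2) : ℝ := fderiv ℝ u z (ev i)

theorem nu_sq (u : ℂ → ℝ) (z : ℂ) :
    nu u z 0 ^ 2 - nu u z 0 * nu u z 1 + nu u z 1 ^ 2 = 3 / 4 * ‖fderiv ℝ u z‖ ^ 2 := by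
  have h3 : Real.sqrt 3 ^ 2 = 3 := Real.sq_sqrt (by norm_num)
  have e0 : nu u z 0 = fderiv ℝ u z (cen 1 1 0) := rfl
  have e1 : nu u z 1 = fderiv ℝ u z (cen 1 0 1) := rfl
  have g0 : (gr u z).re = fderiv ℝ u z 1 := rfl
  have g1 : (gr u z).im = fderiv ℝ u z Complex.I := rfl
  rw [← norm_gr, Complex.sq_norm, Complex.normSq_apply, e0, e1, g0, g1,
    fderiv_apply_eq u z (cen 1 1 0), fderiv_apply_eq u z (cen 1 0 1), cen_re, cen_im, cen_re,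
    cen_im]
  ring_nf
  rw [h3]
  ring

theorem continuous_nu {D : Set ℂ} {u : ℂ → ℝ} (hu : IsTest D u) (i : Fin 2) :
    Continuous fun z => nu u z i := by
  unfold nu
  exact (hu.smooth.continuous_fderiv (by simp)).clm_apply continuous_const

theorem nu_eq_zero {u : ℂ → ℝ} {z : ℂ} (hz : z ∉ tsupport u) (i : Fin 2) : nu u z i = 0 := by
  unfold nu
  have h : fderiv ℝ u z = 0 := by
    have h1 : z ∉ tsupport (fderiv ℝ u) := fun h => hz (tsupport_fderiv_subset ℝ h)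
    exact image_eq_zero_of_notMem_tsupport h1
  rw [h]; rfl

theorem tw_nu (o : Fin 3) (c : ℝ) (y : Fin 2 → ℝ) (j : Fin 2) :
    tw (prm o) (fun i => c * y i) j = c * tw (prm o) y j := by
  unfold tw
  rw [Finset.mul_sum]
  exact Finset.sum_congr rfl fun i _ => by ring

theorem qd_smul (B : Matrix (Fin 2) (Fin 2) ℝ) (c : ℝ) (y : Fin 2 → ℝ) :
    qd B (fun i => c * y i) = c ^ 2 * qd B y := by
  rw [qd_eq, qd_eq]; ring

end

end Crest.Agent.R144.LowL549
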