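import Mathlib
import Crest.Agent.R144.LowL5_549

/-!
# R144 (S0197), LOW-LIM (helper549), part 6: limit of the main term

`main_le` : the sum over the orientations and the classes of the expected block functionals.
-/

set_option autoImplicit false

open MeasureTheory Metric Set Filter Topology
open scoped ComplexConjugate ContDiff

namespace Crest.Agent.R144.LowL549

open Crest.Agent.R144.Skel144 Crest.Agent.R144.Con549 Crest.Agent.R144.Cnt268
open Crest.Agent.R144.Bl565 Crest.Agent.R144.HexTil353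
open Crest.Agent.R144.Lc279 (P2 bx)
open Crest.Agent.R144.Lw425 (LObs hball hd mem_hball)
open Crest.ProbabilityR.HexHeights (centre)

noncomputable section

/-- an admissible local matrix -/
structure LMat (R : ℕ) (Φ : (P2 → ℝ) → Matrix (Fin 2) (Fin 2) ℝ) : Prop where
  obs : ∀ i j, SObs R fun h => Φ h i j
  symm : ∀ h, Φ h 0 1 = Φ h 1 0
  psd : ∀ h y, 0 ≤ qd (Φ h) y

/-- its mean -/
def mM (μ : Measure (P2 → ℝ)) (Φ : (P2 → ℝ) → Matrix (Fin 2) (Fin 2) ℝ) :
    Matrix (Fin 2) (Fin 2) ℝ := Matrix.of fun i j => ∫ h, Φ h i j ∂μ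

/-- the block functionals of one class -/
def mT (Φ : (P2 → ℝ) → Matrix (Fin 2) (Fin 2) ℝ) (u : ℂ → ℝ) (δ : ℝ) (r : ℕ) (o : Fin 3)
    (R : Finset P2) (c : P2) (h : P2 → ℝ) : ℝ :=
  ∑ q ∈ Qs r o R c, qd (Φ fun v => h (q + sg (r / 2) o v)) (tw (prm o) (nu u (centre δ q)))

variable {G : Set ℂ} {δ : ℕ → ℝ} {Rg : ℕ → Finset P2} {ν : ℕ → Measure (P2 → ℝ)}
  {μ : Measure (P2 → ℝ)} {R : ℕ} {Φ : (P2 → ℝ) → Matrix (Fin 2) (Fin 2) ℝ} {u : ℂ → ℝ}

theorem LMat.integrable (hΦ : LMat R Φ) (ν : Measure (P2 → ℝ)) [IsFiniteMeasure ν] (s : ℕ)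
    (o : Fin 3) (q : P2) (i j : Fin 2) :
    Integrable (fun h : P2 → ℝ => Φ (fun v => h (q + sg s o v)) i j) ν := by
  obtain ⟨C, hC⟩ := (hΦ.obs i j).bdd
  refine Integrable.of_bound (((hΦ.obs i j).meas.comp
    (measurable_rt fun v => q + sg s o v)).aestronglyMeasurable) C (ae_of_all _ fun h => ?_)
  rw [Real.norm_eq_abs]
  exact hC _

theorem LMat.integrable_qd (hΦ : LMat R Φ) (ν : Measure (P2 → ℝ)) [IsFiniteMeasure ν] (s : ℕ)
    (o : Fin 3) (q : P2) (y : Fin 2 → ℝ) :
    Integrable (fun h : P2 → ℝ => qd (Φ fun v => h (q + sg s o v)) y) ν := by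
  unfold qd
  exact integrable_finsetSum _ fun i _ => integrable_finsetSum _ fun j _ =>
    ((hΦ.integrable ν s o q i j).mul_const _).mul_const _

theorem LMat.integral_qd (hΦ : LMat R Φ) (ν : Measure (P2 → ℝ)) [IsFiniteMeasure ν] (s : ℕ)
    (o : Fin 3) (q : P2) (y : Fin 2 → ℝ) :
    ∫ h, qd (Φ fun v => h (q + sg s o v)) y ∂ν =
      ∑ i, ∑ j, y i * y j * ∫ h, Φ (fun v => h (q + sg s o v)) i j ∂ν := by
  unfold qd
  rw [integral_finsetSum _ fun i _ => integrable_finsetSum _ fun j _ =>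
    ((hΦ.integrable ν s o q i j).mul_const _).mul_const _]
  refine Finset.sum_congr rfl fun i _ => ?_
  rw [integral_finsetSum _ fun j _ => ((hΦ.integrable ν s o q i j).mul_const _).mul_const _]
  refine Finset.sum_congr rfl fun j _ => ?_
  rw [integral_mul_const, integral_mul_const]
  ring

theorem integrable_mT (hΦ : LMat R Φ) (ν : Measure (P2 → ℝ)) [IsFiniteMeasure ν] (u : ℂ → ℝ)
    (δ : ℝ) (r : ℕ) (o : Fin 3) (Rg : Finset P2) (c : P2) :
    Integrable (mT Φ u δ r o Rg c) ν := by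
  unfold mT
  exact integrable_finsetSum _ fun q _ => hΦ.integrable_qd ν _ o q _

theorem mT_nonneg (hΦ : LMat R Φ) (δ : ℝ) (r : ℕ) (o : Fin 3) (Rg : Finset P2) (c : P2)
    (h : P2 → ℝ) : 0 ≤ mT Φ u δ r o Rg c h :=
  Finset.sum_nonneg fun q _ => hΦ.psd _ _

/-- components of the rotated slope -/
theorem continuous_tw {D : Set ℂ} (hu : IsTest D u) (o : Fin 3) (i : Fin 2) :
    Continuous fun z => tw (prm o) (nu u z) i := by
  unfold tw
  exact continuous_finsetSum _ fun k _ => (continuous_nu hu k).mul continuous_const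

theorem tw_eq_zero {z : ℂ} (hz : z ∉ tsupport u) (o : Fin 3) (i : Fin 2) :
    tw (prm o) (nu u z) i = 0 := by
  unfold tw
  exact Finset.sum_eq_zero fun k _ => by rw [nu_eq_zero hz, zero_mul]

theorem tsupport_tw (o : Fin 3) (i j : Fin 2) :
    tsupport (fun z => tw (prm o) (nu u z) i * tw (prm o) (nu u z) j) ⊆ tsupport u := by
  refine closure_minimal (fun z hz => ?_) (isClosed_tsupport u)
  by_contra h
  exact hz (by simp only [tw_eq_zero h, zero_mul])

theorem compact_tw {D : Set ℂ} (hu : IsTest D u) (o : Fin 3) (i j : Fin 2) :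
    HasCompactSupport (fun z => tw (prm o) (nu u z) i * tw (prm o) (nu u z) j) :=
  hu.comp.of_isClosed_subset (isClosed_tsupport _) (tsupport_tw o i j)

/-- **the main term** -/
theorem main_le (hs : Sites G δ Rg) (hν : ∀ n, IsProbabilityMeasure (ν n))
    (hL : LLN G δ Rg ν μ) (hμ : Inv μ) (hu : IsTest G u) (hΦ : LMat R Φ) {r : ℕ} (hr : 2 ≤ r)
    {ε : ℝ} (hε : 0 < ε) : ∀ᶠ n in atTop,
      δ n ^ 2 * ∑ o, ∑ c ∈ bx (r / 2), ∫ h, mT Φ u (δ n) r o (Rg n) c h ∂(ν n) ≤
        Real.sqrt 3 * trE (mM μ Φ) * (∫ z, ‖fderiv ℝ u z‖ ^ 2) + ε := by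
  have hprob := hμ.prob
  set T : Fin 3 → Fin 2 → Fin 2 → ℂ → ℝ :=
    fun o i j z => tw (prm o) (nu u z) i * tw (prm o) (nu u z) j with hT
  have hTc : ∀ o i j, Continuous (T o i j) := fun o i j =>
    (continuous_tw hu o i).mul (continuous_tw hu o j)
  have hTk : ∀ o i j, HasCompactSupport (T o i j) := fun o i j => compact_tw hu o i j
  have hTi : ∀ o i j, Integrable (T o i j) := fun o i j =>
    (hTc o i j).integrable_of_hasCompactSupport (hTk o i j)
  -- the limit of the full sums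
  have hlim : Tendsto (fun n => ∑ o : Fin 3, ∑ i : Fin 2, ∑ j : Fin 2,
      δ n ^ 2 * ∑ q ∈ Rg n, T o i j (centre (δ n) q) *
        ∫ h, Φ (fun v => h (q + sg (r / 2) o v)) i j ∂(ν n)) atTop
      (𝓝 (∑ o : Fin 3, ∑ i : Fin 2, ∑ j : Fin 2,
        2 / Real.sqrt 3 * (∫ z, T o i j z) * mM μ Φ i j)) := by
    refine tendsto_finsetSum _ fun o _ => tendsto_finsetSum _ fun i _ =>
      tendsto_finsetSum _ fun j _ => ?_
    have h1 := hL.scaled ((hΦ.obs i j).rot (r / 2) o) (hTc o i j) (hTk o i j)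
      ((tsupport_tw o i j).trans hu.supp)
    have h2 : ∫ h, Φ (fun v => h (sg (r / 2) o v)) i j ∂μ = mM μ Φ i j :=
      hμ.integral_sg (F := fun h => Φ h i j) (hΦ.obs i j).meas
        (fun h c => (hΦ.obs i j).shift h c) (r / 2) o
    rw [h2] at h1
    exact h1
  -- the value of the limit
  have hval : ∑ o : Fin 3, ∑ i : Fin 2, ∑ j : Fin 2,
      2 / Real.sqrt 3 * (∫ z, T o i j z) * mM μ Φ i j =
      Real.sqrt 3 * trE (mM μ Φ) * ∫ z, ‖fderiv ℝ u z‖ ^ 2 := by
    have hsym : mM μ Φ 0 1 = mM μ Φ 1 0 := by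
      change ∫ h, Φ h 0 1 ∂μ = ∫ h, Φ h 1 0 ∂μ
      simp only [hΦ.symm]
    have h1 : ∑ o : Fin 3, ∑ i : Fin 2, ∑ j : Fin 2,
        2 / Real.sqrt 3 * (∫ z, T o i j z) * mM μ Φ i j =
        2 / Real.sqrt 3 * ∫ z, ∑ o : Fin 3, qd (mM μ Φ) (tw (prm o) (nu u z)) := by
      rw [integral_finsetSum, Finset.mul_sum]
      · refine Finset.sum_congr rfl fun o _ => ?_
        have h2 : ∫ z, qd (mM μ Φ) (tw (prm o) (nu u z)) =
            ∑ i : Fin 2, ∑ j : Fin 2, mM μ Φ i j * ∫ z, T o i j z := by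
          have e : (fun z => qd (mM μ Φ) (tw (prm o) (nu u z))) =
              fun z => ∑ i : Fin 2, ∑ j : Fin 2, mM μ Φ i j * T o i j z := by
            funext z
            unfold qd
            refine Finset.sum_congr rfl fun i _ => Finset.sum_congr rfl fun j _ => ?_
            simp only [hT]; ring
          rw [e, integral_finsetSum]
          · refine Finset.sum_congr rfl fun i _ => ?_
            rw [integral_finsetSum]
            · exact Finset.sum_congr rfl fun j _ => integral_const_mul _ _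
            · exact fun j _ => (hTi o i j).const_mul _
          · exact fun i _ => integrable_finsetSum _ fun j _ => (hTi o i j).const_mul _
        rw [h2, Finset.mul_sum]
        refine Finset.sum_congr rfl fun i _ => ?_
        rw [Finset.mul_sum]
        refine Finset.sum_congr rfl fun j _ => ?_
        ring
      · intro o _
        unfold qd
        refine integrable_finsetSum _ fun i _ => integrable_finsetSum _ fun j _ => ?_
        have e : (fun z => mM μ Φ i j * tw (prm o) (nu u z) i * tw (prm o) (nu u z) j) =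
            fun z => mM μ Φ i j * T o i j z := by
          funext z; simp only [hT]; ring
        rw [e]
        exact (hTi o i j).const_mul _
    rw [h1]
    simp only [sum_tw hsym, nu_sq]
    rw [integral_const_mul, integral_const_mul]
    have h3 : Real.sqrt 3 ≠ 0 := by positivity
    have h4 : Real.sqrt 3 * Real.sqrt 3 = 3 := Real.mul_self_sqrt (by norm_num)
    field_simp
    linear_combination (-4 * trE (mM μ Φ) * ∫ z, ‖fderiv ℝ u z‖ ^ 2) * h4
  rw [hval] at hlim
  have hev := hlim.eventually (gt_mem_nhds (show Real.sqrt 3 * trE (mM μ Φ) *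
    (∫ z, ‖fderiv ℝ u z‖ ^ 2) < Real.sqrt 3 * trE (mM μ Φ) * (∫ z, ‖fderiv ℝ u z‖ ^ 2) + ε by
      linarith))
  filter_upwards [hev, hs.inn _ hu.comp.isCompact hu.supp] with n h1 h2
  have hνn := hν n
  refine le_trans ?_ h1.le
  have e1 : ∑ o : Fin 3, ∑ i : Fin 2, ∑ j : Fin 2,
      δ n ^ 2 * ∑ q ∈ Rg n, T o i j (centre (δ n) q) *
        ∫ h, Φ (fun v => h (q + sg (r / 2) o v)) i j ∂(ν n) =
      δ n ^ 2 * ∑ o : Fin 3, ∑ q ∈ Rg n,
        ∫ h, qd (Φ fun v => h (q + sg (r / 2) o v)) (tw (prm o) (nu u (centre (δ n) q))) ∂(ν n) := by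
    simp only [hΦ.integral_qd (ν n), Finset.mul_sum]
    refine Finset.sum_congr rfl fun o _ => ?_
    have h3 : ∀ q, ∑ i : Fin 2, ∑ j : Fin 2, δ n ^ 2 * (tw (prm o) (nu u (centre (δ n) q)) i *
        tw (prm o) (nu u (centre (δ n) q)) j * ∫ h, Φ (fun v => h (q + sg (r / 2) o v)) i j ∂(ν n)) =
        ∑ i : Fin 2, ∑ j : Fin 2, δ n ^ 2 * (T o i j (centre (δ n) q) *
          ∫ h, Φ (fun v => h (q + sg (r / 2) o v)) i j ∂(ν n)) := fun q => rfl
    simp only [h3]
    symm
    rw [Finset.sum_comm]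
    refine Finset.sum_congr rfl fun i _ => ?_
    rw [Finset.sum_comm]
  rw [e1]
  refine mul_le_mul_of_nonneg_left (Finset.sum_le_sum fun o _ => ?_) (sq_nonneg _)
  have e2 : ∀ c, ∫ h, mT Φ u (δ n) r o (Rg n) c h ∂(ν n) = ∑ q ∈ Qs r o (Rg n) c,
      ∫ h, qd (Φ fun v => h (q + sg (r / 2) o v)) (tw (prm o) (nu u (centre (δ n) q)))
        ∂(ν n) := by
    intro c
    unfold mT
    exact integral_finsetSum _ fun q _ => hΦ.integrable_qd (ν n) _ o q _
  simp only [e2]
  refine sum_Qs_le hr o (Rg n) (Rg n) (fun q => integral_nonneg fun h => hΦ.psd _ _) fun q hq => ?_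
  have h4 : centre (δ n) q ∉ tsupport u := fun h => hq (h2 q h)
  have h5 : tw (prm o) (nu u (centre (δ n) q)) = 0 := by
    funext i; exact tw_eq_zero h4 o i
  rw [h5]
  have h6 : ∀ B : Matrix (Fin 2) (Fin 2) ℝ, qd B 0 = 0 := fun B => by
    rw [qd_eq]; simp
  simp only [h6, integral_zero]

end

end Crest.Agent.R144.LowL549
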