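import Mathlib
import Crest.Agent.R144.LowL6_549
import Crest.Agent.R144.LoC0_95

/-!
# R144 (S0197), LOW-LIM (helper549), part 7: the inputs of the numbers

`NumIn G δ Rg ν μ mf` : the laws `ν n` of the configurations on the regions `Rg n` converge locally
to `μ` (on average), and the lengths `mf n h w` of the cheap paths have good moments.
-/

set_option autoImplicit false

open MeasureTheory Metric Set Filter Topology
open scoped ComplexConjugate ContDiff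

namespace Crest.Agent.R144.LowL549

open Crest.Agent.R144.Skel144 Crest.Agent.R144.Con549 Crest.Agent.R144.Cnt268
open Crest.Agent.R144.Bl565 Crest.Agent.R144.HexTil353
open Crest.Agent.R144.Lc279 (P2 bx nr)
open Crest.Agent.R144.Lw425 (LObs hball hd mem_hball)
open Crest.ProbabilityR.HexHeights (centre)

noncomputable section

/-- the inputs of the numbers -/
structure NumIn (G : Set ℂ) (δ : ℕ → ℝ) (Rg : ℕ → Finset P2) (ν : ℕ → Measure (P2 → ℝ))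
    (μ : Measure (P2 → ℝ)) (mf : ℕ → (P2 → ℝ) → P2 → ℕ) : Prop where
  hs : Sites G δ Rg
  prob : ∀ n, IsProbabilityMeasure (ν n)
  lln : LLN G δ Rg ν μ
  meas : ∀ n w, Measurable fun h => mf n h w
  bdd : ∀ n, ∃ K : ℕ, ∀ h w, mf n h w ≤ K
  mom1 : ∃ C q : ℝ, 0 < C ∧ 0 < q ∧ q < 1 ∧ ∀ j : ℕ, ∀ᶠ n in atTop,
    δ n ^ 2 * ∑ w ∈ Rg n, ∫ h, (if j < mf n h w then (mf n h w : ℝ) else 0) ∂(ν n) ≤ C * q ^ j
  mom2 : ∃ C : ℝ, 0 < C ∧ ∀ᶠ n in atTop,
    δ n ^ 2 * ∑ w ∈ Rg n, ∫ h, (mf n h w : ℝ) ^ 2 ∂(ν n) ≤ C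
  far : ∀ c : ℝ, 0 < c → ∀ a : ℕ, ∀ᶠ n in atTop,
    (ν n).real {h | ∃ w ∈ Rg n, c / δ n ≤ (mf n h w : ℝ)} ≤ δ n ^ a

end

end Crest.Agent.R144.LowL549
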