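import Mathlib
import Crest.Agent.R144.KapE4_761
import Crest.Agent.R144.LowL7_549
import Crest.Agent.R144.Bl8_565
import Crest.Agent.R144.Lmu10_425

/-!
# R144 (S0197), helper761, KapN, part 1: the inputs of the numbers for the constant law `mu0`

* `rG G δ` : all sites with centre in `G`; `sites_rG`;
* `lln_mu0`;
* `mom_tail` : moments from geometric tails;
* `numIn_mu0`.
-/

set_option autoImplicit false
set_option linter.unusedVariables false

open MeasureTheory Metric Set Filter Topology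
open scoped ComplexConjugate ContDiff

namespace Crest.Agent.R144.KapN761

open Crest.Agent.R144.Skel144 Crest.Agent.R144.Con549 Crest.Agent.R144.Cnt268
open Crest.Agent.R144.Bl565 Crest.Agent.R144.LowL549
open Crest.Agent.R144.Lc279 (P2 bx nr mu0)
open Crest.Agent.R144.Lw425 (LObs hball hd mem_hball)
open Crest.ProbabilityR.HexHeights (centre)

noncomputable section

/-! ### the region -/

/-- sites with centre in `G` (for bounded `G`) -/
def rG (G : Set ℂ) (δ : ℝ) : Finset P2 := by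
  classical
  exact if h : {v : P2 | centre δ v ∈ G}.Finite then h.toFinset else ∅

theorem finite_rG {G : Set ℂ} (hG : Bornology.IsBounded G) {δ : ℝ} (hδ : 0 < δ) :
    {v : P2 | centre δ v ∈ G}.Finite := by
  obtain ⟨R, hR⟩ := hG.subset_closedBall 0
  exact (finite_ball hδ 0 R).subset fun v hv => hR hv

theorem mem_rG {G : Set ℂ} (hG : Bornology.IsBounded G) {δ : ℝ} (hδ : 0 < δ) {v : P2} :
    v ∈ rG G δ ↔ centre δ v ∈ G := by
  classical
  unfold rG
  rw [dif_pos (finite_rG hG hδ)]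
  simp

theorem sites_rG {G : Set ℂ} {δ : ℕ → ℝ} (ho : IsOpen G) (hb : Bornology.IsBounded G)
    (hnull : volume (frontier G) = 0) (hδ : ∀ n, 0 < δ n) (hδ0 : Tendsto δ atTop (𝓝 0)) :
    Sites G δ (fun n => rG G (δ n)) where
  opn := ho
  bdd := hb
  nul := hnull
  pos := hδ
  lim := hδ0
  inn := fun K _ hKG => Eventually.of_forall fun n v hv => (mem_rG hb (hδ n)).mpr (hKG hv)
  out := fun ε _ => Eventually.of_forall fun n v hv =>
    self_subset_cthickening G ((mem_rG hb (hδ n)).mp hv)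

/-! ### the law of large numbers -/

theorem lln_mu0 {G : Set ℂ} {δ : ℕ → ℝ} {Rg : ℕ → Finset P2} (hs : Sites G δ Rg) :
    LLN G δ Rg (fun _ => mu0) mu0 := by
  intro r f hf F hF hFc hFs
  have h1 : ∀ v, ∫ h, f (fun a => h (v + a)) ∂mu0 = ∫ h, f h ∂mu0 := fun v =>
    Lw425.inv_mu0.integral_tr hf.meas (fun h c => hf.shift h c) v
  have h2 := (hs.riemann' hF).mul_const (∫ h, f h ∂mu0)
  have h3 : ∫ z in G, F z = ∫ z, F z :=
    setIntegral_eq_integral_of_forall_compl_eq_zero fun z hz =>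
      image_eq_zero_of_notMem_tsupport fun h => hz (hFs h)
  rw [h3] at h2
  refine h2.congr fun n => ?_
  simp only [h1]
  rw [← Finset.sum_mul, mul_assoc]

/-! ### moments -/

theorem sum_odd_geom (K : ℕ) : ∑ k ∈ Finset.range K, (2 * (k : ℝ) + 1) * (2 / 3) ^ k =
    15 - (6 * K + 15) * (2 / 3) ^ K := by
  induction K with
  | zero => simp
  | succ K ih =>
    rw [Finset.sum_range_succ, ih, pow_succ]
    push_cast
    ring

theorem sum_odd (m : ℕ) : ∑ k ∈ Finset.range m, (2 * (k : ℝ) + 1) = (m : ℝ) ^ 2 := by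
  induction m with
  | zero => simp
  | succ m ih =>
    rw [Finset.sum_range_succ, ih]
    push_cast
    ring

/-- moments from geometric tails -/
theorem mom_tail {Ω : Type*} [MeasurableSpace Ω] {μ : Measure Ω} [IsProbabilityMeasure μ]
    {X : Ω → ℕ} (hX : Measurable X) {K : ℕ} (hK : ∀ x, X x ≤ K) {C : ℝ}
    (hC : ∀ j : ℕ, μ.real {x | j < X x} ≤ C * (1 / 2) ^ j) (j : ℕ) :
    ∫ x, (if j < X x then (X x : ℝ) ^ 2 else 0) ∂μ ≤ 15 * C * (3 / 4) ^ j := by
  have hC0 : 0 ≤ C := by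
    have := (measureReal_nonneg).trans (hC 0)
    simpa using this
  have hm : ∀ k : ℕ, MeasurableSet {x | k < X x} := fun k => hX measurableSet_Ioi
  have e1 : ∀ x, (if j < X x then (X x : ℝ) ^ 2 else 0) =
      ∑ k ∈ Finset.range K, (2 * (k : ℝ) + 1) *
        ({x | max j k < X x}.indicator (fun _ => (1 : ℝ)) x) := by
    intro x
    by_cases h : j < X x
    · rw [if_pos h, ← sum_odd (X x)]
      have h2 : Finset.range (X x) ⊆ Finset.range K := Finset.range_mono (hK x)
      rw [← Finset.sum_subset h2 (f := fun k : ℕ => (2 * (k : ℝ) + 1) *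
        ({x | max j k < X x}.indicator (fun _ => (1 : ℝ)) x))]
      · refine Finset.sum_congr rfl fun k hk => ?_
        rw [indicator_of_mem, mul_one]
        exact max_lt h (Finset.mem_range.mp hk)
      · intro k _ hk
        rw [indicator_of_notMem, mul_zero]
        intro h3
        exact hk (Finset.mem_range.mpr ((le_max_right _ _).trans_lt h3))
    · rw [if_neg h]
      symm
      refine Finset.sum_eq_zero fun k _ => ?_
      rw [indicator_of_notMem, mul_zero]
      intro h3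
      exact h ((le_max_left _ _).trans_lt h3)
  have hint : ∀ k, Integrable ({x | max j k < X x}.indicator (fun _ => (1 : ℝ))) μ := fun k =>
    (integrable_const _).indicator (hm _)
  simp only [e1]
  rw [integral_finsetSum _ fun k _ => (hint k).const_mul _]
  have h2 : ∀ k ∈ Finset.range K, ∫ x, (2 * (k : ℝ) + 1) *
      ({x | max j k < X x}.indicator (fun _ => (1 : ℝ)) x) ∂μ ≤
      (C * (3 / 4) ^ j) * ((2 * (k : ℝ) + 1) * (2 / 3) ^ k) := by
    intro k _
    rw [integral_const_mul, integral_indicator (hm _)]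
    simp only [integral_const, MeasurableSet.univ, measureReal_restrict_apply, univ_inter,
      smul_eq_mul, mul_one]
    have h3 : (1 / 2 : ℝ) ^ (max j k) ≤ (3 / 4) ^ j * (2 / 3) ^ k := by
      have e : (1 / 2 : ℝ) = 3 / 4 * (2 / 3) := by norm_num
      rw [e, mul_pow]
      refine mul_le_mul (pow_le_pow_of_le_one (by norm_num) (by norm_num) (le_max_left _ _))
        (pow_le_pow_of_le_one (by norm_num) (by norm_num) (le_max_right _ _)) (by positivity)
        (by positivity)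
    calc (2 * (k : ℝ) + 1) * μ.real {x | max j k < X x} ≤
          (2 * (k : ℝ) + 1) * (C * (1 / 2) ^ (max j k)) :=
          mul_le_mul_of_nonneg_left (hC _) (by positivity)
      _ ≤ (2 * (k : ℝ) + 1) * (C * ((3 / 4) ^ j * (2 / 3) ^ k)) := by
          refine mul_le_mul_of_nonneg_left (mul_le_mul_of_nonneg_left h3 hC0) (by positivity)
      _ = _ := by ring
  refine (Finset.sum_le_sum h2).trans ?_
  rw [← Finset.mul_sum, sum_odd_geom]
  have h4 : 0 ≤ (6 * (K : ℝ) + 15) * (2 / 3) ^ K := by positivity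
  have h5 : 0 ≤ C * (3 / 4 : ℝ) ^ j := by positivity
  nlinarith

/-! ### the inputs of the numbers -/

/-- lengths of the cheap paths -/
abbrev mfn (P : Par) (c0 : ℝ) (Rg : ℕ → Finset P2) (n : ℕ) (h : P2 → ℝ) (w : P2) : ℕ :=
  mcw P c0 (win 1 (Rg n)) h w

theorem mu0_tail' {P : Par} {c0 : ℝ} {V : Finset P2} (hP : Small P) (hc1 : c0 ≤ 1) {w : P2}
    (hw : w ∈ V) (j : ℕ) : mu0.real {h | j < mcw P c0 V h w} ≤ 6 * (1 / 2) ^ j := by
  rcases Nat.eq_zero_or_pos j with rfl | hj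
  · have := KapE761.isProb_mu0
    refine measureReal_le_one.trans (by norm_num)
  · exact mu0_tail hP hc1 hw hj

theorem mu0_mom {P : Par} {c0 : ℝ} {V : Finset P2} (hP : Small P) (hc1 : c0 ≤ 1) {w : P2}
    (hw : w ∈ V) (j : ℕ) :
    ∫ h, (if j < mcw P c0 V h w then (mcw P c0 V h w : ℝ) ^ 2 else 0) ∂mu0 ≤
      90 * (3 / 4) ^ j := by
  have := KapE761.isProb_mu0
  have h1 := mom_tail (measurable_mcw (P := P) (c0 := c0) V w) (fun h => mcw_le V h w)
    (fun j => mu0_tail' hP hc1 hw j) j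
  linarith

theorem pow_tail {c : ℝ} (hc : 0 < c) (a : ℕ) {δ : ℕ → ℝ} (hδ : ∀ n, 0 < δ n)
    (hδ0 : Tendsto δ atTop (𝓝 0)) (C : ℝ) : ∀ᶠ n in atTop,
    C * (δ n ^ (a + 3))⁻¹ * (1 / 2 : ℝ) ^ (⌈c / δ n⌉₊ - 1) ≤ 1 := by
  have h1 : Tendsto (fun n => ⌈c / δ n⌉₊ - 1) atTop atTop := by
    have h2 : Tendsto (fun n => c / δ n) atTop atTop := by
      have h3 : Tendsto (fun n => (δ n)⁻¹) atTop atTop :=
        (tendsto_nhdsWithin_iff.mpr ⟨hδ0, Eventually.of_forall hδ⟩).inv_tendsto_nhdsGT_zero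
      simpa [div_eq_mul_inv] using h3.const_mul_atTop hc
    exact (tendsto_sub_atTop_nat 1).comp (tendsto_nat_ceil_atTop.comp h2)
  have h2 : Tendsto (fun m : ℕ => |C| * ((m : ℝ) + 1) ^ (a + 3) * (c⁻¹) ^ (a + 3) *
      (1 / 2 : ℝ) ^ m) atTop (𝓝 0) := by
    have h3 := tendsto_pow_const_mul_const_pow_of_abs_lt_one (a + 3)
      (show |(1 / 2 : ℝ)| < 1 by rw [abs_of_pos] <;> norm_num)
    have h4 := ((h3.comp (tendsto_add_atTop_nat 1)).const_mul (2 * |C| * (c⁻¹) ^ (a + 3)))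
    rw [mul_zero] at h4
    refine h4.congr fun m => ?_
    simp only [Function.comp_apply]
    push_cast
    rw [pow_succ (1 / 2 : ℝ) m]
    ring
  filter_upwards [(h2.comp h1).eventually (gt_mem_nhds one_pos),
    h1.eventually (eventually_ge_atTop 1)] with n h3 h4
  simp only [Function.comp_apply] at h3
  refine le_trans ?_ h3.le
  have hd := hδ n
  set m : ℕ := ⌈c / δ n⌉₊ - 1 with hm
  have h5 : c / δ n ≤ (m : ℝ) + 1 := by
    have h6 : ⌈c / δ n⌉₊ = m + 1 := by omega
    have h7 := Nat.le_ceil (c / δ n)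
    rw [h6] at h7
    exact_mod_cast h7
  have h6 : (δ n)⁻¹ ≤ ((m : ℝ) + 1) * c⁻¹ := by
    rw [inv_le_iff_one_le_mul₀ hd]
    rw [div_le_iff₀ hd] at h5
    rw [mul_assoc, mul_comm c⁻¹, ← mul_assoc, ← div_eq_mul_inv, one_le_div hc]
    exact h5
  have h7 : (δ n ^ (a + 3))⁻¹ ≤ ((m : ℝ) + 1) ^ (a + 3) * (c⁻¹) ^ (a + 3) := by
    rw [← inv_pow, ← mul_pow]
    exact pow_le_pow_left₀ (inv_nonneg.mpr hd.le) h6 _
  calc C * (δ n ^ (a + 3))⁻¹ * (1 / 2 : ℝ) ^ m ≤
        |C| * (((m : ℝ) + 1) ^ (a + 3) * (c⁻¹) ^ (a + 3)) * (1 / 2 : ℝ) ^ m := by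
        gcongr
        exact le_abs_self C
    _ = _ := by ring

/-- **the inputs of the numbers for the constant law `mu0`** -/
theorem numIn_mu0 {P : Par} {c0 : ℝ} (hP : Small P) (hc1 : c0 ≤ 1) {G : Set ℂ} {δ : ℕ → ℝ}
    {Rg : ℕ → Finset P2} (hs : Sites G δ Rg) :
    NumIn G δ Rg (fun _ => mu0) mu0 (mfn P c0 Rg) where
  hs := hs
  prob := fun _ => KapE761.isProb_mu0
  lln := lln_mu0 hs
  meas := fun n w => measurable_mcw _ w
  bdd := fun n => ⟨_, fun h w => mcw_le _ h w⟩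
  mom1 := by
    have := KapE761.isProb_mu0
    obtain ⟨Cc, hCc, hcard⟩ := hs.card_bdd
    refine ⟨Cc * 90, 3 / 4, by positivity, by norm_num, by norm_num, fun j =>
      Eventually.of_forall fun n => ?_⟩
    have h1 : ∀ w ∈ Rg n, ∫ h, (if j < mfn P c0 Rg n h w then (mfn P c0 Rg n h w : ℝ) else 0) ∂mu0
        ≤ 90 * (3 / 4) ^ j := by
      intro w hw
      refine le_trans ?_ (mu0_mom hP hc1 (subset_win 1 _ hw) j)
      obtain ⟨K, hK⟩ : ∃ K : ℕ, ∀ h, mcw P c0 (win 1 (Rg n)) h w ≤ K := ⟨_, fun h => mcw_le _ h w⟩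
      have hi : ∀ f : ℕ → ℝ, Integrable (fun h => f (mcw P c0 (win 1 (Rg n)) h w)) mu0 := by
        intro f
        have hm : Measurable fun h => f (mcw P c0 (win 1 (Rg n)) h w) :=
          (measurable_from_top (f := f)).comp (measurable_mcw _ w)
        refine Integrable.of_bound hm.aestronglyMeasurable (∑ k ∈ Finset.range (K + 1), |f k|)
          (ae_of_all _ fun h => ?_)
        rw [Real.norm_eq_abs]
        exact Finset.single_le_sum (f := fun k => |f k|) (fun k _ => abs_nonneg _)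
          (Finset.mem_range.mpr (Nat.lt_succ_of_le (hK h)))
      refine integral_mono (hi fun k => if j < k then (k : ℝ) else 0)
        (hi fun k => if j < k then (k : ℝ) ^ 2 else 0) fun h => ?_
      beta_reduce
      split_ifs with h2
      · have h3 : (1 : ℝ) ≤ mcw P c0 (win 1 (Rg n)) h w := by
          exact_mod_cast (Nat.succ_le_of_lt (Nat.zero_lt_of_lt h2))
        nlinarith
      · exact le_rfl
    calc δ n ^ 2 * ∑ w ∈ Rg n, ∫ h, (if j < mfn P c0 Rg n h w then (mfn P c0 Rg n h w : ℝ)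
          else 0) ∂mu0 ≤ δ n ^ 2 * ∑ _w ∈ Rg n, 90 * (3 / 4 : ℝ) ^ j :=
          mul_le_mul_of_nonneg_left (Finset.sum_le_sum h1) (sq_nonneg _)
      _ = (δ n ^ 2 * (Rg n).card) * (90 * (3 / 4 : ℝ) ^ j) := by
          rw [Finset.sum_const, nsmul_eq_mul]; ring
      _ ≤ Cc * (90 * (3 / 4 : ℝ) ^ j) := mul_le_mul_of_nonneg_right (hcard n) (by positivity)
      _ = _ := by ring
  mom2 := by
    have := KapE761.isProb_mu0
    obtain ⟨Cc, hCc, hcard⟩ := hs.card_bdd
    refine ⟨Cc * 90, by positivity, Eventually.of_forall fun n => ?_⟩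
    have h1 : ∀ w ∈ Rg n, ∫ h, (mfn P c0 Rg n h w : ℝ) ^ 2 ∂mu0 ≤ 90 := by
      intro w hw
      refine le_trans (le_of_eq ?_) ((mu0_mom hP hc1 (subset_win 1 _ hw) 0).trans_eq (by simp))
      refine integral_congr_ae (ae_of_all _ fun h => ?_)
      beta_reduce
      split_ifs with h2
      · rfl
      · have : mfn P c0 Rg n h w = 0 := by
          have : ¬ 0 < mcw P c0 (win 1 (Rg n)) h w := h2
          exact Nat.eq_zero_of_not_pos this
        rw [this]; simp
    calc δ n ^ 2 * ∑ w ∈ Rg n, ∫ h, (mfn P c0 Rg n h w : ℝ) ^ 2 ∂mu0 ≤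
          δ n ^ 2 * ∑ _w ∈ Rg n, 90 :=
          mul_le_mul_of_nonneg_left (Finset.sum_le_sum h1) (sq_nonneg _)
      _ = (δ n ^ 2 * (Rg n).card) * 90 := by
          rw [Finset.sum_const, nsmul_eq_mul]; ring
      _ ≤ Cc * 90 := mul_le_mul_of_nonneg_right (hcard n) (by norm_num)
  far := by
    have := KapE761.isProb_mu0
    intro c hc a
    obtain ⟨Cc, hCc, hcard⟩ := hs.card_bdd
    filter_upwards [pow_tail hc a hs.pos hs.lim (6 * Cc), hs.small one_pos] with n hn hn1
    have hd := hs.pos n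
    set m : ℕ := ⌈c / δ n⌉₊ - 1 with hm
    have h1 : {h : P2 → ℝ | ∃ w ∈ Rg n, c / δ n ≤ (mfn P c0 Rg n h w : ℝ)} ⊆
        ⋃ w ∈ Rg n, {h : P2 → ℝ | m < mcw P c0 (win 1 (Rg n)) h w} := by
      rintro h ⟨w, hw, hle⟩
      refine mem_iUnion₂.mpr ⟨w, hw, ?_⟩
      have h2 : ⌈c / δ n⌉₊ ≤ mcw P c0 (win 1 (Rg n)) h w := Nat.ceil_le.mpr hle
      have h3 : 0 < ⌈c / δ n⌉₊ := Nat.ceil_pos.mpr (div_pos hc hd)
      change m < _
      omega
    have h2 : mu0.real {h : P2 → ℝ | ∃ w ∈ Rg n, c / δ n ≤ (mfn P c0 Rg n h w : ℝ)} ≤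
        (Rg n).card * (6 * (1 / 2) ^ m) := by
      refine (measureReal_mono h1 (measure_ne_top _ _)).trans ?_
      refine (measureReal_biUnion_finset_le _ _).trans ?_
      refine (Finset.sum_le_sum fun w hw => mu0_tail' hP hc1 (subset_win 1 _ hw) m).trans ?_
      rw [Finset.sum_const, nsmul_eq_mul]
    refine h2.trans ?_
    have h3 : ((Rg n).card : ℝ) ≤ Cc * (δ n ^ 2)⁻¹ := by
      rw [← div_eq_mul_inv, le_div_iff₀ (by positivity), mul_comm]
      exact hcard n
    calc ((Rg n).card : ℝ) * (6 * (1 / 2) ^ m) ≤ Cc * (δ n ^ 2)⁻¹ * (6 * (1 / 2) ^ m) := by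
          gcongr
      _ = (6 * Cc * (δ n ^ (a + 3))⁻¹ * (1 / 2) ^ m) * δ n ^ (a + 1) := by
          rw [show a + 3 = 2 + (a + 1) by ring, pow_add]
          field_simp
      _ ≤ 1 * δ n ^ (a + 1) := mul_le_mul_of_nonneg_right hn (by positivity)
      _ = δ n ^ a * δ n := by rw [one_mul, pow_succ]
      _ ≤ δ n ^ a * 1 := mul_le_mul_of_nonneg_left hn1.le (by positivity)
      _ = δ n ^ a := mul_one _

end

end Crest.Agent.R144.KapN761
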