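import Mathlib
import Crest.Agent.R144.KapN1_761

/-!
# R144 (S0197), helper761, KapN, part 2: the weights

`WD ψ G δ b s` : mass-zero weights `b n ≈ (√3/2) δ² (-Δψ)` supported in `G`; `exists_wd`.
-/

set_option autoImplicit false
set_option linter.unusedVariables false

open MeasureTheory Metric Set Filter Topology
open scoped ContDiff Laplacian

namespace Crest.Agent.R144.KapN761

open Crest.Agent.R144.Skel144 Crest.Agent.R144.Con549 Crest.Agent.R144.Cnt268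
open Crest.Agent.R144.Bl565 Crest.Agent.R144.LowL549
open Crest.Agent.R144.Cw643 (Near Wt CV Dop Sup7 sup7_of_norm sum_Dop Dop_zero near_Dop BX mm
  sum_tendsto)
open Crest.Agent.R144.Lc279 (P2 bx nr mu0)
open Crest.Agent.R144.Lw425 (LObs hball hd mem_hball)
open Crest.ProbabilityR.HexHeights (centre)

noncomputable section

/-- mass-zero weights close to `(√3/2) δ² (-Δψ)` -/
structure WD (ψ : ℂ → ℝ) (G : Set ℂ) (δ : ℕ → ℝ) (b : ℕ → P2 → ℝ) (s : ℕ → Finset P2) : Prop where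
  pos : ∀ n, 0 < δ n
  lim : Tendsto δ atTop (𝓝 0)
  near : Near δ b (fun z => -(Δ ψ) z)
  wt : ∀ᶠ n in atTop, Wt (s n) (b n)
  supp : ∀ᶠ n in atTop, ∀ v, b n v ≠ 0 → centre (δ n) v ∈ G
  bd : ∃ C : ℝ, 0 < C ∧ ∀ᶠ n in atTop, ∀ v, |b n v| ≤ C * δ n ^ 2
  sum : Tendsto (fun n => ∑ p ∈ s n, b n p * ψ (centre (δ n) p)) atTop
    (𝓝 (∫ z, ‖fderiv ℝ ψ z‖ ^ 2))

theorem exists_wd {ψ : ℂ → ℝ} (hψ : ContDiff ℝ ∞ ψ) (hc : HasCompactSupport ψ) :
    ∃ (G : Set ℂ) (δ : ℕ → ℝ) (b : ℕ → P2 → ℝ) (s : ℕ → Finset P2), IsOpen G ∧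
      IsCompact (closure G) ∧ volume (frontier G) = 0 ∧ tsupport ψ ⊆ G ∧ WD ψ G δ b s := by
  set δ : ℕ → ℝ := fun n => 1 / ((n : ℝ) + 1) with hδd
  have hδ : ∀ n, 0 < δ n := fun n => by rw [hδd]; positivity
  have hδ0 : Tendsto δ atTop (𝓝 0) := tendsto_one_div_add_atTop_nhds_zero_nat
  set b : ℕ → P2 → ℝ := fun n => Dop (fun v => ψ (centre (δ n) v)) with hb
  have hnear : Near δ b (fun z => -(Δ ψ) z) := near_Dop hδ hδ0 hψ hc
  obtain ⟨R1, hR1⟩ := hnear.supp
  obtain ⟨R2, hR2⟩ := hc.isBounded.exists_norm_le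
  set R : ℝ := max (max R1 R2) 0 with hR
  have hR0 : 0 ≤ R := le_max_right _ _
  have h1R : R1 ≤ R := (le_max_left _ _).trans (le_max_left _ _)
  have h2R : R2 ≤ R := (le_max_right _ _).trans (le_max_left _ _)
  have hRψ : ∀ z, ψ z ≠ 0 → ‖z‖ ≤ R := fun z hz => (hR2 z (subset_tsupport _ hz)).trans h2R
  have ht : IsTest univ ψ := ⟨hψ, hc, subset_univ _⟩
  refine ⟨ball 0 (R + 1), δ, b, fun n => BX (mm R (δ n)), isOpen_ball, ?_, ?_, ?_, hδ, hδ0, hnear,
    ?_, ?_, ?_, ?_⟩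
  · exact (isCompact_closedBall (0 : ℂ) (R + 1)).of_isClosed_subset isClosed_closure
      closure_ball_subset_closedBall
  · exact measure_mono_null frontier_ball_subset_sphere
      (Measure.addHaar_sphere_of_ne_zero volume 0 (by positivity))
  · intro z hz
    rw [mem_ball, dist_zero_right]
    have := hR2 z hz
    linarith
  · refine Eventually.of_forall fun n => ?_
    have h7 : Sup7 (BX (mm R (δ n))) (fun v => ψ (centre (δ n) v)) :=
      sup7_of_norm (hδ n) fun p hp => hRψ _ hp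
    exact ⟨fun p hp => Dop_zero h7 hp, sum_Dop h7⟩
  · filter_upwards [hR1] with n hn v hv
    rw [mem_ball, dist_zero_right]
    have := hn v hv
    linarith
  · have hcont : Continuous (fun z => -(Δ ψ) z) := (Cw643.continuous_lap hψ).neg
    have hcc : HasCompactSupport (fun z => -(Δ ψ) z) := (Cw643.hasCompactSupport_lap hc).neg
    obtain ⟨A, hA⟩ := hcont.bounded_above_of_compact_support hcc
    have hA0 : 0 ≤ A := (norm_nonneg _).trans (hA 0)
    refine ⟨A + 1, by positivity, ?_⟩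
    filter_upwards [hnear.near 1 one_pos] with n hn v
    have h1 := hn v
    have h2 := hA (centre (δ n) v)
    rw [Real.norm_eq_abs] at h2
    have h3 : Real.sqrt 3 / 2 ≤ 1 := by
      have h5 : Real.sqrt 3 ≤ 2 := by
        rw [show (2 : ℝ) = Real.sqrt 4 by rw [show (4 : ℝ) = 2 ^ 2 by norm_num]; simp]
        exact Real.sqrt_le_sqrt (by norm_num)
      linarith
    have h4 : |Real.sqrt 3 / 2 * δ n ^ 2 * -(Δ ψ) (centre (δ n) v)| ≤ A * δ n ^ 2 := by
      rw [abs_mul, abs_of_nonneg (by positivity : 0 ≤ Real.sqrt 3 / 2 * δ n ^ 2)]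
      calc Real.sqrt 3 / 2 * δ n ^ 2 * |(-(Δ ψ) (centre (δ n) v))| ≤ 1 * δ n ^ 2 * A := by
            gcongr
        _ = A * δ n ^ 2 := by ring
    have h5 : b n v = (b n v - Real.sqrt 3 / 2 * δ n ^ 2 * -(Δ ψ) (centre (δ n) v)) +
        Real.sqrt 3 / 2 * δ n ^ 2 * -(Δ ψ) (centre (δ n) v) := by ring
    rw [h5]
    refine (abs_add_le _ _).trans ?_
    linarith
  · have h1 := sum_tendsto hδ hδ0 hψ.continuous hc (Cw643.continuous_lap hψ).neg hnear hR0 hRψ
    have h2 : ∫ z, ψ z * (-(Δ ψ) z) = ∫ z, ‖fderiv ℝ ψ z‖ ^ 2 := energy_eq ht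
    rw [← h2]
    refine h1.congr fun n => ?_
    exact Finset.sum_congr rfl fun p _ => mul_comm _ _

end

end Crest.Agent.R144.KapN761
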