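import Crest.Agent.R144.LoA7_770

/-!
R144 (S0197), helper770, LOWER side (probabilistic half), file 8:
templates for the three orientations.

* `ae_diff` : a.e. differentiability along the coordinates under a law with the DLR property;
* `rotT r o Tl`, `tpl_rot`, `qd_Ph_rot`, `integral_qd_rot` : rotated templates;
* `integral_trE_le` : `∫ trE (bbO P r 0) ≤ 2 b` from `∀ L, abT P μ r L ≤ b`;
* `three` : the templates of the three orientations with the isotropic bound.
-/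

set_option autoImplicit false
set_option linter.unusedSectionVars false
set_option maxHeartbeats 400000

open MeasureTheory Set Filter Topology Metric
open scoped ENNReal NNReal

noncomputable section

namespace Crest.Agent.R144.LoA770

open Crest.Agent.R144.Ham560 Crest.Agent.R144.Tri560 Crest.Agent.R144.Zb560
open Crest.Agent.R144.BQ565
open Crest.Agent.R144.MW121 (jac jac_apply en)
open Crest.Agent.R144.Lc279 (lat mem_lat mem_nbr_lat P2)
open Crest.Agent.R144.Lw425 (hd hd_comm hd_le_iff mem_hball hball hd_self hd_triangle hd_pos LObs)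
open Crest.Agent.R144.Bl565 (Par ps L2 Lf Zk win cor bk rh cw bbO bbM trE qd DLR anch_lat refF_L2
  mem_win subset_win cor_subset win_bk_subset mem_rh bk_zero ek tw prm sg Sym exists_sym mem_bk
  Lf_eq_ek abT Inv bbL)
open Crest.Agent.R144.LoC95 (dv Ph Ph_apply Gt Tpl)

/-! ### a.e. differentiability -/

section AE

variable {W : Finset P2} {G : Fin 2 → (P2 → ℝ) → P2 → ℝ} {k : ℝ} {r : ℕ}
  {μ : Measure (P2 → ℝ)}

/-- the field along a coordinate line -/
def ln (G : Fin 2 → (P2 → ℝ) → P2 → ℝ) (i : Fin 2) (w v : P2) (h : P2 → ℝ) (t : ℝ) : ℝ :=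
  G i (h + t • (Pi.single v 1 : P2 → ℝ)) w

theorem dv_eq_ln (i : Fin 2) (w v : P2) (h : P2 → ℝ) :
    dv v (fun h => G i h w) h = deriv (ln G i w v h) 0 := rfl

theorem WL.cont_ln (H : WL W G k) (i : Fin 2) (w v : P2) :
    Continuous (Function.uncurry (ln G i w v)) := by
  have : Continuous fun p : (P2 → ℝ) × ℝ => p.1 + p.2 • (Pi.single v (1 : ℝ) : P2 → ℝ) := by
    fun_prop
  exact (H.cont i w).comp this

theorem WL.measurableSet_diff (H : WL W G k) (i : Fin 2) (w v : P2) :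
    MeasurableSet {h : P2 → ℝ | DifferentiableAt ℝ (ln G i w v h) 0} := by
  have h1 := measurableSet_of_differentiableAt_with_param ℝ (H.cont_ln i w v)
  have h3 : Measurable fun h : P2 → ℝ => (h, (0 : ℝ)) := measurable_id.prodMk measurable_const
  exact h3 h1

/-- a.e. differentiability along the coordinates -/
theorem ae_diff (H : WL W G k) (hs : ∀ i h (c : ℝ) w, G i (fun v => h v + c) w = G i h w)
    (hW : W ⊆ hball r) [IsProbabilityMeasure μ] (hdlr : DLR μ) (i : Fin 2) (w v : P2) :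
    ∀ᵐ h ∂μ, DifferentiableAt ℝ (ln G i w v h) 0 := by
  set S : Set (P2 → ℝ) := {h : P2 → ℝ | DifferentiableAt ℝ (ln G i w v h) 0}ᶜ with hS
  have hSm : MeasurableSet S := (H.measurableSet_diff i w v).compl
  set f : (P2 → ℝ) → ℝ := S.indicator 1 with hf
  have hcongr : ∀ h h', ln G i w v h = ln G i w v h' → f h = f h' := by
    intro h h' e
    have : h ∈ S ↔ h' ∈ S := by
      simp only [hS, mem_compl_iff, mem_setOf_eq, e]
    by_cases hh : h ∈ S
    · rw [hf, indicator_of_mem hh, indicator_of_mem (this.1 hh)]; rfl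
    · rw [hf, indicator_of_notMem hh, indicator_of_notMem fun h2 => hh (this.2 h2)]
  have hobs : LObs r f := by
    refine ⟨measurable_one.indicator hSm, fun h => ?_, fun h h' hh => hcongr h h' ?_,
      fun h c => hcongr _ _ ?_⟩
    · rw [hf]
      by_cases hh : h ∈ S
      · rw [indicator_of_mem hh]; simp
      · rw [indicator_of_notMem hh]; simp
    · funext t
      exact H.congr (fun u hu => by simp only [Pi.add_apply, hh u (hW hu)]) i w
    · funext t
      have e : (fun v => h v + c) + t • (Pi.single v 1 : P2 → ℝ) =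
          fun u => (h + t • (Pi.single v 1 : P2 → ℝ)) u + c := by
        funext u
        simp only [Pi.add_apply]
        ring
      simp only [ln, e]
      exact hs i _ c w
  have h1 := hdlr {v} r f hobs
  have h2 : ∀ h : P2 → ℝ, ∫ x, f (ext {v} h x) ∂(hamP {v} (lat {v}) h) = 0 := by
    intro h
    have hg := goodLaw_hamP' (anch_lat {v}) h
    set Y : (({v} : Finset P2) → ℝ) → (({v} : Finset P2) → ℝ) :=
      fun x _ => G i (ext {v} h x) w with hY
    have hYl : LipschitzWith ⟨k, H.k0⟩ Y := by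
      refine LipschitzWith.of_dist_le_mul fun x y => ?_
      change dist _ _ ≤ k * dist x y
      rw [dist_pi_le_iff (mul_nonneg H.k0 dist_nonneg)]
      intro u
      rw [Real.dist_eq]
      exact H.lip i _ _ _ dist_nonneg (fun u _ => abs_ext_sub_ext_le h x y u) w
    have h3 : ∀ᵐ x ∂(hamP {v} (lat {v}) h), f (ext {v} h x) = 0 := by
      filter_upwards [hg.ae_diff hYl.locallyLipschitz] with x hx
      have h4 : ext {v} h x ∉ S := by
        rw [hS, notMem_compl_iff, mem_setOf_eq]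
        have e : ln G i w v (ext {v} h x) =
            fun t => Y (x + t • Pi.single ⟨v, Finset.mem_singleton_self v⟩ 1)
              ⟨v, Finset.mem_singleton_self v⟩ := by
          funext t
          have := add_single_eq_ext (I := {v}) h x ⟨v, Finset.mem_singleton_self v⟩ t
          simp only [ln, hY]
          rw [this]
        rw [e]
        have h5 : DifferentiableAt ℝ (fun t : ℝ =>
            x + t • (Pi.single ⟨v, Finset.mem_singleton_self v⟩ (1 : ℝ) :
              ({v} : Finset P2) → ℝ)) 0 := by fun_prop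
        have h6 : DifferentiableAt ℝ Y (x + (0 : ℝ) •
            (Pi.single ⟨v, Finset.mem_singleton_self v⟩ (1 : ℝ) : ({v} : Finset P2) → ℝ)) := by
          rw [zero_smul, add_zero]; exact hx
        have h7 : DifferentiableAt ℝ (Y ∘ fun t : ℝ => (x + t •
            (Pi.single ⟨v, Finset.mem_singleton_self v⟩ (1 : ℝ) : ({v} : Finset P2) → ℝ))) 0 :=
          DifferentiableAt.comp (0 : ℝ) h6 h5
        exact differentiableAt_pi.1 h7 ⟨v, Finset.mem_singleton_self v⟩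
      rw [hf, indicator_of_notMem h4]
    rw [integral_congr_ae h3]
    simp
  simp only [h2, integral_zero] at h1
  rw [hf, integral_indicator_one hSm] at h1
  rw [ae_iff]
  have h8 : μ S = 0 := by
    have := (measureReal_eq_zero_iff (measure_ne_top μ S)).1 h1
    exact this
  exact h8

end AE

/-! ### rotations -/

section Rot

variable {P : Par} {m : ℕ} {I I' : Finset P2} {Tl : Fin 2 → (P2 → ℝ) → P2 → ℝ} {B C : ℝ}
  {σ : P2 → P2} {π : Equiv.Perm (Fin 3)} {c : Fin 3 → ℝ}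

/-- transported template -/
def trT (σ : P2 → P2) (π : Equiv.Perm (Fin 3)) (Tl : Fin 2 → (P2 → ℝ) → P2 → ℝ) (i : Fin 2)
    (h : P2 → ℝ) (v : P2) : ℝ :=
  ∑ j, ek (π i.castSucc) j * Tl j (h ∘ σ) (Function.invFun σ v)

theorem abs_ek_le (k : Fin 3) (j : Fin 2) : |ek k j| ≤ 1 := by
  fin_cases k <;> fin_cases j <;> simp [ek]

theorem trT_map (hσ : Function.Injective σ) (i : Fin 2) (h : P2 → ℝ) (w : P2) :
    trT σ π Tl i h (σ w) = ∑ j, ek (π i.castSucc) j * Tl j (h ∘ σ) w := by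
  unfold trT
  rw [Function.leftInverse_invFun hσ w]

theorem tpl_tr (hc : Sym σ π c) (hI : ∀ v, v ∈ I' ↔ ∃ u ∈ I, σ u = v)
    (hT : Tpl m I Tl B C) : Tpl m I' (trT σ π Tl) (2 * B) (2 * C) := by
  have hwin : ∀ v ∈ win m I, σ v ∈ win m I' := fun v hv => (hc.mem_win hI _).2 ⟨v, hv, rfl⟩
  refine ⟨?_, ?_, ?_, ?_, ?_, ?_⟩
  · intro i h h' hh w
    unfold trT
    refine Finset.sum_congr rfl fun j _ => ?_
    rw [hT.loc j (h ∘ σ) (h' ∘ σ) (fun v hv => hh _ (hwin v hv))]
  · intro i h h' M hM w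
    unfold trT
    rw [← Finset.sum_sub_distrib]
    refine (Finset.abs_sum_le_sum_abs _ _).trans ?_
    rw [Fin.sum_univ_two, ← mul_sub, ← mul_sub, abs_mul, abs_mul]
    have key : ∀ j, |Tl j (h ∘ σ) (Function.invFun σ w) - Tl j (h' ∘ σ) (Function.invFun σ w)| ≤
        C * M := fun j => hT.lip j _ _ M (fun v hv => hM _ (hwin v hv)) _
    have h0 := key 0
    have h1 := key 1
    have e0 := abs_ek_le (π i.castSucc) 0
    have e1 := abs_ek_le (π i.castSucc) 1
    have f0 := mul_le_mul e0 h0 (abs_nonneg _) zero_le_one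
    have f1 := mul_le_mul e1 h1 (abs_nonneg _) zero_le_one
    linarith
  · intro i h w hw
    obtain ⟨u, rfl⟩ := hc.surj w
    rw [trT_map hc.inj]
    have hu : u ∉ cor m I := fun h => hw ((hc.mem_cor hI u).2 h)
    exact Finset.sum_eq_zero fun j _ => by rw [hT.off j _ _ hu, mul_zero]
  · intro i h w
    unfold trT
    refine (Finset.abs_sum_le_sum_abs _ _).trans ?_
    rw [Fin.sum_univ_two, abs_mul, abs_mul]
    have h0 := hT.bdd 0 (h ∘ σ) (Function.invFun σ w)
    have h1 := hT.bdd 1 (h ∘ σ) (Function.invFun σ w)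
    have e0 := abs_ek_le (π i.castSucc) 0
    have e1 := abs_ek_le (π i.castSucc) 1
    have f0 := mul_le_mul e0 h0 (abs_nonneg _) zero_le_one
    have f1 := mul_le_mul e1 h1 (abs_nonneg _) zero_le_one
    linarith
  · obtain ⟨ρ, hρ, hr⟩ := hT.rig
    refine ⟨ρ, hρ, fun i h hh a ha b hb hab hge => ?_⟩
    obtain ⟨a', ha', rfl⟩ := (hI a).1 ha
    obtain ⟨b', hb', rfl⟩ := (hI b).1 hb
    rw [trT_map hc.inj, trT_map hc.inj]
    refine Finset.sum_congr rfl fun j _ => ?_
    rw [hr j (h ∘ σ) (fun p hp q hq hpq => hh _ ((hI _).2 ⟨p, hp, rfl⟩) _ ((hI _).2 ⟨q, hq, rfl⟩)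
      (by rw [hc.hd_eq]; exact hpq)) a' ha' b' hb' (by rw [← hc.hd_eq]; exact hab) hge]
  · intro i h t w
    unfold trT
    refine Finset.sum_congr rfl fun j _ => ?_
    have e : (fun v => h v + t) ∘ σ = fun v => (h ∘ σ) v + t := rfl
    rw [e, hT.sh]

/-- transported field -/
theorem Gt_tr (hc : Sym σ π c) (hI : ∀ v, v ∈ I' ↔ ∃ u ∈ I, σ u = v) (i : Fin 2) (h : P2 → ℝ)
    (w : P2) : Gt P m I' (trT σ π Tl) i h (σ w) =
      ∑ j, ek (π i.castSucc) j * Gt P m I Tl j (h ∘ σ) w +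
        (c i.castSucc - (c 0 + c 1 + c 2) / 3) := by
  have h1 : L2 P (win m I') (lat (win m I')) i h (σ w) =
      Lf P (win m I) (lat (win m I)) (π i.castSucc) (h ∘ σ) w +
        (c i.castSucc - (c 0 + c 1 + c 2) / 3) :=
    hc.Lf_eq P (hc.mem_win hI) (hc.nbr_win hI) i.castSucc h w
  unfold Gt
  rw [h1, trT_map hc.inj, Lf_eq_ek]
  simp only [mul_add, Finset.sum_add_distrib]
  ring

theorem comp_add_single (hσ : Function.Injective σ) (h : P2 → ℝ) (t : ℝ) (v : P2) :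
    (h + t • (Pi.single (σ v) 1 : P2 → ℝ)) ∘ σ = h ∘ σ + t • (Pi.single v 1 : P2 → ℝ) := by
  funext u
  simp only [Function.comp_apply, Pi.add_apply, Pi.smul_apply, smul_eq_mul]
  by_cases huv : u = v
  · subst huv; simp
  · rw [Pi.single_eq_of_ne huv, Pi.single_eq_of_ne fun e => huv (hσ e)]

/-- transported derivatives -/
theorem dv_tr (hc : Sym σ π c) (hI : ∀ v, v ∈ I' ↔ ∃ u ∈ I, σ u = v) (i : Fin 2) {h : P2 → ℝ}
    {w v : P2} (hd : ∀ j, DifferentiableAt ℝ (ln (Gt P m I Tl) j w v (h ∘ σ)) 0) :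
    dv (σ v) (fun h => Gt P m I' (trT σ π Tl) i h (σ w)) h =
      ∑ j, ek (π i.castSucc) j * dv v (fun h => Gt P m I Tl j h w) (h ∘ σ) := by
  have h1 : ∀ t : ℝ, ln (Gt P m I' (trT σ π Tl)) i (σ w) (σ v) h t =
      ∑ j, ek (π i.castSucc) j * ln (Gt P m I Tl) j w v (h ∘ σ) t +
        (c i.castSucc - (c 0 + c 1 + c 2) / 3) := by
    intro t
    simp only [ln]
    rw [Gt_tr hc hI, comp_add_single hc.inj]
  rw [dv_eq_ln]
  simp only [dv_eq_ln]
  have h2 : HasDerivAt (fun t : ℝ => ∑ j, ek (π i.castSucc) j * ln (Gt P m I Tl) j w v (h ∘ σ) t +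
      (c i.castSucc - (c 0 + c 1 + c 2) / 3))
      (∑ j, ek (π i.castSucc) j * deriv (ln (Gt P m I Tl) j w v (h ∘ σ)) 0) 0 := by
    refine HasDerivAt.add_const _ ?_
    exact HasDerivAt.fun_sum fun j _ => (hd j).hasDerivAt.const_mul _
  have h3 : ln (Gt P m I' (trT σ π Tl)) i (σ w) (σ v) h =
      fun t : ℝ => ∑ j, ek (π i.castSucc) j * ln (Gt P m I Tl) j w v (h ∘ σ) t +
        (c i.castSucc - (c 0 + c 1 + c 2) / 3) := by
    funext t; exact h1 t
  rw [h3]
  exact h2.deriv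

/-- **transported matrix** -/
theorem qd_Ph_tr (hc : Sym σ π c) (hI : ∀ v, v ∈ I' ↔ ∃ u ∈ I, σ u = v) {h : P2 → ℝ}
    (hd : ∀ j, ∀ w ∈ I, ∀ v ∈ I, DifferentiableAt ℝ (ln (Gt P m I Tl) j w v (h ∘ σ)) 0)
    (y : Fin 2 → ℝ) :
    qd (Ph I' (Gt P m I' (trT σ π Tl)) h) y = qd (Ph I (Gt P m I Tl) (h ∘ σ)) (tw π y) := by
  have hI' : I' = I.image σ := by
    ext v; rw [hI, Finset.mem_image]
  rw [qd_Ph, qd_Ph]
  have e1 : ∀ f : P2 → ℝ, ∑ v ∈ I', f v = ∑ v ∈ I, f (σ v) := by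
    intro f
    rw [hI', Finset.sum_image fun a _ b _ h => hc.inj h]
  rw [e1]
  refine Finset.sum_congr rfl fun v hv => ?_
  rw [e1]
  refine Finset.sum_congr rfl fun w hw => ?_
  rw [dv_tr hc hI 0 (fun j => hd j w hw v hv), dv_tr hc hI 1 (fun j => hd j w hw v hv)]
  rw [Fin.sum_univ_two, Fin.sum_univ_two, Bl565.tw_apply, Bl565.tw_apply]
  have e2 : (Fin.castSucc (0 : Fin 2)) = (0 : Fin 3) := rfl
  have e3 : (Fin.castSucc (1 : Fin 2)) = (1 : Fin 3) := rfl
  rw [e2, e3]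
  ring

/-- the transported fields are Lipschitz in the window -/
theorem wl_comp (hc : Sym σ π c) (hI : ∀ v, v ∈ I' ↔ ∃ u ∈ I, σ u = v) {k : ℝ}
    {G : Fin 2 → (P2 → ℝ) → P2 → ℝ} (H : WL (win m I) G k) :
    WL (win m I') (fun i h w => G i (h ∘ σ) w) k where
  k0 := H.k0
  lip := fun i _ _ M hM0 hM w =>
    H.lip i _ _ M hM0 (fun v hv => hM _ ((hc.mem_win hI _).2 ⟨v, hv, rfl⟩)) w

end Rot

/-! ### the three orientations -/

section Three

variable {P : Par} {r : ℕ} {Tl : Fin 2 → (P2 → ℝ) → P2 → ℝ} {B C b : ℝ} {μ : Measure (P2 → ℝ)}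

/-- the template of the orientation `o` -/
def rotT (r : ℕ) (o : Fin 3) (Tl : Fin 2 → (P2 → ℝ) → P2 → ℝ) : Fin 2 → (P2 → ℝ) → P2 → ℝ :=
  trT (sg (r / 2) o) (prm o) Tl

theorem mem_bk' {r : ℕ} {o : Fin 3} (v : P2) : v ∈ bk r o ↔ ∃ u ∈ bk r 0, sg (r / 2) o u = v := by
  rw [bk_zero]; exact mem_bk

theorem tpl_rot (o : Fin 3) (hT : Tpl (cw r) (bk r 0) Tl B C) :
    Tpl (cw r) (bk r o) (rotT r o Tl) (2 * B) (2 * C) := by
  obtain ⟨c, hc⟩ := exists_sym (r / 2) o
  exact tpl_tr hc (fun v => mem_bk' v) hT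

theorem measurable_qd_Ph {W : Finset P2} {G : Fin 2 → (P2 → ℝ) → P2 → ℝ} {k : ℝ} (H : WL W G k)
    (I : Finset P2) (y : Fin 2 → ℝ) : Measurable fun h => qd (Ph I G h) y := by
  unfold qd
  exact Finset.measurable_fun_sum _ fun i _ => Finset.measurable_fun_sum _ fun j _ =>
    ((H.measurable_Ph I i j).mul_const _).mul_const _

theorem integrable_Ph [IsProbabilityMeasure μ] {W : Finset P2} {G : Fin 2 → (P2 → ℝ) → P2 → ℝ}
    {k : ℝ} (H : WL W G k) (I : Finset P2) (i j : Fin 2) : Integrable (fun h => Ph I G h i j) μ :=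
  Integrable.of_bound (H.measurable_Ph I i j).aestronglyMeasurable _
    (ae_of_all _ fun h => by rw [Real.norm_eq_abs]; exact H.abs_Ph_le I h i j)

theorem integrable_qd_Ph [IsProbabilityMeasure μ] {W : Finset P2}
    {G : Fin 2 → (P2 → ℝ) → P2 → ℝ} {k : ℝ} (H : WL W G k) (I : Finset P2) (y : Fin 2 → ℝ) :
    Integrable (fun h => qd (Ph I G h) y) μ := by
  unfold qd
  exact integrable_finsetSum _ fun i _ => integrable_finsetSum _ fun j _ =>
    ((integrable_Ph H I i j).mul_const _).mul_const _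

/-- **the quadratic forms of the rotated templates** -/
theorem integral_qd_rot (hμ : Inv μ) (hdlr : DLR μ) (hT : Tpl (cw r) (bk r 0) Tl B C)
    (hC : 0 ≤ C) (o : Fin 3) (y : Fin 2 → ℝ) :
    ∫ h, qd (Ph (bk r o) (Gt P (cw r) (bk r o) (rotT r o Tl)) h) y ∂μ =
      ∫ h, qd (Ph (bk r 0) (Gt P (cw r) (bk r 0) Tl) h) (tw (prm o) y) ∂μ := by
  have := hμ.prob
  obtain ⟨c, hc⟩ := exists_sym (r / 2) o
  have hw := Tpl.wl (P := P) hT hC
  have hw' : WL (win (cw r) (bk r o))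
      (fun i h w => Gt P (cw r) (bk r 0) Tl i (h ∘ sg (r / 2) o) w)
      (cRef P (win (cw r) (bk r 0)) + C) := wl_comp hc (fun v => mem_bk' v) hw
  have hd : ∀ᵐ h ∂μ, ∀ j, ∀ w ∈ bk r 0, ∀ v ∈ bk r 0,
      DifferentiableAt ℝ (ln (Gt P (cw r) (bk r 0) Tl) j w v (h ∘ sg (r / 2) o)) 0 := by
    have h1 : ∀ j (w v : P2), ∀ᵐ h ∂μ,
        DifferentiableAt ℝ (ln (Gt P (cw r) (bk r 0) Tl) j w v (h ∘ sg (r / 2) o)) 0 := by
      intro j w v
      have h2 := ae_diff hw' (fun i h t w => by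
        have e : (fun v => h v + t) ∘ sg (r / 2) o = fun v => (h ∘ sg (r / 2) o) v + t := rfl
        rw [e, Gt_shift hT]) (win_bk_subset r o) hdlr j w (sg (r / 2) o v)
      filter_upwards [h2] with h hh
      have e : ln (Gt P (cw r) (bk r 0) Tl) j w v (h ∘ sg (r / 2) o) =
          ln (fun i h w => Gt P (cw r) (bk r 0) Tl i (h ∘ sg (r / 2) o) w) j w
            (sg (r / 2) o v) h := by
        funext t
        simp only [ln]
        rw [comp_add_single hc.inj]
      rw [e]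
      exact hh
    have h2 : ∀ᵐ h ∂μ, ∀ j (w v : P2),
        DifferentiableAt ℝ (ln (Gt P (cw r) (bk r 0) Tl) j w v (h ∘ sg (r / 2) o)) 0 :=
      ae_all_iff.2 fun j => ae_all_iff.2 fun w => ae_all_iff.2 fun v => h1 j w v
    filter_upwards [h2] with h hh j w _ v _
    exact hh j w v
  have h1 : ∫ h, qd (Ph (bk r o) (Gt P (cw r) (bk r o) (rotT r o Tl)) h) y ∂μ =
      ∫ h, qd (Ph (bk r 0) (Gt P (cw r) (bk r 0) Tl) (h ∘ sg (r / 2) o)) (tw (prm o) y) ∂μ := by
    refine integral_congr_ae ?_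
    filter_upwards [hd] with h hh
    exact qd_Ph_tr hc (fun v => mem_bk' v) hh y
  rw [h1]
  exact hμ.integral_sg (F := fun h => qd (Ph (bk r 0) (Gt P (cw r) (bk r 0) Tl) h) (tw (prm o) y))
    (measurable_qd_Ph hw _ _) (fun h t => by rw [Ph_shift (Gt_shift hT)]) (r / 2) o

/-- **isotropy of the sum over the orientations** -/
theorem sum_qd_rot (hμ : Inv μ) (hdlr : DLR μ) (hT : Tpl (cw r) (bk r 0) Tl B C)
    (hC : 0 ≤ C) (y : Fin 2 → ℝ) :
    ∑ o, ∫ h, qd (Ph (bk r o) (Gt P (cw r) (bk r o) (rotT r o Tl)) h) y ∂μ =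
      2 * (∫ h, trE (Ph (bk r 0) (Gt P (cw r) (bk r 0) Tl) h) ∂μ) *
        (y 0 ^ 2 - y 0 * y 1 + y 1 ^ 2) := by
  have := hμ.prob
  have hw := Tpl.wl (P := P) hT hC
  simp only [integral_qd_rot hμ hdlr hT hC]
  rw [← integral_finsetSum]
  · simp only [Bl565.sum_tw (Ph_symm _ _ _ 0 1)]
    rw [integral_mul_const, integral_const_mul]
  · intro o _
    exact integrable_qd_Ph hw _ _

/-- the truncated traces of the orientation `0` -/
theorem abT_eq_zero (hμ : Inv μ) (r : ℕ) (L : ℝ) :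
    abT P μ r L = (1 / 2) * ∫ h, trE (bbL P r 0 L h) ∂μ := by
  unfold abT
  have h3 : ∀ o, ∫ h, (if trE (bbO P r o h) ≤ L then trE (bbO P r o h) else 0) ∂μ =
      ∫ h, trE (bbL P r 0 L h) ∂μ := by
    intro o
    simp only [Bl565.trE_bbL]
    have h4 : ∀ h : P2 → ℝ, (if trE (bbO P r o h) ≤ L then trE (bbO P r o h) else 0) =
        (fun g : P2 → ℝ => if trE (bbO P r 0 g) ≤ L then trE (bbO P r 0 g) else 0)
          (h ∘ sg (r / 2) o) := by
      intro h; simp only [← Bl565.trE_bbO_rot]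
    simp only [h4]
    refine hμ.integral_sg (F := fun g : P2 → ℝ =>
      if trE (bbO P r 0 g) ≤ L then trE (bbO P r 0 g) else 0) ?_ ?_ (r / 2) o
    · exact Measurable.ite (Bl565.measurable_trE r 0 measurableSet_Iic) (Bl565.measurable_trE r 0)
        measurable_const
    · intro h c; simp only [Bl565.bbO_shift]
  simp only [h3, Finset.sum_const, Finset.card_univ, Fintype.card_fin, nsmul_eq_mul]
  push_cast
  ring

/-- **monotone convergence** -/
theorem lintegral_trE_le (hμ : Inv μ) (hb : ∀ L, abT P μ r L ≤ b) :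
    ∫⁻ h, ENNReal.ofReal (trE (bbO P r 0 h)) ∂μ ≤ ENNReal.ofReal (2 * b) := by
  have := hμ.prob
  set F : ℕ → (P2 → ℝ) → ℝ≥0∞ := fun n h => ENNReal.ofReal (trE (bbL P r 0 (n : ℝ) h)) with hF
  have hmono : Monotone F := by
    intro n m hnm h
    simp only [hF]
    refine ENNReal.ofReal_le_ofReal ?_
    rw [Bl565.trE_bbL, Bl565.trE_bbL]
    have h0 := Bl565.trE_bbO_nonneg (P := P) r 0 h
    have hc : (n : ℝ) ≤ m := by exact_mod_cast hnm
    split_ifs with h1 h2
    · exact le_rfl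
    · exact absurd (h1.trans hc) h2
    · exact h0
    · exact le_rfl
  have hsup : ∀ h, ENNReal.ofReal (trE (bbO P r 0 h)) = ⨆ n, F n h := by
    intro h
    refine le_antisymm ?_ (iSup_le fun n => ?_)
    · obtain ⟨n, hn⟩ := exists_nat_ge (trE (bbO P r 0 h))
      refine le_trans ?_ (le_iSup _ n)
      simp only [hF]
      rw [Bl565.trE_bbL, if_pos hn]
    · simp only [hF]
      refine ENNReal.ofReal_le_ofReal ?_
      rw [Bl565.trE_bbL]
      split_ifs
      · exact le_rfl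
      · exact Bl565.trE_bbO_nonneg (P := P) r 0 h
  have hmeas : ∀ n, Measurable (F n) := fun n =>
    ((((Bl565.measurable_bbL r 0 (n : ℝ) 0 0).add (Bl565.measurable_bbL r 0 (n : ℝ) 0 1)).add
      (Bl565.measurable_bbL r 0 (n : ℝ) 1 1))).ennreal_ofReal
  simp only [hsup]
  rw [lintegral_iSup hmeas hmono]
  refine iSup_le fun n => ?_
  have h1 := hb (n : ℝ)
  rw [abT_eq_zero hμ] at h1
  have h2 : ∀ h, 0 ≤ trE (bbL P r 0 (n : ℝ) h) := by
    intro h
    rw [Bl565.trE_bbL]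
    split_ifs
    · exact Bl565.trE_bbO_nonneg (P := P) r 0 h
    · exact le_rfl
  simp only [hF]
  rw [← ofReal_integral_eq_lintegral_ofReal (Bl565.integrable_trE r 0 (n : ℝ)) (ae_of_all _ h2)]
  exact ENNReal.ofReal_le_ofReal (by linarith)

theorem integral_trE_le (hμ : Inv μ) (hb : ∀ L, abT P μ r L ≤ b) :
    ∫ h, trE (bbO P r 0 h) ∂μ ≤ 2 * b := by
  have hb0 : 0 ≤ b := by
    have h1 := hb (-1)
    rw [abT_eq_zero hμ] at h1
    simp only [Bl565.bbL_of_neg (show (-1 : ℝ) < 0 by norm_num)] at h1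
    simpa [trE] using h1
  rw [integral_eq_lintegral_of_nonneg_ae (ae_of_all _ fun h => Bl565.trE_bbO_nonneg r 0 h)
    (Bl565.measurable_trE r 0).aestronglyMeasurable]
  refine ENNReal.toReal_le_of_le_ofReal (by linarith) (lintegral_trE_le hμ hb)

/-- **The templates of the three orientations.** -/
theorem three (P : Par) {r : ℕ} (hr : 2 ≤ r) {μ : Measure (P2 → ℝ)} (hμ : Inv μ) (hdlr : DLR μ)
    {b : ℝ} (hb : ∀ L, abT P μ r L ≤ b) {η : ℝ} (hη : 0 < η) :
    ∃ (Tl : Fin 3 → Fin 2 → (P2 → ℝ) → P2 → ℝ) (C : ℝ), 0 ≤ C ∧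
      (∀ o, Tpl (cw r) (bk r o) (Tl o) (128 * r) C) ∧
      ∀ y : Fin 2 → ℝ, ∑ o, ∫ h, qd (Ph (bk r o) (Gt P (cw r) (bk r o) (Tl o)) h) y ∂μ ≤
        (4 * b * ((r / 2 : ℕ) : ℝ) ^ 2 + η) * (y 0 ^ 2 - y 0 * y 1 + y 1 ^ 2) := by
  have := hμ.prob
  obtain ⟨Tl, C, hC, hT, hE⟩ := exists_tpl P hr hdlr (show 0 < η / 2 by positivity)
  refine ⟨fun o => rotT r o Tl, 2 * C, by linarith, fun o => ?_, fun y => ?_⟩
  · have h1 := tpl_rot o hT
    have e : 2 * (64 * (r : ℝ)) = 128 * r := by ring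
    rw [e] at h1
    exact h1
  · rw [sum_qd_rot hμ hdlr hT hC]
    have h1 := integral_trE_le hμ hb
    have h2 : 0 ≤ y 0 ^ 2 - y 0 * y 1 + y 1 ^ 2 := by nlinarith [sq_nonneg (y 0 - y 1)]
    refine mul_le_mul_of_nonneg_right ?_ h2
    have h3 : 0 ≤ ((r / 2 : ℕ) : ℝ) ^ 2 := by positivity
    nlinarith

end Three

end Crest.Agent.R144.LoA770
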