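import Mathlib
import Crest.Agent.R144.LowL7_549
import Crest.Agent.R144.LoA8_770

/-!
# R144 (S0197), LOW-LIM (helper549), part 8: the main term for three local matrices

`main3_le` : limit of the sum over the orientations and the classes; `lm3_tpl` : the matrices of
the templates are admissible.
-/

set_option autoImplicit false

open MeasureTheory Metric Set Filter Topology
open scoped ComplexConjugate ContDiff

namespace Crest.Agent.R144.LowL549

open Crest.Agent.R144.Skel144 Crest.Agent.R144.Con549 Crest.Agent.R144.Cnt268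
open Crest.Agent.R144.Bl565 Crest.Agent.R144.HexTil353
open Crest.Agent.R144.Lc279 (P2 bx)
open Crest.Agent.R144.Lw425 (LObs hball hd mem_hball hd_triangle hd_comm hd_le_iff)
open Crest.Agent.R144.LoC95 (Ph Gt Tpl Ph_apply)
open Crest.Agent.R144.LoA770 (WL Ph_shift Gt_shift qd_Ph_nonneg)
open Crest.ProbabilityR.HexHeights (centre)

noncomputable section

/-- an admissible family of local matrices -/
structure LM3 (R : ℕ) (Φ : Fin 3 → (P2 → ℝ) → Matrix (Fin 2) (Fin 2) ℝ) : Prop where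
  obs : ∀ o i j, SObs R fun h => Φ o h i j
  psd : ∀ o h y, 0 ≤ qd (Φ o h) y

/-- the block functionals of one class -/
def m3 (Φ : Fin 3 → (P2 → ℝ) → Matrix (Fin 2) (Fin 2) ℝ) (u : ℂ → ℝ) (δ : ℝ) (r : ℕ) (o : Fin 3)
    (R : Finset P2) (c : P2) (h : P2 → ℝ) : ℝ :=
  ∑ q ∈ Qs r o R c, qd (Φ o fun v => h (q + v)) (nu u (centre δ q))

variable {G : Set ℂ} {δ : ℕ → ℝ} {Rg : ℕ → Finset P2} {ν : ℕ → Measure (P2 → ℝ)}
  {μ : Measure (P2 → ℝ)} {R : ℕ} {Φ : Fin 3 → (P2 → ℝ) → Matrix (Fin 2) (Fin 2) ℝ} {u : ℂ → ℝ}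

theorem LM3.integrable (hΦ : LM3 R Φ) (ν : Measure (P2 → ℝ)) [IsFiniteMeasure ν]
    (o : Fin 3) (q : P2) (i j : Fin 2) :
    Integrable (fun h : P2 → ℝ => Φ o (fun v => h (q + v)) i j) ν := by
  obtain ⟨C, hC⟩ := (hΦ.obs o i j).bdd
  refine Integrable.of_bound (((hΦ.obs o i j).meas.comp
    (measurable_rt fun v => q + v)).aestronglyMeasurable) C (ae_of_all _ fun h => ?_)
  rw [Real.norm_eq_abs]
  exact hC _

theorem LM3.integrable_qd (hΦ : LM3 R Φ) (ν : Measure (P2 → ℝ)) [IsFiniteMeasure ν]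
    (o : Fin 3) (q : P2) (y : Fin 2 → ℝ) :
    Integrable (fun h : P2 → ℝ => qd (Φ o fun v => h (q + v)) y) ν := by
  unfold qd
  exact integrable_finsetSum _ fun i _ => integrable_finsetSum _ fun j _ =>
    ((hΦ.integrable ν o q i j).mul_const _).mul_const _

theorem LM3.integrable0 (hΦ : LM3 R Φ) (ν : Measure (P2 → ℝ)) [IsFiniteMeasure ν]
    (o : Fin 3) (i j : Fin 2) : Integrable (fun h : P2 → ℝ => Φ o h i j) ν := by
  obtain ⟨C, hC⟩ := (hΦ.obs o i j).bdd
  refine Integrable.of_bound ((hΦ.obs o i j).meas.aestronglyMeasurable) C (ae_of_all _ fun h => ?_)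
  rw [Real.norm_eq_abs]
  exact hC _

theorem LM3.integral_qd (hΦ : LM3 R Φ) (ν : Measure (P2 → ℝ)) [IsFiniteMeasure ν]
    (o : Fin 3) (q : P2) (y : Fin 2 → ℝ) :
    ∫ h, qd (Φ o fun v => h (q + v)) y ∂ν =
      ∑ i, ∑ j, y i * y j * ∫ h, Φ o (fun v => h (q + v)) i j ∂ν := by
  unfold qd
  rw [integral_finsetSum _ fun i _ => integrable_finsetSum _ fun j _ =>
    ((hΦ.integrable ν o q i j).mul_const _).mul_const _]
  refine Finset.sum_congr rfl fun i _ => ?_
  rw [integral_finsetSum _ fun j _ => ((hΦ.integrable ν o q i j).mul_const _).mul_const _]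
  refine Finset.sum_congr rfl fun j _ => ?_
  rw [integral_mul_const, integral_mul_const]
  ring

theorem LM3.integral_qd0 (hΦ : LM3 R Φ) (ν : Measure (P2 → ℝ)) [IsFiniteMeasure ν]
    (o : Fin 3) (y : Fin 2 → ℝ) :
    ∫ h, qd (Φ o h) y ∂ν = ∑ i, ∑ j, y i * y j * ∫ h, Φ o h i j ∂ν := by
  unfold qd
  rw [integral_finsetSum _ fun i _ => integrable_finsetSum _ fun j _ =>
    ((hΦ.integrable0 ν o i j).mul_const _).mul_const _]
  refine Finset.sum_congr rfl fun i _ => ?_
  rw [integral_finsetSum _ fun j _ => ((hΦ.integrable0 ν o i j).mul_const _).mul_const _]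
  refine Finset.sum_congr rfl fun j _ => ?_
  rw [integral_mul_const, integral_mul_const]
  ring

theorem integrable_m3 (hΦ : LM3 R Φ) (ν : Measure (P2 → ℝ)) [IsFiniteMeasure ν] (u : ℂ → ℝ)
    (δ : ℝ) (r : ℕ) (o : Fin 3) (Rg : Finset P2) (c : P2) :
    Integrable (m3 Φ u δ r o Rg c) ν := by
  unfold m3
  exact integrable_finsetSum _ fun q _ => hΦ.integrable_qd ν o q _

theorem m3_nonneg (hΦ : LM3 R Φ) (δ : ℝ) (r : ℕ) (o : Fin 3) (Rg : Finset P2) (c : P2)
    (h : P2 → ℝ) : 0 ≤ m3 Φ u δ r o Rg c h :=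
  Finset.sum_nonneg fun q _ => hΦ.psd _ _ _

theorem tsupport_nu2 (i j : Fin 2) :
    tsupport (fun z => nu u z i * nu u z j) ⊆ tsupport u := by
  refine closure_minimal (fun z hz => ?_) (isClosed_tsupport u)
  by_contra h
  exact hz (by simp only [nu_eq_zero h, zero_mul])

theorem compact_nu2 {D : Set ℂ} (hu : IsTest D u) (i j : Fin 2) :
    HasCompactSupport (fun z => nu u z i * nu u z j) :=
  hu.comp.of_isClosed_subset (isClosed_tsupport _) (tsupport_nu2 i j)

/-- **the main term** -/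
theorem main3_le (hs : Sites G δ Rg) (hν : ∀ n, IsProbabilityMeasure (ν n))
    [IsProbabilityMeasure μ]
    (hL : LLN G δ Rg ν μ) (hu : IsTest G u) (hΦ : LM3 R Φ) {B : ℝ}
    (hB : ∀ y : Fin 2 → ℝ, ∑ o, ∫ h, qd (Φ o h) y ∂μ ≤ B * (y 0 ^ 2 - y 0 * y 1 + y 1 ^ 2))
    {r : ℕ} (hr : 2 ≤ r) {ε : ℝ} (hε : 0 < ε) : ∀ᶠ n in atTop,
      δ n ^ 2 * ∑ o, ∑ c ∈ bx (r / 2), ∫ h, m3 Φ u (δ n) r o (Rg n) c h ∂(ν n) ≤
        Real.sqrt 3 / 2 * B * (∫ z, ‖fderiv ℝ u z‖ ^ 2) + ε := by
  set T : Fin 2 → Fin 2 → ℂ → ℝ := fun i j z => nu u z i * nu u z j with hT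
  have hTc : ∀ i j, Continuous (T i j) := fun i j =>
    (continuous_nu hu i).mul (continuous_nu hu j)
  have hTk : ∀ i j, HasCompactSupport (T i j) := fun i j => compact_nu2 hu i j
  have hTi : ∀ i j, Integrable (T i j) := fun i j =>
    (hTc i j).integrable_of_hasCompactSupport (hTk i j)
  -- the limit of the full sums
  have hlim : Tendsto (fun n => ∑ o : Fin 3, ∑ i : Fin 2, ∑ j : Fin 2,
      δ n ^ 2 * ∑ q ∈ Rg n, T i j (centre (δ n) q) *
        ∫ h, Φ o (fun v => h (q + v)) i j ∂(ν n)) atTop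
      (𝓝 (∑ o : Fin 3, ∑ i : Fin 2, ∑ j : Fin 2,
        2 / Real.sqrt 3 * (∫ z, T i j z) * ∫ h, Φ o h i j ∂μ)) :=
    tendsto_finsetSum _ fun o _ => tendsto_finsetSum _ fun i _ =>
      tendsto_finsetSum _ fun j _ => hL.scaled (hΦ.obs o i j) (hTc i j) (hTk i j)
      ((tsupport_nu2 i j).trans hu.supp)
  -- the value of the limit
  have hval : ∑ o : Fin 3, ∑ i : Fin 2, ∑ j : Fin 2,
      2 / Real.sqrt 3 * (∫ z, T i j z) * (∫ h, Φ o h i j ∂μ) ≤
      Real.sqrt 3 / 2 * B * ∫ z, ‖fderiv ℝ u z‖ ^ 2 := by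
    have h1 : ∑ o : Fin 3, ∑ i : Fin 2, ∑ j : Fin 2,
        2 / Real.sqrt 3 * (∫ z, T i j z) * (∫ h, Φ o h i j ∂μ) =
        2 / Real.sqrt 3 * ∫ z, ∑ o : Fin 3, ∫ h, qd (Φ o h) (nu u z) ∂μ := by
      rw [integral_finsetSum, Finset.mul_sum]
      · refine Finset.sum_congr rfl fun o _ => ?_
        have h2 : ∫ z, ∫ h, qd (Φ o h) (nu u z) ∂μ =
            ∑ i : Fin 2, ∑ j : Fin 2, (∫ h, Φ o h i j ∂μ) * ∫ z, T i j z := by
          have e : (fun z => ∫ h, qd (Φ o h) (nu u z) ∂μ) =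
              fun z => ∑ i : Fin 2, ∑ j : Fin 2, (∫ h, Φ o h i j ∂μ) * T i j z := by
            funext z
            rw [hΦ.integral_qd0]
            refine Finset.sum_congr rfl fun i _ => Finset.sum_congr rfl fun j _ => ?_
            simp only [hT]; ring
          rw [e, integral_finsetSum]
          · refine Finset.sum_congr rfl fun i _ => ?_
            rw [integral_finsetSum]
            · exact Finset.sum_congr rfl fun j _ => integral_const_mul _ _
            · exact fun j _ => (hTi i j).const_mul _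
          · exact fun i _ => integrable_finsetSum _ fun j _ => (hTi i j).const_mul _
        rw [h2, Finset.mul_sum]
        refine Finset.sum_congr rfl fun i _ => ?_
        rw [Finset.mul_sum]
        refine Finset.sum_congr rfl fun j _ => ?_
        ring
      · intro o _
        simp only [hΦ.integral_qd0]
        refine integrable_finsetSum _ fun i _ => integrable_finsetSum _ fun j _ => ?_
        have e : (fun z => nu u z i * nu u z j * ∫ h, Φ o h i j ∂μ) =
            fun z => T i j z * ∫ h, Φ o h i j ∂μ := by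
          funext z; simp only [hT]
        rw [e]
        exact (hTi i j).mul_const _
    rw [h1]
    have hint1 : Integrable fun z => ∑ o : Fin 3, ∫ h, qd (Φ o h) (nu u z) ∂μ := by
      simp only [hΦ.integral_qd0]
      refine integrable_finsetSum _ fun o _ => integrable_finsetSum _ fun i _ =>
        integrable_finsetSum _ fun j _ => ?_
      have e : (fun z => nu u z i * nu u z j * ∫ h, Φ o h i j ∂μ) =
          fun z => T i j z * ∫ h, Φ o h i j ∂μ := by
        funext z; simp only [hT]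
      rw [e]
      exact (hTi i j).mul_const _
    have hint2 : Integrable fun z => B * (3 / 4 * ‖fderiv ℝ u z‖ ^ 2) := by
      have e : (fun z => B * (3 / 4 * ‖fderiv ℝ u z‖ ^ 2)) =
          fun z => B * (T 0 0 z - T 0 1 z + T 1 1 z) := by
        funext z
        rw [← nu_sq]
        simp only [hT]; ring
      rw [e]
      exact (((hTi 0 0).sub (hTi 0 1)).add (hTi 1 1)).const_mul _
    have h5 : ∫ z, ∑ o : Fin 3, ∫ h, qd (Φ o h) (nu u z) ∂μ ≤
        ∫ z, B * (3 / 4 * ‖fderiv ℝ u z‖ ^ 2) := by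
      refine integral_mono hint1 hint2 fun z => ?_
      simp only
      rw [← nu_sq]
      exact hB _
    rw [integral_const_mul, integral_const_mul] at h5
    have h3 : 0 < Real.sqrt 3 := by positivity
    have h4 : Real.sqrt 3 * Real.sqrt 3 = 3 := Real.mul_self_sqrt (by norm_num)
    have h6 : 2 / Real.sqrt 3 * (B * (3 / 4 * ∫ z, ‖fderiv ℝ u z‖ ^ 2)) =
        Real.sqrt 3 / 2 * B * ∫ z, ‖fderiv ℝ u z‖ ^ 2 := by
      have : 2 / Real.sqrt 3 = 2 * Real.sqrt 3 / 3 := by
        rw [div_eq_div_iff h3.ne' (by norm_num)]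
        linear_combination (-2) * h4
      rw [this]; ring
    rw [← h6]
    exact mul_le_mul_of_nonneg_left h5 (by positivity)
  have hev := hlim.eventually (gt_mem_nhds (show _ < Real.sqrt 3 / 2 * B *
    (∫ z, ‖fderiv ℝ u z‖ ^ 2) + ε by linarith [hval]))
  filter_upwards [hev, hs.inn _ hu.comp.isCompact hu.supp] with n h1 h2
  have hνn := hν n
  refine le_trans ?_ h1.le
  have e1 : ∑ o : Fin 3, ∑ i : Fin 2, ∑ j : Fin 2,
      δ n ^ 2 * ∑ q ∈ Rg n, T i j (centre (δ n) q) *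
        ∫ h, Φ o (fun v => h (q + v)) i j ∂(ν n) =
      δ n ^ 2 * ∑ o : Fin 3, ∑ q ∈ Rg n,
        ∫ h, qd (Φ o fun v => h (q + v)) (nu u (centre (δ n) q)) ∂(ν n) := by
    simp only [hΦ.integral_qd (ν n), Finset.mul_sum]
    refine Finset.sum_congr rfl fun o _ => ?_
    have h3 : ∀ q, ∑ i : Fin 2, ∑ j : Fin 2, δ n ^ 2 * (nu u (centre (δ n) q) i *
        nu u (centre (δ n) q) j * ∫ h, Φ o (fun v => h (q + v)) i j ∂(ν n)) =
        ∑ i : Fin 2, ∑ j : Fin 2, δ n ^ 2 * (T i j (centre (δ n) q) *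
          ∫ h, Φ o (fun v => h (q + v)) i j ∂(ν n)) := fun q => rfl
    simp only [h3]
    symm
    rw [Finset.sum_comm]
    refine Finset.sum_congr rfl fun i _ => ?_
    rw [Finset.sum_comm]
  rw [e1]
  refine mul_le_mul_of_nonneg_left (Finset.sum_le_sum fun o _ => ?_) (sq_nonneg _)
  have e2 : ∀ c, ∫ h, m3 Φ u (δ n) r o (Rg n) c h ∂(ν n) = ∑ q ∈ Qs r o (Rg n) c,
      ∫ h, qd (Φ o fun v => h (q + v)) (nu u (centre (δ n) q)) ∂(ν n) := by
    intro c
    unfold m3
    exact integral_finsetSum _ fun q _ => hΦ.integrable_qd (ν n) o q _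
  simp only [e2]
  refine sum_Qs_le hr o (Rg n) (Rg n) (fun q => integral_nonneg fun h => hΦ.psd _ _ _)
    fun q hq => ?_
  have h4 : centre (δ n) q ∉ tsupport u := fun h => hq (h2 q h)
  have h5 : nu u (centre (δ n) q) = 0 := by
    funext i; exact nu_eq_zero h4 i
  rw [h5]
  have h6 : ∀ B : Matrix (Fin 2) (Fin 2) ℝ, qd B 0 = 0 := fun B => by
    rw [qd_eq]; simp
  simp only [h6, integral_zero]

/-- the window of a block is in a ball -/
theorem win_subset_hball {r : ℕ} {o : Fin 3} : win (cw r) (bk r o) ⊆ hball (3 * r) := by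
  intro v hv
  obtain ⟨a, ha, hda⟩ := mem_win.mp hv
  obtain ⟨⟨a1, a2⟩, a3, a4⟩ := bk_bound ha
  rw [mem_hball, hd_le_iff]
  rw [hd_le_iff] at hda
  obtain ⟨⟨d1, d2⟩, ⟨d3, d4⟩, d5, d6⟩ := hda
  have hc : (cw r : ℤ) ≤ r := by exact_mod_cast cw_le r
  simp only [Prod.fst_zero, Prod.snd_zero, sub_zero]
  push_cast
  refine ⟨⟨?_, ?_⟩, ⟨?_, ?_⟩, ?_, ?_⟩ <;> linarith

/-- the matrices of the templates are admissible -/
theorem lm3_tpl (P : Par) {r : ℕ} {Tl : Fin 3 → Fin 2 → (P2 → ℝ) → P2 → ℝ} {B C : ℝ}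
    (hC : 0 ≤ C) (hT : ∀ o, Tpl (cw r) (bk r o) (Tl o) B C) :
    LM3 (3 * r) fun o h => Ph (bk r o) (Gt P (cw r) (bk r o) (Tl o)) h where
  obs := by
    intro o i j
    have hW := LoA770.Tpl.wl (P := P) (hT o) hC
    refine ⟨(bk r o).card * ((bk r o).card * (LoA770.cRef P (win (cw r) (bk r o)) + C) ^ 2) + 1,
      by positivity, ?_⟩
    set K : ℝ := (bk r o).card * ((bk r o).card *
      (LoA770.cRef P (win (cw r) (bk r o)) + C) ^ 2) + 1 with hK
    have hK0 : 0 < K := by positivity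
    exact
      { meas := (hW.measurable_Ph _ i j).const_mul _
        bd := fun h => by
          rw [abs_mul, abs_inv, abs_of_pos hK0, inv_mul_le_iff₀ hK0, mul_one]
          have := hW.abs_Ph_le (bk r o) h i j
          rw [hK]; linarith
        loc := fun h h' hh => by
          beta_reduce
          rw [hW.Ph_congr (bk r o) fun w hw => hh w (win_subset_hball hw)]
        shift := fun h c => by
          beta_reduce
          rw [Ph_shift (Gt_shift (hT o))] }
  psd := fun o h y => qd_Ph_nonneg _ _ _ _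

end

end Crest.Agent.R144.LowL549
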