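import Mathlib
import Crest.Agent.R144.LowL8_549

/-!
# R144 (S0197), LOW-LIM (helper549), part 9: the error terms
-/

set_option autoImplicit false

open MeasureTheory Metric Set Filter Topology
open scoped ComplexConjugate ContDiff

namespace Crest.Agent.R144.LowL549

open Crest.Agent.R144.Skel144 Crest.Agent.R144.Con549 Crest.Agent.R144.Cnt268
open Crest.Agent.R144.Bl565 Crest.Agent.R144.HexTil353
open Crest.Agent.R144.Lc279 (P2 bx nr mem_nr nr_subset)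
open Crest.Agent.R144.Lw425 (LObs hball hd mem_hball hd_triangle hd_comm hd_le_iff)
open Crest.ProbabilityR.HexHeights (centre)

noncomputable section

variable {G : Set ℂ} {δ : ℕ → ℝ} {Rg : ℕ → Finset P2} {ν : ℕ → Measure (P2 → ℝ)}
  {μ : Measure (P2 → ℝ)} {mf : ℕ → (P2 → ℝ) → P2 → ℕ}

namespace NumIn

variable (N : NumIn G δ Rg ν μ mf)
include N

theorem integrable_of (n : ℕ) (w : P2) (f : ℕ → ℝ) :
    Integrable (fun h => f (mf n h w)) (ν n) := by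
  have := N.prob n
  obtain ⟨K, hK⟩ := N.bdd n
  have hm : Measurable fun h => f (mf n h w) := (measurable_from_top (f := f)).comp (N.meas n w)
  refine Integrable.of_bound hm.aestronglyMeasurable (∑ k ∈ Finset.range (K + 1), |f k|)
    (ae_of_all _ fun h => ?_)
  rw [Real.norm_eq_abs]
  exact Finset.single_le_sum (f := fun k => |f k|) (fun k _ => abs_nonneg _)
    (Finset.mem_range.mpr (Nat.lt_succ_of_le (hK h w)))

/-- first moments -/
theorem first : ∃ C q : ℝ, 0 < C ∧ 0 < q ∧ q < 1 ∧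
    (∀ᶠ n in atTop, δ n ^ 2 * ∑ w ∈ Rg n, ∫ h, (mf n h w : ℝ) ∂(ν n) ≤ C) ∧
    (∀ j : ℕ, ∀ᶠ n in atTop,
    δ n ^ 2 * ∑ w ∈ Rg n, ∫ h, (if j < mf n h w then (mf n h w : ℝ) else 0) ∂(ν n) ≤
      C * q ^ j) ∧
    (∀ j : ℕ, ∀ᶠ n in atTop, ∀ S ⊆ Rg n, δ n ^ 2 * ∑ w ∈ S, ∫ h, (mf n h w : ℝ) ∂(ν n) ≤
      j * (δ n ^ 2 * S.card) + C * q ^ j) := by
  obtain ⟨C, q, hC, hq0, hq1, H⟩ := N.mom1
  refine ⟨C, q, hC, hq0, hq1, ?_, H, fun j => ?_⟩
  · filter_upwards [H 0] with n hn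
    rw [pow_zero, mul_one] at hn
    refine le_trans (le_of_eq ?_) hn
    congr 1
    refine Finset.sum_congr rfl fun w _ => integral_congr_ae (ae_of_all _ fun h => ?_)
    beta_reduce
    split_ifs with h1
    · rfl
    · have : mf n h w = 0 := by omega
      rw [this]; simp
  · filter_upwards [H j] with n hn S hS
    have := N.prob n
    have h1 : ∀ w ∈ S, ∫ h, (mf n h w : ℝ) ∂(ν n) ≤
        j + ∫ h, (if j < mf n h w then (mf n h w : ℝ) else 0) ∂(ν n) := by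
      intro w _
      have h2 : ∫ h, ((j : ℝ) + if j < mf n h w then (mf n h w : ℝ) else 0) ∂(ν n) =
          j + ∫ h, (if j < mf n h w then (mf n h w : ℝ) else 0) ∂(ν n) := by
        rw [integral_add (integrable_const _)
          (N.integrable_of n w fun k => if j < k then (k : ℝ) else 0)]
        simp
      rw [← h2]
      refine integral_mono (N.integrable_of n w fun k => (k : ℝ))
        (N.integrable_of n w fun k => (j : ℝ) + if j < k then (k : ℝ) else 0) fun h => ?_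
      beta_reduce
      split_ifs with h3
      · have : (0 : ℝ) ≤ j := Nat.cast_nonneg _
        linarith
      · rw [add_zero]
        exact_mod_cast not_lt.mp h3
    have h4 : ∑ w ∈ S, ∫ h, (if j < mf n h w then (mf n h w : ℝ) else 0) ∂(ν n) ≤
        ∑ w ∈ Rg n, ∫ h, (if j < mf n h w then (mf n h w : ℝ) else 0) ∂(ν n) :=
      Finset.sum_le_sum_of_subset_of_nonneg hS fun w _ _ => integral_nonneg fun h => by
        positivity
    have h5 := mul_le_mul_of_nonneg_left ((Finset.sum_le_sum h1).trans_eq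
      (Finset.sum_add_distrib)) (sq_nonneg (δ n))
    have h6 := mul_le_mul_of_nonneg_left h4 (sq_nonneg (δ n))
    rw [Finset.sum_const, nsmul_eq_mul] at h5
    nlinarith

/-- few sites near the frontier of the region -/
theorem near_card (R : ℕ) {η : ℝ} (hη : 0 < η) : ∀ᶠ n in atTop,
    δ n ^ 2 * ((nr R (Rg n)).card : ℝ) ≤ η := by
  filter_upwards [N.hs.near' R hη] with n hn
  refine hn _ (nr_subset _ _) fun v hv => ?_
  obtain ⟨_, u, hu, hvu⟩ := mem_nr.mp hv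
  rw [Lc279.mem_BX] at hu
  refine ⟨v + u, hvu, ?_, ?_⟩
  · simpa [abs_le] using hu.1
  · simpa [abs_le] using hu.2

theorem near_sum (R : ℕ) {η : ℝ} (hη : 0 < η) : ∀ᶠ n in atTop,
    δ n ^ 2 * ∑ w ∈ nr R (Rg n), ∫ h, (mf n h w : ℝ) ∂(ν n) ≤ η := by
  obtain ⟨C, q, hC, hq0, hq1, -, -, H⟩ := N.first
  have h1 : Tendsto (fun j : ℕ => C * q ^ j) atTop (𝓝 0) := by
    have := (tendsto_pow_atTop_nhds_zero_of_lt_one hq0.le hq1).const_mul C
    simpa using this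
  obtain ⟨j, hj⟩ := (h1.eventually (gt_mem_nhds (half_pos hη))).exists
  filter_upwards [H j, N.near_card R (show 0 < η / (2 * (j + 1)) by positivity)] with n h2 h3
  have h4 := h2 _ (nr_subset R (Rg n))
  have h5 : (j : ℝ) * (δ n ^ 2 * ((nr R (Rg n)).card : ℝ)) ≤ η / 2 := by
    calc (j : ℝ) * (δ n ^ 2 * ((nr R (Rg n)).card : ℝ)) ≤ (j + 1) * (η / (2 * (j + 1))) := by
          refine mul_le_mul (by linarith) h3 (by positivity) (by positivity)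
      _ = η / 2 := by field_simp
  linarith

/-- **sites in no core** -/
theorem nd_term : ∃ C : ℝ, 0 < C ∧ ∀ {r : ℕ}, 2 ≤ r → ∀ {ε : ℝ}, 0 < ε → ∀ᶠ n in atTop,
    δ n ^ 2 * ∑ o : Fin 3, ∑ c ∈ bx (r / 2), ∑ w ∈ nd r o (Rg n) c,
      ∫ h, (mf n h w : ℝ) ∂(ν n) ≤ 24 * cw r * ((r / 2 : ℕ) : ℝ) * C + ε := by
  obtain ⟨C, q, hC, hq0, hq1, H1, -, -⟩ := N.first
  refine ⟨C, hC, fun {r} hr {ε} hε => ?_⟩
  have hs : 0 < r / 2 := by omega
  have hs' : (0 : ℝ) < ((r / 2 : ℕ) : ℝ) := by exact_mod_cast hs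
  filter_upwards [H1, N.near_sum (4 * r)
    (show 0 < ε / (3 * ((r / 2 : ℕ) : ℝ) ^ 2) by positivity)] with n h1 h2
  have h0 : ∀ w, 0 ≤ ∫ h, (mf n h w : ℝ) ∂(ν n) := fun w =>
    integral_nonneg fun h => Nat.cast_nonneg _
  have h3 : ∀ o : Fin 3, δ n ^ 2 * ∑ c ∈ bx (r / 2), ∑ w ∈ nd r o (Rg n) c,
      ∫ h, (mf n h w : ℝ) ∂(ν n) ≤ 8 * cw r * ((r / 2 : ℕ) : ℝ) * C + ε / 3 := by
    intro o
    have h4 := mul_le_mul_of_nonneg_left (sum_nd_le hr o (Rg n) h0) (sq_nonneg (δ n))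
    refine h4.trans ?_
    have h5 := card_cor r o
    have h6 : δ n ^ 2 * ((((r / 2 : ℕ) : ℝ) ^ 2 - (cor (cw r) (bk r o)).card) *
        ∑ w ∈ Rg n, ∫ h, (mf n h w : ℝ) ∂(ν n)) ≤ 8 * cw r * ((r / 2 : ℕ) : ℝ) * C := by
      calc _ = (((r / 2 : ℕ) : ℝ) ^ 2 - (cor (cw r) (bk r o)).card) *
          (δ n ^ 2 * ∑ w ∈ Rg n, ∫ h, (mf n h w : ℝ) ∂(ν n)) := by ring
        _ ≤ (8 * cw r * ((r / 2 : ℕ) : ℝ)) *
          (δ n ^ 2 * ∑ w ∈ Rg n, ∫ h, (mf n h w : ℝ) ∂(ν n)) :=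
          mul_le_mul_of_nonneg_right h5
            (mul_nonneg (sq_nonneg _) (Finset.sum_nonneg fun w _ => h0 w))
        _ ≤ _ := mul_le_mul_of_nonneg_left h1 (by positivity)
    have h7 : δ n ^ 2 * (((r / 2 : ℕ) : ℝ) ^ 2 *
        ∑ w ∈ nr (4 * r) (Rg n), ∫ h, (mf n h w : ℝ) ∂(ν n)) ≤ ε / 3 := by
      calc _ = ((r / 2 : ℕ) : ℝ) ^ 2 *
          (δ n ^ 2 * ∑ w ∈ nr (4 * r) (Rg n), ∫ h, (mf n h w : ℝ) ∂(ν n)) := by ring
        _ ≤ ((r / 2 : ℕ) : ℝ) ^ 2 * (ε / (3 * ((r / 2 : ℕ) : ℝ) ^ 2)) :=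
          mul_le_mul_of_nonneg_left h2 (by positivity)
        _ = ε / 3 := by field_simp
    rw [mul_add]
    linarith
  rw [Finset.mul_sum]
  refine (Finset.sum_le_sum fun o _ => h3 o).trans (le_of_eq ?_)
  rw [Finset.sum_const, Finset.card_univ, Fintype.card_fin, nsmul_eq_mul]
  push_cast
  ring

/-- **squares** -/
theorem sq_term (K : ℝ) {ε : ℝ} (hε : 0 < ε) : ∀ᶠ n in atTop,
    K * (δ n ^ 2) ^ 2 * ∑ w ∈ Rg n, ∫ h, ((mf n h w : ℝ) + 1) ^ 2 ∂(ν n) ≤ ε := by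
  obtain ⟨C, hC, H⟩ := N.mom2
  obtain ⟨C', hC', hcard⟩ := N.hs.card_bdd
  have h1 : Tendsto (fun n => |K| * δ n ^ 2 * (2 * C + 2 * C')) atTop (𝓝 0) := by
    have h2 := ((N.hs.lim.pow 2).const_mul |K|).mul_const (2 * C + 2 * C')
    simpa using h2
  filter_upwards [H, h1.eventually (gt_mem_nhds hε)] with n h2 h3
  have := N.prob n
  have h4 : ∀ w, ∫ h, ((mf n h w : ℝ) + 1) ^ 2 ∂(ν n) ≤
      2 * ∫ h, (mf n h w : ℝ) ^ 2 ∂(ν n) + 2 := by
    intro w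
    have e : 2 * ∫ h, (mf n h w : ℝ) ^ 2 ∂(ν n) + 2 =
        ∫ h, (2 * (mf n h w : ℝ) ^ 2 + 2) ∂(ν n) := by
      rw [integral_add ((N.integrable_of n w fun k => (k : ℝ) ^ 2).const_mul 2)
        (integrable_const _), integral_const_mul]
      simp
    rw [e]
    refine integral_mono (N.integrable_of n w fun k => ((k : ℝ) + 1) ^ 2)
      (N.integrable_of n w fun k => 2 * (k : ℝ) ^ 2 + 2) fun h => ?_
    beta_reduce
    nlinarith [sq_nonneg ((mf n h w : ℝ) - 1)]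
  have h5 : δ n ^ 2 * ∑ w ∈ Rg n, ∫ h, ((mf n h w : ℝ) + 1) ^ 2 ∂(ν n) ≤ 2 * C + 2 * C' := by
    have h6 := mul_le_mul_of_nonneg_left (Finset.sum_le_sum fun w (_ : w ∈ Rg n) => h4 w)
      (sq_nonneg (δ n))
    refine h6.trans ?_
    rw [Finset.sum_add_distrib, ← Finset.mul_sum, Finset.sum_const, nsmul_eq_mul]
    have := hcard n
    nlinarith
  have h0 : 0 ≤ δ n ^ 2 * ∑ w ∈ Rg n, ∫ h, ((mf n h w : ℝ) + 1) ^ 2 ∂(ν n) :=
    mul_nonneg (sq_nonneg _) (Finset.sum_nonneg fun w _ => integral_nonneg fun h => sq_nonneg _)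
  calc K * (δ n ^ 2) ^ 2 * ∑ w ∈ Rg n, ∫ h, ((mf n h w : ℝ) + 1) ^ 2 ∂(ν n) =
        K * δ n ^ 2 * (δ n ^ 2 * ∑ w ∈ Rg n, ∫ h, ((mf n h w : ℝ) + 1) ^ 2 ∂(ν n)) := by ring
    _ ≤ |K| * δ n ^ 2 * (δ n ^ 2 * ∑ w ∈ Rg n, ∫ h, ((mf n h w : ℝ) + 1) ^ 2 ∂(ν n)) := by
        gcongr
        exact le_abs_self K
    _ ≤ |K| * δ n ^ 2 * (2 * C + 2 * C') := mul_le_mul_of_nonneg_left h5 (by positivity)
    _ ≤ ε := h3.le

/-- **displacement** -/
theorem disp_term (K L : ℝ) {ε : ℝ} (hε : 0 < ε) : ∀ᶠ n in atTop,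
    K * δ n * (δ n ^ 2 * ∑ w ∈ Rg n, ∫ h, ((mf n h w : ℝ) + L) ∂(ν n)) ≤ ε := by
  obtain ⟨C, q, hC, -, -, H, -, -⟩ := N.first
  obtain ⟨C', hC', hcard⟩ := N.hs.card_bdd
  have h1 : Tendsto (fun n => |K| * δ n * (C + |L| * C')) atTop (𝓝 0) := by
    have h2 := (N.hs.lim.const_mul |K|).mul_const (C + |L| * C')
    simpa using h2
  filter_upwards [H, h1.eventually (gt_mem_nhds hε)] with n h2 h3
  have := N.prob n
  have hδ : 0 < δ n := N.hs.pos n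
  have h4 : ∀ w, |∫ h, ((mf n h w : ℝ) + L) ∂(ν n)| ≤ ∫ h, (mf n h w : ℝ) ∂(ν n) + |L| := by
    intro w
    have e : ∫ h, ((mf n h w : ℝ) + L) ∂(ν n) = ∫ h, (mf n h w : ℝ) ∂(ν n) + L := by
      rw [integral_add (N.integrable_of n w fun k => (k : ℝ)) (integrable_const _)]
      simp
    rw [e]
    refine (abs_add_le _ _).trans ?_
    rw [abs_of_nonneg (integral_nonneg fun h => Nat.cast_nonneg _)]
  have h5 : |δ n ^ 2 * ∑ w ∈ Rg n, ∫ h, ((mf n h w : ℝ) + L) ∂(ν n)| ≤ C + |L| * C' := by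
    rw [abs_mul, abs_of_nonneg (sq_nonneg (δ n))]
    refine (mul_le_mul_of_nonneg_left ((Finset.abs_sum_le_sum_abs _ _).trans
      (Finset.sum_le_sum fun w _ => h4 w)) (sq_nonneg _)).trans ?_
    rw [Finset.sum_add_distrib, Finset.sum_const, nsmul_eq_mul]
    have h6 := mul_le_mul_of_nonneg_left (hcard n) (abs_nonneg L)
    nlinarith
  calc _ ≤ |K * δ n * (δ n ^ 2 * ∑ w ∈ Rg n, ∫ h, ((mf n h w : ℝ) + L) ∂(ν n))| := le_abs_self _
    _ = |K| * δ n * |δ n ^ 2 * ∑ w ∈ Rg n, ∫ h, ((mf n h w : ℝ) + L) ∂(ν n)| := by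
        rw [abs_mul, abs_mul, abs_of_pos hδ]
    _ ≤ |K| * δ n * (C + |L| * C') := mul_le_mul_of_nonneg_left h5 (by positivity)
    _ ≤ ε := h3.le

/-- **long paths** -/
theorem far_term (K : ℝ) {κ : ℝ} (hκ : 0 < κ) (a : ℕ) {ε : ℝ} (hε : 0 < ε) : ∀ᶠ n in atTop,
    K * (δ n ^ a)⁻¹ * (ν n).real {h | ∃ w ∈ Rg n, κ / δ n ≤ (mf n h w : ℝ)} ≤ ε := by
  have h1 : Tendsto (fun n => |K| * δ n) atTop (𝓝 0) := by
    have h2 := N.hs.lim.const_mul |K|
    simpa using h2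
  filter_upwards [N.far κ hκ (a + 1), h1.eventually (gt_mem_nhds hε)] with n h2 h3
  have hδ : 0 < δ n := N.hs.pos n
  calc K * (δ n ^ a)⁻¹ * (ν n).real {h | ∃ w ∈ Rg n, κ / δ n ≤ (mf n h w : ℝ)} ≤
        |K| * (δ n ^ a)⁻¹ * (ν n).real {h | ∃ w ∈ Rg n, κ / δ n ≤ (mf n h w : ℝ)} := by
        gcongr
        exact le_abs_self K
    _ ≤ |K| * (δ n ^ a)⁻¹ * δ n ^ (a + 1) := mul_le_mul_of_nonneg_left h2 (by positivity)
    _ = |K| * δ n := by rw [pow_succ]; field_simp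
    _ ≤ ε := h3.le

end NumIn

/-! ### polynomials against exponentials -/

theorem tendsto_cw_pow (k : ℕ) {q : ℝ} (hq0 : 0 < q) (hq1 : q < 1) :
    Tendsto (fun r : ℕ => (r : ℝ) ^ k * q ^ cw r) atTop (𝓝 0) := by
  have hcw : Tendsto cw atTop atTop := by
    refine tendsto_atTop.mpr fun b => ?_
    filter_upwards [eventually_ge_atTop (b * b)] with r hr
    exact Nat.le_sqrt.mpr hr
  -- `r ≤ (cw r + 1)²`
  have h1 : ∀ r : ℕ, (r : ℝ) ≤ ((cw r : ℝ) + 1) ^ 2 := by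
    intro r
    have h2 : r < Nat.succ (Nat.sqrt r) * Nat.succ (Nat.sqrt r) := Nat.lt_succ_sqrt r
    have h3 : (r : ℝ) < (Nat.succ (Nat.sqrt r) * Nat.succ (Nat.sqrt r) : ℕ) := by exact_mod_cast h2
    push_cast at h3
    change (r : ℝ) ≤ ((Nat.sqrt r : ℝ) + 1) ^ 2
    nlinarith
  have h2 : Tendsto (fun m : ℕ => ((m : ℝ) + 1) ^ (2 * k) * q ^ m) atTop (𝓝 0) := by
    have h3 := (tendsto_pow_const_mul_const_pow_of_abs_lt_one (2 * k)
      (show |q| < 1 by rw [abs_of_pos hq0]; exact hq1))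
    have h4 := (h3.comp (tendsto_add_atTop_nat 1)).const_mul q⁻¹
    rw [mul_zero] at h4
    refine h4.congr fun m => ?_
    simp only [Function.comp_apply]
    push_cast
    rw [pow_succ q m]
    field_simp
  refine squeeze_zero (fun r => by positivity) (fun r => ?_) (h2.comp hcw)
  simp only [Function.comp_apply]
  rw [pow_mul]
  gcongr
  exact h1 r

end

end Crest.Agent.R144.LowL549
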