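import Mathlib
import Crest.Agent.R144.LowL9_549
import Crest.Agent.R144.LoC7_95

/-!
# R144 (S0197), LOW-LIM (helper549), part 10: the test function in index coordinates

`psi u l δ` ; `psiH` ; `sep_ev` ; `pos_Qs`.
-/

set_option autoImplicit false

open MeasureTheory Metric Set Filter Topology
open scoped ComplexConjugate ContDiff

namespace Crest.Agent.R144.LowL549

open Crest.Agent.R144.Skel144 Crest.Agent.R144.Con549 Crest.Agent.R144.Cnt268
open Crest.Agent.R144.Bl565 Crest.Agent.R144.HexTil353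
open Crest.Agent.R144.Lc279 (P2 bx nr mem_nr nr_subset)
open Crest.Agent.R144.Lw425 (LObs hball hd mem_hball hd_triangle hd_comm hd_le_iff hd_nonneg)
open Crest.Agent.R144.LoC95 (PsiH Sep ix ix_zero ix_one Pos tr mem_tr)
open Crest.Agent.R144.LoB95 (sl')
open Crest.ProbabilityR.HexHeights (centre)

noncomputable section

/-- index coordinates to the plane -/
def emb (δ : ℝ) : (Fin 2 → ℝ) →L[ℝ] ℂ :=
  (ContinuousLinearMap.proj (R := ℝ) (φ := fun _ : Fin 2 => ℝ) 0).smulRight ((δ : ℂ) * ev 0) +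
  (ContinuousLinearMap.proj (R := ℝ) (φ := fun _ : Fin 2 => ℝ) 1).smulRight ((δ : ℂ) * ev 1)

theorem emb_apply (δ : ℝ) (y : Fin 2 → ℝ) : emb δ y = cen δ (y 0) (y 1) := by
  have h : emb δ y = y 0 • ((δ : ℂ) * ev 0) + y 1 • ((δ : ℂ) * ev 1) := rfl
  rw [h]
  have h0 : ev 0 = cen 1 1 0 := rfl
  have h1 : ev 1 = cen 1 0 1 := rfl
  rw [h0, h1]
  apply Complex.ext
  · simp only [Complex.add_re, Complex.real_smul, Complex.re_ofReal_mul, cen_re]; ring
  · simp only [Complex.add_im, Complex.real_smul, Complex.im_ofReal_mul, cen_im]; ring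

theorem emb_ix (δ : ℝ) (q : P2) : emb δ (ix q) = centre δ q := by
  rw [emb_apply, centre_eq]
  rfl

theorem emb_single (δ : ℝ) (i : Fin 2) : emb δ (Pi.single i 1) = (δ : ℝ) • ev i := by
  rw [emb_apply]
  fin_cases i
  · have h0 : ev 0 = cen 1 1 0 := rfl
    simp only [Fin.zero_eta, Fin.isValue, Pi.single_eq_same, h0]
    apply Complex.ext
    · simp [cen_re]
    · simp [cen_im]
  · have h1 : ev 1 = cen 1 0 1 := rfl
    simp only [Fin.mk_one, Fin.isValue, Pi.single_eq_same, h1]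
    apply Complex.ext
    · simp [cen_re]
    · simp [cen_im]

theorem norm_cen_le (a b : ℝ) : ‖cen 1 a b‖ ≤ |a| + |b| := by
  have e : cen 1 a b = (a : ℂ) + (b : ℂ) * ((1 / 2 : ℝ) + (Real.sqrt 3 / 2 : ℝ) * Complex.I) := by
    apply Complex.ext
    · simp [cen_re]; ring
    · simp [cen_im]
  rw [e]
  have h1 : ‖((1 / 2 : ℝ) : ℂ) + (Real.sqrt 3 / 2 : ℝ) * Complex.I‖ = 1 := by
    rw [Complex.norm_add_mul_I]
    have : (1 / 2 : ℝ) ^ 2 + (Real.sqrt 3 / 2) ^ 2 = 1 := by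
      rw [div_pow (Real.sqrt 3), Real.sq_sqrt (by norm_num)]; norm_num
    rw [this, Real.sqrt_one]
  refine (norm_add_le _ _).trans ?_
  rw [norm_mul, h1, mul_one, Complex.norm_real, Complex.norm_real, Real.norm_eq_abs,
    Real.norm_eq_abs]

theorem norm_ev (i : Fin 2) : ‖ev i‖ ≤ 1 := by
  fin_cases i
  · have := norm_cen_le 1 0
    simp only [abs_one, abs_zero, add_zero] at this
    exact this
  · have := norm_cen_le 0 1
    simp only [abs_one, abs_zero, zero_add] at this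
    exact this

theorem norm_emb_le {δ : ℝ} (hδ : 0 ≤ δ) (y : Fin 2 → ℝ) : ‖emb δ y‖ ≤ 2 * δ * ‖y‖ := by
  have h : emb δ y = y 0 • ((δ : ℂ) * ev 0) + y 1 • ((δ : ℂ) * ev 1) := rfl
  rw [h]
  refine (norm_add_le _ _).trans ?_
  rw [norm_smul, norm_smul, norm_mul, norm_mul, Complex.norm_real, Real.norm_eq_abs,
    Real.norm_eq_abs, Real.norm_eq_abs, abs_of_nonneg hδ]
  have h0 : |y 0| ≤ ‖y‖ := norm_le_pi_norm y 0
  have h1 : |y 1| ≤ ‖y‖ := norm_le_pi_norm y 1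
  have h2 := norm_ev 0
  have h3 := norm_ev 1
  calc |y 0| * (δ * ‖ev 0‖) + |y 1| * (δ * ‖ev 1‖) ≤ ‖y‖ * (δ * 1) + ‖y‖ * (δ * 1) := by
        gcongr
    _ = 2 * δ * ‖y‖ := by ring

/-- the test function in index coordinates -/
def psi (u : ℂ → ℝ) (l δ : ℝ) (y : Fin 2 → ℝ) : ℝ := l * u (emb δ y)

theorem psi_ix (u : ℂ → ℝ) (l δ : ℝ) (q : P2) : psi u l δ (ix q) = l * u (centre δ q) := by
  rw [psi, emb_ix]

variable {G : Set ℂ} {u : ℂ → ℝ}

theorem diff_test (hu : IsTest G u) : Differentiable ℝ u := hu.smooth.differentiable (by simp)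

theorem diff_psi (hu : IsTest G u) (l δ : ℝ) : Differentiable ℝ (psi u l δ) :=
  ((diff_test hu).comp (emb δ).differentiable).const_mul l

theorem sl_psi (hu : IsTest G u) (l δ : ℝ) (y : Fin 2 → ℝ) (i : Fin 2) :
    sl' (psi u l δ) y i = l * δ * nu u (emb δ y) i := by
  unfold sl'
  have h1 : HasFDerivAt (psi u l δ) (l • (fderiv ℝ u (emb δ y)).comp (emb δ)) y := by
    have h2 := ((diff_test hu) (emb δ y)).hasFDerivAt.comp y (emb δ).hasFDerivAt
    exact h2.const_mul l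
  rw [h1.fderiv]
  change l * fderiv ℝ u (emb δ y) (emb δ (Pi.single i 1)) = _
  rw [emb_single, map_smul, smul_eq_mul]
  unfold nu
  ring

theorem sl_psi_ix (hu : IsTest G u) (l δ : ℝ) (q : P2) :
    sl' (psi u l δ) (ix q) = fun i => (l * δ) * nu u (centre δ q) i := by
  funext i
  rw [sl_psi hu, emb_ix]

/-- bounds of the test function -/
theorem exists_bd (hu : IsTest G u) : ∃ S0 S1 S2 : ℝ, 0 ≤ S0 ∧ 0 ≤ S1 ∧ 0 ≤ S2 ∧
    (∀ z, |u z| ≤ S0) ∧ (∀ z, ∑ i, nu u z i ^ 2 ≤ S1 ^ 2) ∧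
    (∀ z z', ∑ i, (nu u z i - nu u z' i) ^ 2 ≤ S2 ^ 2 * ‖z - z'‖ ^ 2) := by
  obtain ⟨S0, hS0⟩ := hu.smooth.continuous.bounded_above_of_compact_support hu.comp
  have hf : ContDiff ℝ 1 (fderiv ℝ u) :=
    (hu.smooth.fderiv_right (m := ∞) (by simp)).of_le (by simp)
  have hfc : HasCompactSupport (fderiv ℝ u) := hu.comp.fderiv ℝ
  obtain ⟨S1, hS1⟩ := hf.continuous.bounded_above_of_compact_support hfc
  obtain ⟨C, hC⟩ := ContDiff.lipschitzWith_of_hasCompactSupport hfc hf (by simp)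
  have h1 : ∀ z i, |nu u z i| ≤ |S1| := by
    intro z i
    unfold nu
    have h2 := (fderiv ℝ u z).le_opNorm (ev i)
    rw [Real.norm_eq_abs] at h2
    calc |fderiv ℝ u z (ev i)| ≤ ‖fderiv ℝ u z‖ * ‖ev i‖ := h2
      _ ≤ |S1| * 1 := mul_le_mul ((hS1 z).trans (le_abs_self _)) (norm_ev i) (norm_nonneg _)
          (abs_nonneg _)
      _ = |S1| := mul_one _
  have h3 : ∀ z z' i, |nu u z i - nu u z' i| ≤ C * ‖z - z'‖ := by
    intro z z' i
    unfold nu
    have h4 := (fderiv ℝ u z - fderiv ℝ u z').le_opNorm (ev i)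
    rw [Real.norm_eq_abs] at h4
    have h5 := hC.dist_le_mul z z'
    rw [dist_eq_norm, dist_eq_norm] at h5
    calc |fderiv ℝ u z (ev i) - fderiv ℝ u z' (ev i)| ≤ ‖fderiv ℝ u z - fderiv ℝ u z'‖ * ‖ev i‖ := h4
      _ ≤ (C * ‖z - z'‖) * 1 := mul_le_mul h5 (norm_ev i) (norm_nonneg _) (by positivity)
      _ = C * ‖z - z'‖ := mul_one _
  refine ⟨|S0|, 2 * |S1|, 2 * C, abs_nonneg _, by positivity, by positivity, fun z => ?_,
    fun z => ?_, fun z z' => ?_⟩
  · have := hS0 z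
    rw [Real.norm_eq_abs] at this
    exact this.trans (le_abs_self _)
  · rw [Fin.sum_univ_two]
    have a0 := sq_le_sq' (by linarith [h1 z 0, neg_abs_le (nu u z 0)])
      ((le_abs_self _).trans (h1 z 0))
    have a1 := sq_le_sq' (by linarith [h1 z 1, neg_abs_le (nu u z 1)])
      ((le_abs_self _).trans (h1 z 1))
    nlinarith [sq_nonneg (|S1|)]
  · rw [Fin.sum_univ_two]
    have a0 := sq_le_sq' (by linarith [h3 z z' 0, neg_abs_le (nu u z 0 - nu u z' 0)])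
      ((le_abs_self _).trans (h3 z z' 0))
    have a1 := sq_le_sq' (by linarith [h3 z z' 1, neg_abs_le (nu u z 1 - nu u z' 1)])
      ((le_abs_self _).trans (h3 z z' 1))
    nlinarith [sq_nonneg ((C : ℝ) * ‖z - z'‖)]

/-- **hypotheses on the test function** -/
theorem psiH (hu : IsTest G u) {S0 S1 S2 : ℝ} (hS1 : 0 ≤ S1) (hS2 : 0 ≤ S2)
    (h0 : ∀ z, |u z| ≤ S0) (h1 : ∀ z, ∑ i, nu u z i ^ 2 ≤ S1 ^ 2)
    (h2 : ∀ z z', ∑ i, (nu u z i - nu u z' i) ^ 2 ≤ S2 ^ 2 * ‖z - z'‖ ^ 2) (l : ℝ) {δ : ℝ}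
    (hδ : 0 ≤ δ) : PsiH (psi u l δ) (|l| * S0) (|l| * S1 * δ) (2 * |l| * S2 * δ ^ 2) where
  diff := diff_psi hu l δ
  n1 := by positivity
  n2 := by positivity
  b := fun y => by
    rw [psi, abs_mul]
    exact mul_le_mul_of_nonneg_left (h0 _) (abs_nonneg _)
  g1 := fun y => by
    simp only [sl_psi hu, mul_pow, ← Finset.mul_sum]
    rw [sq_abs]
    calc l ^ 2 * δ ^ 2 * ∑ i, nu u (emb δ y) i ^ 2 ≤ l ^ 2 * δ ^ 2 * S1 ^ 2 := by
          gcongr
          exact h1 _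
      _ = _ := by ring
  g2 := fun y y' => by
    have e : ∀ i, (sl' (psi u l δ) y i - sl' (psi u l δ) y' i) ^ 2 =
        (l * δ) ^ 2 * (nu u (emb δ y) i - nu u (emb δ y') i) ^ 2 := by
      intro i
      rw [sl_psi hu, sl_psi hu]; ring
    simp only [e, ← Finset.mul_sum]
    have h3 : ‖emb δ y - emb δ y'‖ ^ 2 ≤ (2 * δ * ‖y - y'‖) ^ 2 := by
      rw [← map_sub]
      exact pow_le_pow_left₀ (norm_nonneg _) (norm_emb_le hδ _) 2
    calc (l * δ) ^ 2 * ∑ i, (nu u (emb δ y) i - nu u (emb δ y') i) ^ 2 ≤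
          (l * δ) ^ 2 * (S2 ^ 2 * (2 * δ * ‖y - y'‖) ^ 2) := by
          gcongr
          exact (h2 _ _).trans (mul_le_mul_of_nonneg_left h3 (sq_nonneg _))
      _ = |l| ^ 2 * (2 * S2 * δ ^ 2) ^ 2 * ‖y - y'‖ ^ 2 := by rw [sq_abs]; ring
      _ = _ := by ring

theorem tsupport_psi (u : ℂ → ℝ) (l δ : ℝ) {y : Fin 2 → ℝ} (hy : y ∈ tsupport (psi u l δ)) :
    emb δ y ∈ tsupport u := by
  have h1 : tsupport (psi u l δ) ⊆ (emb δ) ⁻¹' tsupport u := by
    refine closure_minimal (fun z hz => ?_) ((isClosed_tsupport u).preimage (emb δ).continuous)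
    refine subset_tsupport u fun h => hz ?_
    rw [psi, h, mul_zero]
  exact h1 hy

theorem norm_centre_sub_le {δ : ℝ} (hδ : 0 ≤ δ) (a b : P2) :
    ‖centre δ b - centre δ a‖ ≤ 2 * δ * hd a b := by
  rw [← emb_ix, ← emb_ix, ← map_sub]
  refine (norm_emb_le hδ _).trans (mul_le_mul_of_nonneg_left ?_ (by positivity))
  have h0 : (0 : ℝ) ≤ hd a b := by exact_mod_cast hd_nonneg a b
  rw [pi_norm_le_iff_of_nonneg h0]
  obtain ⟨⟨h1, h2⟩, ⟨h3, h4⟩, -⟩ := hd_le_iff.mp (le_refl (hd a b))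
  intro i
  rw [Real.norm_eq_abs, abs_le]
  fin_cases i
  · change -((hd a b : ℤ) : ℝ) ≤ (b.1 : ℝ) - a.1 ∧ (b.1 : ℝ) - a.1 ≤ (hd a b : ℤ)
    constructor
    · have : -(hd a b) ≤ b.1 - a.1 := by linarith
      exact_mod_cast this
    · have : b.1 - a.1 ≤ hd a b := by linarith
      exact_mod_cast this
  · change -((hd a b : ℤ) : ℝ) ≤ (b.2 : ℝ) - a.2 ∧ (b.2 : ℝ) - a.2 ≤ (hd a b : ℤ)
    constructor
    · have : -(hd a b) ≤ b.2 - a.2 := by linarith
      exact_mod_cast this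
    · have : b.2 - a.2 ≤ hd a b := by linarith
      exact_mod_cast this

/-- **separation** -/
theorem sep_ev {δ : ℕ → ℝ} {Rg : ℕ → Finset P2} (hs : Sites G δ Rg) (hu : IsTest G u) :
    ∃ κ : ℝ, 0 < κ ∧ ∀ (l B : ℝ), ∀ᶠ n in atTop, ∀ M : ℕ, (M : ℝ) ≤ 2 * κ / δ n →
      Sep (Rg n) (psi u l (δ n)) B M := by
  obtain ⟨ρ, hρ, hρG⟩ := hu.comp.isCompact.exists_cthickening_subset_open hs.opn hu.supp
  have hK : IsCompact (cthickening ρ (tsupport u)) := hu.comp.isCompact.cthickening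
  refine ⟨ρ / 100, by positivity, fun l B => ?_⟩
  filter_upwards [hs.inn _ hK hρG,
    hs.small (show 0 < ρ / (8 * (|B| + 1)) by positivity)] with n h1 h2 M hM a ha hl b hb
  by_contra hlt
  push Not at hlt
  obtain ⟨y, hy, hya⟩ := hl
  have hδ : 0 < δ n := hs.pos n
  apply hb
  refine h1 b ?_
  refine mem_cthickening_of_dist_le (centre (δ n) b) (emb (δ n) y) ρ (tsupport u)
    (tsupport_psi u l _ hy) ?_
  have hM' : δ n * M ≤ 2 * (ρ / 100) := by
    rw [le_div_iff₀ hδ] at hM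
    linarith
  have hB : δ n * |B| ≤ ρ / 8 := by
    have h3 : δ n * (8 * (|B| + 1)) < ρ := by rwa [lt_div_iff₀ (by positivity)] at h2
    nlinarith [abs_nonneg B]
  have h3 : ‖emb (δ n) y - centre (δ n) a‖ ≤ 2 * δ n * (2 * M + |B|) := by
    rw [← emb_ix, ← map_sub]
    refine (norm_emb_le hδ.le _).trans (mul_le_mul_of_nonneg_left ?_ (by positivity))
    rw [pi_norm_le_iff_of_nonneg (by positivity)]
    intro i
    have h4 := hya i
    rw [Real.norm_eq_abs, Pi.sub_apply]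
    exact h4.trans (by linarith [le_abs_self B])
  have h5 : ‖centre (δ n) b - centre (δ n) a‖ ≤ 2 * δ n * M := by
    refine (norm_centre_sub_le hδ.le a b).trans (mul_le_mul_of_nonneg_left ?_ (by positivity))
    exact_mod_cast hlt.le
  rw [dist_eq_norm]
  have h6 : centre (δ n) b - emb (δ n) y = (centre (δ n) b - centre (δ n) a) -
      (emb (δ n) y - centre (δ n) a) := by abel
  rw [h6]
  refine (norm_sub_le _ _).trans ?_
  nlinarith

/-- positions -/
theorem pos_Qs {r : ℕ} (hr : 2 ≤ r) (o : Fin 3) (R : Finset P2) (c : P2) :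
    Pos (bk r o) (cw r) R (Qs r o R c) where
  m1 := by
    have : Nat.sqrt 1 ≤ Nat.sqrt r := Nat.sqrt_le_sqrt (by omega)
    rw [Nat.sqrt_one] at this
    exact this
  dis := by
    intro q hq q' hq' v hv hv'
    rw [mem_tr] at hv hv'
    exact Qs_disj hq hq' hv hv' (by abel)
  inn := by
    intro q hq v hv
    rw [mem_tr] at hv
    have := ((mem_Qs hr).mp hq).1 _ hv
    rwa [show q + (v - q) = v by abel] at this

end

end Crest.Agent.R144.LowL549
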