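import Mathlib
import Crest.Agent.R144.KapN2_761
import Crest.Agent.R144.LoC8_95
import Crest.Agent.R144.LowL10_549

/-!
# R144 (S0197), helper761, KapN, part 3: the trial field in the fibres of `mu0`

* `LS` closure lemmas;
* `AF`, `BF` : the observables of the Cramér–Rao bound; `ls_AF`, `ls_BF`;
* `fib_field` : the trial field of `exists_field` in every fibre.
-/

set_option autoImplicit false
set_option linter.unusedVariables false

open MeasureTheory Metric Set Filter Topology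
open scoped ContDiff NNReal

namespace Crest.Agent.R144.KapN761

open Crest.Agent.R144.Skel144 Crest.Agent.R144.Con549 Crest.Agent.R144.Cnt268
open Crest.Agent.R144.Bl565 Crest.Agent.R144.LowL549
open Crest.Agent.R144.Cw643 (Near Wt CV)
open Crest.Agent.R144.Ham560 (ext ham nbr ext_mem ext_notMem)
open Crest.Agent.R144.KapE761
open Crest.Agent.R144.LoC95 (Ph Gt Tpl MT NT LT ST Bad A1c A2c PsiH Sep ix Pos Loc tr exists_field)
open Crest.Agent.R144.LoB95 (sl')
open Crest.Agent.R144.Lc279 (P2 bx nr mu0 lat mem_nbr_lat)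
open Crest.Agent.R144.Lw425 (LObs hball hd mem_hball hd_triangle hd_comm)
open Crest.ProbabilityR.HexHeights (centre)

noncomputable section

/-! ### closure of `LS` -/

theorem LS.of {F : (P2 → ℝ) → ℝ} (hm : Measurable F) (hb : ∃ C, ∀ h, |F h| ≤ C)
    (hl : ∃ r : ℕ, ∀ h h', (∀ a ∈ hball r, h a = h' a) → F h = F h')
    (hs : ∀ h (c : ℝ), F (fun a => h a + c) = F h) : LS F := by
  obtain ⟨C, hC⟩ := hb
  obtain ⟨r, hr⟩ := hl
  exact LS.mk' r hm hC hr hs

theorem hball_mono {r r' : ℕ} (h : r ≤ r') : hball r ⊆ hball r' := fun v hv => by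
  rw [mem_hball] at hv ⊢
  exact hv.trans (by exact_mod_cast h)

theorem ls_const (c : ℝ) : LS fun _ => c :=
  LS.mk' 0 measurable_const (C := |c|) (fun _ => le_rfl) (fun _ _ _ => rfl) (fun _ _ => rfl)

theorem ls_add {F F' : (P2 → ℝ) → ℝ} (h1 : LS F) (h2 : LS F') : LS fun h => F h + F' h := by
  obtain ⟨C, -, hC⟩ := h1.bdd
  obtain ⟨C', -, hC'⟩ := h2.bdd
  obtain ⟨r, hr, hs⟩ := h1.local_shift
  obtain ⟨r', hr', hs'⟩ := h2.local_shift
  refine LS.mk' (max r r') (h1.measurable.add h2.measurable) (C := C + C')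
    (fun h => (abs_add_le _ _).trans (add_le_add (hC h) (hC' h))) (fun h h' hh => ?_)
    (fun h c => by rw [hs, hs'])
  rw [hr h h' fun a ha => hh a (hball_mono (le_max_left _ _) ha),
    hr' h h' fun a ha => hh a (hball_mono (le_max_right _ _) ha)]

theorem ls_mul {F F' : (P2 → ℝ) → ℝ} (h1 : LS F) (h2 : LS F') : LS fun h => F h * F' h := by
  obtain ⟨C, hC0, hC⟩ := h1.bdd
  obtain ⟨C', -, hC'⟩ := h2.bdd
  obtain ⟨r, hr, hs⟩ := h1.local_shift
  obtain ⟨r', hr', hs'⟩ := h2.local_shift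
  refine LS.mk' (max r r') (h1.measurable.mul h2.measurable) (C := C * C')
    (fun h => (abs_mul _ _).trans_le (mul_le_mul (hC h) (hC' h) (abs_nonneg _) hC0.le))
    (fun h h' hh => ?_) (fun h c => by rw [hs, hs'])
  rw [hr h h' fun a ha => hh a (hball_mono (le_max_left _ _) ha),
    hr' h h' fun a ha => hh a (hball_mono (le_max_right _ _) ha)]

theorem ls_cmul {F : (P2 → ℝ) → ℝ} (c : ℝ) (h1 : LS F) : LS fun h => c * F h :=
  ls_mul (ls_const c) h1

theorem ls_sub {F F' : (P2 → ℝ) → ℝ} (h1 : LS F) (h2 : LS F') : LS fun h => F h - F' h := by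
  have := ls_add h1 (ls_cmul (-1) h2)
  refine (congrArg LS (funext fun h => ?_)).mp this
  ring

theorem ls_sum {ι : Type*} (s : Finset ι) {F : ι → (P2 → ℝ) → ℝ} (h1 : ∀ i ∈ s, LS (F i)) :
    LS fun h => ∑ i ∈ s, F i h := by
  classical
  induction s using Finset.induction_on with
  | empty => simpa using ls_const 0
  | @insert i s hi ih =>
    simp only [Finset.sum_insert hi]
    exact ls_add (h1 i (Finset.mem_insert_self _ _))
      (ih fun j hj => h1 j (Finset.mem_insert_of_mem hj))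

theorem ls_prod {ι : Type*} (s : Finset ι) {F : ι → (P2 → ℝ) → ℝ} (h1 : ∀ i ∈ s, LS (F i)) :
    LS fun h => ∏ i ∈ s, F i h := by
  classical
  induction s using Finset.induction_on with
  | empty => simpa using ls_const 1
  | @insert i s hi ih =>
    simp only [Finset.prod_insert hi]
    exact ls_mul (h1 i (Finset.mem_insert_self _ _))
      (ih fun j hj => h1 j (Finset.mem_insert_of_mem hj))

theorem ls_tr {F : (P2 → ℝ) → ℝ} (h1 : LS F) (q : P2) : LS fun h => F fun a => h (q + a) := by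
  obtain ⟨C, hC0, hC⟩ := h1.bdd
  obtain ⟨r, hr, hs⟩ := h1.local_shift
  refine LS.mk' (r + (hd q 0).toNat) (h1.measurable.comp (measurable_rt fun v => q + v))
    (fun h => hC _) (fun h h' hh => ?_) (fun h c => hs _ c)
  refine hr _ _ fun a ha => hh _ ?_
  rw [mem_hball] at ha ⊢
  have h2 := hd_triangle (q + a) q 0
  have h3 : hd (q + a) q = hd a 0 := by
    have := hd_add q a 0
    rw [add_zero] at this
    exact this
  have h4 : hd q 0 ≤ ((hd q 0).toNat : ℤ) := Int.self_le_toNat _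
  push_cast
  linarith

theorem ls_mcw (P : Par) (c0 : ℝ) {V : Finset P2} {w : P2} (hw : w ∈ V) (f : ℕ → ℝ) :
    LS fun h => f (mcw P c0 V h w) := by
  obtain ⟨r, hr⟩ := Lw425.exists_hball V
  refine LS.mk' r ((measurable_from_top (f := f)).comp (measurable_mcw V w))
    (C := ∑ k ∈ Finset.range (V.card + 2), |f k|) (fun h => ?_) (fun h h' hh => ?_)
    (fun h c => ?_)
  · exact Finset.single_le_sum (f := fun k => |f k|) (fun k _ => abs_nonneg _)
      (Finset.mem_range.mpr (by have := mcw_le (P := P) (c0 := c0) V h w; omega))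
  · rw [mcw_congr (fun a ha => hh a (hr a ha)) hw]
  · rw [mcw_shift]

theorem ls_of_sobs {r : ℕ} {F : (P2 → ℝ) → ℝ} (h : SObs r F) : LS F := by
  obtain ⟨C, hC, h1⟩ := h
  exact ⟨r, C, hC, h1⟩

/-! ### the observables -/

section defs

variable (P : Par) (c0 : ℝ) (m : ℕ) (I : Finset P2) (Tl : Fin 2 → (P2 → ℝ) → P2 → ℝ)
  (Rg Q : Finset P2) (Psi : (Fin 2 → ℝ) → ℝ) (M : ℕ) (B θ A3 A4 p0 p1 p2 : ℝ)

open Classical in
/-- indicator of macroscopic cheap paths -/
def badI (h : P2 → ℝ) : ℝ := if Bad P c0 Rg M h then 1 else 0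

/-- upper bound of the trace -/
def BF (N : ℕ) (h : P2 → ℝ) : ℝ :=
  (1 + θ) ^ 2 * MT P m I Tl Q Psi h +
  p1 ^ 2 * (A1c P * NT P c0 m I Rg Q h) +
  p1 ^ 2 * (A2c P c0 m I B θ * LT P c0 m Rg h) +
  p2 ^ 2 * (A3 * ST P c0 Rg h) +
  A4 * (1 + N : ℝ) ^ 8 * (1 + p0 + p1) ^ 6 * badI P c0 Rg M h

/-- lower bound of the pairing -/
def AF (s : Finset P2) (b : P2 → ℝ) (h : P2 → ℝ) : ℝ :=
  (∑ p ∈ s, b p * Psi (ix p)) -
  (∑ w ∈ Rg, |b w| * (2 * p1 * (2 * mcw P c0 (win 1 Rg) h w + B))) -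
  (∑ p ∈ s, |b p|) * (2 * p0) * badI P c0 Rg M h

end defs

section

variable {P : Par} {c0 : ℝ} {m : ℕ} {I : Finset P2} {Tl : Fin 2 → (P2 → ℝ) → P2 → ℝ}
  {Rg Q : Finset P2} {Psi : (Fin 2 → ℝ) → ℝ} {M : ℕ} {B C θ A3 A4 p0 p1 p2 : ℝ}

theorem badI_eq (h : P2 → ℝ) : badI P c0 Rg M h =
    1 - ∏ w ∈ Rg, (fun k : ℕ => if M ≤ k then (0 : ℝ) else 1) (mcw P c0 (win 1 Rg) h w) := by
  classical
  unfold badI
  by_cases hb : Bad P c0 Rg M h
  · rw [if_pos hb]
    obtain ⟨w, hw, hM⟩ := hb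
    rw [Finset.prod_eq_zero hw, sub_zero]
    simp only [if_pos hM]
  · rw [if_neg hb]
    unfold Bad at hb
    push Not at hb
    rw [Finset.prod_eq_one, sub_self]
    intro w hw
    simp only [if_neg (not_le.mpr (hb w hw))]

theorem ls_badI : LS (badI P c0 Rg M) := by
  have : badI P c0 Rg M = fun h => 1 - ∏ w ∈ Rg, (fun k : ℕ => if M ≤ k then (0 : ℝ) else 1)
      (mcw P c0 (win 1 Rg) h w) := funext fun h => badI_eq h
  rw [this]
  exact ls_sub (ls_const 1) (ls_prod Rg fun w hw => ls_mcw P c0 (subset_win 1 _ hw)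
    fun k : ℕ => if M ≤ k then (0 : ℝ) else 1)

theorem badI_nonneg (h : P2 → ℝ) : 0 ≤ badI P c0 Rg M h := by
  unfold badI; split_ifs <;> norm_num

theorem badI_of {h : P2 → ℝ} (hb : Bad P c0 Rg M h) : badI P c0 Rg M h = 1 := by
  unfold badI; rw [if_pos hb]

theorem badI_not {h : P2 → ℝ} (hb : ¬ Bad P c0 Rg M h) : badI P c0 Rg M h = 0 := by
  unfold badI; rw [if_neg hb]

theorem ls_AF (s : Finset P2) (b : P2 → ℝ) : LS (AF P c0 Rg Psi M B p0 p1 s b) := by
  unfold AF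
  refine ls_sub (ls_sub (ls_const _) (ls_sum Rg fun w hw => ?_)) (ls_cmul _ ls_badI)
  exact ls_mcw P c0 (subset_win 1 _ hw) fun k => |b w| * (2 * p1 * (2 * k + B))

theorem ls_BF (hΦ : ∀ i j, LS fun h => Ph I (Gt P m I Tl) h i j) (N : ℕ) :
    LS (BF P c0 m I Tl Rg Q Psi M B θ A3 A4 p0 p1 p2 N) := by
  unfold BF
  refine ls_add (ls_add (ls_add (ls_add (ls_cmul _ ?_) ?_) ?_) ?_) (ls_cmul _ ls_badI)
  · unfold MT
    refine ls_sum Q fun q _ => ?_
    unfold qd
    refine ls_sum _ fun i _ => ls_sum _ fun j _ => ?_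
    exact ls_mul (ls_mul (ls_tr (hΦ i j) q) (ls_const _)) (ls_const _)
  · refine ls_cmul _ (ls_cmul _ ?_)
    unfold NT
    refine ls_sum _ fun w hw => ?_
    exact ls_mcw P c0 (subset_win 1 _ (Finset.mem_filter.mp hw).1) fun k => (k : ℝ)
  · refine ls_cmul _ (ls_cmul _ ?_)
    unfold LoC95.LT
    refine ls_sum _ fun w hw => ?_
    exact ls_mcw P c0 (subset_win 1 _ hw) fun k => if m < k then (k : ℝ) else 0
  · refine ls_cmul _ (ls_cmul _ ?_)
    unfold LoC95.ST
    refine ls_sum _ fun w hw => ?_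
    exact ls_mcw P c0 (subset_win 1 _ hw) fun k => ((k : ℝ) + 1) ^ 2

theorem loc_lat (Rg : Finset P2) : Loc (win 1 Rg) (lat (win 1 Rg)) Rg where
  sub := subset_win 1 Rg
  nb := fun a ha b => by
    rw [mem_nbr_lat]
    exact ⟨fun h => h.1, fun h => ⟨h, Or.inl ha⟩⟩
  sh := fun a b h => by
    rw [mem_nbr_lat] at h
    exact h.1.le

/-- **the trial field in a fibre** -/
theorem fib_field (P : Par) {c0 : ℝ} (hc0 : 0 < c0) {m : ℕ} {I : Finset P2}
    {Tl : Fin 2 → (P2 → ℝ) → P2 → ℝ} {B C : ℝ} (T : Tpl m I Tl B C) {θ : ℝ} (hθ : 0 < θ) :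
    ∃ A3 A4 : ℝ, 0 ≤ A3 ∧ 0 ≤ A4 ∧ ∀ (Rg Q : Finset P2), Pos I m Rg Q →
      ∀ (Psi : (Fin 2 → ℝ) → ℝ) (p0 p1 p2 : ℝ), PsiH Psi p0 p1 p2 →
      ∀ M : ℕ, 2 ≤ M → Sep Rg Psi B M → ∀ (s : Finset P2) (b : P2 → ℝ), (∀ v, b v ≠ 0 → v ∈ Rg) →
      ∀ ζ, FibF (win 1 Rg) s b (AF P c0 Rg Psi M B p0 p1 s b)
        (BF P c0 m I Tl Rg Q Psi M B θ A3 A4 p0 p1 p2 (win 1 Rg).card) ζ := by
  classical
  obtain ⟨A3, A4, hA3, hA4, H⟩ := exists_field P hc0 T hθ
  refine ⟨A3, A4, hA3, hA4, ?_⟩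
  intro Rg Q hP Psi p0 p1 p2 hPsi M hM hsep s b hb ζ
  obtain ⟨Y, c, t0, hTan, h1, h2, h3, h4⟩ := H (win 1 Rg) (lat (win 1 Rg)) ζ Rg Q (loc_lat Rg) hP
    Psi p0 p1 p2 hPsi M hM hsep
  have hB := T.B_nonneg
  have hp0 := hPsi.n0
  have hp1 := hPsi.n1
  refine ⟨Y, c, t0, hTan, ?_, ?_⟩
  · refine ae_of_all _ fun x => ?_
    set h : P2 → ℝ := ext (win 1 Rg) ζ x with hh
    set E1 : ℝ := ∑ w ∈ Rg, |b w| * (2 * p1 * (2 * mcw P c0 (win 1 Rg) h w + B)) with hE1
    have hE0 : 0 ≤ E1 := Finset.sum_nonneg fun w _ => by positivity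
    have key : (∑ p ∈ s, b p * Psi (ix p)) - XS s b (ext (win 1 Rg) 0 (Y x)) ≤
        E1 + (∑ p ∈ s, |b p|) * (2 * p0) * badI P c0 Rg M h := by
      unfold XS
      rw [← Finset.sum_sub_distrib]
      have e1 : ∀ p ∈ s, b p * Psi (ix p) - b p * ext (win 1 Rg) 0 (Y x) p ≤
          |b p| * |ext (win 1 Rg) 0 (Y x) p - Psi (ix p)| := by
        intro p _
        rw [← mul_sub]
        refine (le_abs_self _).trans ?_
        rw [abs_mul, abs_sub_comm]
      refine (Finset.sum_le_sum e1).trans ?_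
      by_cases hbad : Bad P c0 Rg M h
      · rw [badI_of hbad, mul_one, Finset.sum_mul]
        have e2 : ∀ p ∈ s, |b p| * |ext (win 1 Rg) 0 (Y x) p - Psi (ix p)| ≤
            |b p| * (2 * p0) := by
          intro p _
          by_cases hp : b p = 0
          · rw [hp]; simp
          · have hpF : p ∈ win 1 Rg := subset_win 1 _ (hb p hp)
            rw [ext_mem hpF]
            refine mul_le_mul_of_nonneg_left ?_ (abs_nonneg _)
            have a1 := h3 x ⟨p, hpF⟩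
            have a2 := hPsi.b (ix p)
            calc |Y x ⟨p, hpF⟩ - Psi (ix p)| ≤ |Y x ⟨p, hpF⟩| + |Psi (ix p)| := abs_sub _ _
              _ ≤ 2 * p0 := by linarith
        have e3 := Finset.sum_le_sum e2
        linarith
      · rw [badI_not hbad, mul_zero, add_zero]
        have e2 : ∀ p ∈ s, |b p| * |ext (win 1 Rg) 0 (Y x) p - Psi (ix p)| ≤
            if p ∈ Rg then |b p| * (2 * p1 * (2 * mcw P c0 (win 1 Rg) h p + B)) else 0 := by
          intro p _
          by_cases hp : b p = 0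
          · rw [hp]
            split_ifs <;> simp
          · have hpR := hb p hp
            have hpF : p ∈ win 1 Rg := subset_win 1 _ hpR
            rw [ext_mem hpF, if_pos hpR]
            exact mul_le_mul_of_nonneg_left (h4 x hbad ⟨p, hpF⟩ hpR) (abs_nonneg _)
        refine (Finset.sum_le_sum e2).trans ?_
        rw [← Finset.sum_filter]
        refine Finset.sum_le_sum_of_subset_of_nonneg (fun p hp => (Finset.mem_filter.mp hp).2)
          fun w _ _ => by positivity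
    unfold AF
    linarith
  · refine ae_restrict_of_ae ?_
    filter_upwards [h1] with x hx
    refine hx.trans (le_of_eq ?_)
    unfold BF badI
    split_ifs <;> ring

end

end

end Crest.Agent.R144.KapN761
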