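import Mathlib
import Crest.Agent.R144.KapN3_761

/-!
# R144 (S0197), helper761, KapN, part 4: the mean of the pairing

`AF_lower` : `∫ AF ≥ l ∫ |∇ψ|² - ε`.
-/

set_option autoImplicit false
set_option linter.unusedVariables false

open MeasureTheory Metric Set Filter Topology
open scoped ContDiff NNReal

namespace Crest.Agent.R144.KapN761

open Crest.Agent.R144.Skel144 Crest.Agent.R144.Con549 Crest.Agent.R144.Cnt268
open Crest.Agent.R144.Bl565 Crest.Agent.R144.LowL549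
open Crest.Agent.R144.Cw643 (Near Wt CV)
open Crest.Agent.R144.KapE761
open Crest.Agent.R144.LoC95 (Bad ix)
open Crest.Agent.R144.Lc279 (P2 bx nr mu0)
open Crest.Agent.R144.Lw425 (LObs hball hd)
open Crest.ProbabilityR.HexHeights (centre)

noncomputable section

variable {P : Par} {c0 : ℝ} {G : Set ℂ} {δ : ℕ → ℝ} {Rg : ℕ → Finset P2} {ψ : ℂ → ℝ}
  {b : ℕ → P2 → ℝ} {s : ℕ → Finset P2}

theorem LS.integrable {F : (P2 → ℝ) → ℝ} (hF : LS F) : Integrable F mu0 := by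
  obtain ⟨C, hC0, hC⟩ := hF.bdd
  exact Integrable.of_bound hF.measurable.aestronglyMeasurable C
    (ae_of_all _ fun h => by rw [Real.norm_eq_abs]; exact hC h)

theorem integral_badI_le (R : Finset P2) {M : ℕ} {x : ℝ} (hM : x ≤ M) :
    ∫ h, badI P c0 R M h ∂mu0 ≤
      mu0.real {h | ∃ w ∈ R, x ≤ (mcw P c0 (win 1 R) h w : ℝ)} := by
  have hm : MeasurableSet {h : P2 → ℝ | ∃ w ∈ R, x ≤ (mcw P c0 (win 1 R) h w : ℝ)} := by
    have e : {h : P2 → ℝ | ∃ w ∈ R, x ≤ (mcw P c0 (win 1 R) h w : ℝ)} =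
        ⋃ w ∈ R, {h | x ≤ (mcw P c0 (win 1 R) h w : ℝ)} := by
      ext h; simp
    rw [e]
    exact Finset.measurableSet_biUnion _ fun w _ => measurableSet_le measurable_const
      ((measurable_from_top (f := fun k : ℕ => (k : ℝ))).comp (measurable_mcw _ w))
  have e2 : mu0.real {h : P2 → ℝ | ∃ w ∈ R, x ≤ (mcw P c0 (win 1 R) h w : ℝ)} =
      ∫ h, ({h : P2 → ℝ | ∃ w ∈ R, x ≤ (mcw P c0 (win 1 R) h w : ℝ)}.indicator
        (fun _ => (1 : ℝ)) h) ∂mu0 := by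
    rw [integral_indicator_const _ hm, smul_eq_mul, mul_one]
  rw [e2]
  refine integral_mono (LS.integrable ls_badI) ((integrable_const (1 : ℝ)).indicator hm)
    fun h => ?_
  by_cases hb : Bad P c0 R M h
  · rw [badI_of hb, indicator_of_mem]
    obtain ⟨w, hw, hwM⟩ := hb
    exact ⟨w, hw, hM.trans (by exact_mod_cast hwM)⟩
  · rw [badI_not hb]
    exact indicator_nonneg (fun _ _ => zero_le_one) _

/-- **the mean of the pairing** -/
theorem AF_lower (hP : Small P) (hc1 : c0 ≤ 1) (hs : Sites G δ Rg) (hW : WD ψ G δ b s)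
    (hRg : ∀ n v, centre (δ n) v ∈ G → v ∈ Rg n) {κ : ℝ} (hκ : 0 < κ) (l : ℝ) {B S0 S1 : ℝ}
    (hB : 0 ≤ B) (hS0 : 0 ≤ S0) (hS1 : 0 ≤ S1) {ε : ℝ} (hε : 0 < ε) : ∀ᶠ n in atTop, ∀ M : ℕ,
      κ / δ n ≤ M → l * (∫ z, ‖fderiv ℝ ψ z‖ ^ 2) - ε ≤
        ∫ h, AF P c0 (Rg n) (psi ψ l (δ n)) M B (|l| * S0) (|l| * S1 * δ n) (s n) (b n) h ∂mu0 := by
  have N : NumIn G δ Rg (fun _ => mu0) mu0 (mfn P c0 Rg) := numIn_mu0 hP hc1 hs
  obtain ⟨C, hC, hbd⟩ := hW.bd
  obtain ⟨Cc, hCc, hcard⟩ := hs.card_bdd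
  have h1 : ∀ᶠ n in atTop, l * (∫ z, ‖fderiv ℝ ψ z‖ ^ 2) - ε / 3 <
      l * ∑ p ∈ s n, b n p * ψ (centre (δ n) p) :=
    (hW.sum.const_mul l).eventually (lt_mem_nhds (by linarith))
  filter_upwards [h1, hbd, hW.supp, N.disp_term (4 * |l| * S1 * C) (B / 2)
    (show 0 < ε / 3 by positivity), N.far_term (C * Cc * (2 * (|l| * S0))) hκ 0
    (show 0 < ε / 3 by positivity)] with n a1 a2 a3 a4 a5 M hM
  have hδ := hs.pos n
  have hb : ∀ v, b n v ≠ 0 → v ∈ Rg n := fun v hv => hRg n v (a3 v hv)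
  set D1 : ℝ := ∑ p ∈ s n, b n p * psi ψ l (δ n) (ix p) with hD1
  have hD1' : l * (∫ z, ‖fderiv ℝ ψ z‖ ^ 2) - ε / 3 ≤ D1 := by
    refine a1.le.trans (le_of_eq ?_)
    rw [hD1, Finset.mul_sum]
    refine Finset.sum_congr rfl fun p _ => ?_
    rw [psi_ix]; ring
  set X : (P2 → ℝ) → ℝ := fun h => δ n ^ 2 * ∑ w ∈ Rg n,
      ((mcw P c0 (win 1 (Rg n)) h w : ℝ) + B / 2) with hX
  have hXls : LS X := ls_cmul _ (ls_sum _ fun w hw =>
    ls_mcw P c0 (subset_win 1 _ hw) fun k => (k : ℝ) + B / 2)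
  have hsum : ∑ p ∈ s n, |b n p| ≤ C * Cc := by
    classical
    have e1 : ∀ p ∈ s n, |b n p| ≤ if p ∈ Rg n then C * δ n ^ 2 else 0 := by
      intro p _
      split_ifs with hp
      · exact a2 p
      · have : b n p = 0 := by
          by_contra h; exact hp (hb p h)
        rw [this, abs_zero]
    refine (Finset.sum_le_sum e1).trans ?_
    rw [← Finset.sum_filter, Finset.sum_const, nsmul_eq_mul]
    have e2 : (((s n).filter fun p => p ∈ Rg n).card : ℝ) ≤ (Rg n).card := by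
      exact_mod_cast Finset.card_le_card fun p hp => (Finset.mem_filter.mp hp).2
    calc _ ≤ ((Rg n).card : ℝ) * (C * δ n ^ 2) := mul_le_mul_of_nonneg_right e2 (by positivity)
      _ = C * (δ n ^ 2 * (Rg n).card) := by ring
      _ ≤ C * Cc := mul_le_mul_of_nonneg_left (hcard n) hC.le
  have hpt : ∀ h : P2 → ℝ, D1 - (4 * |l| * S1 * C * δ n) * X h -
      (C * Cc * (2 * (|l| * S0))) * badI P c0 (Rg n) M h ≤
      AF P c0 (Rg n) (psi ψ l (δ n)) M B (|l| * S0) (|l| * S1 * δ n) (s n) (b n) h := by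
    intro h
    unfold AF
    have e1 : ∑ w ∈ Rg n, |b n w| * (2 * (|l| * S1 * δ n) *
        (2 * mcw P c0 (win 1 (Rg n)) h w + B)) ≤ (4 * |l| * S1 * C * δ n) * X h := by
      rw [hX]
      simp only [Finset.mul_sum]
      refine Finset.sum_le_sum fun w _ => ?_
      calc |b n w| * (2 * (|l| * S1 * δ n) * (2 * mcw P c0 (win 1 (Rg n)) h w + B)) ≤
            (C * δ n ^ 2) * (2 * (|l| * S1 * δ n) * (2 * mcw P c0 (win 1 (Rg n)) h w + B)) :=
            mul_le_mul_of_nonneg_right (a2 w) (by positivity)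
        _ = _ := by ring
    have e2 : (∑ p ∈ s n, |b n p|) * (2 * (|l| * S0)) * badI P c0 (Rg n) M h ≤
        (C * Cc * (2 * (|l| * S0))) * badI P c0 (Rg n) M h :=
      mul_le_mul_of_nonneg_right (mul_le_mul_of_nonneg_right hsum (by positivity))
        (badI_nonneg h)
    linarith
  have hi1 : Integrable (fun h => D1 - (4 * |l| * S1 * C * δ n) * X h) mu0 :=
    (integrable_const _).sub ((LS.integrable hXls).const_mul _)
  have hi2 : Integrable (fun h => (C * Cc * (2 * (|l| * S0))) * badI P c0 (Rg n) M h) mu0 :=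
    (LS.integrable ls_badI).const_mul _
  have key := integral_mono (hi1.sub hi2)
    (LS.integrable (ls_AF (P := P) (c0 := c0) (Rg := Rg n) (Psi := psi ψ l (δ n)) (M := M)
      (B := B) (p0 := |l| * S0) (p1 := |l| * S1 * δ n) (s n) (b n))) hpt
  refine le_trans ?_ key
  have e3 : ∫ h, (D1 - (4 * |l| * S1 * C * δ n) * X h -
      (C * Cc * (2 * (|l| * S0))) * badI P c0 (Rg n) M h) ∂mu0 =
      D1 - (4 * |l| * S1 * C * δ n) * ∫ h, X h ∂mu0 -
      (C * Cc * (2 * (|l| * S0))) * ∫ h, badI P c0 (Rg n) M h ∂mu0 := by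
    have q1 : ∫ h, (4 * |l| * S1 * C * δ n) * X h ∂mu0 =
        (4 * |l| * S1 * C * δ n) * ∫ h, X h ∂mu0 := integral_const_mul _ _
    have q2 : ∫ h, (C * Cc * (2 * (|l| * S0))) * badI P c0 (Rg n) M h ∂mu0 =
        (C * Cc * (2 * (|l| * S0))) * ∫ h, badI P c0 (Rg n) M h ∂mu0 := integral_const_mul _ _
    rw [integral_sub hi1 hi2, integral_sub (integrable_const _)
      ((LS.integrable hXls).const_mul _), q1, q2]
    simp
  have e3' : ∫ h, ((fun h => D1 - (4 * |l| * S1 * C * δ n) * X h) - fun h =>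
      (C * Cc * (2 * (|l| * S0))) * badI P c0 (Rg n) M h) h ∂mu0 =
      D1 - (4 * |l| * S1 * C * δ n) * ∫ h, X h ∂mu0 -
      (C * Cc * (2 * (|l| * S0))) * ∫ h, badI P c0 (Rg n) M h ∂mu0 := e3
  rw [e3']
  have e4 : ∫ h, X h ∂mu0 = δ n ^ 2 * ∑ w ∈ Rg n,
      ∫ h, ((mfn P c0 Rg n h w : ℝ) + B / 2) ∂mu0 := by
    rw [hX, integral_const_mul, integral_finsetSum]
    exact fun w _ => N.integrable_of n w fun k => (k : ℝ) + B / 2
  have e5 : (4 * |l| * S1 * C * δ n) * ∫ h, X h ∂mu0 ≤ ε / 3 := by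
    rw [e4]; exact a4
  have e6 : (C * Cc * (2 * (|l| * S0))) * ∫ h, badI P c0 (Rg n) M h ∂mu0 ≤ ε / 3 := by
    refine le_trans ?_ a5
    rw [pow_zero, inv_one, mul_one]
    exact mul_le_mul_of_nonneg_left (integral_badI_le (Rg n) hM) (by positivity)
  linarith

end

end Crest.Agent.R144.KapN761
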