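import Mathlib
import Crest.Agent.R144.LowL10_549

/-!
# R144 (S0197), LOW-LIM (helper549), part 11: the numbers

`tot` : the right-hand side of the trace inequality for one orientation and one class;
`numbers` : for the best orientation and class its mean is at most `l² (b / c₀) ∫ |∇u|² + ε`.
-/

set_option autoImplicit false

open MeasureTheory Metric Set Filter Topology
open scoped ComplexConjugate ContDiff

namespace Crest.Agent.R144.LowL549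

open Crest.Agent.R144.Skel144 Crest.Agent.R144.Con549 Crest.Agent.R144.Cnt268
open Crest.Agent.R144.Bl565 Crest.Agent.R144.HexTil353
open Crest.Agent.R144.Lc279 (P2 bx nr mem_nr nr_subset card_bx)
open Crest.Agent.R144.Lw425 (LObs hball hd mem_hball hd_triangle hd_comm hd_le_iff hd_nonneg)
open Crest.Agent.R144.LoC95 (Ph Gt Tpl PsiH Sep ix Pos tr mem_tr MT NT LT ST Bad A1c A2c A3c
  A1c_nonneg A2c_nonneg A3c_nonneg)
open Crest.Agent.R144.LoB95 (sl' cE')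
open Crest.ProbabilityR.HexHeights (centre)

noncomputable section

/-- the matrices of the templates -/
def Phi3 (P : Par) (r : ℕ) (Tl : Fin 3 → Fin 2 → (P2 → ℝ) → P2 → ℝ) (o : Fin 3) (h : P2 → ℝ) :
    Matrix (Fin 2) (Fin 2) ℝ := Ph (bk r o) (Gt P (cw r) (bk r o) (Tl o)) h

variable {G : Set ℂ} {u : ℂ → ℝ}

theorem MT_eq_m3 (hu : IsTest G u) (P : Par) (r : ℕ) (Tl : Fin 3 → Fin 2 → (P2 → ℝ) → P2 → ℝ)
    (o : Fin 3) (R : Finset P2) (c : P2) (l δ : ℝ) (h : P2 → ℝ) :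
    MT P (cw r) (bk r o) (Tl o) (Qs r o R c) (psi u l δ) h =
      (l * δ) ^ 2 * m3 (Phi3 P r Tl) u δ r o R c h := by
  unfold MT m3
  rw [Finset.mul_sum]
  refine Finset.sum_congr rfl fun q _ => ?_
  rw [sl_psi_ix hu, qd_smul]
  rfl

theorem NT_eq (P : Par) (c0 : ℝ) (r : ℕ) (o : Fin 3) (R : Finset P2) (c : P2) (h : P2 → ℝ) :
    NT P c0 (cw r) (bk r o) R (Qs r o R c) h =
      ∑ w ∈ nd r o R c, (mcw P c0 (win 1 R) h w : ℝ) := by
  unfold NT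
  refine Finset.sum_congr ?_ fun _ _ => rfl
  ext w
  rw [Finset.mem_filter, mem_nd]
  simp only [mem_tr]

/-! ### constants -/

theorem card_win_le {r : ℕ} (hr : 2 ≤ r) (o : Fin 3) :
    ((win (cw r) (bk r o)).card : ℝ) ≤ 16 * (r : ℝ) ^ 2 := by
  have h1 : win (cw r) (bk r o) ⊆
      Finset.Icc (-(r : ℤ)) (2 * r) ×ˢ Finset.Icc (-(r : ℤ)) (2 * r) := by
    intro v hv
    obtain ⟨a, ha, hda⟩ := mem_win.mp hv
    obtain ⟨⟨a1, a2⟩, a3, a4⟩ := bk_bound ha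
    rw [hd_le_iff] at hda
    obtain ⟨⟨d1, d2⟩, ⟨d3, d4⟩, _⟩ := hda
    have hc : (cw r : ℤ) ≤ r := by exact_mod_cast cw_le r
    rw [Finset.mem_product, Finset.mem_Icc, Finset.mem_Icc]
    refine ⟨⟨?_, ?_⟩, ?_, ?_⟩ <;> linarith
  have h2 := Finset.card_le_card h1
  rw [Finset.card_product, Int.card_Icc] at h2
  have h3 : ((2 * (r : ℤ)) + 1 - (-(r : ℤ))).toNat = 3 * r + 1 := by omega
  rw [h3] at h2
  have h4 : ((win (cw r) (bk r o)).card : ℝ) ≤ (3 * r + 1) * (3 * r + 1) := by exact_mod_cast h2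
  have h5 : (2 : ℝ) ≤ r := by exact_mod_cast hr
  nlinarith

theorem card_bk_le {r : ℕ} (o : Fin 3) : ((bk r o).card : ℝ) ≤ (r : ℝ) ^ 2 := by
  rw [card_bk]
  have h1 : ((r / 2 : ℕ) : ℝ) ≤ r := by exact_mod_cast Nat.div_le_self r 2
  push_cast
  exact pow_le_pow_left₀ (Nat.cast_nonneg _) h1 2

/-- polynomial growth of the constant of the long paths -/
theorem A2_le (P : Par) (c0 : ℝ) {θ : ℝ} (hθ : 0 < θ) : ∃ K : ℝ, 0 ≤ K ∧ ∀ r : ℕ, 2 ≤ r →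
    ∀ o, A2c P c0 (cw r) (bk r o) (128 * r) θ ≤ K * (r : ℝ) ^ 6 := by
  set a : ℝ := (2 * P.Lam / P.eps / c0) ^ 2 with ha
  set A0 : ℝ := 3 * (2 * P.Lam / P.eps) ^ 2 with hA0
  have ha0 : 0 ≤ a := sq_nonneg _
  have hA00 : 0 ≤ A0 := by positivity
  have hθ' : 0 < θ⁻¹ := inv_pos.mpr hθ
  have hA1 := A1c_nonneg P
  refine ⟨2 * A1c P + (2 * (2 * (128 ^ 2 * a) + (1 + θ) ^ 2 * A0 +
    (1 + θ) * (1 + θ⁻¹) * (128 ^ 2 * a))) * 32, by positivity, fun r hr o => ?_⟩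
  have h5 : (2 : ℝ) ≤ r := by exact_mod_cast hr
  have hr1 : (1 : ℝ) ≤ r := by linarith
  have h1 := card_win_le hr o
  have h2 := card_bk_le (r := r) o
  have h3 : (1 + ((bk r o).card : ℝ)) * ((win (cw r) (bk r o)).card : ℝ) ≤ 32 * (r : ℝ) ^ 4 := by
    calc (1 + ((bk r o).card : ℝ)) * ((win (cw r) (bk r o)).card : ℝ) ≤
          (1 + (r : ℝ) ^ 2) * (16 * (r : ℝ) ^ 2) := by gcongr
      _ ≤ 32 * (r : ℝ) ^ 4 := by nlinarith [sq_nonneg (r : ℝ), one_le_pow₀ hr1 (n := 2)]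
  have h4 : cE' 2 A0 P.eps P.Lam c0 (128 * r) θ ≤ (2 * (2 * (128 ^ 2 * a) + (1 + θ) ^ 2 * A0 +
    (1 + θ) * (1 + θ⁻¹) * (128 ^ 2 * a))) * (r : ℝ) ^ 2 := by
    unfold cE'
    rw [← ha]
    have h6 : (1 + θ) ^ 2 * A0 ≤ (1 + θ) ^ 2 * A0 * (r : ℝ) ^ 2 :=
      le_mul_of_one_le_right (by positivity) (one_le_pow₀ hr1)
    nlinarith
  have h7 : 0 ≤ cE' 2 A0 P.eps P.Lam c0 (128 * r) θ :=
    LoC95.cE'_nonneg (by norm_num) hA00 hθ
  unfold A2c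
  rw [← hA0]
  have h8 : (2 * A1c P) * 1 ≤ 2 * A1c P * (r : ℝ) ^ 6 :=
    mul_le_mul_of_nonneg_left (one_le_pow₀ hr1) (by positivity)
  have h9 : cE' 2 A0 P.eps P.Lam c0 (128 * r) θ *
      ((1 + ((bk r o).card : ℝ)) * ((win (cw r) (bk r o)).card : ℝ)) ≤
      ((2 * (2 * (128 ^ 2 * a) + (1 + θ) ^ 2 * A0 +
    (1 + θ) * (1 + θ⁻¹) * (128 ^ 2 * a))) * (r : ℝ) ^ 2) * (32 * (r : ℝ) ^ 4) :=
    mul_le_mul h4 h3 (by positivity) (by positivity)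
  calc _ ≤ 2 * A1c P * (r : ℝ) ^ 6 + ((2 * (2 * (128 ^ 2 * a) + (1 + θ) ^ 2 * A0 +
    (1 + θ) * (1 + θ⁻¹) * (128 ^ 2 * a))) * (r : ℝ) ^ 2) * (32 * (r : ℝ) ^ 4) := by linarith
    _ = _ := by ring

/-- the collar is small -/
theorem cw_small (K : ℝ) {ε : ℝ} (hε : 0 < ε) : ∀ᶠ r : ℕ in atTop,
    K * cw r ≤ ε * ((r / 2 : ℕ) : ℝ) := by
  obtain ⟨k, hk⟩ := exists_nat_gt (4 * K / ε)
  filter_upwards [eventually_ge_atTop (k * k), eventually_ge_atTop 2] with r hr hr2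
  have h1 : k ≤ cw r := Nat.le_sqrt.mpr hr
  have h2 : cw r * cw r ≤ r := Nat.sqrt_le r
  have h3 : r ≤ 4 * (r / 2) := by omega
  have h4 : (cw r : ℝ) * cw r ≤ 4 * ((r / 2 : ℕ) : ℝ) := by exact_mod_cast h2.trans h3
  have h5 : 4 * K / ε ≤ cw r := hk.le.trans (by exact_mod_cast h1)
  rw [div_le_iff₀ hε] at h5
  have h6 : (0 : ℝ) ≤ cw r := Nat.cast_nonneg _
  nlinarith [mul_le_mul_of_nonneg_right h5 h6, mul_le_mul_of_nonneg_left h4 hε.le]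

/-! ### the total -/

/-- the right-hand side of the trace inequality -/
def tot (P : Par) (c0 θ : ℝ) (r : ℕ) (o : Fin 3) (Tl : Fin 3 → Fin 2 → (P2 → ℝ) → P2 → ℝ)
    (R : Finset P2) (c : P2) (Psi : (Fin 2 → ℝ) → ℝ) (p1 p2 A3 Kc : ℝ) (M : ℕ) (h : P2 → ℝ) : ℝ :=
  (1 + θ) ^ 2 * MT P (cw r) (bk r o) (Tl o) (Qs r o R c) Psi h +
    p1 ^ 2 * (A1c P * NT P c0 (cw r) (bk r o) R (Qs r o R c) h) +
    p1 ^ 2 * (A2c P c0 (cw r) (bk r o) (128 * r) θ * LT P c0 (cw r) R h) +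
    p2 ^ 2 * (A3 * ST P c0 R h) +
    Kc * {h | Bad P c0 R M h}.indicator (fun _ => (1 : ℝ)) h

variable {δ : ℕ → ℝ} {Rg : ℕ → Finset P2} {ν : ℕ → Measure (P2 → ℝ)}
  {μ : Measure (P2 → ℝ)} {P : Par} {c0 : ℝ}

theorem measurableSet_bad (P : Par) (c0 : ℝ) (R : Finset P2) (M : ℕ) :
    MeasurableSet {h | Bad P c0 R M h} := by
  have e : {h | Bad P c0 R M h} = ⋃ w ∈ R, {h | M ≤ mcw P c0 (win 1 R) h w} := by
    ext h; simp [Bad]
  rw [e]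
  exact Finset.measurableSet_biUnion _ fun w _ =>
    measurableSet_le measurable_const (measurable_mcw _ w)

theorem integral_add5 {ν : Measure (P2 → ℝ)} {f1 f2 f3 f4 f5 : (P2 → ℝ) → ℝ}
    (h1 : Integrable f1 ν) (h2 : Integrable f2 ν) (h3 : Integrable f3 ν) (h4 : Integrable f4 ν)
    (h5 : Integrable f5 ν) : Integrable (fun h => f1 h + f2 h + f3 h + f4 h + f5 h) ν ∧
    ∫ h, (f1 h + f2 h + f3 h + f4 h + f5 h) ∂ν =
      ∫ h, f1 h ∂ν + ∫ h, f2 h ∂ν + ∫ h, f3 h ∂ν + ∫ h, f4 h ∂ν + ∫ h, f5 h ∂ν := by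
  have k2 : Integrable (fun h => f1 h + f2 h) ν := h1.add h2
  have k3 : Integrable (fun h => f1 h + f2 h + f3 h) ν := k2.add h3
  have k4 : Integrable (fun h => f1 h + f2 h + f3 h + f4 h) ν := k3.add h4
  refine ⟨k4.add h5, ?_⟩
  rw [integral_add k4 h5, integral_add k3 h4, integral_add k2 h3, integral_add h1 h2]

/-- integrability of all terms, and the mean -/
theorem integral_tot (N : NumIn G δ Rg ν μ (fun n h w => mcw P c0 (win 1 (Rg n)) h w))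
    (hu : IsTest G u) {r : ℕ} {Tl : Fin 3 → Fin 2 → (P2 → ℝ) → P2 → ℝ} {B C : ℝ} (hC : 0 ≤ C)
    (hT : ∀ o, Tpl (cw r) (bk r o) (Tl o) B C) (θ : ℝ) (n : ℕ) (o : Fin 3) (c : P2)
    (l p1 p2 A3 Kc : ℝ) (M : ℕ) :
    Integrable (tot P c0 θ r o Tl (Rg n) c (psi u l (δ n)) p1 p2 A3 Kc M) (ν n) ∧
    ∫ h, tot P c0 θ r o Tl (Rg n) c (psi u l (δ n)) p1 p2 A3 Kc M h ∂(ν n) =
      (1 + θ) ^ 2 * ((l * δ n) ^ 2 * ∫ h, m3 (Phi3 P r Tl) u (δ n) r o (Rg n) c h ∂(ν n)) +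
      p1 ^ 2 * (A1c P * ∑ w ∈ nd r o (Rg n) c, ∫ h, (mcw P c0 (win 1 (Rg n)) h w : ℝ) ∂(ν n)) +
      p1 ^ 2 * (A2c P c0 (cw r) (bk r o) (128 * r) θ * ∑ w ∈ Rg n, ∫ h,
        (if cw r < mcw P c0 (win 1 (Rg n)) h w then (mcw P c0 (win 1 (Rg n)) h w : ℝ) else 0)
          ∂(ν n)) +
      p2 ^ 2 * (A3 * ∑ w ∈ Rg n, ∫ h,
        ((mcw P c0 (win 1 (Rg n)) h w : ℝ) + 1) ^ 2 ∂(ν n)) +
      Kc * (ν n).real {h | Bad P c0 (Rg n) M h} := by
  have := N.prob n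
  have i1 : Integrable (m3 (Phi3 P r Tl) u (δ n) r o (Rg n) c) (ν n) :=
    integrable_m3 (lm3_tpl P hC hT) (ν n) u (δ n) r o (Rg n) c
  have i2 : ∀ w, Integrable (fun h => (mcw P c0 (win 1 (Rg n)) h w : ℝ)) (ν n) := fun w =>
    N.integrable_of n w fun k => (k : ℝ)
  have i3 : ∀ w, Integrable (fun h => if cw r < mcw P c0 (win 1 (Rg n)) h w then
      (mcw P c0 (win 1 (Rg n)) h w : ℝ) else 0) (ν n) := fun w =>
    N.integrable_of n w fun k => if cw r < k then (k : ℝ) else 0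
  have i4 : ∀ w, Integrable (fun h => ((mcw P c0 (win 1 (Rg n)) h w : ℝ) + 1) ^ 2) (ν n) :=
    fun w => N.integrable_of n w fun k => ((k : ℝ) + 1) ^ 2
  have e1 : (fun h => MT P (cw r) (bk r o) (Tl o) (Qs r o (Rg n) c) (psi u l (δ n)) h) =
      fun h => (l * δ n) ^ 2 * m3 (Phi3 P r Tl) u (δ n) r o (Rg n) c h := by
    funext h; exact MT_eq_m3 hu P r Tl o (Rg n) c l (δ n) h
  have e2 : (fun h => NT P c0 (cw r) (bk r o) (Rg n) (Qs r o (Rg n) c) h) =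
      fun h => ∑ w ∈ nd r o (Rg n) c, (mcw P c0 (win 1 (Rg n)) h w : ℝ) := by
    funext h; exact NT_eq P c0 r o (Rg n) c h
  have j1 : Integrable (fun h => MT P (cw r) (bk r o) (Tl o) (Qs r o (Rg n) c)
      (psi u l (δ n)) h) (ν n) := by
    rw [e1]; exact i1.const_mul _
  have j2 : Integrable (fun h => NT P c0 (cw r) (bk r o) (Rg n) (Qs r o (Rg n) c) h) (ν n) := by
    rw [e2]; exact integrable_finsetSum _ fun w _ => i2 w
  have j3 : Integrable (fun h => LT P c0 (cw r) (Rg n) h) (ν n) :=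
    integrable_finsetSum _ fun w _ => i3 w
  have j4 : Integrable (fun h => ST P c0 (Rg n) h) (ν n) :=
    integrable_finsetSum _ fun w _ => i4 w
  have j5 : Integrable ({h | Bad P c0 (Rg n) M h}.indicator (fun _ => (1 : ℝ))) (ν n) :=
    (integrable_const (1 : ℝ)).indicator (measurableSet_bad P c0 (Rg n) M)
  have k1 := j1.const_mul ((1 + θ) ^ 2)
  have k2 := (j2.const_mul (A1c P)).const_mul (p1 ^ 2)
  have k3 := (j3.const_mul (A2c P c0 (cw r) (bk r o) (128 * r) θ)).const_mul (p1 ^ 2)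
  have k4 := (j4.const_mul A3).const_mul (p2 ^ 2)
  have k5 := j5.const_mul Kc
  have key := integral_add5 k1 k2 k3 k4 k5
  refine ⟨key.1, ?_⟩
  refine key.2.trans ?_
  rw [integral_const_mul, integral_const_mul,
    integral_const_mul, integral_const_mul, integral_const_mul, integral_const_mul,
    integral_const_mul, integral_const_mul,
    integral_indicator_const _ (measurableSet_bad P c0 (Rg n) M)]
  have f1 : ∫ h, MT P (cw r) (bk r o) (Tl o) (Qs r o (Rg n) c) (psi u l (δ n)) h ∂(ν n) =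
      (l * δ n) ^ 2 * ∫ h, m3 (Phi3 P r Tl) u (δ n) r o (Rg n) c h ∂(ν n) := by
    rw [e1, integral_const_mul]
  have f2 : ∫ h, NT P c0 (cw r) (bk r o) (Rg n) (Qs r o (Rg n) c) h ∂(ν n) =
      ∑ w ∈ nd r o (Rg n) c, ∫ h, (mcw P c0 (win 1 (Rg n)) h w : ℝ) ∂(ν n) := by
    rw [e2, integral_finsetSum _ fun w _ => i2 w]
  have f3 : ∫ h, LT P c0 (cw r) (Rg n) h ∂(ν n) = ∑ w ∈ Rg n, ∫ h,
      (if cw r < mcw P c0 (win 1 (Rg n)) h w then (mcw P c0 (win 1 (Rg n)) h w : ℝ) else 0)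
        ∂(ν n) := integral_finsetSum _ fun w _ => i3 w
  have f4 : ∫ h, ST P c0 (Rg n) h ∂(ν n) = ∑ w ∈ Rg n, ∫ h,
      ((mcw P c0 (win 1 (Rg n)) h w : ℝ) + 1) ^ 2 ∂(ν n) := integral_finsetSum _ fun w _ => i4 w
  rw [f1, f2, f3, f4, smul_eq_mul, mul_one]

end

end Crest.Agent.R144.LowL549
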