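import Mathlib
import Crest.Agent.R144.LowL11_549

/-!
# R144 (S0197), LOW-LIM (helper549), part 12: the numbers, conclusion

`numbers` : for the best orientation and class the mean of the right-hand side of the trace
inequality is at most `l² (b / c₀) ∫ |∇u|² + ε`, `c₀ = √3/2`.
-/

set_option autoImplicit false

open MeasureTheory Metric Set Filter Topology
open scoped ComplexConjugate ContDiff

namespace Crest.Agent.R144.LowL549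

open Crest.Agent.R144.Skel144 Crest.Agent.R144.Con549 Crest.Agent.R144.Cnt268
open Crest.Agent.R144.Bl565 Crest.Agent.R144.HexTil353
open Crest.Agent.R144.Lc279 (P2 bx nr mem_nr nr_subset card_bx)
open Crest.Agent.R144.Lw425 (LObs hball hd mem_hball hd_triangle hd_comm hd_le_iff hd_nonneg)
open Crest.Agent.R144.LoC95 (Ph Gt Tpl PsiH Sep ix Pos tr mem_tr MT NT Bad A1c A2c A3c
  A1c_nonneg A2c_nonneg A3c_nonneg)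
open Crest.Agent.R144.LoB95 (sl' cE')
open Crest.ProbabilityR.HexHeights (centre)

noncomputable section

variable {G : Set ℂ} {u : ℂ → ℝ} {δ : ℕ → ℝ} {Rg : ℕ → Finset P2} {ν : ℕ → Measure (P2 → ℝ)}
  {μ : Measure (P2 → ℝ)} {P : Par} {c0 : ℝ}

theorem two_div_sqrt : 0 < 2 / Real.sqrt 3 ∧ 2 / Real.sqrt 3 ≤ 2 ∧
    Real.sqrt 3 / 2 * 4 = 3 * (2 / Real.sqrt 3) ∧ 0 < Real.sqrt 3 / 2 ∧ Real.sqrt 3 / 2 ≤ 1 := by
  have h3 : 0 < Real.sqrt 3 := by positivity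
  have h4 : Real.sqrt 3 * Real.sqrt 3 = 3 := Real.mul_self_sqrt (by norm_num)
  have h1 : 1 ≤ Real.sqrt 3 := by
    rw [show (1 : ℝ) = Real.sqrt 1 by simp]
    exact Real.sqrt_le_sqrt (by norm_num)
  have h2 : Real.sqrt 3 ≤ 2 := by
    rw [show (2 : ℝ) = Real.sqrt 4 by rw [show (4 : ℝ) = 2 ^ 2 by norm_num]; simp]
    exact Real.sqrt_le_sqrt (by norm_num)
  refine ⟨by positivity, ?_, ?_, by positivity, by linarith⟩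
  · rw [div_le_iff₀ h3]; linarith
  · field_simp
    linarith

/-- arithmetic of the averages -/
theorem avg_le {θ l b E η e1 s A C W Λ ε a N' S1 : ℝ} (hθ0 : 0 < θ) (hθ1 : θ ≤ 1)
    (hs : 1 ≤ s) (hE : 0 ≤ E) (hη : 0 ≤ η) (hb : 0 ≤ b) (hΛ : 0 < Λ) (hε : 0 < ε)
    (hA : 0 ≤ A) (he1 : 0 ≤ e1)
    (hl : |l| ≤ Λ) (hlb : l ^ 2 * b ≤ Λ)
    (ha : a ≤ Real.sqrt 3 / 2 * (4 * b * s ^ 2 + η) * E + e1)
    (hN : N' ≤ 24 * W * s * C + e1)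
    (h1 : θ * (48 * Λ * (E + 1)) ≤ ε) (h2 : 32 * Λ ^ 2 * η * E ≤ ε)
    (h3 : 32 * Λ ^ 2 * e1 ≤ ε) (h4 : Λ ^ 2 * S1 ^ 2 * A * 8 * C * W ≤ ε / 8 * s)
    (h5 : 8 * Λ ^ 2 * S1 ^ 2 * A * e1 ≤ ε) (hWC : 0 ≤ W * C) :
    (1 + θ) ^ 2 * (l ^ 2 * a) + l ^ 2 * S1 ^ 2 * A * N' ≤
      3 * s ^ 2 * (l ^ 2 * (2 / Real.sqrt 3 * b) * E + 3 / 4 * ε) := by
  obtain ⟨t0, t1, t2, t3, t4⟩ := two_div_sqrt
  set t := 2 / Real.sqrt 3 with ht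
  set w := Real.sqrt 3 / 2 with hw
  have hl2 : l ^ 2 ≤ Λ ^ 2 := by
    rw [← sq_abs]
    exact pow_le_pow_left₀ (abs_nonneg _) hl 2
  have hl0 : 0 ≤ l ^ 2 := sq_nonneg _
  have hs2 : 1 ≤ s ^ 2 := one_le_pow₀ hs
  have hθ4 : (1 + θ) ^ 2 ≤ 4 := by nlinarith
  have hθ3 : (1 + θ) ^ 2 ≤ 1 + 3 * θ := by nlinarith
  -- main term
  have m1 : (1 + θ) ^ 2 * (l ^ 2 * a) ≤ (1 + θ) ^ 2 * (l ^ 2 * (w * (4 * b * s ^ 2 + η) * E + e1)) :=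
    by gcongr
  have m2 : (1 + θ) ^ 2 * (l ^ 2 * (w * (4 * b * s ^ 2 + η) * E + e1)) =
      3 * s ^ 2 * ((1 + θ) ^ 2 * (l ^ 2 * b * (t * E))) + (1 + θ) ^ 2 * (l ^ 2 * (w * η * E)) +
        (1 + θ) ^ 2 * (l ^ 2 * e1) := by
    have : w * (4 * b * s ^ 2 + η) * E = (w * 4) * (b * s ^ 2 * E) + w * η * E := by ring
    rw [this, t2]; ring
  have tE : 0 ≤ t * E := by positivity
  have m3 : (1 + θ) ^ 2 * (l ^ 2 * b * (t * E)) ≤ l ^ 2 * b * (t * E) + ε / 8 := by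
    have g1 : 0 ≤ l ^ 2 * b * (t * E) := by positivity
    have g2 : 3 * θ * (l ^ 2 * b * (t * E)) ≤ 3 * θ * (Λ * (2 * (E + 1))) := by
      gcongr
      linarith
    have g3 : (1 + θ) ^ 2 * (l ^ 2 * b * (t * E)) ≤ (1 + 3 * θ) * (l ^ 2 * b * (t * E)) := by
      gcongr
    nlinarith
  have m4 : (1 + θ) ^ 2 * (l ^ 2 * (w * η * E)) ≤ ε / 8 := by
    calc (1 + θ) ^ 2 * (l ^ 2 * (w * η * E)) ≤ 4 * (Λ ^ 2 * (1 * η * E)) := by gcongr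
      _ ≤ ε / 8 := by linarith
  have m5 : (1 + θ) ^ 2 * (l ^ 2 * e1) ≤ ε / 8 := by
    calc (1 + θ) ^ 2 * (l ^ 2 * e1) ≤ 4 * (Λ ^ 2 * e1) := by gcongr
      _ ≤ ε / 8 := by linarith
  -- collar
  have n1 : l ^ 2 * S1 ^ 2 * A * N' ≤ l ^ 2 * S1 ^ 2 * A * (24 * W * s * C + e1) := by gcongr
  have n2 : l ^ 2 * S1 ^ 2 * A * (24 * W * s * C) ≤ 3 * s ^ 2 * (ε / 8) := by
    calc l ^ 2 * S1 ^ 2 * A * (24 * W * s * C) = l ^ 2 * (S1 ^ 2 * A * 24 * s * (W * C)) := by ring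
      _ ≤ Λ ^ 2 * (S1 ^ 2 * A * 24 * s * (W * C)) := by gcongr
      _ = 3 * s * (Λ ^ 2 * S1 ^ 2 * A * 8 * C * W) := by ring
      _ ≤ 3 * s * (ε / 8 * s) := by gcongr
      _ = _ := by ring
  have n3 : l ^ 2 * S1 ^ 2 * A * e1 ≤ ε / 8 := by
    calc l ^ 2 * S1 ^ 2 * A * e1 ≤ Λ ^ 2 * S1 ^ 2 * A * e1 := by gcongr
      _ ≤ ε / 8 := by linarith
  have q1 : ε / 8 ≤ s ^ 2 * (ε / 8) := le_mul_of_one_le_left (by positivity) hs2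
  have q2 : 3 * s ^ 2 * ((1 + θ) ^ 2 * (l ^ 2 * b * (t * E))) ≤
      3 * s ^ 2 * (l ^ 2 * b * (t * E) + ε / 8) := mul_le_mul_of_nonneg_left m3 (by positivity)
  rw [mul_add] at n1
  have q3 : 3 * s ^ 2 * (l ^ 2 * (t * b) * E + 3 / 4 * ε) =
      3 * s ^ 2 * (l ^ 2 * b * (t * E) + ε / 8) + 15 * (s ^ 2 * (ε / 8)) := by ring
  have q4 : 3 * s ^ 2 * (ε / 8) = 3 * (s ^ 2 * (ε / 8)) := by ring
  rw [q3]
  rw [q4] at n2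
  linarith

/-- arithmetic of the small terms -/
theorem rest_le {l Λ S1 S2 d A2 A2' T A3 K3 tt ss F ε : ℝ} (hl : |l| ≤ Λ)
    (hT : d ^ 2 * tt ≤ T) (hT0 : 0 ≤ d ^ 2 * tt) (hA2 : 0 ≤ A2) (hA2' : A2 ≤ A2')
    (h1 : Λ ^ 2 * S1 ^ 2 * A2' * T ≤ ε / 12) (hA3 : 0 ≤ A3) (hA3' : A3 ≤ K3) (hss : 0 ≤ ss)
    (h2 : 4 * Λ ^ 2 * S2 ^ 2 * K3 * (d ^ 2) ^ 2 * ss ≤ ε / 12) (hF : F ≤ ε / 12) :
    (|l| * S1 * d) ^ 2 * (A2 * tt) + (2 * |l| * S2 * d ^ 2) ^ 2 * (A3 * ss) + F ≤ ε / 4 := by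
  have hl2 : |l| ^ 2 ≤ Λ ^ 2 := pow_le_pow_left₀ (abs_nonneg _) hl 2
  have hA20 : 0 ≤ A2' := hA2.trans hA2'
  have a1 : (|l| * S1 * d) ^ 2 * (A2 * tt) ≤ ε / 12 := by
    calc _ = |l| ^ 2 * S1 ^ 2 * A2 * (d ^ 2 * tt) := by ring
      _ ≤ Λ ^ 2 * S1 ^ 2 * A2' * T := by gcongr
      _ ≤ ε / 12 := h1
  have a2 : (2 * |l| * S2 * d ^ 2) ^ 2 * (A3 * ss) ≤ ε / 12 := by
    calc _ = |l| ^ 2 * (4 * S2 ^ 2 * (d ^ 2) ^ 2 * ss * A3) := by ring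
      _ ≤ Λ ^ 2 * (4 * S2 ^ 2 * (d ^ 2) ^ 2 * ss * K3) := by gcongr
      _ = 4 * Λ ^ 2 * S2 ^ 2 * K3 * (d ^ 2) ^ 2 * ss := by ring
      _ ≤ ε / 12 := h2
  linarith

theorem tot_arith {l S1 d A1 θ a nn x y z ε : ℝ} (h : x + y + z ≤ ε / 4) :
    (1 + θ) ^ 2 * ((l * d) ^ 2 * a) + (|l| * S1 * d) ^ 2 * (A1 * nn) + x + y + z ≤
      (1 + θ) ^ 2 * (l ^ 2 * (d ^ 2 * a)) + l ^ 2 * S1 ^ 2 * A1 * (d ^ 2 * nn) + ε / 4 := by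
  have b3 : (|l| * S1 * d) ^ 2 * (A1 * nn) = l ^ 2 * S1 ^ 2 * A1 * (d ^ 2 * nn) := by
    rw [mul_pow, mul_pow, sq_abs]; ring
  have b2 : (1 + θ) ^ 2 * ((l * d) ^ 2 * a) = (1 + θ) ^ 2 * (l ^ 2 * (d ^ 2 * a)) := by ring
  rw [b2, b3]
  linarith

theorem sum_arith {r : ℕ} {l S1 d A1 θ ε : ℝ} {aa nn : Fin 3 → P2 → ℝ} :
    ∑ o : Fin 3, ∑ c ∈ bx (r / 2), ((1 + θ) ^ 2 * (l ^ 2 * (d ^ 2 * aa o c)) +
        l ^ 2 * S1 ^ 2 * A1 * (d ^ 2 * nn o c) + ε / 4) =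
      (1 + θ) ^ 2 * (l ^ 2 * (d ^ 2 * ∑ o, ∑ c ∈ bx (r / 2), aa o c)) +
      l ^ 2 * S1 ^ 2 * A1 * (d ^ 2 * ∑ o, ∑ c ∈ bx (r / 2), nn o c) +
      3 * ((r / 2 : ℕ) : ℝ) ^ 2 * (ε / 4) := by
  simp only [Finset.sum_add_distrib, Finset.mul_sum, Finset.sum_const, card_bx,
    Finset.card_univ, Fintype.card_fin, nsmul_eq_mul]
  push_cast
  ring

/-- **the numbers** -/
theorem numbers (N : NumIn G δ Rg ν μ (fun n h w => mcw P c0 (win 1 (Rg n)) h w)) (hμ : Inv μ)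
    (hdlr : DLR μ) (hu : IsTest G u) {S1 S2 : ℝ} {Λ ε : ℝ} (hΛ : 0 < Λ)
    (hε : 0 < ε) :
    ∃ θ : ℝ, 0 < θ ∧ ∃ r1 : ℕ, 2 ≤ r1 ∧ ∀ r, r1 ≤ r → ∀ b, 0 ≤ b → (∀ L, abT P μ r L ≤ b) →
    ∃ (Tl : Fin 3 → Fin 2 → (P2 → ℝ) → P2 → ℝ) (C : ℝ), 0 ≤ C ∧
      (∀ o, Tpl (cw r) (bk r o) (Tl o) (128 * r) C) ∧
      ∀ (A3 : Fin 3 → ℝ) (Kc : Fin 3 → ℕ → ℝ) (K κ : ℝ) (a : ℕ) (M : ℕ → ℕ), (∀ o, 0 ≤ A3 o) →
        (∀ o, ∀ᶠ n in atTop, Kc o n ≤ K * (δ n ^ a)⁻¹) → 0 < κ →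
        (∀ᶠ n in atTop, κ / δ n ≤ M n) →
        ∀ l, |l| ≤ Λ → l ^ 2 * b ≤ Λ → ∀ᶠ n in atTop, ∃ o, ∃ c ∈ bx (r / 2),
          ∫ h, tot P c0 θ r o Tl (Rg n) c (psi u l (δ n)) (|l| * S1 * δ n)
            (2 * |l| * S2 * δ n ^ 2) (A3 o) (Kc o n) (M n) h ∂(ν n) ≤
            l ^ 2 * (2 / Real.sqrt 3 * b) * (∫ z, ‖fderiv ℝ u z‖ ^ 2) + ε := by
  have hprob := hμ.prob
  set E : ℝ := ∫ z, ‖fderiv ℝ u z‖ ^ 2 with hE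
  have hE0 : 0 ≤ E := integral_nonneg fun z => sq_nonneg _
  obtain ⟨C1, hC1, hnd⟩ := N.nd_term
  obtain ⟨C2, q, hC2, hq0, hq1, -, htail, -⟩ := N.first
  have hA1 := A1c_nonneg P
  -- the relative error
  obtain ⟨θ, hθ0, hθ1, hθ2⟩ : ∃ θ : ℝ, 0 < θ ∧ θ ≤ 1 ∧ θ * (48 * Λ * (E + 1)) ≤ ε := by
    refine ⟨min 1 (ε / (48 * Λ * (E + 1))), by positivity, min_le_left _ _, ?_⟩
    have h1 : 0 < 48 * Λ * (E + 1) := by positivity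
    calc _ ≤ ε / (48 * Λ * (E + 1)) * (48 * Λ * (E + 1)) := by
          gcongr
          exact min_le_right _ _
      _ = ε := by field_simp
  refine ⟨θ, hθ0, ?_⟩
  obtain ⟨K2, hK2, hA2⟩ := A2_le P c0 hθ0
  -- the scale
  have e1 : ∀ᶠ r : ℕ in atTop, Λ ^ 2 * S1 ^ 2 * A1c P * 8 * C1 * cw r ≤
      ε / 8 * ((r / 2 : ℕ) : ℝ) := cw_small _ (by positivity)
  have e2 : ∀ᶠ r : ℕ in atTop,
      Λ ^ 2 * S1 ^ 2 * K2 * C2 * ((r : ℝ) ^ 6 * q ^ cw r) ≤ ε / 12 := by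
    have h1 := (tendsto_cw_pow 6 hq0 hq1).const_mul (Λ ^ 2 * S1 ^ 2 * K2 * C2)
    rw [mul_zero] at h1
    exact (h1.eventually (gt_mem_nhds (show 0 < ε / 12 by positivity))).mono fun r hr => hr.le
  obtain ⟨r1, hr1⟩ := eventually_atTop.mp (e1.and (e2.and (eventually_ge_atTop 2)))
  refine ⟨max r1 2, le_max_right _ _, fun r hr b hb hab => ?_⟩
  obtain ⟨h1, h2, h3⟩ := hr1 r ((le_max_left _ _).trans hr)
  -- the template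
  obtain ⟨Tl, C, hC, hT, hB⟩ := LoA770.three P h3 hμ hdlr hab
    (show 0 < ε / (32 * Λ ^ 2 * (E + 1)) by positivity)
  set η : ℝ := ε / (32 * Λ ^ 2 * (E + 1)) with hη
  have hη0 : 0 < η := by positivity
  refine ⟨Tl, C, hC, hT, fun A3 Kc K κ a M hA3 hKc hκ hM l hl hlb => ?_⟩
  have hs1 : 1 ≤ r / 2 := by omega
  have hs1' : (1 : ℝ) ≤ ((r / 2 : ℕ) : ℝ) := by exact_mod_cast hs1
  set e0 : ℝ := ε / (32 * Λ ^ 2 * (1 + S1 ^ 2 * A1c P)) with he0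
  have he00 : 0 < e0 := by positivity
  have hLM : LM3 (3 * r) (Phi3 P r Tl) := lm3_tpl P hC hT
  have hmain := main3_le N.hs N.prob N.lln hu hLM hB h3 he00
  set K3 : ℝ := ∑ o : Fin 3, A3 o with hK3
  have hK3o : ∀ o, A3 o ≤ K3 := fun o =>
    Finset.single_le_sum (f := A3) (fun o _ => hA3 o) (Finset.mem_univ o)
  have hsq := N.sq_term (4 * Λ ^ 2 * S2 ^ 2 * K3) (show 0 < ε / 12 by positivity)
  have hfar := N.far_term |K| hκ a (show 0 < ε / 12 by positivity)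
  filter_upwards [hmain, hnd h3 he00, htail (cw r), hsq, hfar, hM,
    eventually_all.mpr hKc] with n g1 g2 g3 g4 g5 g6 g7
  have hprn := N.prob n
  have hδ : 0 < δ n := N.hs.pos n
  have hss0 : 0 ≤ ∑ w ∈ Rg n, ∫ h, ((mcw P c0 (win 1 (Rg n)) h w : ℝ) + 1) ^ 2 ∂(ν n) :=
    Finset.sum_nonneg fun w _ => integral_nonneg fun h => sq_nonneg _
  have htt0 : 0 ≤ δ n ^ 2 * ∑ w ∈ Rg n, ∫ h, (if cw r < mcw P c0 (win 1 (Rg n)) h w then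
      (mcw P c0 (win 1 (Rg n)) h w : ℝ) else 0) ∂(ν n) :=
    mul_nonneg (sq_nonneg _) (Finset.sum_nonneg fun w _ => integral_nonneg fun h => by positivity)
  have hF : ∀ o, Kc o n * (ν n).real {h | Bad P c0 (Rg n) (M n) h} ≤ ε / 12 := by
    intro o
    have f1 : Kc o n ≤ |K| * (δ n ^ a)⁻¹ :=
      (g7 o).trans (mul_le_mul_of_nonneg_right (le_abs_self K) (by positivity))
    refine (mul_le_mul_of_nonneg_right f1 measureReal_nonneg).trans ?_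
    refine le_trans (mul_le_mul_of_nonneg_left (measureReal_mono ?_) (by positivity)) g5
    rintro h ⟨w, hw, hMw⟩
    exact ⟨w, hw, g6.trans (by exact_mod_cast hMw)⟩
  have h2' : Λ ^ 2 * S1 ^ 2 * (K2 * (r : ℝ) ^ 6) * (C2 * q ^ cw r) ≤ ε / 12 := by
    refine le_trans (le_of_eq ?_) h2
    ring
  -- the last three terms
  have hrest := fun o : Fin 3 => rest_le (S1 := S1) (S2 := S2) hl g3 htt0
    (A2c_nonneg P (c0 := c0) (cw r) (bk r o) (128 * r) hθ0) (hA2 r h3 o) h2'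
    (hA3 o) (hK3o o) hss0 g4 (hF o)
  -- the best orientation and class
  refine exists_best (A := fun o c => ∫ h, tot P c0 θ r o Tl (Rg n) c (psi u l (δ n))
    (|l| * S1 * δ n) (2 * |l| * S2 * δ n ^ 2) (A3 o) (Kc o n) (M n) h ∂(ν n)) h3 ?_
  have hX : ∀ o : Fin 3, ∀ c ∈ bx (r / 2),
      ∫ h, tot P c0 θ r o Tl (Rg n) c (psi u l (δ n))
        (|l| * S1 * δ n) (2 * |l| * S2 * δ n ^ 2) (A3 o) (Kc o n) (M n) h ∂(ν n) ≤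
      (1 + θ) ^ 2 * (l ^ 2 * (δ n ^ 2 *
        ∫ h, m3 (Phi3 P r Tl) u (δ n) r o (Rg n) c h ∂(ν n))) +
        l ^ 2 * S1 ^ 2 * A1c P * (δ n ^ 2 *
          ∑ w ∈ nd r o (Rg n) c, ∫ h, (mcw P c0 (win 1 (Rg n)) h w : ℝ) ∂(ν n)) + ε / 4 := by
    intro o c _
    rw [(integral_tot N hu hC hT θ n o c l (|l| * S1 * δ n) (2 * |l| * S2 * δ n ^ 2) (A3 o)
      (Kc o n) (M n)).2]
    exact tot_arith (hrest o)
  refine (Finset.sum_le_sum fun o _ => Finset.sum_le_sum fun c hc => hX o c hc).trans ?_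
  rw [sum_arith]
  have c1 : 32 * Λ ^ 2 * η * E ≤ ε := by
    rw [hη, show 32 * Λ ^ 2 * (ε / (32 * Λ ^ 2 * (E + 1))) * E = ε * (E / (E + 1)) by field_simp]
    exact mul_le_of_le_one_right hε.le ((div_le_one (by positivity)).mpr (by linarith))
  have hSA : 0 ≤ S1 ^ 2 * A1c P := mul_nonneg (sq_nonneg S1) hA1
  have c2 : 32 * Λ ^ 2 * e0 ≤ ε := by
    rw [he0, show 32 * Λ ^ 2 * (ε / (32 * Λ ^ 2 * (1 + S1 ^ 2 * A1c P))) =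
      ε * (1 / (1 + S1 ^ 2 * A1c P)) by field_simp]
    exact mul_le_of_le_one_right hε.le ((div_le_one (by positivity)).mpr (by linarith))
  have c3 : 8 * Λ ^ 2 * S1 ^ 2 * A1c P * e0 ≤ ε := by
    have c4 : 8 * Λ ^ 2 * S1 ^ 2 * A1c P * e0 =
        ε * (S1 ^ 2 * A1c P / (4 * (1 + S1 ^ 2 * A1c P))) := by
      rw [he0]; field_simp; ring
    rw [c4]
    exact mul_le_of_le_one_right hε.le ((div_le_one (by positivity)).mpr (by linarith))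
  have havg := avg_le (W := (cw r : ℝ)) (C := C1) hθ0 hθ1 hs1' hE0 hη0.le hb hΛ hε hA1
    he00.le hl hlb g1 g2 hθ2 c1 c2 h1 c3 (by positivity)
  linarith

end

end Crest.Agent.R144.LowL549
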