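import Mathlib
import Crest.Agent.R144.KapN4_761
import Crest.Agent.R144.LowL12_549
import Crest.Agent.R144.Skel100_144

/-!
# R144 (S0197), helper761, KapN, part 5: `KapD`

`kapD_fin` : `KapD (abT P mu0) (√3/2)`.
-/

set_option autoImplicit false
set_option linter.unusedVariables false

open MeasureTheory Metric Set Filter Topology
open scoped ContDiff NNReal

namespace Crest.Agent.R144.KapN761

open Crest.Agent.R144.Skel144 Crest.Agent.R144.Con549 Crest.Agent.R144.Cnt268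
open Crest.Agent.R144.Bl565 Crest.Agent.R144.LowL549
open Crest.Agent.R144.Cw643 (Near Wt CV)
open Crest.Agent.R144.KapE761
open Crest.Agent.R144.LoC95 (Ph Gt Tpl Bad ix Pos Sep PsiH A3c sz sz_nonneg A2c A1c)
open Crest.Agent.R144.Lc279 (P2 bx nr mu0)
open Crest.Agent.R144.Lw425 (LObs hball hd)
open Crest.ProbabilityR.HexHeights (centre)

noncomputable section

/-- the size of the window -/
theorem card_win_bd {G : Set ℂ} {δ : ℕ → ℝ} {Rg : ℕ → Finset P2} (hs : Sites G δ Rg) :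
    ∃ C : ℝ, 0 < C ∧ ∀ᶠ n in atTop, 1 + ((win 1 (Rg n)).card : ℝ) ≤ C * (δ n ^ 2)⁻¹ := by
  obtain ⟨Cc, hCc, hcard⟩ := hs.card_bdd
  refine ⟨1 + Cc * (hball 1).card, by positivity, ?_⟩
  filter_upwards [hs.small one_pos] with n hn
  have hδ := hs.pos n
  have h1 : ((win 1 (Rg n)).card : ℝ) ≤ (Rg n).card * (hball 1).card := by
    exact_mod_cast LoC95.card_win_one (Rg n)
  have h2 : δ n ^ 2 ≤ 1 := pow_le_one₀ hδ.le hn.le
  have h3 : 0 < δ n ^ 2 := by positivity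
  rw [← div_eq_mul_inv, le_div_iff₀ h3]
  have h4 := hcard n
  have h5 : (0 : ℝ) ≤ (hball 1).card := Nat.cast_nonneg _
  calc (1 + ((win 1 (Rg n)).card : ℝ)) * δ n ^ 2 ≤
        (1 + (Rg n).card * (hball 1).card) * δ n ^ 2 := by gcongr
    _ = δ n ^ 2 + (δ n ^ 2 * (Rg n).card) * (hball 1).card := by ring
    _ ≤ 1 + Cc * (hball 1).card := add_le_add h2 (mul_le_mul_of_nonneg_right h4 h5)

/-- the macroscopic length -/
theorem exists_M {δ : ℕ → ℝ} (hδ : ∀ n, 0 < δ n) (hδ0 : Tendsto δ atTop (𝓝 0)) {κ : ℝ}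
    (hκ : 0 < κ) : ∀ᶠ n in atTop, κ / δ n ≤ (⌈κ / δ n⌉₊ : ℝ) ∧
      ((⌈κ / δ n⌉₊ : ℕ) : ℝ) ≤ 2 * κ / δ n ∧ 2 ≤ ⌈κ / δ n⌉₊ := by
  have h2 : Tendsto (fun n => κ / δ n) atTop atTop := by
    have h3 : Tendsto (fun n => (δ n)⁻¹) atTop atTop :=
      (tendsto_nhdsWithin_iff.mpr ⟨hδ0, Eventually.of_forall hδ⟩).inv_tendsto_nhdsGT_zero
    simpa [div_eq_mul_inv] using h3.const_mul_atTop hκ
  filter_upwards [h2.eventually (eventually_ge_atTop 2)] with n hn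
  have h4 : 0 ≤ κ / δ n := by linarith
  refine ⟨Nat.le_ceil _, ?_, ?_⟩
  · have := (Nat.ceil_lt_add_one h4).le
    have e : 2 * κ / δ n = κ / δ n + κ / δ n := by ring
    rw [e]; linarith
  · have h5 : (2 : ℝ) ≤ (⌈κ / δ n⌉₊ : ℝ) := hn.trans (Nat.le_ceil _)
    exact_mod_cast h5

/-- comparison of the traces -/
theorem BF_le_tot {P : Par} {θ : ℝ} {r : ℕ} {o : Fin 3}
    {Tl : Fin 3 → Fin 2 → (P2 → ℝ) → P2 → ℝ} {R : Finset P2} {c : P2}
    {Psi : (Fin 2 → ℝ) → ℝ} {M N : ℕ} {A3 A4 p0 p1 p2 Kc : ℝ}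
    (hK : A4 * (1 + N : ℝ) ^ 8 * (1 + p0 + p1) ^ 6 ≤ Kc) (h : P2 → ℝ) :
    BF P 1 (cw r) (bk r o) (Tl o) R (Qs r o R c) Psi M (128 * r) θ A3 A4 p0 p1 p2 N h ≤
      tot P 1 θ r o Tl R c Psi p1 p2 A3 Kc M h := by
  unfold BF tot
  have h3 : badI P 1 R M h = {h | Bad P 1 R M h}.indicator (fun _ => (1 : ℝ)) h := by
    by_cases hb : Bad P 1 R M h
    · rw [badI_of hb, indicator_of_mem]
      exact hb
    · rw [badI_not hb, indicator_of_notMem]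
      exact hb
  have h4 : A4 * (1 + N : ℝ) ^ 8 * (1 + p0 + p1) ^ 6 * badI P 1 R M h ≤
      Kc * {h | Bad P 1 R M h}.indicator (fun _ => (1 : ℝ)) h := by
    rw [← h3]
    exact mul_le_mul_of_nonneg_right hK (badI_nonneg h)
  linarith

/-- **the lower bound for one test function, at fixed accuracy** -/
theorem low_mu0 {P : Par} (hP : Small P) {ψ : ℂ → ℝ} (hψ : ContDiff ℝ ∞ ψ)
    (hc : HasCompactSupport ψ) {ε : ℝ} (hε : 0 < ε) {b0 : ℝ} (hb0 : 0 < b0) :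
    ∃ r1, ∀ r, r1 ≤ r → ∀ b, b0 ≤ b → (∀ L, abT P mu0 r L ≤ b) →
      LowN (vg0 mu0) (Real.sqrt 3 / 2 / b * ∫ z, ‖fderiv ℝ ψ z‖ ^ 2) ε ψ := by
  obtain ⟨G, δ, w, s, hGo, hGc, hGn, hψG, hW⟩ := exists_wd hψ hc
  have hGb : Bornology.IsBounded G := hGc.isBounded.subset subset_closure
  set Rg : ℕ → Finset P2 := fun n => rG G (δ n) with hRgd
  have hs : Sites G δ Rg := sites_rG hGo hGb hGn hW.pos hW.lim
  have hRg : ∀ n v, centre (δ n) v ∈ G → v ∈ Rg n := fun n v hv => (mem_rG hGb (hW.pos n)).mpr hv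
  have hu : IsTest G ψ := ⟨hψ, hc, hψG⟩
  have N : NumIn G δ Rg (fun _ => mu0) mu0 (fun n h v => mcw P 1 (win 1 (Rg n)) h v) :=
    numIn_mu0 hP le_rfl hs
  obtain ⟨S0, S1, S2, hS0, hS1, hS2, hb0', hb1', hb2'⟩ := exists_bd hu
  obtain ⟨κ, hκ, hsep⟩ := sep_ev hs hu
  set D : ℝ := ∫ z, ‖fderiv ℝ ψ z‖ ^ 2 with hD
  have hD0 : 0 ≤ D := integral_nonneg fun z => sq_nonneg _
  set c1 : ℝ := Real.sqrt 3 / 2 with hc1
  have hc10 : 0 < c1 := by rw [hc1]; positivity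
  have hc1t : c1 * (2 / Real.sqrt 3) = 1 := by
    rw [hc1]
    have : Real.sqrt 3 ≠ 0 := by positivity
    field_simp
  set Λ : ℝ := c1 / b0 + c1 ^ 2 / b0 + 1 with hΛ
  have hΛ0 : 0 < Λ := by positivity
  obtain ⟨θ, hθ, r1, hr1, H⟩ := numbers (S1 := S1) (S2 := S2) N Lw425.inv_mu0 dlr_mu0 hu hΛ0
    (show 0 < ε / 3 by positivity)
  refine ⟨r1, fun r hr b hb hab => ?_⟩
  have hr2 : 2 ≤ r := hr1.trans hr
  have hb0p : 0 < b := hb0.trans_le hb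
  obtain ⟨Tl, C, hC, hT, H2⟩ := H r hr b hb0p.le hab
  -- the fields
  have hfib := fun o : Fin 3 => fib_field P (c0 := 1) one_pos (hT o) hθ
  choose A3 A4 hA3 hA4 HF using hfib
  obtain ⟨Cw, hCw, hwin⟩ := card_win_bd hs
  set l : ℝ := c1 / b with hl
  have hl0 : 0 < l := by positivity
  have hlΛ : |l| ≤ Λ := by
    rw [abs_of_pos hl0]
    have h1 : l ≤ c1 / b0 := div_le_div_of_nonneg_left hc10.le hb0 hb
    have h2 : 0 ≤ c1 ^ 2 / b0 := by positivity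
    linarith
  have hlb : l ^ 2 * b ≤ Λ := by
    have h1 : l ^ 2 * b = c1 ^ 2 / b := by rw [hl]; field_simp
    rw [h1]
    have h2 : c1 ^ 2 / b ≤ c1 ^ 2 / b0 := div_le_div_of_nonneg_left (by positivity) hb0 hb
    have h3 : 0 ≤ c1 / b0 := by positivity
    linarith
  set A4s : ℝ := ∑ o, A4 o with hA4s
  have hA4s0 : 0 ≤ A4s := Finset.sum_nonneg fun o _ => hA4 o
  have hA4le : ∀ o, A4 o ≤ A4s := fun o =>
    Finset.single_le_sum (f := A4) (fun o _ => hA4 o) (Finset.mem_univ o)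
  set K : ℝ := A4s * Cw ^ 8 * (1 + Λ * S0 + Λ * S1) ^ 6 with hK
  have hK0 : 0 ≤ K := by positivity
  have hM := exists_M hW.pos hW.lim hκ
  have hnum := H2 A3 (fun _ n => K * (δ n ^ 16)⁻¹) K κ 16 (fun n => ⌈κ / δ n⌉₊) hA3
    (fun _ => Eventually.of_forall fun n => le_rfl) hκ (hM.mono fun n hn => hn.1) l hlΛ hlb
  have hAF := AF_lower hP le_rfl hs hW hRg hκ l (show (0 : ℝ) ≤ 128 * r by positivity) hS0 hS1
    (show 0 < ε / 3 by positivity)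
  refine ⟨δ, w, s, hW.pos, hW.lim, hW.near, hW.wt, Eventually.frequently ?_⟩
  filter_upwards [hnum, hAF, hM, hsep l (128 * r), hwin, hW.wt, hW.supp, hs.small one_pos]
    with n g1 g2 g3 g4 g5 g6 g7 g8
  obtain ⟨o, c, hcb, g1⟩ := g1
  have hδ := hW.pos n
  set M : ℕ := ⌈κ / δ n⌉₊ with hMd
  have hPsi : PsiH (psi ψ l (δ n)) (|l| * S0) (|l| * S1 * δ n) (2 * |l| * S2 * δ n ^ 2) :=
    psiH hu hS1 hS2 hb0' hb1' hb2' l hδ.le
  have hFib := HF o (Rg n) (Qs r o (Rg n) c) (pos_Qs hr2 o (Rg n) c) _ _ _ _ hPsi M g3.2.2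
    (g4 M g3.2.1) (s n) (w n) (fun v hv => hRg n v (g7 v hv))
  have hLM : LM3 (3 * r) (Phi3 P r Tl) := lm3_tpl P hC hT
  have hΦ : ∀ i j, LS fun h => Ph (bk r o) (Gt P (cw r) (bk r o) (Tl o)) h i j := fun i j =>
    ls_of_sobs (hLM.obs o i j)
  have hBls := ls_BF (P := P) (c0 := 1) (m := cw r) (I := bk r o) (Tl := Tl o) (Rg := Rg n)
    (Q := Qs r o (Rg n) c) (Psi := psi ψ l (δ n)) (M := M) (B := 128 * r) (θ := θ) (A3 := A3 o)
    (A4 := A4 o) (p0 := |l| * S0) (p1 := |l| * S1 * δ n) (p2 := 2 * |l| * S2 * δ n ^ 2) hΦ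
    (win 1 (Rg n)).card
  have hcr := cr_mu0 (I := win 1 (Rg n)) (s := s n) (b := w n) g6.2
    (ls_AF (P := P) (c0 := 1) (Rg := Rg n) (Psi := psi ψ l (δ n)) (M := M)
      (B := 128 * r) (p0 := |l| * S0) (p1 := |l| * S1 * δ n) (s n) (w n)) hBls
    (fun ζ _ => hFib ζ) zero_le_one
  -- the trace
  have hKc : A4 o * (1 + ((win 1 (Rg n)).card : ℝ)) ^ 8 * (1 + |l| * S0 + |l| * S1 * δ n) ^ 6 ≤
      K * (δ n ^ 16)⁻¹ := by
    have k1 : (1 + ((win 1 (Rg n)).card : ℝ)) ^ 8 ≤ (Cw * (δ n ^ 2)⁻¹) ^ 8 :=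
      pow_le_pow_left₀ (by positivity) g5 8
    have k2 : |l| * S1 * δ n ≤ Λ * S1 := by
      calc |l| * S1 * δ n ≤ |l| * S1 * 1 := mul_le_mul_of_nonneg_left g8.le (by positivity)
        _ ≤ Λ * S1 := by rw [mul_one]; exact mul_le_mul_of_nonneg_right hlΛ hS1
    have k3 : |l| * S0 ≤ Λ * S0 := mul_le_mul_of_nonneg_right hlΛ hS0
    have k4 : (1 + |l| * S0 + |l| * S1 * δ n) ^ 6 ≤ (1 + Λ * S0 + Λ * S1) ^ 6 :=
      pow_le_pow_left₀ (by positivity) (by linarith) 6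
    calc _ ≤ A4s * (Cw * (δ n ^ 2)⁻¹) ^ 8 * (1 + Λ * S0 + Λ * S1) ^ 6 := by
          refine mul_le_mul (mul_le_mul (hA4le o) k1 (by positivity) hA4s0) k4 (by positivity)
            (by positivity)
      _ = K * (δ n ^ 16)⁻¹ := by
          rw [hK]
          field_simp
  have htot := integral_tot N hu hC hT θ n o c l (|l| * S1 * δ n) (2 * |l| * S2 * δ n ^ 2)
    (A3 o) (K * (δ n ^ 16)⁻¹) M
  have hBt := integral_mono (LS.integrable hBls) htot.1 fun h =>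
    BF_le_tot (Tl := Tl) (o := o) (R := Rg n) (c := c) hKc h
  have g2' := g2 M g3.1
  have hBt2 := hBt.trans g1
  -- arithmetic
  have e1 : l ^ 2 * (2 / Real.sqrt 3 * b) * D = l * D := by
    have : l * b = c1 := by rw [hl]; field_simp
    calc l ^ 2 * (2 / Real.sqrt 3 * b) * D = l * (l * b * (2 / Real.sqrt 3)) * D := by ring
      _ = l * D := by rw [this, hc1t, mul_one]
  rw [e1] at hBt2
  rw [show (2 : ℝ) * 1 = 2 by norm_num, one_pow, one_mul] at hcr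
  linarith

/-- **KapD for the plane state** -/
theorem kapD_fin {P : Par} (hP : Small P) :
    KapD (fun r L => abT P mu0 r L) (Real.sqrt 3 / 2) :=
  kapD_mu0 (fun r L => abT P mu0 r L) (show (0 : ℝ) < Real.sqrt 3 / 2 by positivity)
    fun ψ hψ hc ε hε b0 hb0 => low_mu0 hP hψ hc hε hb0

end

end Crest.Agent.R144.KapN761
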