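import Crest.Agent.R144.Con4_549
import Crest.Agent.R144.Geo6_268

/-!
# R144, lattice flow, part 1 (helper549)

Three lattice directions `d₀ = (1,0)`, `d₁ = (0,1)`, `d₂ = (1,-1)`; the rhombus `R k` of the edge
`(0, d_k)` in lattice coordinates; integration by parts against the tent function:
`∫ (∂_{d_k} g) · tent = ∫_{R k} g - ∫_{R k} g(· - d_k)`.
-/

set_option autoImplicit false

open MeasureTheory Metric Set Filter Topology
open scoped ContDiff

namespace Crest.Agent.R144.Lat549

open Crest.ProbabilityR.HexHeights Crest.Agent.R144.HexTil353 Crest.Agent.R144.Geo268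
  Crest.Agent.R144.Con549

noncomputable section

/-- the three lattice directions -/
def d (k : Fin 3) : ℤ × ℤ := ![(1, 0), (0, 1), (1, -1)] k

/-- the same as real vectors -/
def dr (k : Fin 3) : ℝ × ℝ := ![(1, 0), (0, 1), (1, -1)] k

/-- the unit vectors of the plane in the three directions -/
def ed (k : Fin 3) : ℂ := cen 1 (dr k).1 (dr k).2

def al (k : Fin 3) (p : ℝ × ℝ) : ℝ := ![p.1, p.2, p.1] k

def be (k : Fin 3) (p : ℝ × ℝ) : ℝ := ![-(p.1 + p.2), -(p.1 + p.2), p.2] k

/-- the rhombus of the edge `(0, d k)` (half open) -/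
def R (k : Fin 3) : Set (ℝ × ℝ) := {p | al k p ∈ Ico (0 : ℝ) 1 ∧ be k p ∈ Ico (-1 : ℝ) 0}

theorem dr_eq (k : Fin 3) : dr k = (((d k).1 : ℝ), ((d k).2 : ℝ)) := by
  fin_cases k <;> simp [dr, d]

theorem al_add (k : Fin 3) (p q : ℝ × ℝ) : al k (p + q) = al k p + al k q := by
  fin_cases k <;> simp [al]

theorem be_add (k : Fin 3) (p q : ℝ × ℝ) : be k (p + q) = be k p + be k q := by
  fin_cases k <;> simp [be] <;> ring

theorem al_dr (k : Fin 3) (s : ℝ) : al k (s • dr k) = s := by
  fin_cases k <;> simp [al, dr]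

theorem be_dr (k : Fin 3) (s : ℝ) : be k (s • dr k) = -s := by
  fin_cases k <;> simp [be, dr]

theorem tent_al_be (k : Fin 3) (p : ℝ × ℝ) : tent (al k p) (be k p) = tent p.1 p.2 := by
  have h1 : ∀ x y : ℝ, tent x (-(x + y)) = tent x y := by
    intro x y
    unfold tent
    have : x + -(x + y) = -y := by ring
    rw [this, abs_neg, abs_neg, max_comm |x + y| |y|]
  have h2 : ∀ x y : ℝ, tent y (-(x + y)) = tent x y := by
    intro x y
    unfold tent
    have : y + -(x + y) = -x := by ring
    rw [this, abs_neg, abs_neg, max_comm |x + y| |x|, max_left_comm]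
  fin_cases k
  · simpa [al, be] using h1 p.1 p.2
  · simpa [al, be] using h2 p.1 p.2
  · simp [al, be]

theorem continuous_al (k : Fin 3) : Continuous (al k) := by
  unfold al
  fin_cases k <;> simp <;> fun_prop

theorem continuous_be (k : Fin 3) : Continuous (be k) := by
  unfold be
  fin_cases k <;> simp <;> fun_prop

theorem measurableSet_R (k : Fin 3) : MeasurableSet (R k) :=
  ((continuous_al k).measurable measurableSet_Ico).inter
    ((continuous_be k).measurable measurableSet_Ico)

theorem R_bound {k : Fin 3} {p : ℝ × ℝ} (hp : p ∈ R k) : |p.1| ≤ 1 ∧ |p.2| ≤ 1 := by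
  obtain ⟨⟨h1, h2⟩, h3, h4⟩ := hp
  fin_cases k <;> simp [al, be] at h1 h2 h3 h4 <;> constructor <;> rw [abs_le] <;>
    constructor <;> linarith

theorem volume_ray (k : Fin 3) (p : ℝ × ℝ) :
    (volume : Measure ℝ) (Icc (0 : ℝ) 1 ∩ {s | p + s • dr k ∈ R k}) =
      ENNReal.ofReal (tent p.1 p.2) := by
  rw [← tent_al_be k p, ← tent_volume]
  have h1 : {s : ℝ | p + s • dr k ∈ R k} =
      Ico (-al k p) (1 - al k p) ∩ Ioc (be k p) (1 + be k p) := by
    ext s
    simp only [R, mem_ofPred_eq, al_add, be_add, al_dr, be_dr, mem_Ico, mem_inter_iff, mem_Ioc]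
    constructor
    · rintro ⟨⟨h1, h2⟩, h3, h4⟩
      exact ⟨⟨by linarith, by linarith⟩, by linarith, by linarith⟩
    · rintro ⟨⟨h1, h2⟩, h3, h4⟩
      exact ⟨⟨by linarith, by linarith⟩, by linarith, by linarith⟩
  rw [h1, ← inter_assoc]
  exact measure_congr (((ae_eq_refl _).inter Ico_ae_eq_Icc).inter Ioc_ae_eq_Icc)

theorem measurable_ray (k : Fin 3) (p : ℝ × ℝ) : MeasurableSet {s : ℝ | p + s • dr k ∈ R k} :=
  (by fun_prop : Measurable fun s : ℝ => p + s • dr k) (measurableSet_R k)

theorem measurable_T (k : Fin 3) :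
    MeasurableSet {q : (ℝ × ℝ) × ℝ | q.1 + q.2 • dr k ∈ R k} :=
  (by fun_prop : Measurable fun q : (ℝ × ℝ) × ℝ => q.1 + q.2 • dr k) (measurableSet_R k)

theorem volume_R (k : Fin 3) : (volume : Measure (ℝ × ℝ)) (R k) = 1 := by
  have h1 := lintegral_tent
  have h2 : ∀ p : ℝ × ℝ, ENNReal.ofReal (tent p.1 p.2) =
      ∫⁻ s in Icc (0 : ℝ) 1, (R k).indicator 1 (p + s • dr k) := by
    intro p
    rw [← volume_ray k p, inter_comm, ← Measure.restrict_apply (measurable_ray k p),
      ← lintegral_indicator_one (measurable_ray k p)]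
    rfl
  simp_rw [h2] at h1
  rw [lintegral_lintegral_swap] at h1
  · have h3 : ∀ s : ℝ, ∫⁻ p : ℝ × ℝ, (R k).indicator 1 (p + s • dr k) = volume (R k) := by
      intro s
      rw [lintegral_add_right_eq_self (fun p => (R k).indicator (1 : ℝ × ℝ → ENNReal) p),
        lintegral_indicator_one (measurableSet_R k)]
    simp_rw [h3] at h1
    rw [lintegral_const, Measure.restrict_apply_univ, Real.volume_Icc] at h1
    simpa using h1
  · refine Measurable.aemeasurable ?_
    exact (measurable_one.indicator (measurableSet_R k)).comp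
      (by fun_prop : Measurable fun q : (ℝ × ℝ) × ℝ => q.1 + q.2 • dr k)

theorem tent_eq_integral (k : Fin 3) (p : ℝ × ℝ) :
    tent p.1 p.2 = ∫ s in Icc (0 : ℝ) 1, (R k).indicator (fun _ => (1 : ℝ)) (p + s • dr k) := by
  have h1 : (fun s : ℝ => (R k).indicator (fun _ => (1 : ℝ)) (p + s • dr k)) =
      {s : ℝ | p + s • dr k ∈ R k}.indicator fun _ => (1 : ℝ) := by
    funext s
    by_cases hs : p + s • dr k ∈ R k
    · rw [indicator_of_mem hs, indicator_of_mem (show s ∈ {s : ℝ | p + s • dr k ∈ R k} from hs)]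
    · rw [indicator_of_notMem hs,
        indicator_of_notMem (show s ∉ {s : ℝ | p + s • dr k ∈ R k} from hs)]
  rw [h1, integral_indicator (measurable_ray k p), setIntegral_const, smul_eq_mul, mul_one,
    Measure.real, Measure.restrict_apply (measurable_ray k p), inter_comm, volume_ray,
    ENNReal.toReal_ofReal (tent_nonneg _ _)]

/-- integration by parts against the tent -/
theorem ibp (k : Fin 3) {g : ℝ × ℝ → ℝ} (hg : ContDiff ℝ 1 g) :
    ∫ p, fderiv ℝ g p (dr k) * tent p.1 p.2 =
      (∫ p in R k, g p) - ∫ p in R k, g (p - dr k) := by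
  set h : ℝ × ℝ → ℝ := fun p => fderiv ℝ g p (dr k) with hh
  have hc : Continuous h := (hg.continuous_fderiv (by simp)).clm_apply continuous_const
  have hdr : ‖dr k‖ ≤ 1 := by
    fin_cases k <;> simp [dr, Prod.norm_def]
  have hRc : R k ⊆ closedBall 0 1 := by
    intro p hp
    rw [mem_closedBall_zero_iff, Prod.norm_def, Real.norm_eq_abs, Real.norm_eq_abs]
    exact max_le (R_bound hp).1 (R_bound hp).2
  -- first swap
  obtain ⟨C, hC0, hC⟩ : ∃ C : ℝ, 0 ≤ C ∧ ∀ p ∈ closedBall (0 : ℝ × ℝ) 2, ‖h p‖ ≤ C := by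
    obtain ⟨C, hC⟩ := (isCompact_closedBall (0 : ℝ × ℝ) 2).exists_bound_of_continuousOn
      hc.continuousOn
    exact ⟨max C 0, le_max_right _ _, fun p hp => (hC p hp).trans (le_max_left _ _)⟩
  have hind : Measurable fun q : (ℝ × ℝ) × ℝ =>
      (R k).indicator (fun _ => (1 : ℝ)) (q.1 + q.2 • dr k) :=
    (measurable_const.indicator (measurableSet_R k)).comp
      (by fun_prop : Measurable fun q : (ℝ × ℝ) × ℝ => q.1 + q.2 • dr k)
  have hint1 : Integrable (Function.uncurry fun (p : ℝ × ℝ) (s : ℝ) =>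
      h p * (R k).indicator (fun _ => (1 : ℝ)) (p + s • dr k))
      ((volume : Measure (ℝ × ℝ)).prod (volume.restrict (Icc (0 : ℝ) 1))) := by
    have hb : Integrable ((closedBall (0 : ℝ × ℝ) 2).indicator fun _ => C) volume :=
      (integrable_indicator_iff isClosed_closedBall.measurableSet).2
        (integrableOn_const (isCompact_closedBall (0 : ℝ × ℝ) 2).measure_lt_top.ne)
    have hb2 := hb.comp_fst (volume.restrict (Icc (0 : ℝ) 1))
    refine hb2.mono' ?_ ?_
    · exact ((hc.measurable.comp measurable_fst).mul hind).aestronglyMeasurable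
    · have h1 : ∀ᵐ q ∂((volume : Measure (ℝ × ℝ)).prod (volume.restrict (Icc (0 : ℝ) 1))),
          q.2 ∈ Icc (0 : ℝ) 1 := by
        have : (volume : Measure (ℝ × ℝ)).prod (volume.restrict (Icc (0 : ℝ) 1)) =
          ((volume : Measure (ℝ × ℝ)).prod volume).restrict (univ ×ˢ Icc (0 : ℝ) 1) := by
          rw [← Measure.prod_restrict, Measure.restrict_univ]
        rw [this]
        filter_upwards [ae_restrict_mem (MeasurableSet.univ.prod measurableSet_Icc)] with q hq
        exact hq.2
      filter_upwards [h1] with q hq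
      simp only [Function.uncurry]
      by_cases hq1 : q.1 + q.2 • dr k ∈ R k
      · have h2 : q.1 ∈ closedBall (0 : ℝ × ℝ) 2 := by
          rw [mem_closedBall_zero_iff]
          have h3 := hRc hq1
          rw [mem_closedBall_zero_iff] at h3
          have h4 : q.1 = (q.1 + q.2 • dr k) - q.2 • dr k := by simp
          rw [h4]
          refine (norm_sub_le _ _).trans ?_
          rw [norm_smul, Real.norm_eq_abs, abs_of_nonneg hq.1]
          nlinarith [hq.2, norm_nonneg (dr k), hq.1]
        rw [indicator_of_mem hq1, indicator_of_mem h2, mul_one]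
        exact hC _ h2
      · rw [indicator_of_notMem hq1, mul_zero, norm_zero]
        exact indicator_nonneg (fun _ _ => hC0) _
  have e1 : ∫ p, h p * tent p.1 p.2 = ∫ s in Icc (0 : ℝ) 1, ∫ p : ℝ × ℝ,
      h p * (R k).indicator (fun _ => (1 : ℝ)) (p + s • dr k) := by
    rw [← integral_integral_swap hint1]
    congr 1
    funext p
    rw [tent_eq_integral k p, integral_const_mul]
  have e2 : ∀ s : ℝ, ∫ p : ℝ × ℝ, h p * (R k).indicator (fun _ => (1 : ℝ)) (p + s • dr k) =
      ∫ p in R k, h (p - s • dr k) := by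
    intro s
    have h1 := integral_add_right_eq_self (μ := (volume : Measure (ℝ × ℝ)))
      (fun p => h (p - s • dr k) * (R k).indicator (fun _ => (1 : ℝ)) p) (s • dr k)
    simp only [add_sub_cancel_right] at h1
    rw [h1, ← integral_indicator (measurableSet_R k)]
    congr 1
    funext p
    by_cases hp : p ∈ R k
    · rw [indicator_of_mem hp, indicator_of_mem hp, mul_one]
    · rw [indicator_of_notMem hp, indicator_of_notMem hp, mul_zero]
  have hint2 : Integrable (Function.uncurry fun (s : ℝ) (p : ℝ × ℝ) => h (p - s • dr k))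
      ((volume.restrict (Icc (0 : ℝ) 1)).prod (volume.restrict (R k))) := by
    rw [Measure.prod_restrict]
    have h1 : Continuous (Function.uncurry fun (s : ℝ) (p : ℝ × ℝ) => h (p - s • dr k)) := by
      change Continuous fun q : ℝ × (ℝ × ℝ) => h (q.2 - q.1 • dr k)
      fun_prop
    have h2 : IntegrableOn (Function.uncurry fun (s : ℝ) (p : ℝ × ℝ) => h (p - s • dr k))
        (Icc (0 : ℝ) 1 ×ˢ closedBall (0 : ℝ × ℝ) 1) (volume.prod volume) :=
      h1.continuousOn.integrableOn_compact (isCompact_Icc.prod (isCompact_closedBall _ _))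
    exact h2.mono_set (prod_mono_right hRc)
  have e3 : ∫ s in Icc (0 : ℝ) 1, ∫ p in R k, h (p - s • dr k) =
      ∫ p in R k, (g p - g (p - dr k)) := by
    rw [integral_integral_swap hint2]
    congr 1
    funext p
    have h1 : ∀ s ∈ uIcc (0 : ℝ) 1, HasDerivAt (fun s : ℝ => -g (p - s • dr k))
        (h (p - s • dr k)) s := by
      intro s _
      have h2 : HasDerivAt (fun s : ℝ => p - s • dr k) (-dr k) s := by
        have := ((hasDerivAt_id s).smul_const (dr k)).const_sub p
        simpa using this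
      have h3 := ((hg.differentiable (by simp) (p - s • dr k)).hasFDerivAt).comp_hasDerivAt s h2
      have h4 := h3.neg
      rw [map_neg, neg_neg] at h4
      exact h4
    have h2 : IntervalIntegrable (fun s : ℝ => h (p - s • dr k)) volume 0 1 :=
      (by fun_prop : Continuous fun s : ℝ => h (p - s • dr k)).intervalIntegrable _ _
    have h3 := intervalIntegral.integral_eq_sub_of_hasDerivAt h1 h2
    rw [intervalIntegral.integral_of_le zero_le_one, ← integral_Icc_eq_integral_Ioc] at h3
    rw [h3]
    simp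
    ring
  have i1 : IntegrableOn g (R k) :=
    (hg.continuous.continuousOn.integrableOn_compact (isCompact_closedBall (0 : ℝ × ℝ) 1)).mono_set
      hRc
  have i2 : IntegrableOn (fun p => g (p - dr k)) (R k) :=
    ((hg.continuous.comp (continuous_id.sub continuous_const)).continuousOn.integrableOn_compact
      (isCompact_closedBall (0 : ℝ × ℝ) 1)).mono_set hRc
  calc ∫ p, h p * tent p.1 p.2 = _ := e1
    _ = ∫ s in Icc (0 : ℝ) 1, ∫ p in R k, h (p - s • dr k) := by
        congr 1
        funext s
        exact e2 s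
    _ = _ := e3
    _ = _ := integral_sub i1 i2

end

end Crest.Agent.R144.Lat549
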