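import Crest.Agent.R144.Lat1_549

/-!
# R144, lattice flow, part 2 (helper549)

`latF δ J k v` = flow of the vector field `J` through the lattice edge `v → v + d k`
(`(2 / (3 δ)) ∫ ⟪J, e_k⟫` over the rhombus of the edge).  Exact discrete divergence = weights of the
affine pairing, first order accuracy, sharp energy inequality.
-/

set_option autoImplicit false

open MeasureTheory Metric Set Filter Topology
open scoped ContDiff

namespace Crest.Agent.R144.Lat549

open Crest.ProbabilityR.HexHeights Crest.Agent.R144.HexTil353 Crest.Agent.R144.Geo268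
  Crest.Agent.R144.Con549

noncomputable section

/-- real inner product of the plane -/
def ip (a b : ℂ) : ℝ := a.re * b.re + a.im * b.im

theorem ip_add (a b c : ℂ) : ip (a + b) c = ip a c + ip b c := by simp [ip]; ring

theorem ip_sub (a b c : ℂ) : ip (a - b) c = ip a c - ip b c := by simp [ip]; ring

theorem ip_neg (a c : ℂ) : ip (-a) c = -ip a c := by simp [ip]; ring

theorem ip_zero (c : ℂ) : ip 0 c = 0 := by simp [ip]

theorem abs_ip_le (a b : ℂ) : |ip a b| ≤ ‖a‖ * ‖b‖ := by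
  have h1 : ip a b = (starRingEnd ℂ a * b).re := by simp [ip]
  rw [h1]
  refine (Complex.abs_re_le_norm _).trans ?_
  rw [norm_mul, RCLike.norm_conj]

theorem ed_re (k : Fin 3) : (ed k).re = ![1, 1 / 2, 1 / 2] k := by
  unfold ed
  rw [cen_re]
  fin_cases k <;> simp [dr]
  norm_num

theorem ed_im (k : Fin 3) : (ed k).im = ![0, Real.sqrt 3 / 2, -(Real.sqrt 3 / 2)] k := by
  unfold ed
  rw [cen_im]
  fin_cases k <;> simp [dr]

theorem norm_ed (k : Fin 3) : ‖ed k‖ = 1 := by
  have h1 : ‖ed k‖ ^ 2 = 1 := by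
    unfold ed
    rw [norm_cen_sq]
    fin_cases k <;> simp [dr, N]
  have h2 := norm_nonneg (ed k)
  nlinarith

theorem cen_dr (δ : ℝ) (k : Fin 3) : cen δ (dr k).1 (dr k).2 = (δ : ℂ) * ed k := by
  unfold ed cen
  push_cast
  ring

theorem centre_d (δ : ℝ) (k : Fin 3) : centre δ (d k) = (δ : ℂ) * ed k := by
  rw [centre_eq, ← cen_dr, dr_eq]

theorem centre_add (δ : ℝ) (u v : ℤ × ℤ) : centre δ (u + v) = centre δ u + centre δ v := by
  simp only [centre_eq, cen_add, Prod.fst_add, Prod.snd_add]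
  push_cast
  rfl

/-- `∑ ⟪a, e_k⟫² = (3/2) |a|²` -/
theorem sum_ip_sq (a : ℂ) : ∑ k, ip a (ed k) ^ 2 = 3 / 2 * ‖a‖ ^ 2 := by
  rw [← Complex.normSq_eq_norm_sq, Complex.normSq_apply, Fin.sum_univ_three]
  simp only [ip, ed_re, ed_im]
  have h3 : Real.sqrt 3 * Real.sqrt 3 = 3 := Real.mul_self_sqrt (by norm_num)
  simp
  linear_combination (a.im ^ 2 / 2) * h3

/-- `∑ ⟪L e_k, e_k⟫ = (3/2) tr L` -/
theorem sum_ip_lin (L : ℂ →L[ℝ] ℂ) :
    ∑ k, ip (L (ed k)) (ed k) = 3 / 2 * ((L 1).re + (L Complex.I).im) := by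
  have h1 : ∀ v : ℂ, L v = v.re • L 1 + v.im • L Complex.I := by
    intro v
    have h1 : v = v.re • (1 : ℂ) + v.im • Complex.I := by
      apply Complex.ext <;> simp
    conv_lhs => rw [h1]
    rw [map_add, map_smul, map_smul]
  rw [Fin.sum_univ_three]
  simp only [h1 (ed _), ip, Complex.add_re, Complex.add_im, Complex.smul_re, Complex.smul_im,
    ed_re, ed_im]
  have h3 : Real.sqrt 3 * Real.sqrt 3 = 3 := Real.mul_self_sqrt (by norm_num)
  simp
  linear_combination ((L Complex.I).im / 2) * h3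

/-- point of the rhombus with lattice coordinates `p` relative to `v` -/
def pt (δ : ℝ) (v : ℤ × ℤ) (p : ℝ × ℝ) : ℂ := cen δ (v.1 + p.1) (v.2 + p.2)

theorem pt_eq (δ : ℝ) (v : ℤ × ℤ) (p : ℝ × ℝ) : pt δ v p = centre δ v + cen δ p.1 p.2 := by
  rw [pt, centre_eq, cen_add]

theorem norm_pt_sub {δ : ℝ} (hδ : 0 ≤ δ) (v : ℤ × ℤ) {p : ℝ × ℝ} (h1 : |p.1| ≤ 1)
    (h2 : |p.2| ≤ 1) : ‖pt δ v p - centre δ v‖ ≤ 2 * δ := by
  rw [pt_eq, add_sub_cancel_left]
  exact norm_cen_le hδ h1 h2

theorem pt_sub_dr (δ : ℝ) (v : ℤ × ℤ) (k : Fin 3) (p : ℝ × ℝ) :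
    pt δ v (p - dr k) = pt δ (v - d k) p := by
  unfold pt
  rw [dr_eq]
  simp only [Prod.fst_sub, Prod.snd_sub]
  push_cast
  ring_nf

theorem continuous_pt (δ : ℝ) (v : ℤ × ℤ) : Continuous (pt δ v) := by
  unfold pt cen
  fun_prop

theorem contDiff_pt (δ : ℝ) (v : ℤ × ℤ) : ContDiff ℝ ∞ (pt δ v) := by
  unfold pt cen
  have h1 : ContDiff ℝ ∞ fun p : ℝ × ℝ => (((v.1 : ℝ) + p.1 : ℝ) : ℂ) :=
    Complex.ofRealCLM.contDiff.comp (contDiff_const.add contDiff_fst)
  have h2 : ContDiff ℝ ∞ fun p : ℝ × ℝ => (((v.2 : ℝ) + p.2 : ℝ) : ℂ) :=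
    Complex.ofRealCLM.contDiff.comp (contDiff_const.add contDiff_snd)
  exact contDiff_const.mul (h1.add (h2.mul contDiff_const))

/-- the flow of `J` along the edge `v → v + d k` -/
def latF (δ : ℝ) (J : ℂ → ℂ) (k : Fin 3) (v : ℤ × ℤ) : ℝ :=
  δ / Real.sqrt 3 * ∫ p in R k, ip (J (pt δ v p)) (ed k)

theorem R_sub_ball (k : Fin 3) : R k ⊆ closedBall 0 1 := by
  intro p hp
  rw [mem_closedBall_zero_iff, Prod.norm_def, Real.norm_eq_abs, Real.norm_eq_abs]
  exact max_le (R_bound hp).1 (R_bound hp).2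

theorem volR (k : Fin 3) : (volume : Measure (ℝ × ℝ)).real (R k) = 1 := by
  rw [Measure.real, volume_R, ENNReal.toReal_one]

theorem integrableOn_R {k : Fin 3} {g : ℝ × ℝ → ℝ} (hg : Continuous g) : IntegrableOn g (R k) :=
  (hg.continuousOn.integrableOn_compact (isCompact_closedBall (0 : ℝ × ℝ) 1)).mono_set
    (R_sub_ball k)

theorem hcs_tent : HasCompactSupport fun p : ℝ × ℝ => tent p.1 p.2 := by
  refine HasCompactSupport.of_support_subset_isCompact (isCompact_closedBall (0 : ℝ × ℝ) 1) ?_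
  intro p hp
  have h1 := ker_tent.supp p hp
  rw [mem_closedBall_zero_iff, Prod.norm_def, Real.norm_eq_abs, Real.norm_eq_abs]
  exact max_le h1.1 h1.2

theorem continuous_ip {α : Type*} [TopologicalSpace α] {g : α → ℂ} (hg : Continuous g) (c : ℂ) :
    Continuous fun x => ip (g x) c := by
  unfold ip
  exact ((Complex.continuous_re.comp hg).mul continuous_const).add
    ((Complex.continuous_im.comp hg).mul continuous_const)

/-- exact discrete divergence -/
theorem latF_div {δ : ℝ} {J : ℂ → ℂ} (hJ : ContDiff ℝ ∞ J) {f : ℂ → ℝ} {v : ℤ × ℤ} (hδ : 0 < δ)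
    (hdv : ∀ z ∈ closedBall (centre δ v) (2 * δ), dv J z = f z) :
    ∑ k, (latF δ J k v - latF δ J k (v - d k)) = wK (fun p => tent p.1 p.2) δ f v := by
  set g : Fin 3 → ℝ × ℝ → ℝ := fun k p => ip (J (pt δ v p)) (ed k) with hg
  have hJp : ContDiff ℝ ∞ fun p => J (pt δ v p) := hJ.comp (contDiff_pt δ v)
  have hgs : ∀ k, ContDiff ℝ 1 (g k) := by
    intro k
    have h1 : ContDiff ℝ ∞ (g k) := by
      simp only [hg, ip]
      exact ((Complex.reCLM.contDiff.comp hJp).mul contDiff_const).add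
        ((Complex.imCLM.contDiff.comp hJp).mul contDiff_const)
    exact h1.of_le (by norm_cast)
  have hder : ∀ k p, fderiv ℝ (g k) p (dr k) =
      δ * ip (fderiv ℝ J (pt δ v p) (ed k)) (ed k) := by
    intro k p
    have h1 : HasFDerivAt (pt δ v) (fderiv ℝ (pt δ v) p) p :=
      ((contDiff_pt δ v).differentiable (by simp) p).hasFDerivAt
    have h2 : fderiv ℝ (pt δ v) p (dr k) = (δ : ℂ) * ed k := by
      have h3 : HasDerivAt (fun s : ℝ => pt δ v (p + s • dr k)) (fderiv ℝ (pt δ v) p (dr k)) 0 := by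
        have h4 : HasDerivAt (fun s : ℝ => p + s • dr k) (dr k) 0 := by
          have := ((hasDerivAt_id (0 : ℝ)).smul_const (dr k)).const_add p
          simpa using this
        have h5 : HasFDerivAt (pt δ v) (fderiv ℝ (pt δ v) p) (p + (0 : ℝ) • dr k) := by
          simpa using h1
        exact h5.comp_hasDerivAt (0 : ℝ) h4
      have h6 : (fun s : ℝ => pt δ v (p + s • dr k)) =
          fun s : ℝ => pt δ v p + (s : ℂ) * ((δ : ℂ) * ed k) := by
        funext s
        rw [← cen_dr]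
        unfold pt cen
        simp only [Prod.fst_add, Prod.snd_add, Prod.smul_fst, Prod.smul_snd, smul_eq_mul]
        push_cast
        ring
      have h7 : HasDerivAt (fun s : ℝ => pt δ v p + (s : ℂ) * ((δ : ℂ) * ed k))
          ((δ : ℂ) * ed k) 0 := by
        have h8 : HasDerivAt (fun s : ℝ => (s : ℂ)) 1 0 := by
          exact_mod_cast Complex.ofRealCLM.hasDerivAt (x := (0 : ℝ))
        have := (h8.mul_const ((δ : ℂ) * ed k)).const_add (pt δ v p)
        simpa using this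
      rw [h6] at h3
      exact h3.unique h7
    have h3 : HasFDerivAt (fun p => J (pt δ v p))
        ((fderiv ℝ J (pt δ v p)).comp (fderiv ℝ (pt δ v) p)) p :=
      ((hJ.differentiable (by simp) _).hasFDerivAt).comp p h1
    have h4 : HasFDerivAt (g k) ((ed k).re • (Complex.reCLM.comp
        ((fderiv ℝ J (pt δ v p)).comp (fderiv ℝ (pt δ v) p))) + (ed k).im • (Complex.imCLM.comp
        ((fderiv ℝ J (pt δ v p)).comp (fderiv ℝ (pt δ v) p)))) p := by
      exact ((Complex.reCLM.hasFDerivAt.comp p h3).mul_const _).add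
        ((Complex.imCLM.hasFDerivAt.comp p h3).mul_const _)
    rw [h4.fderiv]
    simp only [add_apply, smul_apply,
      ContinuousLinearMap.comp_apply, h2, Complex.reCLM_apply, Complex.imCLM_apply, smul_eq_mul]
    have h5 : (δ : ℂ) * ed k = δ • ed k := by rw [Complex.real_smul]
    rw [h5, map_smul]
    simp only [ip, Complex.smul_re, Complex.smul_im, smul_eq_mul]
    ring
  have hsum : ∀ k, (∫ p in R k, g k p) - ∫ p in R k, g k (p - dr k) =
      ∫ p, fderiv ℝ (g k) p (dr k) * tent p.1 p.2 := fun k => (ibp k (hgs k)).symm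
  have hint : ∀ k ∈ (Finset.univ : Finset (Fin 3)),
      Integrable fun p => fderiv ℝ (g k) p (dr k) * tent p.1 p.2 := by
    intro k _
    refine Continuous.integrable_of_hasCompactSupport ?_ hcs_tent.mul_left
    exact (((hgs k).continuous_fderiv (by simp)).clm_apply continuous_const).mul continuous_tent
  have e1 : ∑ k, (latF δ J k v - latF δ J k (v - d k)) =
      δ / Real.sqrt 3 * ∑ k, ∫ p, fderiv ℝ (g k) p (dr k) * tent p.1 p.2 := by
    rw [Finset.mul_sum]
    refine Finset.sum_congr rfl fun k _ => ?_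
    rw [← hsum k]
    unfold latF
    rw [mul_sub]
    congr 2
    refine setIntegral_congr_fun (measurableSet_R k) fun p _ => ?_
    simp only [hg]
    rw [pt_sub_dr]
  rw [e1, ← integral_finsetSum _ hint]
  have e2 : ∫ p : ℝ × ℝ, ∑ k, fderiv ℝ (g k) p (dr k) * tent p.1 p.2 =
      ∫ p : ℝ × ℝ, (3 / 2 * δ) * (f (pt δ v p) * tent p.1 p.2) := by
    congr 1
    funext p
    by_cases hp : tent p.1 p.2 = 0
    · simp [hp]
    · have h1 := ker_tent.supp p hp
      have h2 : pt δ v p ∈ closedBall (centre δ v) (2 * δ) := by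
        rw [mem_closedBall, dist_eq_norm]
        exact norm_pt_sub hδ.le v h1.1 h1.2
      rw [← Finset.sum_mul, Finset.sum_congr rfl fun k _ => hder k p, ← Finset.mul_sum, sum_ip_lin,
        ← hdv _ h2]
      unfold dv
      ring
  rw [e2, integral_const_mul]
  unfold wK
  have h3 : Real.sqrt 3 * Real.sqrt 3 = 3 := Real.mul_self_sqrt (by norm_num)
  have h4 : δ / Real.sqrt 3 * (3 / 2 * δ) = Real.sqrt 3 / 2 * δ ^ 2 := by
    have h5 : Real.sqrt 3 ≠ 0 := by positivity
    field_simp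
    linear_combination -h3
  rw [← h4]
  unfold pt
  ring

/-- pointwise bound -/
theorem latF_le {δ : ℝ} (hδ : 0 ≤ δ) {J : ℂ → ℂ} {v : ℤ × ℤ} {B : ℝ}
    (hB : ∀ z ∈ closedBall (centre δ v) (2 * δ), ‖J z‖ ≤ B) (k : Fin 3) :
    |latF δ J k v| ≤ δ / Real.sqrt 3 * B := by
  unfold latF
  rw [abs_mul, abs_of_nonneg (by positivity)]
  gcongr
  have h1 : ‖∫ p in R k, ip (J (pt δ v p)) (ed k)‖ ≤
      B * (volume : Measure (ℝ × ℝ)).real (R k) := by
    refine norm_setIntegral_le_of_norm_le_const (by rw [volume_R]; exact ENNReal.one_lt_top)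
      fun p hp => ?_
    rw [Real.norm_eq_abs]
    refine (abs_ip_le _ _).trans ?_
    rw [norm_ed, mul_one]
    refine hB _ ?_
    rw [mem_closedBall, dist_eq_norm]
    exact norm_pt_sub hδ v (R_bound hp).1 (R_bound hp).2
  rwa [volR, mul_one, Real.norm_eq_abs] at h1

theorem latF_eq_zero {δ : ℝ} (hδ : 0 ≤ δ) {J : ℂ → ℂ} {v : ℤ × ℤ}
    (hB : ∀ z ∈ closedBall (centre δ v) (2 * δ), J z = 0) (k : Fin 3) :
    latF δ J k v = 0 := by
  have h := latF_le hδ (J := J) (v := v) (B := 0) (fun z hz => by rw [hB z hz, norm_zero]) k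
  rw [mul_zero] at h
  exact abs_nonpos_iff.1 h

/-- first order accuracy -/
theorem latF_approx {δ : ℝ} (hδ : 0 ≤ δ) {J : ℂ → ℂ} (hJ : Continuous J) {L : ℝ}
    (hL : ∀ z w, ‖J z - J w‖ ≤ L * ‖z - w‖) (k : Fin 3) (v : ℤ × ℤ) {m : ℂ}
    (hm : ‖m - centre δ v‖ ≤ 2 * δ) :
    |latF δ J k v - δ / Real.sqrt 3 * ip (J m) (ed k)| ≤ δ / Real.sqrt 3 * (L * (4 * δ)) := by
  have hL0 : 0 ≤ L := by
    have := hL 0 1
    rw [zero_sub, norm_neg, norm_one, mul_one] at this
    exact (norm_nonneg _).trans this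
  have h1 : latF δ J k v - δ / Real.sqrt 3 * ip (J m) (ed k) =
      δ / Real.sqrt 3 * ∫ p in R k, (ip (J (pt δ v p)) (ed k) - ip (J m) (ed k)) := by
    have i1 : IntegrableOn (fun p => ip (J (pt δ v p)) (ed k)) (R k) :=
      integrableOn_R (continuous_ip (hJ.comp (continuous_pt δ v)) _)
    have i2 : IntegrableOn (fun _ : ℝ × ℝ => ip (J m) (ed k)) (R k) :=
      integrableOn_const (by rw [volume_R]; exact ENNReal.one_ne_top)
    unfold latF
    rw [integral_sub i1 i2, setIntegral_const, volR, one_smul]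
    ring
  rw [h1, abs_mul, abs_of_nonneg (by positivity)]
  gcongr
  have h2 : ‖∫ p in R k, (ip (J (pt δ v p)) (ed k) - ip (J m) (ed k))‖ ≤
      L * (4 * δ) * (volume : Measure (ℝ × ℝ)).real (R k) := by
    refine norm_setIntegral_le_of_norm_le_const (by rw [volume_R]; exact ENNReal.one_lt_top)
      fun p hp => ?_
    rw [Real.norm_eq_abs, ← ip_sub]
    refine (abs_ip_le _ _).trans ?_
    rw [norm_ed, mul_one]
    refine (hL _ _).trans ?_
    gcongr
    have h3 := norm_pt_sub hδ v (R_bound hp).1 (R_bound hp).2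
    have h4 : pt δ v p - m = (pt δ v p - centre δ v) - (m - centre δ v) := by ring
    rw [h4]
    refine (norm_sub_le _ _).trans ?_
    linarith
  rwa [volR, mul_one, Real.norm_eq_abs] at h2

end

end Crest.Agent.R144.Lat549
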