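import Crest.Agent.R144.Lat2_549

/-!
# R144, lattice flow, part 3 (helper549)

Sharp energy inequality `∑ F² ≤ (1/√3) ∫_N |J|²` and summation by parts.
-/

set_option autoImplicit false

open MeasureTheory Metric Set Filter Topology
open scoped ContDiff

namespace Crest.Agent.R144.Lat549

open Crest.ProbabilityR.HexHeights Crest.Agent.R144.HexTil353 Crest.Agent.R144.Geo268
  Crest.Agent.R144.Con549

noncomputable section

/-- lattice point as a real vector -/
def vr (v : ℤ × ℤ) : ℝ × ℝ := ((v.1 : ℝ), (v.2 : ℝ))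

theorem int_Ico {a b : ℤ} {x c : ℝ} (h1 : x - a ∈ Ico c (c + 1)) (h2 : x - b ∈ Ico c (c + 1)) :
    a = b := by
  have h3 : ((a - b : ℤ) : ℝ) < 1 := by
    push_cast
    linarith [h1.1, h2.2]
  have h4 : ((b - a : ℤ) : ℝ) < 1 := by
    push_cast
    linarith [h1.2, h2.1]
  have h5 : a - b < 1 := by exact_mod_cast h3
  have h6 : b - a < 1 := by exact_mod_cast h4
  omega

theorem R_unique (k : Fin 3) {q : ℝ × ℝ} {v v' : ℤ × ℤ} (h : q - vr v ∈ R k)
    (h' : q - vr v' ∈ R k) : v = v' := by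
  obtain ⟨h1, h2⟩ := h
  obtain ⟨h3, h4⟩ := h'
  have e1 : (-1 : ℝ) + 1 = 0 := by norm_num
  have e0 : (0 : ℝ) + 1 = 1 := by norm_num
  fin_cases k
  · simp only [al, be, vr, Fin.zero_eta, Matrix.cons_val_zero, Prod.fst_sub, Prod.snd_sub] at h1 h2 h3 h4
    have a1 : v.1 = v'.1 := int_Ico (c := 0) (by rw [e0]; exact h1) (by rw [e0]; exact h3)
    have a2 : -(v.1 + v.2) = -(v'.1 + v'.2) := by
      refine int_Ico (x := -(q.1 + q.2)) (c := -1) ?_ ?_
      · rw [e1]; push_cast; convert h2 using 1; ring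
      · rw [e1]; push_cast; convert h4 using 1; ring
    ext <;> omega
  · simp only [al, be, vr, Fin.mk_one, Matrix.cons_val_one, Matrix.cons_val_zero, Prod.fst_sub,
      Prod.snd_sub] at h1 h2 h3 h4
    have a1 : v.2 = v'.2 := int_Ico (c := 0) (by rw [e0]; exact h1) (by rw [e0]; exact h3)
    have a2 : -(v.1 + v.2) = -(v'.1 + v'.2) := by
      refine int_Ico (x := -(q.1 + q.2)) (c := -1) ?_ ?_
      · rw [e1]; push_cast; convert h2 using 1; ring
      · rw [e1]; push_cast; convert h4 using 1; ring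
    ext <;> omega
  · have h1' : q.1 - (v.1 : ℝ) ∈ Ico (0 : ℝ) 1 := h1
    have h3' : q.1 - (v'.1 : ℝ) ∈ Ico (0 : ℝ) 1 := h3
    have h2' : q.2 - (v.2 : ℝ) ∈ Ico (-1 : ℝ) 0 := h2
    have h4' : q.2 - (v'.2 : ℝ) ∈ Ico (-1 : ℝ) 0 := h4
    have a1 : v.1 = v'.1 := int_Ico (c := 0) (by rw [e0]; exact h1') (by rw [e0]; exact h3')
    have a2 : v.2 = v'.2 := int_Ico (c := -1) (by rw [e1]; exact h2') (by rw [e1]; exact h4')
    ext
    · exact a1
    · exact a2

/-- the set `N` in lattice coordinates -/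
def NN (δ : ℝ) (N : Set ℂ) : Set (ℝ × ℝ) := {q | cen δ q.1 q.2 ∈ N}

theorem continuous_cen (δ : ℝ) : Continuous fun q : ℝ × ℝ => cen δ q.1 q.2 := by
  unfold cen
  fun_prop

theorem NN_sub {δ : ℝ} (hδ : 0 < δ) {N : Set ℂ} (hN : Bornology.IsBounded N) :
    ∃ K : Set (ℝ × ℝ), IsCompact K ∧ NN δ N ⊆ K := by
  refine ⟨(fun z => (ca δ z, cb δ z)) '' closure N,
    hN.isCompact_closure.image ((continuous_ca δ).prodMk (continuous_cb δ)), fun q hq => ?_⟩
  refine ⟨cen δ q.1 q.2, subset_closure hq, ?_⟩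
  simp only [ca_cen hδ, cb_cen hδ]

theorem measurableSet_NN (δ : ℝ) {N : Set ℂ} (hN : MeasurableSet N) : MeasurableSet (NN δ N) :=
  (continuous_cen δ).measurable hN

/-- one direction -/
theorem sum_sq_le {δ : ℝ} (hδ : 0 < δ) {J : ℂ → ℂ} (hJ : Continuous J) {N : Set ℂ}
    (hNm : MeasurableSet N) (hNb : Bornology.IsBounded N) (k : Fin 3) (S : Finset (ℤ × ℤ))
    (hS : ∀ v ∈ S, ∀ p ∈ R k, pt δ v p ∈ N) :
    ∑ v ∈ S, latF δ J k v ^ 2 ≤
      δ ^ 2 / 3 * ∫ q in NN δ N, ip (J (cen δ q.1 q.2)) (ed k) ^ 2 := by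
  set G : ℝ × ℝ → ℝ := fun q => ip (J (cen δ q.1 q.2)) (ed k) with hG
  have hGc : Continuous G := continuous_ip (hJ.comp (continuous_cen δ)) _
  obtain ⟨K, hK, hNK⟩ := NN_sub hδ hNb
  have hGi : IntegrableOn (fun q => G q ^ 2) (NN δ N) :=
    ((hGc.pow 2).continuousOn.integrableOn_compact hK).mono_set hNK
  have hNNm := measurableSet_NN δ hNm
  have hpt : ∀ v p, J (pt δ v p) = J (cen δ (vr v + p).1 (vr v + p).2) := by
    intro v p
    rfl
  -- one edge
  have h1 : ∀ v ∈ S, latF δ J k v ^ 2 ≤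
      δ ^ 2 / 3 * ∫ q, (R k).indicator (fun _ => (1 : ℝ)) (q - vr v) * G q ^ 2 := by
    intro v _
    set g : ℝ × ℝ → ℝ := fun p => ip (J (pt δ v p)) (ed k) with hg
    have hgc : Continuous g := continuous_ip (hJ.comp (continuous_pt δ v)) _
    have i1 : IntegrableOn g (R k) := integrableOn_R hgc
    have i2 : IntegrableOn (fun p => g p ^ 2) (R k) := integrableOn_R (hgc.pow 2)
    have i3 : ∀ c : ℝ, IntegrableOn (fun _ : ℝ × ℝ => c) (R k) := fun c =>
      integrableOn_const (by rw [volume_R]; exact ENNReal.one_ne_top)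
    have h2 : (∫ p in R k, g p) ^ 2 ≤ ∫ p in R k, g p ^ 2 := by
      set c := ∫ p in R k, g p with hc
      have h3 : 0 ≤ ∫ p in R k, (g p - c) ^ 2 := integral_nonneg fun p => sq_nonneg _
      have h4 : ∫ p in R k, (g p - c) ^ 2 = (∫ p in R k, g p ^ 2) - 2 * c * c + c ^ 2 := by
        have h5 : (fun p => (g p - c) ^ 2) = fun p => (g p ^ 2 - 2 * c * g p) + c ^ 2 := by
          funext p; ring
        have i4 : IntegrableOn (fun p => 2 * c * g p) (R k) := i1.const_mul _
        have i5 : IntegrableOn (fun p => g p ^ 2 - 2 * c * g p) (R k) := i2.sub i4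
        rw [h5, integral_add i5 (i3 _), integral_sub i2 i4,
          integral_const_mul, setIntegral_const, volR, one_smul]
      rw [h4] at h3
      nlinarith
    have h3 : ∫ p in R k, g p ^ 2 =
        ∫ q, (R k).indicator (fun _ => (1 : ℝ)) (q - vr v) * G q ^ 2 := by
      rw [← integral_indicator (measurableSet_R k),
        ← integral_sub_right_eq_self (μ := (volume : Measure (ℝ × ℝ)))
          ((R k).indicator fun p => g p ^ 2) (vr v)]
      congr 1
      funext q
      have h4 : g (q - vr v) = G q := by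
        simp only [hg, hG, hpt, add_sub_cancel]
      by_cases hq : q - vr v ∈ R k
      · rw [indicator_of_mem hq, indicator_of_mem hq, h4, one_mul]
      · rw [indicator_of_notMem hq, indicator_of_notMem hq, zero_mul]
    have h4 : latF δ J k v ^ 2 = δ ^ 2 / 3 * (∫ p in R k, g p) ^ 2 := by
      unfold latF
      rw [mul_pow, div_pow, Real.sq_sqrt (by norm_num)]
    rw [h4, ← h3]
    gcongr
  refine (Finset.sum_le_sum h1).trans ?_
  rw [← Finset.mul_sum]
  gcongr
  have hind : ∀ v : ℤ × ℤ, Measurable fun q : ℝ × ℝ =>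
      (R k).indicator (fun _ => (1 : ℝ)) (q - vr v) := fun v =>
    (measurable_const.indicator (measurableSet_R k)).comp (measurable_sub_const _)
  have hle : ∀ q, ∑ v ∈ S, (R k).indicator (fun _ => (1 : ℝ)) (q - vr v) * G q ^ 2 ≤
      (NN δ N).indicator (fun q => G q ^ 2) q := by
    intro q
    rw [← Finset.sum_mul]
    by_cases hq : ∃ v ∈ S, q - vr v ∈ R k
    · obtain ⟨v, hv, hvq⟩ := hq
      have h2 : ∑ v ∈ S, (R k).indicator (fun _ => (1 : ℝ)) (q - vr v) = 1 := by
        rw [Finset.sum_eq_single v]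
        · exact indicator_of_mem hvq _
        · intro v' _ hne
          refine indicator_of_notMem (fun h => hne ?_) _
          exact R_unique k h hvq
        · intro h; exact absurd hv h
      have h3 : q ∈ NN δ N := by
        have h4 := hS v hv _ hvq
        have h5 : pt δ v (q - vr v) = cen δ q.1 q.2 := by
          have : vr v + (q - vr v) = q := by abel
          calc pt δ v (q - vr v) = cen δ (vr v + (q - vr v)).1 (vr v + (q - vr v)).2 := rfl
            _ = _ := by rw [this]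
        rw [h5] at h4
        exact h4
      rw [h2, indicator_of_mem h3, one_mul]
    · push Not at hq
      have h2 : ∑ v ∈ S, (R k).indicator (fun _ => (1 : ℝ)) (q - vr v) = 0 :=
        Finset.sum_eq_zero fun v hv => indicator_of_notMem (hq v hv) _
      rw [h2, zero_mul]
      exact indicator_nonneg (fun _ _ => sq_nonneg _) _
  have hindi : Integrable ((NN δ N).indicator fun q => G q ^ 2) :=
    (integrable_indicator_iff hNNm).2 hGi
  have hti : ∀ v ∈ S, Integrable fun q =>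
      (R k).indicator (fun _ => (1 : ℝ)) (q - vr v) * G q ^ 2 := by
    intro v hv
    refine hindi.mono' ((hind v).mul ((hGc.pow 2).measurable)).aestronglyMeasurable
      (Eventually.of_forall fun q => ?_)
    have h2 : 0 ≤ (R k).indicator (fun _ => (1 : ℝ)) (q - vr v) * G q ^ 2 :=
      mul_nonneg (indicator_nonneg (fun _ _ => zero_le_one) _) (sq_nonneg _)
    rw [Real.norm_eq_abs, abs_of_nonneg h2]
    refine le_trans ?_ (hle q)
    exact Finset.single_le_sum (f := fun v => (R k).indicator (fun _ => (1 : ℝ)) (q - vr v) *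
      G q ^ 2) (fun v _ => mul_nonneg (indicator_nonneg (fun _ _ => zero_le_one) _)
        (sq_nonneg _)) hv
  rw [← integral_finsetSum _ hti, ← integral_indicator hNNm]
  exact integral_mono (integrable_finsetSum _ hti) hindi hle

/-- sharp energy inequality -/
theorem energy_le {δ : ℝ} (hδ : 0 < δ) {J : ℂ → ℂ} (hJ : Continuous J) {N : Set ℂ}
    (hNm : MeasurableSet N) (hNb : Bornology.IsBounded N) (S : Fin 3 → Finset (ℤ × ℤ))
    (hS : ∀ k, ∀ v ∈ S k, ∀ p ∈ R k, pt δ v p ∈ N) :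
    ∑ k, ∑ v ∈ S k, latF δ J k v ^ 2 ≤ 1 / Real.sqrt 3 * ∫ z in N, ‖J z‖ ^ 2 := by
  obtain ⟨K, hK, hNK⟩ := NN_sub hδ hNb
  have hNNm := measurableSet_NN δ hNm
  have hi : ∀ k ∈ (Finset.univ : Finset (Fin 3)),
      IntegrableOn (fun q : ℝ × ℝ => ip (J (cen δ q.1 q.2)) (ed k) ^ 2) (NN δ N) := fun k _ =>
    (((continuous_ip (hJ.comp (continuous_cen δ)) _).pow 2).continuousOn.integrableOn_compact
      hK).mono_set hNK
  have h1 := Finset.sum_le_sum fun k (_ : k ∈ (Finset.univ : Finset (Fin 3))) =>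
    sum_sq_le hδ hJ hNm hNb k (S k) (hS k)
  refine h1.trans (le_of_eq ?_)
  rw [← Finset.mul_sum, ← integral_finsetSum _ hi]
  simp only [sum_ip_sq]
  rw [integral_const_mul]
  have h2 : ∫ z in N, ‖J z‖ ^ 2 =
      (Real.sqrt 3 / 2 * δ ^ 2) * ∫ q in NN δ N, ‖J (cen δ q.1 q.2)‖ ^ 2 := by
    rw [← integral_indicator hNm, integral_cen hδ, smul_eq_mul, ← integral_indicator hNNm]
    rfl
  rw [h2]
  have h3 : Real.sqrt 3 ≠ 0 := by positivity
  field_simp

/-! ### summation by parts -/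

/-- starting points of the `k`-edges touching `S` -/
def edg (S : Finset (ℤ × ℤ)) (k : Fin 3) : Finset (ℤ × ℤ) := S ∪ S.image fun v => v - d k

theorem mem_edg {S : Finset (ℤ × ℤ)} {k : Fin 3} {v : ℤ × ℤ} :
    v ∈ edg S k ↔ v ∈ S ∨ v + d k ∈ S := by
  unfold edg
  rw [Finset.mem_union, Finset.mem_image]
  constructor
  · rintro (h | ⟨u, hu, rfl⟩)
    · exact Or.inl h
    · right; rwa [sub_add_cancel]
  · rintro (h | h)
    · exact Or.inl h
    · exact Or.inr ⟨v + d k, h, add_sub_cancel_right _ _⟩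

theorem sum_by_parts {F : Fin 3 → ℤ × ℤ → ℝ} {w Y : ℤ × ℤ → ℝ} {S : Finset (ℤ × ℤ)}
    (hY : ∀ v, v ∉ S → Y v = 0) (hw : ∀ v ∈ S, ∑ k, (F k v - F k (v - d k)) = w v) :
    ∑ v ∈ S, w v * Y v = ∑ k, ∑ v ∈ edg S k, F k v * (Y v - Y (v + d k)) := by
  have h1 : ∑ v ∈ S, w v * Y v = ∑ k, ∑ v ∈ S, (F k v - F k (v - d k)) * Y v := by
    rw [Finset.sum_comm]
    refine Finset.sum_congr rfl fun v hv => ?_
    rw [← hw v hv, Finset.sum_mul]
  rw [h1]
  refine Finset.sum_congr rfl fun k _ => ?_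
  have h2 : ∑ v ∈ S, F k v * Y v = ∑ v ∈ edg S k, F k v * Y v := by
    refine Finset.sum_subset (fun v hv => mem_edg.2 (Or.inl hv)) fun v _ hv => ?_
    rw [hY v hv, mul_zero]
  have h3 : ∑ v ∈ S, F k (v - d k) * Y v = ∑ v ∈ edg S k, F k v * Y (v + d k) := by
    have h4 : ∑ v ∈ S, F k (v - d k) * Y v =
        ∑ v ∈ S.image fun v => v - d k, F k v * Y (v + d k) := by
      rw [Finset.sum_image (fun a _ b _ h => sub_left_injective h)]
      refine Finset.sum_congr rfl fun v _ => ?_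
      rw [sub_add_cancel]
    rw [h4]
    refine Finset.sum_subset (fun v hv => Finset.mem_union_right _ hv) fun v _ hv => ?_
    rw [hY (v + d k), mul_zero]
    intro h
    exact hv (Finset.mem_image.2 ⟨v + d k, h, add_sub_cancel_right _ _⟩)
  simp only [sub_mul, mul_sub, Finset.sum_sub_distrib]
  rw [h2, h3]

end

end Crest.Agent.R144.Lat549
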