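import Crest.Agent.R144.Qs2_356

/-!
# R144, R2 (doc 1962), leaf L7: GEOMETRY OF BLOCKING LAYERS (helper356)

* `sepr_of_slabs` : three long crossings of `S` form a blocking `S`-layer;
* `mono_path` : a path of `S1 ∪ S2`, `S1` and `S2` not adjacent, lies in one of them;
* `exact_form` : closed 1-forms on the triangular lattice are exact;
* `janiszewski` : two non-adjacent sets, none of which separates `x` from `y`, do not separate;
* `Sepr.split` : a blocking `S1 ∪ S2` layer is a blocking `S1` layer or a blocking `S2` layer;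
* `Sepr.compl_union`.
-/

set_option autoImplicit false

namespace Crest.Agent.R144.Lay356

open Crest.Agent.R144.It844 (P2 adj_iff adj_symm)
open Crest.Agent.R144.Zg349 (StepIn IsConn)
open Crest.Agent.R144.Rsw867
open Crest.Agent.R144.Pst967 (stepIn_symm path_symm)
open Crest.ProbabilityR.HexHeights (Adj)
open Crest.Agent.R144.Qs356

/-- three long crossings of `S` form a blocking `S`-layer -/
theorem sepr_of_slabs {S : Set P2} {z : P2} {n t : ℕ} (ht : n + 2 ≤ t) (h : Slabs z n t S) :
    Sepr S z n (2 * (n + 1 + t)) := by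
  intro u v hu hv p
  have h' : Slabs z n t (Sᶜ)ᶜ := by rw [compl_compl]; exact h
  exact hu (slabs_block ht h' subset_rfl (path_symm p) hv)

/-- `S1` and `S2` are disjoint and not adjacent -/
def Far (S1 S2 : Set P2) : Prop := ∀ u ∈ S1, ∀ v ∈ S2, u ≠ v ∧ ¬ Adj u v

theorem Far.symm {S1 S2 : Set P2} (h : Far S1 S2) : Far S2 S1 := fun u hu v hv =>
  ⟨fun e => (h v hv u hu).1 e.symm, fun e => (h v hv u hu).2 (adj_symm e)⟩

theorem Far.mono {S1 S2 T1 T2 : Set P2} (h : Far S1 S2) (h1 : T1 ⊆ S1) (h2 : T2 ⊆ S2) : Far T1 T2 :=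
  fun u hu v hv => h u (h1 hu) v (h2 hv)

/-- a path in `S1 ∪ S2` stays in one of the two sets -/
theorem mono_path {S1 S2 : Set P2} (hd : Far S1 S2) {u v : P2} (hu : u ∈ S1)
    (p : Pth (S1 ∪ S2) u v) : v ∈ S1 ∧ Pth S1 u v := by
  induction p with
  | refl => exact ⟨hu, .refl⟩
  | @tail b c _ h ih =>
    obtain ⟨hb, hp⟩ := ih
    have hc : c ∈ S1 := by
      rcases h.2.1 with hc | hc
      · exact hc
      · exact absurd h.2.2 (hd b hb c hc).2
    exact ⟨hc, hp.tail ⟨hb, hc, h.2.2⟩⟩

theorem mono_path' {S1 S2 : Set P2} (hd : Far S1 S2) {u v : P2} (p : Pth (S1 ∪ S2) u v) :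
    Pth S1 u v ∨ Pth S2 u v := by
  by_cases huv : u = v
  · subst huv; exact Or.inl .refl
  · rcases path_left p huv with hu | hu
    · exact Or.inl (mono_path hd hu p).2
    · rw [Set.union_comm] at p
      exact Or.inr (mono_path hd.symm hu p).2

theorem Sepr.compl_union {S1 S2 : Set P2} (hd : Far S1 S2) {a : P2} {m N : ℕ}
    (h1 : Sepr S1ᶜ a m N) (h2 : Sepr S2ᶜ a m N) : Sepr (S1 ∪ S2)ᶜ a m N := by
  intro u v hu hv p
  rw [compl_compl] at p
  rcases mono_path' hd p with p | p
  · exact h1 u v hu hv (by rw [compl_compl]; exact p)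
  · exact h2 u v hu hv (by rw [compl_compl]; exact p)

/-! ### closed forms are exact -/

theorem ex_sum (f : ℤ → ℤ) : ∃ F : ℤ → ℤ, F 0 = 0 ∧ ∀ k, F (k + 1) = F k + f k := by
  refine ⟨fun k => ∑ i ∈ Finset.Ico 0 k, f i - ∑ i ∈ Finset.Ico k 0, f i, by simp, fun k => ?_⟩
  rcases le_or_gt 0 k with hk | hk
  · have e1 : Finset.Ico (k + 1) 0 = ∅ := Finset.Ico_eq_empty (by omega)
    have e2 : Finset.Ico k 0 = ∅ := Finset.Ico_eq_empty (by omega)
    have e3 : Finset.Ico 0 (k + 1) = insert k (Finset.Ico 0 k) := by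
      ext i; simp only [Finset.mem_insert, Finset.mem_Ico]; omega
    simp only [e1, e2, e3]
    rw [Finset.sum_insert (by simp)]
    simp only [Finset.sum_empty]
    ring
  · have e1 : Finset.Ico 0 (k + 1) = ∅ := Finset.Ico_eq_empty (by omega)
    have e2 : Finset.Ico 0 k = ∅ := Finset.Ico_eq_empty (by omega)
    have e3 : Finset.Ico k 0 = insert k (Finset.Ico (k + 1) 0) := by
      ext i; simp only [Finset.mem_insert, Finset.mem_Ico]; omega
    simp only [e1, e2, e3]
    rw [Finset.sum_insert (by simp)]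
    simp only [Finset.sum_empty]
    ring

/-- closed 1-forms on the triangular lattice are exact -/
theorem exact_form (α : P2 → P2 → ℤ) (anti : ∀ u v, Adj u v → α v u = - α u v)
    (up : ∀ i j, α (i, j) (i + 1, j) + α (i + 1, j) (i, j + 1) + α (i, j + 1) (i, j) = 0)
    (dn : ∀ i j, α (i + 1, j) (i + 1, j + 1) + α (i + 1, j + 1) (i, j + 1) +
      α (i, j + 1) (i + 1, j) = 0) :
    ∃ F : P2 → ℤ, ∀ u v, Adj u v → F v = F u + α u v := by
  obtain ⟨A, hA0, hA⟩ := ex_sum fun i => α (i, 0) (i + 1, 0)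
  choose G hG0 hG using fun i => ex_sum fun j => α (i, j) (i, j + 1)
  have ho : ∀ i j, A (i + 1) + G (i + 1) j = A i + G i j + α (i, j) (i + 1, j) := by
    intro i
    have step : ∀ j, (A (i + 1) + G (i + 1) (j + 1) - (A i + G i (j + 1) + α (i, j + 1) (i + 1, j + 1)))
        = A (i + 1) + G (i + 1) j - (A i + G i j + α (i, j) (i + 1, j)) := by
      intro j
      have h1 := hG i j
      have h2 := hG (i + 1) j
      have h3 := up i j
      have h4 := dn i j
      have h5 := anti (i, j) (i, j + 1) (adj_iff.2 (by simp))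
      have h6 := anti (i + 1, j) (i, j + 1) (adj_iff.2 (by simp))
      have h7 := anti (i, j + 1) (i + 1, j + 1) (adj_iff.2 (by simp))
      linarith
    have key : ∀ j : ℤ, A (i + 1) + G (i + 1) j - (A i + G i j + α (i, j) (i + 1, j)) = 0 := by
      intro j
      induction j using Int.induction_on with
      | zero => rw [hG0, hG0, hA i]; ring
      | succ k ih => rw [step, ih]
      | pred k ih =>
        have := step (-(k : ℤ) - 1)
        rw [sub_add_cancel] at this
        rw [← this, ih]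
    intro j
    have := key j
    linarith
  refine ⟨fun v => A v.1 + G v.1 v.2, ?_⟩
  have hh : ∀ i j, A (i + 1) + G (i + 1) j = A i + G i j + α (i, j) (i + 1, j) := ho
  have hv : ∀ i j, A i + G i (j + 1) = A i + G i j + α (i, j) (i, j + 1) := by
    intro i j
    have := hG i j
    linarith
  have hdg : ∀ i j, A i + G i (j + 1) = A (i + 1) + G (i + 1) j + α (i + 1, j) (i, j + 1) := by
    intro i j
    have h1 := hh i j
    have h2 := hv i j
    have h3 := up i j
    have h5 := anti (i, j) (i, j + 1) (adj_iff.2 (by simp))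
    linarith
  rintro ⟨i, j⟩ ⟨i', j'⟩ hadj
  show A i' + G i' j' = A i + G i j + α (i, j) (i', j')
  rcases adj_iff.1 hadj with h | h | h | h | h | h <;> simp only [Prod.mk.injEq] at h <;>
    obtain ⟨h1, h2⟩ := h
  · subst h1 h2; exact hh _ _
  · have e : i = i' + 1 := by omega
    subst h2
    subst e
    have h3 := hh i' j'
    have h4 := anti (i' + 1, j') (i', j') (adj_iff.2 (by simp))
    linarith
  · subst h1 h2; exact hv _ _
  · have e : j = j' + 1 := by omega
    subst h1
    subst e
    have h3 := hv i' j'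
    have h4 := anti (i', j' + 1) (i', j') (adj_iff.2 (by simp))
    linarith
  · have e : j = j' + 1 := by omega
    subst h1
    subst e
    have h3 := hdg i j'
    have h4 := anti (i, j' + 1) (i + 1, j') (adj_iff.2 (by simp))
    linarith
  · have e : i = i' + 1 := by omega
    subst h2
    subst e
    exact hdg i' j

/-! ### Janiszewski -/

open Classical in
/-- **Janiszewski on the triangular lattice** : if neither of the two non-adjacent sets `S1`, `S2`
separates `x` from `y` then `S1 ∪ S2` does not. -/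
theorem janiszewski {S1 S2 : Set P2} (hd : Far S1 S2) {x y : P2} (h1 : Pth S1ᶜ x y)
    (h2 : Pth S2ᶜ x y) : Pth (S1 ∪ S2)ᶜ x y := by
  set C : Set P2 := comp (S1 ∪ S2)ᶜ x with hC
  set g : P2 → ℤ := fun v => if v ∈ C then 1 else 0 with hg
  have gc : ∀ u v, u ∈ (S1 ∪ S2)ᶜ → v ∈ (S1 ∪ S2)ᶜ → Adj u v → g u = g v := by
    intro u v hu hv ha
    have : u ∈ C ↔ v ∈ C :=
      ⟨fun h => Relation.ReflTransGen.tail (show Pth _ x u from h) ⟨hu, hv, ha⟩,
        fun h => Relation.ReflTransGen.tail (show Pth _ x v from h) ⟨hv, hu, adj_symm ha⟩⟩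
    simp only [hg, this]
  set α : P2 → P2 → ℤ := fun u v => if u ∉ S2 ∧ v ∉ S2 then 0 else g v - g u with hα
  -- on edges off `S1`
  have hU : ∀ u v, u ∉ S1 → v ∉ S1 → Adj u v → α u v = g v - g u := by
    intro u v hu hv ha
    simp only [hα]
    split_ifs with h
    · rw [gc u v (fun hh => hh.elim hu h.1) (fun hh => hh.elim hv h.2) ha]; ring
    · rfl
  have hV : ∀ u v, u ∉ S2 → v ∉ S2 → α u v = 0 := by
    intro u v hu hv
    simp only [hα]
    rw [if_pos ⟨hu, hv⟩]
  -- a triangle lies off `S1` or off `S2`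
  have tri : ∀ u v w, Adj u v → Adj v w → Adj w u → α u v + α v w + α w u = 0 := by
    intro u v w h1 h2 h3
    by_cases hS : u ∈ S2 ∨ v ∈ S2 ∨ w ∈ S2
    · have hu : u ∉ S1 := by
        intro hu
        rcases hS with h | h | h
        · exact (hd u hu u h).1 rfl
        · exact (hd u hu v h).2 h1
        · exact (hd u hu w h).2 (adj_symm h3)
      have hv : v ∉ S1 := by
        intro hv
        rcases hS with h | h | h
        · exact (hd v hv u h).2 (adj_symm h1)
        · exact (hd v hv v h).1 rfl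
        · exact (hd v hv w h).2 h2
      have hw : w ∉ S1 := by
        intro hw
        rcases hS with h | h | h
        · exact (hd w hw u h).2 h3
        · exact (hd w hw v h).2 (adj_symm h2)
        · exact (hd w hw w h).1 rfl
      rw [hU u v hu hv h1, hU v w hv hw h2, hU w u hw hu h3]
      ring
    · push Not at hS
      rw [hV u v hS.1 hS.2.1, hV v w hS.2.1 hS.2.2, hV w u hS.2.2 hS.1]
      ring
  have anti : ∀ u v, Adj u v → α v u = - α u v := by
    intro u v _
    simp only [hα]
    by_cases h : u ∉ S2 ∧ v ∉ S2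
    · rw [if_pos h, if_pos ⟨h.2, h.1⟩]; ring
    · rw [if_neg h, if_neg (fun h' => h ⟨h'.2, h'.1⟩)]; ring
  obtain ⟨F, hF⟩ := exact_form α anti
    (fun i j => tri _ _ _ (adj_iff.2 (by simp)) (adj_iff.2 (by simp)) (adj_iff.2 (by simp)))
    (fun i j => tri _ _ _ (adj_iff.2 (by simp)) (adj_iff.2 (by simp)) (adj_iff.2 (by simp)))
  have e2 : F y = F x := by
    have : ∀ w, Pth S2ᶜ x w → F w = F x := by
      intro w hw
      induction hw with
      | refl => rfl
      | @tail b c _ h ih =>
        rw [hF b c h.2.2, ih, hV b c h.1 h.2.1, add_zero]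
    exact this y h2
  have e1 : F y - g y = F x - g x := by
    have : ∀ w, Pth S1ᶜ x w → F w - g w = F x - g x := by
      intro w hw
      induction hw with
      | refl => rfl
      | @tail b c _ h ih =>
        rw [hF b c h.2.2, hU b c h.1 h.2.1 h.2.2, ← ih]
        ring
    exact this y h1
  have hx : g x = 1 := by
    simp only [hg]
    rw [if_pos (comp_self _ _)]
  have hy : g y = 1 := by linarith
  by_contra hcon
  have : g y = 0 := by
    simp only [hg]
    rw [if_neg (show y ∉ C from hcon)]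
  omega

/-! ### blocking layers -/

theorem ball_step_in {a v : P2} {n : ℕ} (hv : v ∈ ball a (n + 1)) :
    v ∈ ball a n ∨ ∃ w ∈ ball a n, Adj v w := by
  by_cases h : v ∈ ball a n
  · exact Or.inl h
  right
  obtain ⟨p, q⟩ := v
  rw [mem_ball] at hv h
  simp only [abs_le] at hv h
  push_cast at hv
  rcases lt_or_ge (p - a.1) (-(n : ℤ)) with h1 | h1
  · rcases lt_or_ge 0 (q - a.2) with h2 | h2
    · refine ⟨(p + 1, q - 1), ?_, adj_iff.2 (by simp)⟩
      rw [mem_ball]; simp only [abs_le]; omega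
    · refine ⟨(p + 1, q), ?_, adj_iff.2 (by simp)⟩
      rw [mem_ball]; simp only [abs_le]; omega
  rcases lt_or_ge (n : ℤ) (p - a.1) with h2 | h2
  · rcases lt_or_ge (q - a.2) 0 with h3 | h3
    · refine ⟨(p - 1, q + 1), ?_, adj_iff.2 (by simp)⟩
      rw [mem_ball]; simp only [abs_le]; omega
    · refine ⟨(p - 1, q), ?_, adj_iff.2 (by simp)⟩
      rw [mem_ball]; simp only [abs_le]; omega
  rcases lt_or_ge (q - a.2) (-(n : ℤ)) with h3 | h3
  · refine ⟨(p, q + 1), ?_, adj_iff.2 (by simp)⟩
    rw [mem_ball]; simp only [abs_le]; omega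
  rcases lt_or_ge (n : ℤ) (q - a.2) with h4 | h4
  · refine ⟨(p, q - 1), ?_, adj_iff.2 (by simp)⟩
    rw [mem_ball]; simp only [abs_le]; omega
  rcases lt_or_ge (p - a.1 + (q - a.2)) (-(n : ℤ)) with h5 | h5
  · refine ⟨(p + 1, q), ?_, adj_iff.2 (by simp)⟩
    rw [mem_ball]; simp only [abs_le]; omega
  · refine ⟨(p - 1, q), ?_, adj_iff.2 (by simp)⟩
    rw [mem_ball]; simp only [abs_le]; omega

theorem ball_step_out {a u : P2} {n : ℕ} (hu : u ∉ ball a n) : ∃ w ∉ ball a (n + 1), Adj u w := by
  obtain ⟨p, q⟩ := u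
  rw [mem_ball] at hu
  simp only [abs_le] at hu
  by_cases h1 : p - a.1 < -(n : ℤ)
  · refine ⟨(p - 1, q), ?_, adj_iff.2 (by simp)⟩
    rw [mem_ball]; simp only [abs_le]; push_cast; omega
  by_cases h2 : (n : ℤ) < p - a.1
  · refine ⟨(p + 1, q), ?_, adj_iff.2 (by simp)⟩
    rw [mem_ball]; simp only [abs_le]; push_cast; omega
  by_cases h3 : q - a.2 < -(n : ℤ)
  · refine ⟨(p, q - 1), ?_, adj_iff.2 (by simp)⟩
    rw [mem_ball]; simp only [abs_le]; push_cast; omega
  by_cases h4 : (n : ℤ) < q - a.2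
  · refine ⟨(p, q + 1), ?_, adj_iff.2 (by simp)⟩
    rw [mem_ball]; simp only [abs_le]; push_cast; omega
  by_cases h5 : p - a.1 + (q - a.2) < -(n : ℤ)
  · refine ⟨(p - 1, q), ?_, adj_iff.2 (by simp)⟩
    rw [mem_ball]; simp only [abs_le]; push_cast; omega
  · refine ⟨(p + 1, q), ?_, adj_iff.2 (by simp)⟩
    rw [mem_ball]; simp only [abs_le]; push_cast; omega

theorem ball_path (a : P2) (n : ℕ) {v : P2} (hv : v ∈ ball a n) :
    Pth ((ball a n : Finset P2) : Set P2) v a := by
  induction n generalizing v with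
  | zero =>
    rw [mem_ball] at hv
    simp only [abs_le] at hv
    push_cast at hv
    have : v = a := by ext <;> omega
    rw [this]
  | succ n ih =>
    rcases ball_step_in hv with h | ⟨w, hw, ha⟩
    · exact path_mono (fun x hx => ball_mono a (Nat.le_succ n) hx) (ih h)
    · refine Relation.ReflTransGen.head ⟨hv, ball_mono a (Nat.le_succ n) hw, ha⟩ ?_
      exact path_mono (fun x hx => ball_mono a (Nat.le_succ n) hx) (ih hw)

/-- the annulus seen by blocking layers -/
def Rg (a : P2) (m N : ℕ) : Set P2 := {t | t ∈ ball a (N + 1) ∧ ∀ k : ℕ, k + 1 ≤ m → t ∉ ball a k}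

/-- extension of a radial path to the centre and to infinity -/
theorem extend {S : Set P2} {a x u v : P2} {m N : ℕ} (hmN : m ≤ N) (hS : S ⊆ Rg a m N)
    (hx : x ∉ ball a (N + 1)) (hu : u ∉ ball a N) (hv : v ∈ ball a m) (p : Pth Sᶜ u v) :
    Pth Sᶜ x a := by
  have hne : u ≠ v := by
    rintro rfl
    exact hu (ball_mono a hmN hv)
  have hout : ((ball a (N + 1) : Finset P2) : Set P2)ᶜ ⊆ Sᶜ := fun w hw hw' => hw (hS hw').1
  have p1 : Pth Sᶜ x u := by
    by_cases h : u ∈ ball a (N + 1)
    · obtain ⟨w, hw, ha⟩ := ball_step_out hu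
      have q := path_mono hout (sc_ball a (N + 1) x hx w hw)
      exact q.tail ⟨hout hw, path_left p hne, adj_symm ha⟩
    · exact path_mono hout (sc_ball a (N + 1) x hx u h)
  have p2 : Pth Sᶜ v a := by
    cases m with
    | zero =>
      rw [mem_ball] at hv
      simp only [abs_le] at hv
      push_cast at hv
      have : v = a := by ext <;> omega
      rw [this]
    | succ m =>
      have hin : ((ball a m : Finset P2) : Set P2) ⊆ Sᶜ := fun w hw hw' => (hS hw').2 m le_rfl hw
      rcases ball_step_in hv with h | ⟨w, hw, ha⟩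
      · exact path_mono hin (ball_path a m h)
      · refine Relation.ReflTransGen.head ⟨path_right p hne, hin hw, ha⟩ ?_
        exact path_mono hin (ball_path a m hw)
  exact (p1.trans p).trans p2

/-- **a blocking layer of `S1 ∪ S2` is a blocking layer of `S1` or of `S2`** -/
theorem Sepr.split {S1 S2 : Set P2} (hd : Far S1 S2) {a : P2} {m N : ℕ} (hmN : m ≤ N)
    (h : Sepr (S1 ∪ S2) a m N) : Sepr S1 a m N ∨ Sepr S2 a m N := by
  by_contra hcon
  rw [not_or] at hcon
  obtain ⟨h1, h2⟩ := hcon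
  unfold Sepr at h1 h2
  push Not at h1 h2
  obtain ⟨u1, v1, hu1, hv1, p1⟩ := h1
  obtain ⟨u2, v2, hu2, hv2, p2⟩ := h2
  set x : P2 := (a.1 + ((N : ℤ) + 2), a.2) with hx
  have hxb : x ∉ ball a (N + 1) := by
    rw [mem_ball, hx]
    simp only [abs_le]
    push_cast
    omega
  have e1 := extend (S := S1 ∩ Rg a m N) hmN Set.inter_subset_right hxb hu1 hv1
    (path_mono (Set.compl_subset_compl.2 Set.inter_subset_left) p1)
  have e2 := extend (S := S2 ∩ Rg a m N) hmN Set.inter_subset_right hxb hu2 hv2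
    (path_mono (Set.compl_subset_compl.2 Set.inter_subset_left) p2)
  have e3 := janiszewski (hd.mono Set.inter_subset_left Set.inter_subset_left) e1 e2
  have h' : Sepr (S1 ∩ Rg a m N ∪ S2 ∩ Rg a m N) a m N := by
    refine h.congr hmN ?_
    rintro t ht ht' (hs | hs)
    · exact Or.inl ⟨hs, ht, ht'⟩
    · exact Or.inr ⟨hs, ht, ht'⟩
  refine h' x a (fun hh => hxb (ball_mono a (Nat.le_succ N) hh)) ?_ e3
  rw [mem_ball]; simp

end Crest.Agent.R144.Lay356
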