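import Crest.Agent.R144.Lc15_279
import Crest.Agent.R144.Upp5_296
import Crest.Agent.R144.Skel97_144

/-!
R144 (S0197), helper279.  Block LC, file 16: the law of large numbers in the forms used by the
consumers: `Sq.lln296` (296's `BlkHyp.lln`), `Sq.riem` (Riemann sums with a continuous weight), and
the instances `sq_inst` of S0197.
-/

set_option autoImplicit false
set_option linter.unusedSectionVars false
set_option linter.unusedVariables false

open MeasureTheory Set Filter Topology Metric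
open scoped ENNReal

noncomputable section

namespace Crest.Agent.R144.Lc279

open Crest.Agent.R144.Ham560
open Crest.Agent.R144.Lw425 (hd hd_comm hd_le_iff mem_hball hball mem_inn inn mem_sph sph hd_self
  hd_triangle hd_pos hd_adj LObs IsMu0 exists_mu0' bav)
open Crest.ProbabilityR.HexHeights (centre)
open Crest.Agent.R144.Cnt268 (Sites vc)
open Crest.Agent.R144.Skel144 (Inst)

variable {D : Set ℂ} {δ : ℕ → ℝ} {F : ℕ → Finset P2} {E : ℕ → Finset (P2 × P2)} {ξ : ℕ → P2 → ℝ}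

theorem integral_scale {r : ℕ} {C : ℝ} (hC : 0 < C) {G : (P2 → ℝ) → ℝ}
    (hG : LObs r fun h => C⁻¹ * G h) : ∫ h, G h ∂mu0 = C * m0 fun h => C⁻¹ * G h := by
  rw [← integral_mu0 hG, integral_const_mul, ← mul_assoc, mul_inv_cancel₀ hC.ne', one_mul]

/-- **Law of large numbers for box averages**, general bounded local observable, every subset. -/
theorem Sq.box_int (h : Sq D δ F E ξ) {r : ℕ} {C : ℝ} (hC : 0 < C) {G : (P2 → ℝ) → ℝ}
    (hG : LObs r fun h => C⁻¹ * G h) {ε : ℝ} (hε : 0 < ε) :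
    ∃ R0 : ℕ, ∀ R : ℕ, R0 ≤ R → ∀ᶠ n in atTop, ∀ K ⊆ F n,
      δ n ^ 2 * ∑ v ∈ K, ∫ x, |((R : ℝ) ^ 2)⁻¹ * ∑ p ∈ bx R,
        G (fun u => ext (F n) (ξ n) x (v + p + u)) - ∫ h, G h ∂mu0| ∂(hamP (F n) (E n) (ξ n)) ≤
        ε := by
  set f : (P2 → ℝ) → ℝ := fun h => C⁻¹ * G h with hf
  obtain ⟨R0, hR0⟩ := h.box hG (ε := ε / C) (by positivity)
  refine ⟨R0, fun R hR => ?_⟩
  filter_upwards [hR0 R hR] with n hn K hK
  have hA := h.anch n
  have hv := h.vr_pos n
  have hδ := h.sites.pos n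
  have e0 : ∀ v (z : P2 → ℝ), |((R : ℝ) ^ 2)⁻¹ * ∑ p ∈ bx R, G (fun u => z (v + p + u)) -
      ∫ h, G h ∂mu0| = C * |BA R 0 f (fun u => z (v + u)) - m0 f| := by
    intro v z
    rw [integral_scale hC hG, BA_shift, pos_zero, ← abs_of_pos hC, ← abs_mul, abs_of_pos hC,
      mul_sub]
    congr 2
    simp only [hf]
    rw [← Finset.mul_sum]
    field_simp
  have e1 : ∀ v, ∫ x, |((R : ℝ) ^ 2)⁻¹ * ∑ p ∈ bx R,
      G (fun u => ext (F n) (ξ n) x (v + p + u)) - ∫ h, G h ∂mu0| ∂(hamP (F n) (E n) (ξ n)) =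
      C * Ev (F n) (E n) (ξ n) fun z => |BA R 0 f (fun u => z (v + u)) - m0 f| := by
    intro v
    unfold Ev
    rw [← integral_const_mul]
    refine integral_congr_ae (Eventually.of_forall fun x => ?_)
    exact e0 v _
  have e2 : ∑ v ∈ K, ∫ x, |((R : ℝ) ^ 2)⁻¹ * ∑ p ∈ bx R,
      G (fun u => ext (F n) (ξ n) x (v + p + u)) - ∫ h, G h ∂mu0| ∂(hamP (F n) (E n) (ξ n)) =
      C * ∑ v ∈ K, Ev (F n) (E n) (ξ n) fun z => |BA R 0 f (fun u => z (v + u)) - m0 f| := by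
    rw [Finset.mul_sum]
    exact Finset.sum_congr rfl fun v _ => e1 v
  rw [e2]
  have hbd : ∀ v, Bd (fun z : P2 → ℝ => |BA R 0 f (fun u => z (v + u)) - m0 f|) :=
    fun v => ⟨(((measurable_BA hG.meas).comp (measurable_shift v)).sub_const (m0 f)).abs, 2, by
      intro z
      rw [abs_abs]
      have h2 := abs_BA_le (L := R) (r := 0) hG.bd (fun u => z (v + u))
      have h3 := abs_sub (BA R 0 f (fun u => z (v + u))) (m0 f)
      have h4 := abs_m0_le hG
      linarith⟩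
  rw [Ev_sum (fun v _ => hbd v) hA hv] at hn
  have h3 : ∑ v ∈ K, Ev (F n) (E n) (ξ n) (fun z => |BA R 0 f (fun u => z (v + u)) - m0 f|) ≤
      ∑ v ∈ F n, Ev (F n) (E n) (ξ n) fun z => |BA R 0 f (fun u => z (v + u)) - m0 f| :=
    Finset.sum_le_sum_of_subset_of_nonneg hK fun v _ _ => Ev_nonneg fun z => abs_nonneg _
  calc _ ≤ δ n ^ 2 * (C * ∑ v ∈ F n, Ev (F n) (E n) (ξ n) fun z =>
        |BA R 0 f (fun u => z (v + u)) - m0 f|) :=
        mul_le_mul_of_nonneg_left (mul_le_mul_of_nonneg_left h3 hC.le) (by positivity)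
    _ = C * (δ n ^ 2 * ∑ v ∈ F n, Ev (F n) (E n) (ξ n) fun z =>
        |BA R 0 f (fun u => z (v + u)) - m0 f|) := by ring
    _ ≤ C * (ε / C) := mul_le_mul_of_nonneg_left hn hC.le
    _ = ε := by field_simp

theorem sum_bx {R : ℕ} (g : P2 → ℝ) :
    ∑ p ∈ bx R, g p = ∑ p ∈ Flat296.sq R, g (Flat296.pt p) := by
  refine (Finset.sum_bij (fun p _ => Flat296.pt p) ?_ ?_ ?_ fun _ _ => rfl).symm
  · intro p hp
    rw [Flat296.mem_sq] at hp
    rw [mem_bx]
    simp only [Flat296.pt]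
    omega
  · intro p _ q _ hpq
    simp only [Flat296.pt, Prod.mk.injEq, Nat.cast_inj] at hpq
    exact Prod.ext hpq.1 hpq.2
  · intro v hv
    rw [mem_bx] at hv
    refine ⟨(v.1.toNat, v.2.toNat), ?_, ?_⟩
    · rw [Flat296.mem_sq]; omega
    · ext <;> simp [Flat296.pt, hv.1.1, hv.2.1]

/-- **296's law of large numbers** (one entry). -/
theorem Sq.lln296 (h : Sq D δ F E ξ) {r : ℕ} {C : ℝ} (hC : 0 < C) {G : (P2 → ℝ) → ℝ}
    (hG : LObs r fun h => C⁻¹ * G h) {ε : ℝ} (hε : 0 < ε) :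
    ∃ R0 : ℕ, ∀ R : ℕ, R0 ≤ R → ∀ᶠ n in atTop, ∀ K ⊆ F n,
      δ n ^ 2 * Upp296.Ex (hamP (F n) (E n) (ξ n)) K (fun a ω => |Flat296.bm R (fun a ω =>
        G (fun v => ext (F n) (ξ n) ω (a + v))) a ω - ∫ h, G h ∂mu0|) ≤ ε := by
  obtain ⟨R0, hR0⟩ := h.box_int hC hG hε
  refine ⟨R0, fun R hR => ?_⟩
  filter_upwards [hR0 R hR] with n hn K hK
  have := hn K hK
  unfold Upp296.Ex
  convert this using 6 with v _ x
  rw [Flat296.bm, Flat296.mn_apply, Flat296.card_sq, sum_bx, Nat.cast_mul, pow_two]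
  rfl

/-- 296's law of large numbers for a matrix of observables. -/
theorem Sq.lln296' (h : Sq D δ F E ξ) {r : ℕ} {C : ℝ} (hC : 0 < C)
    {G : Fin 2 → Fin 2 → (P2 → ℝ) → ℝ} (hG : ∀ i j, LObs r fun h => C⁻¹ * G i j h) {ε : ℝ}
    (hε : 0 < ε) :
    ∃ R0 : ℕ, ∀ R : ℕ, R0 ≤ R → ∀ᶠ n in atTop, ∀ K ⊆ F n,
      δ n ^ 2 * ∑ i, ∑ j, Upp296.Ex (hamP (F n) (E n) (ξ n)) K (fun a ω =>
        |Flat296.bm R (fun a ω => G i j (fun v => ext (F n) (ξ n) ω (a + v))) a ω -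
          ∫ h, G i j h ∂mu0|) ≤ ε := by
  choose R0 hR0 using fun i j => h.lln296 hC (hG i j) (ε := ε / 4) (by positivity)
  refine ⟨(R0 0 0 + R0 0 1) + (R0 1 0 + R0 1 1), fun R hR => ?_⟩
  filter_upwards [hR0 0 0 R (by omega), hR0 0 1 R (by omega), hR0 1 0 R (by omega),
    hR0 1 1 R (by omega)] with n h1 h2 h3 h4 K hK
  have g1 := h1 K hK
  have g2 := h2 K hK
  have g3 := h3 K hK
  have g4 := h4 K hK
  rw [Fin.sum_univ_two, Fin.sum_univ_two, Fin.sum_univ_two, mul_add, mul_add, mul_add]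
  linarith

/-- **Riemann sums with a continuous weight**: `E |δ² ∑ φ(z_v) G(h_v) - (2/√3) ∫ G dmu0 ∫_D φ| → 0`. -/
theorem Sq.riem (h : Sq D δ F E ξ) {r : ℕ} {C : ℝ} (hC : 0 < C) {G : (P2 → ℝ) → ℝ}
    (hG : LObs r fun h => C⁻¹ * G h) {φ : ℂ → ℝ} (hφ : Continuous φ) :
    Tendsto (fun n => ∫ x, |δ n ^ 2 * ∑ v ∈ F n, φ (centre (δ n) v) *
        G (fun u => ext (F n) (ξ n) x (v + u)) -
        2 / Real.sqrt 3 * (∫ z in D, φ z) * ∫ h, G h ∂mu0| ∂(hamP (F n) (E n) (ξ n)))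
      atTop (𝓝 0) := by
  set f : (P2 → ℝ) → ℝ := fun h => C⁻¹ * G h with hf
  have hriem := h.sites.riemann' hφ
  have h1 : Tendsto (fun n => |(δ n ^ 2 * ∑ v ∈ F n, φ (centre (δ n) v)) * (C * m0 f) -
      2 / Real.sqrt 3 * (∫ z in D, φ z) * (C * m0 f)|) atTop (𝓝 0) := by
    have h2 := (hriem.mul_const (C * m0 f)).sub_const (2 / Real.sqrt 3 * (∫ z in D, φ z) *
      (C * m0 f))
    rw [sub_self] at h2
    have h3 := h2.abs
    rwa [abs_zero] at h3
  rw [Metric.tendsto_atTop']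
  intro ε hε
  have h2 := h.weights hG hφ (ε := ε / (4 * C)) (by positivity)
  have h3 := h1.eventually (gt_mem_nhds (show (0 : ℝ) < ε / 4 by positivity))
  obtain ⟨n0, hn0⟩ := eventually_atTop.mp (h2.and h3)
  refine ⟨n0, fun n hn => ?_⟩
  obtain ⟨g1, g2⟩ := hn0 n hn.le
  have hA := h.anch n
  have hv := h.vr_pos n
  have hδ := h.sites.pos n
  have hp := isProb hA hv
  rw [Real.dist_eq, sub_zero, abs_of_nonneg (integral_nonneg fun _ => abs_nonneg _)]
  set S := |(δ n ^ 2 * ∑ v ∈ F n, φ (centre (δ n) v)) * (C * m0 f) -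
      2 / Real.sqrt 3 * (∫ z in D, φ z) * (C * m0 f)| with hS
  set T : (P2 → ℝ) → ℝ := fun z =>
    |δ n ^ 2 * ∑ v ∈ F n, φ (centre (δ n) v) * (f (fun u => z (v + u)) - m0 f)| with hT
  have hterm : ∀ z : P2 → ℝ, |δ n ^ 2 * ∑ v ∈ F n, φ (centre (δ n) v) *
        G (fun u => z (v + u)) - 2 / Real.sqrt 3 * (∫ z in D, φ z) * ∫ h, G h ∂mu0| ≤
        C * T z + S := by
    intro z
    rw [integral_scale hC hG]
    have e1 : δ n ^ 2 * ∑ v ∈ F n, φ (centre (δ n) v) * G (fun u => z (v + u)) -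
        2 / Real.sqrt 3 * (∫ z in D, φ z) * (C * m0 f) =
        C * (δ n ^ 2 * ∑ v ∈ F n, φ (centre (δ n) v) * (f (fun u => z (v + u)) - m0 f)) +
        ((δ n ^ 2 * ∑ v ∈ F n, φ (centre (δ n) v)) * (C * m0 f) -
          2 / Real.sqrt 3 * (∫ z in D, φ z) * (C * m0 f)) := by
      have e2 : C * (δ n ^ 2 * ∑ v ∈ F n, φ (centre (δ n) v) * (f (fun u => z (v + u)) - m0 f)) =
          δ n ^ 2 * ∑ v ∈ F n, φ (centre (δ n) v) * G (fun u => z (v + u)) -
          (δ n ^ 2 * ∑ v ∈ F n, φ (centre (δ n) v)) * (C * m0 f) := by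
        rw [mul_left_comm, mul_assoc, Finset.sum_mul, ← mul_sub, ← Finset.sum_sub_distrib,
          Finset.mul_sum]
        congr 1
        refine Finset.sum_congr rfl fun v _ => ?_
        simp only [hf]
        field_simp
      rw [e2]; ring
    rw [e1]
    refine (abs_add_le _ _).trans ?_
    rw [abs_mul, abs_of_pos hC]
  have hTm : Measurable T := by
    refine Measurable.abs ((Finset.measurable_sum _ fun v _ => ?_).const_mul _)
    exact ((hG.meas.comp (measurable_shift v)).sub_const (m0 f)).const_mul _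
  have hTb : ∀ z, |T z| ≤ δ n ^ 2 * ∑ v ∈ F n, |φ (centre (δ n) v)| * 2 := by
    intro z
    rw [hT]
    simp only
    rw [abs_abs, abs_mul, abs_of_pos (by positivity : 0 < δ n ^ 2)]
    refine mul_le_mul_of_nonneg_left ?_ (by positivity)
    refine (Finset.abs_sum_le_sum_abs _ _).trans (Finset.sum_le_sum fun v _ => ?_)
    rw [abs_mul]
    refine mul_le_mul_of_nonneg_left ?_ (abs_nonneg _)
    have h4 := abs_sub (f (fun u => z (v + u))) (m0 f)
    have h5 := hG.bd (fun u => z (v + u))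
    have h6 := abs_m0_le hG
    linarith
  have hTB : Bd T := ⟨hTm, _, hTb⟩
  have hint : Integrable (fun x => T (ext (F n) (ξ n) x)) (hamP (F n) (E n) (ξ n)) :=
    hTB.integrable hA hv
  have h4 : ∫ x, |δ n ^ 2 * ∑ v ∈ F n, φ (centre (δ n) v) *
        G (fun u => ext (F n) (ξ n) x (v + u)) -
        2 / Real.sqrt 3 * (∫ z in D, φ z) * ∫ h, G h ∂mu0| ∂(hamP (F n) (E n) (ξ n)) ≤
      ∫ x, (C * T (ext (F n) (ξ n) x) + S) ∂(hamP (F n) (E n) (ξ n)) := by
    refine integral_mono_of_nonneg (Eventually.of_forall fun _ => abs_nonneg _)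
      ((hint.const_mul C).add (integrable_const S)) (Eventually.of_forall fun x => ?_)
    exact hterm _
  rw [integral_add (hint.const_mul C) (integrable_const S), integral_const_mul, integral_const] at h4
  simp only [probReal_univ, smul_eq_mul, one_mul] at h4
  have h5 : C * ∫ x, T (ext (F n) (ξ n) x) ∂(hamP (F n) (E n) (ξ n)) ≤ C * (ε / (4 * C)) :=
    mul_le_mul_of_nonneg_left g1 hC.le
  have h6 : C * (ε / (4 * C)) = ε / 4 := by field_simp
  linarith

/-! ### The instances of S0197 -/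

theorem gch_tri {T : Finset Crest.ProbabilityR.TriHeights.Tri} {F : Finset P2}
    (hF : ∀ v ∈ F, ∀ w, Crest.ProbabilityR.HexHeights.Adj v w →
      Crest.ProbabilityR.TriHeights.IsEdge T v w) : GCh F (triE T) F id univ where
  ch := by
    refine ⟨subset_univ _, Function.injective_id.injOn, fun _ _ _ _ => mem_univ _, ?_, ?_⟩
    · intro v hv w hvw
      exact Or.inl (mem_triE.mpr (hF v hv w (hd_eq_one_iff_adj.mp hvw)))
    · intro p hp hp'
      refine ⟨p.1, p.2, hd_eq_one_iff_adj.mpr (LC121.adj_of_isEdge (mem_triE.mp hp)), ?_, rfl⟩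
      simpa using hp'
  sub := by rw [Finset.image_id]
  deg := fun v _ => LC121.card_nbr_triE T v

theorem sq_inst (I : Inst) : Sq I.D I.δ I.Fr I.Ed I.xi where
  sites := Cnt268.sites_tri I.hD I.hM
  gch := fun n => gch_tri fun v hv _ hw =>
    Geo268.isEdge_of_adj (I.hM.1 n) ((Geo268.mem_free_iff I.hM n v).1 hv) hw
  anch := fun n => I.anch n
  data := fun n u => I.abs_xi_le n u
  ne := I.hD.2.2.1.nonempty

end Crest.Agent.R144.Lc279
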