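import Crest.Agent.R144.Cw11_643
import Crest.Agent.R144.Pst3_967
import Crest.Agent.R144.Rsw0_867

/-!
# R144 (helper830), CCW: the level of a set of sites (TIGHT)

* `lev W h` : integer part of the average of the heights on `W`;
* `lev_loc`, `lev_add`, `lev_lip`;
* `lev_tight` : tightness of `lev (ball a1 r) - lev (ball a2 r)` for `a2 ∈ ball a1 (A * r)`, uniformly in `r`.
-/

set_option autoImplicit false

noncomputable section

namespace Crest.Agent.R144.Lev830

open Finset Filter Topology MeasureTheory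
open Crest.Agent.R144.It844 (Lip)
open Crest.Agent.R144.Ps643 Crest.Agent.R144.Ps643.PlaneState
open Crest.Agent.R144.Pst967 (Hz LocZ PinnedZ toR measurable_toR lip_bound hexB mem_hexB)
open Crest.Agent.R144.Cw643 (Lim2 plane_sq)
open Crest.Agent.R144.Rsw867 (ball mem_ball mem_ball' ball_zero_eq)
open Crest.ProbabilityR.HexHeights (Adj)

/-- average of the heights on `W` -/
def avg (W : Finset P2) (h : Ht) : ℝ := (∑ v ∈ W, h v) / W.card

/-- integer part of the average of the heights on `W` -/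
def lev (W : Finset P2) (h : Hz) : ℤ := ⌊(∑ v ∈ W, (h v : ℝ)) / W.card⌋

theorem lev_eq (W : Finset P2) (h : Hz) : lev W h = ⌊avg W (toR h)⌋ := rfl

theorem lev_loc (W : Finset P2) : LocZ (W : Set P2) (lev W) := by
  intro h g hg
  unfold lev
  have e : ∑ v ∈ W, (h v : ℝ) = ∑ v ∈ W, (g v : ℝ) :=
    Finset.sum_congr rfl fun v hv => by rw [hg v hv]
  rw [e]

theorem lev_add {W : Finset P2} (hW : W.Nonempty) (h : Hz) (c : ℤ) :
    lev W (fun v => h v + c) = lev W h + c := by
  unfold lev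
  have hc : (W.card : ℝ) ≠ 0 := by
    have := Finset.card_pos.2 hW
    positivity
  have e : (∑ v ∈ W, ((h v + c : ℤ) : ℝ)) / W.card = (∑ v ∈ W, (h v : ℝ)) / W.card + c := by
    have e1 : (∑ v ∈ W, ((h v + c : ℤ) : ℝ)) = ∑ v ∈ W, (h v : ℝ) + W.card * c := by
      rw [show (W.card : ℝ) * c = ∑ _v ∈ W, (c : ℝ) by rw [Finset.sum_const, nsmul_eq_mul],
        ← Finset.sum_add_distrib]
      exact Finset.sum_congr rfl fun v _ => by push_cast; ring
    rw [e1, add_div, mul_div_cancel_left₀ _ hc]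
  rw [e, Int.floor_add_intCast]

theorem lip_diff {h : Hz} (hl : Lip h) {a u v : P2} {r : ℕ} (hu : u ∈ ball a r) (hv : v ∈ ball a r) :
    |h u - h v| ≤ 4 * r := by
  have hl' : Lip (fun w => h (w + v)) := fun x y hxy =>
    hl _ _ ((Crest.Agent.R144.Psr712.adj_tr v x y).2 hxy)
  have h1 := lip_bound hl' (u - v)
  simp only [sub_add_cancel, zero_add] at h1
  refine h1.trans ?_
  rw [mem_ball] at hu hv
  have h2 : ((Pst967.nrm (u - v) : ℕ) : ℤ) = |u.1 - v.1| + |u.2 - v.2| := by
    unfold Pst967.nrm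
    push_cast
    rfl
  rw [h2]
  have h3 : |u.1 - v.1| ≤ 2 * r := by
    obtain ⟨h4, -, -⟩ := hu
    obtain ⟨h5, -, -⟩ := hv
    rw [abs_le] at *
    omega
  have h6 : |u.2 - v.2| ≤ 2 * r := by
    obtain ⟨-, h4, -⟩ := hu
    obtain ⟨-, h5, -⟩ := hv
    rw [abs_le] at *
    omega
  omega

/-- the level is close to the heights (`v` anywhere in the ball) -/
theorem lev_lip' {W : Finset P2} (hW : W.Nonempty) {a : P2} {r : ℕ} (hWa : W ⊆ ball a r) {h : Hz}
    (hl : Lip h) {v : P2} (hv : v ∈ ball a r) : |lev W h - h v| ≤ 4 * r := by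
  have hc : (0 : ℝ) < W.card := by
    have := Finset.card_pos.2 hW
    positivity
  have h1 : ∀ w ∈ W, ((h v : ℝ) - 4 * r ≤ h w) ∧ ((h w : ℝ) ≤ h v + 4 * r) := by
    intro w hw
    have h2 := lip_diff hl (hWa hw) hv
    rw [abs_le] at h2
    constructor
    · have : h v - 4 * r ≤ h w := by omega
      exact_mod_cast this
    · have : h w ≤ h v + 4 * r := by omega
      exact_mod_cast this
  have h3 : (h v : ℝ) - 4 * r ≤ (∑ w ∈ W, (h w : ℝ)) / W.card := by
    rw [le_div_iff₀ hc]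
    calc ((h v : ℝ) - 4 * r) * W.card = ∑ _w ∈ W, ((h v : ℝ) - 4 * r) := by
          rw [Finset.sum_const, nsmul_eq_mul]; ring
      _ ≤ _ := Finset.sum_le_sum fun w hw => (h1 w hw).1
  have h4 : (∑ w ∈ W, (h w : ℝ)) / W.card ≤ (h v : ℝ) + 4 * r := by
    rw [div_le_iff₀ hc]
    calc ∑ w ∈ W, (h w : ℝ) ≤ ∑ _w ∈ W, ((h v : ℝ) + 4 * r) :=
          Finset.sum_le_sum fun w hw => (h1 w hw).2
      _ = _ := by rw [Finset.sum_const, nsmul_eq_mul]; ring
  have h5 : h v - 4 * r ≤ lev W h := by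
    refine Int.le_floor.2 ?_
    push_cast
    exact h3
  have h6 : lev W h ≤ h v + 4 * r := by
    have h7 : lev W h ≤ ⌊((h v + 4 * r : ℤ) : ℝ)⌋ := by
      refine Int.floor_le_floor ?_
      push_cast
      exact h4
    rwa [Int.floor_intCast] at h7
  rw [abs_le]
  omega

theorem lev_lip {W : Finset P2} {a : P2} {r : ℕ} (hWa : W ⊆ ball a r) {h : Hz} (hl : Lip h)
    {v : P2} (hv : v ∈ W) : |lev W h - h v| ≤ 4 * r + 1 :=
  (lev_lip' ⟨v, hv⟩ hWa hl (hWa hv)).trans (by omega)

/-! ### tightness -/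

theorem self_mem_ball (a : P2) (r : ℕ) : a ∈ ball a r := by
  rw [mem_ball]
  simp

theorem le_card_ball (a : P2) (r : ℕ) : r ^ 2 ≤ (ball a r).card := by
  have h1 : (Finset.Icc (0 : ℤ) r ×ˢ Finset.Icc (-(r : ℤ)) 0).image (fun v => v + a) ⊆ ball a r := by
    intro v hv
    rw [Finset.mem_image] at hv
    obtain ⟨w, hw, rfl⟩ := hv
    rw [Finset.mem_product, Finset.mem_Icc, Finset.mem_Icc] at hw
    rw [mem_ball]
    simp only [Prod.fst_add, Prod.snd_add, add_sub_cancel_right, abs_le]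
    omega
  have h2 := Finset.card_le_card h1
  rw [Finset.card_image_of_injective _ (add_left_injective a), Finset.card_product, Int.card_Icc,
    Int.card_Icc] at h2
  refine le_trans ?_ h2
  have e1 : ((r : ℤ) + 1 - 0).toNat = r + 1 := by omega
  have e2 : ((0 : ℤ) + 1 - -(r : ℤ)).toNat = r + 1 := by omega
  rw [e1, e2]
  nlinarith

theorem card_ball_eq (a b : P2) (r : ℕ) : (ball a r).card = (ball b r).card := by
  unfold ball
  rw [Finset.card_image_of_injective _ (add_left_injective a),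
    Finset.card_image_of_injective _ (add_left_injective b)]

/-- weights of the difference of the two averages, centred at the first ball -/
def gw (b : P2) (r : ℕ) (p : P2) : ℝ :=
  ((if p ∈ ball 0 r then 1 else 0) - (if p ∈ ball b r then 1 else 0)) / (ball 0 r).card

theorem abs_gw_le (b : P2) {r : ℕ} (hr : 1 ≤ r) (p : P2) : |gw b r p| ≤ 1 / (r : ℝ) ^ 2 := by
  unfold gw
  have h1 : (0 : ℝ) < (r : ℝ) ^ 2 := by positivity
  have h2 : (r : ℝ) ^ 2 ≤ ((ball 0 r).card : ℝ) := by exact_mod_cast le_card_ball 0 r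
  rw [abs_div, abs_of_pos (h1.trans_le h2)]
  refine div_le_div₀ zero_le_one ?_ h1 h2
  split_ifs <;> norm_num

theorem ball_sub_BX {b : P2} {A r : ℕ} (hb : b ∈ ball 0 (A * r)) : ball b r ⊆ Cw643.BX ((A + 1) * r) := by
  intro v hv
  rw [mem_ball] at hb hv
  rw [Cw643.mem_BX]
  simp only [Prod.fst_zero, Prod.snd_zero, sub_zero] at hb
  obtain ⟨h1, h2, -⟩ := hb
  obtain ⟨h3, h4, -⟩ := hv
  push_cast at *
  have e : ((A : ℤ) + 1) * r = A * r + r := by ring
  rw [e]
  generalize (A : ℤ) * r = Z at *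
  rw [abs_le] at *
  rw [abs_le] at *
  omega

theorem zero_mem_ball (n : ℕ) : (0 : P2) ∈ ball 0 n := self_mem_ball 0 n

theorem sum_gw {b : P2} {A r : ℕ} (hb : b ∈ ball 0 (A * r)) (F : P2 → ℝ) :
    ∑ p ∈ Cw643.BX ((A + 1) * r), gw b r p * F p =
      (∑ p ∈ ball 0 r, F p) / (ball 0 r).card - (∑ p ∈ ball b r, F p) / (ball b r).card := by
  rw [card_ball_eq b 0 r, ← sub_div]
  have h1 : ∀ c : P2, ball c r ⊆ Cw643.BX ((A + 1) * r) →
      ∑ p ∈ Cw643.BX ((A + 1) * r), (if p ∈ ball c r then (1 : ℝ) else 0) * F p = ∑ p ∈ ball c r, F p := by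
    intro c hc
    simp only [ite_mul, one_mul, zero_mul]
    rw [Finset.sum_ite_mem, Finset.inter_eq_right.2 hc]
  rw [← h1 0 (ball_sub_BX (zero_mem_ball _)), ← h1 b (ball_sub_BX hb), ← Finset.sum_sub_distrib,
    Finset.sum_div]
  refine Finset.sum_congr rfl fun p _ => ?_
  unfold gw
  ring

theorem avg_diff {a1 a2 : P2} {A r : ℕ} (h2 : a2 ∈ ball a1 (A * r)) (h : Ht) :
    lin (Cw643.BX ((A + 1) * r)) (gw (a2 - a1) r) (act (tr a1) h) =
      avg (ball a1 r) h - avg (ball a2 r) h := by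
  have hb : a2 - a1 ∈ ball 0 (A * r) := by
    rw [mem_ball'] at *
    simpa using h2
  unfold lin
  rw [sum_gw hb]
  unfold avg act Ps643.tr
  have e : ∀ c d : P2, c = d - a1 → (∑ p ∈ ball c r, h (p + a1)) / (ball c r).card =
      (∑ v ∈ ball d r, h v) / (ball d r).card := by
    intro c d hcd
    rw [card_ball_eq c d r]
    congr 1
    unfold ball
    rw [Finset.sum_image (fun x _ y _ hxy => add_right_cancel hxy),
      Finset.sum_image (fun x _ y _ hxy => add_right_cancel hxy)]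
    refine Finset.sum_congr rfl fun v _ => ?_
    rw [hcd]
    congr 1
    abel
  rw [e 0 a1 (by simp), e (a2 - a1) a2 rfl]

/-- second moment of the difference of two averages -/
theorem avg_sq {P : Measure Ht} (hS : PlaneState P) {κ : ℝ} (hκ : Lim2 (vg P) κ) (A : ℕ) :
    ∃ K : ℝ, 0 < K ∧ ∀ r : ℕ, 1 ≤ r → ∀ a1 a2 : P2, a2 ∈ ball a1 (A * r) →
      ∫ h, (avg (ball a1 r) h - avg (ball a2 r) h) ^ 2 ∂P ≤ K := by
  obtain ⟨K, hK, hp⟩ := plane_sq hS hκ
  refine ⟨K * ((A : ℝ) + 1) ^ 8, by positivity, fun r hr a1 a2 h2 => ?_⟩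
  have hb : a2 - a1 ∈ ball 0 (A * r) := by
    rw [mem_ball'] at *
    simpa using h2
  have hr' : (1 : ℝ) ≤ r := by exact_mod_cast hr
  have h0 : ∑ p ∈ Cw643.BX ((A + 1) * r), gw (a2 - a1) r p = 0 := by
    have := sum_gw hb (fun _ => 1)
    simp only [mul_one, Finset.sum_const, nsmul_eq_mul] at this
    rw [this]
    have hc : ∀ c : P2, ((ball c r).card : ℝ) ≠ 0 := fun c => by
      have := Finset.card_pos.2 ⟨c, self_mem_ball c r⟩
      positivity
    rw [div_self (hc 0), div_self (hc _), sub_self]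
  have h3 := hp ((A + 1) * r) r ((A : ℝ) + 1) (gw (a2 - a1) r) hr' (by
    have : (0 : ℝ) ≤ A := by positivity
    linarith) (by push_cast; exact le_refl _) (fun p _ => (abs_gw_le _ hr p).trans (by
      refine div_le_div_of_nonneg_right ?_ (by positivity)
      have : (0 : ℝ) ≤ A := by positivity
      linarith)) h0
  have h4 : ∫ h, lin (Cw643.BX ((A + 1) * r)) (gw (a2 - a1) r) h ^ 2 ∂P =
      ∫ h, (avg (ball a1 r) h - avg (ball a2 r) h) ^ 2 ∂P := by
    have h5 := hS.sq_inv (T := act (tr a1)) (fun F hF => hS.tr a1 F hF)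
      (s := Cw643.BX ((A + 1) * r)) (f := gw (a2 - a1) r)
      (s' := (Cw643.BX ((A + 1) * r)).image fun v => v + a1) (f' := fun v => gw (a2 - a1) r (v - a1)) h0
      (fun h => by
        unfold lin act Ps643.tr
        rw [Finset.sum_image (fun x _ y _ hxy => add_right_cancel hxy)]
        refine Finset.sum_congr rfl fun v _ => ?_
        simp only [add_sub_cancel_right])
    rw [h5]
    refine integral_congr_ae (Filter.Eventually.of_forall fun h => ?_)
    simp only
    congr 1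
    rw [← avg_diff h2 h]
    unfold lin act Ps643.tr
    rw [Finset.sum_image (fun x _ y _ hxy => add_right_cancel hxy)]
    refine Finset.sum_congr rfl fun v _ => ?_
    simp only [add_sub_cancel_right]
  rw [← h4]
  exact h3

theorem measurable_avg (W : Finset P2) : Measurable (avg W) := by
  unfold avg
  exact (Finset.measurable_sum _ fun v _ => measurable_pi_apply v).div_const _

/-- **tightness of the difference of the levels of two balls** -/
theorem lev_tight {P : Measure Hz} (hP : PinnedZ P) (hS : PlaneState (P.map toR)) {κ : ℝ}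
    (hκ : Lim2 (vg (P.map toR)) κ) (A : ℕ) : ∀ η : ℝ, 0 < η → ∃ M : ℕ, ∀ r : ℕ, 1 ≤ r →
      ∀ a1 a2 : P2, a2 ∈ ball a1 (A * r) →
        P.real {h | (M : ℤ) < |lev (ball a1 r) h - lev (ball a2 r) h|} ≤ η := by
  intro η hη
  obtain ⟨K, hK, hK2⟩ := avg_sq hS hκ A
  have hpr := hP.prob
  have hprm := hS.prob
  obtain ⟨M, hM⟩ := exists_nat_ge (K / η + 1)
  refine ⟨M, fun r hr a1 a2 h2 => ?_⟩
  have hM1 : (1 : ℝ) ≤ M := by
    have : 0 < K / η := by positivity
    linarith
  have hMK : K ≤ η * (M : ℝ) ^ 2 := by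
    have h3 : K / η ≤ M := by linarith
    rw [div_le_iff₀ hη] at h3
    have h4 : (M : ℝ) ≤ (M : ℝ) ^ 2 := by nlinarith
    nlinarith
  set D : Ht → ℝ := fun h => (avg (ball a1 r) h - avg (ball a2 r) h) ^ 2 with hD
  have hDm : Measurable D := ((measurable_avg _).sub (measurable_avg _)).pow_const 2
  have h3 : ∫ h, D (toR h) ∂P ≤ K := by
    have := hK2 r hr a1 a2 h2
    rwa [show (∫ h, (avg (ball a1 r) h - avg (ball a2 r) h) ^ 2 ∂(P.map toR)) = ∫ h, D h ∂(P.map toR)
      from rfl, integral_map measurable_toR.aemeasurable hDm.aestronglyMeasurable] at this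
  have hbd : ∀ᵐ h ∂P, |D (toR h)| ≤ (∑ v ∈ ball a1 r, (nrm v : ℝ) + ∑ v ∈ ball a2 r, (nrm v : ℝ)) ^ 2 := by
    filter_upwards [hP.zero, hP.lip] with h h0 hl
    have h5 : ∀ v, |(toR h) v| ≤ (nrm v : ℝ) := by
      intro v
      refine abs_le_nrm (by simp [toR, h0]) (fun u w huw => ?_) v
      have := hl u w huw
      have e : |toR h u - toR h w| = ((|h u - h w| : ℤ) : ℝ) := by
        unfold toR; push_cast; rfl
      rw [e]
      exact_mod_cast this
    have h6 : ∀ c : P2, |avg (ball c r) (toR h)| ≤ ∑ v ∈ ball c r, (nrm v : ℝ) := by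
      intro c
      unfold avg
      rw [abs_div]
      have h7 : |∑ v ∈ ball c r, toR h v| ≤ ∑ v ∈ ball c r, (nrm v : ℝ) :=
        (Finset.abs_sum_le_sum_abs _ _).trans (Finset.sum_le_sum fun v _ => h5 v)
      have h8 : (1 : ℝ) ≤ |((ball c r).card : ℝ)| := by
        have := Finset.card_pos.2 ⟨c, self_mem_ball c r⟩
        rw [abs_of_nonneg (by positivity)]
        exact_mod_cast this
      exact (div_le_self (abs_nonneg _) h8).trans h7
    rw [hD]
    simp only
    rw [abs_of_nonneg (sq_nonneg _), ← sq_abs]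
    refine pow_le_pow_left₀ (abs_nonneg _) ?_ 2
    exact (abs_sub _ _).trans (add_le_add (h6 a1) (h6 a2))
  have hint : Integrable (fun h => D (toR h)) P :=
    Integrable.of_bound (hDm.comp measurable_toR).aestronglyMeasurable _ (by
      filter_upwards [hbd] with h hh
      rw [Real.norm_eq_abs]
      exact hh)
  have h4 := mul_meas_ge_le_integral_of_nonneg (μ := P) (f := fun h => D (toR h))
    (Filter.Eventually.of_forall fun h => sq_nonneg _) hint ((M : ℝ) ^ 2)
  have h5 : {h : Hz | (M : ℤ) < |lev (ball a1 r) h - lev (ball a2 r) h|} ⊆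
      {h | (M : ℝ) ^ 2 ≤ D (toR h)} := by
    intro h hh
    have hh' : (M : ℤ) < |lev (ball a1 r) h - lev (ball a2 r) h| := hh
    show (M : ℝ) ^ 2 ≤ (avg (ball a1 r) (toR h) - avg (ball a2 r) (toR h)) ^ 2
    rw [lev_eq, lev_eq] at hh'
    have f1 := Int.floor_le (avg (ball a1 r) (toR h))
    have f2 := Int.lt_floor_add_one (avg (ball a1 r) (toR h))
    have f3 := Int.floor_le (avg (ball a2 r) (toR h))
    have f4 := Int.lt_floor_add_one (avg (ball a2 r) (toR h))
    generalize avg (ball a1 r) (toR h) = x at *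
    generalize avg (ball a2 r) (toR h) = y at *
    generalize ⌊x⌋ = i at *
    generalize ⌊y⌋ = j at *
    have h7 : (M : ℝ) ≤ |x - y| := by
      rw [lt_abs] at hh'
      rw [le_abs]
      rcases hh' with h8 | h8
      · left
        have h9 : (M : ℤ) + 1 ≤ i - j := h8
        have h10 : (M : ℝ) + 1 ≤ i - j := by exact_mod_cast h9
        linarith
      · right
        have h9 : (M : ℤ) + 1 ≤ -(i - j) := h8
        have h10 : (M : ℝ) + 1 ≤ -((i : ℝ) - j) := by exact_mod_cast h9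
        linarith
    rw [← sq_abs (x - y)]
    exact pow_le_pow_left₀ (by positivity) h7 2
  have h6 := measureReal_mono (μ := P) h5
  have hM2 : (0 : ℝ) < (M : ℝ) ^ 2 := by positivity
  have h7 : (M : ℝ) ^ 2 * P.real {h | (M : ℝ) ^ 2 ≤ D (toR h)} ≤ (M : ℝ) ^ 2 * η := by
    refine h4.trans (h3.trans (hMK.trans (le_of_eq (mul_comm _ _))))
  exact h6.trans (le_of_mul_le_mul_left h7 hM2)

end Crest.Agent.R144.Lev830
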