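import Crest.Agent.R144.Zo5_349
import Crest.Agent.R144.Ccn2_311

/-!
# R144, block BND / B2 (helper702), part 1: lower comparison for the law with fixed boundary heights in the
presence of an increasing observable

`lower0u` : `ξ ∈ {0, 1}` off `Λ`, `f1, f2 ≥ 0` increasing and seen in `B`, `g ≥ 0` off `B`:
`E0 [g f1] * Em_B [f2] ≤ E0 [g f1 f2]` (349's `lower0` with the extra factor `f1`).
-/

set_option autoImplicit false
set_option linter.unusedSectionVars false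
set_option linter.unusedSimpArgs false

noncomputable section

namespace Crest.Agent.R144.LmB702

open Finset
open Crest.Agent.R144.It844 (P2 Lip Cst adj_iff adj_symm lip_iff upT mem_upT tw adj_up exists_exit)
open Crest.Agent.R144.Zg349 Crest.Agent.R144.Zk349 Crest.Agent.R144.Zd349 Crest.Agent.R144.Zm349
open Crest.Agent.R144.HyA349 Crest.Agent.R144.HyB349 Crest.Agent.R144.HyC349
open Crest.Agent.R144.Ze349 Crest.Agent.R144.Zs349 Crest.Agent.R144.Zf349 Crest.Agent.R144.Zo349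
open Crest.Agent.R144.Ccn2311 (incP_mul inTZ_mul Em)
open Crest.ProbabilityR.HexHeights (Adj)

/-- **Lower comparison in the presence of an increasing observable**, boundary heights `ξ ∈ {0, 1}`. -/
theorem lower0u {c : ℝ} (hc : 1 ≤ c) {Λ B : Finset P2} {ξ : P2 → ℤ} (hΛ : IsConn ((Λ : Set P2)ᶜ))
    (hξ : Bv Λ ξ) (hB : SC B) (hBK : B ⊆ upT Λ) (hIV : IV B ⊆ Λ) (hLip : Lip ξ)
    {f1 f2 g : Cfg → ℝ} (hf1 : IncP f1) (hin1 : InTZ B f1) (h10 : ∀ ω, 0 ≤ f1 ω)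
    (hf2 : IncP f2) (hin2 : InTZ B f2) (h20 : ∀ ω, 0 ≤ f2 ω)
    (hg0 : ∀ ω, 0 ≤ g ω) (hg : OffTZ B g) :
    E0 c Λ ξ (fun ω => g ω * f1 ω) * Em c B f2 ≤ E0 c Λ ξ (fun ω => g ω * (f1 ω * f2 ω)) := by
  set f1B : Finset P2 → Finset P2 → Finset P2 → ℝ := fun T P M => f1 (mk B T P M) with hf1B
  set f2B : Finset P2 → Finset P2 → Finset P2 → ℝ := fun T P M => f2 (mk B T P M) with hf2B
  have hinc1 : Inc f1B := mkG_inc B hf1
  have hinc2 : Inc f2B := mkG_inc B hf2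
  set mf := EBL c Λ B (minL Λ B) f2B with hmf
  set m1 := EBL c Λ B (minL Λ B) (fun _ _ _ => 1) with hm1
  have hm1pos : 0 < m1 := EBL_one_pos hc (minL_ok Λ B)
  have hloc : ∀ T1 ⊆ Λ \ IV B, ∀ Z1 ⊆ upT Λ \ B, (∀ t ∈ Z1, Cs up T1 t) →
      EBL c Λ B (etaL T1 Z1) (fun T P M => cJ Λ ξ T1 Z1 P * f1B T P M) * mf ≤
        EBL c Λ B (etaL T1 Z1) (fun T P M => cJ Λ ξ T1 Z1 P * (f1B T P M * f2B T P M)) * m1 := by
    intro T1 hT1 Z1 hZ1 hs
    have hle : (minL Λ B).Le (etaL T1 Z1) := by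
      refine ⟨?_, Finset.empty_subset _, ?_⟩
      · intro v hv
        have h := Finset.mem_sdiff.1 (hT1 hv)
        exact Finset.mem_sdiff.2 ⟨Finset.mem_union_left _ h.1, h.2⟩
      · intro e he
        obtain ⟨t, ht, rfl⟩ := mem_emb.1 he
        rw [Finset.mem_filter] at ht
        refine Finset.mem_union_left _ (t_mem_emb.2 (Finset.mem_filter.2 ⟨hZ1 ht.1, fun v hv => ?_⟩))
        have h := Finset.mem_sdiff.1 (hT1 (cs_minus (hs t ht.1) ht.2 v hv))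
        exact Finset.mem_sdiff.2 ⟨Finset.mem_union_left _ h.1, h.2⟩
    have hok := etaL_ok (B := B) hT1 hZ1
    have hincu : Inc (fun T P M => cJ Λ ξ T1 Z1 P * f1B T P M) := by
      intro T T' P P' M M' hT hP hM
      exact mul_le_mul (cJ_inc Λ ξ T1 Z1 T T' P P' M M' hT hP hM) (hinc1 T T' P P' M M' hT hP hM)
        (h10 _) (cJ_nonneg Λ ξ T1 Z1 P')
    have h1 := EBL_mono hc (Λ := Λ) (minL_ok Λ B) hok hle hinc2
    have h2 := EBL_fkg hc (Λ := Λ) hok hincu hinc2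
    have o1 : 0 < EBL c Λ B (etaL T1 Z1) (fun _ _ _ => 1) := EBL_one_pos hc hok
    have hA : 0 ≤ EBL c Λ B (etaL T1 Z1) (fun T P M => cJ Λ ξ T1 Z1 P * f1B T P M) :=
      EBL_nonneg hc fun T P M => mul_nonneg (cJ_nonneg Λ ξ T1 Z1 P) (h10 _)
    have e : (fun T P M => cJ Λ ξ T1 Z1 P * (f1B T P M * f2B T P M)) =
        fun T P M => cJ Λ ξ T1 Z1 P * f1B T P M * f2B T P M := by
      funext T P M; ring
    rw [e]
    set o := EBL c Λ B (etaL T1 Z1) (fun _ _ _ => 1)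
    set a := EBL c Λ B (etaL T1 Z1) (fun T P M => cJ Λ ξ T1 Z1 P * f1B T P M)
    set b := EBL c Λ B (etaL T1 Z1) f2B
    set d := EBL c Λ B (etaL T1 Z1) (fun T P M => cJ Λ ξ T1 Z1 P * f1B T P M * f2B T P M)
    have h3 : a * (mf * o) ≤ a * (m1 * b) := mul_le_mul_of_nonneg_left h1 hA
    have h4 : m1 * (a * b) ≤ m1 * (o * d) := mul_le_mul_of_nonneg_left h2 hm1pos.le
    have h5 : o * (a * mf) ≤ o * (d * m1) := by linarith
    exact le_of_mul_le_mul_left h5 o1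
  have s1 := envL c hΛ hξ hBK hIV (incP_mul hf1 hf2 h10 h20) (inTZ_mul hin1 hin2) hg
  have s2 := envL c hΛ hξ hBK hIV hf1 hin1 hg
  have p2 := nL_pos Λ ∅
  have hmain : S0 c Λ ξ (fun ω => g ω * f1 ω) * mf ≤ S0 c Λ ξ (fun ω => g ω * (f1 ω * f2 ω)) * m1 := by
    have h7 := sum_envL_le hc (Λ := Λ) (B := B) (K := upT Λ) hg0
      (a := fun T1 Z1 => EBL c Λ B (etaL T1 Z1) (fun T P M => cJ Λ ξ T1 Z1 P * f1B T P M) * mf)
      (b := fun T1 Z1 => EBL c Λ B (etaL T1 Z1)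
        (fun T P M => cJ Λ ξ T1 Z1 P * (f1B T P M * f2B T P M)) * m1) hloc
    refine le_of_mul_le_mul_left ?_ p2
    rw [← mul_assoc, ← mul_assoc, s1, s2, mul_assoc, mul_assoc, Finset.sum_mul, Finset.sum_mul]
    simp only [Finset.sum_mul, mul_assoc] at h7 ⊢
    exact h7
  have e1 := EBL_min c (Λ := Λ) hB hBK hIV hf2 hin2
  have e2 := EBL_min c (Λ := Λ) hB hBK hIV incP_one (inTZ_one B)
  rw [S_one] at e2
  have hZ0 := Z0_pos hc (Λ := Λ) hLip
  have hZB := Z_pos hc B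
  have hn := Nm_pos B
  have hratio : Em c B f2 = mf / m1 := by
    unfold Em
    rw [E_eq_S, div_eq_div_iff hZB.ne' hm1pos.ne']
    have h8 : nL Λ ∅ * Nm B * (S c B (fun ω => f2 (addH 2 ω)) * m1) =
        nL Λ ∅ * Nm B * (mf * Z c B) := by
      calc _ = (nL Λ ∅ * S c B (fun ω => f2 (addH 2 ω))) * (m1 * Nm B) := by ring
        _ = (mf * Nm B) * (nL Λ ∅ * Z c B) := by rw [← e1, e2]
        _ = _ := by ring
    exact mul_left_cancel₀ (by positivity) h8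
  unfold E0
  rw [hratio, div_mul_div_comm, div_le_div_iff₀ (mul_pos hZ0 hm1pos) hZ0]
  nlinarith [mul_le_mul_of_nonneg_left hmain hZ0.le]

end Crest.Agent.R144.LmB702
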