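import Crest.Agent.R144.LmB1_702
import Crest.Agent.R144.Bnd0_991

/-!
# R144, block BND / B2 (helper702), part 2: plus-closed layers under the law with fixed boundary heights, in
the presence of the constraints `Cn N`, `Kn X`

* `iter_abs` : abstract iteration over the scales `(K+1)^k n`;
* `circ0` : one scale, `E0 c L ξ`, `ξ ∈ {0, 1}`;
* `decay0` : several scales;
* `circE` : one scale, `E c Q`, constraint `Cn N`.
-/

set_option autoImplicit false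
set_option linter.unusedSectionVars false

noncomputable section

namespace Crest.Agent.R144.LmB702

open Finset
open Crest.Agent.R144.It844 (P2 Lip Cst adj_iff adj_symm lip_iff upT mem_upT)
open Crest.Agent.R144.Zg349 Crest.Agent.R144.Zk349 Crest.Agent.R144.Zd349 Crest.Agent.R144.Zm349
open Crest.Agent.R144.Ze349 Crest.Agent.R144.Zs349 Crest.Agent.R144.Zo349
open Crest.Agent.R144.Ccn2311 (incP_mul inTZ_mul Em lower2)
open Crest.Agent.R144.Rsw867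
open Crest.Agent.R144.Bnd991
open Crest.ProbabilityR.HexHeights (Adj)

/-- triangles of the ray in a ball are interior -/
theorem mem_IV_ray {b t : P2} {r : ℕ} (hr : 1 ≤ r) (h : t ∈ ray b) (ht : t ∈ ball b r) :
    t ∈ IV (ball b r) := by
  obtain ⟨h1, h2⟩ := h
  rw [mem_ball] at ht
  rw [mem_IV, mem_ball, mem_ball, mem_ball]
  simp only [abs_le] at *
  omega

/-- `ind BlkPᶜ` at a large scale is below the product over two scales -/
theorem ind_two {a : P2} {K k n : ℕ} (hK : 4 ≤ K) (hn : 1 ≤ n) (ω : Cfg) :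
    ind (BlkP a n (2 * ((K + 1) ^ (k + 1) * n)))ᶜ ω ≤
      ind (BlkP a ((K + 1) ^ (k + 1) * n) (2 * ((K + 1) ^ (k + 1) * n)))ᶜ ω *
        ind (BlkP a n (2 * ((K + 1) ^ k * n)))ᶜ ω := by
  set n' := (K + 1) ^ (k + 1) * n with hn'
  have hst := scale_step (K := K) hn hn'
  have h2n : n ≤ n' := by rw [hn']; exact Nat.le_mul_of_pos_left _ (by positivity)
  have i1 : ind (BlkP a n (2 * n'))ᶜ ω ≤ ind (BlkP a n' (2 * n'))ᶜ ω :=
    ind_le_ind fun hω hω' => hω (blkP_anti h2n le_rfl hω')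
  have i2 : ind (BlkP a n (2 * n'))ᶜ ω ≤ ind (BlkP a n (2 * ((K + 1) ^ k * n)))ᶜ ω := by
    refine ind_le_ind fun hω hω' => hω (blkP_anti le_rfl ?_ hω')
    have : (K + 1) ^ k * n ≤ K * ((K + 1) ^ k * n) := Nat.le_mul_of_pos_left _ (by omega)
    omega
  have : ind (BlkP a n (2 * n'))ᶜ ω =
      ind (BlkP a n (2 * n'))ᶜ ω * ind (BlkP a n (2 * n'))ᶜ ω := by
    by_cases hω : ω ∈ (BlkP a n (2 * n'))ᶜ
    · rw [ind_of_mem hω]; norm_num
    · rw [ind_of_not_mem hω]; norm_num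
  rw [this]
  exact mul_le_mul i1 i2 (ind_nonneg _ _) (ind_nonneg _ _)

/-- **abstract iteration** -/
theorem iter_abs {Ef : (Cfg → ℝ) → ℝ} (mono : ∀ f g : Cfg → ℝ, (∀ ω, f ω ≤ g ω) → Ef f ≤ Ef g)
    {G : Cfg → ℝ} (hG : ∀ ω, 0 ≤ G ω) {K : ℕ} (hK : 4 ≤ K) {p : ℝ} (hp1 : p ≤ 1) {a : P2} {M : ℕ}
    (one : ∀ n, 1 ≤ n → K * n ≤ M → ∀ g : Cfg → ℝ, (∀ ω, 0 ≤ g ω) → OffTZ (ball a (K * n)) g →
      Ef (fun ω => g ω * G ω * ind (BlkP a n (2 * n))ᶜ ω) ≤ (1 - p) * Ef (fun ω => g ω * G ω))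
    (k : ℕ) {n : ℕ} (hn : 1 ≤ n) (hM : K * ((K + 1) ^ k * n) ≤ M) {g : Cfg → ℝ}
    (hg0 : ∀ ω, 0 ≤ g ω) (hg : OffTZ (ball a (K * ((K + 1) ^ k * n))) g) :
    Ef (fun ω => g ω * G ω * ind (BlkP a n (2 * ((K + 1) ^ k * n)))ᶜ ω) ≤
      (1 - p) ^ (k + 1) * Ef (fun ω => g ω * G ω) := by
  induction k generalizing g with
  | zero =>
    simp only [pow_zero, one_mul, zero_add, pow_one] at hM hg ⊢
    exact one n hn hM g hg0 hg
  | succ k ih =>
    set n' := (K + 1) ^ (k + 1) * n with hn'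
    have h1n : 1 ≤ n' := Nat.mul_pos (by positivity) hn
    have hst := scale_step (K := K) hn hn'
    have hle : K * ((K + 1) ^ k * n) ≤ K * n' := by
      have : n' ≤ K * n' := Nat.le_mul_of_pos_left _ (by omega)
      omega
    have hsub : ball a (K * ((K + 1) ^ k * n)) ⊆ ball a (K * n') := ball_mono a hle
    set g' : Cfg → ℝ := fun ω => g ω * ind (BlkP a n' (2 * n'))ᶜ ω with hg'
    have hg'0 : ∀ ω, 0 ≤ g' ω := fun ω => mul_nonneg (hg0 ω) (ind_nonneg _ _)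
    have hg'off : OffTZ (ball a (K * ((K + 1) ^ k * n))) g' :=
      offTZ_mul (offTZ_mono hsub hg) (offTZ_compl (offTZ_blkP a (by omega) hst (Finset.Subset.refl _)))
    have e1 := ih (hle.trans hM) hg'0 hg'off
    have e2 := one n' h1n hM g hg0 hg
    have e3 : Ef (fun ω => g ω * G ω * ind (BlkP a n (2 * n'))ᶜ ω) ≤
        Ef (fun ω => g' ω * G ω * ind (BlkP a n (2 * ((K + 1) ^ k * n)))ᶜ ω) := by
      refine mono _ _ fun ω => ?_
      have i3 := ind_two (a := a) (K := K) (k := k) (n := n) hK hn ω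
      calc g ω * G ω * ind (BlkP a n (2 * n'))ᶜ ω ≤ g ω * G ω * (ind (BlkP a n' (2 * n'))ᶜ ω *
            ind (BlkP a n (2 * ((K + 1) ^ k * n)))ᶜ ω) :=
            mul_le_mul_of_nonneg_left i3 (mul_nonneg (hg0 ω) (hG ω))
        _ = _ := by rw [hg']; ring
    have hp : (0 : ℝ) ≤ (1 - p) ^ (k + 1) := by
      have : (0 : ℝ) ≤ 1 - p := by linarith
      positivity
    have e4 : Ef (fun ω => g' ω * G ω) = Ef (fun ω => g ω * G ω * ind (BlkP a n' (2 * n'))ᶜ ω) := by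
      congr 1; funext ω; rw [hg']; ring
    calc _ ≤ _ := e3
      _ ≤ (1 - p) ^ (k + 1) * Ef (fun ω => g' ω * G ω) := e1
      _ ≤ (1 - p) ^ (k + 1) * ((1 - p) * Ef (fun ω => g ω * G ω)) := by
          rw [e4]; exact mul_le_mul_of_nonneg_left e2 hp
      _ = (1 - p) ^ (k + 1 + 1) * Ef (fun ω => g ω * G ω) := by ring

/-- the constraint -/
def CK (N X : Set P2) (ω : Cfg) : ℝ := Cn N ω * Kn X ω

theorem CK_nonneg (N X : Set P2) (ω : Cfg) : 0 ≤ CK N X ω := mul_nonneg (Cn_nonneg _ _) (Kn_nonneg _ _)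

theorem CK_le_one (N X : Set P2) (ω : Cfg) : CK N X ω ≤ 1 :=
  mul_le_one₀ (Cn_le_one _ _) (Kn_nonneg _ _) (Kn_le_one _ _)

/-- part off `B` -/
def CKo (N X : Set P2) (B : Finset P2) (ω : Cfg) : ℝ :=
  Cn (N \ (IV B : Set P2)) ω * Kn (X \ (B : Set P2)) ω
/-- part in `B` -/
def CKi (N X : Set P2) (B : Finset P2) (ω : Cfg) : ℝ :=
  Cn (N ∩ (IV B : Set P2)) ω * Kn (X ∩ (B : Set P2)) ω

theorem CK_split (N X : Set P2) (B : Finset P2) (ω : Cfg) : CK N X ω = CKo N X B ω * CKi N X B ω := by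
  unfold CK CKo CKi
  rw [Cn_split N B, Kn_split X B]
  ring

theorem CKo_nonneg (N X : Set P2) (B : Finset P2) (ω : Cfg) : 0 ≤ CKo N X B ω :=
  mul_nonneg (Cn_nonneg _ _) (Kn_nonneg _ _)
theorem CKi_nonneg (N X : Set P2) (B : Finset P2) (ω : Cfg) : 0 ≤ CKi N X B ω :=
  mul_nonneg (Cn_nonneg _ _) (Kn_nonneg _ _)

theorem offTZ_CKo (N X : Set P2) (B : Finset P2) : OffTZ B (CKo N X B) :=
  offTZ_mul (offTZ_Cn_diff N B) (offTZ_Kn fun _ h => h.2)

theorem inTZ_CKi {N X : Set P2} {B : Finset P2} (h : ∀ t ∈ X, t ∈ B → t ∈ IV B) :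
    InTZ B (CKi N X B) := inTZ_mul (inTZ_Cn_inter N B) (inTZ_Kn fun t ht => h t ht.1 ht.2)

theorem incP_CKi (N X : Set P2) (B : Finset P2) : IncP (CKi N X B) :=
  incP_mul (incP_Cn _) (incP_Kn _) (Cn_nonneg _) (Kn_nonneg _)

theorem em_blkP {c : ℝ} {K : ℕ} {p : ℝ} (hc : 1 ≤ c) (hR : RSW c K p) {n : ℕ} (hn : 1 ≤ n) (b : P2) :
    p ≤ Em c (ball b (K * n)) (ind (BlkP b n (2 * n))) := by
  unfold Em
  have e : E c (ball b (K * n)) (fun ω => ind (BlkP b n (2 * n)) (addH 2 ω)) =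
      E c (ball b (K * n)) (ind (Blk b n (2 * n))) := E_congr fun ω _ => ind_congr blkP_addH2
  rw [e]
  have h := hR.minus n hn b (ball b (K * n)) (sc_ball _ _) (Finset.Subset.refl _) (fun _ => 1)
    (fun _ => zero_le_one) (fun _ _ _ _ => rfl)
  rw [E_const hc, mul_one] at h
  simpa using h

/-- **one scale, fixed boundary heights in `{0, 1}`** -/
theorem circ0 {c : ℝ} {K : ℕ} {p : ℝ} (hc : 1 ≤ c) (hR : RSW c K p) {L : Finset P2} {ξ : P2 → ℤ}
    (hL : IsConn ((L : Set P2)ᶜ)) (hξ : Bv L ξ) (hLip : Lip ξ) {N X : Set P2} {b : P2} {n : ℕ} (hn : 1 ≤ n)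
    (hV : VF (ball b (K * n)) ⊆ L) (hX : ∀ t ∈ X, t ∈ ball b (K * n) → t ∈ ray b)
    {g : Cfg → ℝ} (hg0 : ∀ ω, 0 ≤ g ω) (hg : OffTZ (ball b (K * n)) g) :
    E0 c L ξ (fun ω => g ω * CK N X ω * ind (BlkP b n (2 * n))ᶜ ω) ≤
      (1 - p) * E0 c L ξ (fun ω => g ω * CK N X ω) := by
  set B := ball b (K * n) with hB
  have hKn : 1 ≤ K * n := by have := hR.K4; nlinarith
  have hBK : B ⊆ upT L := fun t ht =>
    mem_upT_iff.2 ⟨t, hV (mem_VF.2 ⟨t, ht, base_mem_up t⟩), base_mem_up t⟩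
  have hIV : IV B ⊆ L := (IV_sub_VF B).trans hV
  have h := lower0u hc hL hξ (sc_ball b (K * n)) hBK hIV hLip (f1 := CKi N X B)
    (f2 := ind (BlkP b n (2 * n))) (g := fun ω => g ω * CKo N X B ω) (incP_CKi N X B)
    (inTZ_CKi fun t ht htB => mem_IV_ray hKn (hX t ht htB) htB) (CKi_nonneg N X B)
    (incP_blkP b n (2 * n)) (inTZ_blkP b (by omega) (ball_sub_scale b hR.K4 hn)) (ind_nonneg _)
    (fun ω => mul_nonneg (hg0 ω) (CKo_nonneg N X B ω)) (offTZ_mul hg (offTZ_CKo N X B))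
  have hp := em_blkP hc hR hn b
  have e1 : E0 c L ξ (fun ω => g ω * CKo N X B ω * CKi N X B ω) =
      E0 c L ξ (fun ω => g ω * CK N X ω) := by
    congr 1; funext ω; rw [CK_split N X B]; ring
  have e2 : E0 c L ξ (fun ω => g ω * CKo N X B ω * (CKi N X B ω * ind (BlkP b n (2 * n)) ω)) =
      E0 c L ξ (fun ω => g ω * CK N X ω * ind (BlkP b n (2 * n)) ω) := by
    congr 1; funext ω; rw [CK_split N X B]; ring
  rw [e1, e2] at h
  have e3 : E0 c L ξ (fun ω => g ω * CK N X ω * ind (BlkP b n (2 * n))ᶜ ω) =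
      E0 c L ξ (fun ω => g ω * CK N X ω) -
        E0 c L ξ (fun ω => g ω * CK N X ω * ind (BlkP b n (2 * n)) ω) := by
    rw [← E0_sub]
    congr 1; funext ω; rw [ind_compl]; ring
  have h0 : 0 ≤ E0 c L ξ (fun ω => g ω * CK N X ω) :=
    E0_nonneg hc fun ω _ => mul_nonneg (hg0 ω) (CK_nonneg N X ω)
  rw [e3]
  have := mul_le_mul_of_nonneg_left hp h0
  linarith

/-- **several scales, fixed boundary heights in `{0, 1}`** -/
theorem decay0 {c : ℝ} {K : ℕ} {p : ℝ} (hc : 1 ≤ c) (hR : RSW c K p) {L : Finset P2} {ξ : P2 → ℤ}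
    (hL : IsConn ((L : Set P2)ᶜ)) (hξ : Bv L ξ) (hLip : Lip ξ) {N X : Set P2} {b : P2} (k : ℕ) {n : ℕ}
    (hn : 1 ≤ n) (hV : VF (ball b (K * ((K + 1) ^ k * n))) ⊆ L)
    (hX : ∀ t ∈ X, t ∈ ball b (K * ((K + 1) ^ k * n)) → t ∈ ray b) :
    E0 c L ξ (fun ω => CK N X ω * ind (BlkP b n (2 * ((K + 1) ^ k * n)))ᶜ ω) ≤
      (1 - p) ^ (k + 1) * E0 c L ξ (CK N X) := by
  have h := iter_abs (Ef := E0 c L ξ) (fun f g hfg => E0_mono hc fun ω _ _ => hfg ω)
    (CK_nonneg N X) hR.K4 (by linarith [hR.p1] : p ≤ 1) (a := b) (M := K * ((K + 1) ^ k * n))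
    (fun m hm hmM g hg0 hg => circ0 hc hR hL hξ hLip hm
      ((VF_mono (ball_mono b hmM)).trans hV) (fun t ht htB => hX t ht (ball_mono b hmM htB)) hg0 hg)
    k hn le_rfl (g := fun _ => 1) (fun _ => zero_le_one) (fun _ _ _ _ => rfl)
  simp only [one_mul] at h
  exact h

/-- **one scale, F-type law, constraint `Cn N`** -/
theorem circE {c : ℝ} {K : ℕ} {p : ℝ} (hc : 1 ≤ c) (hR : RSW c K p) {Q : Finset P2} (hQ : SC Q)
    (N : Set P2) (b : P2) {n : ℕ} (hn : 1 ≤ n) :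
    p * E c Q (Cn N) ≤ E c Q (fun ω => Cn N ω * ind (BlkP b n (2 * n)) ω) := by
  set B := ball b (K * n) with hB
  have h := lower2 hc hQ (sc_ball b (K * n)) (f1 := Cn (N ∩ (IV B : Set P2)))
    (f2 := ind (BlkP b n (2 * n))) (g := Cn (N \ (IV B : Set P2))) (incP_Cn _) (inTZ_Cn_inter N B)
    (Cn_nonneg _) (incP_blkP b n (2 * n)) (inTZ_blkP b (by omega) (ball_sub_scale b hR.K4 hn))
    (ind_nonneg _) (Cn_nonneg _) (offTZ_Cn_diff N B)
  have hp := em_blkP hc hR hn b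
  have e1 : E c Q (fun ω => Cn (N \ (IV B : Set P2)) ω * Cn (N ∩ (IV B : Set P2)) ω) = E c Q (Cn N) := by
    congr 1; funext ω; rw [← Cn_split N B]
  have e2 : E c Q (fun ω => Cn (N \ (IV B : Set P2)) ω *
      (Cn (N ∩ (IV B : Set P2)) ω * ind (BlkP b n (2 * n)) ω)) =
      E c Q (fun ω => Cn N ω * ind (BlkP b n (2 * n)) ω) := by
    congr 1; funext ω; rw [Cn_split N B]; ring
  rw [e1, e2] at h
  have h0 : 0 ≤ E c Q (Cn N) := E_nonneg hc fun ω _ => Cn_nonneg N ω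
  have := mul_le_mul_of_nonneg_left hp h0
  linarith

end Crest.Agent.R144.LmB702
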