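import Crest.Agent.R144.LmB2_702
import Crest.Agent.R144.Hf10_702
import Crest.Agent.R144.Rfl_38
import Crest.Agent.R144.Bx1_695

/-!
# R144, block BND / B2 (helper702), part 3: the height law with data `1` far away and `{0, 1}` on the near
non-free sites

`U` up triangles (weights), `N` constrained sites, `L` sites; `IF U N` = free sites `IV U \ N`;
`LL U N L` = Lipschitz heights equal to `1` off `L` and `∈ {0, 1}` off `IF U N`;
`EL x U N L f` = expectation with the weights of the triangles of `U`.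

* `EI_le_EL`  : `EI x U (IF U N) f ≤ EL x U N L f`, `f` increasing (Holley);
* `EL_refl`   : reflection at height `1`;
* `EL_le_of`  : `EL f ≤ C` if `ex x (IF U N) η f ≤ C` for all data `η ∈ {0, 1}`;
* `S0_eq`     : `E0 c L 1 [CK f]` is a multiple of `EL f`.
-/

set_option autoImplicit false
set_option linter.unusedSectionVars false
set_option linter.unusedVariables false

noncomputable section

namespace Crest.Agent.R144.LmB702

open Finset
open Crest.Agent.R161.Lsm375 (LSM)
open Crest.Agent.R144.It844 (P2 Lip Cst adj_iff adj_symm lip_iff upT mem_upT tw E3 E3_eq_tw lsm_E3 holley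
  lip_const)
open Crest.Agent.R144.Zg349 Crest.Agent.R144.Zk349 Crest.Agent.R144.Zd349 Crest.Agent.R144.Zm349
open Crest.Agent.R144.Ze349 Crest.Agent.R144.Zs349 Crest.Agent.R144.Zo349
open Crest.Agent.R144.Hf702 (htsI mem_htsI SI EI SI_one_pos tw_nonneg tw_mul iv_of_upT cr_mem)
open Crest.Agent.R144.Rsw867
open Crest.Agent.R144.Bnd991
open Crest.Agent.R144.Bx695 (cw KcI)
open Crest.ProbabilityR.HexHeights (Adj)

open Classical in
/-- free sites -/
def IF (U : Finset P2) (N : Set P2) : Finset P2 := (IV U).filter fun v => v ∉ N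

theorem mem_IF {U : Finset P2} {N : Set P2} {v : P2} : v ∈ IF U N ↔ v ∈ IV U ∧ v ∉ N := by
  classical
  unfold IF
  rw [Finset.mem_filter]

theorem IF_sub (U : Finset P2) (N : Set P2) : IF U N ⊆ IV U := fun v hv => (mem_IF.1 hv).1

open Classical in
/-- heights `1` off `L`, `{0, 1}` off the free sites -/
def LL (U : Finset P2) (N : Set P2) (L : Finset P2) : Finset (P2 → ℤ) :=
  (It844.conf L fun _ => 1).filter fun h => ∀ v, v ∉ IF U N → h v = 0 ∨ h v = 1

theorem mem_LL {U : Finset P2} {N : Set P2} {L : Finset P2} {h : P2 → ℤ} :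
    h ∈ LL U N L ↔ Lip h ∧ (∀ v, v ∉ L → h v = 1) ∧ ∀ v, v ∉ IF U N → h v = 0 ∨ h v = 1 := by
  classical
  unfold LL
  rw [Finset.mem_filter, It844.mem_conf, and_assoc]

/-- unnormalised -/
def SL (x : ℝ) (U : Finset P2) (N : Set P2) (L : Finset P2) (f : (P2 → ℤ) → ℝ) : ℝ :=
  ∑ h ∈ LL U N L, (∏ t ∈ U, tw x h t) * f h
/-- expectation -/
def EL (x : ℝ) (U : Finset P2) (N : Set P2) (L : Finset P2) (f : (P2 → ℤ) → ℝ) : ℝ :=
  SL x U N L f / SL x U N L fun _ => 1

variable {x : ℝ} {U : Finset P2} {N : Set P2} {L : Finset P2}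

theorem SL_one_pos (hx : 0 < x) : 0 < SL x U N L fun _ => 1 := by
  unfold SL
  refine Finset.sum_pos (fun h _ => ?_) ⟨fun _ => 1, mem_LL.2 ⟨lip_const 1, fun _ _ => rfl,
    fun _ _ => Or.inr rfl⟩⟩
  rw [mul_one]
  exact Finset.prod_pos fun t _ => It844.tw_pos hx _ _

theorem EL_mono (hx : 0 < x) {f g : (P2 → ℤ) → ℝ} (h : ∀ a ∈ LL U N L, f a ≤ g a) :
    EL x U N L f ≤ EL x U N L g := by
  unfold EL
  refine div_le_div_of_nonneg_right ?_ (SL_one_pos hx).le
  exact Finset.sum_le_sum fun a ha => mul_le_mul_of_nonneg_left (h a ha)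
    (Finset.prod_nonneg fun t _ => tw_nonneg x a t)

theorem EL_neg (f : (P2 → ℤ) → ℝ) : EL x U N L (fun h => -f h) = -EL x U N L f := by
  unfold EL SL
  rw [← neg_div, ← Finset.sum_neg_distrib]
  congr 1
  exact Finset.sum_congr rfl fun h _ => by ring

/-- **Holley comparison** -/
theorem EI_le_EL (hx0 : 0 < x) (hx1 : x ≤ 1) (hL : ∀ v, v ∉ L → v ∉ IF U N)
    {f : (P2 → ℤ) → ℝ} (hf : ∀ a b : P2 → ℤ, a ≤ b → f a ≤ f b) :
    EI x U (IF U N) f ≤ EL x U N L f := by
  classical
  set I := IF U N with hI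
  set μ : (P2 → ℤ) → ℝ := fun h => ∏ t ∈ U, E3 x h t with hμ
  have hμl : LSM μ := LSM.prod _ fun _ _ => lsm_E3 hx0.le hx1 _
  have e1 : ∀ h ∈ LL U N L, μ h = ∏ t ∈ U, tw x h t := fun h hh =>
    Finset.prod_congr rfl fun t _ => E3_eq_tw x (mem_LL.1 hh).1 t
  have e2 : ∀ h ∈ htsI U I, μ h = ∏ t ∈ U, tw x h t := fun h hh =>
    Finset.prod_congr rfl fun t _ => E3_eq_tw x (mem_htsI.1 hh).1.toLip t
  have z1 : ∑ h ∈ LL U N L, μ h = SL x U N L fun _ => 1 := by
    unfold SL
    exact Finset.sum_congr rfl fun h hh => by rw [e1 h hh, mul_one]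
  have z2 : ∑ h ∈ htsI U I, μ h = SI x U I fun _ => 1 := by
    unfold SI
    exact Finset.sum_congr rfl fun h hh => by rw [e2 h hh, mul_one]
  have key := holley hμl (htsI U I) (LL U N L) (by rw [z2]; exact SI_one_pos x U I)
    (by rw [z1]; exact SL_one_pos hx0) (fun a ha b hb => ?_) (f := f) (fun a _ b _ h => hf a b h)
  · have l1 : EL x U N L f = (∑ a ∈ LL U N L, μ a * f a) / ∑ a ∈ LL U N L, μ a := by
      unfold EL
      rw [z1]
      congr 1
      unfold SL
      exact Finset.sum_congr rfl fun h hh => by rw [e1 h hh]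
    have l2 : EI x U I f = (∑ b ∈ htsI U I, μ b * f b) / ∑ b ∈ htsI U I, μ b := by
      unfold EI
      rw [z2]
      congr 1
      unfold SI
      exact Finset.sum_congr rfl fun h hh => by rw [e2 h hh]
    rw [l1, l2]
    exact key
  · rw [mem_htsI] at ha
    rw [mem_LL] at hb
    obtain ⟨hbL, hb1, hb2⟩ := hb
    have haL := ha.1.toLip
    refine ⟨mem_htsI.2 ⟨⟨fun t _ i j => lip_cr (haL.inf hbL) t i j, fun v hv => ?_, fun v hv => ?_⟩,
      fun v hv => ?_⟩, mem_LL.2 ⟨haL.sup hbL, fun v hv => ?_, fun v hv => ?_⟩⟩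
    · have hv' : v ∉ I := fun h => hv (IF_sub U N h)
      simp only [Pi.inf_apply]
      rcases ha.1.bd v hv with h | h <;> rcases hb2 v hv' with h' | h' <;> rw [h, h'] <;> decide
    · have hv' : v ∉ I := fun h => hv (IV_sub_VF U (IF_sub U N h))
      simp only [Pi.inf_apply, ha.1.off v hv]
      rcases hb2 v hv' with h' | h' <;> rw [h'] <;> decide
    · simp only [Pi.inf_apply]
      rcases ha.2 v hv with h | h <;> rcases hb2 v hv with h' | h' <;> rw [h, h'] <;> decide
    · simp only [Pi.sup_apply, hb1 v hv]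
      rcases ha.2 v (hL v hv) with h | h <;> rw [h] <;> decide
    · simp only [Pi.sup_apply]
      rcases ha.2 v hv with h | h <;> rcases hb2 v hv with h' | h' <;> rw [h, h'] <;> decide

theorem EL_le_EI (hx0 : 0 < x) (hx1 : x ≤ 1) (hL : ∀ v, v ∉ L → v ∉ IF U N)
    {f : (P2 → ℤ) → ℝ} (hf : ∀ a b : P2 → ℤ, a ≤ b → f b ≤ f a) :
    EL x U N L f ≤ EI x U (IF U N) f := by
  have h := EI_le_EL hx0 hx1 hL (f := fun h => -f h) fun a b hab => neg_le_neg (hf a b hab)
  have e : EI x U (IF U N) (fun h => -f h) = -EI x U (IF U N) f := by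
    unfold EI SI
    rw [← neg_div, ← Finset.sum_neg_distrib]
    congr 1
    exact Finset.sum_congr rfl fun h _ => by ring
  rw [EL_neg, e] at h
  linarith

/-! ### reflection at height `1` -/

theorem R_LL (hL : ∀ v, v ∉ L → v ∉ IF U N) {h : P2 → ℤ} (hh : h ∈ LL U N L) :
    Rfl38.R Adj {v | v ∉ IF U N} 1 h ∈ LL U N L := by
  rw [mem_LL] at hh ⊢
  obtain ⟨h1, h2, h3⟩ := hh
  refine ⟨Rfl38.lip_R h1, fun v hv => ?_, fun v hv => ?_⟩
  · rw [Rfl38.R_bd (show v ∈ {v | v ∉ IF U N} from hL v hv)]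
    exact h2 v hv
  · rw [Rfl38.R_bd (show v ∈ {v | v ∉ IF U N} from hv)]
    exact h3 v hv

open Classical in
/-- **reflection bound**: `Φ` odd under `h ↦ 2 - h` on `B` -/
theorem EL_refl (hx : 0 < x) (hL : ∀ v, v ∉ L → v ∉ IF U N) (B : Set P2) {Φ : (P2 → ℤ) → ℝ}
    (hΦ : ∀ h g : P2 → ℤ, (∀ v ∈ B, g v = 2 * 1 - h v) → Φ g = - Φ h) (hb : ∀ h, |Φ h| ≤ 1) :
    EL x U N L Φ ≤ EL x U N L fun h =>
      if ∃ v ∈ B, v ∈ Rfl38.Cl Adj {v | v ∉ IF U N} 1 h then 1 else 0 := by
  have h0 := Rfl38.sum_le (adj := Adj) (Bd := {v | v ∉ IF U N}) (k := 1) (S := LL U N L)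
    (W := fun h => ∏ t ∈ U, tw x h t) (B := B) (Φ := Φ) (fun h hh => R_LL hL hh)
    (fun h _ => Finset.prod_congr rfl fun u _ => by
      unfold tw; rw [if_congr (Rfl38.cst_R u) rfl rfl])
    (fun h _ => Finset.prod_nonneg fun t _ => tw_nonneg x h t) hΦ hb
  unfold EL
  refine div_le_div_of_nonneg_right ?_ (SL_one_pos hx).le
  exact (le_abs_self _).trans h0

/-! ### spatial Markov property -/

theorem conf_comm {I : Finset P2} {h g : P2 → ℤ} (hh : Lip h) (hg : g ∈ It844.conf I h) :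
    h ∈ It844.conf I g := by
  rw [It844.mem_conf] at *
  exact ⟨hh, fun v hv => (hg.2 v hv).symm⟩

theorem LL_of_conf (hL : ∀ v, v ∉ L → v ∉ IF U N) {h g : P2 → ℤ} (hh : h ∈ LL U N L)
    (hg : g ∈ It844.conf (IF U N) h) : g ∈ LL U N L := by
  rw [mem_LL] at *
  rw [It844.mem_conf] at hg
  refine ⟨hg.1, fun v hv => ?_, fun v hv => ?_⟩
  · rw [hg.2 v (hL v hv)]; exact hh.2.1 v hv
  · rw [hg.2 v hv]; exact hh.2.2 v hv

theorem upT_IF (U : Finset P2) (N : Set P2) : upT (IF U N) ⊆ U := by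
  intro t ht
  obtain ⟨v, hv, hvt⟩ := mem_upT_iff.1 ht
  exact mem_IV'.1 (IF_sub U N hv) t hvt

theorem EL_le_of (hx : 0 < x) (hL : ∀ v, v ∉ L → v ∉ IF U N) {f : (P2 → ℤ) → ℝ} {C : ℝ}
    (hC : ∀ η : P2 → ℤ, Lip η → (∀ v, v ∉ IF U N → η v = 0 ∨ η v = 1) →
      It844.ex x (IF U N) η f ≤ C) : EL x U N L f ≤ C := by
  classical
  set I := IF U N with hI
  set rest : (P2 → ℤ) → ℝ := fun h => ∏ t ∈ U \ upT I, tw x h t with hrest
  have hsplit : ∀ h : P2 → ℤ, ∏ t ∈ U, tw x h t = rest h * It844.wt x I h := by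
    intro h
    unfold It844.wt
    rw [← Finset.prod_sdiff (upT_IF U N)]
  have hrc : ∀ h g : P2 → ℤ, g ∈ It844.conf I h → rest g = rest h := by
    intro h g hg
    rw [It844.mem_conf] at hg
    refine Finset.prod_congr rfl fun t ht => ?_
    obtain ⟨-, ht2⟩ := Finset.mem_sdiff.1 ht
    have hc : ∀ v ∈ up t, g v = h v := fun v hv => hg.2 v fun hvI => ht2 (mem_upT_iff.2 ⟨v, hvI, hv⟩)
    have k1 := hc t (base_mem_up t)
    have k2 := hc (t.1 + 1, t.2) (Zg349.mem_up.2 (Or.inr (Or.inl rfl)))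
    have k3 := hc (t.1, t.2 + 1) (Zg349.mem_up.2 (Or.inr (Or.inr rfl)))
    have k : Cst g t ↔ Cst h t := by
      unfold Cst
      rw [k1, k2, k3]
    unfold tw
    exact if_congr k rfl rfl
  have hZc : ∀ h g : P2 → ℤ, g ∈ It844.conf I h → It844.Z x I g = It844.Z x I h := by
    intro h g hg
    unfold It844.Z
    rw [It844.conf_congr fun v hv => (It844.mem_conf.1 hg).2 v hv]
  have hZp : ∀ h ∈ LL U N L, 0 < It844.Z x I h := fun h hh => It844.Z_pos hx (mem_LL.1 hh).1
  -- symmetric double sum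
  have s1 : SL x U N L f = ∑ h ∈ LL U N L, ∑ g ∈ It844.conf I h,
      rest h * It844.wt x I h * It844.wt x I g * (It844.Z x I h)⁻¹ * f h := by
    unfold SL
    refine Finset.sum_congr rfl fun h hh => ?_
    have : ∑ g ∈ It844.conf I h, rest h * It844.wt x I h * It844.wt x I g * (It844.Z x I h)⁻¹ * f h =
        rest h * It844.wt x I h * f h * ((It844.Z x I h)⁻¹ * ∑ g ∈ It844.conf I h, It844.wt x I g) := by
      rw [Finset.mul_sum, Finset.mul_sum]
      exact Finset.sum_congr rfl fun g _ => by ring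
    rw [this]
    have hz : (It844.Z x I h)⁻¹ * ∑ g ∈ It844.conf I h, It844.wt x I g = 1 :=
      inv_mul_cancel₀ (hZp h hh).ne'
    rw [hz, hsplit]
    ring
  have s2 : ∑ h ∈ LL U N L, ∑ g ∈ It844.conf I h,
      rest h * It844.wt x I h * It844.wt x I g * (It844.Z x I h)⁻¹ * f h =
      ∑ g ∈ LL U N L, ∑ h ∈ It844.conf I g,
        rest h * It844.wt x I h * It844.wt x I g * (It844.Z x I h)⁻¹ * f h := by
    refine Finset.sum_comm' fun h g => ?_
    constructor
    · rintro ⟨h1, h2⟩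
      exact ⟨conf_comm (mem_LL.1 h1).1 h2, LL_of_conf hL h1 h2⟩
    · rintro ⟨h1, h2⟩
      exact ⟨LL_of_conf hL h2 h1, conf_comm (mem_LL.1 h2).1 h1⟩
  have s3 : ∑ g ∈ LL U N L, ∑ h ∈ It844.conf I g,
        rest h * It844.wt x I h * It844.wt x I g * (It844.Z x I h)⁻¹ * f h ≤
      ∑ g ∈ LL U N L, rest g * It844.wt x I g * C := by
    refine Finset.sum_le_sum fun g hg => ?_
    have e : ∑ h ∈ It844.conf I g,
        rest h * It844.wt x I h * It844.wt x I g * (It844.Z x I h)⁻¹ * f h =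
        rest g * It844.wt x I g * It844.ex x I g f := by
      unfold It844.ex
      rw [smul_eq_mul, Finset.mul_sum, Finset.mul_sum]
      refine Finset.sum_congr rfl fun h hh => ?_
      rw [hrc g h hh, hZc g h hh, smul_eq_mul]
      ring
    rw [e]
    have hg' := mem_LL.1 hg
    refine mul_le_mul_of_nonneg_left (hC g hg'.1 hg'.2.2) (mul_nonneg ?_ (It844.wt_nonneg _ _ _))
    exact Finset.prod_nonneg fun t _ => tw_nonneg x g t
  have s4 : ∑ g ∈ LL U N L, rest g * It844.wt x I g * C = C * SL x U N L fun _ => 1 := by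
    unfold SL
    rw [Finset.mul_sum]
    exact Finset.sum_congr rfl fun g _ => by rw [hsplit]; ring
  unfold EL
  rw [div_le_iff₀ (SL_one_pos hx), s1, s2, ← s4]
  exact s3

/-! ### the law with closed triangles -/

theorem sum_zs_kc' (c : ℝ) {F X : Finset P2} {h : P2 → ℤ} (hh : Lip h) (hX : X ⊆ F)
    (hC : ∀ t ∈ X, C1 h t) :
    ∑ z ∈ zs F, wt c F (h, z) * KcI X (h, z) = ∏ t ∈ F \ X, cw c h t := by
  classical
  rw [sum_zs]
  set A : P2 → ℝ := fun t => if C1 h t then (1 : ℝ) else 0 with hA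
  set B : P2 → ℝ := fun t => if t ∈ X then (0 : ℝ) else
    (if C2 h t then (if C1 h t then c - 1 else 1) else 0) with hB
  have h1 : ∀ t ∈ F, A t + B t = if t ∈ X then (if C1 h t then (1 : ℝ) else 0) else cw c h t := by
    intro t ht
    have k1 := cst_iff (h := h) (t := t) (lip_cr hh t)
    have k2 := c1_or_c2 (h := h) (t := t) (lip_cr hh t)
    simp only [hA, hB, cw]
    by_cases hX : t ∈ X
    · rw [if_pos hX, if_pos hX, add_zero]
    · rw [if_neg hX, if_neg hX]
      by_cases a : C1 h t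
      · by_cases b : C2 h t
        · rw [if_pos (k1.2 ⟨a, b⟩), if_pos a, if_pos b, if_pos a]; ring
        · rw [if_neg (fun e => b (k1.1 e).2), if_pos a, if_neg b]; ring
      · have b := k2.resolve_left a
        rw [if_neg (fun e => a (k1.1 e).1), if_neg a, if_pos b, if_neg a]; ring
  have h2 : (∏ t ∈ F \ X, cw c h t) = ∏ t ∈ F, (A t + B t) := by
    rw [Finset.prod_congr rfl h1, ← Finset.prod_sdiff hX]
    have e : ∏ t ∈ X, (if t ∈ X then (if C1 h t then (1 : ℝ) else 0) else cw c h t) = 1 :=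
      Finset.prod_eq_one fun t ht => by rw [if_pos ht, if_pos (hC t ht)]
    rw [e, mul_one]
    exact Finset.prod_congr rfl fun t ht => (if_neg (Finset.mem_sdiff.1 ht).2).symm
  rw [h2, Finset.prod_add]
  refine Finset.sum_congr rfl fun Z hZ => ?_
  rw [Finset.mem_powerset] at hZ
  have h3 : KcI X (h, zb F Z) = ∏ t ∈ F \ Z, if t ∈ X then (0 : ℝ) else 1 := by
    rw [show (∏ t ∈ F \ Z, if t ∈ X then (0 : ℝ) else 1) = ∏ t ∈ F \ Z, if t ∉ X then (1 : ℝ) else 0 from
      Finset.prod_congr rfl fun t _ => by by_cases hX : t ∈ X <;> simp [hX], Finset.prod_ite_zero]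
    unfold KcI
    have e2 : (∀ t ∈ X, zb F Z t = true) ↔ ∀ t ∈ F \ Z, t ∉ X := by
      constructor
      · intro a t ht hX
        have := a t hX
        unfold zb at this
        rw [decide_eq_true_eq] at this
        rw [Finset.mem_sdiff] at ht
        rcases this with h | h
        · exact h ht.1
        · exact ht.2 h
      · intro a t hX
        unfold zb
        rw [decide_eq_true_eq]
        by_contra hcon
        push Not at hcon
        exact a t (Finset.mem_sdiff.2 hcon) hX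
    by_cases hc : ∀ t ∈ X, zb F Z t = true
    · rw [if_pos hc, if_pos (e2.1 hc)]; simp
    · rw [if_neg hc, if_neg fun a => hc (e2.2 a)]
  rw [h3]
  unfold wt
  rw [← Finset.prod_inter_mul_prod_sdiff F Z, Finset.inter_eq_right.2 hZ, mul_assoc,
    ← Finset.prod_mul_distrib]
  congr 1
  · refine Finset.prod_congr rfl fun t ht => ?_
    have : zb F Z t = true := by unfold zb; rw [decide_eq_true_eq]; exact Or.inr ht
    unfold ew
    rw [if_pos this]
  · refine Finset.prod_congr rfl fun t ht => ?_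
    obtain ⟨h1, h2⟩ := Finset.mem_sdiff.1 ht
    have : ¬ zb F Z t = true := by
      unfold zb; rw [decide_eq_true_eq]; push Not; exact ⟨h1, h2⟩
    unfold ew
    rw [if_neg this]
    simp only [hB]
    by_cases hX : t ∈ X
    · rw [if_pos hX, if_pos hX, mul_zero]
    · rw [if_neg hX, if_neg hX, mul_one]

/-- the extra triangles -/
def XX (U L : Finset P2) : Set P2 := {t | t ∈ upT L ∧ t ∉ U}

/-- geometric data: `N` connected with a site off `L`, non-free sites of `L` in `N` -/
structure Geo (U : Finset P2) (N : Set P2) (L : Finset P2) : Prop where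
  conn : IsConn N
  out : ∃ v ∈ N, v ∉ L
  nonfree : ∀ v, v ∉ L → v ∉ IF U N
  near : ∀ v ∈ L, v ∉ IV U → v ∈ N

/-- heights on `N` -/
theorem Geo.ht01 (hG : Geo U N L) {h : P2 → ℤ} (hl : Lip h) (h1 : ∀ v, v ∉ L → h v = 1)
    (hC : ∀ v ∈ N, s1 (h v) = true) {v : P2} (hv : v ∈ N) : h v = 0 ∨ h v = 1 := by
  obtain ⟨u, hu, hu'⟩ := hG.out
  have hp := hG.conn u hu v hv
  induction hp with
  | refl => exact Or.inr (h1 u hu')
  | @tail b d _ hbd ih =>
    have i1 := ih hbd.1
    have i2 := s1_true.1 (hC d hbd.2.1)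
    have i3 := abs_le.1 (lip_adj hl hbd.2.2)
    omega

theorem Geo.mem_LL_iff (hG : Geo U N L) {h : P2 → ℤ} (hh : h ∈ It844.conf L fun _ => 1) :
    h ∈ LL U N L ↔ ∀ v ∈ N, s1 (h v) = true := by
  rw [It844.mem_conf] at hh
  rw [mem_LL]
  constructor
  · rintro ⟨_, _, h3⟩ v hv
    exact s1_true.2 (by rcases h3 v (fun h' => (mem_IF.1 h').2 hv) with h | h <;> rw [h] <;> norm_num)
  · intro hC
    refine ⟨hh.1, hh.2, fun v hv => ?_⟩
    by_cases hL : v ∈ L
    · rw [mem_IF, not_and_not_right] at hv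
      by_cases hI : v ∈ IV U
      · exact hG.ht01 hh.1 hh.2 hC (hv hI)
      · exact hG.ht01 hh.1 hh.2 hC (hG.near v hL hI)
    · exact Or.inr (hh.2 v hL)

/-- **the law with fixed data and closed triangles, as a height law** -/
theorem S0_eq {c : ℝ} (hcx : c * x ^ 2 = 1) (hG : Geo U N L) (f : (P2 → ℤ) → ℝ) :
    S0 c L (fun _ => 1) (fun ω => CK N (XX U L) ω * f ω.1) =
      c ^ (upT L \ (upT L \ U)).card * SL x U N L f := by
  classical
  unfold S0 cf
  rw [Finset.sum_product]
  have key : ∀ h ∈ It844.conf L fun _ => 1, ∑ z ∈ zs (upT L), wt c (upT L) (h, z) *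
      (CK N (XX U L) (h, z) * f h) =
      if h ∈ LL U N L then c ^ (upT L \ (upT L \ U)).card * ((∏ t ∈ U, tw x h t) * f h) else 0 := by
    intro h hh
    by_cases hm : h ∈ LL U N L
    · rw [if_pos hm]
      have hC := (hG.mem_LL_iff hh).1 hm
      obtain ⟨hl, h1, h3⟩ := mem_LL.1 hm
      have hXc : ∀ t ∈ upT L \ U, ∀ v ∈ up t, h v = 0 ∨ h v = 1 := fun t ht v hv =>
        h3 v fun hI => (Finset.mem_sdiff.1 ht).2 (mem_IV'.1 (IF_sub U N hI) t hv)
      have hC1 : ∀ t ∈ upT L \ U, C1 h t := fun t ht => by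
        have k : ∀ i, s1 (h (cr t i)) = true := fun i =>
          s1_true.2 (by rcases hXc t ht _ (cr_mem_up t i) with h | h <;> rw [h] <;> norm_num)
        exact ⟨by rw [k, k], by rw [k, k]⟩
      have e1 : ∀ z : P2 → Bool, CK N (XX U L) (h, z) = KcI (upT L \ U) (h, z) := by
        intro z
        unfold CK
        rw [Cn_of (N := N) (ω := ((h, z) : Cfg)) hC, one_mul]
        unfold Kn KcI
        refine if_congr ?_ rfl rfl
        constructor
        · intro a t ht
          rw [Finset.mem_sdiff] at ht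
          exact (a t ht).1
        · intro a t ht
          have ht' : t ∈ upT L \ U := Finset.mem_sdiff.2 ht
          exact ⟨a t ht', s1_true.2 (by
            rcases hXc t ht' t (base_mem_up t) with h | h <;> simp only [h] <;> norm_num)⟩
      have e2 := sum_zs_kc' c (F := upT L) hl Finset.sdiff_subset hC1
      calc ∑ z ∈ zs (upT L), wt c (upT L) (h, z) * (CK N (XX U L) (h, z) * f h)
          = (∑ z ∈ zs (upT L), wt c (upT L) (h, z) * KcI (upT L \ U) (h, z)) * f h := by
            rw [Finset.sum_mul]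
            exact Finset.sum_congr rfl fun z _ => by rw [e1 z]; ring
        _ = (∏ t ∈ upT L \ (upT L \ U), cw c h t) * f h := by rw [e2]
        _ = (c ^ (upT L \ (upT L \ U)).card * ∏ t ∈ U, tw x h t) * f h := by
            congr 1
            have hsub : upT L \ (upT L \ U) ⊆ U := fun t ht => by
              rw [Finset.mem_sdiff, Finset.mem_sdiff] at ht
              by_contra hn
              exact ht.2 ⟨ht.1, hn⟩
            have hone : ∏ t ∈ U \ (upT L \ (upT L \ U)), tw x h t = 1 := by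
              refine Finset.prod_eq_one fun t ht => ?_
              rw [Finset.mem_sdiff, Finset.mem_sdiff, Finset.mem_sdiff] at ht
              have htL : t ∉ upT L := fun h' => ht.2 ⟨h', fun h'' => h''.2 ht.1⟩
              have hc : ∀ v ∈ up t, h v = 1 := fun v hv => h1 v fun hvL =>
                htL (mem_upT_iff.2 ⟨v, hvL, hv⟩)
              have k1 := hc t (base_mem_up t)
              have k2 := hc (t.1 + 1, t.2) (Zg349.mem_up.2 (Or.inr (Or.inl rfl)))
              have k3 := hc (t.1, t.2 + 1) (Zg349.mem_up.2 (Or.inr (Or.inr rfl)))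
              unfold tw
              exact if_pos ⟨by rw [k1, k2], by rw [k1, k3]⟩
            rw [← Finset.prod_sdiff hsub, hone, one_mul, ← Finset.prod_const,
              ← Finset.prod_mul_distrib]
            refine Finset.prod_congr rfl fun t _ => ?_
            unfold cw tw
            split_ifs
            · ring
            · exact hcx.symm
        _ = _ := by ring
    · rw [if_neg hm]
      have hC : ¬ ∀ v ∈ N, s1 (h v) = true := fun h' => hm ((hG.mem_LL_iff hh).2 h')
      refine Finset.sum_eq_zero fun z _ => ?_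
      unfold CK
      rw [Cn_of_not (N := N) (ω := ((h, z) : Cfg)) hC]
      ring
  refine (Finset.sum_congr rfl key).trans ?_
  rw [← Finset.sum_filter]
  unfold SL
  rw [Finset.mul_sum]
  refine Finset.sum_congr ?_ fun _ _ => rfl
  ext h
  rw [Finset.mem_filter]
  refine ⟨fun a => a.2, fun a => ⟨?_, a⟩⟩
  obtain ⟨a1, a2, -⟩ := mem_LL.1 a
  exact It844.mem_conf.2 ⟨a1, a2⟩

/-- `E0 [CK f] = E0 [CK] * EL f` -/
theorem E0_eq {c : ℝ} (hc : 1 ≤ c) (hx : 0 < x) (hcx : c * x ^ 2 = 1) (hG : Geo U N L)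
    (f : (P2 → ℤ) → ℝ) :
    E0 c L (fun _ => 1) (fun ω => CK N (XX U L) ω * f ω.1) =
      E0 c L (fun _ => 1) (CK N (XX U L)) * EL x U N L f := by
  have h1 := S0_eq hcx hG f
  have h2 := S0_eq hcx hG fun _ => 1
  simp only [mul_one] at h2
  have hp := SL_one_pos (U := U) (N := N) (L := L) hx
  unfold E0 EL
  rw [h1, h2]
  field_simp

end Crest.Agent.R144.LmB702
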