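import Crest.Agent.R144.LmB3_702
import Crest.Agent.R144.Bnd1_991
import Crest.Agent.R144.Hf7_702

/-!
# R144, block BND / B2 (helper702), part 4: lower bound of the mean of a bounded odd function under the law
with data `1`

* `E_rfl` : `E c B` is invariant under `h ↦ 1 - h` (with the closed triangles unchanged);
* `E0_piece` : the conditioned law with data `1`, explored from outside until a plus closed layer;
* `EL_ge` : `EL [clip ((1 - Y) / T)] ≥ (1 - ε - C / (T - 1/2)²) / (2 T) - ε`.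
-/

set_option autoImplicit false
set_option linter.unusedSectionVars false
set_option linter.unusedVariables false

noncomputable section

namespace Crest.Agent.R144.LmB702

open Finset
open Crest.Agent.R144.It844 (P2 Lip Cst adj_iff adj_symm lip_iff upT mem_upT tw)
open Crest.Agent.R144.Zg349 Crest.Agent.R144.Zk349 Crest.Agent.R144.Zd349 Crest.Agent.R144.Zm349
open Crest.Agent.R144.Ze349 Crest.Agent.R144.Zs349 Crest.Agent.R144.Zo349
open Crest.Agent.R144.Hf702 (htsI mem_htsI htsI_self rfl1 rfl1_invol rfl1_mem flat_mem Ln PB PBI PBI_nonneg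
  offTZ_PBI sum_PBI PLay pLay_of_PBI Bg_sub conn_ball self_mem_ball sc_of_PBI ind_le_sum sum_filter_le_one
  cr_mem)
open Crest.Agent.R144.Rsw867
open Crest.Agent.R144.Bnd991 hiding ht01 lev0
open Crest.ProbabilityR.HexHeights (Adj)

/-! ### the reflection `h ↦ 1 - h` -/

/-- `h ↦ 1 - h` on the sites of `B` -/
def rflc (B : Finset P2) (ω : Cfg) : Cfg := (rfl1 B ω.1, ω.2)

theorem rflc_invol (B : Finset P2) (ω : Cfg) : rflc B (rflc B ω) = ω :=
  Prod.ext (rfl1_invol B ω.1) rfl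

theorem s1_rfl1 (B : Finset P2) (h : P2 → ℤ) (v : P2) : s1 (rfl1 B h v) = s1 (h v) := by
  unfold rfl1
  split_ifs
  · exact s1_refl _
  · rfl

theorem valid_rflc {B : Finset P2} {ω : Cfg} (h : Valid B ω) : Valid B (rflc B ω) := by
  have h1 : ω.1 ∈ htsI B (IV B) := by rw [htsI_self]; exact mem_hts.2 h.ht
  have h2 := rfl1_mem h1
  rw [htsI_self, mem_hts] at h2
  exact ⟨h2, h.cl⟩

theorem ew_rflc (c : ℝ) {B : Finset P2} {ω : Cfg} {t : P2} (ht : t ∈ B) :
    ew c (rflc B ω) t = ew c ω t := by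
  have e1 : C1 (rfl1 B ω.1) t ↔ C1 ω.1 t := by
    unfold C1
    rw [s1_rfl1, s1_rfl1, s1_rfl1]
  have e2 : C2 (rfl1 B ω.1) t ↔ C2 ω.1 t := by
    have k : ∀ i, s2 (rfl1 B ω.1 (cr t i)) = !s2 (ω.1 (cr t i)) := fun i => by
      unfold rfl1
      rw [if_pos (cr_mem ht i), s2_refl]
    unfold C2
    rw [k, k, k]
    simp only [Bool.not_eq_eq_eq_not, Bool.not_not]
  unfold ew rflc
  simp only [e1, e2]

theorem E_rfl (c : ℝ) (B : Finset P2) (f : Cfg → ℝ) : E c B (fun ω => f (rflc B ω)) = E c B f := by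
  rw [E_eq_div, E_eq_div]
  congr 1
  refine Finset.sum_nbij' (i := rflc B) (j := rflc B) (fun ω hω => ?_) (fun ω hω => ?_)
    (fun ω _ => rflc_invol B ω) (fun ω _ => rflc_invol B ω) fun ω hω => ?_
  · rw [mem_conf] at *; exact valid_rflc hω
  · rw [mem_conf] at *; exact valid_rflc hω
  · congr 1
    unfold wt
    exact (Finset.prod_congr rfl fun t ht => ew_rflc c ht).symm

theorem CKi_rflc (N X : Set P2) (B : Finset P2) (ω : Cfg) : CKi N X B (rflc B ω) = CKi N X B ω := by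
  unfold CKi
  congr 1
  · refine Cn_congr ⟨fun h v hv => ?_, fun h v hv => ?_⟩
    · rw [← s1_rfl1 B]; exact h v hv
    · show s1 (rfl1 B ω.1 v) = true
      rw [s1_rfl1 B]; exact h v hv
  · refine Kn_congr ⟨fun h v hv => ?_, fun h v hv => ?_⟩
    · refine ⟨(h v hv).1, ?_⟩
      rw [← s1_rfl1 B]; exact (h v hv).2
    · refine ⟨(h v hv).1, ?_⟩
      show s1 (rfl1 B ω.1 v) = true
      rw [s1_rfl1 B]; exact (h v hv).2

/-! ### the clipped function -/

/-- `(1 - y) / T` clipped to `[-1, 1]` -/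
def clp (T y : ℝ) : ℝ := max (-1) (min 1 ((1 - y) / T))

theorem clp_abs (T y : ℝ) : |clp T y| ≤ 1 := by
  unfold clp
  rw [abs_le]
  exact ⟨le_max_left _ _, max_le (by norm_num) (min_le_left _ _)⟩

theorem clp_odd (T y : ℝ) : clp T (2 - y) = -clp T y := by
  unfold clp
  have e : (1 - (2 - y)) / T = -((1 - y) / T) := by ring
  rw [e]
  generalize (1 - y) / T = a
  rcases le_total a 1 with h1 | h1 <;> rcases le_total (-1) a with h2 | h2
  · rw [min_eq_right h1, max_eq_right h2, min_eq_right (by linarith), max_eq_right (by linarith)]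
  · rw [min_eq_right h1, max_eq_left h2, min_eq_left (by linarith), max_eq_right (by linarith), neg_neg]
  · have e1 : min (1 : ℝ) (-a) = -a := min_eq_right (by linarith)
    have e2 : max (-1 : ℝ) (-a) = -1 := max_eq_left (by linarith)
    have e3 : max (-1 : ℝ) 1 = 1 := max_eq_right (by norm_num)
    rw [min_eq_left h1, e1, e2, e3]
  · linarith

theorem clp_pair {T : ℝ} (y : ℝ) (hT : 1 ≤ T) :
    1 / T * (1 - (y - 1 / 2) ^ 2 / (T - 1 / 2) ^ 2) ≤ clp T y + clp T (1 - y) := by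
  have hT0 : 0 < T := by linarith
  have hT2 : 0 < (T - 1 / 2) ^ 2 := by
    have : 0 < T - 1 / 2 := by linarith
    positivity
  have big : (T - 1 / 2) ^ 2 ≤ (y - 1 / 2) ^ 2 →
      1 / T * (1 - (y - 1 / 2) ^ 2 / (T - 1 / 2) ^ 2) ≤ 0 := by
    intro h
    refine mul_nonpos_of_nonneg_of_nonpos (by positivity) ?_
    rw [sub_nonpos, le_div_iff₀ hT2, one_mul]
    exact h
  have lo : ∀ z, -1 ≤ clp T z := fun z => le_max_left _ _
  by_cases h1 : T < y
  · have e : clp T (1 - y) = 1 := by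
      unfold clp
      have : (1 : ℝ) ≤ (1 - (1 - y)) / T := by rw [le_div_iff₀ hT0]; linarith
      rw [min_eq_left this, max_eq_right (by norm_num)]
    have := big (by nlinarith)
    have := lo y
    rw [e]; linarith
  by_cases h2 : T < 1 - y
  · have e : clp T y = 1 := by
      unfold clp
      have : (1 : ℝ) ≤ (1 - y) / T := by rw [le_div_iff₀ hT0]; linarith
      rw [min_eq_left this, max_eq_right (by norm_num)]
    have := big (by nlinarith)
    have := lo (1 - y)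
    rw [e]; linarith
  · have a1 : (1 - y) / T ≤ 1 := by rw [div_le_iff₀ hT0]; linarith
    have a2 : -1 ≤ (1 - y) / T := by rw [le_div_iff₀ hT0]; linarith
    have a3 : (1 - (1 - y)) / T ≤ 1 := by rw [div_le_iff₀ hT0]; linarith
    have a4 : -1 ≤ (1 - (1 - y)) / T := by rw [le_div_iff₀ hT0]; linarith
    unfold clp
    rw [min_eq_right a1, max_eq_right a2, min_eq_right a3, max_eq_right a4]
    have e : (1 - y) / T + (1 - (1 - y)) / T = 1 / T := by ring
    rw [e]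
    have h3 : 0 ≤ (y - 1 / 2) ^ 2 / (T - 1 / 2) ^ 2 := by positivity
    have h4 : 0 ≤ 1 / T := by positivity
    nlinarith

/-! ### gluing -/

/-- the flat configuration -/
def flt : Cfg := (fun _ => 0, fun _ => true)

theorem valid_flt (B : Finset P2) : Valid B flt := ⟨mem_hts.1 (flat_mem B), fun _ _ => rfl⟩

variable {x : ℝ} {U : Finset P2} {N X : Set P2} {L B : Finset P2}

theorem CKi_glue {ω ω' : Cfg} (hB : SC B) (hl : Lip ω.1) (hL : Lay true B ω) :
    CKi N X B (glue true B ω ω') = CKi N X B ω' := by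
  have key : ∀ v ∈ VF B, (s1 ((glue true B ω ω').1 v) = true ↔ s1 (ω'.1 v) = true) := fun v hv => by
    rw [glue_in hv, s1_lev (lev_mod hB hl hL hv)]
  unfold CKi
  congr 1
  · exact Cn_congr ⟨fun h v hv => (key v (IV_sub_VF B hv.2)).1 (h v hv),
      fun h v hv => (key v (IV_sub_VF B hv.2)).2 (h v hv)⟩
  · refine Kn_congr ⟨fun h t ht => ?_, fun h t ht => ?_⟩
    · obtain ⟨h1, h2⟩ := h t ht
      rw [glue_z (show t ∈ B from ht.2)] at h1
      exact ⟨h1, (key t (mem_VF.2 ⟨t, ht.2, base_mem_up t⟩)).1 h2⟩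
    · obtain ⟨h1, h2⟩ := h t ht
      refine ⟨?_, (key t (mem_VF.2 ⟨t, ht.2, base_mem_up t⟩)).2 h2⟩
      rw [glue_z (show t ∈ B from ht.2)]
      exact h1

/-- the level is `0` at the sites of `N` -/
theorem lev0_E0 (hG : Geo U N L) (hB : SC B) (hBL : VF B ⊆ L) {ω : Cfg}
    (hω : ω ∈ cf L fun _ => 1) (hL : Lay true B ω) (hC : CKo N X B ω ≠ 0) {v : P2} (hv : v ∈ N)
    (hvB : v ∈ VF B) : lev true B ω v = 0 := by
  have hl := (mem_cf.1 hω).1.1
  have hval := valid_flt B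
  have hg := glue_mem_cf hB hBL hω hL hval
  have hgl := (mem_cf.1 hg).1
  have hCn : ∀ v ∈ N, s1 ((glue true B ω flt).1 v) = true := by
    have h1 : Cn (N \ (IV B : Set P2)) ω ≠ 0 := left_ne_zero_of_mul hC
    rw [Cn_ne] at h1
    intro v hv
    by_cases h2 : v ∈ IV B
    · have h3 := IV_sub_VF B h2
      rw [glue_in h3, s1_lev (lev_mod hB hl hL h3)]
      show s1 0 = true
      decide
    · rw [glue_s1_off hB hl hL hval h2]; exact h1 v ⟨hv, h2⟩
  have h01 := hG.ht01 hgl.1 (fun v hv => hgl.2 v hv) hCn hv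
  rw [glue_in hvB] at h01
  have h3 : lev true B ω v % 4 = 0 := lev_mod hB hl hL hvB
  have h4 : flt.1 v = 0 := rfl
  rw [h4] at h01
  omega

/-- the level is constant on a connected region -/
theorem lev_reg {W : Finset P2} (hW : SC W) {ω : Cfg} (hl : Lip ω.1) (hL : Lay true W ω) {M : Set P2}
    (hM : IsConn M) (hMW : ∀ t ∈ M, t ∈ W) {t0 v0 : P2} (ht0 : t0 ∈ M) (hv0 : v0 ∈ up t0)
    (h0 : lev true W ω v0 = 0) {t v : P2} (ht : t ∈ M) (hv : v ∈ up t) : lev true W ω v = 0 := by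
  have key : ∀ t, Relation.ReflTransGen (StepIn M) t0 t → ∀ v ∈ up t, lev true W ω v = 0 := by
    intro t hp
    induction hp with
    | refl =>
      intro v hv
      obtain ⟨i, rfl⟩ := mem_up_iff.1 hv0
      obtain ⟨j, rfl⟩ := mem_up_iff.1 hv
      rw [← lev_tri hW hl hL (hMW t0 ht0) i j]
      exact h0
    | @tail b d _ hbd ih =>
      intro v hv
      obtain ⟨w, hw1, hw2⟩ := adj_site hbd.2.2
      obtain ⟨i, rfl⟩ := mem_up_iff.1 hw2
      obtain ⟨j, rfl⟩ := mem_up_iff.1 hv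
      rw [← lev_tri hW hl hL (hMW d hbd.2.1) i j]
      exact ih _ hw1
  exact key t (hM t0 ht0 t ht) v hv

/-- the layer event of the exploration -/
theorem lay_of_PBI {c : ℝ} {D : Finset P2} {ξ : P2 → ℤ} (hBL : VF B ⊆ L) {ω : Cfg}
    (hw : wt c (upT L) ω ≠ 0) (h : PBI D B ω ≠ 0) : Lay true B ω := by
  refine lay_of' hBL hw fun t ht h1 => ?_
  obtain ⟨v, hv, hvt⟩ := h1
  obtain ⟨t', ht', hv'⟩ := mem_VF.1 hv
  exact pLay_of_PBI h t' ht' t ht (adj_of_site (fun e => ht (e ▸ ht')) hv' hvt)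

/-- **the conditioned law on one unexplored domain** -/
theorem E0_piece {c : ℝ} (hc : 1 ≤ c) (hG : Geo U N L) {D : Finset P2} (hB : SC B)
    (hBL : VF B ⊆ L) {M : Finset P2} (hM : IsConn (M : Set P2)) (hMB : M ⊆ B)
    {t0 v0 : P2} (ht0 : t0 ∈ M) (hv0 : v0 ∈ up t0) (hv0N : v0 ∈ N) {S : Finset P2} (hS : S ⊆ VF M)
    {f : (P2 → ℤ) → ℝ} (hf : ∀ h g : P2 → ℤ, (∀ v ∈ S, h v = g v) → f h = f g) :
    E0 c L (fun _ => 1) (fun ω => PBI D B ω * (CK N X ω * f ω.1)) =
      E0 c L (fun _ => 1) (fun ω => PBI D B ω * CKo N X B ω) *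
        E c B (fun ω => CKi N X B ω * f ω.1) := by
  have e := E0_dec (c := c) (Λ := L) (ξ := fun _ => 1) (e := true) hc hB hBL
    (Ψ := fun ω => PBI D B ω * (CK N X ω * f ω.1)) (g := fun ω => PBI D B ω * CKo N X B ω)
    (φ := fun _ ω' => CKi N X B ω' * f ω'.1) (fun ω hω hw hL => by
      have h0 : PBI D B ω = 0 := by
        by_contra h
        exact hL (lay_of_PBI (ξ := fun _ => 1) hBL hw h)
      simp only [h0, zero_mul, and_self]) (fun ω ω' hω hw hL hω' => by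
      have hl := (mem_cf.1 hω).1.1
      have e1 := offTZ_glue hB hl hL hω' (offTZ_PBI D B)
      have e2 := offTZ_glue hB hl hL hω' (offTZ_CKo N X B)
      have e3 : CKi N X B (glue true B ω ω') = CKi N X B ω' := CKi_glue hB hl hL
      simp only [CK_split N X B (glue true B ω ω'), e1, e2, e3]
      by_cases hC : CKo N X B ω = 0
      · rw [hC]; ring
      · have h0 : lev true B ω v0 = 0 := lev0_E0 hG hB hBL hω hL hC hv0N
          (mem_VF.2 ⟨t0, hMB ht0, hv0⟩)
        have h1 : f (glue true B ω ω').1 = f ω'.1 := by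
          refine hf _ _ fun v hv => ?_
          obtain ⟨t, ht, hvt⟩ := mem_VF.1 (hS hv)
          rw [glue_in (mem_VF.2 ⟨t, hMB ht, hvt⟩),
            lev_reg hB hl hL hM (fun t ht => hMB (Finset.mem_coe.1 ht)) (Finset.mem_coe.2 ht0) hv0 h0
              (Finset.mem_coe.2 ht) hvt, zero_add]
        rw [h1]; ring)
  rw [e]
  have e' : (fun ω => PBI D B ω * CKo N X B ω * E c B (fun ω' => CKi N X B ω' * f ω'.1)) =
      fun ω => E c B (fun ω' => CKi N X B ω' * f ω'.1) * (PBI D B ω * CKo N X B ω) := by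
    funext ω; ring
  rw [e', E0_smul, mul_comm]

/-- one domain: comparison through the reflection -/
theorem E0_block {c : ℝ} (hc : 1 ≤ c) (hG : Geo U N L) {D : Finset P2} (hB : SC B)
    (hBL : VF B ⊆ L) {M : Finset P2} (hM : IsConn (M : Set P2)) (hMB : M ⊆ B)
    {t0 v0 : P2} (ht0 : t0 ∈ M) (hv0 : v0 ∈ up t0) (hv0N : v0 ∈ N) {S : Finset P2} (hS : S ⊆ VF M)
    {f g : (P2 → ℤ) → ℝ} (hf : ∀ h k : P2 → ℤ, (∀ v ∈ S, h v = k v) → f h = f k)
    (hg : ∀ h k : P2 → ℤ, (∀ v ∈ S, h v = k v) → g h = g k)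
    (hfg : ∀ h, 2 * g h ≤ f h + f (rfl1 B h)) :
    E0 c L (fun _ => 1) (fun ω => PBI D B ω * (CK N X ω * g ω.1)) ≤
      E0 c L (fun _ => 1) (fun ω => PBI D B ω * (CK N X ω * f ω.1)) := by
  rw [E0_piece hc hG hB hBL hM hMB ht0 hv0 hv0N hS hf, E0_piece hc hG hB hBL hM hMB ht0 hv0 hv0N hS hg]
  have h0 : 0 ≤ E0 c L (fun _ => 1) (fun ω => PBI D B ω * CKo N X B ω) :=
    E0_nonneg hc fun ω _ => mul_nonneg (PBI_nonneg _ _ _) (CKo_nonneg _ _ _ _)
  refine mul_le_mul_of_nonneg_left ?_ h0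
  have h1 : E c B (fun ω => CKi N X B ω * f (rfl1 B ω.1)) = E c B (fun ω => CKi N X B ω * f ω.1) := by
    rw [← E_rfl c B fun ω => CKi N X B ω * f ω.1]
    refine congrArg _ ?_
    funext ω
    rw [CKi_rflc]
    rfl
  have h2 : E c B (fun ω => CKi N X B ω * (2 * g ω.1)) ≤
      E c B (fun ω => CKi N X B ω * f ω.1 + CKi N X B ω * f (rfl1 B ω.1)) :=
    E_mono hc fun ω _ => by
      rw [← mul_add]
      exact mul_le_mul_of_nonneg_left (hfg ω.1) (CKi_nonneg _ _ _ _)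
  rw [E_add, h1] at h2
  have h3 : E c B (fun ω => CKi N X B ω * (2 * g ω.1)) = 2 * E c B (fun ω => CKi N X B ω * g ω.1) := by
    rw [← E_smul]
    refine congrArg _ ?_
    funext ω; ring
  linarith

theorem Ln_congr {S : Finset P2} {w : P2 → ℝ} {h k : P2 → ℤ} (e : ∀ v ∈ S, h v = k v) :
    Ln S w h = Ln S w k := by
  unfold Hf702.Ln
  exact Finset.sum_congr rfl fun v hv => by rw [e v hv]

theorem Ln_rfl {S : Finset P2} {w : P2 → ℝ} (hw : ∑ v ∈ S, w v = 1) (hS : S ⊆ VF B) (h : P2 → ℤ) :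
    Ln S w (rfl1 B h) = 1 - Ln S w h := by
  unfold Hf702.Ln
  rw [← hw, ← Finset.sum_sub_distrib]
  refine Finset.sum_congr rfl fun v hv => ?_
  unfold rfl1
  rw [if_pos (hS hv)]
  push_cast
  ring

theorem E0_CK_pos {c : ℝ} (hc : 1 ≤ c) (hx : 0 < x) (hcx : c * x ^ 2 = 1) (hG : Geo U N L) :
    0 < E0 c L (fun _ => 1) (CK N (XX U L)) := by
  have h := S0_eq hcx hG fun _ => 1
  simp only [mul_one] at h
  unfold E0
  refine div_pos ?_ (Z0_pos hc (It844.lip_const 1))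
  rw [show (CK N (XX U L) : Cfg → ℝ) = fun ω => CK N (XX U L) ω from rfl, h]
  exact mul_pos (by positivity) (SL_one_pos hx)

/-- **lower bound for the clipped average** -/
theorem EL_ge (hx0 : 0 < x) (hx1 : x ≤ 1) {K : ℕ} {p : ℝ} (hR : RSW ((x ^ 2)⁻¹) K p)
    (hG : Geo U N L) (hLc : IsConn ((L : Set P2)ᶜ)) {b : P2} {k n r : ℕ} (hn : 1 ≤ n) (hr : r + 1 ≤ n)
    (hV : VF (ball b (K * ((K + 1) ^ k * n))) ⊆ L)
    (hX : ∀ t ∈ XX U L, t ∈ ball b (K * ((K + 1) ^ k * n)) → t ∈ ray b) (hbN : b ∈ N)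
    {S : Finset P2} (hS : S ⊆ VF (ball b r)) {w : P2 → ℝ} (hw : ∑ v ∈ S, w v = 1) {T C : ℝ}
    (hT : 1 ≤ T) (hC : EL x U N L (fun h => (Ln S w h - 1 / 2) ^ 2) ≤ C) :
    1 / (2 * T) * (1 - (1 - p) ^ (k + 1) - C / (T - 1 / 2) ^ 2) - (1 - p) ^ (k + 1) ≤
      EL x U N L (fun h => clp T (Ln S w h)) := by
  classical
  have hx2 : 0 < x ^ 2 := by positivity
  have hc : 1 ≤ (x ^ 2)⁻¹ := (one_le_inv₀ hx2).2 (pow_le_one₀ hx0.le hx1)
  have hcx : (x ^ 2)⁻¹ * x ^ 2 = 1 := inv_mul_cancel₀ hx2.ne'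
  set c := (x ^ 2)⁻¹ with hcdef
  set X := XX U L with hXdef
  set N0 := 2 * ((K + 1) ^ k * n) with hN0
  set D := ball b (N0 + 1) with hD
  set ε := (1 - p) ^ (k + 1) with hε
  have hξ : Bv L (fun _ => 1) := fun _ _ => Or.inr rfl
  have h1n : 1 ≤ (K + 1) ^ k * n := Nat.mul_pos (by positivity) hn
  have hnN : n ≤ N0 := by
    have : n ≤ (K + 1) ^ k * n := Nat.le_mul_of_pos_left _ (by positivity)
    omega
  have hDK : D ⊆ ball b (K * ((K + 1) ^ k * n)) := by
    refine ball_mono b ?_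
    have := hR.K4
    have : 4 * ((K + 1) ^ k * n) ≤ K * ((K + 1) ^ k * n) := Nat.mul_le_mul_right _ hR.K4
    omega
  have hdec := decay0 hc hR hLc hξ (It844.lip_const 1) (N := N) (X := X) (b := b) k hn hV hX
  set A := E0 c L (fun _ => 1) (CK N X) with hA
  have hApos : 0 < A := E0_CK_pos hc hx0 hcx hG
  set 𝒢 := D.powerset.filter fun B => ball b r ⊆ B with h𝒢
  set gI : Cfg → ℝ := fun ω => ∑ B ∈ 𝒢, PBI D B ω with hgI
  have gI0 : ∀ ω, 0 ≤ gI ω := fun ω => Finset.sum_nonneg fun B _ => PBI_nonneg _ _ _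
  have gI1 : ∀ ω, gI ω ≤ 1 := fun ω => sum_filter_le_one b r N0 ω
  have gIb : ∀ ω, 1 - gI ω ≤ ind (BlkP b n N0)ᶜ ω := fun ω => by
    rw [ind_compl]
    have := ind_le_sum (a := b) hr hnN ω
    have e : (∑ B ∈ (ball b (N0 + 1)).powerset with ball b r ⊆ B, PBI (ball b (N0 + 1)) B ω) = gI ω := by
      simp only [hgI, h𝒢, hD]
    rw [← e]
    linarith
  set Y : (P2 → ℤ) → ℝ := fun h => Ln S w h with hY
  set Φ : (P2 → ℤ) → ℝ := fun h => clp T (Y h) with hΦ
  set q : (P2 → ℤ) → ℝ := fun h => (Y h - 1 / 2) ^ 2 / (T - 1 / 2) ^ 2 with hq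
  have hT2 : 0 < (T - 1 / 2) ^ 2 := by
    have : 0 < T - 1 / 2 := by linarith
    positivity
  have hq0 : ∀ h, 0 ≤ q h := fun h => by simp only [hq]; positivity
  set g : (P2 → ℤ) → ℝ := fun h => 1 / (2 * T) * (1 - q h) with hg
  have hT0 : 0 < T := by linarith
  -- the blocks
  have hblock : ∀ B ∈ 𝒢, E0 c L (fun _ => 1) (fun ω => PBI D B ω * (CK N X ω * g ω.1)) ≤
      E0 c L (fun _ => 1) (fun ω => PBI D B ω * (CK N X ω * Φ ω.1)) := by
    intro B hB
    rw [h𝒢, Finset.mem_filter, Finset.mem_powerset] at hB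
    obtain ⟨hBD, hrB⟩ := hB
    by_cases hsc : SC B
    · have hBL : VF B ⊆ L := (VF_mono (hBD.trans hDK)).trans hV
      refine E0_block hc hG hsc hBL (conn_ball b r) hrB (self_mem_ball b r) (base_mem_up b) hbN hS
        (fun h k e => ?_) (fun h k e => ?_) fun h => ?_
      · simp only [hΦ, hY, Ln_congr e]
      · simp only [hg, hq, hY, Ln_congr e]
      · have e : Y (rfl1 B h) = 1 - Y h := Ln_rfl hw (hS.trans (VF_mono hrB)) h
        have := clp_pair (Y h) hT
        simp only [hΦ, hg, hq, e]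
        calc 2 * (1 / (2 * T) * (1 - (Y h - 1 / 2) ^ 2 / (T - 1 / 2) ^ 2))
            = 1 / T * (1 - (Y h - 1 / 2) ^ 2 / (T - 1 / 2) ^ 2) := by field_simp
          _ ≤ _ := this
    · have h0 : ∀ ω, PBI D B ω = 0 := fun ω => by
        by_contra h
        exact hsc (sc_of_PBI (sc_ball b (N0 + 1)) h)
      simp only [h0, zero_mul]
      exact le_rfl
  -- sum over the blocks
  have hsum : E0 c L (fun _ => 1) (fun ω => gI ω * (CK N X ω * g ω.1)) ≤
      E0 c L (fun _ => 1) (fun ω => gI ω * (CK N X ω * Φ ω.1)) := by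
    have e : ∀ f : Cfg → ℝ, E0 c L (fun _ => 1) (fun ω => gI ω * f ω) =
        ∑ B ∈ 𝒢, E0 c L (fun _ => 1) (fun ω => PBI D B ω * f ω) := by
      intro f
      rw [← E0_sum]
      refine congrArg _ ?_
      funext ω
      rw [hgI, Finset.sum_mul]
    rw [e, e]
    exact Finset.sum_le_sum hblock
  -- estimates
  have l1 : E0 c L (fun _ => 1) (fun ω => gI ω * (CK N X ω * Φ ω.1)) ≤
      E0 c L (fun _ => 1) (fun ω => CK N X ω * Φ ω.1 +
        CK N X ω * ind (BlkP b n N0)ᶜ ω) := by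
    refine E0_mono hc fun ω _ _ => ?_
    have a1 := abs_le.1 (clp_abs T (Y ω.1))
    have a2 := CK_nonneg N X ω
    have a3 := gIb ω
    have a4 : (1 - gI ω) * (1 + Φ ω.1) ≥ 0 :=
      mul_nonneg (by linarith [gI1 ω]) (by simp only [hΦ]; linarith)
    nlinarith [mul_nonneg a2 a4, mul_nonneg a2 (sub_nonneg.2 a3)]
  have l2 : E0 c L (fun _ => 1) (fun ω => 1 / (2 * T) * (CK N X ω - CK N X ω * ind (BlkP b n N0)ᶜ ω -
      CK N X ω * q ω.1)) ≤ E0 c L (fun _ => 1) (fun ω => gI ω * (CK N X ω * g ω.1)) := by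
    refine E0_mono hc fun ω _ _ => ?_
    have a2 := CK_nonneg N X ω
    have a3 := gIb ω
    have a4 := hq0 ω.1
    have a5 := gI1 ω
    have a6 : gI ω * (CK N X ω * g ω.1) = 1 / (2 * T) * (CK N X ω * (gI ω * (1 - q ω.1))) := by
      simp only [hg]; ring
    rw [a6]
    refine mul_le_mul_of_nonneg_left ?_ (by positivity)
    have a7 : 1 - ind (BlkP b n N0)ᶜ ω - q ω.1 ≤ gI ω * (1 - q ω.1) := by
      nlinarith [mul_nonneg (sub_nonneg.2 a5) a4]
    have := mul_le_mul_of_nonneg_left a7 a2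
    linarith
  have l3 : E0 c L (fun _ => 1) (fun ω => CK N X ω * q ω.1) = A * (EL x U N L fun h => q h) :=
    E0_eq hc hx0 hcx hG q
  have l4 : E0 c L (fun _ => 1) (fun ω => CK N X ω * Φ ω.1) = A * EL x U N L Φ :=
    E0_eq hc hx0 hcx hG Φ
  have l5 : EL x U N L (fun h => q h) ≤ C / (T - 1 / 2) ^ 2 := by
    have e : EL x U N L (fun h => q h) =
        EL x U N L (fun h => (Ln S w h - 1 / 2) ^ 2) / (T - 1 / 2) ^ 2 := by
      unfold EL SL
      rw [div_right_comm]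
      congr 1
      rw [Finset.sum_div]
      exact Finset.sum_congr rfl fun h _ => by simp only [hq, hY]; ring
    rw [e]
    exact div_le_div_of_nonneg_right hC hT2.le
  rw [E0_add, l4] at l1
  rw [E0_smul, E0_sub, E0_sub, l3] at l2
  have l6 : E0 c L (fun _ => 1) (fun ω => CK N X ω * ind (BlkP b n N0)ᶜ ω) ≤ ε * A := hdec
  have l7 : E0 c L (fun _ => 1) (fun ω => CK N X ω) = A := rfl
  rw [l7] at l2
  have l8 : 1 / (2 * T) * (A - ε * A - A * (C / (T - 1 / 2) ^ 2)) ≤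
      1 / (2 * T) * (A - E0 c L (fun _ => 1) (fun ω => CK N X ω * ind (BlkP b n N0)ᶜ ω) -
        A * EL x U N L fun h => q h) := by
    refine mul_le_mul_of_nonneg_left ?_ (by positivity)
    have := mul_le_mul_of_nonneg_left l5 hApos.le
    linarith
  have l9 : A * (1 / (2 * T) * (1 - ε - C / (T - 1 / 2) ^ 2) - ε) ≤ A * EL x U N L Φ := by
    have e : A * (1 / (2 * T) * (1 - ε - C / (T - 1 / 2) ^ 2) - ε) =
        1 / (2 * T) * (A - ε * A - A * (C / (T - 1 / 2) ^ 2)) - ε * A := by ring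
    rw [e]
    linarith
  exact le_of_mul_le_mul_left l9 hApos

end Crest.Agent.R144.LmB702
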