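import Crest.Agent.R144.LmB4_702
import Crest.Agent.R144.It3_844

/-!
# R144, block BND / B2 (helper702), part 5: the core estimate

`U` up triangles, `N` non-free sites, `L` sites (`Geo U N L`); near the end `b` of a ray of triangles not in `U`:
`c0 * E c U (Cn N) ≤ E c U (Cn N ; arm of free sites with h ≤ 0 from `ball y n` to a site of `N` with h ≤ 0)`.
-/

set_option autoImplicit false
set_option linter.unusedSectionVars false
set_option linter.unusedVariables false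

noncomputable section

namespace Crest.Agent.R144.LmB702

open Finset MeasureTheory
open Crest.Agent.R144.It844 (P2 Lip Cst adj_iff adj_symm lip_iff upT mem_upT tw)
open Crest.Agent.R144.Pst967 (Hz GObs FLim path_symm)
open Crest.Agent.R144.Zg349 Crest.Agent.R144.Zk349 Crest.Agent.R144.Zd349 Crest.Agent.R144.Zm349
open Crest.Agent.R144.Ze349 Crest.Agent.R144.Zs349 Crest.Agent.R144.Zo349
open Crest.Agent.R144.Hf702 (htsI mem_htsI SI EI SI_one_pos SH EH SH_one_pos E_eq_EH Ln PSq hf_ex InB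
  tw_nonneg EI_smul)
open Crest.Agent.R144.Rsw867
open Crest.Agent.R144.Bnd991 hiding lev0
open Crest.ProbabilityR.HexHeights (Adj)

variable {x : ℝ} {U : Finset P2} {N : Set P2} {L : Finset P2}

/-! ### geometry of balls -/

theorem ball_trans {a b v : P2} {m k : ℕ} (h1 : v ∈ ball b m) (h2 : b ∈ ball a k) :
    v ∈ ball a (m + k) := by
  rw [mem_ball] at *
  simp only [abs_le] at *
  push_cast
  omega

theorem up_ball {v t : P2} (h : v ∈ up t) : t ∈ ball v 1 := by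
  rw [mem_ball]
  rw [Zg349.mem_up] at h
  rcases h with rfl | rfl | rfl <;> simp only [abs_le] <;> push_cast <;> omega

theorem ball_up {v t : P2} (h : v ∈ up t) : v ∈ ball t 1 := by
  rw [mem_ball]
  rw [Zg349.mem_up] at h
  rcases h with rfl | rfl | rfl <;> simp only [abs_le] <;> push_cast <;> omega

theorem le_card_ball (a : P2) (n : ℕ) : ((n : ℝ)) ^ 2 ≤ (ball a n).card := by
  have h1 : Finset.Ico a.1 (a.1 + n) ×ˢ Finset.Ico (a.2 - n + 1) (a.2 + 1) ⊆ ball a n := by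
    intro v hv
    rw [Finset.mem_product, Finset.mem_Ico, Finset.mem_Ico] at hv
    rw [mem_ball]
    simp only [abs_le]
    omega
  have h2 : (Finset.Ico a.1 (a.1 + n) ×ˢ Finset.Ico (a.2 - n + 1) (a.2 + 1)).card = n ^ 2 := by
    rw [Finset.card_product, Int.card_Ico, Int.card_Ico,
      show (a.1 + n - a.1).toNat = n by omega, show (a.2 + 1 - (a.2 - n + 1)).toNat = n by omega]
    ring
  have h3 := Finset.card_le_card h1
  rw [h2] at h3
  exact_mod_cast h3

/-! ### second moments -/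

theorem ex_sq01 {C : ℝ} (hx : 0 < x) {S : Finset P2} {w : P2 → ℝ}
    (hC : ∀ ξ : P2 → ℤ, (∀ v, ξ v = -1 ∨ ξ v = 0) →
      It844.ex x (IF U N) ξ (fun h => Ln S w h ^ 2) ≤ C) {η : P2 → ℤ}
    (h01 : ∀ v, v ∉ IF U N → η v = 0 ∨ η v = 1) :
    It844.ex x (IF U N) η (fun h => (Ln S w h - 1 / 2) ^ 2) ≤ 2 * C + 1 / 2 := by
  classical
  set ξ : P2 → ℤ := fun v => if v ∈ IF U N then 0 else - η v with hξ
  have hξ1 : ∀ v, ξ v = -1 ∨ ξ v = 0 := fun v => by
    simp only [hξ]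
    split_ifs with h
    · exact Or.inr rfl
    · rcases h01 v h with h' | h' <;> rw [h'] <;> decide
  have hξl : Lip ξ := by
    intro u v _
    rcases hξ1 u with h | h <;> rcases hξ1 v with h' | h' <;> rw [h, h'] <;> decide
  have e1 : It844.ex x (IF U N) η (fun h => (Ln S w h - 1 / 2) ^ 2) =
      It844.ex x (IF U N) (fun v => - ξ v) (fun h => (Ln S w h - 1 / 2) ^ 2) := by
    refine It844.ex_congr_bc x (fun v hv => ?_) _
    simp only [hξ, if_neg hv, neg_neg]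
  have e2 := It844.ex_neg x (IF U N) ξ (fun h => (Ln S w h - 1 / 2) ^ 2)
  rw [e1, e2]
  have e3 : It844.ex x (IF U N) ξ (fun h => (2 : ℝ) • (Ln S w h ^ 2) + (1 / 2 : ℝ)) ≤ 2 * C + 1 / 2 := by
    rw [It844.ex_add, It844.ex_smul, It844.ex_const hx hξl, smul_eq_mul]
    linarith [hC ξ hξ1]
  refine le_trans (It844.ex_mono fun h _ => ?_) e3
  have e4 : Ln S w (fun v => - h v) = - Ln S w h := by
    unfold Hf702.Ln
    rw [← Finset.sum_neg_distrib]
    refine Finset.sum_congr rfl fun v _ => ?_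
    push_cast; ring
  rw [e4, smul_eq_mul]
  nlinarith [sq_nonneg (Ln S w h - 1 / 2)]

/-! ### the conditioned F-type law -/

open Classical in
/-- indicator of `s1 = +` on `N` as a function of the heights -/
def CH (N : Set P2) (h : P2 → ℤ) : ℝ := if ∀ v ∈ N, s1 (h v) = true then 1 else 0

theorem SH_CH (hA : Anc N U) (f : (P2 → ℤ) → ℝ) : SH x U (fun h => CH N h * f h) = SI x U (IF U N) f := by
  classical
  unfold SH SI
  have hsub : htsI U (IF U N) ⊆ hts U := fun h hh => mem_hts.2 (mem_htsI.1 hh).1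
  rw [← Finset.sum_subset hsub (fun h hh hh' => ?_)]
  · refine Finset.sum_congr rfl fun h hh => ?_
    obtain ⟨h1, h2⟩ := mem_htsI.1 hh
    have : CH N h = 1 := if_pos fun v hv => s1_true.2 (by
      rcases h2 v (fun h' => (mem_IF.1 h').2 hv) with h3 | h3 <;> rw [h3] <;> norm_num)
    simp only [this, one_mul]
  · have hV : Valid U ((h, fun _ => true) : Cfg) := ⟨mem_hts.1 hh, fun _ _ => rfl⟩
    have : CH N h = 0 := if_neg fun hC => hh' (mem_htsI.2 ⟨mem_hts.1 hh, fun v hv => by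
      rw [mem_IF, not_and_not_right] at hv
      by_cases hI : v ∈ IV U
      · exact ht01 hA hV hC (hv hI)
      · exact hV.ht.bd v hI⟩)
    simp only [this, zero_mul, mul_zero]

/-- **the conditioned law of the heights** -/
theorem E_Cn_eq (hx : x ≠ 0) (hA : Anc N U) (f : (P2 → ℤ) → ℝ) :
    E ((x ^ 2)⁻¹) U (fun ω => Cn N ω * f ω.1) = E ((x ^ 2)⁻¹) U (Cn N) * EI x U (IF U N) f := by
  have e1 : E ((x ^ 2)⁻¹) U (fun ω => Cn N ω * f ω.1) = EH x U fun h => CH N h * f h :=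
    E_eq_EH hx U fun h => CH N h * f h
  have e2 : E ((x ^ 2)⁻¹) U (Cn N) = EH x U fun h => CH N h * 1 := by
    have := E_eq_EH hx U fun h => CH N h * 1
    rw [← this]
    refine congrArg _ ?_
    funext ω
    rw [mul_one]
    rfl
  rw [e1, e2]
  unfold EH EI
  rw [SH_CH hA f, SH_CH hA fun _ => 1]
  have h1 := SI_one_pos x U (IF U N)
  have h2 := SH_one_pos x U
  field_simp

/-! ### the arm event -/

/-- an arm of free sites with `h ≤ 0` from `S` to a site of `N` with `h ≤ 0` -/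
def ArmF (U : Finset P2) (N : Set P2) (L S : Finset P2) (h : P2 → ℤ) : Prop :=
  ∃ v ∈ S, ∃ u w, u ∈ IF U N ∧ h u ≤ 0 ∧ w ∈ N ∧ w ∈ L ∧ h w ≤ 0 ∧ Adj u w ∧
    Relation.ReflTransGen (StepIn {z | z ∈ IF U N ∧ h z ≤ 0}) v u

theorem ArmF.anti {L S : Finset P2} {h g : P2 → ℤ} (hgh : g ≤ h) (H : ArmF U N L S h) : ArmF U N L S g := by
  obtain ⟨v, hv, u, w, h1, h2, h3, h4, h5, h6, h7⟩ := H
  exact ⟨v, hv, u, w, h1, (hgh u).trans h2, h3, h4, (hgh w).trans h5, h6,
    path_mono (T := {z | z ∈ IF U N ∧ g z ≤ 0}) (fun z hz => ⟨hz.1, (hgh z).trans hz.2⟩) h7⟩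

/-- cut a path at its first exit of `F` -/
theorem cut {S F : Set P2} {v b : P2} (hv : v ∈ F)
    (p : Relation.ReflTransGen (StepIn S) v b) :
    (b ∈ F ∧ Relation.ReflTransGen (StepIn (F ∩ S)) v b) ∨
      ∃ u w, u ∈ F ∧ u ∈ S ∧ w ∉ F ∧ w ∈ S ∧ Adj u w ∧ Relation.ReflTransGen (StepIn (F ∩ S)) v u := by
  induction p with
  | refl => exact Or.inl ⟨hv, Relation.ReflTransGen.refl⟩
  | @tail b d _ hbd ih =>
    rcases ih with ⟨hb, hp⟩ | h
    · by_cases hd : d ∈ F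
      · exact Or.inl ⟨hd, hp.tail ⟨⟨hb, hbd.1⟩, ⟨hd, hbd.2.1⟩, hbd.2.2⟩⟩
      · exact Or.inr ⟨b, d, hb, hbd.1, hd, hbd.2.1, hbd.2.2, hp⟩
    · exact Or.inr h

theorem armF_of_cl (hG : Geo U N L) {S : Finset P2} (hS : S ⊆ IF U N) {h : P2 → ℤ} (hh : h ∈ LL U N L)
    (hc : ∃ v ∈ (S : Set P2), v ∈ Rfl38.Cl Adj {v | v ∉ IF U N} 1 h) : ArmF U N L S h := by
  obtain ⟨v, hvS, hv⟩ := hc
  obtain ⟨hl, h1, h01⟩ := mem_LL.1 hh
  obtain ⟨b, hb, hb1, hv1, hp⟩ := Rfl38.cl_lt (adj := Adj) (Bd := {v | v ∉ IF U N}) (k := 1)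
    (fun u v ha => lip_adj hl ha) (fun b hb => by
      rcases h01 b hb with h | h <;> rw [h]
      norm_num) hv
  have hp' : Relation.ReflTransGen (StepIn {u | h u < 1}) v b :=
    path_symm (Relation.ReflTransGen.mono (fun a b hab => ⟨hab.1, hab.2.1, hab.2.2⟩) _ _ hp)
  rcases cut (F := {z | z ∈ IF U N}) (hS hvS) hp' with ⟨hbF, _⟩ | ⟨u, w, hu, hu1, hw, hw1, ha, hq⟩
  · exact absurd hbF hb
  · have hu1' : h u < 1 := hu1
    have hw1' : h w < 1 := hw1
    have hwL : w ∈ L := by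
      by_contra hn
      rw [h1 w hn] at hw1'
      omega
    have hwN : w ∈ N := by
      by_contra hn
      exact hn (hG.near w hwL fun hI => hw (mem_IF.2 ⟨hI, hn⟩))
    refine ⟨v, hvS, u, w, hu, by omega, hwN, hwL, by omega, ha, path_mono ?_ hq⟩
    rintro z ⟨hz1, hz2⟩
    have hz2' : h z < 1 := hz2
    exact ⟨hz1, by omega⟩

open Classical in
/-- **arm from the mean** -/
theorem EI_arm_ge (hx0 : 0 < x) (hx1 : x ≤ 1) (hG : Geo U N L) {S : Finset P2} (hS : S ⊆ IF U N)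
    {w : P2 → ℝ} (hw : ∑ v ∈ S, w v = 1) (T : ℝ) :
    EL x U N L (fun h => clp T (Ln S w h)) ≤
      EI x U (IF U N) fun h => if ArmF U N L S h then 1 else 0 := by
  have h1 := EL_refl (x := x) hx0 hG.nonfree (B := (S : Set P2)) (Φ := fun h => clp T (Ln S w h))
    (fun h g hgh => by
      have e : Ln S w g = 2 - Ln S w h := by
        unfold Hf702.Ln
        rw [show (2 : ℝ) = ∑ v ∈ S, w v * 2 by rw [← Finset.sum_mul, hw, one_mul],
          ← Finset.sum_sub_distrib]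
        refine Finset.sum_congr rfl fun v hv => ?_
        rw [hgh v hv]
        push_cast; ring
      simp only [e, clp_odd]) (fun h => clp_abs _ _)
  refine h1.trans (le_trans (EL_mono hx0 fun h hh => ?_) (EL_le_EI hx0 hx1 hG.nonfree
    (f := fun h => if ArmF U N L S h then 1 else 0) fun a b hab => ?_))
  · by_cases hc : ∃ v ∈ (S : Set P2), v ∈ Rfl38.Cl Adj {v | v ∉ IF U N} 1 h
    · rw [if_pos hc, if_pos (armF_of_cl hG hS hh hc)]
    · rw [if_neg hc]; split_ifs <;> norm_num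
  · by_cases hb : ArmF U N L S b
    · simp only [if_pos hb, if_pos (hb.anti hab)]; exact le_rfl
    · simp only [if_neg hb]; split_ifs <;> norm_num

/-- **core estimate** -/
theorem core {K : ℕ} {p : ℝ} (hx0 : 0 < x) (hx1 : x ≤ 1) (hR : RSW ((x ^ 2)⁻¹) K p)
    {P : Measure Hz} (hPS : PSq P)
    (hFL : ∀ f : Hz → ℝ, GObs f → FLim ((x ^ 2)⁻¹) f (∫ h, f h ∂P)) (A : ℕ) :
    ∃ (M : ℕ) (c0 : ℝ), 0 < c0 ∧ A + 3 ≤ M ∧ ∀ (U : Finset P2) (N : Set P2) (L : Finset P2) (b y : P2)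
      (n : ℕ), 1 ≤ n → SC U → Geo U N L → Anc N U → IsConn ((L : Set P2)ᶜ) → b ∈ N → b ∉ U →
      VF (ball b (M * n)) ⊆ L → (∀ t ∈ ball b (M * n), t ∉ U → t ∈ ray b) → y ∈ ball b (A * n) →
      ball y n ⊆ IF U N →
        c0 * E ((x ^ 2)⁻¹) U (Cn N) ≤
          E ((x ^ 2)⁻¹) U (fun ω => Cn N ω * ind {ω | ArmF U N L (ball y n) ω.1} ω) := by
  classical
  have hx2 : 0 < x ^ 2 := by positivity
  have hc : 1 ≤ (x ^ 2)⁻¹ := (one_le_inv₀ hx2).2 (pow_le_one₀ hx0.le hx1)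
  obtain ⟨C, hC0, hC⟩ := hf_ex hx0 hx1 hR hPS hFL ((A + 3) ^ 2)
  set C1 : ℝ := 2 * C + 1 / 2 with hC1
  set T : ℝ := 3 + 2 * C1 with hT
  have hC1' : 0 ≤ C1 := by rw [hC1]; positivity
  have hT1 : 1 ≤ T := by rw [hT]; linarith
  have hT0 : 0 < T := by linarith
  have hp1 : (1 - p) < 1 := by linarith [hR.p0]
  have hp0 : 0 ≤ 1 - p := by linarith [hR.p1]
  obtain ⟨k, hk⟩ := exists_pow_lt_of_lt_one (show (0 : ℝ) < 1 / (8 * T) by positivity) hp1
  have hk' : (1 - p) ^ (k + 1) ≤ 1 / (8 * T) := by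
    rw [pow_succ]
    have : (1 - p) ^ k * (1 - p) ≤ (1 - p) ^ k * 1 :=
      mul_le_mul_of_nonneg_left hp1.le (pow_nonneg hp0 k)
    linarith
  have hK1 : 1 ≤ K * (K + 1) ^ k := Nat.mul_pos (by have := hR.K4; omega) (by positivity)
  refine ⟨K * (K + 1) ^ k * (A + 3), 1 / (8 * T), by positivity, Nat.le_mul_of_pos_left _ hK1,
    fun U N L b y n hn hU hG hA hL hbN hbU hV hray hy hyI => ?_⟩
  set n' := (A + 3) * n with hn'
  have hn1 : 1 ≤ n' := Nat.mul_pos (by omega) hn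
  have eM : K * (K + 1) ^ k * (A + 3) * n = K * ((K + 1) ^ k * n') := by rw [hn']; ring
  rw [eM] at hV hray
  set S := ball y n with hS
  set w : P2 → ℝ := fun _ => 1 / (S.card : ℝ) with hw
  have hnR : (1 : ℝ) ≤ n := by exact_mod_cast hn
  have hcard : (n : ℝ) ^ 2 ≤ S.card := le_card_ball y n
  have hcard0 : (0 : ℝ) < S.card := lt_of_lt_of_le (by positivity) hcard
  have hw1 : ∑ v ∈ S, w v = 1 := by
    simp only [hw, Finset.sum_const, nsmul_eq_mul]
    field_simp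
  have hIn : InB b (n' - 1) S := by
    intro v hv t hvt
    have h1 := ball_trans (up_ball hvt) (ball_trans hv hy)
    refine ball_mono b ?_ h1
    have : n' = A * n + 3 * n := by rw [hn']; ring
    omega
  have hwA : ∀ v ∈ S, |w v| ≤ (((A + 3) ^ 2 : ℕ) : ℝ) / (n' : ℝ) ^ 2 := by
    intro v _
    simp only [hw]
    rw [abs_of_pos (by positivity), div_le_div_iff₀ hcard0 (by positivity), hn']
    push_cast
    nlinarith [mul_le_mul_of_nonneg_left hcard (show (0 : ℝ) ≤ ((A : ℝ) + 3) ^ 2 by positivity)]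
  have hm : EL x U N L (fun h => (Ln S w h - 1 / 2) ^ 2) ≤ C1 :=
    EL_le_of hx0 hG.nonfree fun η _ h01 => ex_sq01 hx0 (fun ξ hξ =>
      hC n' hn1 b (IF U N) U hU (upT_IF U N) hbU ξ hξ S w hyI hIn hwA) h01
  have hge := EL_ge hx0 hx1 hR hG hL (b := b) (k := k) (n := n') (r := n' - 1) hn1 (by omega) hV
    (fun t ht htb => hray t htb ht.2) hbN hIn.vf hw1 hT1 hm
  have harm := EI_arm_ge hx0 hx1 hG hyI hw1 T
  have hlow : 1 / (8 * T) ≤ EI x U (IF U N) fun h => if ArmF U N L S h then 1 else 0 := by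
    refine le_trans ?_ (hge.trans harm)
    have hq : C1 / (T - 1 / 2) ^ 2 ≤ 1 / 4 := by
      rw [div_le_iff₀ (by
        have : 0 < T - 1 / 2 := by linarith
        positivity)]
      rw [hT]
      nlinarith
    have h8 : 1 / (8 * T) ≤ 1 / 8 := by
      rw [div_le_div_iff₀ (by positivity) (by norm_num)]
      linarith
    set ε := (1 - p) ^ (k + 1) with hε
    have h9 : 1 / (2 * T) * (5 / 8) ≤ 1 / (2 * T) * (1 - ε - C1 / (T - 1 / 2) ^ 2) :=
      mul_le_mul_of_nonneg_left (by linarith) (by positivity)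
    have e1 : 1 / (2 * T) * (5 / 8) = 5 / 2 * (1 / (8 * T)) := by field_simp
    have h10 : 0 < 1 / (8 * T) := by positivity
    linarith
  have hE := E_Cn_eq (x := x) hx0.ne' hA fun h => if ArmF U N L S h then 1 else 0
  have e3 : (fun ω : Cfg => Cn N ω * ind {ω | ArmF U N L S ω.1} ω) =
      fun ω => Cn N ω * (fun h => if ArmF U N L S h then (1 : ℝ) else 0) ω.1 := by
    funext ω
    rfl
  rw [e3, hE, mul_comm (1 / (8 * T))]
  exact mul_le_mul_of_nonneg_left hlow (E_nonneg hc fun ω _ => Cn_nonneg N ω)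

end Crest.Agent.R144.LmB702
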