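import Crest.Agent.R144.LoA6_770
import Crest.Agent.R144.LoC0_95
import Crest.Agent.R144.Bl6_565
import Crest.Agent.R144.Bl4_565

/-!
R144 (S0197), helper770, LOWER side (probabilistic half), file 7:
the reference pair of 565 on a block (`refP_L2`), the matrix `Ph` of 95: measurability, bounds,
locality, shifts, symmetry, positivity; and **existence of near-optimal templates** on `bk r 0`
(`exists_tpl`).
-/

set_option autoImplicit false
set_option linter.unusedSectionVars false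
set_option maxHeartbeats 400000

open MeasureTheory Set Filter Topology Metric
open scoped ENNReal NNReal

noncomputable section

namespace Crest.Agent.R144.LoA770

open Crest.Agent.R144.Ham560 Crest.Agent.R144.Tri560 Crest.Agent.R144.Zb560
open Crest.Agent.R144.BQ565
open Crest.Agent.R144.MW121 (jac jac_apply en)
open Crest.Agent.R144.Lc279 (lat mem_lat mem_nbr_lat P2)
open Crest.Agent.R144.Lw425 (hd hd_comm hd_le_iff mem_hball hball hd_self hd_triangle hd_pos LObs)
open Crest.Agent.R144.Bl565 (Par ps L2 Lf Zk win cor bk rh cw bbO bbM trE qd DLR anch_lat refF_L2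
  mem_win subset_win cor_subset win_bk_subset mem_rh bk_zero)
open Crest.Agent.R144.LoC95 (dv Ph Ph_apply Gt Tpl)

/-! ### the reference pair on a block -/

section Ref

variable {P : Par} {V : Finset P2} {E : Finset (P2 × P2)}

theorem cost_ge {c : P2 → P2 → ℝ} (hc : ∀ a b, 0 ≤ c a b) {φ : P2 → ℝ} {a : ℝ} :
    ∀ l : List P2, l ≠ [] → (∀ v ∈ l, a ≤ φ v) → a ≤ cost φ c l
  | [], h, _ => absurd rfl h
  | [v], _, h => h v (by simp)
  | u :: v :: t, _, h => by
    rw [cost_cons]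
    have := cost_ge hc (v :: t) (by simp) fun w hw => h w (List.mem_cons_of_mem _ hw)
    linarith [hc u v]

theorem abs_Zk_le {N : ℝ} (hN : ∀ k, ∀ v ∈ V, |ps k v| ≤ N) (k : Fin 3) (h : P2 → ℝ) {u : P2}
    (hu : u ∈ V) : |Zk P V E k h u| ≤ N := by
  rw [abs_le]
  constructor
  · refine le_iv fun l hl => ?_
    refine cost_ge (fun a b => cz_nonneg P.Lam_nonneg h a b) l (pt_ne_nil hl) fun v hv => ?_
    exact (abs_le.1 (hN k v (pt_mem' hl hu v hv))).1
  · exact (Z_le u).trans (abs_le.1 (hN k u hu)).2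

theorem abs_Lf_le {N : ℝ} (hN : ∀ k, ∀ v ∈ V, |ps k v| ≤ N) (k : Fin 3) (h : P2 → ℝ) {u : P2}
    (hu : u ∈ V) : |Lf P V E k h u| ≤ 2 * N := by
  have hk := abs_le.1 (abs_Zk_le (P := P) (E := E) hN k h hu)
  have h0 := abs_le.1 (abs_Zk_le (P := P) (E := E) hN 0 h hu)
  have h1 := abs_le.1 (abs_Zk_le (P := P) (E := E) hN 1 h hu)
  have h2 := abs_le.1 (abs_Zk_le (P := P) (E := E) hN 2 h hu)
  unfold Lf
  rw [abs_le]
  constructor <;> linarith [hk.1, hk.2, h0.1, h0.2, h1.1, h1.2, h2.1, h2.2]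

/-- Lipschitz constant of the reference fields -/
def cRef (P : Par) (V : Finset P2) : ℝ := 2 * ((V.card + 1) * (2 * P.Lam / P.eps))

theorem cRef_nonneg (P : Par) (V : Finset P2) : 0 ≤ cRef P V := by
  have h1 := P.Lam_nonneg
  have h2 := P.eps_pos
  unfold cRef
  positivity

theorem abs_L2_sub_le {h h' : P2 → ℝ} {M : ℝ} (hM0 : 0 ≤ M) (hM : ∀ a ∈ V, |h a - h' a| ≤ M)
    (i : Fin 2) (u : P2) : |L2 P V E i h u - L2 P V E i h' u| ≤ cRef P V * M := by
  have hz : ∀ k, |Zk P V E k h u - Zk P V E k h' u| ≤ (V.card + 1) * (2 * P.Lam / P.eps * M) :=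
    fun k => Z_lip P.eps_pos P.Lam_nonneg hM0 hM u
  have hk := abs_le.1 (hz i.castSucc)
  have h0 := abs_le.1 (hz 0)
  have h1 := abs_le.1 (hz 1)
  have h2 := abs_le.1 (hz 2)
  have e : cRef P V * M = 2 * ((V.card + 1) * (2 * P.Lam / P.eps * M)) := by unfold cRef; ring
  rw [e]
  unfold L2 Lf
  rw [abs_le]
  constructor <;> linarith [hk.1, hk.2, h0.1, h0.2, h1.1, h1.2, h2.1, h2.2]

/-- **the reference pair on a block** -/
theorem refP_L2 (P : Par) {I : Finset P2} {m : ℕ} (hm : 1 ≤ m) {o : P2} (ho : o ∈ win m I)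
    (hoI : o ∉ I) {N : ℝ} (hN0 : 0 ≤ N) (hN : ∀ k, ∀ v ∈ win m I, |ps k v| ≤ N) :
    RefP I (win m I) (lat I) o (L2 P (win m I) (lat (win m I))) 0 (cRef P (win m I)) (4 * N)
      P.rho where
  IW := subset_win m I
  oW := ho
  oI := hoI
  ends := by
    intro p hp
    rw [mem_lat] at hp
    obtain ⟨h1, h2⟩ := hp
    have hm' : (1 : ℤ) ≤ m := by exact_mod_cast hm
    rcases h2 with h2 | h2
    · exact ⟨subset_win m I h2, mem_win.mpr ⟨p.1, h2, by rw [hd_comm, h1]; exact hm'⟩⟩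
    · exact ⟨mem_win.mpr ⟨p.2, h2, by rw [h1]; exact hm'⟩, subset_win m I h2⟩
  cL0 := cRef_nonneg P _
  R0 := by linarith
  ρ0 := P.rho_pos
  lip := fun i h h' M hM u _ => abs_L2_sub_le ((abs_nonneg _).trans (hM o ho)) hM i u
  sh := fun i h c u => Bl565.L2_shift P i h c u
  rig := fun i h p hp hI hr => by
    rw [mem_lat] at hp
    refine Bl565.L2_rigid P ?_ (subset_win m I hI.1) (subset_win m I hI.2) hr
    rw [mem_nbr_lat]
    exact ⟨hp.1, Or.inl (subset_win m I hI.1)⟩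
  near := fun h u hu => by
    have h0 := abs_Lf_le (P := P) (E := lat (win m I)) hN 0 h (subset_win m I hu)
    have h1 := abs_Lf_le (P := P) (E := lat (win m I)) hN 1 h (subset_win m I hu)
    have e0 : L2 P (win m I) (lat (win m I)) 0 h u - (0 : Fin 2 → ℝ) 0 =
        Lf P (win m I) (lat (win m I)) 0 h u := by
      rw [Pi.zero_apply, sub_zero]; rfl
    have e1 : L2 P (win m I) (lat (win m I)) 1 h u - (0 : Fin 2 → ℝ) 1 =
        Lf P (win m I) (lat (win m I)) 1 h u := by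
      rw [Pi.zero_apply, sub_zero]; rfl
    rw [e0, e1]
    refine (N2_le _ _ h0 h1).trans ?_
    nlinarith [sq_nonneg N]

end Ref

/-! ### the matrix `Ph` -/

section PhS

variable {I W : Finset P2} {G : Fin 2 → (P2 → ℝ) → P2 → ℝ} {k : ℝ}

/-- fields which are Lipschitz in a window -/
structure WL (W : Finset P2) (G : Fin 2 → (P2 → ℝ) → P2 → ℝ) (k : ℝ) : Prop where
  k0 : 0 ≤ k
  lip : ∀ i h h' (M : ℝ), 0 ≤ M → (∀ w ∈ W, |h w - h' w| ≤ M) → ∀ w, |G i h w - G i h' w| ≤ k * M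

theorem WL.cont (H : WL W G k) (i : Fin 2) (w : P2) : Continuous fun h => G i h w := by
  by_cases hW : W.Nonempty
  · obtain ⟨o, ho⟩ := hW
    exact continuous_of_win (W := W) H.k0 fun h h' M hM =>
      H.lip i h h' M ((abs_nonneg _).trans (hM o ho)) hM w
  · have : ∀ h h', G i h w = G i h' w := by
      intro h h'
      have := H.lip i h h' 0 le_rfl (fun w hw => absurd ⟨w, hw⟩ hW) w
      rw [mul_zero] at this
      exact sub_eq_zero.1 (abs_nonpos_iff.1 this)
    have e : (fun h => G i h w) = fun _ => G i 0 w := by funext h; exact this h 0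
    rw [e]
    exact continuous_const

theorem WL.congr (H : WL W G k) {h h' : P2 → ℝ} (hh : ∀ w ∈ W, h w = h' w) (i : Fin 2) (w : P2) :
    G i h w = G i h' w := by
  have := H.lip i h h' 0 le_rfl (fun w hw => by rw [hh w hw, sub_self, abs_zero]) w
  rw [mul_zero] at this
  exact sub_eq_zero.1 (abs_nonpos_iff.1 this)

theorem WL.lip_line (H : WL W G k) (i : Fin 2) (w v : P2) (h : P2 → ℝ) :
    LipschitzWith ⟨k, H.k0⟩ fun t : ℝ => G i (h + t • Pi.single v 1) w := by
  refine LipschitzWith.of_dist_le_mul fun s t => ?_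
  rw [Real.dist_eq, Real.dist_eq]
  change _ ≤ k * |s - t|
  refine H.lip i _ _ _ (abs_nonneg _) (fun u _ => ?_) w
  simp only [Pi.add_apply, Pi.smul_apply, smul_eq_mul, add_sub_add_left_eq_sub, ← sub_mul]
  rw [abs_mul]
  by_cases hu : u = v
  · subst hu; simp
  · rw [Pi.single_eq_of_ne hu]; simp

theorem WL.abs_dv_le (H : WL W G k) (i : Fin 2) (w v : P2) (h : P2 → ℝ) :
    |dv v (fun h => G i h w) h| ≤ k := by
  have := norm_deriv_le_of_lipschitz (x₀ := (0 : ℝ)) (H.lip_line i w v h)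
  exact this

theorem WL.measurable_dv (H : WL W G k) (i : Fin 2) (w v : P2) :
    Measurable fun h => dv v (fun h => G i h w) h := by
  have h1 : Continuous (Function.uncurry fun (h : P2 → ℝ) (t : ℝ) =>
      G i (h + t • Pi.single v 1) w) := by
    have : Continuous fun p : (P2 → ℝ) × ℝ => p.1 + p.2 • (Pi.single v (1 : ℝ) : P2 → ℝ) := by
      fun_prop
    exact (H.cont i w).comp this
  have h2 := measurable_deriv_with_param h1
  have h3 : Measurable fun h : P2 → ℝ => (h, (0 : ℝ)) := measurable_id.prodMk measurable_const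
  exact h2.comp h3

theorem WL.dv_congr (H : WL W G k) (i : Fin 2) (w v : P2) {h h' : P2 → ℝ}
    (hh : ∀ w ∈ W, h w = h' w) : dv v (fun h => G i h w) h = dv v (fun h => G i h w) h' := by
  unfold dv lineDeriv
  congr 1
  funext t
  exact H.congr (fun u hu => by simp only [Pi.add_apply, hh u hu]) i w

theorem dv_shift (hs : ∀ i h (c : ℝ) w, G i (fun v => h v + c) w = G i h w) (i : Fin 2) (w v : P2)
    (h : P2 → ℝ) (c : ℝ) :
    dv v (fun h => G i h w) (fun v => h v + c) = dv v (fun h => G i h w) h := by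
  unfold dv lineDeriv
  congr 1
  funext t
  have e : (fun v => h v + c) + t • (Pi.single v 1 : P2 → ℝ) =
      fun u => (h + t • (Pi.single v 1 : P2 → ℝ)) u + c := by
    funext u
    simp only [Pi.add_apply]
    ring
  simp only [e]
  exact hs i (h + t • Pi.single v 1) c w

theorem WL.measurable_Ph (H : WL W G k) (I : Finset P2) (i j : Fin 2) :
    Measurable fun h => Ph I G h i j := by
  simp only [Ph_apply]
  exact Finset.measurable_sum _ fun v _ => Finset.measurable_sum _ fun w _ =>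
    (H.measurable_dv i w v).mul (H.measurable_dv j w v)

theorem WL.abs_Ph_le (H : WL W G k) (I : Finset P2) (h : P2 → ℝ) (i j : Fin 2) :
    |Ph I G h i j| ≤ I.card * (I.card * k ^ 2) := by
  rw [Ph_apply]
  refine (Finset.abs_sum_le_sum_abs _ _).trans ?_
  have h1 : ∀ v ∈ I, |∑ w ∈ I, dv v (fun h => G i h w) h * dv v (fun h => G j h w) h| ≤
      I.card * k ^ 2 := by
    intro v _
    refine (Finset.abs_sum_le_sum_abs _ _).trans ?_
    have h2 : ∀ w ∈ I, |dv v (fun h => G i h w) h * dv v (fun h => G j h w) h| ≤ k ^ 2 := by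
      intro w _
      rw [abs_mul, sq]
      exact mul_le_mul (H.abs_dv_le i w v h) (H.abs_dv_le j w v h) (abs_nonneg _) H.k0
    have := Finset.sum_le_card_nsmul I _ _ h2
    rwa [nsmul_eq_mul] at this
  have := Finset.sum_le_card_nsmul I _ _ h1
  rwa [nsmul_eq_mul] at this

theorem WL.Ph_congr (H : WL W G k) (I : Finset P2) {h h' : P2 → ℝ}
    (hh : ∀ w ∈ W, h w = h' w) : Ph I G h = Ph I G h' := by
  ext i j
  simp only [Ph_apply]
  refine Finset.sum_congr rfl fun v _ => Finset.sum_congr rfl fun w _ => ?_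
  rw [H.dv_congr i w v hh, H.dv_congr j w v hh]

theorem Ph_shift (hs : ∀ i h (c : ℝ) w, G i (fun v => h v + c) w = G i h w) (I : Finset P2)
    (h : P2 → ℝ) (c : ℝ) : Ph I G (fun v => h v + c) = Ph I G h := by
  ext i j
  simp only [Ph_apply]
  refine Finset.sum_congr rfl fun v _ => Finset.sum_congr rfl fun w _ => ?_
  rw [dv_shift hs, dv_shift hs]

theorem Ph_symm (I : Finset P2) (G : Fin 2 → (P2 → ℝ) → P2 → ℝ) (h : P2 → ℝ) (i j : Fin 2) :
    Ph I G h i j = Ph I G h j i := by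
  simp only [Ph_apply]
  exact Finset.sum_congr rfl fun v _ => Finset.sum_congr rfl fun w _ => mul_comm _ _

theorem qd_Ph (I : Finset P2) (G : Fin 2 → (P2 → ℝ) → P2 → ℝ) (h : P2 → ℝ) (y : Fin 2 → ℝ) :
    qd (Ph I G h) y = ∑ v ∈ I, ∑ w ∈ I,
      (dv v (fun h => G 0 h w) h * y 0 + dv v (fun h => G 1 h w) h * y 1) ^ 2 := by
  rw [Bl565.qd_eq]
  simp only [Ph_apply, Finset.sum_mul]
  rw [← Finset.sum_add_distrib, ← Finset.sum_add_distrib, ← Finset.sum_add_distrib]
  refine Finset.sum_congr rfl fun v _ => ?_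
  rw [← Finset.sum_add_distrib, ← Finset.sum_add_distrib, ← Finset.sum_add_distrib]
  exact Finset.sum_congr rfl fun w _ => by ring

theorem qd_Ph_nonneg (I : Finset P2) (G : Fin 2 → (P2 → ℝ) → P2 → ℝ) (h : P2 → ℝ)
    (y : Fin 2 → ℝ) : 0 ≤ qd (Ph I G h) y := by
  rw [qd_Ph]
  exact Finset.sum_nonneg fun v _ => Finset.sum_nonneg fun w _ => sq_nonneg _

theorem trE_Ph (I : Finset P2) (G : Fin 2 → (P2 → ℝ) → P2 → ℝ) (h : P2 → ℝ) :
    trE (Ph I G h) = ∑ v ∈ I, ∑ w ∈ I,
      N2 (dv v (fun h => G 0 h w) h) (dv v (fun h => G 1 h w) h) := by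
  unfold trE N2
  simp only [Ph_apply]
  rw [← Finset.sum_add_distrib, ← Finset.sum_add_distrib]
  refine Finset.sum_congr rfl fun v _ => ?_
  rw [← Finset.sum_add_distrib, ← Finset.sum_add_distrib]
  exact Finset.sum_congr rfl fun w _ => by ring

theorem trE_Ph_nonneg (I : Finset P2) (G : Fin 2 → (P2 → ℝ) → P2 → ℝ) (h : P2 → ℝ) :
    0 ≤ trE (Ph I G h) := by
  rw [trE_Ph]
  exact Finset.sum_nonneg fun v _ => Finset.sum_nonneg fun w _ => N2_nonneg _ _

/-- adding a multiple of a unit vector inside the block -/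
theorem add_single_eq_ext (h : P2 → ℝ) (x : I → ℝ) (v : I) (t : ℝ) :
    ext I h x + t • Pi.single (v : P2) 1 = ext I h (x + t • Pi.single v 1) := by
  funext u
  simp only [Pi.add_apply, Pi.smul_apply, smul_eq_mul]
  by_cases hu : u ∈ I
  · rw [ext_mem hu, ext_mem hu]
    simp only [Pi.add_apply, Pi.smul_apply, smul_eq_mul]
    congr 2
    by_cases huv : u = v
    · subst huv; simp
    · rw [Pi.single_eq_of_ne huv, Pi.single_eq_of_ne]
      intro h; exact huv (congrArg Subtype.val h)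
  · rw [ext_notMem hu, ext_notMem hu]
    have : u ≠ v := fun e => hu (e ▸ v.2)
    rw [Pi.single_eq_of_ne this]
    simp

/-- the derivative on a fibre is the Jacobian entry -/
theorem dv_eq_jac {h : P2 → ℝ} {x : I → ℝ} {i : Fin 2}
    (hd : DifferentiableAt ℝ (fun (x : I → ℝ) (w : I) => G i (ext I h x) w) x) (w v : I) :
    dv (v : P2) (fun h => G i h w) (ext I h x) =
      jac (fun (x : I → ℝ) (w : I) => G i (ext I h x) w) x w v := by
  have h1 : ∀ t : ℝ, G i (ext I h x + t • Pi.single (v : P2) 1) w =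
      (fun (x : I → ℝ) (w : I) => G i (ext I h x) w) (x + t • Pi.single v 1) w := by
    intro t
    rw [add_single_eq_ext]
  unfold dv lineDeriv
  simp only [h1]
  rw [jac_apply]
  have h2 : HasDerivAt (fun t : ℝ => x + t • (Pi.single v (1 : ℝ) : I → ℝ))
      (Pi.single v 1) 0 := by
    have := ((hasDerivAt_id (0 : ℝ)).smul_const (Pi.single v (1 : ℝ) : I → ℝ)).const_add x
    simpa using this
  have h3 : HasFDerivAt (fun (x : I → ℝ) (w : I) => G i (ext I h x) w)
      (fderiv ℝ (fun (x : I → ℝ) (w : I) => G i (ext I h x) w) x)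
      (x + (0 : ℝ) • (Pi.single v (1 : ℝ) : I → ℝ)) := by
    rw [zero_smul, add_zero]; exact hd.hasFDerivAt
  have h4 := h3.comp_hasDerivAt (0 : ℝ) h2
  have h5 := hasDerivAt_pi.1 h4 w
  exact h5.deriv

end PhS

/-! ### templates -/

section Tp

variable {P : Par} {m : ℕ} {I : Finset P2} {Tl : Fin 2 → (P2 → ℝ) → P2 → ℝ} {B C : ℝ}

theorem Tpl.wl (hT : Tpl m I Tl B C) (hC : 0 ≤ C) :
    WL (win m I) (Gt P m I Tl) (cRef P (win m I) + C) where
  k0 := add_nonneg (cRef_nonneg P _) hC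
  lip := fun i h h' M hM0 hM w => by
    have h1 := abs_L2_sub_le (P := P) (E := lat (win m I)) hM0 hM i w
    have h2 := hT.lip i h h' M hM w
    have e : Gt P m I Tl i h w - Gt P m I Tl i h' w =
        (L2 P (win m I) (lat (win m I)) i h w - L2 P (win m I) (lat (win m I)) i h' w) +
          (Tl i h w - Tl i h' w) := by
      simp only [Gt]; ring
    rw [e]
    refine (abs_add_le _ _).trans ?_
    linarith

theorem Gt_shift (hT : Tpl m I Tl B C) (i : Fin 2) (h : P2 → ℝ) (c : ℝ) (w : P2) :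
    Gt P m I Tl i (fun v => h v + c) w = Gt P m I Tl i h w := by
  simp only [Gt]
  rw [Bl565.L2_shift, hT.sh]

/-- extension of a local template by `0` -/
def extT (T : Fin 2 → (P2 → ℝ) → I → ℝ) (i : Fin 2) (h : P2 → ℝ) (w : P2) : ℝ :=
  if hw : w ∈ I then T i h ⟨w, hw⟩ else 0

theorem extT_mem (T : Fin 2 → (P2 → ℝ) → I → ℝ) (i : Fin 2) (h : P2 → ℝ) (w : I) :
    extT T i h w = T i h w := by
  simp only [extT, dif_pos w.2]

theorem tpl_of_tmpl {T : Fin 2 → (P2 → ℝ) → I → ℝ} {K : ℝ} (hK : 0 ≤ K)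
    (hI : I.Nonempty) (hT : Tmpl I (win m I) (cor m I) (lat I) T K) :
    ∃ C, 0 ≤ C ∧ Tpl m I (extT T) K C := by
  obtain ⟨cT, hc0, hl⟩ := hT.lip
  refine ⟨cT, hc0, ?_⟩
  have hlip : ∀ i h h' (M : ℝ), (∀ v ∈ win m I, |h v - h' v| ≤ M) →
      ∀ w, |extT T i h w - extT T i h' w| ≤ cT * M := by
    intro i h h' M hM w
    have hM0 : 0 ≤ M := by
      obtain ⟨o, ho⟩ := hI
      exact (abs_nonneg _).trans (hM o (subset_win m I ho))
    by_cases hw : w ∈ I
    · have := hl i h h' M hM ⟨w, hw⟩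
      simp only [extT, dif_pos hw]
      exact this
    · simp only [extT, dif_neg hw, sub_self, abs_zero]
      positivity
  refine ⟨?_, hlip, ?_, ?_, ?_, ?_⟩
  · intro i h h' hh w
    have := hlip i h h' 0 (fun v hv => by rw [hh v hv, sub_self, abs_zero]) w
    rw [mul_zero] at this
    exact sub_eq_zero.1 (abs_nonpos_iff.1 this)
  · intro i h w hw
    by_cases hI : w ∈ I
    · simp only [extT, dif_pos hI]
      exact hT.core i h ⟨w, hI⟩ hw
    · simp only [extT, dif_neg hI]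
  · intro i h w
    by_cases hI : w ∈ I
    · simp only [extT, dif_pos hI]
      exact hT.bd i h ⟨w, hI⟩
    · simp only [extT, dif_neg hI, abs_zero]
      exact hK
  · obtain ⟨ρ, hρ, hr⟩ := hT.rig
    refine ⟨ρ, hρ, fun i h hh a ha b hb hab hge => ?_⟩
    simp only [extT, dif_pos ha, dif_pos hb]
    refine hr i h (fun p hp hpI => ?_) ⟨a, ha⟩ ⟨b, hb⟩ ?_ hge
    · rw [mem_lat] at hp
      exact hh p.1 hpI.1 p.2 hpI.2 hp.1
    · rw [mem_lat]
      exact ⟨hab, Or.inl ha⟩
  · intro i h c w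
    by_cases hI : w ∈ I
    · simp only [extT, dif_pos hI]
      exact hT.sh i h c ⟨w, hI⟩
    · simp only [extT, dif_neg hI]

/-- on a fibre -/
theorem fib_Gt (T : Fin 2 → (P2 → ℝ) → I → ℝ) (h : P2 → ℝ) (i : Fin 2) :
    (fun (x : I → ℝ) (w : I) => Gt P m I (extT T) i (ext I h x) w) =
      fib I (tot (L2 P (win m I) (lat (win m I))) T) h i := by
  funext x w
  simp only [Gt, fib, tot, extT_mem]

/-- the trace of `Ph` on a fibre -/
theorem trE_Ph_ext {T : Fin 2 → (P2 → ℝ) → I → ℝ} {h : P2 → ℝ} {x : I → ℝ}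
    (hd : ∀ i, DifferentiableAt ℝ (fib I (tot (L2 P (win m I) (lat (win m I))) T) h i) x) :
    trE (Ph I (Gt P m I (extT T)) (ext I h x)) =
      enN (fib I (tot (L2 P (win m I) (lat (win m I))) T) h 0)
        (fib I (tot (L2 P (win m I) (lat (win m I))) T) h 1) x := by
  have key : ∀ (i : Fin 2) (w v : I), dv (v : P2) (fun h => Gt P m I (extT T) i h w) (ext I h x) =
      jac (fib I (tot (L2 P (win m I) (lat (win m I))) T) h i) x w v := by
    intro i w v
    have h1 := hd i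
    rw [← fib_Gt] at h1
    rw [dv_eq_jac h1, fib_Gt]
  rw [trE_Ph]
  unfold enN
  rw [Finset.sum_comm, ← Finset.sum_coe_sort I]
  refine Finset.sum_congr rfl fun w _ => ?_
  rw [← Finset.sum_coe_sort I]
  refine Finset.sum_congr rfl fun v _ => ?_
  rw [key, key]

/-- **Existence of near-optimal templates on a general block.** -/
theorem exists_tpl_gen (P : Par) {I : Finset P2} {m : ℕ} (hm : 1 ≤ m) {o : P2}
    (ho : o ∈ win m I) (hoI : o ∉ I) (hI : I.Nonempty) {N : ℝ} (hN0 : 0 ≤ N)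
    (hN : ∀ k, ∀ v ∈ win m I, |ps k v| ≤ N) {r : ℕ} (hr : win m I ⊆ hball r)
    {μ : Measure (P2 → ℝ)} [IsProbabilityMeasure μ] (hdlr : DLR μ) {η : ℝ} (hη : 0 < η) :
    ∃ Tl C, 0 ≤ C ∧ Tpl m I Tl (16 * N) C ∧
      ∫ h, trE (Ph I (Gt P m I Tl) h) ∂μ ≤ ∫ h, trE (bbM P m I h) ∂μ + η := by
  have H := refP_L2 P hm ho hoI hN0 hN
  have hdlr' : ∀ F : (P2 → ℝ) → ℝ, Measurable F → (∃ B, ∀ h, |F h| ≤ B) →
      (∀ h h', (∀ w ∈ win m I, h w = h' w) → F h = F h') →
      (∀ h (c : ℝ), F (fun v => h v + c) = F h) →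
      ∫ h, F h ∂μ = ∫ h, ∫ x, F (ext I h x) ∂(hamP I (lat I) h) ∂μ := by
    intro F hF hb hloc hsh
    obtain ⟨B, hB⟩ := hb
    have hB0 : 0 ≤ B := (abs_nonneg _).trans (hB 0)
    have hp : (0 : ℝ) < B + 1 := by linarith
    have hobs : LObs r fun h => (B + 1)⁻¹ * F h :=
      ⟨hF.const_mul _, fun h => by
        rw [abs_mul, abs_of_pos (inv_pos.2 hp)]
        rw [inv_mul_le_iff₀ hp, mul_one]
        linarith [hB h], fun h h' hh => by
        rw [hloc h h' fun w hw => hh w (hr hw)], fun h c => by rw [hsh]⟩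
    have h1 := hdlr I r _ hobs
    simp only [integral_const_mul] at h1
    exact mul_left_cancel₀ (inv_pos.2 hp).ne' h1
  obtain ⟨T, hT, hE⟩ := exists_tmpl (C := cor m I) H (anch_lat I)
    (refF_L2 P I (win m I) (lat (win m I))) hdlr' hη
  have e4 : 4 * (4 * N) = 16 * N := by ring
  rw [e4] at hT
  obtain ⟨C, hC0, hTp⟩ := tpl_of_tmpl (by linarith) hI hT
  refine ⟨extT T, C, hC0, hTp, ?_⟩
  have hwl := Tpl.wl (P := P) hTp hC0
  have htr : ∀ h, trE (Ph I (Gt P m I (extT T)) h) = Ph I (Gt P m I (extT T)) h 0 0 +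
    Ph I (Gt P m I (extT T)) h 0 1 + Ph I (Gt P m I (extT T)) h 1 1 := fun h => rfl
  have e1 : ∫ h, trE (Ph I (Gt P m I (extT T)) h) ∂μ =
      ∫ h, ∫ x, trE (Ph I (Gt P m I (extT T)) (ext I h x)) ∂(hamP I (lat I) h) ∂μ := by
    refine hdlr' _ ?_ ?_ ?_ ?_
    · simp only [htr]
      exact ((hwl.measurable_Ph I 0 0).add (hwl.measurable_Ph I 0 1)).add
        (hwl.measurable_Ph I 1 1)
    · refine ⟨I.card * (I.card * (cRef P (win m I) + C) ^ 2) +
        I.card * (I.card * (cRef P (win m I) + C) ^ 2) +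
        I.card * (I.card * (cRef P (win m I) + C) ^ 2), fun h => ?_⟩
      rw [htr]
      exact (abs_add_three _ _ _).trans (add_le_add (add_le_add (hwl.abs_Ph_le I h 0 0)
        (hwl.abs_Ph_le I h 0 1)) (hwl.abs_Ph_le I h 1 1))
    · intro h h' hh
      rw [hwl.Ph_congr I hh]
    · intro h c
      rw [Ph_shift (Gt_shift hTp)]
  have e2 : ∫ h, eN (L2 P (win m I) (lat (win m I))) T h ∂μ =
      ∫ h, ∫ x, eN (L2 P (win m I) (lat (win m I))) T (ext I h x) ∂(hamP I (lat I) h) ∂μ :=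
    hdlr' _ (measurable_eN H hT) (eN_bdd H hT) (fun h h' hh => eN_congr H hT hh)
      (fun h c => eN_shift H hT h c)
  have e3 : ∫ h, trE (Ph I (Gt P m I (extT T)) h) ∂μ =
      ∫ h, eN (L2 P (win m I) (lat (win m I))) T h ∂μ := by
    rw [e1, e2]
    congr 1
    funext h
    refine integral_congr_ae ?_
    have hg := goodLaw_hamP' (anch_lat I) h
    obtain ⟨cT, hcT, hl⟩ := hT.lip
    have h0 : 0 ≤ cRef P (win m I) + cT := add_nonneg H.cL0 hcT
    have hll : ∀ i, LocallyLipschitz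
        (fib I (tot (L2 P (win m I) (lat (win m I))) T) h i) := fun i =>
      (lip_fib h0 (lip_tot H hl) h i).locallyLipschitz
    filter_upwards [hg.ae_diff (hll 0), hg.ae_diff (hll 1)] with x d0 d1
    rw [eN_ext, trE_Ph_ext]
    intro i
    fin_cases i
    · exact d0
    · exact d1
  rw [e3]
  refine hE.trans (le_of_eq ?_)
  congr 1
  refine integral_congr_ae (ae_of_all _ fun h => ?_)
  exact tr3_eq h

/-- **Existence of near-optimal templates on the block of orientation `0`.** -/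
theorem exists_tpl (P : Par) {r : ℕ} (hr : 2 ≤ r) {μ : Measure (P2 → ℝ)} [IsProbabilityMeasure μ]
    (hdlr : DLR μ) {η : ℝ} (hη : 0 < η) :
    ∃ Tl C, 0 ≤ C ∧ Tpl (cw r) (bk r 0) Tl (64 * r) C ∧
      ∫ h, trE (Ph (bk r 0) (Gt P (cw r) (bk r 0) Tl) h) ∂μ ≤
        ((r / 2 : ℕ) : ℝ) ^ 2 * ∫ h, trE (bbO P r 0 h) ∂μ + η := by
  have hs : 1 ≤ r / 2 := by omega
  have hc : 1 ≤ cw r := Nat.sqrt_pos.2 (by omega)
  have h00 : ((0 : ℤ), (0 : ℤ)) ∈ bk r 0 := by
    rw [bk_zero, mem_rh]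
    have : (0 : ℤ) < ((r / 2 : ℕ) : ℤ) := by exact_mod_cast hs
    exact ⟨⟨le_rfl, this⟩, le_rfl, this⟩
  have ho : (((-1 : ℤ), (0 : ℤ)) : P2) ∈ win (cw r) (bk r 0) := by
    rw [mem_win]
    refine ⟨_, h00, ?_⟩
    rw [hd_le_iff]
    have : (1 : ℤ) ≤ (cw r : ℤ) := by exact_mod_cast hc
    simp only
    omega
  have hoI : (((-1 : ℤ), (0 : ℤ)) : P2) ∉ bk r 0 := by
    rw [bk_zero, mem_rh]
    rintro ⟨⟨h1, _⟩, _⟩
    simp only at h1
    omega
  have hN : ∀ k, ∀ v ∈ win (cw r) (bk r 0), |ps k v| ≤ 4 * (r : ℝ) := by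
    intro k v hv
    have h1 := win_bk_subset r 0 hv
    rw [mem_hball] at h1
    have h2 := Bl565.abs_ps_sub_le k v 0
    have h3 : ps k (0 : P2) = 0 := by fin_cases k <;> simp [ps]
    rw [h3, sub_zero] at h2
    refine h2.trans ?_
    exact_mod_cast h1
  obtain ⟨Tl, C, hC, hT, hE⟩ := exists_tpl_gen P hc ho hoI ⟨_, h00⟩ (N := 4 * (r : ℝ))
    (by positivity) hN (win_bk_subset r 0) hdlr hη
  refine ⟨Tl, C, hC, ?_, ?_⟩
  · have e : 16 * (4 * (r : ℝ)) = 64 * r := by ring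
    rw [e] at hT
    exact hT
  · refine hE.trans (le_of_eq ?_)
    have hs' : (((r / 2 : ℕ)) : ℝ) ≠ 0 := by
      have : (0 : ℝ) < ((r / 2 : ℕ) : ℝ) := by exact_mod_cast hs
      exact this.ne'
    rw [← integral_const_mul]
    congr 2
    funext h
    simp only [bbO, trE, Matrix.smul_apply, smul_eq_mul]
    field_simp

end Tp

end Crest.Agent.R144.LoA770
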