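import Crest.Agent.R144.LowL7_549
import Crest.Agent.R144.Uid4_674
import Crest.Agent.R144.Lc16_279
import Crest.Agent.R144.LoC2_95
import Crest.Agent.R144.Bl4_565
import Crest.Agent.R144.LCL_121
import Crest.Agent.R144.Bl5_565

/-!
# R144 (S0197), helper770: the inputs of 549's numbers at the instances of S0197

* `numIn_inst` : `LowL549.NumIn` for the untilted law of an instance, on the sites of a region;
* `numIn_mcw` : the same with the lattice edges (`Bl565.mcw`), the form of 95 and 549;
* `loc_inst` : the graph of an instance is the lattice near the region (`LoC95.Loc`).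
-/

set_option autoImplicit false
set_option linter.unusedSectionVars false
set_option maxHeartbeats 400000

open MeasureTheory Metric Set Filter Topology

noncomputable section

namespace Crest.Agent.R144.LowI770

open Crest.Agent.R144.Skel144 Crest.Agent.R144.Cnt268 Crest.Agent.R144.LowL549
open Crest.Agent.R144.Ham560 (ext ham nbr mem_nbr hamP)
open Crest.Agent.R144.LoB95 (mc measurable_mc)
open Crest.Agent.R144.Uig714 (Off)
open Crest.Agent.R144.Uid674 (MC Prm uid_moment uid_far uid1 off_of_compact sub_of_compact MC_le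
  SmallU prm_ps)
open Crest.Agent.R144.Lc279 (P2 sq_inst)
open Crest.Agent.R144.Lw425 (LObs hd hd_comm hd_le_iff hball mem_hball hd_self)
open Crest.Agent.R144.Bl565 (Par ps win mem_win subset_win nbr_inst hd_of_mem_Ed)
open Crest.ProbabilityR.HexHeights (centre)

variable (I : Inst) (n : ℕ)

/-- the untilted law as a law of configurations of the plane -/
def nuI (n : ℕ) : Measure (P2 → ℝ) := Measure.map (ext (I.Fr n) (I.xi n)) (I.P0 n)

theorem measurable_ext' : Measurable (ext (I.Fr n) (I.xi n)) :=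
  measurable_pi_lambda _ fun u => (Ham560.continuous_ext (F := I.Fr n) (ξ := I.xi n) u).measurable

instance : IsProbabilityMeasure (nuI I n) :=
  Measure.isProbabilityMeasure_map (measurable_ext' I n).aemeasurable

theorem integral_nuI {f : (P2 → ℝ) → ℝ} (hf : Measurable f) :
    ∫ h, f h ∂(nuI I n) = ∫ x, f (ext (I.Fr n) (I.xi n) x) ∂(I.P0 n) :=
  integral_map (measurable_ext' I n).aemeasurable hf.aestronglyMeasurable

/-- lengths of the cheap paths are bounded -/
theorem mc_le {κ U : Type*} [Fintype κ] [DecidableEq U] {ρ ε Λ c0 : ℝ} (S : Finset U)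
    (E : Finset (U × U)) (φs : κ → U → ℝ) (h : U → ℝ) (w : U) :
    mc S E ρ ε Λ c0 φs h w ≤ S.card + 1 :=
  Finset.sup_le fun _ hl => Zb560.length_pt (Finset.mem_filter.mp hl).1

/-- neighbouring sites have close centres -/
theorem dist_centre_hd {δ : ℝ} (hδ : 0 ≤ δ) {u v : P2} (h : hd u v ≤ 1) :
    dist (centre δ u) (centre δ v) ≤ 2 * δ := by
  refine (LC121.dist_centre_le hδ u v).trans ?_
  obtain ⟨⟨h1, h2⟩, ⟨h3, h4⟩, _⟩ := hd_le_iff.mp h
  have e1 : |(u.1 : ℝ) - v.1| ≤ 1 := by
    rw [abs_le]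
    constructor
    · exact_mod_cast h1
    · exact_mod_cast h2
  have e2 : |(u.2 : ℝ) - v.2| ≤ 1 := by
    rw [abs_le]
    constructor
    · exact_mod_cast h3
    · exact_mod_cast h4
  nlinarith

section Reg

variable {I} {G : Set ℂ}

/-- the window of the region is over a compact set of the domain -/
theorem win_region (hG : IsCompact (closure G)) (hGD : closure G ⊆ I.D) :
    ∃ ε₁ : ℝ, 0 < ε₁ ∧ ∀ᶠ n in atTop, win 1 (rg I G n) ⊆ I.Fr n ∧
      ∀ v ∈ win 1 (rg I G n), Off I ε₁ n v := by
  have hD : IsOpen I.D := (sites I).opn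
  obtain ⟨ε0, hε0, hK⟩ := hG.exists_cthickening_subset_open hD hGD
  have hKc : IsCompact (cthickening ε0 (closure G)) := hG.cthickening
  obtain ⟨ε₁, hε₁, hoff⟩ := off_of_compact I hKc hK
  refine ⟨ε₁, hε₁, ?_⟩
  have hsub := sub_of_compact I hKc hK
  have hsm : ∀ᶠ n in atTop, I.δ n < ε0 / 2 := (sites I).small (by positivity)
  filter_upwards [hsub, hsm] with n h1 h2
  have hδ : 0 < I.δ n := I.hM.1 n
  have key : ∀ v ∈ win 1 (rg I G n), centre (I.δ n) v ∈ cthickening ε0 (closure G) := by
    intro v hv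
    obtain ⟨a, ha, hda⟩ := mem_win.mp hv
    have h3 := (mem_rg.mp ha).2
    refine mem_cthickening_of_dist_le _ _ _ _ (subset_closure h3) ?_
    refine (dist_centre_hd hδ.le (by simpa using hda)).trans ?_
    linarith
  exact ⟨fun v hv => h1 v (key v hv), fun v hv => hoff n v (key v hv)⟩

theorem sub_win (n : ℕ) : rg I G n ⊆ win 1 (rg I G n) := subset_win 1 _

/-- **the graph of an instance is the lattice near the region** -/
theorem loc_inst (hG : IsCompact (closure G)) (hGD : closure G ⊆ I.D) :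
    ∀ᶠ n in atTop, LoC95.Loc (I.Fr n) (I.Ed n) (rg I G n) := by
  obtain ⟨ε₁, _, h⟩ := win_region hG hGD
  filter_upwards [h] with n hn
  refine ⟨rg_subset I G n, fun a ha b => nbr_inst I n (hn.1 ha), fun a b hb => ?_⟩
  obtain ⟨_, h1 | h1⟩ := mem_nbr.mp hb
  · exact (hd_of_mem_Ed I n h1).le
  · rw [hd_comm]; exact (hd_of_mem_Ed I n h1).le

/-- the law of large numbers on the region -/
theorem lln_inst (hGD : closure G ⊆ I.D) : LLN G I.δ (rg I G) (nuI I) Lc279.mu0 := by
  intro r f hf F hF hFc hFs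
  have hz : ∀ z, z ∉ G → F z = 0 := fun z hz => by
    by_contra h
    exact hz (hFs (subset_tsupport F h))
  have hobs : LObs r fun h => (1 : ℝ)⁻¹ * f h := by simpa using hf
  have h1 := (sq_inst I).riem one_pos hobs hF
  have hint : ∫ z in I.D, F z = ∫ z, F z :=
    setIntegral_eq_integral_of_forall_compl_eq_zero fun z hzD =>
      hz z fun h => hzD (hGD (subset_closure h))
  rw [hint] at h1
  rw [tendsto_iff_norm_sub_tendsto_zero]
  refine squeeze_zero (fun n => norm_nonneg _) (fun n => ?_) h1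
  -- the expectation of the Riemann sum
  have hm : ∀ v : P2, Measurable fun h : P2 → ℝ => f fun a => h (v + a) := fun v =>
    hf.meas.comp (measurable_pi_lambda _ fun a => measurable_pi_apply _)
  have hmx : ∀ v : P2, Measurable fun x : I.Fr n → ℝ =>
      f fun u => ext (I.Fr n) (I.xi n) x (v + u) := fun v =>
    (hm v).comp (measurable_ext' I n)
  have hix : ∀ v : P2, Integrable (fun x : I.Fr n → ℝ =>
      f fun u => ext (I.Fr n) (I.xi n) x (v + u)) (I.P0 n) := fun v =>
    Integrable.of_bound (hmx v).aestronglyMeasurable 1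
      (Eventually.of_forall fun x => by rw [Real.norm_eq_abs]; exact hf.bd _)
  have hv : ∀ v : P2, ∫ h, f (fun a => h (v + a)) ∂(nuI I n) =
      ∫ x, f (fun u => ext (I.Fr n) (I.xi n) x (v + u)) ∂(I.P0 n) := fun v =>
    integral_nuI I n (hm v)
  have e1 : I.δ n ^ 2 * ∑ v ∈ rg I G n, F (centre (I.δ n) v) *
      ∫ h, f (fun a => h (v + a)) ∂(nuI I n) =
      ∫ x, (I.δ n ^ 2 * ∑ v ∈ I.Fr n, F (centre (I.δ n) v) *
        f (fun u => ext (I.Fr n) (I.xi n) x (v + u))) ∂(I.P0 n) := by
    rw [integral_const_mul, integral_finsetSum _ fun v _ => (hix v).const_mul _]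
    congr 1
    simp only [integral_const_mul, hv]
    refine Finset.sum_subset (rg_subset I G n) fun v hvF hvG => ?_
    have : centre (I.δ n) v ∉ G := fun h => hvG (mem_rg.mpr ⟨hvF, h⟩)
    rw [hz _ this, zero_mul]
  have hi : Integrable (fun x : I.Fr n → ℝ => I.δ n ^ 2 * ∑ v ∈ I.Fr n, F (centre (I.δ n) v) *
      f (fun u => ext (I.Fr n) (I.xi n) x (v + u))) (I.P0 n) :=
    (integrable_finsetSum _ fun v _ => (hix v).const_mul _).const_mul _
  rw [e1]
  have e2 : (∫ x, (I.δ n ^ 2 * ∑ v ∈ I.Fr n, F (centre (I.δ n) v) *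
        f (fun u => ext (I.Fr n) (I.xi n) x (v + u))) ∂(I.P0 n)) -
        2 / Real.sqrt 3 * (∫ z, F z) * ∫ h, f h ∂Lc279.mu0 =
      ∫ x, ((I.δ n ^ 2 * ∑ v ∈ I.Fr n, F (centre (I.δ n) v) *
        f (fun u => ext (I.Fr n) (I.xi n) x (v + u))) -
        2 / Real.sqrt 3 * (∫ z, F z) * ∫ h, f h ∂Lc279.mu0) ∂(I.P0 n) := by
    rw [integral_sub hi (integrable_const _), integral_const]
    simp
  rw [e2]
  exact norm_integral_le_integral_norm _

variable {P : Par} {c0 : ℝ}

/-- the lengths of the cheap paths -/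
def mfI (I : Inst) (G : Set ℂ) (P : Par) (c0 : ℝ) (n : ℕ) (h : P2 → ℝ) (w : P2) : ℕ :=
  mc (win 1 (rg I G n)) (I.Ed n) P.rho P.eps P.Lam c0 ps h w

theorem mfI_ext (n : ℕ) (x : I.Fr n → ℝ) (w : P2) :
    mfI I G P c0 n (ext (I.Fr n) (I.xi n) x) w =
      MC I n (win 1 (rg I G n)) P.rho P.eps P.Lam c0 ps w x := rfl

theorem measurable_mfI (n : ℕ) (w : P2) : Measurable fun h => mfI I G P c0 n h w :=
  measurable_mc _ _ w

theorem mfI_le (n : ℕ) (h : P2 → ℝ) (w : P2) :
    mfI I G P c0 n h w ≤ (win 1 (rg I G n)).card + 1 :=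
  mc_le _ _ _ _ _

/-- **The inputs of the numbers at an instance.** -/
theorem numIn_inst (hP : SmallU P) (c0 : ℝ) (ho : IsOpen G) (hG : IsCompact (closure G))
    (hGD : closure G ⊆ I.D) (hnull : volume (frontier G) = 0) :
    NumIn G I.δ (rg I G) (nuI I) Lc279.mu0 (mfI I G P c0) := by
  have H := prm_ps hP c0
  obtain ⟨ε₁, hε₁, hwin⟩ := win_region hG hGD
  have hδ : ∀ n, 0 < I.δ n := I.hM.1
  refine ⟨sites_rg I ho hG hGD hnull, fun n => inferInstance, lln_inst hGD,
    fun n w => measurable_mfI n w, fun n => ⟨_, fun h w => mfI_le n h w⟩, ?_, ?_, ?_⟩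
  · obtain ⟨C, hC, h⟩ := uid_moment I H hε₁ 1
    refine ⟨C, 1 / 2, hC, by norm_num, by norm_num, fun j => ?_⟩
    filter_upwards [h j, hwin] with n hn hw
    refine le_trans ?_ (hn _ hw.1 hw.2)
    refine mul_le_mul_of_nonneg_left ?_ (sq_nonneg _)
    refine le_trans (le_of_eq ?_) (Finset.sum_le_sum_of_subset_of_nonneg (sub_win n)
      fun w _ _ => integral_nonneg fun x => ?_)
    · refine Finset.sum_congr rfl fun w _ => ?_
      have hmeas : Measurable fun h : P2 → ℝ =>
          (if j < mfI I G P c0 n h w then (mfI I G P c0 n h w : ℝ) else 0) := by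
        refine Measurable.ite ?_ ?_ measurable_const
        · exact measurable_mfI n w measurableSet_Ioi
        · exact measurable_from_nat.comp (measurable_mfI n w)
      rw [integral_nuI I n hmeas]
      simp only [mfI_ext, pow_one]
    · simp only
      split_ifs <;> positivity
  · obtain ⟨C, hC, h⟩ := uid1 I H hε₁ 1
    refine ⟨C, hC, ?_⟩
    filter_upwards [h, hwin] with n hn hw
    refine le_trans ?_ (hn _ hw.1 hw.2)
    refine mul_le_mul_of_nonneg_left ?_ (sq_nonneg _)
    refine le_trans (le_of_eq ?_) (Finset.sum_le_sum_of_subset_of_nonneg (sub_win n)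
      fun w _ _ => integral_nonneg fun x => ?_)
    · refine Finset.sum_congr rfl fun w _ => ?_
      have hmeas : Measurable fun h : P2 → ℝ => (mfI I G P c0 n h w : ℝ) ^ 2 :=
        (measurable_from_nat.comp (measurable_mfI n w)).pow_const 2
      rw [integral_nuI I n hmeas]
      simp only [mfI_ext]
    · positivity
  · intro c hc a
    filter_upwards [uid_far I H hε₁ hc a, hwin] with n hn hw
    refine le_trans ?_ (hn _ hw.1 hw.2)
    have hmeas : MeasurableSet {h : P2 → ℝ | ∃ w ∈ rg I G n,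
        c / I.δ n ≤ (mfI I G P c0 n h w : ℝ)} := by
      have e : {h : P2 → ℝ | ∃ w ∈ rg I G n, c / I.δ n ≤ (mfI I G P c0 n h w : ℝ)} =
          ⋃ w ∈ rg I G n, {h : P2 → ℝ | c / I.δ n ≤ (mfI I G P c0 n h w : ℝ)} := by
        ext h; simp
      rw [e]
      refine Finset.measurableSet_biUnion _ fun w _ => ?_
      exact measurableSet_le measurable_const (measurable_from_nat.comp (measurable_mfI n w))
    rw [nuI, map_measureReal_apply (measurable_ext' I n) hmeas]
    refine measureReal_mono ?_ (measure_ne_top _ _)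
    rintro x ⟨w, _, hw'⟩
    exact ⟨w, hw'⟩

end Reg

/-! ### monotonicity in the lengths -/

section Mono

variable {G : Set ℂ} {δ : ℕ → ℝ} {Rg : ℕ → Finset P2} {ν : ℕ → Measure (P2 → ℝ)}
  {μ : Measure (P2 → ℝ)} {mf mf' : ℕ → (P2 → ℝ) → P2 → ℕ}

/-- the inputs are monotone in the lengths -/
theorem NumIn.mono (H : NumIn G δ Rg ν μ mf) (hm : ∀ n w, Measurable fun h => mf' n h w)
    (hb : ∀ n, ∃ K : ℕ, ∀ h w, mf' n h w ≤ K)
    (hle : ∀ᶠ n in atTop, ∀ h w, mf' n h w ≤ mf n h w) : NumIn G δ Rg ν μ mf' := by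
  refine ⟨H.hs, H.prob, H.lln, hm, hb, ?_, ?_, ?_⟩
  · obtain ⟨C, q, hC, hq0, hq1, h⟩ := H.mom1
    refine ⟨C, q, hC, hq0, hq1, fun j => ?_⟩
    filter_upwards [h j, hle] with n hn hl
    refine le_trans ?_ hn
    have := H.prob n
    obtain ⟨K, hK⟩ := H.bdd n
    refine mul_le_mul_of_nonneg_left (Finset.sum_le_sum fun w _ => ?_) (sq_nonneg _)
    have hmeas : Measurable fun h : P2 → ℝ =>
        (if j < mf n h w then (mf n h w : ℝ) else 0) :=
      Measurable.ite (H.meas n w measurableSet_Ioi) (measurable_from_nat.comp (H.meas n w))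
        measurable_const
    refine integral_mono_of_nonneg (Eventually.of_forall fun h => ?_)
      (Integrable.of_bound hmeas.aestronglyMeasurable (K : ℝ) (Eventually.of_forall fun h => ?_))
      (Eventually.of_forall fun h => ?_)
    · simp only [Pi.zero_apply]; split_ifs <;> positivity
    · rw [Real.norm_eq_abs]
      have hKr : (mf n h w : ℝ) ≤ K := by exact_mod_cast hK h w
      split_ifs
      · rw [abs_of_nonneg (by positivity)]; exact hKr
      · rw [abs_zero]; positivity
    · simp only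
      have h1 : (mf' n h w : ℝ) ≤ mf n h w := by exact_mod_cast hl h w
      split_ifs with h2 h3
      · exact h1
      · exact absurd (h2.trans_le (hl h w)) h3
      · positivity
      · exact le_rfl
  · obtain ⟨C, hC, h⟩ := H.mom2
    refine ⟨C, hC, ?_⟩
    filter_upwards [h, hle] with n hn hl
    refine le_trans ?_ hn
    have := H.prob n
    obtain ⟨K, hK⟩ := H.bdd n
    refine mul_le_mul_of_nonneg_left (Finset.sum_le_sum fun w _ => ?_) (sq_nonneg _)
    have hmeas : Measurable fun h : P2 → ℝ => (mf n h w : ℝ) ^ 2 :=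
      (measurable_from_nat.comp (H.meas n w)).pow_const 2
    refine integral_mono_of_nonneg (Eventually.of_forall fun h => ?_)
      (Integrable.of_bound hmeas.aestronglyMeasurable ((K : ℝ) ^ 2)
        (Eventually.of_forall fun h => ?_))
      (Eventually.of_forall fun h => ?_)
    · simp only [Pi.zero_apply]; positivity
    · rw [Real.norm_eq_abs, abs_of_nonneg (by positivity)]
      have hKr : (mf n h w : ℝ) ≤ K := by exact_mod_cast hK h w
      exact pow_le_pow_left₀ (by positivity) hKr 2
    · have h1 : (mf' n h w : ℝ) ≤ mf n h w := by exact_mod_cast hl h w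
      exact pow_le_pow_left₀ (by positivity) h1 2
  · intro c hc a
    filter_upwards [H.far c hc a, hle] with n hn hl
    refine le_trans ?_ hn
    have := H.prob n
    refine measureReal_mono ?_ (measure_ne_top _ _)
    rintro h ⟨w, hw, hcw⟩
    have h1 : (mf' n h w : ℝ) ≤ mf n h w := by exact_mod_cast hl h w
    exact ⟨w, hw, hcw.trans h1⟩

end Mono

/-- **The inputs of the numbers at an instance**, lengths with the lattice edges. -/
theorem numIn_mcw {I : Inst} {G : Set ℂ} {P : Par} (hP : SmallU P) (c0 : ℝ) (ho : IsOpen G)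
    (hG : IsCompact (closure G)) (hGD : closure G ⊆ I.D) (hnull : volume (frontier G) = 0) :
    NumIn G I.δ (rg I G) (nuI I) Lc279.mu0
      (fun n h w => Bl565.mcw P c0 (win 1 (rg I G n)) h w) := by
  obtain ⟨ε₁, _, hwin⟩ := win_region hG hGD
  refine NumIn.mono (numIn_inst hP c0 ho hG hGD hnull) (fun n w => Bl565.measurable_mcw _ w)
    (fun n => ⟨_, fun h w => Bl565.mcw_le _ h w⟩) ?_
  filter_upwards [hwin] with n hw h w
  exact Uid674.mc_mono_edges (Finset.Subset.refl _)
    (fun a ha b hb hab => (Bl565.nbr_win_inst I n hw.1 a ha b hb).mpr hab) ps h w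

end Crest.Agent.R144.LowI770
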