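import Mathlib
import Crest.Agent.R144.LowL12_549
import Crest.Agent.R144.LoC8_95
import Crest.Agent.R144.LowI_770
import Crest.Agent.R144.Lmu10_425
import Crest.Agent.R144.Skel100_144

/-!
# R144 (S0197), LOW-LIM (helper549), part 13: the trial field at an instance

`trace_int`, `disp_int` : the two integrals of `FieldAt`; `loD` : the block LoD.
-/

set_option autoImplicit false

open MeasureTheory Metric Set Filter Topology
open scoped ComplexConjugate ContDiff NNReal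

namespace Crest.Agent.R144.LowL549

open Crest.Agent.R144.Skel144 Crest.Agent.R144.Con549 Crest.Agent.R144.Cnt268
open Crest.Agent.R144.Bl565 Crest.Agent.R144.HexTil353
open Crest.Agent.R144.Ham560 (ext ham ext_mem ext_notMem)
open Crest.Agent.R144.Geo268 (wA)
open Crest.Agent.R144.Lc279 (P2 bx nr mem_nr nr_subset card_bx)
open Crest.Agent.R144.Lw425 (LObs hball hd mem_hball hd_triangle hd_comm hd_le_iff hd_nonneg)
open Crest.Agent.R144.LoC95 (Ph Gt Tpl PsiH Sep ix Pos tr mem_tr MT NT LT ST Bad A1c A2c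
  exists_field)
open Crest.Agent.R144.LowI770 (nuI integral_nuI measurable_ext' numIn_mcw loc_inst)
open Crest.ProbabilityR.HexHeights (centre)

noncomputable section

variable {I : Inst} {n : ℕ}

/-- almost everywhere statements for the untilted law -/
theorem ae_P0 {p : (I.Fr n → ℝ) → Prop} (h : ∀ᵐ x, p x) : ∀ᵐ x ∂(I.P0 n), p x := by
  rw [P0_eq]
  exact Measure.ae_smul_measure (ae_restrict_of_ae h) _

theorem integrable_trace {Y : (I.Fr n → ℝ) → (I.Fr n → ℝ)} {c : ℝ≥0} (hY : LipschitzWith c Y) :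
    Integrable (fun x => (MW121.jac Y x * MW121.jac Y x).trace) (I.P0 n) := by
  have e : ∀ x, (MW121.jac Y x * MW121.jac Y x).trace =
      ∑ u, ∑ v, MW121.jac Y x u v * MW121.jac Y x v u := by
    intro x
    simp only [Matrix.trace, Matrix.diag_apply, Matrix.mul_apply]
  simp only [e]
  refine integrable_finsetSum _ fun u _ => integrable_finsetSum _ fun v _ => ?_
  refine Integrable.of_bound ((MW121.measurable_jac Y u v).mul
    (MW121.measurable_jac Y v u)).aestronglyMeasurable ((c : ℝ) * c) (ae_of_all _ fun x => ?_)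
  rw [Real.norm_eq_abs, abs_mul]
  exact mul_le_mul (MW121.abs_jac_le hY x u v) (MW121.abs_jac_le hY x v u) (abs_nonneg _) c.2

/-- the trace -/
theorem trace_int {Y : (I.Fr n → ℝ) → (I.Fr n → ℝ)} {c : ℝ≥0} (hY : LipschitzWith c Y)
    {f : (P2 → ℝ) → ℝ} (hf : Integrable f (nuI I n))
    (h : ∀ᵐ x, (MW121.jac Y x * MW121.jac Y x).trace ≤ f (ext (I.Fr n) (I.xi n) x)) :
    ∫ x, (MW121.jac Y x * MW121.jac Y x).trace ∂(I.P0 n) ≤ ∫ h, f h ∂(nuI I n) := by
  have h1 : ∫ h, f h ∂(nuI I n) = ∫ x, f (ext (I.Fr n) (I.xi n) x) ∂(I.P0 n) :=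
    integral_map (measurable_ext' I n).aemeasurable hf.aestronglyMeasurable
  rw [h1]
  exact integral_mono_ae (integrable_trace hY) (hf.comp_measurable (measurable_ext' I n)) (ae_P0 h)

/-- the linear statistic of the field -/
theorem disp_int {Y : (I.Fr n → ℝ) → (I.Fr n → ℝ)} {c : ℝ≥0} (hY : LipschitzWith c Y)
    {g : (P2 → ℝ) → ℝ} (hg : Integrable g (nuI I n)) {v : ℝ}
    (h : ∀ x, |fderiv ℝ (I.X n) x (Y x) - v| ≤ g (ext (I.Fr n) (I.xi n) x)) :
    ∫ x, |fderiv ℝ (I.X n) x (Y x) - v| ∂(I.P0 n) ≤ ∫ h, g h ∂(nuI I n) := by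
  have h1 : ∫ h, g h ∂(nuI I n) = ∫ x, g (ext (I.Fr n) (I.xi n) x) ∂(I.P0 n) :=
    integral_map (measurable_ext' I n).aemeasurable hg.aestronglyMeasurable
  rw [h1]
  obtain ⟨L, hL⟩ := lip_X I n
  have hi : Integrable (fun x => fderiv ℝ (I.X n) x (Y x)) (I.P0 n) := by
    have := MW121.integrableOn_fderiv_apply hY (ham_measurable I n) (ham_bounded I n) hL
    rw [P0_eq]
    exact this.smul_measure (ENNReal.inv_ne_top.mpr (vol_ne_zero I n))
  exact integral_mono (hi.sub (integrable_const v)).abs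
    (hg.comp_measurable (measurable_ext' I n)) h

/-- the pointwise bound of the linear statistic -/
theorem disp_pt (P : Par) {G : Set ℂ} {u : ℂ → ℝ} (hu : tsupport u ⊆ G)
    (hfd : ∀ x Y : I.Fr n → ℝ, fderiv ℝ (I.X n) x Y = ∑ v : I.Fr n, wA (I.δ n) I.f v * Y v)
    {W : ℝ} (hW : ∀ v, |wA (I.δ n) I.f v| ≤ W * I.δ n ^ 2) {l S0 p1 B v e : ℝ} {M : ℕ}
    (hS0 : ∀ z, |u z| ≤ S0) (hp1 : 0 ≤ p1) (hB : 0 ≤ B)
    (he : |(∑ w ∈ I.Fr n, wA (I.δ n) I.f w * (l * u (centre (I.δ n) w))) - v| ≤ e)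
    {x Yx : I.Fr n → ℝ} (hY0 : ∀ w : I.Fr n, (w : P2) ∉ rg I G n → Yx w = 0)
    (hYb : ∀ w : I.Fr n, |Yx w| ≤ |l| * S0)
    (hYd : ¬ Bad P 1 (rg I G n) M (ext (I.Fr n) (I.xi n) x) → ∀ w : I.Fr n, (w : P2) ∈ rg I G n →
      |Yx w - l * u (centre (I.δ n) w)| ≤
        2 * p1 * (2 * mcw P 1 (win 1 (rg I G n)) (ext (I.Fr n) (I.xi n) x) w + B)) :
    |fderiv ℝ (I.X n) x Yx - v| ≤
      4 * W * p1 * (I.δ n ^ 2 * ∑ w ∈ rg I G n,
        ((mcw P 1 (win 1 (rg I G n)) (ext (I.Fr n) (I.xi n) x) w : ℝ) + B / 2)) +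
      2 * W * (|l| * S0) * (I.δ n ^ 2 * (rg I G n).card) *
        {h | Bad P 1 (rg I G n) M h}.indicator (fun _ => (1 : ℝ)) (ext (I.Fr n) (I.xi n) x) + e := by
  set R := rg I G n with hR
  set h := ext (I.Fr n) (I.xi n) x with hh
  have hδ : 0 < I.δ n := I.hM.1 n
  have hW0 : 0 ≤ W := by
    have h1 := (abs_nonneg _).trans (hW 0)
    have h2 : 0 < I.δ n ^ 2 := by positivity
    by_contra h3
    push Not at h3
    nlinarith
  have hS00 : 0 ≤ S0 := (abs_nonneg _).trans (hS0 0)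
  rw [hfd]
  have hRF : R ⊆ I.Fr n := rg_subset I G n
  -- the difference is supported in the region
  set D : I.Fr n → ℝ := fun w => Yx w - l * u (centre (I.δ n) w) with hD
  have hD0 : ∀ w : I.Fr n, (w : P2) ∉ R → D w = 0 := by
    intro w hw
    have h1 : u (centre (I.δ n) w) = 0 := by
      by_contra h2
      exact hw (mem_rg.mpr ⟨w.2, hu (subset_tsupport u h2)⟩)
    simp only [hD, hY0 w hw, h1, mul_zero, sub_zero]
  have hsplit : (∑ w : I.Fr n, wA (I.δ n) I.f w * Yx w) - v =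
      (∑ w : I.Fr n, wA (I.δ n) I.f w * D w) +
        ((∑ w ∈ I.Fr n, wA (I.δ n) I.f w * (l * u (centre (I.δ n) w))) - v) := by
    rw [← Finset.sum_coe_sort (I.Fr n) fun w => wA (I.δ n) I.f w * (l * u (centre (I.δ n) w))]
    rw [← add_sub_assoc, ← Finset.sum_add_distrib]
    congr 1
    refine Finset.sum_congr rfl fun w _ => ?_
    simp only [hD]; ring
  rw [hsplit]
  refine (abs_add_le _ _).trans (add_le_add ?_ he)
  -- bound by a function on the plane
  have key : ∀ b : P2 → ℝ, (∀ w : I.Fr n, (w : P2) ∈ R → |D w| ≤ b w) →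
      |∑ w : I.Fr n, wA (I.δ n) I.f w * D w| ≤ W * I.δ n ^ 2 * ∑ w ∈ R, b w := by
    intro b hb
    refine (Finset.abs_sum_le_sum_abs _ _).trans ?_
    have h1 : ∀ w : I.Fr n, |wA (I.δ n) I.f w * D w| ≤
        W * I.δ n ^ 2 * (if (w : P2) ∈ R then b w else 0) := by
      intro w
      split_ifs with hw
      · rw [abs_mul]
        exact mul_le_mul (hW _) (hb w hw) (abs_nonneg _) (by positivity)
      · rw [hD0 w hw]; simp
    refine (Finset.sum_le_sum fun w _ => h1 w).trans (le_of_eq ?_)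
    rw [← Finset.mul_sum, Finset.sum_coe_sort (I.Fr n) fun w => if w ∈ R then b w else 0,
      ← Finset.sum_filter, Finset.filter_mem_eq_inter, Finset.inter_eq_right.mpr hRF]
  have hm0 : 0 ≤ 4 * W * p1 * (I.δ n ^ 2 * ∑ w ∈ R, ((mcw P 1 (win 1 R) h w : ℝ) + B / 2)) := by
    have : 0 ≤ ∑ w ∈ R, ((mcw P 1 (win 1 R) h w : ℝ) + B / 2) :=
      Finset.sum_nonneg fun w _ => by positivity
    positivity
  by_cases hbad : Bad P 1 R M h
  · have h2 := key (fun _ => 2 * (|l| * S0)) fun w _ => by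
      have h3 := hYb w
      have h4 : |l * u (centre (I.δ n) w)| ≤ |l| * S0 := by
        rw [abs_mul]
        exact mul_le_mul_of_nonneg_left (hS0 _) (abs_nonneg _)
      have h5 := abs_sub (Yx w) (l * u (centre (I.δ n) w))
      simp only [hD]
      linarith
    rw [Set.indicator_of_mem (show h ∈ {h | Bad P 1 R M h} from hbad)]
    rw [Finset.sum_const, nsmul_eq_mul] at h2
    nlinarith
  · have h2 := key (fun w => 2 * p1 * (2 * mcw P 1 (win 1 R) h w + B)) (hYd hbad)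
    rw [Set.indicator_of_notMem (show h ∉ {h | Bad P 1 R M h} from hbad), mul_zero, add_zero]
    refine h2.trans (le_of_eq ?_)
    rw [Finset.mul_sum, Finset.mul_sum, Finset.mul_sum]
    refine Finset.sum_congr rfl fun w _ => ?_
    ring

end

end Crest.Agent.R144.LowL549
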