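import Mathlib
import Crest.Agent.R144.LowL13_549

/-!
# R144 (S0197), LOW-LIM (helper549), part 14: the block LoD
-/

set_option autoImplicit false

open MeasureTheory Metric Set Filter Topology
open scoped ComplexConjugate ContDiff NNReal

namespace Crest.Agent.R144.LowL549

open Crest.Agent.R144.Skel144 Crest.Agent.R144.Con549 Crest.Agent.R144.Cnt268
open Crest.Agent.R144.Bl565 Crest.Agent.R144.HexTil353
open Crest.Agent.R144.Ham560 (ext ham ext_mem ext_notMem)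
open Crest.Agent.R144.Geo268 (wA)
open Crest.Agent.R144.Lc279 (P2 bx nr mem_nr nr_subset card_bx)
open Crest.Agent.R144.Lw425 (LObs hball hd mem_hball hd_triangle hd_comm hd_le_iff hd_nonneg
  inv_mu0 dlr_mu0)
open Crest.Agent.R144.LoC95 (Ph Gt Tpl PsiH Sep ix Pos tr mem_tr MT NT LT ST Bad A1c A2c
  exists_field)
open Crest.Agent.R144.LowI770 (nuI integral_nuI measurable_ext' numIn_mcw loc_inst)
open Crest.ProbabilityR.HexHeights (centre)

noncomputable section

variable {I : Inst} {n : ℕ}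

/-- the mean of the displacement bound -/
theorem integral_disp {G : Set ℂ} {μ : Measure (P2 → ℝ)} {P : Par}
    (N : NumIn G I.δ (rg I G) (nuI I) μ (fun n h w => mcw P 1 (win 1 (rg I G n)) h w))
    (a b e L : ℝ) (M : ℕ) :
    Integrable (fun h => a * (I.δ n ^ 2 * ∑ w ∈ rg I G n,
        ((mcw P 1 (win 1 (rg I G n)) h w : ℝ) + L)) +
      b * {h | Bad P 1 (rg I G n) M h}.indicator (fun _ => (1 : ℝ)) h + e) (nuI I n) ∧
    ∫ h, (a * (I.δ n ^ 2 * ∑ w ∈ rg I G n,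
        ((mcw P 1 (win 1 (rg I G n)) h w : ℝ) + L)) +
      b * {h | Bad P 1 (rg I G n) M h}.indicator (fun _ => (1 : ℝ)) h + e) ∂(nuI I n) =
      a * (I.δ n ^ 2 * ∑ w ∈ rg I G n, ∫ h,
        ((mcw P 1 (win 1 (rg I G n)) h w : ℝ) + L) ∂(nuI I n)) +
      b * (nuI I n).real {h | Bad P 1 (rg I G n) M h} + e := by
  have i1 : ∀ w, Integrable (fun h => (mcw P 1 (win 1 (rg I G n)) h w : ℝ) + L) (nuI I n) :=
    fun w => N.integrable_of n w fun k => (k : ℝ) + L
  have i2 : Integrable (fun h => a * (I.δ n ^ 2 * ∑ w ∈ rg I G n,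
      ((mcw P 1 (win 1 (rg I G n)) h w : ℝ) + L))) (nuI I n) :=
    ((integrable_finsetSum _ fun w _ => i1 w).const_mul _).const_mul _
  have i3 : Integrable (fun h => b * {h | Bad P 1 (rg I G n) M h}.indicator
      (fun _ => (1 : ℝ)) h) (nuI I n) :=
    ((integrable_const (1 : ℝ)).indicator (measurableSet_bad P 1 (rg I G n) M)).const_mul b
  have i4 : Integrable (fun h => a * (I.δ n ^ 2 * ∑ w ∈ rg I G n,
      ((mcw P 1 (win 1 (rg I G n)) h w : ℝ) + L)) +
      b * {h | Bad P 1 (rg I G n) M h}.indicator (fun _ => (1 : ℝ)) h) (nuI I n) := i2.add i3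
  refine ⟨i4.add (integrable_const e), ?_⟩
  rw [integral_add i4 (integrable_const e), integral_add i2 i3, integral_const_mul,
    integral_const_mul, integral_const_mul, integral_finsetSum _ fun w _ => i1 w,
    integral_indicator_const _ (measurableSet_bad P 1 (rg I G n) M), smul_eq_mul, mul_one]
  simp

/-- the crude constant -/
theorem crude_ev (I : Inst) {A p q : ℝ} (hA : 0 ≤ A) (hp : 0 ≤ p) (hq : 0 ≤ q) :
    ∃ K : ℝ, ∀ᶠ n in atTop, A * (1 + ((I.Fr n).card : ℝ)) ^ 8 * (1 + p + q * I.δ n) ^ 6 ≤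
      K * (I.δ n ^ 16)⁻¹ := by
  obtain ⟨C, hC, hcard⟩ := (sites I).card_bdd
  refine ⟨A * (1 + C) ^ 8 * (1 + p + q) ^ 6, ?_⟩
  filter_upwards [(sites I).small one_pos] with n hn
  have hδ : 0 < I.δ n := I.hM.1 n
  have h1 : I.δ n ^ 2 * (1 + ((I.Fr n).card : ℝ)) ≤ 1 + C := by
    have := hcard n
    have h2 : I.δ n ^ 2 ≤ 1 := pow_le_one₀ hδ.le hn.le
    linarith
  have h3 : 0 ≤ I.δ n ^ 2 * (1 + ((I.Fr n).card : ℝ)) := by positivity
  have h4 : I.δ n ^ 16 * (1 + ((I.Fr n).card : ℝ)) ^ 8 ≤ (1 + C) ^ 8 := by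
    have := pow_le_pow_left₀ h3 h1 8
    calc _ = (I.δ n ^ 2 * (1 + ((I.Fr n).card : ℝ))) ^ 8 := by ring
      _ ≤ _ := this
  have h5 : (1 + ((I.Fr n).card : ℝ)) ^ 8 ≤ (1 + C) ^ 8 * (I.δ n ^ 16)⁻¹ := by
    rw [← div_eq_mul_inv, le_div_iff₀ (by positivity)]
    linarith
  have h6 : (1 + p + q * I.δ n) ^ 6 ≤ (1 + p + q) ^ 6 := by
    refine pow_le_pow_left₀ (by positivity) ?_ 6
    have := mul_le_of_le_one_right hq hn.le
    linarith
  calc A * (1 + ((I.Fr n).card : ℝ)) ^ 8 * (1 + p + q * I.δ n) ^ 6 ≤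
        A * ((1 + C) ^ 8 * (I.δ n ^ 16)⁻¹) * (1 + p + q) ^ 6 := by gcongr
    _ = _ := by ring

/-- **LoD** -/
theorem loD {P : Par} (hP : Uid674.SmallU P) :
    LoD (fun r L => abT P Lc279.mu0 r L) (Real.sqrt 3 / 2) := by
  intro I ε hε b0 hb0
  obtain ⟨t0, t1, t2, t3, t4⟩ := two_div_sqrt
  have t5 : Real.sqrt 3 / 2 * (2 / Real.sqrt 3) = 1 := by
    have : Real.sqrt 3 ≠ 0 := by positivity
    field_simp
  set s3 : ℝ := Real.sqrt 3 / 2 with hs3
  set Λ : ℝ := s3 / b0 + s3 ^ 2 / b0 with hΛd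
  have hΛ : 0 < Λ := by positivity
  set ε' : ℝ := ε / (6 * (s3 / b0 + 1)) with hε'
  have hε'0 : 0 < ε' := by positivity
  have hε'1 : s3 / b0 * ε' ≤ ε / 6 := by
    rw [hε']
    have h1 : 0 < s3 / b0 := by positivity
    rw [show s3 / b0 * (ε / (6 * (s3 / b0 + 1))) = ε / 6 * (s3 / b0 / (s3 / b0 + 1)) by
      field_simp]
    exact mul_le_of_le_one_right (by positivity) ((div_le_one (by positivity)).mpr (by linarith))
  obtain ⟨u, hu, hu1, hu2⟩ := exists_test I hε'0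
  obtain ⟨S0, S1, S2, hS0, hS1, hS2, k0, k1, k2⟩ := exists_bd hu
  obtain ⟨G, hGo, hGc, hGD, huG, hGn⟩ := exists_region hu.comp.isCompact (sites I).opn hu.supp
  have hu' : IsTest G u := ⟨hu.smooth, hu.comp, huG⟩
  have N := numIn_mcw (P := P) hP 1 hGo hGc hGD hGn
  obtain ⟨θ, hθ, r1, hr1, hnum⟩ := numbers N inv_mu0 dlr_mu0 hu' (S1 := S1) (S2 := S2) hΛ
    (show 0 < ε / 3 by positivity)
  refine ⟨r1, fun r hr b hb hab => ?_⟩
  have hb' : 0 < b := hb0.trans_le hb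
  obtain ⟨Tl, C, hC, hT, H⟩ := hnum r hr b hb'.le hab
  choose A3 A4 hA3 hA4 hfield using fun o => exists_field P (c0 := 1) one_pos (hT o) hθ
  obtain ⟨κ, hκ, hsep⟩ := sep_ev N.hs hu'
  obtain ⟨W, hW0, hW⟩ := exists_wA_le I
  obtain ⟨Cc, hCc, hcard⟩ := N.hs.card_bdd
  set l : ℝ := s3 / b with hl
  have hl0 : 0 < l := by positivity
  have hlb0 : l ≤ s3 / b0 := div_le_div_of_nonneg_left t3.le hb0 hb
  have hlΛ : |l| ≤ Λ := by
    rw [abs_of_pos hl0, hΛd]
    have : 0 < s3 ^ 2 / b0 := by positivity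
    linarith
  have hlb : l ^ 2 * b ≤ Λ := by
    have h1 : l ^ 2 * b = s3 ^ 2 / b := by rw [hl]; field_simp
    rw [h1, hΛd]
    have h2 : s3 ^ 2 / b ≤ s3 ^ 2 / b0 := div_le_div_of_nonneg_left (by positivity) hb0 hb
    have : 0 < s3 / b0 := by positivity
    linarith
  set M : ℕ → ℕ := fun n => ⌈κ / I.δ n⌉₊ with hM
  set Kc : Fin 3 → ℕ → ℝ := fun o n => A4 o * (1 + ((I.Fr n).card : ℝ)) ^ 8 *
    (1 + |l| * S0 + |l| * S1 * I.δ n) ^ 6 with hKc
  -- one constant for the three orientations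
  have hKex : ∀ o, ∃ K : ℝ, ∀ᶠ n in atTop, Kc o n ≤ K * (I.δ n ^ 16)⁻¹ := fun o =>
    crude_ev I (hA4 o) (p := |l| * S0) (q := |l| * S1) (by positivity) (by positivity)
  choose Ko hKo using hKex
  have hKc' : ∀ o, ∀ᶠ n in atTop, Kc o n ≤ (∑ o, |Ko o|) * (I.δ n ^ 16)⁻¹ := by
    intro o
    filter_upwards [hKo o] with n hn
    have hδ : 0 < I.δ n := I.hM.1 n
    refine hn.trans (mul_le_mul_of_nonneg_right ?_ (by positivity))
    exact (le_abs_self _).trans (Finset.single_le_sum (f := fun o => |Ko o|)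
      (fun o _ => abs_nonneg _) (Finset.mem_univ o))
  have hMk : ∀ᶠ n in atTop, κ / I.δ n ≤ M n := Eventually.of_forall fun n => Nat.le_ceil _
  have e1 := H A3 Kc (∑ o, |Ko o|) κ 16 M hA3 hKc' hκ hMk l hlΛ hlb
  have e2 := loc_inst (I := I) hGc hGD
  have e3 := fderiv_X I
  have e4 := N.disp_term (4 * W * (|l| * S1)) (128 * r / 2) (show 0 < ε / 6 by positivity)
  have e5 := N.far_term (2 * W * (|l| * S0) * Cc) hκ 0 (show 0 < ε / 6 by positivity)
  have e6 := hsep l (128 * r)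
  have e7 := (sites I).small (show 0 < κ / 2 by positivity)
  have e8 : ∀ᶠ n in atTop, |(∑ v ∈ I.Fr n, wA (I.δ n) I.f v * u (centre (I.δ n) v)) -
      ∫ z, I.f z * u z| ≤ ε' := by
    have h1 := Metric.tendsto_nhds.mp (tendsto_weights I hu.smooth.continuous) ε' hε'0
    filter_upwards [h1] with n hn
    rw [Real.dist_eq] at hn
    exact hn.le
  filter_upwards [e1, e2, e3, e4, e5, e6, e7, e8] with n g1 g2 g3 g4 g5 g6 g7 g8
  have hδ : 0 < I.δ n := I.hM.1 n
  obtain ⟨o, c, hc, hint⟩ := g1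
  have hr2 : 2 ≤ r := hr1.trans hr
  -- the number `M`
  have hM1 : κ / I.δ n ≤ M n := Nat.le_ceil _
  have hM2 : 2 ≤ M n := by
    have h1 : (2 : ℝ) ≤ κ / I.δ n := by
      rw [le_div_iff₀ hδ]; linarith
    exact_mod_cast h1.trans hM1
  have hM3 : (M n : ℝ) ≤ 2 * κ / I.δ n := by
    have h1 : (M n : ℝ) < κ / I.δ n + 1 := Nat.ceil_lt_add_one (by positivity)
    have h2 : (1 : ℝ) ≤ κ / I.δ n := by
      rw [le_div_iff₀ hδ]; linarith
    rw [mul_div_assoc]
    linarith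
  obtain ⟨Y, cY, tY, hTan, htr, hY0, hYb, hYd⟩ := hfield o (I.Fr n) (I.Ed n) (I.xi n) (rg I G n)
    (Qs r o (rg I G n) c) g2 (pos_Qs hr2 o _ c) (psi u l (I.δ n)) _ _ _
    (psiH hu' hS1 hS2 k0 k1 k2 l hδ.le) (M n) hM2 (g6 (M n) hM3)
  refine ⟨Y, cY, tY, hTan, ?_, ?_⟩
  · -- the trace
    have h1 := trace_int hTan.lip (integral_tot N hu' hC hT θ n o c l (|l| * S1 * I.δ n)
      (2 * |l| * S2 * I.δ n ^ 2) (A3 o) (Kc o n) (M n)).1 (by
        filter_upwards [htr] with x hx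
        refine hx.trans (le_of_eq ?_)
        unfold tot
        congr 1
        by_cases hbad : Bad P 1 (rg I G n) (M n) (ext (I.Fr n) (I.xi n) x)
        · rw [if_pos hbad, Set.indicator_of_mem (show ext (I.Fr n) (I.xi n) x ∈
            {h | Bad P 1 (rg I G n) (M n) h} from hbad), mul_one]
        · rw [if_neg hbad, Set.indicator_of_notMem (show ext (I.Fr n) (I.xi n) x ∉
            {h | Bad P 1 (rg I G n) (M n) h} from hbad), mul_zero])
    refine h1.trans (hint.trans ?_)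
    have h2 : l ^ 2 * (2 / Real.sqrt 3 * b) = l := by
      calc l ^ 2 * (2 / Real.sqrt 3 * b) = l * (l * b) * (2 / Real.sqrt 3) := by ring
        _ = l * (s3 * (2 / Real.sqrt 3)) := by
            rw [hl, div_mul_cancel₀ _ hb'.ne']; ring
        _ = l := by rw [t5, mul_one]
    rw [h2]
    have h3 : ∫ z, ‖fderiv ℝ u z‖ ^ 2 ≤ I.g + ε' := by
      have := (abs_le.mp hu2).2
      linarith
    have h4 : l * ∫ z, ‖fderiv ℝ u z‖ ^ 2 ≤ l * I.g + ε / 6 := by
      calc l * ∫ z, ‖fderiv ℝ u z‖ ^ 2 ≤ l * (I.g + ε') := mul_le_mul_of_nonneg_left h3 hl0.le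
        _ = l * I.g + l * ε' := by ring
        _ ≤ l * I.g + s3 / b0 * ε' := by gcongr
        _ ≤ _ := by linarith
    linarith
  · -- the linear statistic
    have he : |(∑ w ∈ I.Fr n, wA (I.δ n) I.f w * (l * u (centre (I.δ n) w))) - l * I.g| ≤
        ε / 3 := by
      have h1 : (∑ w ∈ I.Fr n, wA (I.δ n) I.f w * (l * u (centre (I.δ n) w))) - l * I.g =
          l * (((∑ w ∈ I.Fr n, wA (I.δ n) I.f w * u (centre (I.δ n) w)) - ∫ z, I.f z * u z) +
            ((∫ z, I.f z * u z) - I.g)) := by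
        have h2 : ∑ w ∈ I.Fr n, wA (I.δ n) I.f w * (l * u (centre (I.δ n) w)) =
            l * ∑ w ∈ I.Fr n, wA (I.δ n) I.f w * u (centre (I.δ n) w) := by
          rw [Finset.mul_sum]
          exact Finset.sum_congr rfl fun w _ => by ring
        rw [h2]; ring
      rw [h1, abs_mul, abs_of_pos hl0]
      calc l * |((∑ w ∈ I.Fr n, wA (I.δ n) I.f w * u (centre (I.δ n) w)) - ∫ z, I.f z * u z) +
            ((∫ z, I.f z * u z) - I.g)| ≤ (s3 / b0) * (ε' + ε') := by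
            refine mul_le_mul hlb0 ((abs_add_le _ _).trans (add_le_add g8 hu1)) (abs_nonneg _)
              (by positivity)
        _ ≤ ε / 3 := by linarith
    have h1 := disp_int (v := l * I.g) hTan.lip (integral_disp (n := n) N
      (4 * W * (|l| * S1 * I.δ n)) (2 * W * (|l| * S0) * (I.δ n ^ 2 * (rg I G n).card)) (ε / 3)
      (128 * r / 2) (M n)).1 (fun x => disp_pt P huG g3 (hW n) k0
        (by positivity) (by positivity) he (hY0 x) (fun w => hYb x w) (fun hb w hw => by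
          have := hYd x hb w hw
          rwa [psi_ix] at this))
    refine h1.trans ?_
    rw [(integral_disp (n := n) N _ _ _ _ _).2]
    have h2 : 4 * W * (|l| * S1 * I.δ n) * (I.δ n ^ 2 * ∑ w ∈ rg I G n, ∫ h,
        ((mcw P 1 (win 1 (rg I G n)) h w : ℝ) + 128 * r / 2) ∂(nuI I n)) ≤ ε / 6 := by
      refine le_trans (le_of_eq ?_) g4
      ring
    have h3 : 2 * W * (|l| * S0) * (I.δ n ^ 2 * (rg I G n).card) *
        (nuI I n).real {h | Bad P 1 (rg I G n) (M n) h} ≤ ε / 6 := by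
      refine le_trans ?_ g5
      rw [pow_zero, inv_one, mul_one]
      have h4 : (nuI I n).real {h | Bad P 1 (rg I G n) (M n) h} ≤
          (nuI I n).real {h | ∃ w ∈ rg I G n, κ / I.δ n ≤
            (mcw P 1 (win 1 (rg I G n)) h w : ℝ)} := by
        refine measureReal_mono ?_
        rintro h ⟨w, hw, hMw⟩
        exact ⟨w, hw, hM1.trans (by exact_mod_cast hMw)⟩
      exact mul_le_mul (mul_le_mul_of_nonneg_left (hcard n) (by positivity)) h4
        measureReal_nonneg (by positivity)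
    linarith

end

end Crest.Agent.R144.LowL549
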