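import Crest.Agent.R144.Lyf_792
import Crest.Agent.R144.Cu3_867

/-!
# R144, S5: 867's `Cu867.CU` implies 880's `CuP880.CU` and `LAYF` (helper792)
-/

set_option autoImplicit false

noncomputable section

namespace Crest.Agent.R144.Lyf792

open Crest.Agent.R144.It844 (P2)
open Crest.Agent.R144.Zg349 (StepIn)
open Crest.Agent.R144.Pst967 (path_symm)

theorem hh_eq (K : Finset P2) (s : ℕ) : CuP880.HH K s = Cu867.H4 K s := by
  ext h
  constructor
  · rintro ⟨h1, h2, h3, h4⟩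
    exact ⟨⟨⟨fun u hu v hv p => h1 v u hv hu (path_symm p), fun u hu v hv p => h2 v u hv hu (path_symm p)⟩,
      fun u hu v hv p => h3 v u hv hu (path_symm p)⟩, fun u hu v hv p => h4 v u hv hu (path_symm p)⟩
  · rintro ⟨⟨⟨h1, h2⟩, h3⟩, h4⟩
    exact ⟨fun u v hu hv p => h1 v hv u hu (path_symm p), fun u v hu hv p => h2 v hv u hu (path_symm p),
      fun u v hu hv p => h3 v hv u hu (path_symm p), fun u v hu hv p => h4 v hv u hu (path_symm p)⟩

theorem cuP_of_cu {x : ℝ} (h : Cu867.CU x) : CuP880.CU x := by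
  intro R η hη
  obtain ⟨c0, s0, hc0, h1⟩ := h R η hη
  refine ⟨c0, s0, hc0, fun s hs a Λ _ hΛ τ hτ hb K hK hKΛ => ?_⟩
  refine le_trans (le_of_eq ?_) (h1 s hs a Λ hΛ τ hτ hb K hK hKΛ)
  have e : ∀ g : P2 → ℤ, It844.pr x (CuP880.nb K (5 * s) \ CuP880.nb K s) g (CuP880.HH K s) =
      It844.ex x (Cu867.sh K s (5 * s)) g (Cu867.one (Cu867.H4 K s)) := by
    intro g
    rw [hh_eq, pr_hI]
    rfl
  rw [pr_hI]
  refine It844.ex_congr fun g _ => ?_
  unfold hI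
  simp only [Set.mem_ofPred_eq, e]

/-- **LAYF from 867's CU.** -/
theorem layf_of_cu867 {x : ℝ} (hx0 : 0 < x) (hx1 : x ≤ 1) {K : ℕ} {p : ℝ}
    (hR : Rsw867.RSW ((x ^ 2)⁻¹) K p) (hCU : Cu867.CU x) : LAYF ((x ^ 2)⁻¹) :=
  layf_of_cu hx0 hx1 hR (cuP_of_cu hCU)

end Crest.Agent.R144.Lyf792
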