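import Crest.Agent.R144.Zf_349

/-!
# R144, mixing (helper880), part 1: conditional domination and the jump lemma

For the F-type laws `E c F` of helper349, `c ≥ 1`:

* `Ag A ξ ω` : `ξ` and `ω` agree (for `(s1, z)`) off `A`; `LeOff A ξ ξ'` : `ξ` is below `ξ'` off `A`;
  `ind A ξ` : indicator of `Ag A ξ`;
* `cd` : **conditional domination**: for `F ⊆ F'`, any `A ⊆ F'`, `ξ ≤ ξ'` off `A` and every increasing `h`,
  `E_{F'}[h | ξ off A] ≤ E_F[h | ξ' off A]`;
* `cE c F A h ω` : conditional expectation of `h` given `(s1, z)` off `A`; `tower`;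
* `jump` : the one step estimate of the sequential revealment (replaces the coupling).
-/

set_option autoImplicit false

noncomputable section

namespace Crest.Agent.R144.Mix880

open Finset
open Crest.Agent.R144.It844 (P2)
open Crest.Agent.R144.Zg349 Crest.Agent.R144.Zk349 Crest.Agent.R144.Zd349 Crest.Agent.R144.Zm349
open Crest.Agent.R144.HyA349 Crest.Agent.R144.HyB349 Crest.Agent.R144.HyC349
open Crest.Agent.R144.Ze349 Crest.Agent.R144.Zf349

/-- agreement of `(s1, z)` off `A` -/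
structure Ag (A : Finset P2) (ξ ω : Cfg) : Prop where
  v : ∀ x, x ∉ IV A → s1 (ξ.1 x) = s1 (ω.1 x)
  z : ∀ t, t ∉ A → ξ.2 t = ω.2 t

theorem Ag.refl (A : Finset P2) (ω : Cfg) : Ag A ω ω := ⟨fun _ _ => rfl, fun _ _ => rfl⟩

theorem Ag.symm {A : Finset P2} {ξ ω : Cfg} (h : Ag A ξ ω) : Ag A ω ξ :=
  ⟨fun x hx => (h.v x hx).symm, fun t ht => (h.z t ht).symm⟩

theorem Ag.trans {A : Finset P2} {ξ ω ζ : Cfg} (h : Ag A ξ ω) (h' : Ag A ω ζ) : Ag A ξ ζ :=
  ⟨fun x hx => (h.v x hx).trans (h'.v x hx), fun t ht => (h.z t ht).trans (h'.z t ht)⟩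

theorem Ag.mono {A A' : Finset P2} (hA : A' ⊆ A) {ξ ω : Cfg} (h : Ag A' ξ ω) : Ag A ξ ω :=
  ⟨fun x hx => h.v x fun h1 => hx (IV_mono hA h1), fun t ht => h.z t fun h1 => ht (hA h1)⟩

theorem Ag.pC {A : Finset P2} {ξ ω : Cfg} (h : Ag A ξ ω) {t : P2} (ht : t ∉ A) : pC ξ t ↔ pC ω t := by
  unfold Ze349.pC
  rw [h.z t ht, h.v t fun h1 => ht (IV_sub A h1)]

theorem Ag.mC {A : Finset P2} {ξ ω : Cfg} (h : Ag A ξ ω) {t : P2} (ht : t ∉ A) : mC ξ t ↔ mC ω t := by
  unfold Ze349.mC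
  rw [h.z t ht, h.v t fun h1 => ht (IV_sub A h1)]

/-- `ξ` is below `ξ'` off `A` -/
structure LeOff (A : Finset P2) (ξ ξ' : Cfg) : Prop where
  v : ∀ x, x ∉ IV A → s1 (ξ.1 x) = true → s1 (ξ'.1 x) = true
  p : ∀ t, t ∉ A → pC ξ t → pC ξ' t
  m : ∀ t, t ∉ A → mC ξ' t → mC ξ t

theorem LeOff.refl (A : Finset P2) (ω : Cfg) : LeOff A ω ω :=
  ⟨fun _ _ h => h, fun _ _ h => h, fun _ _ h => h⟩

theorem LeOff.trans_leP {A : Finset P2} {ω1 ω ω' : Cfg} (h : LeOff A ω1 ω) (h' : LeP ω ω') :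
    LeOff A ω1 ω' :=
  ⟨fun x hx h1 => h'.v x (h.v x hx h1), fun t ht h1 => h'.p t (h.p t ht h1),
    fun t ht h1 => h.m t ht (h'.m t h1)⟩

theorem LeOff.congr {A : Finset P2} {ξ ξ' ω ω' : Cfg} (h : LeOff A ξ ξ') (h1 : Ag A ξ ω)
    (h2 : Ag A ξ' ω') : LeOff A ω ω' :=
  ⟨fun x hx h3 => by rw [← h2.v x hx]; exact h.v x hx (by rw [h1.v x hx]; exact h3),
    fun t ht h3 => (h2.pC ht).1 (h.p t ht ((h1.pC ht).2 h3)),
    fun t ht h3 => (h1.mC ht).1 (h.m t ht ((h2.mC ht).2 h3))⟩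

open Classical in
/-- indicator of agreement off `A` -/
def ind (A : Finset P2) (ξ ω : Cfg) : ℝ := if Ag A ξ ω then 1 else 0

theorem ind_nonneg (A : Finset P2) (ξ ω : Cfg) : 0 ≤ ind A ξ ω := by
  unfold ind; split_ifs <;> norm_num

theorem ind_le_one (A : Finset P2) (ξ ω : Cfg) : ind A ξ ω ≤ 1 := by
  unfold ind; split_ifs <;> norm_num

theorem ind_of {A : Finset P2} {ξ ω : Cfg} (h : Ag A ξ ω) : ind A ξ ω = 1 := by
  unfold ind; rw [if_pos h]

theorem ind_of_not {A : Finset P2} {ξ ω : Cfg} (h : ¬ Ag A ξ ω) : ind A ξ ω = 0 := by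
  unfold ind; rw [if_neg h]

theorem ind_comm (A : Finset P2) (ξ ω : Cfg) : ind A ξ ω = ind A ω ξ := by
  by_cases h : Ag A ξ ω
  · rw [ind_of h, ind_of h.symm]
  · rw [ind_of_not h, ind_of_not fun h' => h h'.symm]

theorem ind_congr {A : Finset P2} {ξ ξ' : Cfg} (h : Ag A ξ ξ') : ind A ξ = ind A ξ' := by
  funext ω
  by_cases h1 : Ag A ξ ω
  · rw [ind_of h1, ind_of (h.symm.trans h1)]
  · rw [ind_of_not h1, ind_of_not fun h' => h1 (h.trans h')]

theorem offTZ_ind (A : Finset P2) (ξ : Cfg) : OffTZ A (ind A ξ) := by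
  intro ω ω' h1 h2
  have h : Ag A ω ω' := ⟨h1, h2⟩
  rw [ind_comm A ξ ω, ind_comm A ξ ω', ind_congr h]

theorem OffTZ.mono' {A A' : Finset P2} (hA : A' ⊆ A) {g : Cfg → ℝ} (hg : OffTZ A g) : OffTZ A' g :=
  fun _ _ h1 h2 => hg _ _ (fun v hv => h1 v fun h => hv (IV_mono hA h)) fun t ht => h2 t fun h => ht (hA h)

theorem OffTZ.of_ag {A : Finset P2} {g : Cfg → ℝ} (hg : OffTZ A g) {ω ω' : Cfg} (h : Ag A ω ω') :
    g ω = g ω' := hg _ _ h.v h.z

/-! ### assembled configurations -/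

open Classical in
/-- first colour (as a height) of the assembled configuration -/
def sA (A : Finset P2) (ξ : Cfg) (T : Finset P2) (v : P2) : ℤ :=
  if v ∈ IV A then (if v ∈ T then 2 else 0) else ξ.1 v

open Classical in
/-- environment `ξ` off `A`, inside data `T, P, M` on `A` -/
def asm (A : Finset P2) (ξ : Cfg) (T P M : Finset P2) : Cfg :=
  (sA A ξ T, fun t => if t ∈ A then
    decide ((t ∈ P ∧ s1 (sA A ξ T t) = true) ∨ (t ∈ M ∧ s1 (sA A ξ T t) = false)) else ξ.2 t)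

theorem sA_mono {A : Finset P2} {ξ ξ' : Cfg} (h : LeOff A ξ ξ') {T T' : Finset P2} (hT : T' ⊆ T)
    (v : P2) (hv : s1 (sA A ξ T v) = true) : s1 (sA A ξ' T' v) = true := by
  unfold sA at *
  by_cases h1 : v ∈ IV A
  · rw [if_pos h1] at hv ⊢
    have h2 : v ∉ T := by
      intro h2
      rw [if_pos h2] at hv
      exact absurd hv (by decide)
    rw [if_neg fun h3 => h2 (hT h3)]
    decide
  · rw [if_neg h1] at hv ⊢
    exact h.v v h1 hv

theorem asm_leP {A : Finset P2} {ξ ξ' : Cfg} (h : LeOff A ξ ξ') {T T' P P' M M' : Finset P2}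
    (hT : T' ⊆ T) (hP : P ⊆ P') (hM : M' ⊆ M) : LeP (asm A ξ T P M) (asm A ξ' T' P' M') := by
  refine ⟨fun x hx => sA_mono h hT x hx, fun t ht => ?_, fun t ht => ?_⟩
  · obtain ⟨h1, h2⟩ := ht
    have h3 : s1 (sA A ξ' T' t) = true := sA_mono h hT t h2
    refine ⟨?_, h3⟩
    by_cases hA : t ∈ A
    · simp only [asm, if_pos hA, decide_eq_true_eq] at h1 h2 ⊢
      rcases h1 with h1 | h1
      · exact Or.inl ⟨hP h1.1, h3⟩
      · rw [h1.2] at h2
        exact absurd h2 (by decide)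
    · have hI : t ∉ IV A := fun h4 => hA (IV_sub A h4)
      simp only [asm, if_neg hA, sA, if_neg hI] at h1 h2 ⊢
      exact (h.p t hA ⟨h1, h2⟩).1
  · obtain ⟨h1, h2⟩ := ht
    have h3 : s1 (sA A ξ T t) = false := by
      by_contra h4
      rw [Bool.not_eq_false] at h4
      have := sA_mono h hT t h4
      change s1 (sA A ξ' T' t) = false at h2
      rw [h2] at this
      exact absurd this (by decide)
    refine ⟨?_, h3⟩
    by_cases hA : t ∈ A
    · simp only [asm, if_pos hA, decide_eq_true_eq] at h1 h2 ⊢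
      rcases h1 with h1 | h1
      · rw [h1.2] at h2
        exact absurd h2 (by decide)
      · exact Or.inr ⟨hM h1.1, h3⟩
    · have hI : t ∉ IV A := fun h4 => hA (IV_sub A h4)
      simp only [asm, if_neg hA, sA, if_neg hI] at h1 h2 ⊢
      exact (h.m t hA ⟨h1, h2⟩).1

theorem inc_asm {A : Finset P2} (ξ : Cfg) {h : Cfg → ℝ} (hh : IncP h) :
    Inc (fun T P M => h (asm A ξ T P M)) := by
  intro T T' P P' M M' hT hP hM
  exact hh _ _ (asm_leP (LeOff.refl A ξ) hT hP hM)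

open Classical in
theorem restr_iff {F G A : Finset P2} (hAG : A ⊆ G) {T Z : Finset P2} :
    (T ⊆ IV F ∧ G \ F ⊆ Z) ↔
      ((T \ IV A ⊆ IV F ∧ (G \ A) \ F ⊆ Z \ A) ∧
        (T ∩ IV A ⊆ IV F ∧ A \ F ⊆ Z ∩ E2 up A T)) := by
  constructor
  · rintro ⟨h1, h2⟩
    refine ⟨⟨Finset.sdiff_subset.trans h1, fun e he => ?_⟩,
      ⟨Finset.inter_subset_left.trans h1, fun e he => ?_⟩⟩
    · rw [Finset.mem_sdiff, Finset.mem_sdiff] at he
      exact Finset.mem_sdiff.mpr ⟨h2 (Finset.mem_sdiff.mpr ⟨he.1.1, he.2⟩), he.1.2⟩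
    · rw [Finset.mem_sdiff] at he
      simp only [Finset.mem_inter, E2, Finset.mem_filter]
      exact ⟨h2 (Finset.mem_sdiff.mpr ⟨hAG he.1, he.2⟩), he.1,
        fun v hv h => he.2 (mem_of_corner hv (h1 h))⟩
  · rintro ⟨⟨h1, h2⟩, h3, h4⟩
    constructor
    · intro v hv
      by_cases hvB : v ∈ IV A
      · exact h3 (Finset.mem_inter.mpr ⟨hv, hvB⟩)
      · exact h1 (Finset.mem_sdiff.mpr ⟨hv, hvB⟩)
    · intro e he
      rw [Finset.mem_sdiff] at he
      by_cases heB : e ∈ A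
      · exact (Finset.mem_inter.mp (h4 (Finset.mem_sdiff.mpr ⟨heB, he.2⟩))).1
      · exact (Finset.mem_sdiff.mp (h2 (Finset.mem_sdiff.mpr
          ⟨Finset.mem_sdiff.mpr ⟨he.1, heB⟩, he.2⟩))).1

/-- **Representation** of the law restricted to one environment. -/
theorem env_ind (c : ℝ) {F G A : Finset P2} (hF : SC F) (hFG : F ⊆ G) (hAG : A ⊆ G) (ξ : Cfg)
    {h : Cfg → ℝ} (hh : TZ h) :
    S c F (fun ω => ind A ξ ω * h ω) =
      Kc F G * ∑ T1 ∈ (IV G \ IV A).powerset, ∑ Z1 ∈ (G \ A).powerset,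
        fw up c (G \ A) T1 Z1 * gout F G A (ind A ξ) T1 Z1 *
          EB c (ID G) A (eta T1 Z1)
            (fun T P M => Ain F A T P M * h (asm A ξ T P M)) := by
  classical
  have htz : TZ (fun ω => ind A ξ ω * h ω) := (offTZ_ind A ξ).tz.mul hh
  refine master c hF hFG hAG htz (gout F G A (ind A ξ))
    (fun T P M => Ain F A T P M * h (asm A ξ T P M)) ?_
  intro T hT Z hZ hs
  have hgv : ind A ξ (mkZ G T Z) = ind A ξ (mkZ G (T \ IV A) (Z \ A)) := by
    refine offTZ_ind A ξ _ _ (fun v hv => ?_) (fun e he => ?_)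
    · apply bool_eq_of_iff
      rw [mkZ_s, mkZ_s, Finset.mem_sdiff]
      tauto
    · apply bool_eq_of_iff
      rw [mkZ_z, mkZ_z, Finset.mem_sdiff]
      tauto
  have hfv : Ag A ξ (mkZ G T Z) →
      h (mkZ G T Z) = h (asm A ξ (T ∩ IV A) (Z ∩ E2 up A T) (Z ∩ E1 up A T)) := by
    intro hag
    have hsv : ∀ v, s1 ((mkZ G T Z).1 v) = s1 (sA A ξ (T ∩ IV A) v) := by
      intro v
      apply bool_eq_of_iff
      rw [mkZ_s]
      unfold sA
      by_cases hv : v ∈ IV A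
      · rw [if_pos hv]
        by_cases hvT : v ∈ T
        · rw [if_pos (Finset.mem_inter.2 ⟨hvT, hv⟩)]
          simp only [hvT, not_true_eq_false, false_iff]
          decide
        · rw [if_neg fun h1 => hvT (Finset.mem_inter.1 h1).1]
          simp only [hvT, not_false_eq_true, true_iff]
          decide
      · rw [if_neg hv, hag.v v hv, mkZ_s]
    refine hh _ _ hsv fun t => ?_
    by_cases htA : t ∈ A
    · apply bool_eq_of_iff
      rw [mkZ_z]
      simp only [asm, if_pos htA, decide_eq_true_eq]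
      rw [← hsv t, mkZ_s, sf_iff, mkZ_s, not_not]
      constructor
      · rintro (h1 | h1)
        · exact absurd (hAG htA) h1
        · by_cases htT : t ∈ T
          · exact Or.inr ⟨Finset.mem_inter.2 ⟨h1, Finset.mem_filter.2 ⟨htA,
              cs_minus (hs t h1) htT⟩⟩, htT⟩
          · exact Or.inl ⟨Finset.mem_inter.2 ⟨h1, Finset.mem_filter.2 ⟨htA,
              cs_plus (hs t h1) htT⟩⟩, htT⟩
      · rintro (h1 | h1)
        · exact Or.inr (Finset.mem_inter.1 h1.1).1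
        · exact Or.inr (Finset.mem_inter.1 h1.1).1
    · simp only [asm, if_neg htA]
      exact (hag.z t htA).symm
  have hiff := restr_iff (F := F) hAG (T := T) (Z := Z)
  unfold gout Ain
  by_cases hA : T ⊆ IV F ∧ G \ F ⊆ Z
  · have hA' := hiff.1 hA
    rw [if_pos hA, if_pos hA'.1, if_pos hA'.2, one_mul, hgv]
    by_cases hag : Ag A ξ (mkZ G T Z)
    · rw [hfv hag]
    · have h1 : ind A ξ (mkZ G (T \ IV A) (Z \ A)) = 0 := by
        rw [← hgv]; exact ind_of_not hag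
      rw [h1, zero_mul, zero_mul]
  · rw [if_neg hA]
    by_cases h1 : T \ IV A ⊆ IV F ∧ (G \ A) \ F ⊆ Z \ A
    · rw [if_neg (fun h2 => hA (hiff.2 ⟨h1, h2⟩))]
      ring
    · rw [if_neg h1]
      ring

theorem env_ind_one (c : ℝ) {F G A : Finset P2} (hF : SC F) (hFG : F ⊆ G) (hAG : A ⊆ G) (ξ : Cfg) :
    S c F (ind A ξ) =
      Kc F G * ∑ T1 ∈ (IV G \ IV A).powerset, ∑ Z1 ∈ (G \ A).powerset,
        fw up c (G \ A) T1 Z1 * gout F G A (ind A ξ) T1 Z1 *
          EB c (ID G) A (eta T1 Z1) (Ain F A) := by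
  have h := env_ind c hF hFG hAG ξ incP_one.tz
  simp only [mul_one] at h
  exact h

theorem EB_le {c : ℝ} (hc : 1 ≤ c) {VA B : Finset P2} {η : BC P2 P2}
    {f g : Finset P2 → Finset P2 → Finset P2 → ℝ} (h : ∀ T P M, f T P M ≤ g T P M) :
    EB c VA B η f ≤ EB c VA B η g := by
  unfold EB En
  refine Finset.sum_le_sum fun T _ => Finset.sum_le_sum fun M _ => Finset.sum_le_sum
    fun P _ => ?_
  exact mul_le_mul_of_nonneg_left (h T P M)
    (mul_nonneg (aw_nonneg _ _ hc _ _ _) (aw_nonneg _ _ hc _ _ _))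

/-- environments of ordered configurations are ordered -/
theorem eta_le {G A : Finset P2} {ξ ξ' : Cfg} (hle : LeOff A ξ ξ') {T1 Z1 T2 Z2 : Finset P2}
    (_hT1 : T1 ⊆ IV G \ IV A) (hZ1 : Z1 ⊆ G \ A) (hT2 : T2 ⊆ IV G \ IV A) (hZ2 : Z2 ⊆ G \ A)
    (h1 : Ag A ξ (mkZ G T1 Z1)) (h2 : Ag A ξ' (mkZ G T2 Z2)) : (eta T1 Z1).Le (eta T2 Z2) := by
  have hle' := hle.congr h1 h2
  refine ⟨fun v hv => ?_, fun t ht => ?_, fun t ht => ?_⟩
  · by_contra h3
    have h4 : v ∉ IV A := (Finset.mem_sdiff.1 (hT2 hv)).2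
    have h5 := hle'.v v h4 ((mkZ_s G T1 Z1 v).2 h3)
    exact (mkZ_s G T2 Z2 v).1 h5 hv
  · have h3 := Finset.mem_filter.1 ht
    have h4 := Finset.mem_sdiff.1 (hZ1 h3.1)
    have h5 := hle'.p t h4.2 ⟨(mkZ_z G T1 Z1 t).2 (Or.inr h3.1), (mkZ_s G T1 Z1 t).2 h3.2⟩
    refine Finset.mem_filter.2 ⟨?_, (mkZ_s G T2 Z2 t).1 h5.2⟩
    rcases (mkZ_z G T2 Z2 t).1 h5.1 with h6 | h6
    · exact absurd h4.1 h6
    · exact h6
  · have h3 := Finset.mem_filter.1 ht
    have h4 := Finset.mem_sdiff.1 (hZ2 h3.1)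
    have h5 := hle'.m t h4.2 ⟨(mkZ_z G T2 Z2 t).2 (Or.inr h3.1), by
      rw [sf_iff, mkZ_s, not_not]; exact h3.2⟩
    refine Finset.mem_filter.2 ⟨?_, ?_⟩
    · rcases (mkZ_z G T1 Z1 t).1 h5.1 with h6 | h6
      · exact absurd h4.1 h6
      · exact h6
    · have h6 := h5.2
      rw [sf_iff, mkZ_s, not_not] at h6
      exact h6

/-- **Conditional domination.** -/
theorem cd {c : ℝ} (hc : 1 ≤ c) {F F' A : Finset P2} (hF : SC F) (hF' : SC F') (hFF : F ⊆ F')
    (hA : A ⊆ F') {ξ ξ' : Cfg} (hle : LeOff A ξ ξ') {h : Cfg → ℝ} (hh : IncP h) :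
    E c F' (fun ω => ind A ξ ω * h ω) * E c F (ind A ξ') ≤
      E c F' (ind A ξ) * E c F (fun ω => ind A ξ' ω * h ω) := by
  classical
  have hI : Inc (fun T P M => h (asm A ξ T P M)) := inc_asm ξ hh
  have hI' : Inc (fun T P M => h (asm A ξ' T P M)) := inc_asm ξ' hh
  -- the trivial restriction for `F'`
  have hdrop : ∀ (η : BC P2 P2), EB c (ID F') A η
      (fun T P M => Ain F' A T P M * h (asm A ξ T P M)) =
        EB c (ID F') A η (fun T P M => h (asm A ξ T P M)) := by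
    intro η
    apply EB_congr
    intro T hT P _ M _
    unfold Ain
    rw [if_pos ⟨hT.trans (IV_mono hA), by
      rw [Finset.sdiff_eq_empty_iff_subset.mpr hA]; exact Finset.empty_subset _⟩, one_mul]
  have hdrop1 : ∀ (η : BC P2 P2), EB c (ID F') A η (Ain F' A) =
        EB c (ID F') A η (fun _ _ _ => 1) := by
    intro η
    apply EB_congr
    intro T hT P _ M _
    unfold Ain
    rw [if_pos ⟨hT.trans (IV_mono hA), by
      rw [Finset.sdiff_eq_empty_iff_subset.mpr hA]; exact Finset.empty_subset _⟩]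
  have s1 := env_ind c hF' (Finset.Subset.refl F') hA ξ hh.tz
  have s2 := env_ind_one c hF' (Finset.Subset.refl F') hA ξ
  have s3 := env_ind c hF hFF hA ξ' hh.tz
  have s4 := env_ind_one c hF hFF hA ξ'
  simp only [hdrop] at s1
  simp only [hdrop1] at s2
  have hZF := Z_pos hc F
  have hZF' := Z_pos hc F'
  have hmain : S c F' (fun ω => ind A ξ ω * h ω) * S c F (ind A ξ') ≤
      S c F' (ind A ξ) * S c F (fun ω => ind A ξ' ω * h ω) := by
    rw [s1, s2, s3, s4]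
    have hK := Kc_pos F F'
    have hK' := Kc_pos F' F'
    -- products of sums
    have key : (∑ T1 ∈ (IV F' \ IV A).powerset, ∑ Z1 ∈ (F' \ A).powerset,
        fw up c (F' \ A) T1 Z1 * gout F' F' A (ind A ξ) T1 Z1 *
          EB c (ID F') A (eta T1 Z1) (fun T P M => h (asm A ξ T P M))) *
        (∑ T2 ∈ (IV F' \ IV A).powerset, ∑ Z2 ∈ (F' \ A).powerset,
        fw up c (F' \ A) T2 Z2 * gout F F' A (ind A ξ') T2 Z2 *
          EB c (ID F') A (eta T2 Z2) (Ain F A)) ≤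
        (∑ T1 ∈ (IV F' \ IV A).powerset, ∑ Z1 ∈ (F' \ A).powerset,
        fw up c (F' \ A) T1 Z1 * gout F' F' A (ind A ξ) T1 Z1 *
          EB c (ID F') A (eta T1 Z1) (fun _ _ _ => 1)) *
        (∑ T2 ∈ (IV F' \ IV A).powerset, ∑ Z2 ∈ (F' \ A).powerset,
        fw up c (F' \ A) T2 Z2 * gout F F' A (ind A ξ') T2 Z2 *
          EB c (ID F') A (eta T2 Z2) (fun T P M => Ain F A T P M * h (asm A ξ' T P M))) := by
      rw [Finset.sum_mul_sum, Finset.sum_mul_sum]
      refine Finset.sum_le_sum fun T1 hT1 => Finset.sum_le_sum fun T2 hT2 => ?_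
      rw [Finset.sum_mul_sum, Finset.sum_mul_sum]
      refine Finset.sum_le_sum fun Z1 hZ1 => Finset.sum_le_sum fun Z2 hZ2 => ?_
      rw [Finset.mem_powerset] at hT1 hT2 hZ1 hZ2
      by_cases hs1 : ∀ t ∈ Z1, Cs up T1 t
      swap
      · rw [fw_zero_of_not c _ _ hZ1 hs1]
        simp only [zero_mul, le_refl]
      by_cases hs2 : ∀ t ∈ Z2, Cs up T2 t
      swap
      · rw [fw_zero_of_not c _ _ hZ2 hs2]
        simp only [zero_mul, mul_zero, le_refl]
      have hg1 : gout F' F' A (ind A ξ) T1 Z1 ≠ 0 → Ag A ξ (mkZ F' T1 Z1) := by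
        intro h1
        by_contra h2
        apply h1
        unfold gout
        rw [ind_of_not h2]
        simp
      have hg2 : gout F F' A (ind A ξ') T2 Z2 ≠ 0 → Ag A ξ' (mkZ F' T2 Z2) := by
        intro h1
        by_contra h2
        apply h1
        unfold gout
        rw [ind_of_not h2]
        simp
      have hn1 : 0 ≤ gout F' F' A (ind A ξ) T1 Z1 := gout_nonneg (fun ω => ind_nonneg A ξ ω) _ _
      have hn2 : 0 ≤ gout F F' A (ind A ξ') T2 Z2 := gout_nonneg (fun ω => ind_nonneg A ξ' ω) _ _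
      by_cases hz1 : gout F' F' A (ind A ξ) T1 Z1 = 0
      · rw [hz1]; simp
      by_cases hz2 : gout F F' A (ind A ξ') T2 Z2 = 0
      · rw [hz2]; simp
      have hle2 := eta_le hle hT1 hZ1 hT2 hZ2 (hg1 hz1) (hg2 hz2)
      have hok1 := eta_ok (B := A) (G := F') hT1 hZ1
      have hok2 := eta_ok (B := A) (G := F') hT2 hZ2
      have h1 := EB_mono hc (VA := ID F') hok1 hok2 hle2 hI
      have h2 := EB_fkg hc (VA := ID F') hok2 (Ain_inc F A) hI'
      have h3 : EB c (ID F') A (eta T2 Z2) (fun T P M => h (asm A ξ T P M)) ≤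
          EB c (ID F') A (eta T2 Z2) (fun T P M => h (asm A ξ' T P M)) :=
        EB_le hc fun T P M => hh _ _ (asm_leP hle (Finset.Subset.refl _) (Finset.Subset.refl _)
          (Finset.Subset.refl _))
      have o1 : 0 < EB c (ID F') A (eta T1 Z1) (fun _ _ _ => 1) := EB_one_pos hc hok1
      have o2 : 0 < EB c (ID F') A (eta T2 Z2) (fun _ _ _ => 1) := EB_one_pos hc hok2
      have hAp : 0 ≤ EB c (ID F') A (eta T2 Z2) (Ain F A) := EB_nonneg hc (Ain_nonneg F A)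
      set x := EB c (ID F') A (eta T1 Z1) (fun T P M => h (asm A ξ T P M))
      set x' := EB c (ID F') A (eta T1 Z1) (fun _ _ _ => 1)
      set o := EB c (ID F') A (eta T2 Z2) (fun _ _ _ => 1)
      set u := EB c (ID F') A (eta T2 Z2) (fun T P M => h (asm A ξ T P M))
      set u' := EB c (ID F') A (eta T2 Z2) (fun T P M => h (asm A ξ' T P M))
      set a := EB c (ID F') A (eta T2 Z2) (Ain F A)
      set y := EB c (ID F') A (eta T2 Z2) (fun T P M => Ain F A T P M * h (asm A ξ' T P M))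
      -- h1 : x * o ≤ x' * u ; h2 : a * u' ≤ o * y ; h3 : u ≤ u'
      have h4 : x * a ≤ x' * y := by
        have h5 : a * (x * o) ≤ a * (x' * u) := mul_le_mul_of_nonneg_left h1 hAp
        have h6 : a * (x' * u) ≤ a * (x' * u') :=
          mul_le_mul_of_nonneg_left (mul_le_mul_of_nonneg_left h3 o1.le) hAp
        have h7 : x' * (a * u') ≤ x' * (o * y) := mul_le_mul_of_nonneg_left h2 o1.le
        have h8 : o * (x * a) ≤ o * (x' * y) := by linarith
        exact le_of_mul_le_mul_left h8 o2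
      have hw1 : 0 ≤ fw up c (F' \ A) T1 Z1 * gout F' F' A (ind A ξ) T1 Z1 :=
        mul_nonneg (fw_nonneg up hc _ _ _) hn1
      have hw2 : 0 ≤ fw up c (F' \ A) T2 Z2 * gout F F' A (ind A ξ') T2 Z2 :=
        mul_nonneg (fw_nonneg up hc _ _ _) hn2
      have := mul_le_mul_of_nonneg_left h4 (mul_nonneg hw1 hw2)
      linarith
    have := mul_le_mul_of_nonneg_left key (mul_pos hK' hK).le
    linarith
  rw [E_eq_S, E_eq_S, E_eq_S, E_eq_S, div_mul_div_comm, div_mul_div_comm]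
  exact (div_le_div_iff_of_pos_right (mul_pos hZF' hZF)).2 hmain

end Crest.Agent.R144.Mix880
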