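import Crest.Agent.R144.Mix1_880

/-!
# R144, mixing (helper880), part 2: conditional expectations and the jump lemma

* `cE c F A h ω` : conditional expectation of `h` given `(s1, z)` off `A` under `E c F`;
* `tower` : `E c F (g h) = E c F (g · cE c F A h)` for `OffTZ A g`;
* `jump` : one step estimate of the sequential revealment: from `A' ⊆ A` to `A`.
-/

set_option autoImplicit false

noncomputable section

namespace Crest.Agent.R144.Mix880

open Finset
open Crest.Agent.R144.It844 (P2)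
open Crest.Agent.R144.Zg349 Crest.Agent.R144.Zk349 Crest.Agent.R144.Zd349 Crest.Agent.R144.Zm349
open Crest.Agent.R144.HyA349 Crest.Agent.R144.HyB349 Crest.Agent.R144.HyC349
open Crest.Agent.R144.Ze349 Crest.Agent.R144.Zf349

/-- conditional expectation given `(s1, z)` off `A` -/
def cE (c : ℝ) (F A : Finset P2) (h : Cfg → ℝ) (ω : Cfg) : ℝ :=
  E c F (fun ω' => ind A ω ω' * h ω') / E c F (ind A ω)

theorem cE_congr (c : ℝ) (F : Finset P2) {A : Finset P2} (h : Cfg → ℝ) {ω ω' : Cfg} (ha : Ag A ω ω') :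
    cE c F A h ω = cE c F A h ω' := by
  unfold cE
  rw [ind_congr ha]

theorem E_ind_nonneg {c : ℝ} (hc : 1 ≤ c) (F A : Finset P2) (ω : Cfg) : 0 ≤ E c F (ind A ω) :=
  E_nonneg hc fun _ _ => ind_nonneg _ _ _

/-- mass of a configuration is at most the mass of its class -/
theorem pr_le_ind {c : ℝ} (hc : 1 ≤ c) {F A : Finset P2} {ω : Cfg} (hω : ω ∈ conf F) :
    pr c F ω ≤ E c F (ind A ω) := by
  unfold E
  have h1 := Finset.single_le_sum (f := fun ω' => pr c F ω' * ind A ω ω')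
    (fun ω' _ => mul_nonneg (pr_nonneg hc F ω') (ind_nonneg _ _ _)) hω
  simp only [ind_of (Ag.refl A ω), mul_one] at h1
  exact h1

/-- **Tower property.** -/
theorem tower {c : ℝ} (hc : 1 ≤ c) {F A : Finset P2} {g : Cfg → ℝ} (hg : OffTZ A g) (h : Cfg → ℝ) :
    E c F (fun ω => g ω * h ω) = E c F (fun ω => g ω * cE c F A h ω) := by
  have h1 : E c F (fun ω => g ω * cE c F A h ω) =
      ∑ ω ∈ conf F, ∑ ω' ∈ conf F, pr c F ω * (g ω * (pr c F ω' * (ind A ω ω' * h ω')) /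
        E c F (ind A ω)) := by
    unfold E cE
    refine Finset.sum_congr rfl fun ω _ => ?_
    unfold E
    rw [← Finset.mul_sum]
    congr 1
    rw [← Finset.sum_div, ← Finset.mul_sum, mul_div_assoc]
  rw [h1, Finset.sum_comm]
  unfold E
  refine Finset.sum_congr rfl fun ω' hω' => ?_
  have h2 : ∀ ω ∈ conf F, pr c F ω * (g ω * (pr c F ω' * (ind A ω ω' * h ω')) /
        E c F (ind A ω)) = (pr c F ω * ind A ω' ω) * (pr c F ω' * (g ω' * h ω') /
        E c F (ind A ω')) := by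
    intro ω _
    by_cases ha : Ag A ω ω'
    · rw [ind_of ha, ind_of ha.symm, OffTZ.of_ag hg ha, ind_congr ha]
      ring
    · rw [ind_of_not ha, ind_of_not fun h => ha h.symm]
      simp
  show _ = ∑ ω ∈ conf F, pr c F ω * (g ω * (pr c F ω' * (ind A ω ω' * h ω')) /
        E c F (ind A ω))
  rw [Finset.sum_congr rfl h2, ← Finset.sum_mul]
  have h3 : ∑ ω ∈ conf F, pr c F ω * ind A ω' ω = E c F (ind A ω') := rfl
  rw [h3]
  by_cases h4 : E c F (ind A ω') = 0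
  · have h5 : pr c F ω' = 0 :=
      le_antisymm (h4 ▸ pr_le_ind hc hω') (pr_nonneg hc F ω')
    rw [h5]
    simp
  · field_simp

theorem cE_add (c : ℝ) (F A : Finset P2) (f g : Cfg → ℝ) (ω : Cfg) :
    cE c F A (fun ω => f ω + g ω) ω = cE c F A f ω + cE c F A g ω := by
  unfold cE
  rw [← add_div, ← E_add]
  congr 2
  funext ω'
  ring

theorem cE_neg (c : ℝ) (F A : Finset P2) (f : Cfg → ℝ) (ω : Cfg) :
    cE c F A (fun ω => - f ω) ω = - cE c F A f ω := by
  unfold cE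
  rw [← neg_div]
  congr 1
  have : (fun ω' => ind A ω ω' * -f ω') = fun ω' => (-1) * (ind A ω ω' * f ω') := by
    funext ω'; ring
  rw [this, E_smul]
  ring

/-- bounds of the conditional expectation -/
theorem cE_ge {c : ℝ} (hc : 1 ≤ c) {F A : Finset P2} {h : Cfg → ℝ} {ω : Cfg} {a : ℝ}
    (hp : 0 < E c F (ind A ω)) (ha : ∀ ω', Ag A ω ω' → a ≤ h ω') : a ≤ cE c F A h ω := by
  unfold cE
  rw [le_div_iff₀ hp, ← E_smul]
  refine E_mono hc fun ω' _ => ?_
  by_cases h1 : Ag A ω ω'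
  · rw [ind_of h1, mul_one, one_mul]
    exact ha ω' h1
  · rw [ind_of_not h1, mul_zero, zero_mul]

theorem cE_le {c : ℝ} (hc : 1 ≤ c) {F A : Finset P2} {h : Cfg → ℝ} {ω : Cfg} {a : ℝ}
    (hp : 0 < E c F (ind A ω)) (ha : ∀ ω', Ag A ω ω' → h ω' ≤ a) : cE c F A h ω ≤ a := by
  unfold cE
  rw [div_le_iff₀ hp, ← E_smul]
  refine E_mono hc fun ω' _ => ?_
  by_cases h1 : Ag A ω ω'
  · rw [ind_of h1, mul_one, one_mul]
    exact ha ω' h1
  · rw [ind_of_not h1, mul_zero, zero_mul]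

/-- comparison of expectations of functions which are ordered on the support -/
theorem E_mono_pos {c : ℝ} (hc : 1 ≤ c) {F : Finset P2} {f g : Cfg → ℝ}
    (h : ∀ ω ∈ conf F, 0 < pr c F ω → f ω ≤ g ω) : E c F f ≤ E c F g := by
  unfold E
  refine Finset.sum_le_sum fun ω hω => ?_
  rcases (pr_nonneg hc F ω).eq_or_lt with h1 | h1
  · rw [← h1, zero_mul, zero_mul]
  · exact mul_le_mul_of_nonneg_left (h ω hω h1) h1.le

/-- **The jump lemma.** -/
theorem jump {c : ℝ} (hc : 1 ≤ c) {F F' A A' : Finset P2} (hF : SC F) (hF' : SC F') (hFF : F ⊆ F')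
    (hA : A ⊆ F') (hAA : A' ⊆ A) {f b : Cfg → ℝ} {C : ℝ} (hf : ∀ ω, -C ≤ f ω) (hb : ∀ ω, 0 ≤ b ω)
    {ξ ξ' : Cfg}
    (H : ∀ ω1 ω2, Ag A ξ ω1 → Ag A ξ' ω2 → 0 < E c F' (ind A' ω1) → 0 < E c F (ind A' ω2) →
      LeOff A' ω1 ω2 → cE c F' A' f ω1 ≤ cE c F A' f ω2 + cE c F A' b ω2)
    (hle : LeOff A ξ ξ') (hp : 0 < E c F' (ind A ξ)) (hp' : 0 < E c F (ind A ξ')) :
    cE c F' A f ξ ≤ cE c F A f ξ' + cE c F A b ξ' := by
  classical
  let Q : Cfg → Cfg → Prop := fun ω ω1 => Ag A ξ ω1 ∧ 0 < E c F' (ind A' ω1) ∧ LeOff A' ω1 ω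
  let U : Cfg → ℝ := fun ω => ((conf F').filter (Q ω)).fold max (-C) (cE c F' A' f)
  have hU : ∀ ω a, U ω ≤ a ↔ -C ≤ a ∧ ∀ ω1 ∈ (conf F').filter (Q ω), cE c F' A' f ω1 ≤ a :=
    fun ω a => Finset.fold_max_le a
  have hinc : IncP U := by
    intro ω ω' h
    rw [hU]
    refine ⟨((hU ω' _).1 le_rfl).1, fun ω1 h1 => ?_⟩
    refine ((hU ω' _).1 le_rfl).2 ω1 ?_
    rw [Finset.mem_filter] at h1 ⊢
    exact ⟨h1.1, h1.2.1, h1.2.2.1, h1.2.2.2.trans_leP h⟩
  have hofA : OffTZ A' (ind A ξ) := OffTZ.mono' hAA (offTZ_ind A ξ)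
  have hofA' : OffTZ A' (ind A ξ') := OffTZ.mono' hAA (offTZ_ind A ξ')
  -- step 1
  have s1 : E c F' (fun ω => ind A ξ ω * f ω) ≤ E c F' (fun ω => ind A ξ ω * U ω) := by
    rw [tower hc hofA f]
    refine E_mono_pos hc fun ω hω hpos => ?_
    by_cases h1 : Ag A ξ ω
    · rw [ind_of h1, one_mul, one_mul]
      refine ((hU ω _).1 le_rfl).2 ω ?_
      rw [Finset.mem_filter]
      exact ⟨hω, h1, hpos.trans_le (pr_le_ind hc hω), LeOff.refl A' ω⟩
    · rw [ind_of_not h1, zero_mul, zero_mul]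
  -- step 2
  have s2 := cd hc hF hF' hFF hA hle hinc
  -- step 3
  have s3 : E c F (fun ω => ind A ξ' ω * U ω) ≤ E c F (fun ω => ind A ξ' ω * (f ω + b ω)) := by
    rw [tower hc hofA' (fun ω => f ω + b ω)]
    refine E_mono_pos hc fun ω hω hpos => ?_
    by_cases h1 : Ag A ξ' ω
    · rw [ind_of h1, one_mul, one_mul, cE_add]
      have hpw : 0 < E c F (ind A' ω) := hpos.trans_le (pr_le_ind hc hω)
      refine (hU ω _).2 ⟨?_, fun ω1 h2 => ?_⟩
      · have h3 : -C ≤ cE c F A' f ω := cE_ge hc hpw fun ω' _ => hf ω'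
        have h4 : 0 ≤ cE c F A' b ω := cE_ge hc hpw fun ω' _ => hb ω'
        linarith
      · rw [Finset.mem_filter] at h2
        exact H ω1 ω h2.2.1 h1 h2.2.2.1 hpw h2.2.2.2
    · rw [ind_of_not h1, zero_mul, zero_mul]
  rw [← cE_add]
  unfold cE
  rw [div_le_div_iff₀ hp hp']
  have s4 := mul_le_mul_of_nonneg_right s1 hp'.le
  have s5 := mul_le_mul_of_nonneg_left s3 hp.le
  linarith

end Crest.Agent.R144.Mix880
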