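import Crest.Agent.R144.Mix3_880

/-!
# R144, mixing (helper880), part 4: decorrelation under the F-type laws

* `dec_tz` : `g` off `hexB N`, `f` inside `hexB M` (functions of `(s1, z)`):
  `|E_F[g f] - E_F[g] a| ≤ D (4 C bt (M+1) M1 + 2 C bt (M1+1) N)` with `a = E_{hexB M1}[f ∘ addH 2]`;
* `avg_prod` : factorisation of the average over the second colour; `stay_out`;
* `dec_col` : decorrelation for observables of the two colours and the closed triangles.
-/

set_option autoImplicit false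

noncomputable section

namespace Crest.Agent.R144.Mix880

open Finset
open Crest.Agent.R144.It844 (P2 adj_symm adj_iff adj_comm)
open Crest.ProbabilityR.HexHeights (Adj)
open Crest.Agent.R144.Zg349 Crest.Agent.R144.Zk349 Crest.Agent.R144.Zd349 Crest.Agent.R144.Zm349
open Crest.Agent.R144.Ze349 Crest.Agent.R144.Zf349
open Crest.Agent.R144.Pst967 (hexB mem_hexB hexB_mono XStep Xs Bs mem_Bs notMem_Bs xs_of_notMem xs_step
  Bs_sub sc_Bs layer_Bs Blk nBlk nBlk_nonneg nBlk_le incP_nBlk conn_hexB hexB_mem_scs BsI offTZ_BsI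
  BsI_nonneg sum_BsI c1 c2 OStep OConn hit hit_eq rep rep_spec exB col col_of_mem avg DepA DepW loc Stay
  E_avg avg_loc stay_of_blk abs_avg_le hit_self oConn_of_loc adj_of_share)

theorem E_abs_le {c : ℝ} (hc : 1 ≤ c) {F : Finset P2} {f g : Cfg → ℝ} (h : ∀ ω, |f ω| ≤ g ω) :
    |E c F f| ≤ E c F g := by
  rw [abs_le]
  constructor
  · have h1 : -(E c F g) = E c F (fun ω => (-1) * g ω) := by rw [E_smul]; ring
    rw [h1]
    exact E_mono hc fun ω _ => by
      have := (abs_le.1 (h ω)).1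
      linarith
  · exact E_mono hc fun ω _ => (abs_le.1 (h ω)).2

theorem inTZ_addH2 {B : Finset P2} {f : Cfg → ℝ} (hf : InTZ B f) : InTZ B (fun ω => f (addH 2 ω)) :=
  fun _ _ h1 h2 => hf _ _ (fun v hv => s1_shift2 (h1 v hv)) h2

theorem offTZ_mul' {B : Finset P2} {f g : Cfg → ℝ} (hf : OffTZ B f) (hg : OffTZ B g) :
    OffTZ B (fun ω => f ω * g ω) := fun ω ω' h1 h2 => by
  show f ω * g ω = f ω' * g ω'
  rw [hf ω ω' h1 h2, hg ω ω' h1 h2]

/-- off the blocking event the unexplored domain does not contain the ball -/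
theorem nBlk_of_not_sub {M N : ℕ} {ω : Cfg} (h : ¬ hexB M ⊆ Bs N ω) : nBlk (M + 1) N ω = 1 := by
  rw [Finset.subset_iff] at h
  push Not at h
  obtain ⟨t, ht, htA⟩ := h
  rw [notMem_Bs] at htA
  have h8 : ¬ Blk (M + 1) N ω := by
    intro h8
    rcases htA with h9 | ⟨u, h9, h10⟩
    · exact h8 t (hexB_mono (Nat.le_succ M) ht) h9
    · exact h8 u (adj_hexB ht h9) h10
  unfold nBlk
  rw [if_neg h8]

/-- **Decorrelation for `(s1, z)`.** -/
theorem dec_tz {c : ℝ} (hc : 1 ≤ c) (h3 : F3m c) {F : Finset P2} (hF : SC F) {M M1 N : ℕ}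
    (hN : hexB N ⊆ F) {f g : Cfg → ℝ} (hf : InTZ (hexB M) f) {C D : ℝ} (hC : ∀ ω, |f ω| ≤ C)
    (hg : OffTZ (hexB N) g) (hD : ∀ ω, |g ω| ≤ D) :
    |E c F (fun ω => g ω * f ω) - E c F g * E c (hexB M1) (fun ω => f (addH 2 ω))| ≤
      D * (4 * C * bt c (M + 1) M1 + 2 * C * bt c (M1 + 1) N) := by
  classical
  have hC0 : 0 ≤ C := (abs_nonneg _).trans (hC flat)
  have hD0 : 0 ≤ D := (abs_nonneg _).trans (hD flat)
  set a := E c (hexB M1) (fun ω => f (addH 2 ω)) with ha
  have haC : |a| ≤ C := by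
    refine (E_abs_le hc (g := fun _ => C) fun ω => hC _).trans ?_
    rw [E_const hc]
  set δ := 4 * C * bt c (M + 1) M1 with hδ
  have hδ0 : 0 ≤ δ := mul_nonneg (by positivity) (bt_nonneg hc _ _)
  -- the difference as one expectation
  have e0 : E c F (fun ω => g ω * f ω) - E c F g * a = E c F (fun ω => g ω * (f ω - a)) := by
    have e1 : E c F g * a = E c F (fun ω => a * g ω) := by rw [E_smul]; ring
    rw [e1, ← E_sub]
    congr 1
    funext ω
    ring
  have e2 : E c F (fun ω => g ω * (f ω - a)) =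
      ∑ B ∈ (hexB N).powerset, E c F (fun ω => BsI N B ω * (g ω * (f ω - a))) := by
    rw [← E_sum]
    congr 1
    funext ω
    rw [← Finset.sum_mul, sum_BsI, one_mul]
  have hterm : ∀ B ∈ (hexB N).powerset, |E c F (fun ω => BsI N B ω * (g ω * (f ω - a)))| ≤
      E c F (fun ω => BsI N B ω * (D * δ + D * (2 * C) * nBlk (M1 + 1) N ω)) := by
    intro B hB
    rw [Finset.mem_powerset] at hB
    by_cases hM1 : hexB M1 ⊆ B
    · by_cases hex : ∃ ω, Bs N ω = B
      · obtain ⟨ω0, hω0⟩ := hex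
        have hSC : SC B := by rw [← hω0]; exact sc_Bs N ω0
        have hgB : OffTZ B (fun ω => BsI N B ω * g ω) :=
          offTZ_mul' (offTZ_BsI N B) (OffTZ.mono' hB hg)
        by_cases hMM : hexB M ⊆ B
        · have hlay : ∀ ω, BsI N B ω * g ω ≠ 0 → ∀ t ∈ B, ∀ t', t' ∉ B → Adj t t' → mC ω t' := by
            intro ω hω t ht t' ht' hadj
            have h4 : Bs N ω = B := by
              by_contra h4
              apply hω
              unfold BsI
              rw [if_neg h4, zero_mul]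
            rw [← h4] at ht ht'
            exact layer_Bs ht ht' hadj
          have e3 := h3 F B hF hSC (hB.trans hN) _ f hgB (InTZ.mono' hMM hf) hlay
          have e4 : E c F (fun ω => BsI N B ω * (g ω * (f ω - a))) =
              E c F (fun ω => BsI N B ω * g ω) * (E c B (fun ω => f (addH 2 ω)) - a) := by
            rw [mul_sub, ← e3]
            have e5 : E c F (fun ω => BsI N B ω * g ω) * a =
                E c F (fun ω => a * (BsI N B ω * g ω)) := by rw [E_smul]; ring
            rw [e5, ← E_sub]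
            congr 1
            funext ω
            ring
          have h5 := tv_dom' hc h3 (conn_hexB M1) hSC (Finset.Subset.refl _) hM1
            (inTZ_addH2 hf) (C := C) (fun ω => hC _)
          rw [e4, abs_mul]
          have h6 : |E c F (fun ω => BsI N B ω * g ω)| ≤ E c F (fun ω => D * BsI N B ω) := by
            refine E_abs_le hc fun ω => ?_
            rw [abs_mul, abs_of_nonneg (BsI_nonneg N B ω), mul_comm]
            exact mul_le_mul_of_nonneg_right (hD ω) (BsI_nonneg N B ω)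
          have h7 : E c F (fun ω => D * BsI N B ω) * δ ≤
              E c F (fun ω => BsI N B ω * (D * δ + D * (2 * C) * nBlk (M1 + 1) N ω)) := by
            have e6 : E c F (fun ω => D * BsI N B ω) * δ = E c F (fun ω => δ * (D * BsI N B ω)) := by
              rw [E_smul (a := δ)]; ring
            rw [e6]
            refine E_mono hc fun ω _ => ?_
            have h8 := BsI_nonneg N B ω
            have h9 : 0 ≤ D * (2 * C) * nBlk (M1 + 1) N ω :=
              mul_nonneg (by positivity) (nBlk_nonneg _ _ _)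
            nlinarith [mul_nonneg h8 h9]
          refine le_trans ?_ h7
          refine mul_le_mul h6 h5 (abs_nonneg _) ?_
          exact E_nonneg hc fun ω _ => mul_nonneg hD0 (BsI_nonneg N B ω)
        · -- `hexB M` not inside `B`
          have h4 : ∀ ω, BsI N B ω ≠ 0 → nBlk (M + 1) N ω = 1 := by
            intro ω hω
            apply nBlk_of_not_sub
            have h5 : Bs N ω = B := by
              by_contra h5
              exact hω (by unfold BsI; rw [if_neg h5])
            rw [h5]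
            exact hMM
          -- then `M1 < M`, so the ball `hexB M1` gives `bt (M+1) M1 = 1`
          have hM1M : M1 < M := by
            by_contra h5
            exact hMM ((hexB_mono (not_lt.1 h5)).trans hM1)
          have hbt1 : bt c (M + 1) M1 = 1 := by
            unfold bt
            have : ∀ ω : Cfg, nBlk (M + 1) M1 ω = 1 := by
              intro ω
              have h8 : ¬ Blk (M + 1) M1 ω := by
                intro h8
                refine h8 ((M : ℤ) + 1, 0) ?_ (xs_of_notMem ω ?_)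
                · rw [mem_hexB]; push_cast; simp only [abs_le]; omega
                · rw [mem_hexB]; simp only [abs_le]; omega
              unfold nBlk
              rw [if_neg h8]
            rw [show (nBlk (M + 1) M1) = fun _ => (1 : ℝ) from funext this, E_const hc]
          refine E_abs_le hc fun ω => ?_
          have h8 := BsI_nonneg N B ω
          rw [abs_mul, abs_of_nonneg h8, abs_mul]
          refine mul_le_mul_of_nonneg_left ?_ h8
          have h9 : |f ω - a| ≤ 2 * C := by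
            refine (abs_sub _ _).trans ?_
            linarith [hC ω]
          have h10 : |g ω| * |f ω - a| ≤ D * (2 * C) := mul_le_mul (hD ω) h9 (abs_nonneg _) hD0
          have h11 : 0 ≤ D * (2 * C) * nBlk (M1 + 1) N ω :=
            mul_nonneg (by positivity) (nBlk_nonneg _ _ _)
          have h12 : D * (2 * C) ≤ D * δ := by
            refine mul_le_mul_of_nonneg_left ?_ hD0
            rw [hδ, hbt1]
            linarith
          linarith
      · -- the event is empty
        have h4 : ∀ ω, BsI N B ω = 0 := by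
          intro ω
          unfold BsI
          rw [if_neg fun h5 => hex ⟨ω, h5⟩]
        simp only [h4, zero_mul]
        rw [E_const hc, abs_zero]
    · refine E_abs_le hc fun ω => ?_
      have h8 := BsI_nonneg N B ω
      rw [abs_mul, abs_of_nonneg h8, abs_mul]
      by_cases h4 : Bs N ω = B
      · refine mul_le_mul_of_nonneg_left ?_ h8
        have h5 : nBlk (M1 + 1) N ω = 1 := nBlk_of_not_sub (by rw [h4]; exact hM1)
        rw [h5, mul_one]
        have h9 : |f ω - a| ≤ 2 * C := by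
          refine (abs_sub _ _).trans ?_
          linarith [hC ω]
        have h10 : |g ω| * |f ω - a| ≤ D * (2 * C) := mul_le_mul (hD ω) h9 (abs_nonneg _) hD0
        have h11 : 0 ≤ D * δ := mul_nonneg hD0 hδ0
        linarith
      · have h5 : BsI N B ω = 0 := by unfold BsI; rw [if_neg h4]
        rw [h5, zero_mul, zero_mul]
  rw [e0, e2]
  refine (Finset.abs_sum_le_sum_abs _ _).trans ((Finset.sum_le_sum hterm).trans ?_)
  rw [← E_sum]
  have e7 : (fun ω => ∑ B ∈ (hexB N).powerset,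
      BsI N B ω * (D * δ + D * (2 * C) * nBlk (M1 + 1) N ω)) =
      fun ω => D * δ + D * (2 * C) * nBlk (M1 + 1) N ω := by
    funext ω
    rw [← Finset.sum_mul, sum_BsI, one_mul]
  rw [e7, E_add, E_const hc, E_smul]
  have h9 := nBlk_le_bt hc hF (m := M1 + 1) hN
  have h10 : D * (2 * C) * E c F (nBlk (M1 + 1) N) ≤ D * (2 * C) * bt c (M1 + 1) N :=
    mul_le_mul_of_nonneg_left h9 (by positivity)
  linarith

/-! ### the second colour -/

/-- **Factorisation of the average** over the second colour. -/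
theorem avg_prod {W W' : Finset P2} {f g : (P2 → Bool) → (P2 → Bool) → (P2 → Bool) → ℝ}
    (hf : DepA W f) (hg : DepA W' g) {z' : P2 → Bool} (hd : ∀ v ∈ W, ∀ w ∈ W', ¬ OConn z' v w)
    (s z : P2 → Bool) :
    avg (W ∪ W') (fun s a z => f s a z * g s a z) s z z' = avg W f s z z' * avg W' g s z z' := by
  classical
  have hdis : Disjoint W W' := by
    rw [Finset.disjoint_left]
    intro v h1 h2
    exact hd v h1 v h2 Relation.ReflTransGen.refl
  -- the restricted colours
  have hhit : ∀ v ∈ W, hit (W ∪ W') z' v = hit W z' v := by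
    intro v hv
    funext w
    unfold hit
    apply propext
    rw [Finset.mem_union]
    constructor
    · rintro ⟨h1 | h1, h2⟩
      · exact ⟨h1, h2⟩
      · exact absurd h2 (hd v hv w h1)
    · rintro ⟨h1, h2⟩
      exact ⟨Or.inl h1, h2⟩
  have hhit' : ∀ v ∈ W', hit (W ∪ W') z' v = hit W' z' v := by
    intro v hv
    funext w
    unfold hit
    apply propext
    rw [Finset.mem_union]
    constructor
    · rintro ⟨h1 | h1, h2⟩
      · exact absurd h2.symm (hd w h1 v hv)
      · exact ⟨h1, h2⟩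
    · rintro ⟨h1, h2⟩
      exact ⟨Or.inr h1, h2⟩
  have hrep : ∀ v ∈ W, rep (W ∪ W') z' v = rep W z' v := fun v hv => by
    unfold Pst967.rep
    rw [hhit v hv]
  have hrep' : ∀ v ∈ W', rep (W ∪ W') z' v = rep W' z' v := fun v hv => by
    unfold Pst967.rep
    rw [hhit' v hv]
  have hcol : ∀ ε : ↥(W ∪ W') → Bool, ∀ v ∈ W, col (W ∪ W') z' ε v =
      col W z' (fun w : ↥W => ε ⟨w.1, Finset.mem_union_left _ w.2⟩) v := by
    intro ε v hv
    rw [col_of_mem (Finset.mem_union_left _ hv), col_of_mem hv, hrep v hv]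
    have h1 := (rep_spec (hit_self (z := z') hv)).1
    unfold exB
    rw [dif_pos (Finset.mem_union_left _ h1), dif_pos h1]
  have hcol' : ∀ ε : ↥(W ∪ W') → Bool, ∀ v ∈ W', col (W ∪ W') z' ε v =
      col W' z' (fun w : ↥W' => ε ⟨w.1, Finset.mem_union_right _ w.2⟩) v := by
    intro ε v hv
    rw [col_of_mem (Finset.mem_union_right _ hv), col_of_mem hv, hrep' v hv]
    have h1 := (rep_spec (hit_self (z := z') hv)).1
    unfold exB
    rw [dif_pos (Finset.mem_union_right _ h1), dif_pos h1]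
  unfold avg
  -- the product decomposition of the colourings
  let e : (↥(W ∪ W') → Bool) ≃ (↥W → Bool) × (↥W' → Bool) :=
    (Equiv.arrowCongr (Equiv.Finset.union W W' hdis).symm (Equiv.refl Bool)).trans
      (Equiv.sumArrowEquivProdArrow ↥W ↥W' Bool)
  have he1 : ∀ ε : ↥(W ∪ W') → Bool, (e ε).1 = fun w : ↥W => ε ⟨w.1, Finset.mem_union_left _ w.2⟩ := by
    intro ε
    rfl
  have he2 : ∀ ε : ↥(W ∪ W') → Bool, (e ε).2 = fun w : ↥W' => ε ⟨w.1, Finset.mem_union_right _ w.2⟩ := by
    intro ε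
    rfl
  have h1 : ∑ ε : ↥(W ∪ W') → Bool, (f s (col (W ∪ W') z' ε) z * g s (col (W ∪ W') z' ε) z) =
      ∑ p : (↥W → Bool) × (↥W' → Bool), f s (col W z' p.1) z * g s (col W' z' p.2) z := by
    rw [← Equiv.sum_comp e]
    refine Finset.sum_congr rfl fun ε _ => ?_
    rw [he1, he2, hf s (col (W ∪ W') z' ε) _ z (hcol ε), hg s (col (W ∪ W') z' ε) _ z (hcol' ε)]
  rw [h1, Fintype.sum_prod_type, Finset.card_union_of_disjoint hdis, pow_add]
  have h2 : ∑ x : ↥W → Bool, ∑ y : ↥W' → Bool, f s (col W z' x) z * g s (col W' z' y) z =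
      (∑ x : ↥W → Bool, f s (col W z' x) z) * ∑ y : ↥W' → Bool, g s (col W' z' y) z := by
    rw [Finset.sum_mul_sum]
  rw [h2, mul_inv]
  ring

open Classical in
/-- close everything inside `R` -/
def locO (R : Finset P2) (z : P2 → Bool) : P2 → Bool := fun t => if t ∈ R then true else z t

theorem oConn_of_locO {R : Finset P2} {z : P2 → Bool} {v w : P2} (h : OConn (locO R z) v w) :
    OConn z v w := by
  refine Relation.ReflTransGen.mono (fun a b hab => ?_) _ _ h
  obtain ⟨t, h1, h2, h3⟩ := hab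
  refine ⟨t, ?_, h2, h3⟩
  unfold locO at h1
  split_ifs at h1 with h4
  exact h1

/-- **open paths from outside do not enter the blocked ball** -/
theorem stay_out {M N : ℕ} {ω : Cfg} (h : Blk M N ω) {v : P2} (hv : ∀ t, v ∈ up t → t ∉ hexB N) {w : P2}
    (hw : OConn ω.2 v w) : OConn (locO (hexB M) ω.2) v w ∧
      (w = v ∨ ∃ t, w ∈ up t ∧ ω.2 t = false ∧ t ∈ Xs N ω) := by
  unfold OConn at hw
  induction hw with
  | refl => exact ⟨Relation.ReflTransGen.refl, Or.inl rfl⟩
  | @tail b d _ h2 ih =>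
    obtain ⟨t, h3, h4, h5⟩ := h2
    have h6 : t ∈ Xs N ω := by
      rcases ih.2 with h7 | ⟨t0, h7, h8, h9⟩
      · rw [h7] at h4
        exact xs_of_notMem ω (hv t h4)
      · rcases adj_of_share h7 h4 with h10 | h10
        · rwa [← h10]
        · refine xs_step h9 h10 fun h11 => ?_
          have := h11.1
          rw [h3] at this
          exact absurd this (by decide)
    have h7 : t ∉ hexB M := fun h8 => h t h8 h6
    refine ⟨Relation.ReflTransGen.tail ih.1 ⟨t, ?_, h4, h5⟩, Or.inr ⟨t, h5, h3, h6⟩⟩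
    unfold locO
    rw [if_neg h7, h3]

theorem hit_locO {W R : Finset P2} {z : P2 → Bool} (h : ∀ v ∈ W, ∀ w, OConn z v w → OConn (locO R z) v w)
    {v : P2} (hv : v ∈ W) : hit W z v = hit W (locO R z) v := by
  funext w
  unfold hit
  apply propext
  exact and_congr_right fun _ => ⟨fun h1 => h v hv w h1, fun h1 => oConn_of_locO h1⟩

theorem avg_locO {W R : Finset P2} {f : (P2 → Bool) → (P2 → Bool) → (P2 → Bool) → ℝ} (hf : DepA W f)
    {s z : P2 → Bool} (h : ∀ v ∈ W, ∀ w, OConn z v w → OConn (locO R z) v w) :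
    avg W f s z z = avg W f s z (locO R z) := by
  unfold avg
  congr 1
  refine Finset.sum_congr rfl fun ε _ => hf _ _ _ _ fun v hv => ?_
  rw [col_of_mem hv, col_of_mem hv]
  unfold Pst967.rep
  rw [hit_locO h hv]

theorem oConn_loc_end {R : Finset P2} {z : P2 → Bool} {v w : P2} (h : OConn (loc R z) v w) :
    w = v ∨ ∃ t ∈ R, w ∈ up t := by
  rcases Relation.ReflTransGen.cases_tail h with h1 | ⟨u, _, t, h2, _, h3⟩
  · exact Or.inl h1
  · refine Or.inr ⟨t, ?_, h3⟩
    by_contra h4
    unfold loc at h2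
    rw [if_neg h4] at h2
    exact absurd h2 (by decide)

theorem inTZ_avg {m N : ℕ} (hmN : m ≤ N) {W : Finset P2}
    (hW : ∀ v ∈ W, ∀ t, v ∈ up t → t ∈ hexB m)
    {f : (P2 → Bool) → (P2 → Bool) → (P2 → Bool) → ℝ} (hf : DepW W f) :
    InTZ (hexB N) (fun ω => avg W f (c1 ω) ω.2 (loc (hexB N) ω.2)) := by
  intro ω ω' h1 h2
  have e : loc (hexB N) ω.2 = loc (hexB N) ω'.2 := by
    funext t
    unfold loc
    by_cases ht : t ∈ hexB N
    · rw [if_pos ht, if_pos ht, h2 t ht]
    · rw [if_neg ht, if_neg ht]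
  unfold avg
  beta_reduce
  rw [e]
  congr 1
  refine Finset.sum_congr rfl fun ε _ => hf.dep _ _ _ _ _ _ (fun v hv => ?_) (fun _ _ => rfl)
    (fun v hv => ?_)
  · exact h1 v (mem_IV'.2 fun t ht => hexB_mono hmN (hW v hv t ht))
  · exact h2 v (hexB_mono hmN (hW v hv v (mem_up'.2 (Or.inl rfl))))

theorem offTZ_avg {N N4 : ℕ} (h34 : N ≤ N4) {W : Finset P2}
    (hW : ∀ v ∈ W, ∀ t, v ∈ up t → t ∉ hexB N4)
    {g : (P2 → Bool) → (P2 → Bool) → (P2 → Bool) → ℝ} (hg : DepW W g) :
    OffTZ (hexB N) (fun ω => avg W g (c1 ω) ω.2 (locO (hexB N) ω.2)) := by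
  intro ω ω' h1 h2
  have hv0 : ∀ v ∈ W, v ∉ hexB N := fun v hv h =>
    hW v hv v (mem_up'.2 (Or.inl rfl)) (hexB_mono h34 h)
  have e : locO (hexB N) ω.2 = locO (hexB N) ω'.2 := by
    funext t
    unfold locO
    by_cases ht : t ∈ hexB N
    · rw [if_pos ht, if_pos ht]
    · rw [if_neg ht, if_neg ht, h2 t ht]
  unfold avg
  beta_reduce
  rw [e]
  congr 1
  refine Finset.sum_congr rfl fun ε _ => hg.dep _ _ _ _ _ _ (fun v hv => ?_) (fun _ _ => rfl)
    (fun v hv => ?_)
  · exact h1 v fun h => hv0 v hv (IV_sub _ h)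
  · exact h2 v (hv0 v hv)

theorem E_sub_abs {c : ℝ} (hc : 1 ≤ c) {F : Finset P2} {f g k : Cfg → ℝ}
    (h : ∀ ω, |f ω - g ω| ≤ k ω) : |E c F f - E c F g| ≤ E c F k := by
  rw [← E_sub]
  exact E_abs_le hc h

theorem DepW.mul' {W W' : Finset P2} {f g : (P2 → Bool) → (P2 → Bool) → (P2 → Bool) → ℝ}
    (hf : DepW W f) (hg : DepW W' g) : DepW (W ∪ W') (fun s a z => f s a z * g s a z) :=
  ⟨fun s s' a a' z z' h1 h2 h3 => by
    show f s a z * g s a z = f s' a' z' * g s' a' z'
    rw [hf.dep s s' a a' z z' (fun v hv => h1 v (Finset.mem_union_left _ hv))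
      (fun v hv => h2 v (Finset.mem_union_left _ hv)) (fun v hv => h3 v (Finset.mem_union_left _ hv)),
      hg.dep s s' a a' z z' (fun v hv => h1 v (Finset.mem_union_right _ hv))
      (fun v hv => h2 v (Finset.mem_union_right _ hv))
      (fun v hv => h3 v (Finset.mem_union_right _ hv))]⟩

/-- **Decorrelation of observables of the colours and the triangles.** -/
theorem dec_col {c : ℝ} (hc : 1 ≤ c) (h3 : F3m c) {F : Finset P2} (hF : SC F) {m N1 N2 N3 N4 : ℕ}
    (h01 : m ≤ N1) (h12 : N1 ≤ N2) (h23 : N2 ≤ N3) (h34 : N3 ≤ N4) (hN : hexB N4 ⊆ F)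
    {W W' : Finset P2} (hWF : W' ⊆ VF F) (hW : ∀ v ∈ W, ∀ t, v ∈ up t → t ∈ hexB m)
    (hW' : ∀ v ∈ W', ∀ t, v ∈ up t → t ∉ hexB N4)
    {f g : (P2 → Bool) → (P2 → Bool) → (P2 → Bool) → ℝ} (hf : DepW W f) (hg : DepW W' g) {C D : ℝ}
    (hC : ∀ s a z, |f s a z| ≤ C) (hD : ∀ s a z, |g s a z| ≤ D) :
    |E c F (fun ω => f (c1 ω) (c2 ω) ω.2 * g (c1 ω) (c2 ω) ω.2) -
      E c F (fun ω => f (c1 ω) (c2 ω) ω.2) * E c F (fun ω => g (c1 ω) (c2 ω) ω.2)| ≤
      8 * C * D * (bt c m N1 + bt c (N1 + 1) N2 + bt c (N2 + 1) N3 + bt c N3 N4) := by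
  classical
  have hC0 : 0 ≤ C := (abs_nonneg _).trans (hC (fun _ => true) (fun _ => true) (fun _ => true))
  have hD0 : 0 ≤ D := (abs_nonneg _).trans (hD (fun _ => true) (fun _ => true) (fun _ => true))
  have hN1 : hexB N1 ⊆ F := (hexB_mono (h12.trans (h23.trans h34))).trans hN
  have hN3 : hexB N3 ⊆ F := (hexB_mono h34).trans hN
  have hWF0 : W ⊆ VF F := fun v hv => mem_VF'.2 (Or.inl
    (hN1 (hexB_mono h01 (hW v hv v (mem_up'.2 (Or.inl rfl))))))
  have e1 := E_avg hF hWF0 c hf.depA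
  have e2 := E_avg hF hWF c hg.depA
  have e3 := E_avg hF (Finset.union_subset hWF0 hWF) c (DepW.mul' hf hg).depA
  beta_reduce at e3
  rw [e1, e2, e3]
  set b1 := bt c m N1 with hb1
  set b2 := bt c (N1 + 1) N2 with hb2
  set b3 := bt c (N2 + 1) N3 with hb3
  set b4 := bt c N3 N4 with hb4
  have hb1' : 0 ≤ b1 := bt_nonneg hc _ _
  have hb2' : 0 ≤ b2 := bt_nonneg hc _ _
  have hb3' : 0 ≤ b3 := bt_nonneg hc _ _
  have hb4' : 0 ≤ b4 := bt_nonneg hc _ _
  set fl : Cfg → ℝ := fun ω => avg W f (c1 ω) ω.2 (loc (hexB N1) ω.2) with hfl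
  set gl : Cfg → ℝ := fun ω => avg W' g (c1 ω) ω.2 (locO (hexB N3) ω.2) with hgl
  have hflC : ∀ ω, |fl ω| ≤ C := fun ω => abs_avg_le hC _ _ _
  have hglD : ∀ ω, |gl ω| ≤ D := fun ω => abs_avg_le hD _ _ _
  have hstay : ∀ ω, Blk N3 N4 ω → ∀ v ∈ W', ∀ w, OConn ω.2 v w → OConn (locO (hexB N3) ω.2) v w :=
    fun ω hb v hv w hw => (stay_out hb (hW' v hv) hw).1
  have p1 : ∀ ω : Cfg, |avg W f (c1 ω) ω.2 ω.2 - fl ω| ≤ 2 * C * nBlk m N1 ω := by
    intro ω
    unfold nBlk
    split_ifs with hb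
    · rw [hfl, avg_loc hf.depA (stay_of_blk hb hW), sub_self, abs_zero, mul_zero]
    · rw [mul_one]
      refine (abs_sub _ _).trans ?_
      linarith [abs_avg_le hC (W := W) (c1 ω) ω.2 ω.2, hflC ω]
  have p2 : ∀ ω : Cfg, |avg W' g (c1 ω) ω.2 ω.2 - gl ω| ≤ 2 * D * nBlk N3 N4 ω := by
    intro ω
    unfold nBlk
    split_ifs with hb
    · rw [hgl, avg_locO hg.depA (hstay ω hb), sub_self, abs_zero, mul_zero]
    · rw [mul_one]
      refine (abs_sub _ _).trans ?_
      linarith [abs_avg_le hD (W := W') (c1 ω) ω.2 ω.2, hglD ω]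
  have p3 : ∀ ω : Cfg, |avg (W ∪ W') (fun s a z => f s a z * g s a z) (c1 ω) ω.2 ω.2 - fl ω * gl ω| ≤
      2 * C * D * (nBlk m N1 ω + nBlk N3 N4 ω) := by
    intro ω
    have hbd : |avg (W ∪ W') (fun s a z => f s a z * g s a z) (c1 ω) ω.2 ω.2 - fl ω * gl ω| ≤
        2 * C * D := by
      refine (abs_sub _ _).trans ?_
      have h5 : |avg (W ∪ W') (fun s a z => f s a z * g s a z) (c1 ω) ω.2 ω.2| ≤ C * D :=
        abs_avg_le (fun s a z => by
          rw [abs_mul]
          exact mul_le_mul (hC _ _ _) (hD _ _ _) (abs_nonneg _) hC0) _ _ _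
      have h6 : |fl ω * gl ω| ≤ C * D := by
        rw [abs_mul]
        exact mul_le_mul (hflC ω) (hglD ω) (abs_nonneg _) hC0
      linarith
    have hCD : 0 ≤ 2 * C * D := by positivity
    by_cases hb : Blk m N1 ω
    · by_cases hb' : Blk N3 N4 ω
      · have hd : ∀ v ∈ W, ∀ w ∈ W', ¬ OConn ω.2 v w := by
          intro v hv w hw hvw
          rcases oConn_loc_end (stay_of_blk hb hW v hv w hvw) with h4 | ⟨t, h4, h5⟩
          · refine hW' w hw w (mem_up'.2 (Or.inl rfl)) ?_
            rw [h4]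
            exact hexB_mono (h01.trans (h12.trans (h23.trans h34)))
              (hW v hv v (mem_up'.2 (Or.inl rfl)))
          · exact hW' w hw t h5 (hexB_mono (h12.trans (h23.trans h34)) h4)
        rw [avg_prod hf.depA hg.depA hd]
        have h6 : avg W f (c1 ω) ω.2 ω.2 = fl ω := avg_loc hf.depA (stay_of_blk hb hW)
        have h7 : avg W' g (c1 ω) ω.2 ω.2 = gl ω := avg_locO hg.depA (hstay ω hb')
        rw [h6, h7, sub_self, abs_zero]
        exact mul_nonneg hCD (add_nonneg (nBlk_nonneg _ _ _) (nBlk_nonneg _ _ _))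
      · have h4 : nBlk N3 N4 ω = 1 := if_neg hb'
        refine hbd.trans ?_
        rw [h4]
        nlinarith [nBlk_nonneg m N1 ω]
    · have h4 : nBlk m N1 ω = 1 := if_neg hb
      refine hbd.trans ?_
      rw [h4]
      nlinarith [nBlk_nonneg N3 N4 ω]
  have n1 : E c F (nBlk m N1) ≤ b1 := nBlk_le_bt hc hF hN1
  have n4 : E c F (nBlk N3 N4) ≤ b4 := nBlk_le_bt hc hF hN
  have q1 : |E c F (fun ω => avg W f (c1 ω) ω.2 ω.2) - E c F fl| ≤ 2 * C * b1 := by
    refine (E_sub_abs hc p1).trans ?_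
    rw [E_smul]
    exact mul_le_mul_of_nonneg_left n1 (by positivity)
  have q2 : |E c F (fun ω => avg W' g (c1 ω) ω.2 ω.2) - E c F gl| ≤ 2 * D * b4 := by
    refine (E_sub_abs hc p2).trans ?_
    rw [E_smul]
    exact mul_le_mul_of_nonneg_left n4 (by positivity)
  have q3 : |E c F (fun ω => avg (W ∪ W') (fun s a z => f s a z * g s a z) (c1 ω) ω.2 ω.2) -
      E c F (fun ω => fl ω * gl ω)| ≤ 2 * C * D * (b1 + b4) := by
    refine (E_sub_abs hc p3).trans ?_
    rw [E_smul, E_add]
    exact mul_le_mul_of_nonneg_left (add_le_add n1 n4) (by positivity)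
  have hin : InTZ (hexB N1) fl := inTZ_avg h01 hW hf
  have hoff : OffTZ (hexB N3) gl := offTZ_avg h34 hW' hg
  have q4 := dec_tz hc h3 hF (M1 := N2) hN3 hin hflC hoff hglD
  have q5 := dec_tz hc h3 hF (M1 := N2) hN3 hin hflC (g := fun _ => 1) (fun _ _ _ _ => rfl) (D := 1)
    (fun _ => by rw [abs_one])
  rw [E_const hc, one_mul, one_mul] at q5
  have e5 : (fun ω => (1 : ℝ) * fl ω) = fl := by funext ω; rw [one_mul]
  rw [e5] at q5
  have e6 : (fun ω => gl ω * fl ω) = fun ω => fl ω * gl ω := by funext ω; rw [mul_comm]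
  rw [e6] at q4
  set a := E c (hexB N2) (fun ω => fl (addH 2 ω)) with ha
  rw [← hb2, ← hb3] at q4 q5
  set X := E c F (fun ω => avg (W ∪ W') (fun s a z => f s a z * g s a z) (c1 ω) ω.2 ω.2) with hX
  set Y := E c F (fun ω => fl ω * gl ω) with hY
  set Ef := E c F (fun ω => avg W f (c1 ω) ω.2 ω.2) with hEf
  set Eg := E c F (fun ω => avg W' g (c1 ω) ω.2 ω.2) with hEg
  have r1 : |E c F fl| ≤ C := by
    refine (E_abs_le hc hflC).trans ?_
    rw [E_const hc]
  have r2 : |E c F gl| ≤ D := by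
    refine (E_abs_le hc hglD).trans ?_
    rw [E_const hc]
  have r3 : |Eg| ≤ D := by
    refine (E_abs_le hc (g := fun _ => D) fun ω => abs_avg_le hD _ _ _).trans ?_
    rw [E_const hc]
  have s1 : |E c F gl * a - E c F gl * E c F fl| ≤ D * (4 * C * b2 + 2 * C * b3) := by
    rw [← mul_sub, abs_mul, abs_sub_comm a]
    exact mul_le_mul r2 q5 (abs_nonneg _) hD0
  have s2 : |E c F gl * E c F fl - Ef * Eg| ≤ C * (2 * D * b4) + D * (2 * C * b1) := by
    have h4 : E c F gl * E c F fl - Ef * Eg = -(E c F fl * (Eg - E c F gl)) - Eg * (Ef - E c F fl) := by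
      ring
    rw [h4]
    refine (abs_sub _ _).trans ?_
    rw [abs_neg, abs_mul, abs_mul]
    exact add_le_add (mul_le_mul r1 q2 (abs_nonneg _) hC0) (mul_le_mul r3 q1 (abs_nonneg _) hD0)
  have t1 : X - Ef * Eg = (X - Y) + (Y - E c F gl * a) + (E c F gl * a - E c F gl * E c F fl) +
      (E c F gl * E c F fl - Ef * Eg) := by ring
  rw [t1]
  have t2 := abs_add_le ((X - Y) + (Y - E c F gl * a) + (E c F gl * a - E c F gl * E c F fl))
    (E c F gl * E c F fl - Ef * Eg)
  have t3 := abs_add_le ((X - Y) + (Y - E c F gl * a)) (E c F gl * a - E c F gl * E c F fl)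
  have t4 := abs_add_le (X - Y) (Y - E c F gl * a)
  have hCD : 0 ≤ C * D := by positivity
  have u1 := mul_nonneg hCD hb1'
  have u2 := mul_nonneg hCD hb2'
  have u3 := mul_nonneg hCD hb3'
  have u4 := mul_nonneg hCD hb4'
  nlinarith [u1, u2, u3, u4]

end Crest.Agent.R144.Mix880
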