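import Crest.Agent.R144.Mix4_880
import Crest.Agent.R144.Pst11_967
import Crest.Agent.R144.Rsw0_867

/-!
# R144, mixing (helper880), part 5: gradient observables, plane law

* `cov_F` : covariance of a gradient observable in `hexB m` and one off `hexB (N4 + 1)` under `E c F`;
* `cov_P` : the same for the plane law; `cov_ball` : any centre;
* `bt_le`, `four_scales` : power rate from `RSW c K p`.
-/

set_option autoImplicit false

noncomputable section

namespace Crest.Agent.R144.Mix880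

open Finset Filter Topology MeasureTheory
open Crest.Agent.R144.It844 (P2 Lip adj_symm adj_iff adj_comm ex)
open Crest.ProbabilityR.HexHeights (Adj)
open Crest.Agent.R144.Zg349 Crest.Agent.R144.Zk349 Crest.Agent.R144.Zd349 Crest.Agent.R144.Zm349
open Crest.Agent.R144.Ze349 Crest.Agent.R144.Zf349
open Crest.Agent.R144.Pst967 (Hz hexB mem_hexB hexB_mono Bs Blk nBlk nBlk_nonneg nBlk_le incP_nBlk
  conn_hexB hexB_mem_scs DepW LocZ NeutZ GObs FLim lC mem_lC scs cls_scs mem_lC_of_subset c1 c2 subset_VF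
  conn_in_hexB path_symm gobs_bounded integrable_gobs PinnedZ ZeroLim trE sym_trE actZ XStep Xs
  exists_kernel)

/-! ### gradient observables on connected windows -/

theorem grad_of_colours_on {W : Finset P2} (hW : IsConn (W : Set P2)) {h h' : Hz} (hl : Lip h)
    (hl' : Lip h') (h1 : ∀ v ∈ W, s1 (h v) = s1 (h' v)) (h2 : ∀ v ∈ W, s2 (h v) = s2 (h' v)) {v w : P2}
    (hv : v ∈ W) (hw : w ∈ W) : h v - h' v = h w - h' w := by
  have key : ∀ w, Relation.ReflTransGen (StepIn (W : Set P2)) v w → h v - h' v = h w - h' w := by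
    intro w hw
    induction hw with
    | refl => rfl
    | @tail a b _ h3 ih =>
      rw [ih]
      have e1 := hl a b h3.2.2
      have e2 := hl' a b h3.2.2
      have m1 := mod4_of_s (h1 a h3.1) (h2 a h3.1)
      have m2 := mod4_of_s (h1 b h3.2.1) (h2 b h3.2.1)
      rw [abs_le] at e1 e2
      omega
  exact key w (hW v hv w hw)

theorem exists_colour_on {W : Finset P2} (hW : IsConn (W : Set P2)) {f : Hz → ℝ}
    (hS : LocZ (W : Set P2) f) (hN : NeutZ f) {C : ℝ} (hC : ∀ h, Lip h → |f h| ≤ C) :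
    ∃ g : (P2 → Bool) → (P2 → Bool) → (P2 → Bool) → ℝ, DepW W g ∧ (∀ s a z, |g s a z| ≤ C) ∧
      ∀ h : Hz, Lip h → ∀ z, g (fun v => s1 (h v)) (fun v => s2 (h v)) z = f h := by
  classical
  have hC0 : 0 ≤ C := (abs_nonneg _).trans (hC (fun _ => 0) (Crest.Agent.R144.It844.lip_const 0))
  let Q : (P2 → Bool) → (P2 → Bool) → Hz → Prop := fun s a h =>
    Lip h ∧ (∀ v ∈ W, s1 (h v) = s v) ∧ ∀ v ∈ W, s2 (h v) = a v
  let g : (P2 → Bool) → (P2 → Bool) → (P2 → Bool) → ℝ := fun s a _ =>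
    if hh : ∃ h, Q s a h then f (Classical.choose hh) else 0
  have hval : ∀ s a z h, Q s a h → g s a z = f h := by
    intro s a z h hQ
    have hh : ∃ h, Q s a h := ⟨h, hQ⟩
    have h1 : g s a z = f (Classical.choose hh) := dif_pos hh
    rw [h1]
    have h2 := Classical.choose_spec hh
    set k := Classical.choose hh
    rcases W.eq_empty_or_nonempty with h0 | ⟨w, hw⟩
    · exact hS _ _ fun v hv => by rw [h0] at hv; simp at hv
    · have h3 : ∀ v ∈ W, k v - h v = k w - h w := fun v hv =>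
        grad_of_colours_on hW h2.1 hQ.1 (fun v hv => (h2.2.1 v hv).trans (hQ.2.1 v hv).symm)
          (fun v hv => (h2.2.2 v hv).trans (hQ.2.2 v hv).symm) hv hw
      rw [← hN h (k w - h w)]
      refine hS _ _ fun v hv => ?_
      have := h3 v hv
      omega
  refine ⟨g, ⟨fun s s' a a' z z' e1 e2 _ => ?_⟩, fun s a z => ?_, fun h hl z =>
    hval _ _ z h ⟨hl, fun _ _ => rfl, fun _ _ => rfl⟩⟩
  · by_cases hh : ∃ h, Q s a h
    · obtain ⟨h, hQ⟩ := hh
      have hQ' : Q s' a' h := ⟨hQ.1, fun v hv => (hQ.2.1 v hv).trans (e1 v hv),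
        fun v hv => (hQ.2.2 v hv).trans (e2 v hv)⟩
      rw [hval s a z h hQ, hval s' a' z' h hQ']
    · have hh' : ¬ ∃ h, Q s' a' h := by
        rintro ⟨h, hQ⟩
        exact hh ⟨h, hQ.1, fun v hv => (hQ.2.1 v hv).trans (e1 v hv).symm,
          fun v hv => (hQ.2.2 v hv).trans (e2 v hv).symm⟩
      simp only [g, dif_neg hh, dif_neg hh']
  · by_cases hh : ∃ h, Q s a h
    · have h1 : g s a z = f (Classical.choose hh) := dif_pos hh
      rw [h1]
      exact hC _ (Classical.choose_spec hh).1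
    · have h1 : g s a z = 0 := dif_neg hh
      rw [h1, abs_zero]
      exact hC0

theorem isConn_hexB (n : ℕ) : IsConn (hexB n : Set P2) := fun _ hu _ hv =>
  (conn_in_hexB n hu).trans (path_symm (conn_in_hexB n hv))

/-- a finite set in a connected set is contained in a finite connected subset -/
theorem exists_conn_cover {S : Set P2} (hS : IsConn S) (T : Finset P2) (hT : (T : Set P2) ⊆ S) :
    ∃ W : Finset P2, (W : Set P2) ⊆ S ∧ T ⊆ W ∧ IsConn (W : Set P2) := by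
  classical
  induction T using Finset.induction_on with
  | empty => exact ⟨∅, by simp, by simp, fun u hu => by simp at hu⟩
  | insert a T ha ih =>
    obtain ⟨W, h1, h2, h3⟩ := ih fun x hx => hT (by
      rw [Finset.coe_insert]; exact Or.inr hx)
    have haS : a ∈ S := hT (by rw [Finset.coe_insert]; exact Or.inl rfl)
    rcases W.eq_empty_or_nonempty with h0 | ⟨w, hw⟩
    · refine ⟨{a}, by simpa using haS, ?_, ?_⟩
      · rw [h0, Finset.subset_empty] at h2
        rw [h2]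
        simp
      · intro u hu v hv
        rw [Finset.coe_singleton, Set.mem_singleton_iff] at hu hv
        rw [hu, hv]
    · obtain ⟨P, hP, haP, hwP, hp⟩ := path_finset haS (hS a haS w (h1 hw))
      -- every element of `P` should be joined to `a` inside `P`: take the reachable part
      let R : Finset P2 := P.filter fun x => Relation.ReflTransGen (StepIn (P : Set P2)) a x
      have hR : ∀ x ∈ R, Relation.ReflTransGen (StepIn ((W ∪ R : Finset P2) : Set P2)) a x := by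
        intro x hx
        have hx' := (Finset.mem_filter.1 hx).2
        have key : ∀ y, Relation.ReflTransGen (StepIn (P : Set P2)) a y →
            Relation.ReflTransGen (StepIn ((W ∪ R : Finset P2) : Set P2)) a y := by
          intro y hy
          induction hy with
          | refl => exact Relation.ReflTransGen.refl
          | @tail b d hb hbd ih2 =>
            refine ih2.tail ⟨?_, ?_, hbd.2.2⟩
            · exact Finset.mem_coe.2 (Finset.mem_union_right _ (Finset.mem_filter.2 ⟨hbd.1, hb⟩))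
            · exact Finset.mem_coe.2 (Finset.mem_union_right _
                (Finset.mem_filter.2 ⟨hbd.2.1, hb.tail hbd⟩))
        exact key x hx'
      have hwR : w ∈ R := Finset.mem_filter.2 ⟨hwP, hp⟩
      have haR : a ∈ R := Finset.mem_filter.2 ⟨haP, Relation.ReflTransGen.refl⟩
      have hmono : ∀ u v, Relation.ReflTransGen (StepIn (W : Set P2)) u v →
          Relation.ReflTransGen (StepIn ((W ∪ R : Finset P2) : Set P2)) u v := fun u v h =>
        Relation.ReflTransGen.mono (fun x y hxy =>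
          ⟨Finset.mem_coe.2 (Finset.mem_union_left _ (Finset.mem_coe.1 hxy.1)),
            Finset.mem_coe.2 (Finset.mem_union_left _ (Finset.mem_coe.1 hxy.2.1)), hxy.2.2⟩) _ _ h
      have hall : ∀ u ∈ W ∪ R, Relation.ReflTransGen (StepIn ((W ∪ R : Finset P2) : Set P2)) a u := by
        intro u hu
        rcases Finset.mem_union.1 hu with hu | hu
        · exact (hR w hwR).trans (hmono _ _ (h3 w hw u hu))
        · exact hR u hu
      refine ⟨W ∪ R, ?_, ?_, fun u hu v hv => ?_⟩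
      · rw [Finset.coe_union]
        exact Set.union_subset h1 fun x hx => hP (Finset.mem_coe.2
          (Finset.mem_filter.1 (Finset.mem_coe.1 hx)).1)
      · intro x hx
        rcases Finset.mem_insert.1 hx with rfl | hx
        · exact Finset.mem_union_right _ haR
        · exact Finset.mem_union_left _ (h2 hx)
      · exact (path_symm (hall u hu)).trans (hall v hv)

theorem tri_in {m : ℕ} {v : P2} (hv : v ∈ hexB m) {t : P2} (ht : v ∈ up t) : t ∈ hexB (m + 1) := by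
  rw [mem_up'] at ht
  rw [mem_hexB] at hv ⊢
  simp only [abs_le] at *
  push_cast
  rcases ht with rfl | rfl | rfl
  · omega
  · simp only at *
    omega
  · simp only at *
    omega

theorem tri_out {m : ℕ} {v : P2} (hv : v ∉ hexB (m + 1)) {t : P2} (ht : v ∈ up t) : t ∉ hexB m := by
  intro h
  apply hv
  rw [mem_up'] at ht
  rw [mem_hexB] at h ⊢
  simp only [abs_le] at *
  push_cast
  rcases ht with rfl | rfl | rfl
  · omega
  · simp only at *
    omega
  · simp only at *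
    omega

/-- the total rate -/
def rt (c : ℝ) (m N1 N2 N3 N4 : ℕ) : ℝ :=
  bt c m N1 + bt c (N1 + 1) N2 + bt c (N2 + 1) N3 + bt c N3 N4

/-- **Covariance under the F-type laws.** -/
theorem cov_F {c : ℝ} (hc : 1 ≤ c) (h3 : F3m c) {F : Finset P2} (hF : SC F) {m N1 N2 N3 N4 : ℕ}
    (h01 : m + 1 ≤ N1) (h12 : N1 ≤ N2) (h23 : N2 ≤ N3) (h34 : N3 ≤ N4) (hN : hexB N4 ⊆ F)
    {W' : Finset P2} (hWc : IsConn (W' : Set P2)) (hWF : W' ⊆ VF F)
    (hW' : ∀ v ∈ W', v ∉ hexB (N4 + 1)) {f g : Hz → ℝ} (hf : LocZ (hexB m : Set P2) f)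
    (hfN : NeutZ f) (hg : LocZ (W' : Set P2) g) (hgN : NeutZ g) {C D : ℝ}
    (hC : ∀ h, Lip h → |f h| ≤ C) (hD : ∀ h, Lip h → |g h| ≤ D) :
    |E c F (fun ω => f ω.1 * g ω.1) - E c F (fun ω => f ω.1) * E c F (fun ω => g ω.1)| ≤
      8 * C * D * rt c (m + 1) N1 N2 N3 N4 := by
  obtain ⟨φ, p1, p2, p3⟩ := exists_colour_on (isConn_hexB m) hf hfN hC
  obtain ⟨γ, q1, q2, q3⟩ := exists_colour_on hWc hg hgN hD
  have h1 := dec_col hc h3 hF h01 h12 h23 h34 hN hWF (fun v hv t ht => tri_in hv ht)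
    (fun v hv t ht => tri_out (hW' v hv) ht) p1 q1 p2 q2
  have e1 : E c F (fun ω => φ (c1 ω) (c2 ω) ω.2) = E c F (fun ω => f ω.1) :=
    E_congr fun ω hω => p3 ω.1 hω.ht.toLip ω.2
  have e2 : E c F (fun ω => γ (c1 ω) (c2 ω) ω.2) = E c F (fun ω => g ω.1) :=
    E_congr fun ω hω => q3 ω.1 hω.ht.toLip ω.2
  have e3 : E c F (fun ω => φ (c1 ω) (c2 ω) ω.2 * γ (c1 ω) (c2 ω) ω.2) =
      E c F (fun ω => f ω.1 * g ω.1) :=
    E_congr fun ω hω => by
      have a1 := p3 ω.1 hω.ht.toLip ω.2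
      have a2 := q3 ω.1 hω.ht.toLip ω.2
      show φ (fun v => s1 (ω.1 v)) (fun v => s2 (ω.1 v)) ω.2 *
        γ (fun v => s1 (ω.1 v)) (fun v => s2 (ω.1 v)) ω.2 = _
      rw [a1, a2]
  rw [e1, e2, e3] at h1
  exact h1

/-- **Covariance under the plane law.** -/
theorem cov_P {c : ℝ} (hc : 1 ≤ c) (h3 : F3m c) {P : Measure Hz}
    (hP : ∀ f : Hz → ℝ, GObs f → FLim c f (∫ h, f h ∂P)) {m N1 N2 N3 N4 : ℕ}
    (h01 : m + 1 ≤ N1) (h12 : N1 ≤ N2) (h23 : N2 ≤ N3) (h34 : N3 ≤ N4) {S : Finset P2}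
    (hS : ∀ v ∈ S, v ∉ hexB (N4 + 1)) {f g : Hz → ℝ} (hf : LocZ (hexB m : Set P2) f)
    (hfN : NeutZ f) (hg : LocZ (S : Set P2) g) (hgN : NeutZ g) {C D : ℝ}
    (hC : ∀ h, Lip h → |f h| ≤ C) (hD : ∀ h, Lip h → |g h| ≤ D) :
    |∫ h, f h * g h ∂P - (∫ h, f h ∂P) * ∫ h, g h ∂P| ≤ 8 * C * D * rt c (m + 1) N1 N2 N3 N4 := by
  have hne := cls_scs.neBot
  obtain ⟨W, hW1, hW2, hW3⟩ := exists_conn_cover (conn_hexB (N4 + 1)) S
    (fun v hv => by
      rw [Set.mem_compl_iff, Finset.mem_coe]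
      exact hS v hv)
  have hfG : GObs f := ⟨⟨_, hf⟩, hfN⟩
  have hgG : GObs g := ⟨⟨_, hg⟩, hgN⟩
  have hfgG : GObs (fun h => f h * g h) := hfG.map₂ hgG (fun a b => a * b)
  have t1 := hP _ hfgG
  have t2 := hP _ hfG
  have t3 := hP _ hgG
  unfold FLim at t1 t2 t3
  have t4 := (t1.sub (t2.mul t3)).abs
  refine le_of_tendsto t4 ?_
  filter_upwards [mem_lC_of_subset W, mem_lC_of_subset (hexB N4),
    mem_inf_of_right (mem_principal_self scs)] with F k1 k2 k3
  exact cov_F hc h3 k3 h01 h12 h23 h34 k2 hW3 (subset_VF k1)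
    (fun v hv => by
      have := hW1 (Finset.mem_coe.2 hv)
      rwa [Set.mem_compl_iff, Finset.mem_coe] at this) hf hfN
    (hg.mono fun v hv => Finset.mem_coe.2 (hW2 (Finset.mem_coe.1 hv))) hgN hC hD

/-! ### rates -/

theorem blk_anti967 {m N N' : ℕ} (h : N ≤ N') {ω : Cfg} (hb : Blk m N ω) : Blk m N' ω := by
  rintro t ht ⟨t0, h1, h2⟩
  exact hb t ht ⟨t0, fun h3 => h1 (hexB_mono h h3), h2⟩

theorem nBlk_anti {m N N' : ℕ} (h : N ≤ N') (ω : Cfg) : nBlk m N' ω ≤ nBlk m N ω := by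
  unfold nBlk
  split_ifs with h1 h2 h2
  · exact le_rfl
  · norm_num
  · exact absurd (blk_anti967 h h2) h1
  · exact le_rfl

theorem nBlk_le_ind {m N : ℕ} (hmN : m ≤ N + 1) (ω : Cfg) :
    nBlk m (N + 1) ω ≤ Rsw867.ind (Rsw867.Blk 0 m N)ᶜ ω := by
  by_cases h : ω ∈ Rsw867.Blk 0 m N
  · have hb : Blk m (N + 1) ω := by
      rintro t ht ⟨t0, h1, h2⟩
      have key : ∀ t, Relation.ReflTransGen (XStep ω) t0 t → t = t0 ∨ (¬ mC ω t ∧
          ∃ u, u ∉ Rsw867.ball 0 N ∧ Relation.ReflTransGen (StepIn {t | mC ω t}ᶜ) u t) := by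
        intro t ht
        induction ht with
        | refl => exact Or.inl rfl
        | @tail b d _ h4 ih =>
          right
          refine ⟨h4.2, ?_⟩
          rcases ih with rfl | ⟨h5, u, h6, h7⟩
          · refine ⟨d, fun h5 => h1 ?_, Relation.ReflTransGen.refl⟩
            rw [Rsw867.ball_zero_eq] at h5
            exact adj_hexB h5 (adj_symm h4.1)
          · exact ⟨u, h6, h7.tail ⟨h5, h4.2, h4.1⟩⟩
      rcases key t h2 with rfl | ⟨_, u, h6, h7⟩
      · exact h1 (hexB_mono hmN ht)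
      · exact h u t h6 (by rw [Rsw867.ball_zero_eq]; exact ht) h7
    have h0 : nBlk m (N + 1) ω = 0 := if_pos hb
    rw [h0]
    exact Rsw867.ind_nonneg _ _
  · rw [Rsw867.ind_of_mem (show ω ∈ (Rsw867.Blk 0 m N)ᶜ from h)]
    exact nBlk_le _ _ _

theorem bt_le_one {c : ℝ} (hc : 1 ≤ c) (m N : ℕ) : bt c m N ≤ 1 := by
  unfold bt
  rw [← E_const hc (hexB N) 1]
  exact E_mono hc fun ω _ => nBlk_le _ _ _

theorem bt_decay {c : ℝ} (hc : 1 ≤ c) {K : ℕ} {p : ℝ} (h : Rsw867.RSW c K p) :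
    ∃ C α : ℝ, 1 ≤ C ∧ 0 < α ∧ ∀ m N : ℕ, 1 ≤ m → 1 ≤ N → bt c m N ≤ C * ((m : ℝ) / N) ^ α := by
  obtain ⟨C, α, hC, hα, hd⟩ := h.decay hc
  have hK : (4 : ℝ) ≤ K := by exact_mod_cast h.K4
  have hK1 : 1 ≤ K := le_trans (by norm_num) h.K4
  refine ⟨C * (2 * K) ^ α, α, ?_, hα, fun m N hm hN => ?_⟩
  · have : (1 : ℝ) ≤ (2 * K) ^ α := Real.one_le_rpow (by linarith) hα.le
    nlinarith
  have hm' : (1 : ℝ) ≤ m := by exact_mod_cast hm
  have hN' : (1 : ℝ) ≤ N := by exact_mod_cast hN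
  have hrew : C * (2 * K : ℝ) ^ α * ((m : ℝ) / N) ^ α = C * (2 * K * (m / N)) ^ α := by
    rw [mul_assoc, ← Real.mul_rpow (by positivity) (by positivity)]
  rw [hrew]
  by_cases hbig : (1 : ℝ) ≤ 2 * K * (m / N)
  · refine (bt_le_one hc m N).trans ?_
    have : (1 : ℝ) ≤ (2 * K * (m / N)) ^ α := Real.one_le_rpow hbig hα.le
    nlinarith
  · push Not at hbig
    have h1 : (2 * K * m : ℝ) < N := by
      have h2 : (2 * K * (m / N) : ℝ) = 2 * K * m / N := by ring
      rw [h2, div_lt_one (by linarith)] at hbig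
      exact hbig
    have h1' : 2 * K * m < N := by exact_mod_cast h1
    set N' := (N - 1) / K with hN'def
    have hK0 : 0 < K := hK1
    have a1 : K * N' ≤ N - 1 := Nat.mul_div_le _ _
    have a2 : N - 1 < K * (N' + 1) := by
      have := Nat.lt_mul_div_succ (N - 1) hK0
      exact this
    have a3 : 2 * m ≤ N' + 1 := by
      by_contra h4
      push Not at h4
      have h5 : K * (N' + 1) ≤ K * (2 * m - 1) := Nat.mul_le_mul_left _ (by omega)
      have h6 : K * (2 * m - 1) + K = 2 * K * m := by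
        obtain ⟨k, rfl⟩ : ∃ k, m = k + 1 := ⟨m - 1, by omega⟩
        have : 2 * (k + 1) - 1 = 2 * k + 1 := by omega
        rw [this]
        ring
      omega
    have a4 : 1 ≤ N' := by omega
    have a5 : N' + 1 ≤ N := by
      have : 4 * N' ≤ K * N' := Nat.mul_le_mul_right _ h.K4
      omega
    have b1 : bt c m N ≤ E c (hexB N) (Rsw867.ind (Rsw867.Blk 0 m N')ᶜ) := by
      unfold bt
      exact E_mono hc fun ω _ => (nBlk_anti a5 ω).trans (nBlk_le_ind (by omega) ω)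
    have hsub : Rsw867.ball 0 (K * N') ⊆ hexB N := by
      rw [Rsw867.ball_zero_eq]
      exact hexB_mono (by omega)
    have b2 := hd m N' hm a4 0 (hexB N) (conn_hexB N) hsub (fun _ => 1) (fun _ => zero_le_one)
      (Rsw867.offTZ_one _)
    rw [E_const hc, mul_one] at b2
    simp only [one_mul] at b2
    refine b1.trans (b2.trans ?_)
    refine mul_le_mul_of_nonneg_left ?_ (by linarith)
    refine Real.rpow_le_rpow (by positivity) ?_ hα.le
    have a6 : (N : ℝ) ≤ 2 * K * N' := by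
      have h7 : N ≤ K * (N' + 1) := by omega
      have h8 : K * (N' + 1) ≤ 2 * K * N' := by nlinarith
      exact_mod_cast h7.trans h8
    have hN'0 : (0 : ℝ) < N' := by exact_mod_cast a4
    rw [div_le_iff₀ hN'0]
    have : (2 * K * (m / N) * N' : ℝ) = m * (2 * K * N' / N) := by ring
    rw [this]
    have h9 : (1 : ℝ) ≤ 2 * K * N' / N := by rwa [one_le_div (by linarith)]
    nlinarith

theorem four_scales {c C α : ℝ} (hC : 1 ≤ C) (hα : 0 < α)
    (h : ∀ m N : ℕ, 1 ≤ m → 1 ≤ N → bt c m N ≤ C * ((m : ℝ) / N) ^ α) {M N : ℕ} (hM : 1 ≤ M)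
    (hMN : M ≤ N) : ∃ N1 N2 N3 : ℕ, M ≤ N1 ∧ N1 ≤ N2 ∧ N2 ≤ N3 ∧ N3 ≤ N ∧
      rt c M N1 N2 N3 N ≤ 4 * C * 4 ^ α * ((M : ℝ) / N) ^ (α / 4) := by
  have hM' : (1 : ℝ) ≤ M := by exact_mod_cast hM
  have hN1 : 1 ≤ N := hM.trans hMN
  have hN' : (1 : ℝ) ≤ N := by exact_mod_cast hN1
  have hMN' : (M : ℝ) ≤ N := by exact_mod_cast hMN
  set r : ℝ := ((N : ℝ) / M) ^ (1 / 4 : ℝ) with hr
  have hNM : (1 : ℝ) ≤ (N : ℝ) / M := (one_le_div (by linarith)).2 hMN'
  have hr1 : 1 ≤ r := Real.one_le_rpow hNM (by norm_num)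
  have hr4 : r ^ 4 = (N : ℝ) / M := by
    rw [hr, ← Real.rpow_natCast, ← Real.rpow_mul (by positivity)]
    norm_num
  set q := ⌊r⌋₊ with hq
  have hq1 : 1 ≤ q := (Nat.one_le_floor_iff r).2 hr1
  have hq1' : (1 : ℝ) ≤ q := by exact_mod_cast hq1
  have hqr : (q : ℝ) ≤ r := Nat.floor_le (by linarith)
  have hrq : r < q + 1 := Nat.lt_floor_add_one r
  have hq4 : (M : ℝ) * q ^ 4 ≤ N := by
    have h1 : (q : ℝ) ^ 4 ≤ r ^ 4 := pow_le_pow_left₀ (by linarith) hqr 4
    rw [hr4] at h1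
    have h2 := mul_le_mul_of_nonneg_left h1 (by linarith : (0 : ℝ) ≤ M)
    rwa [mul_div_cancel₀ _ (by linarith : (M : ℝ) ≠ 0)] at h2
  have hq4' : M * q ^ 4 ≤ N := by exact_mod_cast hq4
  have e1 : M ≤ M * q := Nat.le_mul_of_pos_right _ hq1
  have e2 : M * q ≤ M * q ^ 2 := by
    rw [pow_two, ← mul_assoc]
    exact Nat.le_mul_of_pos_right _ hq1
  have e3 : M * q ^ 2 ≤ M * q ^ 3 := by
    rw [pow_succ q 2, ← mul_assoc]
    exact Nat.le_mul_of_pos_right _ hq1
  have e4 : M * q ^ 3 ≤ N := by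
    refine le_trans ?_ hq4'
    rw [pow_succ q 3, ← mul_assoc]
    exact Nat.le_mul_of_pos_right _ hq1
  refine ⟨M * q, M * q ^ 2, M * q ^ 3, e1, e2, e3, e4, ?_⟩
  have hb : ∀ x : ℝ, 0 ≤ x → x ≤ 2 / q → C * x ^ α ≤ C * 4 ^ α * ((M : ℝ) / N) ^ (α / 4) := by
    intro x hx0 hx
    rw [mul_assoc]
    refine mul_le_mul_of_nonneg_left ?_ (by linarith)
    have h1 : x ≤ 4 * r⁻¹ := by
      refine hx.trans ?_
      rw [div_le_iff₀ (by linarith)]
      have : (4 * r⁻¹ * q : ℝ) = 4 * (q / r) := by ring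
      rw [this]
      have h2 : (1 / 2 : ℝ) ≤ q / r := by
        rw [div_le_div_iff₀ (by norm_num) (by linarith)]
        linarith
      linarith
    refine (Real.rpow_le_rpow hx0 h1 hα.le).trans ?_
    rw [Real.mul_rpow (by norm_num) (by positivity)]
    refine mul_le_mul_of_nonneg_left ?_ (by positivity)
    have h3 : r⁻¹ = ((M : ℝ) / N) ^ (1 / 4 : ℝ) := by
      rw [hr, ← Real.inv_rpow (by positivity), inv_div]
    rw [h3, ← Real.rpow_mul (by positivity)]
    have : (1 / 4 : ℝ) * α = α / 4 := by ring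
    rw [this]
  have hMq : (0 : ℝ) < M * q := by positivity
  have g1 : bt c M (M * q) ≤ C * 4 ^ α * ((M : ℝ) / N) ^ (α / 4) := by
    refine (h M (M * q) hM (by omega)).trans (hb _ (by positivity) ?_)
    push_cast
    rw [div_le_div_iff₀ hMq (by linarith)]
    nlinarith
  have g2 : bt c (M * q + 1) (M * q ^ 2) ≤ C * 4 ^ α * ((M : ℝ) / N) ^ (α / 4) := by
    refine (h _ _ (by omega) (by omega)).trans (hb _ (by positivity) ?_)
    push_cast
    rw [div_le_div_iff₀ (by positivity) (by linarith)]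
    nlinarith
  have g3 : bt c (M * q ^ 2 + 1) (M * q ^ 3) ≤ C * 4 ^ α * ((M : ℝ) / N) ^ (α / 4) := by
    refine (h _ _ (by omega) (by omega)).trans (hb _ (by positivity) ?_)
    push_cast
    rw [div_le_div_iff₀ (by positivity) (by linarith)]
    have h5 : (1 : ℝ) ≤ M * q ^ 2 := by
      have : (1 : ℝ) ≤ (q : ℝ) ^ 2 := one_le_pow₀ hq1'
      nlinarith
    nlinarith [mul_le_mul_of_nonneg_right h5 (by linarith : (0 : ℝ) ≤ q)]
  have g4 : bt c (M * q ^ 3) N ≤ C * 4 ^ α * ((M : ℝ) / N) ^ (α / 4) := by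
    refine (h _ _ (by omega) hN1).trans (hb _ (by positivity) ?_)
    push_cast
    rw [div_le_div_iff₀ (by linarith) (by linarith)]
    nlinarith
  unfold rt
  linarith

/-- **MIXING OF THE PLANE LAW** with a power rate, balls with any centre. -/
theorem cov_ball {c x : ℝ} (hc : 1 ≤ c) (h3 : F3m c) {K : ℕ} {p : ℝ} (hR : Rsw867.RSW c K p)
    {P : Measure Hz} (hZ : PinnedZ P) (hL : ZeroLim x scs P)
    (hP : ∀ f : Hz → ℝ, GObs f → FLim c f (∫ h, f h ∂P)) :
    ∃ C α : ℝ, 1 ≤ C ∧ 0 < α ∧ ∀ (a : P2) (m N : ℕ), 1 ≤ m → 1 ≤ N → ∀ S : Finset P2,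
      (∀ v ∈ S, v ∉ Rsw867.ball a N) → ∀ f g : Hz → ℝ, LocZ (Rsw867.ball a m : Set P2) f → NeutZ f →
      LocZ (S : Set P2) g → NeutZ g → ∀ A B : ℝ, (∀ h, Lip h → |f h| ≤ A) →
      (∀ h, Lip h → |g h| ≤ B) →
      |∫ h, f h * g h ∂P - (∫ h, f h ∂P) * ∫ h, g h ∂P| ≤ C * ((m : ℝ) / N) ^ α * A * B := by
  obtain ⟨C0, α0, hC0, hα0, hbt⟩ := bt_decay hc hR
  have hpr := hZ.prob
  refine ⟨32 * C0 * 4 ^ α0 * 4 ^ (α0 / 4), α0 / 4, ?_, by positivity,
    fun a m N hm hN S hS f g hf hfN hg hgN A B hA hB => ?_⟩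
  · have e1 : (1 : ℝ) ≤ 4 ^ α0 := Real.one_le_rpow (by norm_num) hα0.le
    have e2 : (1 : ℝ) ≤ 4 ^ (α0 / 4) := Real.one_le_rpow (by norm_num) (by positivity)
    have e3 : (1 : ℝ) ≤ 32 * C0 * 4 ^ α0 := by nlinarith
    nlinarith
  have hA0 : 0 ≤ A := (abs_nonneg _).trans (hA (fun _ => 0) (Crest.Agent.R144.It844.lip_const 0))
  have hB0 : 0 ≤ B := (abs_nonneg _).trans (hB (fun _ => 0) (Crest.Agent.R144.It844.lip_const 0))
  have hm' : (1 : ℝ) ≤ m := by exact_mod_cast hm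
  have hN' : (1 : ℝ) ≤ N := by exact_mod_cast hN
  -- translate to the origin
  have hcls := cls_scs
  let f' : Hz → ℝ := fun h => f (actZ (trE (-a)) h)
  let g' : Hz → ℝ := fun h => g (actZ (trE (-a)) h)
  have hfG : GObs f := ⟨⟨_, hf⟩, hfN⟩
  have hgG : GObs g := ⟨⟨_, hg⟩, hgN⟩
  have hfgG : GObs (fun h => f h * g h) := hfG.map₂ hgG (fun a b => a * b)
  have i1 : ∫ h, f' h ∂P = ∫ h, f h ∂P := hL.map hcls (sym_trE (-a)) hfG
  have i2 : ∫ h, g' h ∂P = ∫ h, g h ∂P := hL.map hcls (sym_trE (-a)) hgG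
  have i3 : ∫ h, f' h * g' h ∂P = ∫ h, f h * g h ∂P := hL.map hcls (sym_trE (-a)) hfgG
  have act_apply : ∀ (h : Hz) (v : P2), actZ (trE (-a)) h v = h (v + -a) := fun _ _ => rfl
  have hf' : LocZ (hexB m : Set P2) f' := fun h k hk => hf _ _ fun v hv => by
    rw [act_apply, act_apply]
    refine hk _ ?_
    have := Rsw867.mem_ball'.1 (Finset.mem_coe.1 hv)
    rw [sub_eq_add_neg] at this
    exact Finset.mem_coe.2 this
  have hfN' : NeutZ f' := fun h k => hfN _ k
  have hgN' : NeutZ g' := fun h k => hgN _ k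
  let S' : Finset P2 := S.image fun v => v + -a
  have hg' : LocZ (S' : Set P2) g' := fun h k hk => hg _ _ fun v hv => by
    rw [act_apply, act_apply]
    exact hk _ (Finset.mem_coe.2 (Finset.mem_image_of_mem _ (Finset.mem_coe.1 hv)))
  have hS' : ∀ v ∈ S', v ∉ hexB N := by
    intro v hv hv'
    obtain ⟨w, hw, rfl⟩ := Finset.mem_image.1 hv
    refine hS w hw (Rsw867.mem_ball'.2 ?_)
    rwa [sub_eq_add_neg]
  have lipact : ∀ h : Hz, Lip h → Lip (actZ (trE (-a)) h) := fun h hl =>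
    Pst967.lip_actZ (sym_trE (-a)) hl
  have hA' : ∀ h, Lip h → |f' h| ≤ A := fun h hl => hA _ (lipact h hl)
  have hB' : ∀ h, Lip h → |g' h| ≤ B := fun h hl => hB _ (lipact h hl)
  rw [← i1, ← i2, ← i3]
  have hb4 : (1 : ℝ) ≤ 4 ^ α0 := Real.one_le_rpow (by norm_num) hα0.le
  have hpow : 32 * C0 * 4 ^ α0 * 4 ^ (α0 / 4) * ((m : ℝ) / N) ^ (α0 / 4) =
      32 * C0 * 4 ^ α0 * (4 * ((m : ℝ) / N)) ^ (α0 / 4) := by
    rw [Real.mul_rpow (by norm_num) (by positivity)]
    ring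
  rw [hpow]
  by_cases hbig : m + 1 ≤ N - 1
  · -- four scales between `m + 1` and `N - 1`
    obtain ⟨N1, N2, N3, s1, s2, s3, s4, s5⟩ := four_scales hC0 hα0 hbt (M := m + 1) (by omega) hbig
    have key := cov_P hc h3 hP s1 s2 s3 s4 (S := S') (fun v hv hv' => hS' v hv
      (hexB_mono (by omega) hv')) hf' hfN' hg' hgN' hA' hB'
    refine key.trans ?_
    have h5 : rt c (m + 1) N1 N2 N3 (N - 1) ≤ 4 * C0 * 4 ^ α0 * (4 * ((m : ℝ) / N)) ^ (α0 / 4) := by
      refine s5.trans (mul_le_mul_of_nonneg_left ?_ (by positivity))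
      refine Real.rpow_le_rpow (by positivity) ?_ (by positivity)
      have h6 : (N : ℝ) ≤ 2 * ((N - 1 : ℕ) : ℝ) := by
        have : N ≤ 2 * (N - 1) := by omega
        exact_mod_cast this
      have h7 : ((m + 1 : ℕ) : ℝ) ≤ 2 * m := by push_cast; linarith
      have h8 : (0 : ℝ) < ((N - 1 : ℕ) : ℝ) := by
        have : 0 < N - 1 := by omega
        exact_mod_cast this
      rw [div_le_iff₀ h8]
      have h9 : (4 * ((m : ℝ) / N) * ((N - 1 : ℕ) : ℝ)) = 2 * m * (2 * ((N - 1 : ℕ) : ℝ) / N) := by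
        ring
      rw [h9]
      have h10 : (1 : ℝ) ≤ 2 * ((N - 1 : ℕ) : ℝ) / N := by rwa [one_le_div (by linarith)]
      nlinarith
    have h11 : 8 * A * B * rt c (m + 1) N1 N2 N3 (N - 1) ≤
        8 * A * B * (4 * C0 * 4 ^ α0 * (4 * ((m : ℝ) / N)) ^ (α0 / 4)) :=
      mul_le_mul_of_nonneg_left h5 (by positivity)
    refine h11.trans (le_of_eq ?_)
    ring
  · -- trivial bound
    have h5 : N ≤ m + 1 := by omega
    have h6 : (N : ℝ) ≤ 4 * m := by
      have : N ≤ 4 * m := by omega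
      exact_mod_cast this
    have h7 : (1 : ℝ) ≤ 4 * ((m : ℝ) / N) := by
      rw [← mul_div_assoc, one_le_div (by linarith)]
      exact h6
    have h8 : (1 : ℝ) ≤ (4 * ((m : ℝ) / N)) ^ (α0 / 4) := Real.one_le_rpow h7 (by positivity)
    have hfG' : GObs f' := ⟨⟨_, hf'⟩, hfN'⟩
    have hgG' : GObs g' := ⟨⟨_, hg'⟩, hgN'⟩
    have b1 : |∫ h, f' h ∂P| ≤ A := by
      have := norm_integral_le_of_norm_le_const (μ := P) (f := f') (C := A) (by
        filter_upwards [hZ.lip] with h hh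
        rw [Real.norm_eq_abs]
        exact hA' h hh)
      simpa using this
    have b2 : |∫ h, g' h ∂P| ≤ B := by
      have := norm_integral_le_of_norm_le_const (μ := P) (f := g') (C := B) (by
        filter_upwards [hZ.lip] with h hh
        rw [Real.norm_eq_abs]
        exact hB' h hh)
      simpa using this
    have b3 : |∫ h, f' h * g' h ∂P| ≤ A * B := by
      have := norm_integral_le_of_norm_le_const (μ := P) (f := fun h => f' h * g' h) (C := A * B) (by
        filter_upwards [hZ.lip] with h hh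
        rw [Real.norm_eq_abs, abs_mul]
        exact mul_le_mul (hA' h hh) (hB' h hh) (abs_nonneg _) hA0)
      simpa using this
    refine (abs_sub _ _).trans ?_
    rw [abs_mul]
    have b4 : |∫ h, f' h ∂P| * |∫ h, g' h ∂P| ≤ A * B := mul_le_mul b1 b2 (abs_nonneg _) hA0
    have h9 : (2 : ℝ) ≤ 32 * C0 * 4 ^ α0 * (4 * ((m : ℝ) / N)) ^ (α0 / 4) := by
      have e3 : (2 : ℝ) ≤ 32 * C0 * 4 ^ α0 := by nlinarith
      nlinarith
    have hAB : 0 ≤ A * B := by positivity
    have h10 : 2 * (A * B) ≤ 32 * C0 * 4 ^ α0 * (4 * ((m : ℝ) / N)) ^ (α0 / 4) * A * B := by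
      have := mul_le_mul_of_nonneg_right h9 hAB
      linarith
    linarith

end Crest.Agent.R144.Mix880
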