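import Crest.Agent.R144.Zs1_349

/-!
# R144: exact decoupling across a closed layer for the F-type laws (helper349)

For `W ⊆ F`, `W` simply connected, every `c ≥ 1`:
* `E_swap` : `E_F [1_Lay Ψ] = E_F [1_Lay(ω) E_W^{ω'} [Ψ (glue ω ω')]]` for every `Ψ`;
* `E_dec` : consequence for products;
* `dec_plus`, `dec_minus` : `E_F [g f] = E_F [g] E_W [f]` (resp. `E_W [f ∘ addH 2]`) for `g` a function of
  `(s1, z)` off `W`, supported on "the layer around `W` is plus (minus) closed", `f` a function of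
  `(s1, s2)` on `VF W` and of `z` on `W`.
-/

set_option autoImplicit false
set_option linter.unusedSectionVars false
set_option linter.unusedSimpArgs false

noncomputable section

namespace Crest.Agent.R144.Zs349

open Finset
open Crest.Agent.R144.It844 (P2 Lip adj_iff adj_symm lip_iff)
open Crest.Agent.R144.Zg349 Crest.Agent.R144.Zk349 Crest.Agent.R144.Zd349 Crest.Agent.R144.Zm349
open Crest.Agent.R144.Ze349
open Crest.ProbabilityR.HexHeights (Adj)

/-- gluing keeps the F-type configurations -/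
theorem valid_glue {e : Bool} {W F : Finset P2} (hW : SC W) (hWF : W ⊆ F) {ω ω' : Cfg} (hω : Valid F ω)
    (hL : Lay e W ω) (hω' : Valid W ω') : Valid F (glue e W ω ω') := by
  have hl := hω.ht.toLip
  refine ⟨⟨fun t _ i j => lip_cr (glue_lip hW hl hL hω') t i j, fun v hv => ?_, fun v hv => ?_⟩,
    fun t ht => ?_⟩
  · by_cases h : v ∈ VF W
    · have hvW : v ∉ IV W := fun h' => hv (IV_mono hWF h')
      have h1 := hω.ht.bd v hv
      have h2 := inH_bd hW hl hL hvW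
      have h3 := lev_mod hW hl hL h
      have h4 := hω'.ht.bd v hvW
      rw [glue_in h]
      have ho := off_cases e
      unfold lev at *
      omega
    · rw [glue_out h]
      exact hω.ht.bd v hv
  · have h : v ∉ VF W := fun h' => hv (VF_mono hWF h')
    rw [glue_out h]
    exact hω.ht.off v hv
  · rw [glue_z' (fun h => ht (hWF h))]
    exact hω.cl t ht

open Classical in
/-- indicator of the layer event -/
def layI (e : Bool) (W : Finset P2) (ω : Cfg) : ℝ := if Lay e W ω then 1 else 0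

theorem layI_nonneg (e : Bool) (W : Finset P2) (ω : Cfg) : 0 ≤ layI e W ω := by
  unfold layI; split_ifs <;> norm_num

theorem layI_of {e : Bool} {W : Finset P2} {ω : Cfg} (h : Lay e W ω) : layI e W ω = 1 := if_pos h
theorem layI_of_not {e : Bool} {W : Finset P2} {ω : Cfg} (h : ¬ Lay e W ω) : layI e W ω = 0 := if_neg h

theorem S_eq_sum {W : Finset P2} (c : ℝ) (f : Cfg → ℝ) : S c W f = ∑ ω ∈ conf W, wt c W ω * f ω := rfl

/-- **Exact decoupling, swap form, F-type laws.** -/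
theorem E_swap {e : Bool} {W F : Finset P2} {c : ℝ} (hc : 1 ≤ c) (hW : SC W) (hWF : W ⊆ F)
    (Ψ : Cfg → ℝ) :
    E c F (fun ω => layI e W ω * Ψ ω) =
      E c F (fun ω => layI e W ω * E c W (fun ω' => Ψ (glue e W ω ω'))) := by
  classical
  have h := swap (e := e) hW c hWF (conf F) (fun ω hω => (mem_conf.1 hω).ht.toLip)
    (fun ω hω hL ω' hω' => mem_conf.2 (valid_glue hW hWF (mem_conf.1 hω) hL (mem_conf.1 hω'))) Ψ
  have hZ := Z_pos hc W
  have red : ∀ f : Cfg → ℝ, ∑ ω ∈ conf F, wt c F ω * (layI e W ω * f ω) =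
      ∑ ω ∈ (conf F).filter (Lay e W), wt c F ω * f ω := by
    intro f
    rw [Finset.sum_filter]
    refine Finset.sum_congr rfl fun ω _ => ?_
    by_cases hL : Lay e W ω
    · rw [layI_of hL, if_pos hL, one_mul]
    · rw [layI_of_not hL, if_neg hL, zero_mul, mul_zero]
  rw [E_eq_div, E_eq_div, red, red]
  congr 1
  rw [← mul_right_cancel_iff_of_pos hZ, h, Finset.sum_mul]
  refine Finset.sum_congr rfl fun ω _ => ?_
  rw [E_eq_div, mul_assoc, div_mul_cancel₀ _ hZ.ne']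

/-- consequence for products: `g` outside, `φ ω` what `Ψ` becomes after gluing -/
theorem E_dec {e : Bool} {W F : Finset P2} {c : ℝ} (hc : 1 ≤ c) (hW : SC W) (hWF : W ⊆ F)
    {Ψ g : Cfg → ℝ} {φ : Cfg → Cfg → ℝ}
    (h0 : ∀ ω, Valid F ω → wt c F ω ≠ 0 → ¬ Lay e W ω → Ψ ω = 0 ∧ g ω = 0)
    (h1 : ∀ ω ω', Valid F ω → wt c F ω ≠ 0 → Lay e W ω → Valid W ω' →
      Ψ (glue e W ω ω') = g ω * φ ω ω') :
    E c F Ψ = E c F (fun ω => g ω * E c W (φ ω)) := by
  have key : ∀ f f' : Cfg → ℝ, (∀ ω, Valid F ω → wt c F ω ≠ 0 → f ω = f' ω) → E c F f = E c F f' := by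
    intro f f' h
    rw [E_eq_S, E_eq_S]
    congr 1
    unfold S
    refine Finset.sum_congr rfl fun ω hω => ?_
    by_cases hw : wt c F ω = 0
    · rw [hw, zero_mul, zero_mul]
    · rw [h ω (mem_conf.1 hω) hw]
  have e1 : E c F Ψ = E c F (fun ω => layI e W ω * Ψ ω) := key _ _ fun ω hω hw => by
    by_cases hL : Lay e W ω
    · rw [layI_of hL, one_mul]
    · rw [layI_of_not hL, zero_mul, (h0 ω hω hw hL).1]
  rw [e1, E_swap hc hW hWF]
  refine key _ _ fun ω hω hw => ?_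
  by_cases hL : Lay e W ω
  · rw [layI_of hL, one_mul]
    have e2 : E c W (fun ω' => Ψ (glue e W ω ω')) = E c W (fun ω' => g ω * φ ω ω') :=
      E_congr fun ω' hω' => h1 ω ω' hω hw hL hω'
    rw [e2, E_smul]
  · rw [layI_of_not hL, zero_mul, (h0 ω hω hw hL).2, zero_mul]

/-- `f` sees `(s1, s2, z)` on the closed side of `W` -/
def InC (W : Finset P2) (f : Cfg → ℝ) : Prop :=
  ∀ ω ω' : Cfg, (∀ v ∈ VF W, s1 (ω.1 v) = s1 (ω'.1 v) ∧ s2 (ω.1 v) = s2 (ω'.1 v)) →
    (∀ t ∈ W, ω.2 t = ω'.2 t) → f ω = f ω'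

theorem InTZ.inC {W : Finset P2} {f : Cfg → ℝ} (h : InTZ W f) : InC W f := fun ω ω' h1 h2 =>
  h ω ω' (fun v hv => (h1 v (IV_sub_VF W hv)).1) h2

theorem closed_c1 {c : ℝ} {F : Finset P2} {ω : Cfg} (hω : Valid F ω) (hw : wt c F ω ≠ 0) {t : P2}
    (ht : ω.2 t = true) {v : P2} (hv : v ∈ up t) : s1 (ω.1 v) = s1 (ω.1 t) := by
  by_cases htF : t ∈ F
  · have h1 : ew c ω t ≠ 0 := fun h => hw (Finset.prod_eq_zero htF h)
    have h2 : C1 ω.1 t := by
      by_contra h
      apply h1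
      unfold ew
      rw [if_pos ht, if_neg h]
    obtain ⟨a, b⟩ := h2
    obtain ⟨i, rfl⟩ := mem_up_iff.1 hv
    fin_cases i
    · rfl
    · exact a.symm
    · exact b.symm
  · have h1 : ∀ w ∈ up t, w ∉ IV F := fun w hw h => htF (mem_of_corner hw h)
    rw [hω.ht.s1_bd (h1 v hv), hω.ht.s1_bd (h1 t (base_mem_up t))]

/-- the layer event from the closed status and the sign of the base site -/
theorem lay_of {c : ℝ} {e : Bool} {F W : Finset P2} {ω : Cfg} (hω : Valid F ω) (hw : wt c F ω ≠ 0)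
    (h : ∀ t, t ∉ W → (∃ v ∈ VF W, v ∈ up t) → ω.2 t = true ∧ s1 (ω.1 t) = e) : Lay e W ω := by
  intro t ht h1
  obtain ⟨h2, h3⟩ := h t ht h1
  exact ⟨h2, fun v hv => by rw [closed_c1 hω hw h2 hv, h3]⟩

theorem glue_s1_off {e : Bool} {W : Finset P2} {ω ω' : Cfg} (hW : SC W) (hl : Lip ω.1) (hL : Lay e W ω)
    (hω' : Valid W ω') {v : P2} (hv : v ∉ IV W) : s1 ((glue e W ω ω').1 v) = s1 (ω.1 v) := by
  by_cases h : v ∈ VF W
  · rw [hL.bd h hv, glue_in h, s1_lev (lev_mod hW hl hL h)]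
    exact hω'.ht.s1_bd hv
  · rw [glue_out h]

theorem offTZ_glue {e : Bool} {W : Finset P2} {ω ω' : Cfg} (hW : SC W) (hl : Lip ω.1) (hL : Lay e W ω)
    (hω' : Valid W ω') {g : Cfg → ℝ} (hg : OffTZ W g) : g (glue e W ω ω') = g ω :=
  hg _ _ (fun _ hv => glue_s1_off hW hl hL hω' hv) (fun _ ht => glue_z' ht)

/-- **Decoupling across a plus closed layer.** -/
theorem dec_plus {c : ℝ} (hc : 1 ≤ c) {W F : Finset P2} (hW : SC W) (hWF : W ⊆ F) {g f : Cfg → ℝ}
    (hg : OffTZ W g) (hg1 : ∀ ω, g ω ≠ 0 → ∀ t ∈ F \ W, (∃ v ∈ VF W, v ∈ up t) → pC ω t)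
    (hf : InC W f) : E c F (fun ω => g ω * f ω) = E c F g * E c W f := by
  rw [E_dec (e := true) hc hW hWF (g := g) (φ := fun _ => f)]
  · have : (fun ω => g ω * E c W f) = fun ω => E c W f * g ω := by funext ω; ring
    rw [this, E_smul, mul_comm]
  · intro ω hω hw hL
    have : g ω = 0 := by
      by_contra h
      apply hL
      refine lay_of hω hw fun t ht h1 => ?_
      by_cases htF : t ∈ F
      · exact hg1 ω h t (Finset.mem_sdiff.2 ⟨htF, ht⟩) h1
      · exact ⟨hω.cl t htF, hω.ht.s1_bd fun h2 => htF (IV_sub F h2)⟩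
    exact ⟨by rw [this, zero_mul], this⟩
  · intro ω ω' hω hw hL hω'
    have hl := hω.ht.toLip
    rw [offTZ_glue hW hl hL hω' hg]
    congr 1
    refine hf _ _ (fun v hv => ?_) fun t ht => glue_z ht
    have h1 := lev_mod hW hl hL hv
    rw [glue_in hv]
    have h2 : lev true W ω v % 4 = 0 := h1
    generalize lev true W ω v = k at *
    unfold s1 s2
    rw [decide_eq_decide, decide_eq_decide]
    omega

/-- **Decoupling across a minus closed layer.** -/
theorem dec_minus {c : ℝ} (hc : 1 ≤ c) {W F : Finset P2} (hW : SC W) (hWF : W ⊆ F) {g f : Cfg → ℝ}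
    (hg : OffTZ W g) (hg1 : ∀ ω, g ω ≠ 0 → ∀ t, t ∉ W → (∃ v ∈ VF W, v ∈ up t) → mC ω t)
    (hf : InC W f) : E c F (fun ω => g ω * f ω) = E c F g * E c W (fun ω => f (addH 2 ω)) := by
  rw [E_dec (e := false) hc hW hWF (g := g) (φ := fun _ ω' => f (addH 2 ω'))]
  · have : (fun ω => g ω * E c W (fun ω => f (addH 2 ω))) =
        fun ω => E c W (fun ω => f (addH 2 ω)) * g ω := by funext ω; ring
    rw [this, E_smul, mul_comm]
  · intro ω hω hw hL
    have : g ω = 0 := by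
      by_contra h
      exact hL (lay_of hω hw fun t ht h1 => hg1 ω h t ht h1)
    exact ⟨by rw [this, zero_mul], this⟩
  · intro ω ω' hω hw hL hω'
    have hl := hω.ht.toLip
    rw [offTZ_glue hW hl hL hω' hg]
    congr 1
    refine hf _ _ (fun v hv => ?_) fun t ht => glue_z ht
    have h1 := lev_mod hW hl hL hv
    rw [glue_in hv]
    have h2 : lev false W ω v % 4 = 2 := h1
    simp only [addH]
    generalize lev false W ω v = k at *
    unfold s1 s2
    rw [decide_eq_decide, decide_eq_decide]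
    omega

/-- two different up triangles sharing a site are adjacent -/
theorem adj_of_site {t t' : P2} (hne : t ≠ t') {v : P2} (h1 : v ∈ up t) (h2 : v ∈ up t') : Adj t t' := by
  rw [mem_up'] at h1 h2
  obtain ⟨a, b⟩ := t
  obtain ⟨a', b'⟩ := t'
  obtain ⟨x, y⟩ := v
  rw [adj_iff]
  simp only [Prod.mk.injEq, ne_eq] at *
  omega

/-- `dec_plus` with adjacency -/
theorem dec_plus_adj {c : ℝ} (hc : 1 ≤ c) {W F : Finset P2} (hW : SC W) (hWF : W ⊆ F) {g f : Cfg → ℝ}
    (hg : OffTZ W g) (hg1 : ∀ ω, g ω ≠ 0 → ∀ t ∈ W, ∀ t' ∈ F \ W, Adj t t' → pC ω t')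
    (hf : InC W f) : E c F (fun ω => g ω * f ω) = E c F g * E c W f := by
  refine dec_plus hc hW hWF hg (fun ω h t' ht' h1 => ?_) hf
  obtain ⟨v, hv, hv'⟩ := h1
  obtain ⟨t, ht, h2⟩ := mem_VF.1 hv
  exact hg1 ω h t ht t' ht' (adj_of_site (fun h3 => (Finset.mem_sdiff.1 ht').2 (h3 ▸ ht)) h2 hv')

/-- `dec_minus` with adjacency -/
theorem dec_minus_adj {c : ℝ} (hc : 1 ≤ c) {W F : Finset P2} (hW : SC W) (hWF : W ⊆ F) {g f : Cfg → ℝ}
    (hg : OffTZ W g) (hg1 : ∀ ω, g ω ≠ 0 → ∀ t ∈ W, ∀ t', t' ∉ W → Adj t t' → mC ω t')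
    (hf : InC W f) : E c F (fun ω => g ω * f ω) = E c F g * E c W (fun ω => f (addH 2 ω)) := by
  refine dec_minus hc hW hWF hg (fun ω h t' ht' h1 => ?_) hf
  obtain ⟨v, hv, hv'⟩ := h1
  obtain ⟨t, ht, h2⟩ := mem_VF.1 hv
  exact hg1 ω h t ht t' ht' (adj_of_site (fun h3 => ht' (h3 ▸ ht)) h2 hv')

end Crest.Agent.R144.Zs349
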