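import Crest.Agent.R144.Mk1_696
import Crest.Agent.R144.Zs2_349

/-!
# R144, marked model, part 2: decoupling inside the unexplored domain for any glue-stable family (helper696)

* `eC e ω t` : the up triangle `t` is closed with sign `e` (`pC` for `true`, `mC` for `false`);
* `Fam F K C` : `C` is a finite family of Lipschitz configurations stable under gluing inside `K ⊆ F`;
* `dec_Un` : exact decoupling on `Un {eC e} K = B` (weights `wt c F` on `C`);
* `one_dom` : for `f ≥ 0` living in `A`, the mass of "the exploration does not reach `A`" times the `E c B`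
  expectation of `f` (shifted by `off e`) for ONE simply connected `B`, `A ⊆ B ⊆ K`, is at most the sum of `f`;
* `ng`, `cfX F` : the exchanged family `(-h, z)`; `EX c F` its law; `one_domX`, `one_domX'`.
-/

set_option autoImplicit false
set_option linter.unusedSectionVars false

noncomputable section

namespace Crest.Agent.R144.Mk696

open Finset
open Crest.Agent.R144.It844 (P2 Lip adj_symm adj_iff adj_comm lip_iff)
open Crest.ProbabilityR.HexHeights (Adj)
open Crest.Agent.R144.Zg349 Crest.Agent.R144.Zd349 Crest.Agent.R144.Zm349 Crest.Agent.R144.Ze349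
open Crest.Agent.R144.Zs349
open Crest.Agent.R144.Rsw867

/-- closed of sign `e` -/
def eC (e : Bool) (ω : Cfg) : Set P2 := {t | ω.2 t = true ∧ s1 (ω.1 t) = e}

theorem mem_eC {e : Bool} {ω : Cfg} {t : P2} : t ∈ eC e ω ↔ ω.2 t = true ∧ s1 (ω.1 t) = e := Iff.rfl

theorem eC_true (ω : Cfg) : eC true ω = {t | pC ω t} := rfl
theorem eC_false (ω : Cfg) : eC false ω = {t | mC ω t} := rfl

/-- closed -/
def cl (ω : Cfg) : Set P2 := {t | ω.2 t = true}

theorem cl_eq (ω : Cfg) : cl ω = eC true ω ∪ eC false ω := by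
  ext t
  simp only [cl, eC, Set.mem_ofPred_eq, Set.mem_union]
  rcases s1 (ω.1 t) with _ | _ <;> simp

/-- finite families of configurations stable under gluing inside `K` -/
structure Fam (F K : Finset P2) (C : Finset Cfg) : Prop where
  lip : ∀ ω ∈ C, Lip ω.1
  st : ∀ (e : Bool) (W : Finset P2) (ω ω' : Cfg), SC W → W ⊆ K → ω ∈ C → Lay e W ω → Valid W ω' →
    glue e W ω ω' ∈ C
  sub : K ⊆ F

theorem closed_c1' {c : ℝ} {F : Finset P2} {ω : Cfg} (hw : wt c F ω ≠ 0) {t : P2} (htF : t ∈ F)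
    (ht : ω.2 t = true) {v : P2} (hv : v ∈ up t) : s1 (ω.1 v) = s1 (ω.1 t) := by
  have h1 : ew c ω t ≠ 0 := fun h => hw (Finset.prod_eq_zero htF h)
  have h2 : C1 ω.1 t := by
    by_contra h
    apply h1
    unfold ew
    rw [if_pos ht, if_neg h]
  obtain ⟨a, b⟩ := h2
  obtain ⟨i, rfl⟩ := mem_up_iff.1 hv
  fin_cases i
  · rfl
  · exact a.symm
  · exact b.symm

/-- closed triangles of different signs are not adjacent -/
theorem not_adj {c : ℝ} {F : Finset P2} {ω : Cfg} (hw : wt c F ω ≠ 0) {t t' : P2} (ht : t ∈ F) (ht' : t' ∈ F)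
    (h : t ∈ eC true ω) (h' : t' ∈ eC false ω) : ¬ Adj t t' := by
  intro ha
  obtain ⟨v, h1, h2⟩ := adj_site ha
  have e1 := closed_c1' hw ht h.1 h1
  have e2 := closed_c1' hw ht' h'.1 h2
  rw [e1, h.2, h'.2] at e2
  exact absurd e2 (by decide)

/-- the layer event holds for the unexplored domain -/
theorem lay_Un {c : ℝ} {F K : Finset P2} {C : Finset Cfg} (hC : Fam F K C) {e : Bool} {ω : Cfg}
    (hw : wt c F ω ≠ 0) {B : Finset P2} (hB : Un (eC e ω) K = B) : Lay e B ω := by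
  intro t ht h
  obtain ⟨v, hv, hvt⟩ := h
  obtain ⟨t0, ht0, hv0⟩ := mem_VF.1 hv
  have ha : Adj t0 t := adj_of_site (fun h3 => ht (h3 ▸ ht0)) hv0 hvt
  have h1 := layer_Un (S := eC e ω) (K := K) (t := t0) (t' := t) (by rw [hB]; exact ht0)
    (by rw [hB]; exact ht) ha
  exact ⟨h1.1.1, fun u hu => by rw [closed_c1' hw (hC.sub h1.2) h1.1.1 hu, h1.1.2]⟩

open Classical in
/-- indicator of `Un (eC e ω) K = B` -/
def unI (e : Bool) (K B : Finset P2) (ω : Cfg) : ℝ := if Un (eC e ω) K = B then 1 else 0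

theorem unI_nonneg (e : Bool) (K B : Finset P2) (ω : Cfg) : 0 ≤ unI e K B ω := by
  unfold unI; split_ifs <;> norm_num

theorem eC_glue {e : Bool} {W : Finset P2} {ω ω' : Cfg} (hW : SC W) (hl : Lip ω.1) (hL : Lay e W ω)
    (hω' : Valid W ω') {t : P2} (ht : t ∉ W) : t ∈ eC e (glue e W ω ω') ↔ t ∈ eC e ω := by
  rw [mem_eC, mem_eC, glue_z' ht, glue_s1_off hW hl hL hω' (fun h => ht (IV_sub W h))]

theorem unI_glue {e : Bool} {W K : Finset P2} {ω ω' : Cfg} (hW : SC W) (hl : Lip ω.1) (hL : Lay e W ω)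
    (hω' : Valid W ω') : unI e K W (glue e W ω ω') = unI e K W ω := by
  unfold unI
  by_cases h : Un (eC e ω) K = W
  · rw [if_pos h, if_pos (Un_congr (fun t ht => (eC_glue hW hl hL hω' ht).symm) h)]
  · rw [if_neg h, if_neg fun h' => h (Un_congr (fun t ht => eC_glue hW hl hL hω' ht) h')]

/-- colour observables after gluing -/
theorem inC_glue {e : Bool} {W : Finset P2} {ω ω' : Cfg} (hW : SC W) (hl : Lip ω.1) (hL : Lay e W ω)
    {f : Cfg → ℝ} (hf : InC W f) : f (glue e W ω ω') = f (addH (off e) ω') := by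
  refine hf _ _ (fun v hv => ?_) fun t ht => glue_z ht
  have h2 := lev_mod hW hl hL hv
  rw [glue_in hv]
  simp only [addH]
  generalize lev e W ω v = k at *
  have ho := off_cases e
  unfold s1 s2
  rw [decide_eq_decide, decide_eq_decide]
  omega

theorem inC_mono {W W' : Finset P2} (h : W ⊆ W') {f : Cfg → ℝ} (hf : InC W f) : InC W' f :=
  fun ω ω' h1 h2 => hf ω ω' (fun v hv => h1 v (VF_mono h hv)) fun t ht => h2 t (h ht)

/-- **Exact decoupling inside the unexplored domain.** -/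
theorem dec_Un {c : ℝ} (hc : 1 ≤ c) {F K : Finset P2} {C : Finset Cfg} (hC : Fam F K C) (e : Bool)
    {B : Finset P2} (hB : SC B) (hBK : B ⊆ K) {f : Cfg → ℝ} (hf : InC B f) :
    ∑ ω ∈ C, wt c F ω * (unI e K B ω * f ω) =
      (∑ ω ∈ C, wt c F ω * unI e K B ω) * E c B (fun ω => f (addH (off e) ω)) := by
  classical
  have red : ∀ g : Cfg → ℝ, ∑ ω ∈ C, wt c F ω * (unI e K B ω * g ω) =
      ∑ ω ∈ C.filter (Lay e B), wt c F ω * (unI e K B ω * g ω) := by
    intro g
    rw [Finset.sum_filter]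
    refine Finset.sum_congr rfl fun ω hω => ?_
    split_ifs with hL
    · rfl
    · by_cases hw : wt c F ω = 0
      · rw [hw, zero_mul]
      · have : unI e K B ω = 0 := if_neg fun h => hL (lay_Un hC hw h)
        rw [this, zero_mul, mul_zero]
  have hsw := swap (e := e) hB c (hBK.trans hC.sub) C hC.lip
    (fun ω hω hL ω' hω' => hC.st e B ω ω' hB hBK hω hL (mem_conf.1 hω'))
    (fun ω => unI e K B ω * f ω)
  have hZ := Z_pos hc B
  have h2 : ∀ ω ∈ C.filter (Lay e B), wt c F ω * ∑ ω' ∈ conf B, wt c B ω' *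
      (unI e K B (glue e B ω ω') * f (glue e B ω ω')) =
      (wt c F ω * (unI e K B ω * 1)) * (E c B (fun ω => f (addH (off e) ω)) * Z c B) := by
    intro ω hω
    rw [Finset.mem_filter] at hω
    have hl := hC.lip ω hω.1
    rw [E_eq_div, div_mul_cancel₀ _ hZ.ne', mul_one, mul_assoc]
    congr 1
    rw [Finset.mul_sum]
    refine Finset.sum_congr rfl fun ω' hω' => ?_
    rw [unI_glue hB hl hω.2 (mem_conf.1 hω'), inC_glue hB hl hω.2 hf]
    ring
  have h3 : (∑ ω ∈ C, wt c F ω * (unI e K B ω * f ω)) * Z c B =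
      ((∑ ω ∈ C, wt c F ω * unI e K B ω) * E c B (fun ω => f (addH (off e) ω))) * Z c B := by
    have h4 : ∑ ω ∈ C, wt c F ω * unI e K B ω = ∑ ω ∈ C.filter (Lay e B), wt c F ω * (unI e K B ω * 1) := by
      rw [← red (fun _ => (1 : ℝ))]
      exact Finset.sum_congr rfl fun ω _ => by simp only [mul_one]
    rw [red f, hsw, Finset.sum_congr rfl h2, ← Finset.sum_mul, h4]
    ring
  exact mul_right_cancel₀ hZ.ne' h3

/-- decomposition according to the unexplored domain -/
theorem sum_unI (e : Bool) {K A : Finset P2} (ω : Cfg) (hA : A ⊆ Un (eC e ω) K) :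
    ∑ B ∈ K.powerset.filter (fun B => A ⊆ B), unI e K B ω = 1 := by
  classical
  unfold unI
  rw [Finset.sum_ite_eq, if_pos]
  exact Finset.mem_filter.2 ⟨Finset.mem_powerset.2 (Un_sub _ _), hA⟩

theorem sum_unI_le (e : Bool) (K A : Finset P2) (ω : Cfg) :
    ∑ B ∈ K.powerset.filter (fun B => A ⊆ B), unI e K B ω ≤ 1 := by
  classical
  unfold unI
  rw [Finset.sum_ite_eq]
  split_ifs <;> norm_num

theorem sum_unI_not (e : Bool) {K A : Finset P2} (ω : Cfg) (hA : ¬ A ⊆ Un (eC e ω) K) :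
    ∑ B ∈ K.powerset.filter (fun B => A ⊆ B), unI e K B ω = 0 := by
  classical
  refine Finset.sum_eq_zero fun B hB => ?_
  unfold unI
  rw [if_neg]
  rintro rfl
  exact hA (Finset.mem_filter.1 hB).2

open Classical in
/-- **One domain.** -/
theorem one_dom {c : ℝ} (hc : 1 ≤ c) {F K : Finset P2} (hK : SC K) {C : Finset Cfg} (hC : Fam F K C)
    (e : Bool) {A : Finset P2} {f : Cfg → ℝ} (hf : InC A f) (hf0 : ∀ ω ∈ C, 0 ≤ f ω) {q : ℝ} (hq : 0 < q)
    (h : q ≤ ∑ ω ∈ C, wt c F ω * (if A ⊆ Un (eC e ω) K then 1 else 0)) :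
    ∃ B : Finset P2, SC B ∧ A ⊆ B ∧ B ⊆ K ∧
      q * E c B (fun ω => f (addH (off e) ω)) ≤ ∑ ω ∈ C, wt c F ω * f ω := by
  set P : Finset (Finset P2) := K.powerset.filter (fun B => A ⊆ B) with hP
  set w : Finset P2 → ℝ := fun B => ∑ ω ∈ C, wt c F ω * unI e K B ω with hwdef
  set x : Finset P2 → ℝ := fun B => E c B (fun ω => f (addH (off e) ω)) with hx
  have hw0 : ∀ B, 0 ≤ w B := fun B => Finset.sum_nonneg fun ω _ =>
    mul_nonneg (wt_nonneg hc F ω) (unI_nonneg e K B ω)
  have hscB : ∀ B, w B ≠ 0 → SC B := by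
    intro B hB
    obtain ⟨ω, _, h1⟩ := Finset.exists_ne_zero_of_sum_ne_zero hB
    have h2 : unI e K B ω ≠ 0 := fun h3 => h1 (by rw [h3, mul_zero])
    have h3 : Un (eC e ω) K = B := by
      by_contra h4
      exact h2 (if_neg h4)
    rw [← h3]
    exact sc_Un _ hK
  have mP : ∀ B ∈ P, A ⊆ B ∧ B ⊆ K := fun B hB => by
    rw [hP, Finset.mem_filter, Finset.mem_powerset] at hB
    exact ⟨hB.2, hB.1⟩
  -- total mass
  have hsum : ∑ B ∈ P, w B = ∑ ω ∈ C, wt c F ω * (if A ⊆ Un (eC e ω) K then 1 else 0) := by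
    rw [hwdef, Finset.sum_comm]
    refine Finset.sum_congr rfl fun ω _ => ?_
    rw [← Finset.mul_sum]
    congr 1
    split_ifs with h1
    · exact sum_unI e ω h1
    · exact sum_unI_not e ω h1
  -- main inequality
  have hmain : ∑ B ∈ P, w B * x B ≤ ∑ ω ∈ C, wt c F ω * f ω := by
    have h1 : ∀ B ∈ P, w B * x B = ∑ ω ∈ C, wt c F ω * (unI e K B ω * f ω) := by
      intro B hB
      by_cases hB0 : w B = 0
      · have h2 : ∀ ω ∈ C, wt c F ω * unI e K B ω = 0 := by
          have := (Finset.sum_eq_zero_iff_of_nonneg (fun ω _ =>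
            mul_nonneg (wt_nonneg hc F ω) (unI_nonneg e K B ω))).1 hB0
          exact this
        rw [hB0, zero_mul]
        refine (Finset.sum_eq_zero fun ω hω => ?_).symm
        rw [← mul_assoc, h2 ω hω, zero_mul]
      · rw [dec_Un hc hC e (hscB B hB0) (mP B hB).2 (inC_mono (mP B hB).1 hf)]
    rw [Finset.sum_congr rfl h1, Finset.sum_comm]
    refine Finset.sum_le_sum fun ω hω => ?_
    rw [← Finset.mul_sum, ← Finset.sum_mul]
    refine mul_le_mul_of_nonneg_left ?_ (wt_nonneg hc F ω)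
    calc (∑ B ∈ P, unI e K B ω) * f ω ≤ 1 * f ω :=
          mul_le_mul_of_nonneg_right (sum_unI_le e K A ω) (hf0 ω hω)
      _ = f ω := one_mul _
  by_contra hcon
  push Not at hcon
  have hlt : ∀ B ∈ P, w B * (∑ ω ∈ C, wt c F ω * f ω) ≤ w B * (q * x B) := by
    intro B hB
    by_cases hB0 : w B = 0
    · rw [hB0, zero_mul, zero_mul]
    · exact mul_le_mul_of_nonneg_left (hcon B (hscB B hB0) (mP B hB).1 (mP B hB).2).le (hw0 B)
  rw [← hsum] at h
  have hy0 : 0 ≤ ∑ ω ∈ C, wt c F ω * f ω := Finset.sum_nonneg fun ω hω =>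
    mul_nonneg (wt_nonneg hc F ω) (hf0 ω hω)
  -- strict inequality for one B
  obtain ⟨B0, hB0, hB0w⟩ : ∃ B ∈ P, 0 < w B := by
    by_contra h1
    push Not at h1
    have : ∑ B ∈ P, w B ≤ 0 := Finset.sum_nonpos h1
    linarith
  have hlt2 : ∑ B ∈ P, w B * (∑ ω ∈ C, wt c F ω * f ω) < ∑ B ∈ P, w B * (q * x B) :=
    Finset.sum_lt_sum hlt ⟨B0, hB0, mul_lt_mul_of_pos_left
      (hcon B0 (hscB B0 hB0w.ne') (mP B0 hB0).1 (mP B0 hB0).2) hB0w⟩
  rw [← Finset.sum_mul] at hlt2
  have h5 : ∑ B ∈ P, w B * (q * x B) = q * ∑ B ∈ P, w B * x B := by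
    rw [Finset.mul_sum]
    exact Finset.sum_congr rfl fun B _ => by ring
  rw [h5] at hlt2
  have h6 : q * ∑ B ∈ P, w B * x B ≤ q * ∑ ω ∈ C, wt c F ω * f ω :=
    mul_le_mul_of_nonneg_left hmain hq.le
  have h7 : q * ∑ ω ∈ C, wt c F ω * f ω ≤ (∑ B ∈ P, w B) * ∑ ω ∈ C, wt c F ω * f ω :=
    mul_le_mul_of_nonneg_right h hy0
  linarith

/-! ### the exchanged family -/

/-- exchange the two colours: `h ↦ -h` -/
def ng (ω : Cfg) : Cfg := (fun v => -ω.1 v, ω.2)

theorem ng_ng (ω : Cfg) : ng (ng ω) = ω := by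
  unfold ng
  refine Prod.ext (funext fun v => ?_) rfl
  simp

theorem ng_inj : Function.Injective ng := fun a b h => by
  rw [← ng_ng a, h, ng_ng]

open Classical in
/-- the exchanged family: `s2 = +` off the interior sites -/
def cfX (F : Finset P2) : Finset Cfg := (conf F).image ng

theorem mem_cfX {F : Finset P2} {ω : Cfg} : ω ∈ cfX F ↔ Valid F (ng ω) := by
  classical
  unfold cfX
  rw [Finset.mem_image]
  constructor
  · rintro ⟨a, ha, rfl⟩
    rw [ng_ng]
    exact mem_conf.1 ha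
  · intro h
    exact ⟨ng ω, mem_conf.2 h, ng_ng ω⟩

theorem sum_cfX (F : Finset P2) (g : Cfg → ℝ) : ∑ ω ∈ cfX F, g ω = ∑ ω ∈ conf F, g (ng ω) := by
  classical
  unfold cfX
  rw [Finset.sum_image fun a _ b _ h => ng_inj h]

theorem lip_ng {ω : Cfg} (h : Lip (ng ω).1) : Lip ω.1 := by
  apply lip_of_cr
  intro t i j
  have h1 := lip_cr h t i j
  simp only [ng] at h1
  rw [abs_le] at *
  omega

theorem lip_ng' {ω : Cfg} (h : Lip ω.1) : Lip (ng ω).1 := by
  apply lip_of_cr
  intro t i j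
  have h1 := lip_cr h t i j
  simp only [ng]
  rw [abs_le] at *
  omega

/-- the exchanged family is stable under gluing deep inside `F` -/
theorem fam_cfX {F K : Finset P2} (hK : K ⊆ F) (hKF : VF K ⊆ IV F) : Fam F K (cfX F) where
  lip ω hω := lip_ng (mem_cfX.1 hω).ht.toLip
  sub := hK
  st e W ω ω' hW hWK hω hL hω' := by
    have hv := mem_cfX.1 hω
    have hl : Lip ω.1 := lip_ng hv.ht.toLip
    have hg := glue_lip hW hl hL hω'
    rw [mem_cfX]
    refine ⟨⟨fun t _ i j => lip_cr (lip_ng' hg) t i j, fun v hv' => ?_, fun v hv' => ?_⟩, fun t ht => ?_⟩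
    · have h : v ∉ VF W := fun h' => hv' (hKF (VF_mono hWK h'))
      have h1 := hv.ht.bd v hv'
      simp only [ng] at *
      rw [glue_out h]
      exact h1
    · have h : v ∉ VF W := fun h' => hv' (IV_sub_VF F (hKF (VF_mono hWK h')))
      have h1 := hv.ht.off v hv'
      simp only [ng] at *
      rw [glue_out h]
      exact h1
    · have h1 := hv.cl t ht
      simp only [ng] at *
      rw [glue_z' (fun h => ht (hK (hWK h)))]
      exact h1

/-- the F-type family is stable under gluing -/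
theorem fam_conf {F K : Finset P2} (hK : K ⊆ F) : Fam F K (conf F) where
  lip ω hω := (mem_conf.1 hω).ht.toLip
  sub := hK
  st e W ω ω' hW hWK hω hL hω' := mem_conf.2 (valid_glue hW (hWK.trans hK) (mem_conf.1 hω) hL hω')

end Crest.Agent.R144.Mk696
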