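import Crest.Agent.R144.Xc1_851
import Crest.Agent.R144.Pos2_561

/-!
# R144: the joint law of both FK representations (helper851), part 2: symmetries

* `E3_rf` : invariance under `h ↦ 1 - h`, both closed statuses unchanged (`s2` is flipped, `s1` is not);
* `exch k V ω` : heights reflected about `k` on `V` and the two closed statuses exchanged on the triangles
  touching `V`; **`E3_exch`** : on the event "height exactly `k` on the neighbours of `V`", `V ⊆ IV F`, the joint
  law is invariant under `exch k V`;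
* `kz`, `E3_cond` : given `(h, y)` the statuses `z` are independent with kernel `kz`; `E3_cond'` the other way;
* `flipX` : flips of the colour `s1` in the law of `(h, y)` (sets of interior sites which no `y`-open triangle
  splits).
-/

set_option autoImplicit false
set_option linter.unusedSectionVars false

noncomputable section

namespace Crest.Agent.R144.Xc851

open Finset
open Crest.Agent.R144.It844 (P2 Lip adj_iff adj_symm lip_iff)
open Crest.Agent.R144.Zg349 Crest.Agent.R144.Zk349 Crest.Agent.R144.Zd349 Crest.Agent.R144.Zm349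
open Crest.Agent.R144.Ze349
open Crest.Agent.R144.Pos561 (rf rf_of_mem rf_of_notMem rf_rf rf_valid)
open Crest.ProbabilityR.HexHeights (Adj)

/-- flattened index set of the joint law -/
def conf3 (F : Finset P2) : Finset C3 := hts F ×ˢ (zs F ×ˢ zs F)

theorem mem_conf3 {F : Finset P2} {ω : C3} :
    ω ∈ conf3 F ↔ HV F ω.1 ∧ (∀ t, t ∉ F → ω.2.1 t = true) ∧ ∀ t, t ∉ F → ω.2.2 t = true := by
  unfold conf3
  rw [Finset.mem_product, Finset.mem_product, mem_hts, mem_zs, mem_zs]

theorem E3_eq (c : ℝ) (F : Finset P2) (f : C3 → ℝ) :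
    E3 c F f = (∑ ω ∈ conf3 F, wt3 c F ω * f ω) / Z c F := by
  unfold E3 S3 conf3
  rw [Finset.sum_product]
  congr 1
  refine Finset.sum_congr rfl fun h _ => ?_
  rw [Finset.sum_product]

/-- invariance principle: an involution of the support preserving the weights -/
theorem E3_inv {c : ℝ} {F : Finset P2} {φ : C3 → C3} {P : C3 → Prop} [DecidablePred P]
    (h1 : ∀ ω ∈ conf3 F, P ω → φ ω ∈ conf3 F) (h2 : ∀ ω ∈ conf3 F, P ω → P (φ ω))
    (h3 : ∀ ω ∈ conf3 F, P ω → φ (φ ω) = ω) (h4 : ∀ ω ∈ conf3 F, P ω → wt3 c F (φ ω) = wt3 c F ω)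
    (f : C3 → ℝ) :
    E3 c F (fun ω => if P ω then f (φ ω) else 0) = E3 c F (fun ω => if P ω then f ω else 0) := by
  rw [E3_eq, E3_eq]
  congr 1
  have key : ∀ g : C3 → ℝ, ∑ ω ∈ conf3 F, wt3 c F ω * (if P ω then g ω else 0) =
      ∑ ω ∈ (conf3 F).filter P, wt3 c F ω * g ω := by
    intro g
    rw [Finset.sum_filter]
    refine Finset.sum_congr rfl fun ω _ => ?_
    split_ifs
    · rfl
    · exact mul_zero _
  rw [key fun ω => f (φ ω), key f]
  have hm : ∀ ω ∈ (conf3 F).filter P, φ ω ∈ (conf3 F).filter P := by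
    intro ω hω
    rw [Finset.mem_filter] at hω ⊢
    exact ⟨h1 ω hω.1 hω.2, h2 ω hω.1 hω.2⟩
  refine Finset.sum_nbij' φ φ hm hm ?_ ?_ ?_
  · intro ω hω
    rw [Finset.mem_filter] at hω
    exact h3 ω hω.1 hω.2
  · intro ω hω
    rw [Finset.mem_filter] at hω
    exact h3 ω hω.1 hω.2
  · intro ω hω
    rw [Finset.mem_filter] at hω
    rw [h4 ω hω.1 hω.2]

/-! ### the flip `h ↦ 1 - h` -/

/-- reflected configuration -/
def rf3 (F : Finset P2) (ω : C3) : C3 := ((rf F (fst3 ω)).1, ω.2)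

theorem rf3_height {F : Finset P2} {ω : C3} {v : P2} (hv : v ∈ VF F) : (rf3 F ω).1 v = 1 - ω.1 v :=
  rf_of_mem hv

theorem rf3_s1 {F : Finset P2} {ω : C3} (h : HV F ω.1) (v : P2) :
    s1 ((rf3 F ω).1 v) = s1 (ω.1 v) := by
  by_cases hv : v ∈ VF F
  · rw [rf3_height hv, s1_refl]
  · have e : (rf3 F ω).1 v = 0 := rf_of_notMem hv
    rw [e, h.off v hv]

theorem rf3_s2 {F : Finset P2} {ω : C3} {v : P2} (hv : v ∈ VF F) :
    s2 ((rf3 F ω).1 v) = !s2 (ω.1 v) := by
  rw [rf3_height hv, s2_refl]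

theorem ew3_congr {c : ℝ} {h g : P2 → ℤ} {t : P2} (e1 : C1 h t ↔ C1 g t) (e2 : C2 h t ↔ C2 g t)
    (z y : Bool) : ew3 c h t z y = ew3 c g t z y := by
  unfold ew3
  simp only [e1, e2]

theorem ew3_exch {c : ℝ} {h g : P2 → ℤ} {t : P2} (e1 : C1 h t ↔ C2 g t) (e2 : C2 h t ↔ C1 g t)
    (z y : Bool) : ew3 c h t z y = ew3 c g t y z := by
  unfold ew3
  simp only [e1, e2]
  by_cases h1 : C1 g t <;> by_cases h2 : C2 g t <;> cases z <;> cases y <;> simp [h1, h2]

/-- **Flip** of the second colour. -/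
theorem E3_rf (c : ℝ) (F : Finset P2) (f : C3 → ℝ) : E3 c F (fun ω => f (rf3 F ω)) = E3 c F f := by
  classical
  have h := E3_inv (c := c) (F := F) (φ := rf3 F) (P := fun _ => True) ?_ (fun _ _ _ => trivial) ?_ ?_ f
  · simpa only [if_true] using h
  · intro ω hω _
    rw [mem_conf3] at *
    exact ⟨(rf_valid (B := F) (ω := (ω.1, fun _ => true)) ⟨hω.1, fun _ _ => rfl⟩).ht, hω.2⟩
  · intro ω hω _
    rw [mem_conf3] at hω
    have := rf_rf (B := F) (ω := (ω.1, fun _ => true)) ⟨hω.1, fun _ _ => rfl⟩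
    refine Prod.ext ?_ rfl
    exact (Prod.ext_iff.1 this).1
  · intro ω hω _
    rw [mem_conf3] at hω
    unfold wt3
    refine Finset.prod_congr rfl fun t ht => ?_
    have hv : ∀ i, cr t i ∈ VF F := fun i => mem_VF.2 ⟨t, ht, cr_mem_up t i⟩
    have e : ∀ i, (rf3 F ω).1 (cr t i) = 1 - ω.1 (cr t i) := fun i => rf3_height (hv i)
    refine ew3_congr ?_ ?_ _ _
    · unfold C1
      rw [e, e, e, s1_refl, s1_refl, s1_refl]
    · unfold C2
      rw [e, e, e, s2_refl, s2_refl, s2_refl]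
      cases s2 (ω.1 (cr t 0)) <;> cases s2 (ω.1 (cr t 1)) <;> cases s2 (ω.1 (cr t 2)) <;> simp

/-! ### exchange of the colours inside a region with exact height `k` on its boundary -/

theorem s1_two_sub (k a : ℤ) (b : ℤ) : s1 (2 * k - a) = s1 (2 * k - b) ↔ s2 a = s2 b := by
  unfold s1 s2
  rw [decide_eq_decide, decide_eq_decide]
  omega

theorem s2_two_sub (k a : ℤ) (b : ℤ) : s2 (2 * k - a) = s2 (2 * k - b) ↔ s1 a = s1 b := by
  unfold s1 s2
  rw [decide_eq_decide, decide_eq_decide]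
  omega

open Classical in
/-- reflection about `k` in `V` and exchange of the statuses of the triangles touching `V` -/
def exch (k : ℤ) (V : Finset P2) (ω : C3) : C3 :=
  (fun v => if v ∈ V then 2 * k - ω.1 v else ω.1 v,
    fun t => if ∃ v ∈ V, v ∈ up t then ω.2.2 t else ω.2.1 t,
    fun t => if ∃ v ∈ V, v ∈ up t then ω.2.1 t else ω.2.2 t)

/-- the height is exactly `k` on the neighbours of `V` -/
def Bd (k : ℤ) (V : Finset P2) (h : P2 → ℤ) : Prop := ∀ v ∈ V, ∀ w, w ∉ V → Adj v w → h w = k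

theorem exch_in {k : ℤ} {V : Finset P2} {ω : C3} {v : P2} (hv : v ∈ V) :
    (exch k V ω).1 v = 2 * k - ω.1 v := if_pos hv
theorem exch_out {k : ℤ} {V : Finset P2} {ω : C3} {v : P2} (hv : v ∉ V) :
    (exch k V ω).1 v = ω.1 v := if_neg hv
theorem exch_z {k : ℤ} {V : Finset P2} {ω : C3} {t : P2} (ht : ∃ v ∈ V, v ∈ up t) :
    (exch k V ω).2.1 t = ω.2.2 t := if_pos ht
theorem exch_y {k : ℤ} {V : Finset P2} {ω : C3} {t : P2} (ht : ∃ v ∈ V, v ∈ up t) :
    (exch k V ω).2.2 t = ω.2.1 t := if_pos ht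
theorem exch_z' {k : ℤ} {V : Finset P2} {ω : C3} {t : P2} (ht : ¬ ∃ v ∈ V, v ∈ up t) :
    (exch k V ω).2.1 t = ω.2.1 t := if_neg ht
theorem exch_y' {k : ℤ} {V : Finset P2} {ω : C3} {t : P2} (ht : ¬ ∃ v ∈ V, v ∈ up t) :
    (exch k V ω).2.2 t = ω.2.2 t := if_neg ht

theorem adj_of_up {t u v : P2} (hu : u ∈ up t) (hv : v ∈ up t) (hne : u ≠ v) : Adj u v := by
  rw [mem_up] at hu hv
  rw [adj_iff]
  obtain ⟨a, b⟩ := t
  obtain ⟨x, y⟩ := u
  obtain ⟨x', y'⟩ := v
  simp only [Prod.mk.injEq, ne_eq] at *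
  omega

/-- on a triangle touching `V` all heights are reflected -/
theorem exch_up {k : ℤ} {V : Finset P2} {ω : C3} (hb : Bd k V ω.1) {t : P2} (ht : ∃ v ∈ V, v ∈ up t)
    {u : P2} (hu : u ∈ up t) : (exch k V ω).1 u = 2 * k - ω.1 u := by
  by_cases huV : u ∈ V
  · exact exch_in huV
  · obtain ⟨v, hv, hvt⟩ := ht
    have h1 := hb v hv u huV (adj_of_up hvt hu fun h => huV (h ▸ hv))
    rw [exch_out huV, h1]
    ring

theorem bd_exch {k : ℤ} {V : Finset P2} {ω : C3} (hb : Bd k V ω.1) : Bd k V (exch k V ω).1 := by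
  intro v hv w hw ha
  rw [exch_out hw]
  exact hb v hv w hw ha

theorem exch_exch (k : ℤ) (V : Finset P2) (ω : C3) : exch k V (exch k V ω) = ω := by
  refine Prod.ext ?_ (Prod.ext ?_ ?_)
  · funext v
    by_cases hv : v ∈ V
    · rw [exch_in hv, exch_in hv]; ring
    · rw [exch_out hv, exch_out hv]
  · funext t
    by_cases ht : ∃ v ∈ V, v ∈ up t
    · rw [exch_z ht, exch_y ht]
    · rw [exch_z' ht, exch_z' ht]
  · funext t
    by_cases ht : ∃ v ∈ V, v ∈ up t
    · rw [exch_y ht, exch_z ht]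
    · rw [exch_y' ht, exch_y' ht]

theorem exch_hv {k : ℤ} {F V : Finset P2} (hV : V ⊆ IV F) {ω : C3} (hω : HV F ω.1)
    (hb : Bd k V ω.1) : HV F (exch k V ω).1 := by
  refine ⟨fun t ht i j => ?_, fun v hv => ?_, fun v hv => ?_⟩
  · by_cases h : ∃ v ∈ V, v ∈ up t
    · rw [exch_up hb h (cr_mem_up t i), exch_up hb h (cr_mem_up t j)]
      have := hω.lip t ht i j
      rw [abs_le] at *
      omega
    · push Not at h
      rw [exch_out fun hv => h _ hv (cr_mem_up t i), exch_out fun hv => h _ hv (cr_mem_up t j)]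
      exact hω.lip t ht i j
  · rw [exch_out fun h => hv (hV h)]
    exact hω.bd v hv
  · rw [exch_out fun h => hv (IV_sub_VF F (hV h))]
    exact hω.off v hv

theorem exch_wt {c : ℝ} {k : ℤ} {F V : Finset P2} {ω : C3} (hb : Bd k V ω.1) :
    wt3 c F (exch k V ω) = wt3 c F ω := by
  unfold wt3
  refine Finset.prod_congr rfl fun t _ => ?_
  by_cases h : ∃ v ∈ V, v ∈ up t
  · rw [exch_z h, exch_y h]
    have e : ∀ i, (exch k V ω).1 (cr t i) = 2 * k - ω.1 (cr t i) := fun i =>
      exch_up hb h (cr_mem_up t i)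
    refine ew3_exch ?_ ?_ _ _
    · unfold C1 C2
      rw [e, e, e, s1_two_sub, s1_two_sub]
    · unfold C1 C2
      rw [e, e, e, s2_two_sub, s2_two_sub]
  · rw [exch_z' h, exch_y' h]
    push Not at h
    have e : ∀ i, (exch k V ω).1 (cr t i) = ω.1 (cr t i) := fun i =>
      exch_out fun hv => h _ hv (cr_mem_up t i)
    refine ew3_congr ?_ ?_ _ _
    · unfold C1
      rw [e, e, e]
    · unfold C2
      rw [e, e, e]

theorem exch_conf {k : ℤ} {F V : Finset P2} (hV : V ⊆ IV F) {ω : C3} (hω : ω ∈ conf3 F)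
    (hb : Bd k V ω.1) : exch k V ω ∈ conf3 F := by
  rw [mem_conf3] at *
  have key : ∀ t, t ∉ F → ¬ ∃ v ∈ V, v ∈ up t := fun t ht ⟨v, hv, hvt⟩ =>
    ht ((mem_IV'.1 (hV hv)) t hvt)
  refine ⟨exch_hv hV hω.1 hb, fun t ht => ?_, fun t ht => ?_⟩
  · rw [exch_z' (key t ht)]; exact hω.2.1 t ht
  · rw [exch_y' (key t ht)]; exact hω.2.2 t ht

open Classical in
/-- **Exchange of the colours inside a region with exact boundary height.** `P` is any event unaffected by the
exchange and contained in "height `k` around `V`". -/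
theorem E3_exch (c : ℝ) {k : ℤ} {F V : Finset P2} (hV : V ⊆ IV F) {P : C3 → Prop}
    (hP : ∀ ω, P ω → Bd k V ω.1) (hP' : ∀ ω, P ω → P (exch k V ω)) (f : C3 → ℝ) :
    E3 c F (fun ω => if P ω then f (exch k V ω) else 0) = E3 c F (fun ω => if P ω then f ω else 0) :=
  E3_inv (fun _ hω h => exch_conf hV hω (hP _ h)) (fun _ _ h => hP' _ h) (fun ω _ _ => exch_exch k V ω)
    (fun _ _ h => exch_wt (hP _ h)) f

/-! ### kernels -/

/-- conditional probability of the status `z` given the heights and the status `y` -/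
def kz (c : ℝ) (h : P2 → ℤ) (t : P2) (y z : Bool) : ℝ :=
  if y then (if C1 h t then (if z then 2 - c else c - 1) else (if z then 0 else 1))
  else (if z then 1 else 0)

theorem kz_nonneg {c : ℝ} (hc : 1 ≤ c) (hc2 : c ≤ 2) (h : P2 → ℤ) (t : P2) (y z : Bool) :
    0 ≤ kz c h t y z := by
  unfold kz
  split_ifs <;> first | exact zero_le_one | exact le_rfl | linarith

theorem kz_sum (c : ℝ) (h : P2 → ℤ) (t : P2) (y : Bool) : kz c h t y true + kz c h t y false = 1 := by
  unfold kz
  by_cases h1 : C1 h t <;> cases y <;> simp [h1]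
  norm_num

theorem ew3_kz (c : ℝ) (h : P2 → ℤ) (t : P2) (z : Bool) (y : P2 → Bool) :
    ew3 c h t z (y t) = ew c (ng h, y) t * kz c h t (y t) z := by
  unfold ew3 ew kz
  simp only [c1_ng, c2_ng]
  by_cases h1 : C1 h t <;> by_cases h2 : C2 h t <;> cases z <;> rcases hb : y t with _ | _ <;>
    simp [h1, h2]

/-- average over the statuses `z` given `(h, y)` -/
def avz (c : ℝ) (F : Finset P2) (f : C3 → ℝ) (h : P2 → ℤ) (y : P2 → Bool) : ℝ :=
  ∑ z ∈ zs F, (∏ t ∈ F, kz c h t (y t) (z t)) * f (h, z, y)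

theorem kz_prod (c : ℝ) (F : Finset P2) (h : P2 → ℤ) (y : P2 → Bool) :
    ∑ z ∈ zs F, ∏ t ∈ F, kz c h t (y t) (z t) = 1 := by
  rw [sum_zs_prod F fun t b => kz c h t (y t) b]
  exact Finset.prod_eq_one fun t _ => kz_sum c h t (y t)

/-- **Conditional independence** of the statuses of the first representation given `(h, y)`. -/
theorem E3_cond (c : ℝ) (F : Finset P2) (f : C3 → ℝ) :
    E3 c F f = EX c F (fun ω => avz c F f (ng ω.1) ω.2) := by
  classical
  rw [EX_eq]
  unfold E3 S3 S2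
  congr 1
  rw [Finset.sum_image fun a _ b _ e => ng_inj e]
  refine Finset.sum_congr rfl fun h _ => ?_
  rw [Finset.sum_comm]
  refine Finset.sum_congr rfl fun y _ => ?_
  simp only [ng_ng]
  unfold avz
  rw [Finset.mul_sum]
  refine Finset.sum_congr rfl fun z _ => ?_
  have e : wt3 c F (h, z, y) = wt c F (ng h, y) * ∏ t ∈ F, kz c h t (y t) (z t) := by
    unfold wt3 wt
    rw [← Finset.prod_mul_distrib]
    exact Finset.prod_congr rfl fun t _ => ew3_kz c h t (z t) y
  rw [e]
  ring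

/-- conditional probability of the status `y` given the heights and the status `z` -/
def ky (c : ℝ) (h : P2 → ℤ) (t : P2) (z y : Bool) : ℝ := kz c (ng h) t z y

theorem ky_nonneg {c : ℝ} (hc : 1 ≤ c) (hc2 : c ≤ 2) (h : P2 → ℤ) (t : P2) (z y : Bool) :
    0 ≤ ky c h t z y := kz_nonneg hc hc2 _ _ _ _

theorem ky_sum (c : ℝ) (h : P2 → ℤ) (t : P2) (z : Bool) : ky c h t z true + ky c h t z false = 1 :=
  kz_sum c _ t z

theorem ew3_ky (c : ℝ) (h : P2 → ℤ) (t : P2) (z : P2 → Bool) (y : Bool) :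
    ew3 c h t (z t) y = ew c (h, z) t * ky c h t (z t) y := by
  unfold ew3 ew ky kz
  simp only [c1_ng]
  by_cases h1 : C1 h t <;> by_cases h2 : C2 h t <;> cases y <;> rcases hb : z t with _ | _ <;>
    simp [h1, h2]

/-- average over the statuses `y` given `(h, z)` -/
def avy (c : ℝ) (F : Finset P2) (f : C3 → ℝ) (ω : Cfg) : ℝ :=
  ∑ y ∈ zs F, (∏ t ∈ F, ky c ω.1 t (ω.2 t) (y t)) * f (ω.1, ω.2, y)

theorem ky_prod (c : ℝ) (F : Finset P2) (h : P2 → ℤ) (z : P2 → Bool) :
    ∑ y ∈ zs F, ∏ t ∈ F, ky c h t (z t) (y t) = 1 := by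
  rw [sum_zs_prod F fun t b => ky c h t (z t) b]
  exact Finset.prod_eq_one fun t _ => ky_sum c h t (z t)

/-- **Conditional independence** of the statuses of the second representation given `(h, z)`. -/
theorem E3_cond' (c : ℝ) (F : Finset P2) (f : C3 → ℝ) : E3 c F f = E c F (avy c F f) := by
  have h1 : E c F (avy c F f) = S2 c F (hts F) (avy c F f) / Z c F := by
    rw [S2_hts, E_eq_S]
  rw [h1]
  unfold E3 S3 S2
  congr 1
  refine Finset.sum_congr rfl fun h _ => Finset.sum_congr rfl fun z _ => ?_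
  unfold avy
  rw [Finset.mul_sum]
  refine Finset.sum_congr rfl fun y _ => ?_
  have e : wt3 c F (h, z, y) = wt c F (h, z) * ∏ t ∈ F, ky c h t (z t) (y t) := by
    unfold wt3 wt
    rw [← Finset.prod_mul_distrib]
    exact Finset.prod_congr rfl fun t _ => ew3_ky c h t z (y t)
  rw [e]
  ring

/-! ### flips of the first colour in the second representation -/

/-- the exchanged law in terms of the colour sets -/
theorem SX_tri {F : Finset P2} (hF : SC F) (c : ℝ)
    (f : (P2 → Bool) → (P2 → Bool) → (P2 → Bool) → ℝ) :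
    EX c F (fun ω => f (fun v => s1 (ω.1 v)) (fun v => s2 (ω.1 v)) ω.2) =
      (∑ T ∈ (IV F).powerset, ∑ A ∈ (VF F).powerset, ∑ Z ∈ F.powerset,
        (∏ t ∈ F, ewS c A T Z t) *
          f (fun v => decide (v ∉ A)) (fun v => decide (v ∉ T)) (zb F Z)) / Z c F := by
  classical
  rw [EX_eq]
  congr 1
  unfold S2
  rw [Finset.sum_image fun a _ b _ e => ng_inj e]
  have h1 : ∀ h ∈ hts F, ∑ z ∈ zs F, wt c F (ng h, z) *
      f (fun v => s1 (ng h v)) (fun v => s2 (ng h v)) z =
      (fun T A => ∑ Z ∈ F.powerset, (∏ t ∈ F, ewS c A T Z t) *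
          f (fun v => decide (v ∉ A)) (fun v => decide (v ∉ T)) (zb F Z)) (tm F h) (am F h) := by
    intro h hh
    rw [mem_hts] at hh
    rw [sum_zs F fun z => wt c F (ng h, z) * f (fun v => s1 (ng h v)) (fun v => s2 (ng h v)) z]
    refine Finset.sum_congr rfl fun Z hZ => ?_
    have e1 : (fun v => s1 (ng h v)) = fun v => decide (v ∉ am F h) := by
      funext v
      rw [s1_ng]
      have := mem_am hh (v := v)
      cases hs : s2 (h v) <;> simp [this, hs]
    have e2 : (fun v => s2 (ng h v)) = fun v => decide (v ∉ tm F h) := by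
      funext v
      rw [s2_ng]
      have := mem_tm hh (v := v)
      cases hs : s1 (h v) <;> simp [this, hs]
    rw [e1, e2]
    congr 1
    unfold wt
    refine Finset.prod_congr rfl fun t ht => ?_
    unfold ew ewS
    have e : (zb F Z t = true) ↔ t ∈ Z := by
      unfold zb
      rw [decide_eq_true_eq]
      constructor
      · rintro (h | h)
        · exact absurd ht h
        · exact h
      · exact Or.inr
    simp only [c1_ng, c2_ng, c1_iff hh, c2_iff hh, e]
  refine (Finset.sum_congr rfl h1).trans ((sum_hts hF fun T A => ∑ Z ∈ F.powerset,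
    (∏ t ∈ F, ewS c A T Z t) * f (fun v => decide (v ∉ A)) (fun v => decide (v ∉ T)) (zb F Z)).trans ?_)
  refine Finset.sum_congr rfl fun T _ => Finset.sum_congr rfl fun A _ => ?_
  split_ifs with h
  · rfl
  · push Not at h
    obtain ⟨t, ht, h1, h2⟩ := h
    symm
    refine Finset.sum_eq_zero fun Z _ => ?_
    rw [Finset.prod_eq_zero ht, zero_mul]
    unfold ewS
    rw [if_neg h1, if_neg h2]
    split_ifs <;> rfl

/-- **Flips in the exchanged law**: `U` a function of `(c1, z)` with values sets of interior sites, no open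
triangle of `F` being split. (In terms of `E3`: `c1 = s2`, `c2 = s1`, `z = y`.) -/
theorem flipX {F : Finset P2} (hF : SC F) (c : ℝ) (U : (P2 → Bool) → (P2 → Bool) → P2 → Bool)
    (hU1 : ∀ s z v, (∀ t, t ∉ F → z t = true) → U s z v = true → v ∈ IV F)
    (hU2 : ∀ s z t, (∀ t, t ∉ F → z t = true) → z t = false → ∀ i j, U s z (cr t i) = U s z (cr t j))
    (f : (P2 → Bool) → (P2 → Bool) → (P2 → Bool) → ℝ) :
    EX c F (fun ω => f (fun v => s1 (ω.1 v))
        (fun v => xor (s2 (ω.1 v)) (U (fun v => s1 (ω.1 v)) ω.2 v)) ω.2) =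
      EX c F (fun ω => f (fun v => s1 (ω.1 v)) (fun v => s2 (ω.1 v)) ω.2) := by
  classical
  rw [SX_tri hF c (fun s a z => f s (fun v => xor (a v) (U s z v)) z), SX_tri hF c f]
  congr 1
  let V : Finset P2 → Finset P2 → Finset P2 := fun A Z =>
    (IV F).filter fun v => U (fun v => decide (v ∉ A)) (zb F Z) v = true
  have hz : ∀ Z : Finset P2, ∀ t, t ∉ F → zb F Z t = true := by
    intro Z t ht
    unfold zb
    rw [decide_eq_true_eq]
    exact Or.inl ht
  have hV : ∀ A Z v, v ∈ V A Z ↔ U (fun v => decide (v ∉ A)) (zb F Z) v = true := by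
    intro A Z v
    simp only [V, Finset.mem_filter]
    exact ⟨fun h => h.2, fun h => ⟨hU1 _ _ _ (hz Z) h, h⟩⟩
  rw [Finset.sum_comm, Finset.sum_comm (s := (IV F).powerset)]
  refine Finset.sum_congr rfl fun A _ => ?_
  rw [Finset.sum_comm, Finset.sum_comm (s := (IV F).powerset)]
  refine Finset.sum_congr rfl fun Z hZ => ?_
  rw [Finset.mem_powerset] at hZ
  have hmem : ∀ T ∈ (IV F).powerset, symmDiff T (V A Z) ∈ (IV F).powerset := by
    intro T hT
    rw [Finset.mem_powerset] at hT ⊢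
    intro v hv
    rw [Finset.mem_symmDiff] at hv
    rcases hv with h | h
    · exact hT h.1
    · exact Finset.filter_subset _ _ h.1
  refine Finset.sum_nbij' (fun T => symmDiff T (V A Z)) (fun T => symmDiff T (V A Z)) hmem hmem
    (fun T _ => symmDiff_symmDiff_cancel_right _ _) (fun T _ => symmDiff_symmDiff_cancel_right _ _)
    fun T hT => ?_
  have e1 : ∏ t ∈ F, ewS c A (symmDiff T (V A Z)) Z t = ∏ t ∈ F, ewS c A T Z t := by
    refine Finset.prod_congr rfl fun t ht => ?_
    unfold ewS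
    by_cases htZ : t ∈ Z
    · rw [if_pos htZ, if_pos htZ]
    · rw [if_neg htZ, if_neg htZ]
      have := Crest.Agent.R144.Pst967.m3_symmDiff (t := t) (A := T) (U := V A Z) fun i j => by
        rw [hV, hV, hU2 _ _ t (hz Z) (by
          unfold zb
          rw [decide_eq_false_iff_not]
          tauto) i j]
      simp only [this]
  have e2 : (fun v => decide (v ∉ symmDiff T (V A Z))) =
      fun v => xor (decide (v ∉ T)) (U (fun v => decide (v ∉ A)) (zb F Z) v) := by
    funext v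
    have h1 := hV A Z v
    apply bool_eq_of_iff
    rw [decide_eq_true_eq, Finset.mem_symmDiff, h1]
    by_cases hT : v ∈ T <;> cases hb : U (fun v => decide (v ∉ A)) (zb F Z) v <;> simp [hT]
  rw [e1, e2]

end Crest.Agent.R144.Xc851
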