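import Crest.Agent.R144.Mk2_696
import Crest.Agent.R144.Xc2_851

/-!
# R144, marked model, part 3: ONE domain for the second representation (helper696)

For helper851's joint law `E3 c F` of `(h, z, y)` (`z` closed for the first representation, `y` for the second).
* `avg_local` : product kernels see only the window of the observable;
* `one_dom3` : `f ≥ 0` a function of `(s1, z)` in `ball a m`: some `D` simply connected, `ball a m ⊆ D ⊆ F`,
  `(P(layer of {y}) / 2) * E3 c D (f with the two representations exchanged) ≤ E c F f`;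
* `one` : helper121's ONE.
-/

set_option autoImplicit false
set_option linter.unusedSectionVars false

noncomputable section

namespace Crest.Agent.R144.Mk696

open Finset
open Crest.Agent.R144.It844 (P2 Lip adj_symm adj_iff adj_comm lip_iff)
open Crest.ProbabilityR.HexHeights (Adj)
open Crest.Agent.R144.Zg349 Crest.Agent.R144.Zd349 Crest.Agent.R144.Zm349 Crest.Agent.R144.Ze349
open Crest.Agent.R144.Zs349
open Crest.Agent.R144.Rsw867
open Crest.Agent.R144.Xc851 (C3 fst3 snd3 ew3 wt3 E3 EX V3 E3_fst EX_eq S2 avz avy kz ky E3_cond E3_cond'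
  E3_rf rf3 rf3_s2 rf3_s1 E3_mono E3_congr E3_add E3_smul E3_nonneg E3_const sum_zs_prod kz_sum ky_sum
  EX_mono EX_congr EX_nonneg VX EX_add EX_smul)

/-! ### product kernels -/

open Classical in
theorem avg_local {A F : Finset P2} (hAF : A ⊆ F) (w : P2 → Bool → ℝ)
    (hw : ∀ t, w t true + w t false = 1) (φ : (P2 → Bool) → ℝ)
    (hφ : ∀ z z', (∀ t ∈ A, z t = z' t) → φ z = φ z') :
    ∑ z ∈ zs F, (∏ t ∈ F, w t (z t)) * φ z = ∑ z ∈ zs A, (∏ t ∈ A, w t (z t)) * φ z := by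
  have h1 : ∑ z ∈ zs (F \ A), ∏ t ∈ F \ A, w t (z t) = 1 := by
    rw [sum_zs_prod]
    exact Finset.prod_eq_one fun t _ => hw t
  have h2 : ∑ z ∈ zs A, (∏ t ∈ A, w t (z t)) * φ z =
      ∑ p ∈ zs A ×ˢ zs (F \ A), ((∏ t ∈ A, w t (p.1 t)) * φ p.1) * ∏ t ∈ F \ A, w t (p.2 t) := by
    rw [Finset.sum_product]
    refine Finset.sum_congr rfl fun z _ => ?_
    simp only
    rw [← Finset.mul_sum, h1, mul_one]
  rw [h2]
  refine Finset.sum_bij' (fun z _ => (fun t => if t ∈ A then z t else true, fun t => if t ∈ A then true else z t))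
    (fun p _ => fun t => if t ∈ A then p.1 t else p.2 t) ?_ ?_ ?_ ?_ ?_
  · intro z hz
    rw [mem_zs] at hz
    rw [Finset.mem_product, mem_zs, mem_zs]
    refine ⟨fun t ht => if_neg ht, fun t ht => ?_⟩
    simp only
    split_ifs with h
    · rfl
    · exact hz t fun h' => ht (Finset.mem_sdiff.2 ⟨h', h⟩)
  · intro p hp
    rw [Finset.mem_product, mem_zs, mem_zs] at hp
    rw [mem_zs]
    intro t ht
    rw [if_neg fun h => ht (hAF h)]
    exact hp.2 t fun h => ht (Finset.mem_sdiff.1 h).1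
  · intro z _
    funext t
    simp only
    split_ifs <;> rfl
  · intro p hp
    rw [Finset.mem_product, mem_zs, mem_zs] at hp
    refine Prod.ext (funext fun t => ?_) (funext fun t => ?_)
    · simp only
      split_ifs with h
      · rfl
      · exact (hp.1 t h).symm
    · simp only
      split_ifs with h
      · exact (hp.2 t fun h' => (Finset.mem_sdiff.1 h').2 h).symm
      · rfl
  · intro z _
    simp only
    have e1 : ∏ t ∈ F, w t (z t) = (∏ t ∈ F \ A, w t (z t)) * ∏ t ∈ A, w t (z t) :=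
      (Finset.prod_sdiff hAF).symm
    have e2 : ∏ t ∈ F \ A, w t (if t ∈ A then true else z t) = ∏ t ∈ F \ A, w t (z t) :=
      Finset.prod_congr rfl fun t ht => by rw [if_neg (Finset.mem_sdiff.1 ht).2]
    have e3 : ∏ t ∈ A, w t (if t ∈ A then z t else true) = ∏ t ∈ A, w t (z t) :=
      Finset.prod_congr rfl fun t ht => by rw [if_pos ht]
    have e4 : φ (fun t => if t ∈ A then z t else true) = φ z :=
      hφ _ _ fun t ht => if_pos ht
    rw [e1, e2, e3, e4]
    ring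

/-! ### the exchanged law as a sum over `cfX` -/

theorem EX_sum (c : ℝ) (F : Finset P2) (f : Cfg → ℝ) :
    EX c F f = (∑ ω ∈ cfX F, wt c F ω * f ω) / Z c F := by
  classical
  rw [EX_eq, sum_cfX]
  congr 1
  unfold S2 conf
  rw [Finset.sum_product, Finset.sum_image fun a _ b _ h => Crest.Agent.R144.Xc851.ng_inj h]
  rfl

theorem vf_ball {a : P2} {N : ℕ} {F : Finset P2} (h : ball a (N + 1) ⊆ F) : VF (ball a N) ⊆ IV F := by
  intro v hv
  obtain ⟨t, ht, hvt⟩ := mem_VF.1 hv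
  rw [mem_IV']
  intro t' ht'
  by_cases e : t = t'
  · rw [← e]
    exact h (ball_mono a (by omega) ht)
  · exact h (adj_ball ht (adj_of_site e hvt ht'))

open Classical in
/-- one domain, one sign -/
theorem one_domX {c : ℝ} (hc : 1 ≤ c) {F : Finset P2} {a : P2} {N : ℕ} (hF : ball a (N + 1) ⊆ F)
    (e : Bool) {A : Finset P2} {f : Cfg → ℝ} (hf : InC A f) (hf0 : ∀ ω, 0 ≤ f ω) {q : ℝ} (hq : 0 < q)
    (h : q ≤ EX c F (fun ω => if A ⊆ Un (eC e ω) (ball a N) then 1 else 0)) :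
    ∃ B : Finset P2, SC B ∧ A ⊆ B ∧ B ⊆ ball a N ∧
      q * E c B (fun ω => f (addH (off e) ω)) ≤ EX c F f := by
  have hZ := Z_pos hc F
  rw [EX_sum, le_div_iff₀ hZ] at h
  obtain ⟨B, h1, h2, h3, h4⟩ := one_dom hc (sc_ball a N)
    (fam_cfX (F := F) (K := ball a N) ((ball_mono a (by omega)).trans hF) (vf_ball hF)) e hf
    (fun ω _ => hf0 ω) (mul_pos hq hZ) h
  refine ⟨B, h1, h2, h3, ?_⟩
  rw [EX_sum, le_div_iff₀ hZ]
  linarith

open Classical in
/-- one domain, layer of closed triangles of any sign -/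
theorem one_domX' {c : ℝ} (hc : 1 ≤ c) {F : Finset P2} {a : P2} {m N : ℕ} (hmN : m + 1 ≤ N)
    (hF : ball a (N + 2) ⊆ F) {f : Cfg → ℝ} (hf : InC (ball a m) f) (hf0 : ∀ ω, 0 ≤ f ω) :
    ∃ (e : Bool) (B : Finset P2), SC B ∧ ball a m ⊆ B ∧ B ⊆ ball a (N + 1) ∧
      EX c F (fun ω => if Sepr (cl ω) a (m + 1) N then 1 else 0) *
        E c B (fun ω => f (addH (off e) ω)) ≤ 2 * EX c F f := by
  set q := EX c F (fun ω => if Sepr (cl ω) a (m + 1) N then 1 else 0) with hq
  have hf1 : 0 ≤ EX c F f := EX_nonneg hc fun ω _ _ => hf0 ω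
  have hsplit : q ≤ EX c F (fun ω => if ball a m ⊆ Un (eC true ω) (ball a (N + 1)) then 1 else 0) +
      EX c F (fun ω => if ball a m ⊆ Un (eC false ω) (ball a (N + 1)) then 1 else 0) := by
    rw [hq, ← EX_add]
    refine EX_mono hc fun ω _ hw => ?_
    by_cases h : Sepr (cl ω) a (m + 1) N
    · rw [if_pos h]
      rw [cl_eq] at h
      have h1 := sepr_split hmN (fun u hu v hv hP hQ => not_adj hw
        (hF (ball_mono a (by omega) hu)) (hF (ball_mono a (by omega) hv)) hP hQ) h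
      rcases h1 with h1 | h1
      · rw [if_pos (sepr_un hmN h1)]
        split_ifs <;> norm_num
      · rw [if_pos (sepr_un hmN h1)]
        split_ifs <;> norm_num
    · rw [if_neg h]
      split_ifs <;> norm_num
  rcases le_or_gt q 0 with hq0 | hq0
  · refine ⟨true, ball a m, sc_ball a m, subset_rfl, ball_mono a (by omega), ?_⟩
    have h1 : 0 ≤ E c (ball a m) (fun ω => f (addH (off true) ω)) := E_nonneg hc fun ω _ => hf0 _
    nlinarith
  · obtain ⟨e, he⟩ : ∃ e : Bool, q / 2 ≤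
        EX c F (fun ω => if ball a m ⊆ Un (eC e ω) (ball a (N + 1)) then 1 else 0) := by
      by_contra h
      push Not at h
      have h1 := h true
      have h2 := h false
      linarith
    obtain ⟨B, h1, h2, h3, h4⟩ := one_domX hc hF e hf hf0 (half_pos hq0) he
    exact ⟨e, B, h1, h2, h3, by linarith⟩

/-! ### joint law -/

/-- `f` sees `(s1, z)` in `A` -/
def In1 (A : Finset P2) (f : Cfg → ℝ) : Prop :=
  ∀ ω ω' : Cfg, (∀ t ∈ A, s1 (ω.1 t) = s1 (ω'.1 t)) → (∀ t ∈ A, ω.2 t = ω'.2 t) → f ω = f ω'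

/-- average of `f (h, z)` given `(g, y) = (-h, y)` on the window `A` -/
def Av (c : ℝ) (A : Finset P2) (f : Cfg → ℝ) (ω : Cfg) : ℝ :=
  ∑ z ∈ zs A, (∏ t ∈ A, kz c (Xc851.ng ω.1) t (ω.2 t) (z t)) * f (Xc851.ng ω.1, z)

theorem Av_nonneg {c : ℝ} (hc : 1 ≤ c) (hc2 : c ≤ 2) (A : Finset P2) {f : Cfg → ℝ} (hf : ∀ ω, 0 ≤ f ω)
    (ω : Cfg) : 0 ≤ Av c A f ω :=
  Finset.sum_nonneg fun _ _ => mul_nonneg
    (Finset.prod_nonneg fun _ _ => Xc851.kz_nonneg hc hc2 _ _ _ _) (hf _)

/-- marginal of `(h, z)` through the second representation -/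
theorem E_eq_Av (c : ℝ) {A F : Finset P2} (hAF : A ⊆ F) {f : Cfg → ℝ} (hf : In1 A f) :
    E c F f = EX c F (Av c A f) := by
  rw [← E3_fst, E3_cond]
  congr 1
  funext ω
  unfold avz Av fst3
  exact avg_local hAF (fun t b => kz c (Xc851.ng ω.1) t (ω.2 t) b) (fun t => kz_sum c _ t _)
    (fun z => f (Xc851.ng ω.1, z)) fun z z' h => hf _ _ (fun t _ => rfl) h

theorem s2_off (e : Bool) (b : ℤ) : s2 (b + off e) = (s2 b == e) := by
  cases e
  · unfold off
    simp only [Bool.false_eq_true, if_false]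
    rw [s2_add_two]
    cases s2 b <;> rfl
  · unfold off
    simp only [if_true, add_zero]
    cases s2 b <;> rfl

theorem Av_inC {c : ℝ} {A : Finset P2} {f : Cfg → ℝ} (hf : In1 A f) : InC A (Av c A f) := by
  intro ω ω' h1 h2
  unfold Av
  refine Finset.sum_congr rfl fun z _ => ?_
  have e1 : f (Xc851.ng ω.1, z) = f (Xc851.ng ω'.1, z) := by
    refine hf _ _ (fun t ht => ?_) fun t _ => rfl
    simp only [Xc851.s1_ng]
    exact (h1 t (mem_VF.2 ⟨t, ht, base_mem_up t⟩)).2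
  rw [e1]
  congr 1
  refine Finset.prod_congr rfl fun t ht => ?_
  have e2 : C1 (Xc851.ng ω.1) t ↔ C1 (Xc851.ng ω'.1) t := by
    rw [Xc851.c1_ng, Xc851.c1_ng]
    unfold C2
    rw [(h1 _ (cr_mem_VF ht 0)).2, (h1 _ (cr_mem_VF ht 1)).2, (h1 _ (cr_mem_VF ht 2)).2]
  unfold kz
  simp only [e2, h2 t ht]

/-- inside a domain the average is the marginal of the joint law, representations exchanged -/
theorem E_Av (c : ℝ) {A B : Finset P2} (hAB : A ⊆ B) {f : Cfg → ℝ} (hf : In1 A f) (e : Bool) :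
    E c B (fun ω => Av c A f (addH (off e) ω)) =
      E3 c B (fun ω => f (Xc851.ng (addH (off e) (fst3 ω)).1, ω.2.2)) := by
  rw [E3_cond']
  congr 1
  funext ω
  unfold avy Av
  have hk : ∀ t b, kz c (Xc851.ng (addH (off e) ω).1) t ((addH (off e) ω).2 t) b = ky c ω.1 t (ω.2 t) b := by
    intro t b
    have e2 : C1 (Xc851.ng (addH (off e) ω).1) t ↔ C1 (Xc851.ng ω.1) t := by
      rw [Xc851.c1_ng, Xc851.c1_ng]
      unfold C2 addH
      simp only [s2_off]
      generalize s2 (ω.1 (cr t 0)) = x0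
      generalize s2 (ω.1 (cr t 1)) = x1
      generalize s2 (ω.1 (cr t 2)) = x2
      revert x0 x1 x2 e
      decide
    unfold ky kz
    simp only [e2]
    rfl
  simp only [hk]
  exact (avg_local hAB (fun t b => ky c ω.1 t (ω.2 t) b) (fun t => ky_sum c _ t _)
    (fun z => f (Xc851.ng (addH (off e) ω).1, z)) fun z z' h => hf _ _ (fun t _ => rfl) h).symm

open Classical in
/-- **One domain, joint law.** -/
theorem one_dom3 {c : ℝ} (hc : 1 ≤ c) (hc2 : c ≤ 2) {F : Finset P2} {a : P2} {m N : ℕ} (hmN : m + 1 ≤ N)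
    (hF : ball a (N + 2) ⊆ F) {f : Cfg → ℝ} (hf : In1 (ball a m) f) (hf0 : ∀ ω, 0 ≤ f ω) :
    ∃ (e : Bool) (B : Finset P2), SC B ∧ ball a m ⊆ B ∧ B ⊆ ball a (N + 1) ∧
      E3 c F (fun ω => if Sepr {t | ω.2.2 t = true} a (m + 1) N then 1 else 0) *
        E3 c B (fun ω => f (Xc851.ng (addH (off e) (fst3 ω)).1, ω.2.2)) ≤ 2 * E c F f := by
  obtain ⟨e, B, h1, h2, h3, h4⟩ := one_domX' hc hmN hF (Av_inC (c := c) hf) (Av_nonneg hc hc2 _ hf0)
  refine ⟨e, B, h1, h2, h3, ?_⟩
  rw [E_Av c h2 hf e, ← E_eq_Av c ((ball_mono a (by omega)).trans hF) hf] at h4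
  exact h4

end Crest.Agent.R144.Mk696
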