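import Crest.Agent.R144.Pst3_967

/-!
# R144, plane state of the integer models (helper967), part 4: DLR equation, complex observables, uniqueness

* `exists_kernel` : for a local gradient observable `F` the function `h ↦ ex x Λ h F` agrees on Lipschitz
  heights with a local gradient observable;
* `ZeroLim.dlr` : `∫ F dP = ∫ (ex x Λ h F) dP(h)` for every finite `Λ` and local gradient observable `F`
  (real or complex); `ZeroLim.dlr_pinned` : the same for every local `F` when `0 ∉ Λ`;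
* `ZeroLim.complex` : convergence for complex observables;
* `PinnedZ.ext` : a pinned law is determined by its local gradient observables.
-/

set_option autoImplicit false

noncomputable section

namespace Crest.Agent.R144.Pst967

open MeasureTheory Filter Topology
open Crest.ProbabilityR.HexHeights (Adj)
open Crest.Agent.R144.It844

variable {V : Type*} [AddCommGroup V] [Module ℝ V]

/-- the boundary heights matter only on the support and next to `Λ` -/
theorem ex_local' (x : ℝ) {Λ : Finset P2} {τ τ' : Hz} (hτ : Lip τ) (hτ' : Lip τ') {S : Set P2}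
    {F : Hz → V} (hF : LocZ S F) (h : ∀ v, v ∈ S ∨ v ∈ nbhd Λ → τ v = τ' v) :
    ex x Λ τ F = ex x Λ τ' F := by
  classical
  let f : Hz → V := fun a => F (fun v => if v ∈ Λ then a v else τ v)
  have h1 : ex x Λ τ F = ex x Λ τ f := by
    refine ex_congr fun a ha => ?_
    refine hF _ _ fun v _ => ?_
    by_cases hv : v ∈ Λ
    · simp [hv]
    · simp [hv, (mem_conf.1 ha).2 v hv]
  have h2 : ex x Λ τ' F = ex x Λ τ' f := by
    refine ex_congr fun a ha => ?_
    refine hF _ _ fun v hvS => ?_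
    by_cases hv : v ∈ Λ
    · simp [hv]
    · simp [hv, (mem_conf.1 ha).2 v hv, h v (Or.inl hvS)]
  rw [h1, h2]
  refine ex_local x hτ hτ' (fun v _ hn => h v (Or.inr hn)) f fun a b hab => ?_
  have : (fun v => if v ∈ Λ then a v else τ v) = fun v => if v ∈ Λ then b v else τ v := by
    funext v
    by_cases hv : v ∈ Λ
    · simp [hv, hab v hv]
    · simp [hv]
  simp only [f, this]

theorem nbhd_finite (Λ : Finset P2) : (nbhd Λ).Finite := by
  classical
  refine Set.Finite.subset (Finset.finite_toSet (Λ ∪ Λ.biUnion fun w =>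
    ({(w.1 + 1, w.2), (w.1 - 1, w.2), (w.1, w.2 + 1), (w.1, w.2 - 1), (w.1 + 1, w.2 - 1),
      (w.1 - 1, w.2 + 1)} : Finset P2))) ?_
  intro v hv
  rw [Finset.mem_coe, Finset.mem_union]
  rcases hv with hv | ⟨w, hw, hv⟩
  · exact Or.inl hv
  · right
    rw [Finset.mem_biUnion]
    refine ⟨w, hw, ?_⟩
    have := adj_iff.1 hv
    simpa using this

/-- conditional expectations of local gradient observables are local gradient observables -/
theorem exists_kernel (x : ℝ) (Λ : Finset P2) {F : Hz → V} (hF : GObs F) :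
    ∃ G : Hz → V, GObs G ∧ ∀ h, Lip h → G h = ex x Λ h F := by
  classical
  obtain ⟨⟨S, hS⟩, hN⟩ := hF
  set T : Finset P2 := S ∪ (nbhd_finite Λ).toFinset with hT
  have hTm : ∀ v, v ∈ (S : Set P2) ∨ v ∈ nbhd Λ → v ∈ T := by
    intro v hv
    rw [hT, Finset.mem_union, Set.Finite.mem_toFinset]
    exact hv
  let Q : Hz → Hz → Prop := fun h g => Lip g ∧ ∀ v ∈ T, g v = h v
  let G : Hz → V := fun h => if hh : ∃ g, Q h g then ex x Λ (Classical.choose hh) F else 0
  have hG : ∀ h g, Q h g → G h = ex x Λ g F := by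
    intro h g hg
    have hh : ∃ g, Q h g := ⟨g, hg⟩
    have h1 : G h = ex x Λ (Classical.choose hh) F := dif_pos hh
    rw [h1]
    have h2 := Classical.choose_spec hh
    refine ex_local' x h2.1 hg.1 hS fun v hv => ?_
    rw [h2.2 v (hTm v hv), hg.2 v (hTm v hv)]
  refine ⟨G, ⟨⟨T, fun h g hhg => ?_⟩, fun h c => ?_⟩, fun h hl => hG h h ⟨hl, fun _ _ => rfl⟩⟩
  · by_cases hh : ∃ k, Q h k
    · obtain ⟨k, hk⟩ := hh
      have hk' : Q g k := ⟨hk.1, fun v hv => (hk.2 v hv).trans (hhg v hv)⟩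
      rw [hG h k hk, hG g k hk']
    · have hg : ¬ ∃ k, Q g k := by
        rintro ⟨k, hk⟩
        exact hh ⟨k, hk.1, fun v hv => (hk.2 v hv).trans (hhg v hv).symm⟩
      simp only [G, dif_neg hh, dif_neg hg]
  · by_cases hh : ∃ k, Q h k
    · obtain ⟨k, hk⟩ := hh
      have hk' : Q (fun v => h v + c) (fun v => k v + c) :=
        ⟨hk.1.add_const c, fun v hv => by simp only [hk.2 v hv]⟩
      rw [hG h k hk, hG _ _ hk', ex_add_const]
      simp only [hN _ c]
    · have hg : ¬ ∃ k, Q (fun v => h v + c) k := by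
        rintro ⟨k, hk⟩
        refine hh ⟨fun v => k v - c, ?_, fun v hv => ?_⟩
        · have := hk.1.add_const (-c)
          simpa only [sub_eq_add_neg] using this
        · have := hk.2 v hv
          simp only at this ⊢
          rw [this]
          ring
      simp only [G, dif_neg hh, dif_neg hg]

variable {𝓒 : Set (Finset P2)}

theorem mem_lC_of_subset (Λ : Finset P2) : ∀ᶠ Λ' in lC 𝓒, Λ ⊆ Λ' :=
  mem_lC.2 ⟨Λ, fun _ _ h => h⟩

/-- **DLR equation** of the plane gradient law -/
theorem ZeroLim.dlr {x : ℝ} (hx : 0 < x) (h𝓒 : Cls 𝓒) {P : Measure Hz} (hZ : PinnedZ P)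
    (hP : ZeroLim x 𝓒 P) (Λ : Finset P2) {F : Hz → ℝ} (hF : GObs F) :
    ∫ h, F h ∂P = ∫ h, ex x Λ h F ∂P := by
  have hne := h𝓒.neBot
  obtain ⟨G, hG, hGe⟩ := exists_kernel x Λ hF
  have h1 : ∫ h, ex x Λ h F ∂P = ∫ h, G h ∂P := by
    refine integral_congr_ae ?_
    filter_upwards [hZ.lip] with h hh
    exact (hGe h hh).symm
  rw [h1]
  refine tendsto_nhds_unique (hP F hF) ?_
  refine (hP G hG).congr' ?_
  filter_upwards [mem_lC_of_subset Λ] with Λ' hΛ'
  rw [ex_tower hx hΛ' _ F]
  exact ex_congr fun h hh => hGe h (mem_conf.1 hh).1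

theorem im_ex (x : ℝ) (Λ : Finset P2) (τ : Hz) (f : Hz → ℂ) :
    (ex x Λ τ f).im = ex x Λ τ (fun h => (f h).im) := by
  unfold ex
  rw [Complex.real_smul, Complex.im_ofReal_mul, smul_eq_mul, Complex.im_sum]
  congr 1
  refine Finset.sum_congr rfl fun h _ => ?_
  rw [Complex.real_smul, Complex.im_ofReal_mul, smul_eq_mul]

/-- local gradient observables with complex values are integrable -/
theorem integrable_gobsC {F : Hz → ℂ} (hF : GObs F) {μ : Measure Hz} [IsFiniteMeasure μ]
    (hl : ∀ᵐ h ∂μ, Lip h) : Integrable F μ := by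
  have h1 := integrable_gobs (hF.comp Complex.re) hl
  have h2 := integrable_gobs (hF.comp Complex.im) hl
  have h3 : F = fun h => ((F h).re : ℂ) + ((F h).im : ℂ) * Complex.I := by
    funext h
    exact (Complex.re_add_im _).symm
  rw [h3]
  exact h1.ofReal.add (h2.ofReal.mul_const _)

theorem integral_re_im {F : Hz → ℂ} (hF : GObs F) {μ : Measure Hz} [IsFiniteMeasure μ]
    (hl : ∀ᵐ h ∂μ, Lip h) : ∫ h, F h ∂μ = ((∫ h, (F h).re ∂μ : ℝ) : ℂ) +
      ((∫ h, (F h).im ∂μ : ℝ) : ℂ) * Complex.I := by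
  have h0 := integrable_gobsC hF hl
  have h1 := integral_re h0 (𝕜 := ℂ)
  have h2 := integral_im h0 (𝕜 := ℂ)
  simp only [RCLike.re_to_complex, RCLike.im_to_complex] at h1 h2
  rw [h1, h2]
  exact (Complex.re_add_im _).symm

/-- convergence for complex observables -/
theorem ZeroLim.complex {x : ℝ} {P : Measure Hz} (hZ : PinnedZ P) (hP : ZeroLim x 𝓒 P)
    {F : Hz → ℂ} (hF : GObs F) :
    Tendsto (fun Λ => ex x Λ (fun _ => 0) F) (lC 𝓒) (𝓝 (∫ h, F h ∂P)) := by
  have hpr := hZ.prob
  rw [integral_re_im hF hZ.lip]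
  have h1 := hP _ (hF.comp Complex.re)
  have h2 := hP _ (hF.comp Complex.im)
  have h3 : (fun Λ => ex x Λ (fun _ => 0) F) = fun Λ =>
      ((ex x Λ (fun _ => 0) (fun h => (F h).re) : ℝ) : ℂ) +
        ((ex x Λ (fun _ => 0) (fun h => (F h).im) : ℝ) : ℂ) * Complex.I := by
    funext Λ
    rw [← re_ex, ← im_ex]
    exact (Complex.re_add_im _).symm
  rw [h3]
  exact ((Complex.continuous_ofReal.tendsto _).comp h1).add
    (((Complex.continuous_ofReal.tendsto _).comp h2).mul_const _)

theorem ZeroLim.dlrC {x : ℝ} (hx : 0 < x) (h𝓒 : Cls 𝓒) {P : Measure Hz} (hZ : PinnedZ P)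
    (hP : ZeroLim x 𝓒 P) (Λ : Finset P2) {F : Hz → ℂ} (hF : GObs F) :
    ∫ h, F h ∂P = ∫ h, ex x Λ h F ∂P := by
  have hne := h𝓒.neBot
  obtain ⟨G, hG, hGe⟩ := exists_kernel x Λ hF
  have h1 : ∫ h, ex x Λ h F ∂P = ∫ h, G h ∂P := by
    refine integral_congr_ae ?_
    filter_upwards [hZ.lip] with h hh
    exact (hGe h hh).symm
  rw [h1]
  refine tendsto_nhds_unique (hP.complex hZ hF) ?_
  refine (hP.complex hZ hG).congr' ?_
  filter_upwards [mem_lC_of_subset Λ] with Λ' hΛ'
  rw [ex_tower hx hΛ' _ F]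
  exact ex_congr fun h hh => hGe h (mem_conf.1 hh).1

/-- the gradient version of a function of the heights -/
def nz {β : Type*} (F : Hz → β) : Hz → β := fun h => F (fun v => h v - h 0)

theorem gobs_nz {β : Type*} {F : Hz → β} (hF : ∃ S : Finset P2, LocZ (S : Set P2) F) :
    GObs (nz F) := by
  classical
  obtain ⟨S, hS⟩ := hF
  refine ⟨⟨insert 0 S, fun h g hg => hS _ _ fun v hv => ?_⟩, fun h c => ?_⟩
  · have h1 := hg v (by rw [Finset.coe_insert]; exact Or.inr hv)
    have h2 := hg 0 (by rw [Finset.coe_insert]; exact Or.inl rfl)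
    rw [h1, h2]
  · unfold nz
    congr 1
    funext v
    ring

theorem nz_eq {β : Type*} (F : Hz → β) {h : Hz} (h0 : h 0 = 0) : nz F h = F h := by
  unfold nz
  congr 1
  funext v
  rw [h0, sub_zero]

theorem PinnedZ.integral_nz {E : Type*} [NormedAddCommGroup E] [NormedSpace ℝ E] {P : Measure Hz}
    (hZ : PinnedZ P) (F : Hz → E) : ∫ h, nz F h ∂P = ∫ h, F h ∂P := by
  refine integral_congr_ae ?_
  filter_upwards [hZ.zero] with h hh
  exact nz_eq F hh

/-- **DLR equation for the pinned law**, volumes not containing `0`, all local functions -/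
theorem ZeroLim.dlr_pinned {x : ℝ} (hx : 0 < x) (h𝓒 : Cls 𝓒) {P : Measure Hz} (hZ : PinnedZ P)
    (hP : ZeroLim x 𝓒 P) {Λ : Finset P2} (hΛ : (0 : P2) ∉ Λ) {F : Hz → ℝ}
    (hF : ∃ S : Finset P2, LocZ (S : Set P2) F) : ∫ h, F h ∂P = ∫ h, ex x Λ h F ∂P := by
  rw [← hZ.integral_nz F, hP.dlr hx h𝓒 hZ Λ (gobs_nz hF)]
  refine integral_congr_ae ?_
  filter_upwards [hZ.zero] with h hh
  refine ex_congr fun g hg => nz_eq F ?_
  rw [(mem_conf.1 hg).2 0 hΛ, hh]

theorem ZeroLim.dlr_pinnedC {x : ℝ} (hx : 0 < x) (h𝓒 : Cls 𝓒) {P : Measure Hz} (hZ : PinnedZ P)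
    (hP : ZeroLim x 𝓒 P) {Λ : Finset P2} (hΛ : (0 : P2) ∉ Λ) {F : Hz → ℂ}
    (hF : ∃ S : Finset P2, LocZ (S : Set P2) F) : ∫ h, F h ∂P = ∫ h, ex x Λ h F ∂P := by
  rw [← hZ.integral_nz F, hP.dlrC hx h𝓒 hZ Λ (gobs_nz hF)]
  refine integral_congr_ae ?_
  filter_upwards [hZ.zero] with h hh
  refine ex_congr fun g hg => nz_eq F ?_
  rw [(mem_conf.1 hg).2 0 hΛ, hh]

/-- convergence of non-neutral local functions of the pinned heights -/
theorem ZeroLim.pinned {x : ℝ} {P : Measure Hz} (hZ : PinnedZ P) (hP : ZeroLim x 𝓒 P)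
    {F : Hz → ℝ} (hF : ∃ S : Finset P2, LocZ (S : Set P2) F) :
    Tendsto (fun Λ => ex x Λ (fun _ => 0) (nz F)) (lC 𝓒) (𝓝 (∫ h, F h ∂P)) := by
  rw [← hZ.integral_nz F]
  exact hP _ (gobs_nz hF)

/-- a pinned law is determined by its local gradient observables -/
theorem PinnedZ.ext {P Q : Measure Hz} (hP : PinnedZ P) (hQ : PinnedZ Q)
    (h : ∀ F : Hz → ℝ, GObs F → ∫ h, F h ∂P = ∫ h, F h ∂Q) : P = Q := by
  classical
  have hp := hP.prob
  have hq := hQ.prob
  -- all local functions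
  have hloc : ∀ F : Hz → ℝ, (∃ S : Finset P2, LocZ (S : Set P2) F) → ∫ h, F h ∂P = ∫ h, F h ∂Q := by
    intro F hF
    rw [← hP.integral_nz F, ← hQ.integral_nz F]
    exact h _ (gobs_nz hF)
  refine ext_of_generate_finite (measurableCylinders fun _ : P2 => ℤ)
    (generateFrom_measurableCylinders (α := fun _ : P2 => ℤ)).symm isPiSystem_measurableCylinders
    (fun A hA => ?_) (by rw [measure_univ, measure_univ])
  have hm : MeasurableSet A := MeasurableSet.of_mem_measurableCylinders hA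
  obtain ⟨S, B, hB, rfl⟩ := (mem_measurableCylinders A).1 hA
  have h1 := hloc ((cylinder S B).indicator fun _ => (1 : ℝ)) ⟨S, fun a b hab => by
    have : a ∈ cylinder S B ↔ b ∈ cylinder S B := by
      rw [mem_cylinder, mem_cylinder]
      have : S.restrict a = S.restrict b := by
        funext v
        exact hab v v.2
      rw [this]
    by_cases ha : a ∈ cylinder S B
    · rw [Set.indicator_of_mem ha, Set.indicator_of_mem (this.1 ha)]
    · rw [Set.indicator_of_notMem ha, Set.indicator_of_notMem fun hb => ha (this.2 hb)]⟩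
  rw [integral_indicator hm, integral_indicator hm] at h1
  simp only [integral_const, MeasurableSet.univ, measureReal_restrict_apply, Set.univ_inter,
    smul_eq_mul, mul_one] at h1
  exact (measureReal_eq_measureReal_iff).1 h1

end Crest.Agent.R144.Pst967
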