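import Crest.Agent.R144.Ze_349
import Crest.Agent.R144.Pst5_967

/-!
# R144, plane state (helper967), part 6: flips of the second colour in the F-type law

* `c1 ω`, `c2 ω` : the two colours of the heights of `ω`;
* `flip` : if `U` is a function of `(s1, z)` with values sets of sites of `F`, no open triangle of `F` being
  split by `U`, then `E c F f(c1, c2 xor U, z) = E c F f(c1, c2, z)`;
* `E_pos_congr` : expectations only see configurations whose open triangles have constant second colour.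
-/

set_option autoImplicit false

noncomputable section

namespace Crest.Agent.R144.Pst967

open Finset
open Crest.Agent.R144.It844 (P2)
open Crest.Agent.R144.Zg349 Crest.Agent.R144.Zk349 Crest.Agent.R144.Zd349 Crest.Agent.R144.Zm349
open Crest.Agent.R144.HyA349 Crest.Agent.R144.HyB349 Crest.Agent.R144.HyC349
open Crest.Agent.R144.Ze349

/-- first colour -/
def c1 (ω : Cfg) : P2 → Bool := fun v => s1 (ω.1 v)
/-- second colour -/
def c2 (ω : Cfg) : P2 → Bool := fun v => s2 (ω.1 v)

theorem c1_valid {F : Finset P2} {ω : Cfg} (h : Valid F ω) :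
    c1 ω = fun v => decide (v ∉ tm F ω.1) := by
  funext v
  apply bool_eq_of_iff
  rw [decide_eq_true_eq, mem_tm h.ht]
  unfold c1
  cases s1 (ω.1 v) <;> simp

theorem c2_valid {F : Finset P2} {ω : Cfg} (h : Valid F ω) :
    c2 ω = fun v => decide (v ∉ am F ω.1) := by
  funext v
  apply bool_eq_of_iff
  rw [decide_eq_true_eq, mem_am h.ht]
  unfold c2
  cases s2 (ω.1 v) <;> simp

theorem z_valid {F : Finset P2} {ω : Cfg} (h : Valid F ω) : ω.2 = zb F (zm F ω) := by
  funext t
  apply bool_eq_of_iff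
  unfold zb zm
  rw [decide_eq_true_eq, Finset.mem_filter]
  constructor
  · intro h1
    by_cases ht : t ∈ F
    · exact Or.inr ⟨ht, h1⟩
    · exact Or.inl ht
  · rintro (h1 | h1)
    · exact h.cl t h1
    · exact h1.2

/-- function of the colours and closed triangles in terms of the three finite sets -/
def tri (F : Finset P2) (f : (P2 → Bool) → (P2 → Bool) → (P2 → Bool) → ℝ) (T A Z : Finset P2) : ℝ :=
  f (fun v => decide (v ∉ T)) (fun v => decide (v ∉ A)) (zb F Z)

theorem S_tri {F : Finset P2} (hF : SC F) (c : ℝ)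
    (f : (P2 → Bool) → (P2 → Bool) → (P2 → Bool) → ℝ) :
    S c F (fun ω => f (c1 ω) (c2 ω) ω.2) =
      ∑ T ∈ (IV F).powerset, ∑ A ∈ (VF F).powerset, ∑ Z ∈ F.powerset,
        (∏ t ∈ F, ewS c T A Z t) * tri F f T A Z := by
  rw [← sum_conf hF c (tri F f)]
  unfold S
  refine Finset.sum_congr rfl fun ω hω => ?_
  rw [mem_conf] at hω
  have e : f (c1 ω) (c2 ω) ω.2 = tri F f (tm F ω.1) (am F ω.1) (zm F ω) := by
    unfold tri
    rw [← c1_valid hω, ← c2_valid hω, ← z_valid hω]
  simp only [e]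

theorem ch_symmDiff (A U : Finset P2) (v : P2) :
    (v ∈ symmDiff A U) ↔ ((v ∈ A) ↔ ¬ (v ∈ U)) := by
  rw [Finset.mem_symmDiff]
  tauto

theorem m3_symmDiff {t : P2} {A U : Finset P2}
    (hU : ∀ i j, (cr t i ∈ U ↔ cr t j ∈ U)) : M3 (cr t) (ch (symmDiff A U)) ↔ M3 (cr t) (ch A) := by
  rw [m3_ch, m3_ch]
  simp only [ch_symmDiff]
  have h1 := hU 0 1
  have h2 := hU 0 2
  tauto

/-- **Flips**, set form. -/
theorem flipS (F : Finset P2) (c : ℝ) (U : Finset P2 → Finset P2 → Finset P2)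
    (hU1 : ∀ T ⊆ IV F, ∀ Z ⊆ F, U T Z ⊆ VF F)
    (hU2 : ∀ T ⊆ IV F, ∀ Z ⊆ F, ∀ t ∈ F, t ∉ Z → ∀ i j, (cr t i ∈ U T Z ↔ cr t j ∈ U T Z))
    (g : Finset P2 → Finset P2 → Finset P2 → ℝ) :
    ∑ T ∈ (IV F).powerset, ∑ A ∈ (VF F).powerset, ∑ Z ∈ F.powerset,
        (∏ t ∈ F, ewS c T A Z t) * g T (symmDiff A (U T Z)) Z =
      ∑ T ∈ (IV F).powerset, ∑ A ∈ (VF F).powerset, ∑ Z ∈ F.powerset,
        (∏ t ∈ F, ewS c T A Z t) * g T A Z := by
  refine Finset.sum_congr rfl fun T hT => ?_
  rw [Finset.sum_comm, Finset.sum_comm (s := (VF F).powerset)]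
  refine Finset.sum_congr rfl fun Z hZ => ?_
  rw [Finset.mem_powerset] at hT hZ
  have hmem : ∀ A ∈ (VF F).powerset, symmDiff A (U T Z) ∈ (VF F).powerset := by
    intro A hA
    rw [Finset.mem_powerset] at hA ⊢
    intro v hv
    rw [Finset.mem_symmDiff] at hv
    rcases hv with h | h
    · exact hA h.1
    · exact hU1 T hT Z hZ h.1
  refine Finset.sum_nbij' (fun A => symmDiff A (U T Z)) (fun A => symmDiff A (U T Z)) hmem hmem
    (fun A _ => symmDiff_symmDiff_cancel_right _ _) (fun A _ => symmDiff_symmDiff_cancel_right _ _)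
    fun A hA => ?_
  congr 1
  refine Finset.prod_congr rfl fun t ht => ?_
  unfold ewS
  by_cases htZ : t ∈ Z
  · rw [if_pos htZ, if_pos htZ]
  · rw [if_neg htZ, if_neg htZ]
    have := m3_symmDiff (A := A) (hU2 T hT Z hZ t ht htZ)
    simp only [this]

/-- **Flips of the second colour.** -/
theorem flip {F : Finset P2} (hF : SC F) (c : ℝ) (U : (P2 → Bool) → (P2 → Bool) → P2 → Bool)
    (hU1 : ∀ s z v, (∀ t, t ∉ F → z t = true) → U s z v = true → v ∈ VF F)
    (hU2 : ∀ s z t, (∀ t, t ∉ F → z t = true) → z t = false → ∀ i j, U s z (cr t i) = U s z (cr t j))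
    (f : (P2 → Bool) → (P2 → Bool) → (P2 → Bool) → ℝ) :
    E c F (fun ω => f (c1 ω) (fun v => xor (c2 ω v) (U (c1 ω) ω.2 v)) ω.2) =
      E c F (fun ω => f (c1 ω) (c2 ω) ω.2) := by
  classical
  rw [E_eq_S, E_eq_S]
  congr 1
  rw [S_tri hF c (fun s a z => f s (fun v => xor (a v) (U s z v)) z), S_tri hF c f]
  let V : Finset P2 → Finset P2 → Finset P2 := fun T Z =>
    (VF F).filter fun v => U (fun v => decide (v ∉ T)) (zb F Z) v = true
  have hz : ∀ Z : Finset P2, ∀ t, t ∉ F → zb F Z t = true := by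
    intro Z t ht
    unfold zb
    rw [decide_eq_true_eq]
    exact Or.inl ht
  have hV : ∀ T Z v, v ∈ V T Z ↔ U (fun v => decide (v ∉ T)) (zb F Z) v = true := by
    intro T Z v
    simp only [V, Finset.mem_filter]
    exact ⟨fun h => h.2, fun h => ⟨hU1 _ _ _ (hz Z) h, h⟩⟩
  rw [← flipS F c V (fun T _ Z _ => Finset.filter_subset _ _) (fun T _ Z _ t ht htZ i j => by
    rw [hV, hV, hU2 _ _ t (hz Z) (by
      unfold zb
      rw [decide_eq_false_iff_not]
      tauto) i j]) (tri F f)]
  refine Finset.sum_congr rfl fun T _ => Finset.sum_congr rfl fun A _ =>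
    Finset.sum_congr rfl fun Z _ => ?_
  congr 1
  unfold tri
  beta_reduce
  have : (fun v => xor (decide (v ∉ A)) (U (fun v => decide (v ∉ T)) (zb F Z) v)) =
      fun v => decide (v ∉ symmDiff A (V T Z)) := by
    funext v
    have h1 := hV T Z v
    apply bool_eq_of_iff
    rw [decide_eq_true_eq, Finset.mem_symmDiff, h1]
    by_cases hA : v ∈ A <;> cases hb : U (fun v => decide (v ∉ T)) (zb F Z) v <;> simp [hA]
  rw [this]

/-- the weight vanishes unless open triangles have constant second colour and closed ones constant first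
colour -/
theorem wt_ne_zero {c : ℝ} {F : Finset P2} {ω : Cfg} (h : wt c F ω ≠ 0) {t : P2} (ht : t ∈ F) :
    (ω.2 t = true → C1 ω.1 t) ∧ (ω.2 t = false → C2 ω.1 t) := by
  have h1 : ew c ω t ≠ 0 := fun h0 => h (Finset.prod_eq_zero ht h0)
  unfold ew at h1
  constructor
  · intro hz
    rw [if_pos hz] at h1
    by_contra hc
    exact h1 (if_neg hc)
  · intro hz
    rw [if_neg (by rw [hz]; decide)] at h1
    by_contra hc
    exact h1 (if_neg hc)

/-- expectations of functions which agree on configurations of positive weight -/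
theorem E_pos_congr {c : ℝ} {F : Finset P2} {f g : Cfg → ℝ}
    (h : ∀ ω, Valid F ω → (∀ t ∈ F, (ω.2 t = true → C1 ω.1 t) ∧ (ω.2 t = false → C2 ω.1 t)) →
      f ω = g ω) : E c F f = E c F g := by
  rw [E_eq_S, E_eq_S]
  congr 1
  unfold S
  refine Finset.sum_congr rfl fun ω hω => ?_
  by_cases hw : wt c F ω = 0
  · rw [hw, zero_mul, zero_mul]
  · rw [h ω (mem_conf.1 hω) fun t ht => wt_ne_zero hw ht]

end Crest.Agent.R144.Pst967
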