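import Crest.Agent.R144.Pst6_967

/-!
# R144, plane state (helper967), part 7: convergence of the F-type laws of `(s1, z)`

* `q ω t : Fin 4` : state of the site / up triangle `t`: minus closed, minus open, plus open, plus closed;
  `leP_iff : LeP ω ω' ↔ ∀ t, q ω t ≤ q ω' t`;
* `conv_incP` : expectations of bounded increasing observables converge along `lC scs`;
* `LTZ W g` : `g` is a function of `(s1, z)` on the finite set `W`; `conv_ltz` : convergence for these.
-/

set_option autoImplicit false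

noncomputable section

namespace Crest.Agent.R144.Pst967

open Finset Filter Topology
open Crest.Agent.R144.It844 (P2)
open Crest.Agent.R144.Zg349 Crest.Agent.R144.Zk349 Crest.Agent.R144.Zd349 Crest.Agent.R144.Zm349
open Crest.Agent.R144.Ze349

/-- state of a site / up triangle from the first colour and the closed status -/
def qs (s z : Bool) : Fin 4 := if s then (if z then 3 else 2) else (if z then 0 else 1)

/-- state of the site / up triangle `t` -/
def q (ω : Cfg) (t : P2) : Fin 4 := qs (s1 (ω.1 t)) (ω.2 t)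

theorem qs_inj : ∀ {s z s' z' : Bool}, qs s z = qs s' z' → s = s' ∧ z = z' := by decide

theorem qs_le : ∀ {s z s' z' : Bool}, qs s z ≤ qs s' z' ↔
    ((s = true → s' = true) ∧ (z = true ∧ s = true → z' = true ∧ s' = true) ∧
      (z' = true ∧ s' = false → z = true ∧ s = false)) := by decide

theorem leP_iff {ω ω' : Cfg} : LeP ω ω' ↔ ∀ t, q ω t ≤ q ω' t := by
  constructor
  · intro h t
    exact qs_le.2 ⟨h.v t, h.p t, h.m t⟩
  · intro h
    exact ⟨fun t => (qs_le.1 (h t)).1, fun t => (qs_le.1 (h t)).2.1, fun t => (qs_le.1 (h t)).2.2⟩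

/-- restriction of the state to `W` -/
def qW (W : Finset P2) (ω : Cfg) : W → Fin 4 := fun t => q ω t

open Classical in
/-- indicator of `y ≤ state` -/
def geI (W : Finset P2) (y : W → Fin 4) (ω : Cfg) : ℝ := if y ≤ qW W ω then 1 else 0

open Classical in
/-- indicator of `y < state` -/
def gtI (W : Finset P2) (y : W → Fin 4) (ω : Cfg) : ℝ := if y < qW W ω then 1 else 0

theorem incP_ge (W : Finset P2) (y : W → Fin 4) : IncP (geI W y) := by
  intro ω ω' h
  rw [leP_iff] at h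
  unfold geI
  by_cases h1 : y ≤ qW W ω
  · have h2 : y ≤ qW W ω' := fun t => (h1 t).trans (h t)
    simp only [if_pos h1, if_pos h2, le_refl]
  · simp only [if_neg h1]
    split_ifs <;> norm_num

theorem incP_gt (W : Finset P2) (y : W → Fin 4) : IncP (gtI W y) := by
  intro ω ω' h
  rw [leP_iff] at h
  unfold gtI
  by_cases h1 : y < qW W ω
  · have h2 : y < qW W ω' := lt_of_lt_of_le h1 fun t => h t
    simp only [if_pos h1, if_pos h2, le_refl]
  · simp only [if_neg h1]
    split_ifs <;> norm_num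

theorem geI_nonneg (W : Finset P2) (y : W → Fin 4) (ω : Cfg) : 0 ≤ geI W y ω := by
  unfold geI; split_ifs <;> norm_num

theorem gtI_nonneg (W : Finset P2) (y : W → Fin 4) (ω : Cfg) : 0 ≤ gtI W y ω := by
  unfold gtI; split_ifs <;> norm_num

/-- observables of `(s1, z)` on `W` -/
def LTZ {β : Type*} (W : Finset P2) (g : Cfg → β) : Prop :=
  ∀ ω ω' : Cfg, (∀ v ∈ W, s1 (ω.1 v) = s1 (ω'.1 v)) → (∀ t ∈ W, ω.2 t = ω'.2 t) → g ω = g ω'

theorem LTZ.mono {β : Type*} {W W' : Finset P2} (h : W ⊆ W') {g : Cfg → β} (hg : LTZ W g) : LTZ W' g :=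
  fun ω ω' h1 h2 => hg ω ω' (fun v hv => h1 v (h hv)) (fun v hv => h2 v (h hv))

/-- a configuration with given states -/
def cfgOf (W : Finset P2) (y : W → Fin 4) : Cfg :=
  (fun v => if hv : v ∈ W then (if 2 ≤ y ⟨v, hv⟩ then 0 else 2) else 0,
    fun v => if hv : v ∈ W then (decide (y ⟨v, hv⟩ = 0 ∨ y ⟨v, hv⟩ = 3)) else true)

theorem q_cfgOf {W : Finset P2} {y : W → Fin 4} {v : P2} (hv : v ∈ W) :
    s1 ((cfgOf W y).1 v) = decide (2 ≤ y ⟨v, hv⟩) ∧
      (cfgOf W y).2 v = decide (y ⟨v, hv⟩ = 0 ∨ y ⟨v, hv⟩ = 3) := by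
  unfold cfgOf
  simp only [dif_pos hv, and_true]
  split_ifs with h
  · rw [decide_eq_true h]; decide
  · rw [decide_eq_false h]; decide

theorem qs_cases : ∀ s z : Bool, s = decide (2 ≤ qs s z) ∧ z = decide (qs s z = 0 ∨ qs s z = 3) := by
  decide

theorem ltz_eq {W : Finset P2} {β : Type*} {g : Cfg → β} (hg : LTZ W g) (ω : Cfg) :
    g ω = g (cfgOf W (qW W ω)) := by
  refine hg _ _ (fun v hv => ?_) (fun v hv => ?_)
  · rw [(q_cfgOf hv).1]
    exact (qs_cases _ _).1
  · rw [(q_cfgOf hv).2]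
    exact (qs_cases _ _).2

theorem ltz_sum {W : Finset P2} {g : Cfg → ℝ} (hg : LTZ W g) (ω : Cfg) :
    g ω = ∑ y : W → Fin 4, g (cfgOf W y) * (geI W y ω - gtI W y ω) := by
  classical
  have h1 : ∀ y : W → Fin 4, (geI W y ω - gtI W y ω) = if qW W ω = y then 1 else 0 := by
    intro y
    unfold geI gtI
    by_cases h : qW W ω = y
    · rw [if_pos h, if_pos (by rw [h]), if_neg (by rw [h]; exact lt_irrefl _)]
      norm_num
    · rw [if_neg h]
      by_cases h2 : y ≤ qW W ω
      · rw [if_pos h2, if_pos (lt_of_le_of_ne h2 (Ne.symm h)), sub_self]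
      · rw [if_neg h2, if_neg fun h3 => h2 h3.le, sub_self]
  simp only [h1, mul_ite, mul_one, mul_zero, Finset.sum_ite_eq, Finset.mem_univ, if_true]
  exact ltz_eq hg ω

/-- **monotone convergence** -/
theorem conv_incP {c : ℝ} (hc : 1 ≤ c) {f : Cfg → ℝ} (hf : IncP f) (hb : ∃ m, ∀ ω, m ≤ f ω) :
    ∃ a, Tendsto (fun F : Finset P2 => E c F f) (lC scs) (𝓝 a) := by
  obtain ⟨m, hm⟩ := hb
  set A : Set ℝ := {r | ∃ F ∈ scs, r = E c F f} with hA
  have hne : A.Nonempty := ⟨_, hexB 0, hexB_mem_scs 0, rfl⟩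
  have hbd : BddBelow A := by
    refine ⟨m, ?_⟩
    rintro _ ⟨F, _, rfl⟩
    rw [← E_const hc F m]
    exact E_mono hc fun ω _ => hm ω
  refine ⟨sInf A, ?_⟩
  rw [Metric.tendsto_nhds]
  intro ε hε
  obtain ⟨_, ⟨F0, hF0, rfl⟩, h1⟩ := exists_lt_of_csInf_lt hne (lt_add_of_pos_right (sInf A) hε)
  refine mem_lC.2 ⟨F0, fun F hF hFF => ?_⟩
  have h2 : E c F f ≤ E c F0 f := dom_mono hc hF0 hF hFF hf
  have h3 : sInf A ≤ E c F f := csInf_le hbd ⟨F, hF, rfl⟩
  show dist (E c F f) (sInf A) < ε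
  rw [Real.dist_eq, abs_lt]
  constructor <;> linarith

/-- **convergence of the local laws of `(s1, z)`** -/
theorem conv_ltz {c : ℝ} (hc : 1 ≤ c) {W : Finset P2} {g : Cfg → ℝ} (hg : LTZ W g) :
    ∃ a, Tendsto (fun F : Finset P2 => E c F g) (lC scs) (𝓝 a) := by
  classical
  have h1 : ∀ y : W → Fin 4, ∃ a, Tendsto (fun F : Finset P2 => E c F (geI W y)) (lC scs) (𝓝 a) :=
    fun y => conv_incP hc (incP_ge W y) ⟨0, geI_nonneg W y⟩
  have h2 : ∀ y : W → Fin 4, ∃ a, Tendsto (fun F : Finset P2 => E c F (gtI W y)) (lC scs) (𝓝 a) :=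
    fun y => conv_incP hc (incP_gt W y) ⟨0, gtI_nonneg W y⟩
  choose a ha using h1
  choose b hb using h2
  refine ⟨∑ y : W → Fin 4, g (cfgOf W y) * (a y - b y), ?_⟩
  have h3 : (fun F : Finset P2 => E c F g) = fun F => ∑ y : W → Fin 4, g (cfgOf W y) *
      (E c F (geI W y) - E c F (gtI W y)) := by
    funext F
    have h4 : E c F g = E c F (fun ω => ∑ y : W → Fin 4, g (cfgOf W y) *
      (geI W y ω - gtI W y ω)) := by
      congr 1
      funext ω
      exact ltz_sum hg ω
    rw [h4, E_sum]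
    refine Finset.sum_congr rfl fun y _ => ?_
    rw [E_smul, E_sub]
  rw [h3]
  exact tendsto_finsetSum _ fun y _ => ((ha y).sub (hb y)).const_mul _

end Crest.Agent.R144.Pst967
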