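import Crest.Agent.R144.Pst7_967

/-!
# R144, plane state (helper967), part 8: the second colour given `(s1, z)`

* `OConn z v w` : the sites `v, w` are joined by open up triangles (`z t = false`);
* `avg W f s z` : average of `f s a z` over the second colours `a` on `W` which are constant on open clusters;
* `E_avg` : `E c F f(c1, c2, z) = E c F (avg W f c1 z)` for the F-type laws and `W ⊆ VF F`;
* `loc R z` (closed off `R`), `avg_loc` : localisation when open paths from `W` do not leave `R`.
-/

set_option autoImplicit false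

noncomputable section

namespace Crest.Agent.R144.Pst967

open Finset Filter Topology
open Crest.Agent.R144.It844 (P2)
open Crest.Agent.R144.Zg349 Crest.Agent.R144.Zk349 Crest.Agent.R144.Zd349 Crest.Agent.R144.Zm349
open Crest.Agent.R144.Ze349

/-- `v, w` are corners of a common open up triangle -/
def OStep (z : P2 → Bool) (v w : P2) : Prop := ∃ t, z t = false ∧ v ∈ up t ∧ w ∈ up t

/-- open connection of sites -/
def OConn (z : P2 → Bool) (v w : P2) : Prop := Relation.ReflTransGen (OStep z) v w

theorem oStep_symm {z : P2 → Bool} {v w : P2} (h : OStep z v w) : OStep z w v := by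
  obtain ⟨t, h1, h2, h3⟩ := h
  exact ⟨t, h1, h3, h2⟩

theorem OConn.symm {z : P2 → Bool} {v w : P2} (h : OConn z v w) : OConn z w v := by
  unfold OConn at *
  induction h with
  | refl => exact Relation.ReflTransGen.refl
  | tail _ h2 ih => exact Relation.ReflTransGen.head (oStep_symm h2) ih

theorem OConn.trans {z : P2 → Bool} {u v w : P2} (h : OConn z u v) (h' : OConn z v w) : OConn z u w :=
  Relation.ReflTransGen.trans h h'

theorem oConn_refl (z : P2 → Bool) (v : P2) : OConn z v v := Relation.ReflTransGen.refl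

theorem oConn_of_open {z : P2 → Bool} {t : P2} (h : z t = false) {v w : P2} (hv : v ∈ up t)
    (hw : w ∈ up t) : OConn z v w := Relation.ReflTransGen.single ⟨t, h, hv, hw⟩

/-- the elements of `W` joined to `v` -/
def hit (W : Finset P2) (z : P2 → Bool) (v : P2) : P2 → Prop := fun w => w ∈ W ∧ OConn z v w

theorem hit_eq {W : Finset P2} {z : P2 → Bool} {v v' : P2} (h : OConn z v v') : hit W z v = hit W z v' := by
  funext w
  unfold hit
  apply propext
  exact and_congr_right fun _ => ⟨fun h1 => h.symm.trans h1, fun h1 => h.trans h1⟩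

/-- canonical element of `W` in the open cluster of `v` -/
def rep (W : Finset P2) (z : P2 → Bool) (v : P2) : P2 := Classical.epsilon (hit W z v)

theorem rep_spec {W : Finset P2} {z : P2 → Bool} {v : P2} (h : ∃ w, hit W z v w) :
    rep W z v ∈ W ∧ OConn z v (rep W z v) := Classical.epsilon_spec h

theorem rep_eq {W : Finset P2} {z : P2 → Bool} {v v' : P2} (h : OConn z v v') : rep W z v = rep W z v' := by
  unfold rep
  rw [hit_eq h]

theorem hit_self {W : Finset P2} {z : P2 → Bool} {v : P2} (h : v ∈ W) : ∃ w, hit W z v w :=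
  ⟨v, h, oConn_refl z v⟩

open Classical in
/-- extension of a Boolean function on `W` -/
def exB (W : Finset P2) (ε : W → Bool) (v : P2) : Bool := if h : v ∈ W then ε ⟨v, h⟩ else false

open Classical in
/-- the colour of the cluster of `v` -/
def col (W : Finset P2) (z : P2 → Bool) (ε : W → Bool) (v : P2) : Bool :=
  if ∃ w, hit W z v w then exB W ε (rep W z v) else false

theorem col_of_mem {W : Finset P2} {z : P2 → Bool} {ε : W → Bool} {v : P2} (h : v ∈ W) :
    col W z ε v = exB W ε (rep W z v) := if_pos (hit_self h)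

theorem col_eq {W : Finset P2} {z : P2 → Bool} {ε : W → Bool} {v v' : P2} (h : OConn z v v') :
    col W z ε v = col W z ε v' := by
  unfold col
  rw [hit_eq h, rep_eq h]

theorem col_mem {F W : Finset P2} (hW : W ⊆ VF F) {z : P2 → Bool} (hz : ∀ t, t ∉ F → z t = true)
    {ε : W → Bool} {v : P2} (h : col W z ε v = true) : v ∈ VF F := by
  unfold col at h
  split_ifs at h with h1
  obtain ⟨w, hw, hc⟩ := h1
  rcases Relation.ReflTransGen.cases_head hc with h2 | ⟨u, ⟨t, h3, h4, _⟩, _⟩
  · rw [h2]; exact hW hw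
  · rw [mem_VF]
    refine ⟨t, ?_, h4⟩
    by_contra h5
    rw [hz t h5] at h3
    exact absurd h3 (by decide)

/-- average over the second colours on `W` constant on open clusters -/
def avg (W : Finset P2) (f : (P2 → Bool) → (P2 → Bool) → (P2 → Bool) → ℝ) (s z z' : P2 → Bool) : ℝ :=
  (2 ^ W.card)⁻¹ * ∑ ε : W → Bool, f s (col W z' ε) z

/-- `f s a z` depends on `a` only on `W` -/
def DepA (W : Finset P2) (f : (P2 → Bool) → (P2 → Bool) → (P2 → Bool) → ℝ) : Prop :=
  ∀ s a a' z, (∀ v ∈ W, a v = a' v) → f s a z = f s a' z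

/-- the second colour is constant along open connections for configurations of positive weight -/
theorem c2_of_oConn {F : Finset P2} {ω : Cfg} (hv : Valid F ω)
    (hw : ∀ t ∈ F, (ω.2 t = true → C1 ω.1 t) ∧ (ω.2 t = false → C2 ω.1 t)) {v w : P2}
    (h : OConn ω.2 v w) : c2 ω v = c2 ω w := by
  unfold OConn at h
  induction h with
  | refl => rfl
  | @tail b d _ h2 ih =>
    rw [ih]
    obtain ⟨t, h3, h4, h5⟩ := h2
    have htF : t ∈ F := by
      by_contra h6
      rw [hv.cl t h6] at h3
      exact absurd h3 (by decide)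
    obtain ⟨e1, e2⟩ := (hw t htF).2 h3
    obtain ⟨i, rfl⟩ := mem_up_iff.1 h4
    obtain ⟨j, rfl⟩ := mem_up_iff.1 h5
    unfold c2
    have key : ∀ k : Fin 3, s2 (ω.1 (cr t k)) = s2 (ω.1 (cr t 0)) := by
      intro k
      fin_cases k
      · rfl
      · exact e1.symm
      · exact e2.symm
    rw [key i, key j]

/-- **conditional law of the second colour** -/
theorem E_avg {F W : Finset P2} (hF : SC F) (hW : W ⊆ VF F) (c : ℝ)
    {f : (P2 → Bool) → (P2 → Bool) → (P2 → Bool) → ℝ} (hf : DepA W f) :
    E c F (fun ω => f (c1 ω) (c2 ω) ω.2) = E c F (fun ω => avg W f (c1 ω) ω.2 ω.2) := by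
  classical
  -- each flip
  have h1 : ∀ ε : W → Bool, E c F (fun ω => f (c1 ω) (fun v => xor (c2 ω v) (col W ω.2 ε v)) ω.2) =
      E c F (fun ω => f (c1 ω) (c2 ω) ω.2) := by
    intro ε
    refine flip hF c (fun _ z => col W z ε) (fun s z v hz h => col_mem hW hz h)
      (fun s z t _ ht i j => col_eq (oConn_of_open ht (cr_mem_up t i) (cr_mem_up t j))) f
  have h2 : E c F (fun ω => (2 ^ W.card)⁻¹ *
      ∑ ε : W → Bool, f (c1 ω) (fun v => xor (c2 ω v) (col W ω.2 ε v)) ω.2) =
      E c F (fun ω => f (c1 ω) (c2 ω) ω.2) := by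
    rw [E_smul, E_sum, Finset.sum_congr rfl fun ε _ => h1 ε, Finset.sum_const, Finset.card_univ]
    have e : Fintype.card (W → Bool) = 2 ^ W.card := by
      rw [Fintype.card_fun, Fintype.card_bool, Fintype.card_coe]
    rw [e, nsmul_eq_mul]
    push_cast
    rw [← mul_assoc, inv_mul_cancel₀ (by positivity), one_mul]
  rw [← h2]
  refine E_pos_congr fun ω hv hw => ?_
  unfold avg
  congr 1
  -- substitution
  let b : W → Bool := fun v => c2 ω v
  let σ : (W → Bool) ≃ (W → Bool) :=
    { toFun := fun ε v => xor (b v) (ε v)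
      invFun := fun ε v => xor (b v) (ε v)
      left_inv := fun ε => by funext v; simp
      right_inv := fun ε => by funext v; simp }
  rw [← Equiv.sum_comp σ (fun ε => f (c1 ω) (col W ω.2 ε) ω.2)]
  refine Finset.sum_congr rfl fun ε _ => hf _ _ _ _ fun v hvW => ?_
  rw [col_of_mem hvW, col_of_mem hvW]
  obtain ⟨h3, h4⟩ := rep_spec (hit_self (z := ω.2) hvW)
  unfold exB
  rw [dif_pos h3, dif_pos h3]
  have h5 := c2_of_oConn hv hw h4
  simp only [σ, b, Equiv.coe_fn_mk]
  rw [h5]

/-! ### localisation -/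

open Classical in
/-- close everything off `R` -/
def loc (R : Finset P2) (z : P2 → Bool) : P2 → Bool := fun t => if t ∈ R then z t else true

/-- open paths from `W` stay in `R` -/
def Stay (W R : Finset P2) (z : P2 → Bool) : Prop := ∀ v ∈ W, ∀ w, OConn z v w → OConn (loc R z) v w

theorem oConn_of_loc {R : Finset P2} {z : P2 → Bool} {v w : P2} (h : OConn (loc R z) v w) :
    OConn z v w := by
  refine Relation.ReflTransGen.mono (fun a b hab => ?_) _ _ h
  obtain ⟨t, h1, h2, h3⟩ := hab
  refine ⟨t, ?_, h2, h3⟩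
  unfold loc at h1
  split_ifs at h1 with h4
  exact h1

theorem hit_loc {W R : Finset P2} {z : P2 → Bool} (h : Stay W R z) {v : P2} (hv : v ∈ W) :
    hit W z v = hit W (loc R z) v := by
  funext w
  unfold hit
  apply propext
  exact and_congr_right fun _ => ⟨fun h1 => h v hv w h1, fun h1 => oConn_of_loc h1⟩

theorem col_loc {W R : Finset P2} {z : P2 → Bool} (h : Stay W R z) {ε : W → Bool} {v : P2} (hv : v ∈ W) :
    col W z ε v = col W (loc R z) ε v := by
  rw [col_of_mem hv, col_of_mem hv]
  unfold rep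
  rw [hit_loc h hv]

theorem avg_loc {W R : Finset P2} {f : (P2 → Bool) → (P2 → Bool) → (P2 → Bool) → ℝ} (hf : DepA W f)
    {s z : P2 → Bool} (h : Stay W R z) : avg W f s z z = avg W f s z (loc R z) := by
  unfold avg
  congr 1
  exact Finset.sum_congr rfl fun ε _ => hf _ _ _ _ fun v hv => col_loc h hv

/-- `f s a z` depends on everything only on `W` -/
structure DepW (W : Finset P2) (f : (P2 → Bool) → (P2 → Bool) → (P2 → Bool) → ℝ) : Prop where
  dep : ∀ s s' a a' z z', (∀ v ∈ W, s v = s' v) → (∀ v ∈ W, a v = a' v) → (∀ v ∈ W, z v = z' v) →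
    f s a z = f s' a' z'

theorem DepW.depA {W : Finset P2} {f : (P2 → Bool) → (P2 → Bool) → (P2 → Bool) → ℝ} (hf : DepW W f) :
    DepA W f := fun _ _ _ _ h => hf.dep _ _ _ _ _ _ (fun _ _ => rfl) h (fun _ _ => rfl)

/-- the localised average is a local observable of `(s1, z)` -/
theorem ltz_avg {W R : Finset P2} {f : (P2 → Bool) → (P2 → Bool) → (P2 → Bool) → ℝ} (hf : DepW W f) :
    LTZ (W ∪ R) (fun ω => avg W f (c1 ω) ω.2 (loc R ω.2)) := by
  intro ω ω' h1 h2
  have e : loc R ω.2 = loc R ω'.2 := by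
    funext t
    unfold loc
    by_cases ht : t ∈ R
    · rw [if_pos ht, if_pos ht, h2 t (Finset.mem_union_right _ ht)]
    · rw [if_neg ht, if_neg ht]
  unfold avg
  beta_reduce
  rw [e]
  congr 1
  refine Finset.sum_congr rfl fun ε _ => hf.dep _ _ _ _ _ _ (fun v hv => ?_) (fun _ _ => rfl)
    (fun v hv => h2 v (Finset.mem_union_left _ hv))
  exact h1 v (Finset.mem_union_left _ hv)

theorem abs_avg_le {W : Finset P2} {f : (P2 → Bool) → (P2 → Bool) → (P2 → Bool) → ℝ} {C : ℝ}
    (hC : ∀ s a z, |f s a z| ≤ C) (s z z' : P2 → Bool) : |avg W f s z z'| ≤ C := by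
  unfold avg
  rw [abs_mul, abs_of_nonneg (by positivity : (0 : ℝ) ≤ (2 ^ W.card)⁻¹)]
  have e : Fintype.card (W → Bool) = 2 ^ W.card := by
    rw [Fintype.card_fun, Fintype.card_bool, Fintype.card_coe]
  have h1 : |∑ ε : W → Bool, f s (col W z' ε) z| ≤ 2 ^ W.card * C := by
    refine (Finset.abs_sum_le_sum_abs _ _).trans ?_
    refine (Finset.sum_le_sum fun ε _ => hC s (col W z' ε) z).trans ?_
    rw [Finset.sum_const, Finset.card_univ, e, nsmul_eq_mul]
    push_cast
    exact le_rfl
  calc (2 ^ W.card)⁻¹ * |∑ ε : W → Bool, f s (col W z' ε) z|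
      ≤ (2 ^ W.card)⁻¹ * (2 ^ W.card * C) := mul_le_mul_of_nonneg_left h1 (by positivity)
    _ = C := by rw [← mul_assoc, inv_mul_cancel₀ (by positivity), one_mul]

end Crest.Agent.R144.Pst967
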