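import Crest.Agent.R144.Hex1_585

/-!
# R144, R1 (doc 1941, section (3.2)): deterministic part (helper277)

Sites `P2 = ℤ × ℤ` with the adjacency `HexHeights.Adj`; `XX v = 2 * v.1 + v.2` is twice the abscissa,
`v.2` the row.  `Pth S u v`: `u ∈ S` and `u`, `v` are joined by a walk in `S`.
`X1`: a walk from far left to far right and a bottom-top walk in the same strip share a site.

* `order_meet` : two bottom-top walks whose ends are in reversed order share a site;
* `arc_top`, `arc_bot` : an arc with two feet on the top (bottom) row meets every bottom-top walk with a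
  foot between them;
* `chain` : interlacing pairs of bottom-top walks in reversed order make a long walk.
-/

set_option autoImplicit false

namespace Crest.Agent.R144.Qa277

open Crest.Agent.R144.It844 (P2 adj_iff adj_symm)
open Crest.Agent.R144.Zg349 (StepIn IsConn)
open Crest.Agent.R144.Pst967 (stepIn_symm path_symm path_h)
open Crest.ProbabilityR.HexHeights (Adj)

/-- twice the abscissa -/
def XX (v : P2) : ℤ := 2 * v.1 + v.2

theorem xx_mk (i j : ℤ) : XX (i, j) = 2 * i + j := rfl

/-- `u ∈ S` is joined to `v` by a walk in `S` -/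
def Pth (S : Set P2) (u v : P2) : Prop := u ∈ S ∧ Relation.ReflTransGen (StepIn S) u v

theorem Pth.refl {S : Set P2} {u : P2} (h : u ∈ S) : Pth S u u := ⟨h, Relation.ReflTransGen.refl⟩

theorem Pth.right {S : Set P2} {u v : P2} (h : Pth S u v) : v ∈ S := by
  obtain ⟨h1, h2⟩ := h
  induction h2 with
  | refl => exact h1
  | tail _ h3 _ => exact h3.2.1

theorem Pth.symm {S : Set P2} {u v : P2} (h : Pth S u v) : Pth S v u := ⟨h.right, path_symm h.2⟩

theorem Pth.trans {S : Set P2} {u v w : P2} (h : Pth S u v) (h' : Pth S v w) : Pth S u w :=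
  ⟨h.1, h.2.trans h'.2⟩

theorem Pth.mono {S T : Set P2} (hST : S ⊆ T) {u v : P2} (h : Pth S u v) : Pth T u v :=
  ⟨hST h.1, Relation.ReflTransGen.mono (fun _ _ hab => ⟨hST hab.1, hST hab.2.1, hab.2.2⟩) _ _ h.2⟩

theorem Pth.step {S : Set P2} {u v : P2} (hu : u ∈ S) (hv : v ∈ S) (h : Adj u v) : Pth S u v :=
  ⟨hu, Relation.ReflTransGen.single ⟨hu, hv, h⟩⟩

/-- the walk stays in the component -/
theorem Pth.comp {S : Set P2} {u v : P2} (h : Pth S u v) : Pth {w | Pth S u w} u v := by
  obtain ⟨h1, h2⟩ := h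
  induction h2 with
  | refl => exact Pth.refl (Pth.refl h1)
  | @tail b c h3 h4 ih =>
    exact ih.trans (Pth.step (⟨h1, h3⟩ : Pth S u b) (⟨h1, h3.tail h4⟩ : Pth S u c) h4.2.2)

/-- a horizontal walk -/
theorem Pth.hor {S : Set P2} (y a b : ℤ) (h : ∀ t : ℤ, min a b ≤ t → t ≤ max a b → (t, y) ∈ S) :
    Pth S (a, y) (b, y) := ⟨h a (min_le_left _ _) (le_max_left _ _), path_h y a b h⟩

/-- (X1) of doc 1941 -/
def X1 : Prop := ∀ (j0 j1 L R : ℤ) (α β : Set P2),
  (∀ v ∈ α, j0 ≤ v.2 ∧ v.2 ≤ j1) → (∀ v ∈ β, (j0 ≤ v.2 ∧ v.2 ≤ j1) ∧ L < XX v ∧ XX v < R) →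
  ∀ u v p q : P2, Pth α u v → XX u ≤ L → R ≤ XX v → Pth β p q → p.2 = j0 → q.2 = j1 →
  ∃ w ∈ α, w ∈ β

/-- `A` lies in the rows `j0, …, j1` and is bounded -/
def InStrip (A : Set P2) (j0 j1 M : ℤ) : Prop := ∀ v ∈ A, j0 ≤ v.2 ∧ v.2 ≤ j1 ∧ |XX v| ≤ M

variable {A : Set P2} {j0 j1 M : ℤ}

/-- two bottom-top walks with ends in reversed order are joined -/
theorem order_meet_bdd (hX : X1) (hA : InStrip A j0 j1 M) {p q p' q' : P2}
    (h : Pth A p q) (h' : Pth A p' q') (hp : p.2 = j0) (hq : q.2 = j1) (hp' : p'.2 = j0)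
    (hq' : q'.2 = j1) (h1 : XX p < XX p') (h2 : XX q' < XX q) : Pth A p p' := by
  have hM : 0 ≤ M := (abs_nonneg _).trans (hA p h.1).2.2
  set α : Set P2 := {w | Pth A p w} ∪ {w | w.2 = j0 - 1 ∧ XX w ≤ XX p - 1} ∪
    {w | w.2 = j1 + 1 ∧ XX q + 1 ≤ XX w} with hα
  set β : Set P2 := {w | Pth A p' w} ∪ {(p'.1 + 1, j0 - 1)} ∪ {(q'.1 - 1, j1 + 1)} with hβ
  have bp := hA p h.1
  have bq := hA q h.right
  have bp' := hA p' h'.1
  have bq' := hA q' h'.right
  simp only [abs_le] at bp bq bp' bq'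
  have exx : ∀ v : P2, XX v = 2 * v.1 + v.2 := fun v => rfl
  -- the left end
  have hαr : ∀ v ∈ α, j0 - 1 ≤ v.2 ∧ v.2 ≤ j1 + 1 := by
    rintro v ((hv | hv) | hv)
    · have := hA v (Pth.right hv); omega
    · have := hv.1; omega
    · have := hv.1; omega
  have hβr : ∀ v ∈ β, (j0 - 1 ≤ v.2 ∧ v.2 ≤ j1 + 1) ∧ -(M + 2) < XX v ∧ XX v < M + 2 := by
    rintro v ((hv | hv) | hv)
    · have := hA v (Pth.right hv)
      rw [abs_le] at this
      omega
    · have hv : v = (p'.1 + 1, j0 - 1) := hv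
      subst hv
      rw [exx] at bp' ⊢
      simp only
      omega
    · have hv : v = (q'.1 - 1, j1 + 1) := hv
      subst hv
      rw [exx] at bq' ⊢
      simp only
      omega
  -- walks
  have hl : Pth α (p.1 - (2 * M + 4), j0 - 1) (p.1, j0 - 1) := by
    refine Pth.hor _ _ _ fun t ht1 ht2 => Or.inl (Or.inr ⟨rfl, ?_⟩)
    rw [exx, exx]
    simp only
    rw [max_eq_right (by omega)] at ht2
    omega
  have hr : Pth α (q.1, j1 + 1) (q.1 + (2 * M + 4), j1 + 1) := by
    refine Pth.hor _ _ _ fun t ht1 ht2 => Or.inr ⟨rfl, ?_⟩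
    rw [exx, exx]
    simp only
    rw [min_eq_left (by omega)] at ht1
    omega
  have hmid : Pth α p q := (Pth.comp h).mono fun w hw => Or.inl (Or.inl hw)
  have hα1 : Pth α (p.1 - (2 * M + 4), j0 - 1) (q.1 + (2 * M + 4), j1 + 1) := by
    refine hl.trans ((Pth.step hl.right hmid.1 ?_).trans (hmid.trans
      ((Pth.step hmid.right hr.1 ?_).trans hr)))
    · rw [adj_iff]
      right; right; left
      ext
      · rfl
      · simp [hp]
    · rw [adj_iff]
      right; right; left
      ext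
      · rfl
      · simp [hq]
  have hmid' : Pth β p' q' := (Pth.comp h').mono fun w hw => Or.inl (Or.inl hw)
  have hb1 : ((p'.1 + 1, j0 - 1) : P2) ∈ β := Or.inl (Or.inr rfl)
  have hb2 : ((q'.1 - 1, j1 + 1) : P2) ∈ β := Or.inr rfl
  have hβ1 : Pth β (p'.1 + 1, j0 - 1) (q'.1 - 1, j1 + 1) := by
    refine (Pth.step hb1 hmid'.1 ?_).trans (hmid'.trans (Pth.step hmid'.right hb2 ?_))
    · rw [adj_iff]
      right; right; right; right; right
      ext
      · simp
      · simp [hp']
    · rw [adj_iff]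
      right; right; right; right; right
      ext
      · simp
      · simp [hq']
  obtain ⟨w, hw1, hw2⟩ := hX (j0 - 1) (j1 + 1) (-(M + 2)) (M + 2) α β hαr hβr _ _ _ _ hα1
    (by rw [exx] at *; simp only; omega) (by rw [exx] at *; simp only; omega) hβ1 rfl rfl
  rcases hw2 with (hw2 | hw2) | hw2
  · rcases hw1 with (hw1 | hw1) | hw1
    · exact Pth.trans hw1 (Pth.symm hw2)
    · have := hA w (Pth.right hw2)
      have := hw1.1
      omega
    · have := hA w (Pth.right hw2)
      have := hw1.1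
      omega
  · have hw2 : w = (p'.1 + 1, j0 - 1) := hw2
    subst hw2
    exfalso
    rcases hw1 with (hw1 | hw1) | hw1
    · have := hA _ (Pth.right hw1)
      simp only at this
      omega
    · have := hw1.2
      simp only [XX] at this h1
      omega
    · have := hw1.1
      simp only at this
      omega
  · have hw2 : w = (q'.1 - 1, j1 + 1) := hw2
    subst hw2
    exfalso
    rcases hw1 with (hw1 | hw1) | hw1
    · have := hA _ (Pth.right hw1)
      simp only at this
      omega
    · have := hw1.1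
      simp only at this
      omega
    · have := hw1.2
      simp only [XX] at this h2
      omega

/-- an arc with two feet on the bottom row meets every bottom-top walk with its foot between them -/
theorem arc_bot_bdd (hX : X1) (hA : InStrip A j0 j1 M) {p q u v : P2}
    (h : Pth A p q) (h' : Pth A u v) (hp : p.2 = j0) (hq : q.2 = j0) (hu : u.2 = j0)
    (hv : v.2 = j1) (h1 : XX p < XX u) (h2 : XX u < XX q) : Pth A p u := by
  have hM : 0 ≤ M := (abs_nonneg _).trans (hA p h.1).2.2
  set α : Set P2 := {w | Pth A p w} ∪ {w | w.2 = j0 - 1 ∧ XX w ≤ XX p - 1} ∪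
    {w | w.2 = j0 - 1 ∧ XX q + 1 ≤ XX w} with hα
  set β : Set P2 := {w | Pth A u w} ∪ {(u.1, j0 - 1)} ∪ {(v.1, j1 + 1)} with hβ
  have bp := hA p h.1
  have bq := hA q h.right
  have bp' := hA u h'.1
  have bq' := hA v h'.right
  simp only [abs_le] at bp bq bp' bq'
  have exx : ∀ v : P2, XX v = 2 * v.1 + v.2 := fun v => rfl
  have hj : j0 ≤ j1 := by omega
  -- the left end
  have hαr : ∀ v ∈ α, j0 - 1 ≤ v.2 ∧ v.2 ≤ j1 + 1 := by
    rintro v ((hv | hv) | hv)
    · have := hA v (Pth.right hv); omega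
    · have := hv.1; omega
    · have := hv.1; omega
  have hβr : ∀ v ∈ β, (j0 - 1 ≤ v.2 ∧ v.2 ≤ j1 + 1) ∧ -(M + 2) < XX v ∧ XX v < M + 2 := by
    rintro w ((hw | hw) | hw)
    · have := hA w (Pth.right hw)
      rw [abs_le] at this
      omega
    · have hw : w = (u.1, j0 - 1) := hw
      subst hw
      rw [exx] at bp' ⊢
      simp only
      omega
    · have hw : w = (v.1, j1 + 1) := hw
      subst hw
      rw [exx] at bq' ⊢
      simp only
      omega
  -- walks
  have hl : Pth α (p.1 - (2 * M + 4), j0 - 1) (p.1, j0 - 1) := by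
    refine Pth.hor _ _ _ fun t ht1 ht2 => Or.inl (Or.inr ⟨rfl, ?_⟩)
    rw [exx, exx]
    simp only
    rw [max_eq_right (by omega)] at ht2
    omega
  have hr : Pth α (q.1 + 1, j0 - 1) (q.1 + 1 + (2 * M + 4), j0 - 1) := by
    refine Pth.hor _ _ _ fun t ht1 ht2 => Or.inr ⟨rfl, ?_⟩
    rw [exx, exx]
    simp only
    rw [min_eq_left (by omega)] at ht1
    omega
  have hmid : Pth α p q := (Pth.comp h).mono fun w hw => Or.inl (Or.inl hw)
  have hα1 : Pth α (p.1 - (2 * M + 4), j0 - 1) (q.1 + 1 + (2 * M + 4), j0 - 1) := by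
    refine hl.trans ((Pth.step hl.right hmid.1 ?_).trans (hmid.trans
      ((Pth.step hmid.right hr.1 ?_).trans hr)))
    · rw [adj_iff]
      right; right; left
      ext
      · rfl
      · simp [hp]
    · rw [adj_iff]
      right; right; right; right; left
      ext
      · rfl
      · simp [hq]
  have hmid' : Pth β u v := (Pth.comp h').mono fun w hw => Or.inl (Or.inl hw)
  have hb1 : ((u.1, j0 - 1) : P2) ∈ β := Or.inl (Or.inr rfl)
  have hb2 : ((v.1, j1 + 1) : P2) ∈ β := Or.inr rfl
  have hβ1 : Pth β (u.1, j0 - 1) (v.1, j1 + 1) := by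
    refine (Pth.step hb1 hmid'.1 ?_).trans (hmid'.trans (Pth.step hmid'.right hb2 ?_))
    · rw [adj_iff]
      right; right; left
      ext
      · rfl
      · simp [hu]
    · rw [adj_iff]
      right; right; left
      ext
      · rfl
      · simp [hv]
  obtain ⟨w, hw1, hw2⟩ := hX (j0 - 1) (j1 + 1) (-(M + 2)) (M + 2) α β hαr hβr _ _ _ _ hα1
    (by rw [exx] at *; simp only; omega) (by rw [exx] at *; simp only; omega) hβ1 rfl rfl
  rcases hw2 with (hw2 | hw2) | hw2
  · rcases hw1 with (hw1 | hw1) | hw1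
    · exact Pth.trans hw1 (Pth.symm hw2)
    · have := hA w (Pth.right hw2)
      have := hw1.1
      omega
    · have := hA w (Pth.right hw2)
      have := hw1.1
      omega
  · have hw2 : w = (u.1, j0 - 1) := hw2
    subst hw2
    exfalso
    rcases hw1 with (hw1 | hw1) | hw1
    · have := hA _ (Pth.right hw1)
      simp only at this
      omega
    · have := hw1.2
      simp only [XX] at this h1
      omega
    · have := hw1.2
      simp only [XX] at this h2
      omega
  · have hw2 : w = (v.1, j1 + 1) := hw2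
    subst hw2
    exfalso
    rcases hw1 with (hw1 | hw1) | hw1
    · have := hA _ (Pth.right hw1)
      simp only at this
      omega
    · have := hw1.1
      simp only at this
      omega
    · have := hw1.1
      simp only at this
      omega

/-- an arc with two feet on the top row meets every bottom-top walk with its foot between them -/
theorem arc_top_bdd (hX : X1) (hA : InStrip A j0 j1 M) {p q u v : P2}
    (h : Pth A p q) (h' : Pth A u v) (hp : p.2 = j1) (hq : q.2 = j1) (hu : u.2 = j0)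
    (hv : v.2 = j1) (h1 : XX p < XX v) (h2 : XX v < XX q) : Pth A p v := by
  have hM : 0 ≤ M := (abs_nonneg _).trans (hA p h.1).2.2
  set α : Set P2 := {w | Pth A p w} ∪ {w | w.2 = j1 + 1 ∧ XX w ≤ XX p - 1} ∪
    {w | w.2 = j1 + 1 ∧ XX q + 1 ≤ XX w} with hα
  set β : Set P2 := {w | Pth A u w} ∪ {(u.1, j0 - 1)} ∪ {(v.1, j1 + 1)} with hβ
  have bp := hA p h.1
  have bq := hA q h.right
  have bp' := hA u h'.1
  have bq' := hA v h'.right
  simp only [abs_le] at bp bq bp' bq'
  have exx : ∀ v : P2, XX v = 2 * v.1 + v.2 := fun v => rfl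
  have hj : j0 ≤ j1 := by omega
  -- the left end
  have hαr : ∀ v ∈ α, j0 - 1 ≤ v.2 ∧ v.2 ≤ j1 + 1 := by
    rintro v ((hv | hv) | hv)
    · have := hA v (Pth.right hv); omega
    · have := hv.1; omega
    · have := hv.1; omega
  have hβr : ∀ v ∈ β, (j0 - 1 ≤ v.2 ∧ v.2 ≤ j1 + 1) ∧ -(M + 2) < XX v ∧ XX v < M + 2 := by
    rintro w ((hw | hw) | hw)
    · have := hA w (Pth.right hw)
      rw [abs_le] at this
      omega
    · have hw : w = (u.1, j0 - 1) := hw
      subst hw
      rw [exx] at bp' ⊢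
      simp only
      omega
    · have hw : w = (v.1, j1 + 1) := hw
      subst hw
      rw [exx] at bq' ⊢
      simp only
      omega
  -- walks
  have hl : Pth α (p.1 - 1 - (2 * M + 4), j1 + 1) (p.1 - 1, j1 + 1) := by
    refine Pth.hor _ _ _ fun t ht1 ht2 => Or.inl (Or.inr ⟨rfl, ?_⟩)
    rw [exx, exx]
    simp only
    rw [max_eq_right (by omega)] at ht2
    omega
  have hr : Pth α (q.1, j1 + 1) (q.1 + (2 * M + 4), j1 + 1) := by
    refine Pth.hor _ _ _ fun t ht1 ht2 => Or.inr ⟨rfl, ?_⟩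
    rw [exx, exx]
    simp only
    rw [min_eq_left (by omega)] at ht1
    omega
  have hmid : Pth α p q := (Pth.comp h).mono fun w hw => Or.inl (Or.inl hw)
  have hα1 : Pth α (p.1 - 1 - (2 * M + 4), j1 + 1) (q.1 + (2 * M + 4), j1 + 1) := by
    refine hl.trans ((Pth.step hl.right hmid.1 ?_).trans (hmid.trans
      ((Pth.step hmid.right hr.1 ?_).trans hr)))
    · rw [adj_iff]
      right; right; right; right; left
      ext
      · simp
      · simp [hp]
    · rw [adj_iff]
      right; right; left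
      ext
      · rfl
      · simp [hq]
  have hmid' : Pth β u v := (Pth.comp h').mono fun w hw => Or.inl (Or.inl hw)
  have hb1 : ((u.1, j0 - 1) : P2) ∈ β := Or.inl (Or.inr rfl)
  have hb2 : ((v.1, j1 + 1) : P2) ∈ β := Or.inr rfl
  have hβ1 : Pth β (u.1, j0 - 1) (v.1, j1 + 1) := by
    refine (Pth.step hb1 hmid'.1 ?_).trans (hmid'.trans (Pth.step hmid'.right hb2 ?_))
    · rw [adj_iff]
      right; right; left
      ext
      · rfl
      · simp [hu]
    · rw [adj_iff]
      right; right; left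
      ext
      · rfl
      · simp [hv]
  obtain ⟨w, hw1, hw2⟩ := hX (j0 - 1) (j1 + 1) (-(M + 2)) (M + 2) α β hαr hβr _ _ _ _ hα1
    (by rw [exx] at *; simp only; omega) (by rw [exx] at *; simp only; omega) hβ1 rfl rfl
  rcases hw2 with (hw2 | hw2) | hw2
  · rcases hw1 with (hw1 | hw1) | hw1
    · exact (Pth.trans hw1 (Pth.symm hw2)).trans h'
    · have := hA w (Pth.right hw2)
      have := hw1.1
      omega
    · have := hA w (Pth.right hw2)
      have := hw1.1
      omega
  · have hw2 : w = (u.1, j0 - 1) := hw2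
    subst hw2
    exfalso
    rcases hw1 with (hw1 | hw1) | hw1
    · have := hA _ (Pth.right hw1)
      simp only at this
      omega
    · have := hw1.1
      simp only at this
      omega
    · have := hw1.1
      simp only at this
      omega
  · have hw2 : w = (v.1, j1 + 1) := hw2
    subst hw2
    exfalso
    rcases hw1 with (hw1 | hw1) | hw1
    · have := hA _ (Pth.right hw1)
      simp only at this
      omega
    · have := hw1.2
      simp only [XX] at this h1
      omega
    · have := hw1.2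
      simp only [XX] at this h2
      omega

theorem x1_holds : X1 := by
  intro j0 j1 L R α β hα hβ u v p q huv hu hv hpq hp hq
  obtain ⟨w, h1, h2⟩ := Crest.Agent.R144.Hex585.cross (W := α) (C := β) huv.1 huv.2 hpq.1 hpq.2
    (fun w hw => by rw [hp, hq]; exact hα w hw)
    (fun w hw => by
      have := hβ w hw
      simp only [XX, Crest.Agent.R144.Hex585.xx] at *
      omega)
  exact ⟨w, h1, h2⟩

/-- `A` lies in the rows `j0, …, j1` -/
def InRows (A : Set P2) (j0 j1 : ℤ) : Prop := ∀ v ∈ A, j0 ≤ v.2 ∧ v.2 ≤ j1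

theorem cut_mono {A : Set P2} {M M' : ℤ} (h : M ≤ M') :
    A ∩ {w | |XX w| ≤ M} ⊆ A ∩ {w | |XX w| ≤ M'} :=
  Set.inter_subset_inter_right A fun _ hw => le_trans (show _ ≤ M from hw) h

theorem Pth.bdd {A : Set P2} {u v : P2} (h : Pth A u v) :
    ∃ M : ℤ, Pth (A ∩ {w | |XX w| ≤ M}) u v := by
  obtain ⟨h1, h2⟩ := h
  induction h2 with
  | refl => exact ⟨|XX u|, Pth.refl ⟨h1, show |XX u| ≤ |XX u| from le_rfl⟩⟩
  | @tail b c h3 h4 ih =>
    obtain ⟨M, hM⟩ := ih
    refine ⟨max M |XX c|, ?_⟩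
    have h5 := hM.mono (cut_mono (A := A) (le_max_left M |XX c|))
    exact h5.trans (Pth.step h5.right ⟨h4.2.1, show |XX c| ≤ max M |XX c| from le_max_right M |XX c|⟩
      h4.2.2)

theorem Pth.bdd2 {A : Set P2} {u v u' v' : P2} (h : Pth A u v) (h' : Pth A u' v') :
    ∃ M : ℤ, Pth (A ∩ {w | |XX w| ≤ M}) u v ∧ Pth (A ∩ {w | |XX w| ≤ M}) u' v' := by
  obtain ⟨M, hM⟩ := h.bdd
  obtain ⟨M', hM'⟩ := h'.bdd
  exact ⟨max M M', hM.mono (cut_mono (le_max_left _ _)), hM'.mono (cut_mono (le_max_right _ _))⟩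

theorem InRows.inStrip {A : Set P2} {j0 j1 : ℤ} (hA : InRows A j0 j1) (M : ℤ) :
    InStrip (A ∩ {w | |XX w| ≤ M}) j0 j1 M := fun v hv => ⟨(hA v hv.1).1, (hA v hv.1).2, hv.2⟩

/-- two bottom-top walks with ends in reversed order are joined -/
theorem order_meet (hA : InRows A j0 j1) {p q p' q' : P2}
    (h : Pth A p q) (h' : Pth A p' q') (hp : p.2 = j0) (hq : q.2 = j1) (hp' : p'.2 = j0)
    (hq' : q'.2 = j1) (h1 : XX p < XX p') (h2 : XX q' < XX q) : Pth A p p' := by
  obtain ⟨M, hM, hM'⟩ := h.bdd2 h'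
  exact (order_meet_bdd x1_holds (hA.inStrip M) hM hM' hp hq hp' hq' h1 h2).mono Set.inter_subset_left

/-- an arc with two feet on the bottom row meets every bottom-top walk with its foot between them -/
theorem arc_bot (hA : InRows A j0 j1) {p q u v : P2}
    (h : Pth A p q) (h' : Pth A u v) (hp : p.2 = j0) (hq : q.2 = j0) (hu : u.2 = j0)
    (hv : v.2 = j1) (h1 : XX p < XX u) (h2 : XX u < XX q) : Pth A p u := by
  obtain ⟨M, hM, hM'⟩ := h.bdd2 h'
  exact (arc_bot_bdd x1_holds (hA.inStrip M) hM hM' hp hq hu hv h1 h2).mono Set.inter_subset_left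

/-- an arc with two feet on the top row meets every bottom-top walk with its foot between them -/
theorem arc_top (hA : InRows A j0 j1) {p q u v : P2}
    (h : Pth A p q) (h' : Pth A u v) (hp : p.2 = j1) (hq : q.2 = j1) (hu : u.2 = j0)
    (hv : v.2 = j1) (h1 : XX p < XX v) (h2 : XX v < XX q) : Pth A p v := by
  obtain ⟨M, hM, hM'⟩ := h.bdd2 h'
  exact (arc_top_bdd x1_holds (hA.inStrip M) hM hM' hp hq hu hv h1 h2).mono Set.inter_subset_left

/-- chain of arcs made of pairs of walks in reversed order -/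
theorem chain_top (hA : InRows A j0 j1) (N : ℕ) (p q p' q' : ℕ → P2)
    (h : ∀ k ≤ N, Pth A (p k) (q k)) (h' : ∀ k ≤ N, Pth A (p' k) (q' k))
    (hp : ∀ k ≤ N, (p k).2 = j0) (hq : ∀ k ≤ N, (q k).2 = j1)
    (hp' : ∀ k ≤ N, (p' k).2 = j0) (hq' : ∀ k ≤ N, (q' k).2 = j1)
    (h1 : ∀ k ≤ N, XX (p k) < XX (p' k)) (h2 : ∀ k ≤ N, XX (q' k) < XX (q k))
    (h3 : ∀ k, k + 1 ≤ N → XX (q' k) < XX (q' (k + 1)) ∧ XX (q' (k + 1)) < XX (q k)) :
    Pth A (q' 0) (q N) := by
  have key : ∀ k ≤ N, Pth A (q' k) (q k) := fun k hk =>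
    (h' k hk).symm.trans ((order_meet hA (h k hk) (h' k hk) (hp k hk) (hq k hk) (hp' k hk)
      (hq' k hk) (h1 k hk) (h2 k hk)).symm.trans (h k hk))
  induction N with
  | zero => exact key 0 le_rfl
  | succ N ih =>
    have ih' := ih (fun k hk => h k (by omega)) (fun k hk => h' k (by omega))
      (fun k hk => hp k (by omega)) (fun k hk => hq k (by omega)) (fun k hk => hp' k (by omega))
      (fun k hk => hq' k (by omega)) (fun k hk => h1 k (by omega)) (fun k hk => h2 k (by omega))
      (fun k hk => h3 k (by omega)) (fun k hk => key k (by omega))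
    have h4 := h3 N le_rfl
    have h5 : Pth A (q' N) (q' (N + 1)) :=
      arc_top hA (key N (by omega)) (h' (N + 1) le_rfl) (hq' N (by omega)) (hq N (by omega))
        (hp' (N + 1) le_rfl) (hq' (N + 1) le_rfl) h4.1 h4.2
    exact ih'.trans ((key N (by omega)).symm.trans (h5.trans (key (N + 1) le_rfl)))

/-- chain of arcs glued by bottom-top walks (bottom feet) -/
theorem chain_arc_bot (hA : InRows A j0 j1) (N : ℕ) (p q u v : ℕ → P2)
    (h : ∀ k ≤ N, Pth A (p k) (q k)) (h' : ∀ k < N, Pth A (u k) (v k))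
    (hp : ∀ k ≤ N, (p k).2 = j0) (hq : ∀ k ≤ N, (q k).2 = j0)
    (hu : ∀ k < N, (u k).2 = j0) (hv : ∀ k < N, (v k).2 = j1)
    (h1 : ∀ k < N, XX (p k) < XX (u k) ∧ XX (u k) < XX (q k))
    (h2 : ∀ k < N, XX (p (k + 1)) < XX (u k) ∧ XX (u k) < XX (q (k + 1))) :
    Pth A (p 0) (q N) := by
  induction N with
  | zero => exact h 0 le_rfl
  | succ N ih =>
    have ih' := ih (fun k hk => h k (by omega)) (fun k hk => h' k (by omega))
      (fun k hk => hp k (by omega)) (fun k hk => hq k (by omega)) (fun k hk => hu k (by omega))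
      (fun k hk => hv k (by omega)) (fun k hk => h1 k (by omega)) (fun k hk => h2 k (by omega))
    have h3 := arc_bot hA (h N (by omega)) (h' N (by omega)) (hp N (by omega)) (hq N (by omega))
      (hu N (by omega)) (hv N (by omega)) (h1 N (by omega)).1 (h1 N (by omega)).2
    have h4 := arc_bot hA (h (N + 1) le_rfl) (h' N (by omega)) (hp (N + 1) le_rfl)
      (hq (N + 1) le_rfl) (hu N (by omega)) (hv N (by omega)) (h2 N (by omega)).1
      (h2 N (by omega)).2
    exact ih'.trans ((h N (by omega)).symm.trans (h3.trans (h4.symm.trans (h (N + 1) le_rfl))))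

/-- chain of arcs glued by bottom-top walks (top feet) -/
theorem chain_arc_top (hA : InRows A j0 j1) (N : ℕ) (p q u v : ℕ → P2)
    (h : ∀ k ≤ N, Pth A (p k) (q k)) (h' : ∀ k < N, Pth A (u k) (v k))
    (hp : ∀ k ≤ N, (p k).2 = j1) (hq : ∀ k ≤ N, (q k).2 = j1)
    (hu : ∀ k < N, (u k).2 = j0) (hv : ∀ k < N, (v k).2 = j1)
    (h1 : ∀ k < N, XX (p k) < XX (v k) ∧ XX (v k) < XX (q k))
    (h2 : ∀ k < N, XX (p (k + 1)) < XX (v k) ∧ XX (v k) < XX (q (k + 1))) :
    Pth A (p 0) (q N) := by
  induction N with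
  | zero => exact h 0 le_rfl
  | succ N ih =>
    have ih' := ih (fun k hk => h k (by omega)) (fun k hk => h' k (by omega))
      (fun k hk => hp k (by omega)) (fun k hk => hq k (by omega)) (fun k hk => hu k (by omega))
      (fun k hk => hv k (by omega)) (fun k hk => h1 k (by omega)) (fun k hk => h2 k (by omega))
    have h3 := arc_top hA (h N (by omega)) (h' N (by omega)) (hp N (by omega)) (hq N (by omega))
      (hu N (by omega)) (hv N (by omega)) (h1 N (by omega)).1 (h1 N (by omega)).2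
    have h4 := arc_top hA (h (N + 1) le_rfl) (h' N (by omega)) (hp (N + 1) le_rfl)
      (hq (N + 1) le_rfl) (hu N (by omega)) (hv N (by omega)) (h2 N (by omega)).1
      (h2 N (by omega)).2
    exact ih'.trans ((h N (by omega)).symm.trans (h3.trans (h4.symm.trans (h (N + 1) le_rfl))))

end Crest.Agent.R144.Qa277
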