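import Crest.Agent.R144.Qa_277

/-!
# R144, R1 (doc 1941): finitely additive positively associated laws, square root trick (helper277)
-/

set_option autoImplicit false

namespace Crest.Agent.R144.Qa277

open Crest.Agent.R144.It844 (P2 adj_iff adj_symm)
open Crest.Agent.R144.Zg349 (StepIn IsConn)

/-- a finitely additive positively associated probability on the site colourings (`ω` = blue set) -/
structure IsLw (p : Set (Set P2) → ℝ) : Prop where
  nonneg : ∀ E, 0 ≤ p E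
  univ : p Set.univ = 1
  empty : p ∅ = 0
  mod : ∀ E F, p (E ∪ F) + p (E ∩ F) = p E + p F
  assoc : ∀ E F, IsUpperSet E → IsUpperSet F → p E * p F ≤ p (E ∩ F)

namespace IsLw

variable {p : Set (Set P2) → ℝ} (L : IsLw p)
include L

theorem mono {E F : Set (Set P2)} (h : E ⊆ F) : p E ≤ p F := by
  have h1 := L.mod E (F \ E)
  rw [Set.union_sdiff_cancel h, Set.inter_sdiff_self, L.empty] at h1
  have := L.nonneg (F \ E)
  linarith

theorem compl (E : Set (Set P2)) : p Eᶜ = 1 - p E := by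
  have h1 := L.mod E Eᶜ
  rw [Set.union_compl_self, Set.inter_compl_self, L.empty, L.univ] at h1
  linarith

theorem le_one (E : Set (Set P2)) : p E ≤ 1 := by
  rw [← L.univ]; exact L.mono (Set.subset_univ E)

theorem inter_ge (E F : Set (Set P2)) : p E + p F - 1 ≤ p (E ∩ F) := by
  have h1 := L.mod E F
  have := L.le_one (E ∪ F)
  linarith

theorem union_le (E F : Set (Set P2)) : p (E ∪ F) ≤ p E + p F := by
  have h1 := L.mod E F
  have := L.nonneg (E ∩ F)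
  linarith

/-- negative events are positively associated, too -/
theorem assoc_compl {E F : Set (Set P2)} (hE : IsUpperSet E) (hF : IsUpperSet F) :
    p Eᶜ * p Fᶜ ≤ p (Eᶜ ∩ Fᶜ) := by
  rw [← Set.compl_union, L.compl, L.compl, L.compl]
  have h1 := L.mod E F
  have h2 := L.assoc E F hE hF
  nlinarith

/-- union bound -/
theorem biInter_ge {ι : Type*} (s : Finset ι) (E : ι → Set (Set P2)) :
    1 - ∑ i ∈ s, (1 - p (E i)) ≤ p (⋂ i ∈ s, E i) := by
  classical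
  induction s using Finset.induction_on with
  | empty => simp [L.univ]
  | @insert a s ha ih =>
    rw [Finset.set_biInter_insert, Finset.sum_insert ha]
    have := L.inter_ge (E a) (⋂ i ∈ s, E i)
    linarith

/-- square root trick -/
theorem sqrt_trick {ι : Type*} (s : Finset ι) (E : ι → Set (Set P2)) (hE : ∀ i ∈ s, IsUpperSet (E i))
    {x : ℝ} (hx : 0 ≤ x) (h : 1 - x ^ s.card ≤ p (⋃ i ∈ s, E i)) (hs : s.Nonempty) :
    ∃ i ∈ s, 1 - x ≤ p (E i) := by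
  classical
  by_contra hcon
  push Not at hcon
  have key : ∀ t : Finset ι, t ⊆ s → t.Nonempty → p (⋃ i ∈ t, E i) < 1 - x ^ t.card := by
    intro t
    induction t using Finset.induction_on with
    | empty => intro _ h; exact absurd h (by simp)
    | @insert a t ha ih =>
      intro hts _
      rw [Finset.set_biUnion_insert, Finset.card_insert_of_notMem ha]
      have h1 : p (E a) < 1 - x := hcon a (hts (Finset.mem_insert_self a t))
      have hts' : t ⊆ s := fun i hi => hts (Finset.mem_insert_of_mem hi)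
      by_cases ht : t.Nonempty
      · have h2 := ih hts' ht
        have hup : IsUpperSet (⋃ i ∈ t, E i) := isUpperSet_iUnion₂ fun i hi => hE i (hts' hi)
        have h3 := L.assoc_compl (hE a (hts (Finset.mem_insert_self a t))) hup
        rw [← Set.compl_union, L.compl, L.compl, L.compl] at h3
        have h4 : 0 ≤ x ^ t.card := pow_nonneg hx _
        rw [pow_succ]
        nlinarith
      · rw [Finset.not_nonempty_iff_eq_empty] at ht
        subst ht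
        simpa using h1
  exact absurd (key s subset_rfl hs) (not_lt.2 h)

end IsLw

/-! ### connection events -/

/-- `S` and `T` are joined by a blue walk inside `B` -/
def Cn (B S T : Set P2) : Set (Set P2) := {ω | ∃ u ∈ S, ∃ v ∈ T, Pth (ω ∩ B) u v}

theorem cn_upper (B S T : Set P2) : IsUpperSet (Cn B S T) := by
  rintro ω ω' h ⟨u, hu, v, hv, hp⟩
  exact ⟨u, hu, v, hv, hp.mono (Set.inter_subset_inter_left B h)⟩

theorem cn_mono {B B' S S' T T' : Set P2} (hB : B ⊆ B') (hS : S ⊆ S') (hT : T ⊆ T') :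
    Cn B S T ⊆ Cn B' S' T' := by
  rintro ω ⟨u, hu, v, hv, hp⟩
  exact ⟨u, hS hu, v, hT hv, hp.mono (Set.inter_subset_inter_right ω hB)⟩

/-- rows `j0, …, j0 + h` -/
def Rw (j0 h : ℤ) : Set P2 := {v | j0 ≤ v.2 ∧ v.2 ≤ j0 + h}
/-- box: rows `j0, …, j0 + h`, `|XX - a| ≤ R` -/
def Bx (j0 h a R : ℤ) : Set P2 := {v | j0 ≤ v.2 ∧ v.2 ≤ j0 + h ∧ |XX v - a| ≤ R}
/-- window on row `j` -/
def Win (j a w : ℤ) : Set P2 := {v | v.2 = j ∧ |XX v - a| ≤ w}

theorem bx_sub_rw (j0 h a R : ℤ) : Bx j0 h a R ⊆ Rw j0 h := fun _ hv => ⟨hv.1, hv.2.1⟩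

theorem bx_mono {j0 h a R a' R' : ℤ} (h1 : |a' - a| + R ≤ R') : Bx j0 h a R ⊆ Bx j0 h a' R' := by
  rintro v ⟨h2, h3, h4⟩
  refine ⟨h2, h3, ?_⟩
  rw [abs_le] at *
  have h5 := abs_le.1 (le_refl |a' - a|)
  omega

theorem win_mono {j a w a' w' : ℤ} (h1 : |a' - a| + w ≤ w') : Win j a w ⊆ Win j a' w' := by
  rintro v ⟨h2, h4⟩
  refine ⟨h2, ?_⟩
  rw [abs_le] at *
  have h5 := abs_le.1 (le_refl |a' - a|)
  omega

/-- translate of a set of sites -/
def tr (k : ℤ) (X : Set P2) : Set P2 := {v | (v.1 - k, v.2) ∈ X}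
/-- reflection `XX ↦ -XX` of a set of sites -/
def rf (X : Set P2) : Set P2 := {v | (-v.1 - v.2, v.2) ∈ X}

theorem tr_bx (k j0 h a R : ℤ) : tr k (Bx j0 h a R) = Bx j0 h (a + 2 * k) R := by
  ext v
  show (j0 ≤ v.2 ∧ v.2 ≤ j0 + h ∧ |2 * (v.1 - k) + v.2 - a| ≤ R) ↔
    (j0 ≤ v.2 ∧ v.2 ≤ j0 + h ∧ |2 * v.1 + v.2 - (a + 2 * k)| ≤ R)
  rw [show 2 * (v.1 - k) + v.2 - a = 2 * v.1 + v.2 - (a + 2 * k) by ring]

theorem tr_rw (k j0 h : ℤ) : tr k (Rw j0 h) = Rw j0 h := rfl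

theorem tr_win (k j a w : ℤ) : tr k (Win j a w) = Win j (a + 2 * k) w := by
  ext v
  show (v.2 = j ∧ |2 * (v.1 - k) + v.2 - a| ≤ w) ↔ (v.2 = j ∧ |2 * v.1 + v.2 - (a + 2 * k)| ≤ w)
  rw [show 2 * (v.1 - k) + v.2 - a = 2 * v.1 + v.2 - (a + 2 * k) by ring]

theorem rf_bx (j0 h a R : ℤ) : rf (Bx j0 h a R) = Bx j0 h (-a) R := by
  ext v
  show (j0 ≤ v.2 ∧ v.2 ≤ j0 + h ∧ |2 * (-v.1 - v.2) + v.2 - a| ≤ R) ↔
    (j0 ≤ v.2 ∧ v.2 ≤ j0 + h ∧ |2 * v.1 + v.2 - -a| ≤ R)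
  rw [show 2 * (-v.1 - v.2) + v.2 - a = -(2 * v.1 + v.2 - -a) by ring, abs_neg]

theorem rf_win (j a w : ℤ) : rf (Win j a w) = Win j (-a) w := by
  ext v
  show (v.2 = j ∧ |2 * (-v.1 - v.2) + v.2 - a| ≤ w) ↔ (v.2 = j ∧ |2 * v.1 + v.2 - -a| ≤ w)
  rw [show 2 * (-v.1 - v.2) + v.2 - a = -(2 * v.1 + v.2 - -a) by ring, abs_neg]

/-- `B` lies in the box `|XX| ≤ M`, `|row| ≤ M` -/
def Bdd (M : ℤ) (B : Set P2) : Prop := ∀ v ∈ B, |XX v| ≤ M ∧ |v.2| ≤ M

theorem bdd_bx {j0 h a R M : ℤ} (h1 : |a| + R ≤ M) (h2 : |j0| + |h| ≤ M) : Bdd M (Bx j0 h a R) := by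
  rintro v ⟨hv1, hv2, hv3⟩
  have h3 := abs_le.1 (le_refl |a|)
  have h4 := abs_le.1 (le_refl |j0|)
  have h5 := abs_le.1 (le_refl |h|)
  rw [abs_le] at hv3
  constructor <;> rw [abs_le] <;> constructor <;> omega

/-- approximate invariance under horizontal translations by at most `T`, on connection events in
boxes -/
def InvT (p : Set (Set P2) → ℝ) (T : ℤ) (ρ : ℝ) : Prop := ∀ k : ℤ, |k| ≤ T → ∀ B S S' : Set P2,
  Bdd T B → p (Cn B S S') - ρ ≤ p (Cn (tr k B) (tr k S) (tr k S'))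

/-- approximate invariance under the reflection `XX ↦ -XX` -/
def InvR (p : Set (Set P2) → ℝ) (T : ℤ) (ρ : ℝ) : Prop := ∀ B S S' : Set P2,
  Bdd T B → p (Cn B S S') - ρ ≤ p (Cn (rf B) (rf S) (rf S'))

/-! ### (3.1) -/

/-- long blue crossing of the rows `j0, …, j0 + h` -/
def Hd (j0 h a l : ℤ) : Set (Set P2) := Cn (Rw j0 h) {v | XX v ≤ a - l} {v | a + l ≤ XX v}

theorem inRows_rw (ω : Set P2) (j0 h : ℤ) : InRows (ω ∩ Rw j0 h) j0 (j0 + h) := fun _ hv => hv.2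

/-- arcs on the bottom row glued by bottom-top walks -/
theorem hd_of_arcs_bot {j0 h a l y s d c w : ℤ} {N : ℕ} {ω : Set P2} (hs : 0 < s)
    (hc : s + 2 * w < c) (hcd : c < d - 2 * w) (h1 : y + w ≤ a - l) (h2 : a + l ≤ y + N * s + d - w)
    (hK : ∀ k ≤ N, ω ∈ Cn (Rw j0 h) (Win j0 (y + (k : ℤ) * s) w) (Win j0 (y + (k : ℤ) * s + d) w))
    (hV : ∀ k < N, ∃ S, ω ∈ Cn (Rw j0 h) (Win j0 (y + (k : ℤ) * s + c) w) (S ∩ {v | v.2 = j0 + h})) :
    ω ∈ Hd j0 h a l := by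
  classical
  have hK' : ∀ k : ℕ, ∃ u v : P2, k ≤ N → (u.2 = j0 ∧ |XX u - (y + (k : ℤ) * s)| ≤ w) ∧
      (v.2 = j0 ∧ |XX v - (y + (k : ℤ) * s + d)| ≤ w) ∧ Pth (ω ∩ Rw j0 h) u v := by
    intro k
    by_cases hk : k ≤ N
    · obtain ⟨u, hu, v, hv, hp⟩ := hK k hk
      exact ⟨u, v, fun _ => ⟨hu, hv, hp⟩⟩
    · exact ⟨0, 0, fun h => absurd h hk⟩
  have hV' : ∀ k : ℕ, ∃ u v : P2, k < N → (u.2 = j0 ∧ |XX u - (y + (k : ℤ) * s + c)| ≤ w) ∧
      v.2 = j0 + h ∧ Pth (ω ∩ Rw j0 h) u v := by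
    intro k
    by_cases hk : k < N
    · obtain ⟨S, u, hu, v, hv, hp⟩ := hV k hk
      exact ⟨u, v, fun _ => ⟨hu, hv.2, hp⟩⟩
    · exact ⟨0, 0, fun h => absurd h hk⟩
  choose P Q hPQ using hK'
  choose U V hUV using hV'
  have key := chain_arc_bot (inRows_rw ω j0 h) N P Q U V (fun k hk => (hPQ k hk).2.2)
    (fun k hk => (hUV k hk).2.2) (fun k hk => (hPQ k hk).1.1) (fun k hk => (hPQ k hk).2.1.1)
    (fun k hk => (hUV k hk).1.1) (fun k hk => (hUV k hk).2.1)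
    (fun k hk => by
      have e1 := abs_le.1 (hPQ k hk.le).1.2
      have e2 := abs_le.1 (hPQ k hk.le).2.1.2
      have e3 := abs_le.1 (hUV k hk).1.2
      constructor <;> omega)
    (fun k hk => by
      have e1 := abs_le.1 (hPQ (k + 1) hk).1.2
      have e2 := abs_le.1 (hPQ (k + 1) hk).2.1.2
      have e3 := abs_le.1 (hUV k hk).1.2
      push_cast at e1 e2
      rw [add_mul, one_mul] at e1 e2
      constructor <;> omega)
  have e1 := abs_le.1 (hPQ 0 (Nat.zero_le _)).1.2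
  have e2 := abs_le.1 (hPQ N le_rfl).2.1.2
  refine ⟨P 0, ?_, Q N, ?_, key⟩
  · show XX (P 0) ≤ a - l
    push_cast at e1
    rw [zero_mul] at e1
    omega
  · show a + l ≤ XX (Q N)
    omega

/-- arcs on the top row glued by bottom-top walks -/
theorem hd_of_arcs_top {j0 h a l y s d c w : ℤ} {N : ℕ} {ω : Set P2} (hs : 0 < s)
    (hc : s + 2 * w < c) (hcd : c < d - 2 * w) (h1 : y + w ≤ a - l) (h2 : a + l ≤ y + N * s + d - w)
    (hK : ∀ k ≤ N, ω ∈ Cn (Rw j0 h) (Win (j0 + h) (y + (k : ℤ) * s) w)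
      (Win (j0 + h) (y + (k : ℤ) * s + d) w))
    (hV : ∀ k < N, ∃ S, ω ∈ Cn (Rw j0 h) (S ∩ {v | v.2 = j0}) (Win (j0 + h) (y + (k : ℤ) * s + c) w)) :
    ω ∈ Hd j0 h a l := by
  classical
  have hK' : ∀ k : ℕ, ∃ u v : P2, k ≤ N → (u.2 = j0 + h ∧ |XX u - (y + (k : ℤ) * s)| ≤ w) ∧
      (v.2 = j0 + h ∧ |XX v - (y + (k : ℤ) * s + d)| ≤ w) ∧ Pth (ω ∩ Rw j0 h) u v := by
    intro k
    by_cases hk : k ≤ N
    · obtain ⟨u, hu, v, hv, hp⟩ := hK k hk
      exact ⟨u, v, fun _ => ⟨hu, hv, hp⟩⟩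
    · exact ⟨0, 0, fun h => absurd h hk⟩
  have hV' : ∀ k : ℕ, ∃ u v : P2, k < N → u.2 = j0 ∧
      (v.2 = j0 + h ∧ |XX v - (y + (k : ℤ) * s + c)| ≤ w) ∧ Pth (ω ∩ Rw j0 h) u v := by
    intro k
    by_cases hk : k < N
    · obtain ⟨S, u, hu, v, hv, hp⟩ := hV k hk
      exact ⟨u, v, fun _ => ⟨hu.2, hv, hp⟩⟩
    · exact ⟨0, 0, fun h => absurd h hk⟩
  choose P Q hPQ using hK'
  choose U V hUV using hV'
  have key := chain_arc_top (inRows_rw ω j0 h) N P Q U V (fun k hk => (hPQ k hk).2.2)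
    (fun k hk => (hUV k hk).2.2) (fun k hk => (hPQ k hk).1.1) (fun k hk => (hPQ k hk).2.1.1)
    (fun k hk => (hUV k hk).1) (fun k hk => (hUV k hk).2.1.1)
    (fun k hk => by
      have e1 := abs_le.1 (hPQ k hk.le).1.2
      have e2 := abs_le.1 (hPQ k hk.le).2.1.2
      have e3 := abs_le.1 (hUV k hk).2.1.2
      constructor <;> omega)
    (fun k hk => by
      have e1 := abs_le.1 (hPQ (k + 1) hk).1.2
      have e2 := abs_le.1 (hPQ (k + 1) hk).2.1.2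
      have e3 := abs_le.1 (hUV k hk).2.1.2
      push_cast at e1 e2
      rw [add_mul, one_mul] at e1 e2
      constructor <;> omega)
  have e1 := abs_le.1 (hPQ 0 (Nat.zero_le _)).1.2
  have e2 := abs_le.1 (hPQ N le_rfl).2.1.2
  refine ⟨P 0, ?_, Q N, ?_, key⟩
  · show XX (P 0) ≤ a - l
    push_cast at e1
    rw [zero_mul] at e1
    omega
  · show a + l ≤ XX (Q N)
    omega

end Crest.Agent.R144.Qa277
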