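import Crest.Agent.R144.Qb_277
import Crest.Agent.R144.Qlw_216
import Crest.Agent.R144.Hex2_585

/-!
# R144, R1 (doc 1941): (3.2), a bottom-top crossing between two windows (helper277)

* `crossing_pair` : if red long crossings have probability `≤ x ^ n` then some pair of windows (bottom,
  top) is joined with probability `≥ 1 - x`;
* `hd_of_tilted` : tilted crossings in both directions build a long crossing;
* `aligned` : (3.2).
-/

set_option autoImplicit false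

noncomputable section

namespace Crest.Agent.R144.Qa277

open Crest.Agent.R144.It844 (P2 adj_iff adj_symm)
open Crest.Agent.R144.Zg349 (StepIn IsConn)
open Crest.Agent.R144.Hex585 (Rect)

/-- red long crossing -/
def Rh (j0 h a l : ℤ) : Set (Set P2) :=
  {ω | ∃ u v : P2, XX u ≤ a - l ∧ a + l ≤ XX v ∧ Pth (ωᶜ ∩ Rw j0 h) u v}

/-- bottom windows -/
def cb (h w : ℕ) (k : ℕ) : ℤ := -8 * h + w + 2 * w * k
/-- top windows -/
def ct (h w : ℕ) (k : ℕ) : ℤ := -7 * h + w + 2 * w * k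

theorem window_index {h w : ℕ} (hw : 1 ≤ w) {z : ℤ} (h0 : 0 ≤ z) (h1 : z ≤ 14 * h) :
    ∃ k : ℕ, k < 7 * h / w + 1 ∧ |z - (w + 2 * w * k)| ≤ w := by
  obtain ⟨m, rfl⟩ := Int.eq_ofNat_of_zero_le h0
  have h1' : m ≤ 14 * h := by exact_mod_cast h1
  refine ⟨m / (2 * w), ?_, ?_⟩
  · have h2 : m / (2 * w) ≤ (14 * h) / (2 * w) := Nat.div_le_div_right h1'
    have h3 : (14 * h) / (2 * w) = 7 * h / w := by
      rw [show 14 * h = 2 * (7 * h) by ring]
      exact Nat.mul_div_mul_left _ _ (by norm_num)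
    omega
  · have h2 := Nat.div_add_mod m (2 * w)
    have h3 : m % (2 * w) < 2 * w := Nat.mod_lt _ (by omega)
    set d := m / (2 * w)
    set r := m % (2 * w)
    have h4 : (m : ℤ) = 2 * w * d + r := by exact_mod_cast h2.symm
    rw [h4, abs_le]
    constructor <;> omega

theorem crossing_pair {p : Set (Set P2) → ℝ} (L : IsLw p) {h w : ℕ} (hw : 1 ≤ w) (hwh : w ≤ h)
    {x : ℝ} (hx0 : 0 ≤ x) (hx1 : x ≤ 1) {n : ℕ}
    (hn : (7 * h / w + 1) * (7 * h / w + 1) ≤ n) (hr : p (Rh 0 h 0 (6 * h)) ≤ x ^ n) :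
    ∃ b t : ℤ, |b| + 1 ≤ 8 * h ∧ |t| ≤ 8 * h ∧
      1 - x ≤ p (Cn (Bx 0 h 0 (8 * h)) (Win 0 b w) (Win h t w)) := by
  classical
  set n1 := 7 * h / w + 1 with hn1
  set s : Finset (ℕ × ℕ) := Finset.range n1 ×ˢ Finset.range n1 with hs
  set E : ℕ × ℕ → Set (Set P2) := fun i =>
    Cn (Bx 0 h 0 (8 * h)) (Win 0 (cb h w i.1) w) (Win h (ct h w i.2) w) with hE
  have hcard : s.card = n1 * n1 := by rw [hs, Finset.card_product, Finset.card_range]
  have hcov : (⋃ i ∈ s, E i)ᶜ ⊆ Rh 0 h 0 (6 * h) := by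
    intro ω hω
    rcases Crest.Agent.R144.Hex585.hex' ω (x0 := -4 * (h : ℤ)) (x1 := 3 * (h : ℤ)) (y0 := 0)
      (y1 := (h : ℤ)) (by omega) (by omega) with ⟨u, v, hu, hv, hu', hv', hp⟩ |
      ⟨u, v, hu, hv, hu', hv', hp⟩
    · exfalso
      apply hω
      obtain ⟨⟨hu1, hu2⟩, hu3⟩ := hu'.2
      obtain ⟨⟨hv1, hv2⟩, hv3⟩ := hv'.2
      obtain ⟨k, hk, hk'⟩ := window_index (h := h) hw (z := XX u + 8 * h) (by simp only [XX]; omega)
        (by simp only [XX]; omega)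
      obtain ⟨l, hl, hl'⟩ := window_index (h := h) hw (z := XX v + 7 * h) (by simp only [XX]; omega)
        (by simp only [XX]; omega)
      simp only [Set.mem_iUnion]
      refine ⟨(k, l), by rw [hs]; simp [hk, hl, hn1], u, ⟨hu, ?_⟩, v, ⟨hv, ?_⟩, ?_⟩
      · rw [show XX u - cb h w k = XX u + 8 * h - (w + 2 * w * k) by simp only [cb]; ring]
        exact hk'
      · rw [show XX v - ct h w l = XX v + 7 * h - (w + 2 * w * l) by simp only [ct]; ring]
        exact hl'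
      · refine Pth.mono (S := ω ∩ Rect (-4 * h) (3 * h) 0 h) ?_ ⟨hu', hp⟩
        rintro z ⟨hz, ⟨h1, h2⟩, h3, h4⟩
        refine ⟨hz, h3, by omega, ?_⟩
        rw [abs_le]
        simp only [XX]
        constructor <;> omega
    · refine ⟨u, v, ?_, ?_, ?_⟩
      · obtain ⟨⟨hu1, hu2⟩, hu3⟩ := hu'.2
        simp only [XX]
        omega
      · obtain ⟨⟨hu1, hu2⟩, hu3⟩ := hv'.2
        simp only [XX]
        omega
      · refine Pth.mono (S := ωᶜ ∩ Rect (-4 * h) (3 * h) 0 h) ?_ ⟨hu', hp⟩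
        rintro z ⟨hz, ⟨h1, h2⟩, h3, h4⟩
        exact ⟨hz, h3, by omega⟩
  have h1 : 1 - x ^ s.card ≤ p (⋃ i ∈ s, E i) := by
    have h2 := L.mono hcov
    rw [L.compl] at h2
    have h3 : x ^ n ≤ x ^ s.card := pow_le_pow_of_le_one hx0 hx1 (by rw [hcard]; exact hn)
    linarith
  have hne : s.Nonempty := ⟨(0, 0), by rw [hs]; simp [hn1]⟩
  obtain ⟨i, hi, h2⟩ := L.sqrt_trick s E (fun i _ => cn_upper _ _ _) hx0 h1 hne
  have hi' : i.1 < n1 ∧ i.2 < n1 := by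
    rw [hs] at hi
    simpa using hi
  have hb : ∀ k < n1, 2 * (w : ℤ) * k ≤ 14 * h := by
    intro k hk
    have h3 : k ≤ 7 * h / w := by omega
    have h4 : w * k ≤ 7 * h := by
      calc w * k ≤ w * (7 * h / w) := Nat.mul_le_mul_left _ h3
        _ ≤ 7 * h := Nat.mul_div_le _ _
    have h5 : (w : ℤ) * k ≤ 7 * h := by exact_mod_cast h4
    nlinarith
  have hb0 : ∀ k : ℕ, 0 ≤ 2 * (w : ℤ) * k := fun k => by positivity
  refine ⟨cb h w i.1, ct h w i.2, ?_, ?_, h2⟩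
  · have h3 := hb _ hi'.1
    have h4 := hb0 i.1
    have h5 : (w : ℤ) ≤ h := by exact_mod_cast hwh
    have h6 : (1 : ℤ) ≤ w := by exact_mod_cast hw
    simp only [cb]
    have h7 : |(-8 * h + w + 2 * w * i.1 : ℤ)| ≤ 8 * h - 1 := by
      rw [abs_le]
      constructor <;> omega
    omega
  · have h3 := hb _ hi'.2
    have h4 := hb0 i.2
    have h5 : (w : ℤ) ≤ h := by exact_mod_cast hwh
    simp only [ct]
    rw [abs_le]
    constructor <;> omega

/-- tilted crossings in both directions build a long crossing -/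
theorem hd_of_tilted {h a l x0 s δ w : ℤ} {N : ℕ} {ω : Set P2} (hs : 2 * w < s)
    (hδ : s + w < δ) (h1 : x0 + s - δ + w ≤ a - l) (h2 : a + l ≤ x0 + N * s + δ - w)
    (hP : ∀ k ≤ N, ω ∈ Cn (Rw 0 h) (Win 0 (x0 + (k : ℤ) * s) w) (Win h (x0 + (k : ℤ) * s + δ) w))
    (hQ : ∀ k ≤ N, ω ∈ Cn (Rw 0 h) (Win 0 (x0 + (k : ℤ) * s + s) w)
      (Win h (x0 + (k : ℤ) * s + s - δ) w)) :
    ω ∈ Hd 0 h a l := by
  classical
  have hP' : ∀ k : ℕ, ∃ u v : P2, k ≤ N → (u.2 = 0 ∧ |XX u - (x0 + (k : ℤ) * s)| ≤ w) ∧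
      (v.2 = h ∧ |XX v - (x0 + (k : ℤ) * s + δ)| ≤ w) ∧ Pth (ω ∩ Rw 0 h) u v := by
    intro k
    by_cases hk : k ≤ N
    · obtain ⟨u, hu, v, hv, hp⟩ := hP k hk
      exact ⟨u, v, fun _ => ⟨hu, hv, hp⟩⟩
    · exact ⟨0, 0, fun h => absurd h hk⟩
  have hQ' : ∀ k : ℕ, ∃ u v : P2, k ≤ N → (u.2 = 0 ∧ |XX u - (x0 + (k : ℤ) * s + s)| ≤ w) ∧
      (v.2 = h ∧ |XX v - (x0 + (k : ℤ) * s + s - δ)| ≤ w) ∧ Pth (ω ∩ Rw 0 h) u v := by
    intro k
    by_cases hk : k ≤ N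
    · obtain ⟨u, hu, v, hv, hp⟩ := hQ k hk
      exact ⟨u, v, fun _ => ⟨hu, hv, hp⟩⟩
    · exact ⟨0, 0, fun h => absurd h hk⟩
  choose P Q hPQ using hP'
  choose P' Q' hPQ' using hQ'
  have hin : InRows (ω ∩ Rw 0 h) 0 h := by
    intro v hv
    have h3 : 0 ≤ v.2 ∧ v.2 ≤ 0 + h := hv.2
    rw [zero_add] at h3
    exact h3
  have key := chain_top hin N P Q P' Q' (fun k hk => (hPQ k hk).2.2)
    (fun k hk => (hPQ' k hk).2.2) (fun k hk => (hPQ k hk).1.1) (fun k hk => (hPQ k hk).2.1.1)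
    (fun k hk => (hPQ' k hk).1.1) (fun k hk => (hPQ' k hk).2.1.1)
    (fun k hk => by
      have e1 := abs_le.1 (hPQ k hk).1.2
      have e2 := abs_le.1 (hPQ' k hk).1.2
      omega)
    (fun k hk => by
      have e1 := abs_le.1 (hPQ k hk).2.1.2
      have e2 := abs_le.1 (hPQ' k hk).2.1.2
      omega)
    (fun k hk => by
      have e1 := abs_le.1 (hPQ k (by omega)).2.1.2
      have e2 := abs_le.1 (hPQ' k (by omega)).2.1.2
      have e3 := abs_le.1 (hPQ' (k + 1) hk).2.1.2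
      push_cast at e3
      rw [add_mul, one_mul] at e3
      constructor <;> omega)
  have e1 := abs_le.1 (hPQ' 0 (Nat.zero_le _)).2.1.2
  have e2 := abs_le.1 (hPQ N le_rfl).2.1.2
  refine ⟨Q' 0, ?_, Q N, ?_, key⟩
  · show XX (Q' 0) ≤ a - l
    push_cast at e1
    rw [zero_mul] at e1
    omega
  · show a + l ≤ XX (Q N)
    omega

/-- an integer of given parity just below `y` -/
theorem exists_parity (y b : ℤ) : ∃ z, y - 1 ≤ z ∧ z ≤ y ∧ (z - b) % 2 = 0 := by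
  rcases Int.emod_two_eq_zero_or_one (y - b) with h | h
  · exact ⟨y, by omega, le_rfl, h⟩
  · exact ⟨y - 1, le_rfl, by omega, by omega⟩

theorem tilted_prob {p : Set (Set P2) → ℝ} (L : IsLw p) {h w N : ℕ} {δ b Z : ℤ} {x' : ℝ}
    (hw : 1 ≤ w) (hδ : 5 * (w : ℤ) < δ) (hN : 12 * h + (2 * w + 2) ≤ N * (2 * w + 2))
    (hZ : ((N : ℤ) + 1) * (2 * w + 2) ≤ Z) (hZ' : 6 * (h : ℤ) + 3 * w + 3 ≤ Z)
    (hA : ∀ z : ℤ, (z - b) % 2 = 0 → |z| ≤ Z →
      1 - x' ≤ p (Cn (Rw 0 h) (Win 0 z w) (Win h (z + δ) w)))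
    (hB : ∀ z : ℤ, (z - b) % 2 = 0 → |z| ≤ Z →
      1 - x' ≤ p (Cn (Rw 0 h) (Win 0 z w) (Win h (z - δ) w))) :
    1 - 2 * (N + 1) * x' ≤ p (Hd 0 h 0 (6 * h)) := by
  classical
  obtain ⟨x0, hx1, hx2, hx3⟩ := exists_parity (-(6 * (h : ℤ)) - (2 * w + 2) - w) b
  set s : ℤ := 2 * w + 2 with hs
  have hN' : 12 * (h : ℤ) + s ≤ N * s := by rw [hs]; exact_mod_cast hN
  have hks : ∀ k : ℕ, k ≤ N → (k : ℤ) * s ≤ N * s := fun k hk =>
    mul_le_mul_of_nonneg_right (by exact_mod_cast hk) (by omega)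
  have hks0 : ∀ k : ℕ, 0 ≤ (k : ℤ) * s := fun k => mul_nonneg (by positivity) (by omega)
  rw [add_mul, one_mul] at hZ
  have hpar : ∀ k : ℕ, (x0 + (k : ℤ) * s - b) % 2 = 0 := by
    intro k
    have : (k : ℤ) * s = 2 * (k * (w + 1)) := by rw [hs]; ring
    rw [this]
    omega
  have hpar' : ∀ k : ℕ, (x0 + (k : ℤ) * s + s - b) % 2 = 0 := by
    intro k
    have := hpar k
    omega
  set EP : ℕ → Set (Set P2) := fun k =>
    Cn (Rw 0 h) (Win 0 (x0 + (k : ℤ) * s) w) (Win h (x0 + (k : ℤ) * s + δ) w) with hEP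
  set EQ : ℕ → Set (Set P2) := fun k =>
    Cn (Rw 0 h) (Win 0 (x0 + (k : ℤ) * s + s) w) (Win h (x0 + (k : ℤ) * s + s - δ) w) with hEQ
  have hP : ∀ k ≤ N, 1 - p (EP k) ≤ x' := by
    intro k hk
    have h1 := hks k hk
    have h2 := hks0 k
    have := hA (x0 + (k : ℤ) * s) (hpar k) (by rw [abs_le]; constructor <;> omega)
    linarith
  have hQ : ∀ k ≤ N, 1 - p (EQ k) ≤ x' := by
    intro k hk
    have h1 := hks k hk
    have h2 := hks0 k
    have := hB (x0 + (k : ℤ) * s + s) (hpar' k) (by rw [abs_le]; constructor <;> omega)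
    linarith
  have h1 := L.biInter_ge (Finset.range (N + 1)) EP
  have h2 := L.biInter_ge (Finset.range (N + 1)) EQ
  have h3 : ∑ i ∈ Finset.range (N + 1), (1 - p (EP i)) ≤ (N + 1) * x' := by
    calc ∑ i ∈ Finset.range (N + 1), (1 - p (EP i)) ≤ ∑ i ∈ Finset.range (N + 1), x' :=
          Finset.sum_le_sum fun i hi => hP i (by simpa [Nat.lt_succ_iff] using hi)
      _ = (N + 1) * x' := by rw [Finset.sum_const, Finset.card_range, nsmul_eq_mul]; push_cast; ring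
  have h4 : ∑ i ∈ Finset.range (N + 1), (1 - p (EQ i)) ≤ (N + 1) * x' := by
    calc ∑ i ∈ Finset.range (N + 1), (1 - p (EQ i)) ≤ ∑ i ∈ Finset.range (N + 1), x' :=
          Finset.sum_le_sum fun i hi => hQ i (by simpa [Nat.lt_succ_iff] using hi)
      _ = (N + 1) * x' := by rw [Finset.sum_const, Finset.card_range, nsmul_eq_mul]; push_cast; ring
  have h5 := L.inter_ge (⋂ i ∈ Finset.range (N + 1), EP i) (⋂ i ∈ Finset.range (N + 1), EQ i)
  have h6 : (⋂ i ∈ Finset.range (N + 1), EP i) ∩ (⋂ i ∈ Finset.range (N + 1), EQ i) ⊆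
      Hd 0 h 0 (6 * h) := by
    rintro ω ⟨hω1, hω2⟩
    simp only [Set.mem_iInter, Finset.mem_range, Nat.lt_succ_iff] at hω1 hω2
    exact hd_of_tilted (x0 := x0) (s := s) (δ := δ) (w := w) (N := N) (by omega) (by omega)
      (by omega) (by omega) hω1 hω2
  have h7 := L.mono h6
  linarith

/-- translates of a window crossing -/
theorem translate {p : Set (Set P2) → ℝ} {T : ℤ} {ρ : ℝ} (hT : InvT p T ρ)
    {j0 h a R b j t w z : ℤ} {x : ℝ} (hB : Bdd T (Bx j0 h a R)) (h1 : 1 - x ≤ p (Cn (Bx j0 h a R) (Win j0 b w) (Win j t w)))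
    (hz : (z - b) % 2 = 0) (hz' : |z - b| ≤ 2 * T) :
    1 - (x + ρ) ≤ p (Cn (Bx j0 h (a + (z - b)) R) (Win j0 z w) (Win j (z + (t - b)) w)) := by
  have h2 := hT ((z - b) / 2) (by
    rw [abs_le] at *
    constructor <;> omega) (Bx j0 h a R) (Win j0 b w) (Win j t w) hB
  rw [tr_bx, tr_win, tr_win] at h2
  have e : 2 * ((z - b) / 2) = z - b := by omega
  rw [e, show b + (z - b) = z by ring, show t + (z - b) = z + (t - b) by ring] at h2
  linarith

theorem aligned {p : Set (Set P2) → ℝ} (L : IsLw p) {T : ℤ} {ρ : ℝ} (hT : InvT p T ρ)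
    (hR : InvR p T ρ) (hρ : 0 ≤ ρ) {h w N : ℕ} (hw : 1 ≤ w) {b t : ℤ} {x c1 : ℝ}
    (hb : |b| ≤ 8 * h) (hN : 12 * h + (2 * w + 2) ≤ N * (2 * w + 2))
    (hT' : T ≥ (((N : ℤ) + 1) * (2 * w + 2) + 6 * h + 3 * w + 3) + 8 * h)
    (hc : 2 * (N + 1) * (x + 2 * ρ) < c1) (hh : p (Hd 0 h 0 (6 * h)) ≤ 1 - c1)
    (h1 : 1 - x ≤ p (Cn (Bx 0 h 0 (8 * h)) (Win 0 b w) (Win h t w))) : |t - b| ≤ 5 * w := by
  by_contra hcon
  rw [abs_le, not_and_or, not_le, not_le] at hcon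
  set Z : ℤ := ((N : ℤ) + 1) * (2 * w + 2) + 6 * h + 3 * w + 3 with hZ
  have hZ0 : 0 ≤ ((N : ℤ) + 1) * (2 * w + 2) := by positivity
  have hBd : Bdd T (Bx 0 h 0 (8 * h)) := bdd_bx (by rw [abs_zero]; omega)
    (by rw [abs_zero, abs_of_nonneg (by positivity)]; omega)
  have h2 := hR (Bx 0 h 0 (8 * h)) (Win 0 b w) (Win h t w) hBd
  rw [rf_bx, rf_win, rf_win, neg_zero] at h2
  have h2' : 1 - (x + ρ) ≤ p (Cn (Bx 0 h 0 (8 * h)) (Win 0 (-b) w) (Win h (-t) w)) := by linarith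
  have hA : ∀ z : ℤ, (z - b) % 2 = 0 → |z| ≤ Z →
      1 - (x + 2 * ρ) ≤ p (Cn (Rw 0 h) (Win 0 z w) (Win h (z + (t - b)) w)) := by
    intro z hz hz'
    have h3 := translate hT hBd h1 hz (by rw [abs_le] at *; constructor <;> omega)
    have h4 := L.mono (cn_mono (bx_sub_rw 0 h (0 + (z - b)) (8 * h)) (subset_refl (Win 0 z w))
      (subset_refl (Win h (z + (t - b)) w)))
    linarith
  have hB : ∀ z : ℤ, (z - b) % 2 = 0 → |z| ≤ Z →
      1 - (x + 2 * ρ) ≤ p (Cn (Rw 0 h) (Win 0 z w) (Win h (z - (t - b)) w)) := by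
    intro z hz hz'
    have h3 := translate hT hBd h2' (z := z) (by omega) (by rw [abs_le] at *; constructor <;> omega)
    have h4 := L.mono (cn_mono (bx_sub_rw 0 h (0 + (z - -b)) (8 * h)) (subset_refl (Win 0 z w))
      (subset_refl (Win h (z + (-t - -b)) w)))
    rw [show z + (-t - -b) = z - (t - b) by ring] at h3 h4
    linarith
  rcases hcon with hcon | hcon
  · have h5 := tilted_prob L (δ := -(t - b)) (b := b) (Z := Z) hw (by omega) hN (by omega) (by omega)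
      (fun z hz hz' => by
        have := hB z hz hz'
        rwa [sub_eq_add_neg z (t - b)] at this)
      (fun z hz hz' => by
        have := hA z hz hz'
        rwa [show z + (t - b) = z - -(t - b) by ring] at this)
    linarith
  · have h5 := tilted_prob L (δ := t - b) (b := b) (Z := Z) hw hcon hN (by omega) (by omega) hA hB
    linarith

end Crest.Agent.R144.Qa277
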