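import Crest.Agent.R144.Qgp_216

/-!
# R144, QRSW (doc 1941): statement of the final theorem over `Lw` (helper216)
-/

set_option autoImplicit false

noncomputable section

namespace Crest.Agent.R144.Qfd216

open Crest.Agent.R144.Qlw216
open Crest.Agent.R144.Qgp216

/-- final theorem at the sizes `180 ^ J` -/
def QF : Prop := ∀ c0 : ℝ, 0 < c0 → ∃ η : ℝ, 0 < η ∧ ∃ k J0 : ℕ, ∀ J : ℕ, J0 ≤ J →
  ∀ (L : Lw) (N : ℕ), Inv L N η → 1000 * 180 ^ J ≤ N →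
    (∀ t : ℕ, 180 ^ J ≤ k * t → t ≤ 180 ^ J → L.p (rhard t) ≤ η) → 1 - c0 ≤ L.p (hard (180 ^ J))

end Crest.Agent.R144.Qfd216
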