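import Crest.Agent.R144.Qsp_216
import Crest.Agent.R144.Qfd_216
import Crest.Agent.R144.Cov_356
import Crest.Agent.R144.Qb_277

/-!
# R144, QRSW (doc 1941): Step II (probability) and the single-site end (helper216)
-/

set_option autoImplicit false

noncomputable section

namespace Crest.Agent.R144.Qca216

open Crest.Agent.R144.It844 (P2 adj_iff)
open Crest.Agent.R144.Zg349 (StepIn IsConn)
open Crest.Agent.R144.Rsw867 (ball mem_ball path_mono)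
open Crest.Agent.R144.Qlw216
open Crest.Agent.R144.Qgp216
open Crest.Agent.R144.Qst216
open Crest.Agent.R144.Qsp216
open Crest.ProbabilityR.HexHeights (Adj)

/-! ### finite families -/

theorem p_inter_ge (L : Lw) {ι : Type*} (s : Finset ι) (E : ι → Set (Set P2)) :
    1 - ∑ i ∈ s, L.p (E i)ᶜ ≤ L.p (⋂ i ∈ s, E i) := by
  classical
  induction s using Finset.induction_on with
  | empty => simp [L.univ]
  | @insert i s hi ih =>
    rw [Finset.sum_insert hi, Finset.set_biInter_insert]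
    have h1 := L.add (E i) (⋂ j ∈ s, E j)
    have h2 := p_le_one L (E i ∪ ⋂ j ∈ s, E j)
    have h3 := p_compl L (E i)
    linarith

theorem p_inter_lower (L : Lw) {ι : Type*} (s : Finset ι) (E : ι → Set (Set P2))
    (hE : ∀ i ∈ s, IsLowerSet (E i)) {x : ℝ} (hx : 0 ≤ x) (h : ∀ i ∈ s, x ≤ L.p (E i)) :
    x ^ s.card ≤ L.p (⋂ i ∈ s, E i) := by
  classical
  induction s using Finset.induction_on with
  | empty => simp [L.univ]
  | @insert i s hi ih =>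
    rw [Finset.card_insert_of_notMem hi, Finset.set_biInter_insert, pow_succ]
    have h1 := ih (fun j hj => hE j (Finset.mem_insert_of_mem hj))
      (fun j hj => h j (Finset.mem_insert_of_mem hj))
    have h2 : IsLowerSet (⋂ j ∈ s, E j) :=
      isLowerSet_iInter₂ fun j hj => hE j (Finset.mem_insert_of_mem hj)
    have h3 := assoc_lower L (hE i (Finset.mem_insert_self i s)) h2
    calc x ^ s.card * x = x * x ^ s.card := by ring
      _ ≤ L.p (E i) * L.p (⋂ j ∈ s, E j) :=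
        mul_le_mul (h i (Finset.mem_insert_self i s)) h1 (by positivity) (L.nonneg _)
      _ ≤ _ := h3

/-- square root trick -/
theorem sqrt_trick (L : Lw) {ι : Type*} (s : Finset ι) (E : ι → Set (Set P2)) (U : Set (Set P2))
    (hE : ∀ i ∈ s, IsUpperSet (E i)) (hU : U ⊆ ⋃ i ∈ s, E i) {x : ℝ} (hx : 0 ≤ x)
    (h : L.p Uᶜ < x ^ s.card) : ∃ i ∈ s, L.p (E i)ᶜ ≤ x := by
  by_contra hcon
  push Not at hcon
  have h1 := p_inter_lower L s (fun i => (E i)ᶜ) (fun i hi => (hE i hi).compl) hx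
    (fun i hi => (hcon i hi).le)
  have h2 : (⋂ i ∈ s, (E i)ᶜ) ⊆ Uᶜ := by
    intro ω hω hU'
    obtain ⟨i, hi, hi'⟩ := Set.mem_iUnion₂.1 (hU hU')
    exact Set.mem_iInter₂.1 hω i hi hi'
  linarith [p_mono L h2]

/-! ### locality of the long crossings -/

theorem XX_adj {u v : P2} (h : Adj u v) : |XX v - XX u| ≤ 2 := by
  rw [adj_iff] at h
  unfold XX
  rw [abs_le]
  rcases h with h | h | h | h | h | h <;> subst h <;> simp only <;> constructor <;> omega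

theorem trim' {S : Set P2} {t : ℕ} (ht : 1 ≤ t)
    (h : ∃ u v, XX u ≤ -(6 * t) ∧ 6 * t ≤ XX v ∧ Pth (S ∩ Rows 0 t) u v) :
    ∃ u v, XX u ≤ -(6 * t) ∧ 6 * t ≤ XX v ∧ Pth (S ∩ Bb (5 * t + 5) ∩ Rows 0 t) u v := by
  obtain ⟨u, v, h1, h2, h3, h4⟩ := h
  obtain ⟨u', v', h5, h6, h7⟩ := Crest.Agent.R144.Rsw867.trim (S := S ∩ Rows 0 t)
    (X := {w | 6 * (t : ℤ) ≤ XX w}) (Y := {w | -(6 * (t : ℤ)) < XX w}) (by
      intro w hw
      simp only [Set.mem_ofPred_eq] at *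
      omega) (u := u) (v := v) (by simp only [Set.mem_ofPred_eq]; omega) h2 h4
  have h5' : XX u' ≤ -(6 * (t : ℤ)) := not_lt.1 h5
  have h6' : 6 * (t : ℤ) ≤ XX v' := h6
  have hsub : (S ∩ Rows 0 t) ∩ {w | (w ∈ {w | -(6 * (t : ℤ)) < XX w} ∨
      ∃ t', t' ∈ {w | -(6 * (t : ℤ)) < XX w} ∧ Adj t' w) ∧ (w ∉ {w | 6 * (t : ℤ) ≤ XX w} ∨
      ∃ t', t' ∉ {w | 6 * (t : ℤ) ≤ XX w} ∧ Adj t' w)} ⊆ S ∩ Bb (5 * t + 5) ∩ Rows 0 t := by
    rintro w ⟨⟨hw1, hw2⟩, hw3, hw4⟩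
    refine ⟨⟨hw1, ?_⟩, hw2⟩
    have a1 : -(6 * (t : ℤ)) - 2 ≤ XX w := by
      rcases hw3 with hw3 | ⟨t', ht', ha⟩
      · have : -(6 * (t : ℤ)) < XX w := hw3
        omega
      · have b1 : -(6 * (t : ℤ)) < XX t' := ht'
        have b2 := abs_le.1 (XX_adj ha)
        omega
    have a2 : XX w ≤ 6 * (t : ℤ) + 2 := by
      rcases hw4 with hw4 | ⟨t', ht', ha⟩
      · have : ¬ 6 * (t : ℤ) ≤ XX w := hw4
        omega
      · have b1 : ¬ 6 * (t : ℤ) ≤ XX t' := ht'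
        have b2 := abs_le.1 (XX_adj ha)
        omega
    obtain ⟨h8, h9⟩ := hw2
    unfold Bb
    unfold XX at a1 a2
    simp only [Set.mem_ofPred_eq, abs_le]
    push_cast
    refine ⟨⟨?_, ?_⟩, ⟨?_, ?_⟩, ⟨?_, ?_⟩⟩ <;> omega
  refine ⟨u', v', h5', h6', ?_, path_mono hsub h7⟩
  rcases Relation.ReflTransGen.cases_head h7 with h8 | ⟨c, h8, -⟩
  · exfalso
    rw [h8] at h5'
    omega
  · exact hsub h8.1

theorem loc_hard {t N : ℕ} (ht : 1 ≤ t) (hN : 5 * t + 5 ≤ N) : Loc (Bb N) (hard t) := by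
  refine loc_mono (R := Bb (5 * t + 5)) ?_ ?_
  · intro ω
    constructor
    · intro h
      obtain ⟨u, v, h1, h2, h3⟩ := trim' ht h
      exact ⟨u, v, h1, h2, h3⟩
    · rintro ⟨u, v, h1, h2, h3, h4⟩
      have hs : ω ∩ Bb (5 * t + 5) ∩ Rows 0 t ⊆ ω ∩ Rows 0 t := fun w hw => ⟨hw.1.1, hw.2⟩
      exact ⟨u, v, h1, h2, hs h3, path_mono hs h4⟩
  · intro v hv
    unfold Bb at *
    simp only [Set.mem_ofPred_eq, abs_le] at *
    push_cast at *
    have : (5 * t + 5 : ℤ) ≤ N := by exact_mod_cast hN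
    omega

theorem loc_rhard {t N : ℕ} (ht : 1 ≤ t) (hN : 5 * t + 5 ≤ N) : Loc (Bb N) (rhard t) := by
  refine loc_mono (R := Bb (5 * t + 5)) ?_ ?_
  · intro ω
    constructor
    · rintro ⟨u, v, h1, h2, h3, h4⟩
      have hs : ωᶜ ∩ Rows 0 t ⊆ (ω ∩ Bb (5 * t + 5))ᶜ ∩ Rows 0 t :=
        fun w hw => ⟨fun hh => hw.1 hh.1, hw.2⟩
      exact ⟨u, v, h1, h2, hs h3, path_mono hs h4⟩
    · intro h
      obtain ⟨u, v, h1, h2, h3, h4⟩ := trim' ht h
      have hs : (ω ∩ Bb (5 * t + 5))ᶜ ∩ Bb (5 * t + 5) ∩ Rows 0 t ⊆ ωᶜ ∩ Rows 0 t :=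
        fun w hw => ⟨fun hh => hw.1.1 ⟨hh, hw.1.2⟩, hw.2⟩
      exact ⟨u, v, h1, h2, hs h3, path_mono hs h4⟩
  · intro v hv
    unfold Bb at *
    simp only [Set.mem_ofPred_eq, abs_le] at *
    push_cast at *
    have : (5 * t + 5 : ℤ) ≤ N := by exact_mod_cast hN
    omega

theorem pl_hard {L : Lw} {N t : ℕ} {ρ : ℝ} (hI : Inv L N ρ) (hρ : 0 ≤ ρ) (ht : 1 ≤ t)
    (hN : 5 * t + 5 ≤ N) {g : P2 → P2} (hg : IsPl N g) :
    |L.p (act g (hard t)) - L.p (hard t)| ≤ 4 * ρ :=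
  pl_near hI hρ hg (hard_upper t) (loc_hard ht hN)

theorem pl_rhard {L : Lw} {N t : ℕ} {ρ : ℝ} (hI : Inv L N ρ) (hρ : 0 ≤ ρ) (ht : 1 ≤ t)
    (hN : 5 * t + 5 ≤ N) {g : P2 → P2} (hg : IsPl N g) :
    |L.p (act g (rhard t)) - L.p (rhard t)| ≤ 4 * ρ := by
  have h := pl_near hI hρ hg (rhard_lower t).compl (loc_compl (loc_rhard ht hN))
  rw [act_compl, p_compl, p_compl] at h
  rw [abs_sub_comm] at h
  convert h using 2
  ring

/-! ### Step II -/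

/-- from a strong hit at size `n` by a ball of radius `r`: weak and strong hits of one small ball -/
theorem small_ball {L : Lw} {N n r : ℕ} {ρ a ε u x : ℝ} (G : Geo) (hI : Inv L N ρ) (hρ : 0 ≤ ρ)
    (hR : Rig L n a ε) (hn : 9000 ≤ n) (hN : 100 * n ≤ N) (ha : 24 * ρ ≤ a) (ha0 : 0 < a)
    (ha1 : a ≤ 1) (hH : Hit L r n u) (hr : 180 * r ≤ n) {r' : ℕ} (hr' : 4 * r' ≤ r)
    {Z : P2 → Finset P2} {M : ℕ}
    (hZc : ∀ z, (Z z).card ≤ M)
    (hZd : ∀ z, ∀ z' ∈ Z z, |z'.1 - z.1| ≤ r + r' ∧ |z'.2 - z.2| ≤ r + r')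
    (hZ : ∀ z, ball z r ⊆ (Z z).biUnion fun z' => ball z' r') (hx0 : 0 < x) (hx1 : x ≤ 1)
    (hu : u < x ^ M) (hx : x + 4 * ρ ≤ a / 2) :
    ∃ (b : P2) (k : ℤ), D n ≤ 2 * k ∧ 2 * k ≤ n ∧ 0 ≤ k ∧ (n : ℤ) ≤ 5 * b.2 ∧ 5 * b.2 ≤ 4 * n ∧
      |XX b| ≤ 4 * n ∧
      L.p (A (-k, 0) n [(b, r')])ᶜ ≤ x + 4 * ρ ∧ L.p (A 0 n [(b, r')])ᶜ ≤ 6 / a ^ 2 * ε := by
  obtain ⟨z, hz1, hz2, hz3, hz4, hz5⟩ := hH
  have hnz : (9000 : ℤ) ≤ n := by exact_mod_cast hn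
  have hrz : (180 * r : ℤ) ≤ n := by exact_mod_cast hr
  have hrz' : (4 * r' : ℤ) ≤ r := by exact_mod_cast hr'
  have hNz : (100 * n : ℤ) ≤ N := by exact_mod_cast hN
  obtain ⟨z', hz', hw⟩ := sqrt_trick L (Z z) (fun z' => A 0 n [(z', r')]) (A 0 n [(z, r)])
    (fun _ _ => A_upper _ _ _) (by
      rintro ω ⟨C, h1, h2, h3, h4, h5⟩
      obtain ⟨w, hw, hw'⟩ := h5 (z, r) (by simp)
      have h6 : w ∈ ball z r := hw'
      obtain ⟨z', hz', hz''⟩ := Finset.mem_biUnion.1 (hZ z h6)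
      refine Set.mem_iUnion₂.2 ⟨z', hz', C, h1, h2, h3, h4, ?_⟩
      intro B hB
      rw [List.mem_singleton] at hB
      subst hB
      exact ⟨w, hw, hz''⟩) hx0.le
    (lt_of_le_of_lt hz5 (hu.trans_le (pow_le_pow_of_le_one hx0.le hx1 (hZc z))))
  obtain ⟨hd1, hd2⟩ := hZd z z' hz'
  rw [abs_le] at hd1 hd2
  have hD : D n = ((n / 900 : ℕ) : ℤ) := rfl
  have hD1 : 900 * D n ≤ n := by rw [hD]; omega
  have hD0 : 0 ≤ D n := by rw [hD]; positivity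
  unfold XX at hz3 hz4
  have hXb : XX (tr (-D n, 0) z') = 2 * z'.1 + z'.2 - 2 * D n := by
    unfold XX tr
    simp only [Prod.fst_add, Prod.snd_add]
    ring
  have hb2 : (tr (-D n, 0) z').2 = z'.2 := by unfold tr; simp
  refine ⟨tr (-D n, 0) z', D n, by omega, by omega, hD0, by rw [hb2]; omega, by rw [hb2]; omega,
    ?_, ?_, ?_⟩
  · rw [hXb, abs_le]
    constructor <;> omega
  · have h := hit_tr hI hρ (t := (-D n, 0)) (by simp only [abs_neg]; rw [abs_of_nonneg hD0]; omega)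
      (by simp) hN (z', r')
    have e0 : tr (-D n, 0) (0 : P2) = (-D n, 0) := by unfold tr; simp
    rw [e0] at h
    linarith
  · have h := self_hit G hI hρ hR hn hN ha ha0 ha1 (B := (z', r'))
      (by unfold InStrip; simp only [Prod.snd_zero]; constructor <;> omega) (k := D n) (by omega)
      (by omega) (by simp only; unfold XX; omega) (by simp only; unfold XX; omega)
      (by linarith) []
    exact h.trans (mul_le_mul_of_nonneg_left hR.v (by positivity))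

/-- **Step II** -/
theorem stepII {L : Lw} {N n r t r' : ℕ} {ρ a ε u x e : ℝ} (G : Geo) (hP : PS2) (hI : Inv L N ρ)
    (hρ : 0 ≤ ρ) (hR : Rig L n a ε) (hn : 9000 ≤ n) (hN : 100 * n ≤ N) (ha : 24 * ρ ≤ a)
    (ha0 : 0 < a) (ha1 : a ≤ 1) (hH : Hit L r n u) (hr : 180 * r ≤ n) (hr' : 4 * r' ≤ r)
    (ht1 : 4 * r' ≤ t) (ht2 : 9 ≤ t) (ht3 : 200 * t ≤ n)
    {Z : P2 → Finset P2} {M : ℕ} (hZc : ∀ z, (Z z).card ≤ M)
    (hZd : ∀ z, ∀ z' ∈ Z z, |z'.1 - z.1| ≤ r + r' ∧ |z'.2 - z.2| ≤ r + r')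
    (hZ : ∀ z, ball z r ⊆ (Z z).biUnion fun z' => ball z' r') (hx0 : 0 < x) (hx1 : x ≤ 1)
    (hu : u < x ^ M) (hx : x + 4 * ρ ≤ a / 2) (he : 0 < e) (he1 : 8 * ρ ≤ e)
    (he2 : x + 4 * ρ < (e / 2) ^ 3) (hs : x + 6 / a ^ 2 * ε + 16 * ρ ≤ a / 4) :
    L.p (hard t) ≤ 1 - a / 4 ∧ L.p (rhard t) ≤ e := by
  obtain ⟨b, k, h1, h2, h3, h4, h5, h6, h7, h8⟩ := small_ball G hI hρ hR hn hN ha ha0 ha1 hH hr hr'
    hZc hZd hZ hx0 hx1 hu hx
  obtain ⟨g, g1, g2, g3⟩ := hP n t r' b ht1 ht2 ht3 h4 h5 h6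
  have hX : XX ((-k, 0) : P2) = -(2 * k) := by unfold XX; ring
  have hnz : (9000 : ℤ) ≤ n := by exact_mod_cast hn
  have hg : ∀ i, IsPl N (g i) := fun i => isPl_mono (by omega) (g1 i)
  have hb1 : ∀ i, |L.p (act (g i) (hard t)) - L.p (hard t)| ≤ 4 * ρ := fun i =>
    pl_hard hI hρ (by omega) (by omega) (hg i)
  have hb2 : ∀ i, |L.p (act (g i) (rhard t)) - L.p (rhard t)| ≤ 4 * ρ := fun i =>
    pl_rhard hI hρ (by omega) (by omega) (hg i)
  have hkX : |XX ((-k, 0) : P2)| ≤ n := by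
    rw [hX, abs_le]
    constructor <;> omega
  constructor
  · -- blue
    have e1 := g3 (-k, 0) 0 rfl rfl hkX (by rw [XX_zero]; simp)
    rw [XX_zero, hX] at e1
    have e2 : L.p (K (-(2 * k)) 0 0 n) ≤ 1 - a := by
      refine hR.kb _ 0 ?_ (by simp) (by omega)
      rw [abs_le]
      constructor <;> omega
    have e3 := p_inter_ge L (Finset.univ : Finset (Fin 3)) (fun i => act (g i) (hard t))
    have e4 : (⋂ i ∈ (Finset.univ : Finset (Fin 3)), act (g i) (hard t)) =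
        ⋂ i, act (g i) (hard t) := by simp
    rw [e4] at e3
    have e5 : ∑ i : Fin 3, L.p (act (g i) (hard t))ᶜ ≤ 3 * (1 - L.p (hard t) + 4 * ρ) := by
      have h9 : ∀ i ∈ (Finset.univ : Finset (Fin 3)), L.p (act (g i) (hard t))ᶜ ≤
          1 - L.p (hard t) + 4 * ρ := by
        intro i _
        rw [p_compl]
        linarith [(abs_le.1 (hb1 i)).1]
      have h10 := Finset.sum_le_sum h9
      rw [Finset.sum_const, Finset.card_univ, Fintype.card_fin, nsmul_eq_mul] at h10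
      push_cast at h10
      exact h10
    have e6 : (⋂ i, act (g i) (hard t)) ⊆ K (-(2 * k)) 0 0 n ∪ ((A (-k, 0) n [(b, r')])ᶜ ∪
        (A 0 n [(b, r')])ᶜ) := by
      intro ω hω
      by_cases c1 : ω ∈ A (-k, 0) n [(b, r')]
      · by_cases c2 : ω ∈ A 0 n [(b, r')]
        · exact Or.inl (e1 ⟨⟨hω, c1⟩, c2⟩)
        · exact Or.inr (Or.inr c2)
      · exact Or.inr (Or.inl c1)
    have e7 := p_mono L e6
    have e8 := p_union_le L (K (-(2 * k)) 0 0 n) ((A (-k, 0) n [(b, r')])ᶜ ∪ (A 0 n [(b, r')])ᶜ)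
    have e9 := p_union_le L (A (-k, 0) n [(b, r')])ᶜ (A 0 n [(b, r')])ᶜ
    linarith
  · -- red
    by_contra hcon
    push Not at hcon
    have e1 := g2 (-k, 0) rfl hkX
    have e3 := p_inter_lower L (Finset.univ : Finset (Fin 3)) (fun i => act (g i) (rhard t))
      (fun i _ => act_lower (rhard_lower t)) (x := e / 2) (by positivity)
      (fun i _ => by linarith [(abs_le.1 (hb2 i)).1])
    have e4 : (⋂ i ∈ (Finset.univ : Finset (Fin 3)), act (g i) (rhard t)) =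
        ⋂ i, act (g i) (rhard t) := by simp
    rw [e4, Finset.card_univ, Fintype.card_fin] at e3
    have e5 : (⋂ i, act (g i) (rhard t)) ⊆ (A (-k, 0) n [(b, r')])ᶜ := by
      intro ω hω h9
      have : ω ∈ (⋂ k, act (g k) (rhard t)) ∩ A (-k, 0) n [(b, r')] := ⟨hω, h9⟩
      rw [e1] at this
      exact this
    linarith [p_mono L e5]

/-- the single-site end: contradiction -/
theorem end_ {L : Lw} {N n r : ℕ} {ρ a ε u x : ℝ} (G : Geo) (hI : Inv L N ρ)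
    (hρ : 0 ≤ ρ) (hR : Rig L n a ε) (hn : 9000 ≤ n) (hN : 100 * n ≤ N) (ha : 24 * ρ ≤ a)
    (ha0 : 0 < a) (ha1 : a ≤ 1) (hH : Hit L r n u) (hr : 180 * r ≤ n)
    (hx0 : 0 < x) (hx1 : x ≤ 1) (hu : u < x ^ ((2 * r + 1) ^ 2)) (hx : x + 4 * ρ ≤ a / 2)
    (hs : x + 6 / a ^ 2 * ε + 16 * ρ ≤ a / 4) : False := by
  have hc := fun z => Crest.Agent.R144.Cov356.cov0 z r
  choose Z hZ1 hZ2 hZ3 using hc
  obtain ⟨b, k, h1, h2, h3, h4, h5, h6, h7, h8⟩ := small_ball G hI hρ hR hn hN ha ha0 ha1 hH hr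
    (r' := 0) (by omega) hZ1 (fun z z' hz' => by simpa using hZ2 z z' hz') hZ3 hx0 hx1 hu hx
  have hX : XX ((-k, 0) : P2) = -(2 * k) := by unfold XX; ring
  have e2 : L.p (K (-(2 * k)) 0 0 n) ≤ 1 - a := by
    refine hR.kb _ 0 ?_ (by simp) (by omega)
    rw [abs_le]
    constructor <;> omega
  have e6 : (Set.univ : Set (Set P2)) ⊆ K (-(2 * k)) 0 0 n ∪ ((A (-k, 0) n [(b, 0)])ᶜ ∪
      (A 0 n [(b, 0)])ᶜ) := by
    intro ω _
    by_cases c1 : ω ∈ A (-k, 0) n [(b, 0)]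
    · by_cases c2 : ω ∈ A 0 n [(b, 0)]
      · left
        obtain ⟨C, d1, d2, ⟨p, d3, d4⟩, -, d5⟩ := c1
        obtain ⟨C', d1', d2', ⟨p', d3', d4'⟩, -, d5'⟩ := c2
        obtain ⟨w, hw, hw'⟩ := d5 (b, 0) (by simp)
        obtain ⟨w2, hw2, hw2'⟩ := d5' (b, 0) (by simp)
        have hb : ∀ w, w ∈ bl (b, 0) → w = b := by
          intro w hw
          unfold bl at hw
          rw [Finset.mem_coe, mem_ball] at hw
          simp only [abs_le] at hw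
          exact Prod.ext (by push_cast at hw; omega) (by push_cast at hw; omega)
        have e1 := hb w hw'
        have e2 := hb w2 hw2'
        subst e1
        rw [e2] at hw2
        have hCs : C ⊆ ω ∩ KR (-(2 * k)) 0 0 n := by
          intro v hv
          obtain ⟨f1, ⟨f2, f3⟩, f4⟩ := d1 hv
          rw [hX] at f4
          rw [abs_le] at f4
          exact ⟨f1, ⟨f2, f3⟩, by omega, by omega⟩
        have hCs' : C' ⊆ ω ∩ KR (-(2 * k)) 0 0 n := by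
          intro v hv
          obtain ⟨f1, ⟨f2, f3⟩, f4⟩ := d1' hv
          rw [XX_zero, abs_le] at f4
          exact ⟨f1, ⟨f2, f3⟩, by omega, by omega⟩
        obtain ⟨d6, d7⟩ := d4
        obtain ⟨d6', d7'⟩ := d4'
        rw [hX] at d7
        rw [XX_zero] at d7'
        refine ⟨p, p', d6, d7, d6', d7', hCs d3, ?_⟩
        exact (path_mono hCs (d2 p d3 w hw)).trans (path_mono hCs' (d2' w hw2 p' d3'))
      · exact Or.inr (Or.inr c2)
    · exact Or.inr (Or.inl c1)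
  have e7 := p_mono L e6
  have e8 := p_union_le L (K (-(2 * k)) 0 0 n) ((A (-k, 0) n [(b, 0)])ᶜ ∪ (A 0 n [(b, 0)])ᶜ)
  have e9 := p_union_le L (A (-k, 0) n [(b, 0)])ᶜ (A 0 n [(b, 0)])ᶜ
  rw [L.univ] at e7
  linarith

end Crest.Agent.R144.Qca216
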