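import Crest.Agent.R144.Qc_277

/-!
# R144, R1 (doc 1941): (3.1) + (3.2) on helper216's law (helper277)

* `p32 : Qlw216.P32`.
-/

set_option autoImplicit false

noncomputable section

namespace Crest.Agent.R144.Qa277

open Crest.Agent.R144.It844 (P2 adj_iff adj_symm)
open Crest.Agent.R144.Zg349 (StepIn IsConn)
open Crest.Agent.R144.Qlw216 (Lw Inv act hard rhard Om Bw Tw K Kt KR Rig Rows W D Loc Bb)
open Crest.ProbabilityR.HexHeights (Adj)

theorem isLw (L : Lw) : IsLw L.p := ⟨L.nonneg, L.univ, L.empty, L.add, L.assoc⟩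

/-- walks are carried by automorphisms -/
theorem Pth.map {S T : Set P2} {u v : P2} (g : P2 → P2) (hg : ∀ a b, Adj a b → Adj (g a) (g b))
    (hST : ∀ w ∈ S, g w ∈ T) (h : Pth S u v) : Pth T (g u) (g v) :=
  ⟨hST _ h.1, Crest.Agent.R144.Hex585.path_map g hg hST h.2⟩

theorem adj_tr (t a b : P2) (h : Adj a b) : Adj (Qlw216.tr t a) (Qlw216.tr t b) := by
  obtain ⟨a1, a2⟩ := a
  obtain ⟨b1, b2⟩ := b
  obtain ⟨t1, t2⟩ := t
  rw [adj_iff] at *
  simp only [Qlw216.tr, Prod.mk_add_mk, Prod.mk.injEq] at *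
  omega

theorem adj_sg (a b : P2) (h : Adj a b) : Adj (Qlw216.sg a) (Qlw216.sg b) := by
  obtain ⟨a1, a2⟩ := a
  obtain ⟨b1, b2⟩ := b
  rw [adj_iff] at *
  simp only [Qlw216.sg, Prod.mk.injEq] at *
  omega

theorem act_tr (k : ℤ) (B S S' : Set P2) :
    act (Qlw216.tr (k, 0)) (Cn B S S') ⊆ Cn (tr k B) (tr k S) (tr k S') := by
  rintro ω ⟨u, hu, v, hv, hp⟩
  have e : ∀ w : P2, ((Qlw216.tr (k, 0) w).1 - k, (Qlw216.tr (k, 0) w).2) = w := by
    intro w
    unfold Qlw216.tr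
    ext
    · simp
    · simp
  refine ⟨Qlw216.tr (k, 0) u, ?_, Qlw216.tr (k, 0) v, ?_, hp.map _ (adj_tr _) ?_⟩
  · show ((Qlw216.tr (k, 0) u).1 - k, (Qlw216.tr (k, 0) u).2) ∈ S
    rw [e]; exact hu
  · show ((Qlw216.tr (k, 0) v).1 - k, (Qlw216.tr (k, 0) v).2) ∈ S'
    rw [e]; exact hv
  · intro w hw
    refine ⟨hw.1, ?_⟩
    show ((Qlw216.tr (k, 0) w).1 - k, (Qlw216.tr (k, 0) w).2) ∈ B
    rw [e]; exact hw.2

theorem act_sg (B S S' : Set P2) :
    act Qlw216.sg (Cn B S S') ⊆ Cn (rf B) (rf S) (rf S') := by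
  rintro ω ⟨u, hu, v, hv, hp⟩
  have e : ∀ w : P2, (-(Qlw216.sg w).1 - (Qlw216.sg w).2, (Qlw216.sg w).2) = w := by
    intro w
    unfold Qlw216.sg
    ext
    · simp
    · simp
  refine ⟨Qlw216.sg u, ?_, Qlw216.sg v, ?_, hp.map _ adj_sg ?_⟩
  · show (-(Qlw216.sg u).1 - (Qlw216.sg u).2, (Qlw216.sg u).2) ∈ S
    rw [e]; exact hu
  · show (-(Qlw216.sg v).1 - (Qlw216.sg v).2, (Qlw216.sg v).2) ∈ S'
    rw [e]; exact hv
  · intro w hw
    refine ⟨hw.1, ?_⟩
    show (-(Qlw216.sg w).1 - (Qlw216.sg w).2, (Qlw216.sg w).2) ∈ B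
    rw [e]; exact hw.2

theorem cn_loc (B S S' : Set P2) {R : Set P2} (h : B ⊆ R) : Loc R (Cn B S S') := by
  intro ω
  have e : ω ∩ R ∩ B = ω ∩ B := by
    rw [Set.inter_assoc, Set.inter_eq_right.2 h]
  unfold Cn
  simp only [Set.mem_ofPred_eq, e]

theorem bdd_bb {N : ℕ} {B : Set P2} {M : ℤ} (h : Bdd M B) (hM : M ≤ N) : B ⊆ Bb N := by
  intro v hv
  obtain ⟨h1, h2⟩ := h v hv
  simp only [XX] at h1
  rw [abs_le] at h1 h2
  refine ⟨?_, ?_, ?_⟩ <;> rw [abs_le] <;> constructor <;> omega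

theorem invT_of {L : Lw} {N : ℕ} {ρ : ℝ} (h : Inv L N ρ) {T : ℤ} (hTN : T ≤ N) :
    InvT L.p T ρ := by
  intro k hk B S S' hB
  have h1 := h.tr (k, 0) (hk.trans hTN) (by simp) (Cn B S S') (cn_upper B S S')
    (cn_loc B S S' (bdd_bb hB hTN))
  have h2 := (isLw L).mono (act_tr k B S S')
  have h3 := (abs_le.1 h1).1
  linarith

theorem invR_of {L : Lw} {N : ℕ} {ρ : ℝ} (h : Inv L N ρ) {T : ℤ} (hTN : T ≤ N) :
    InvR L.p T ρ := by
  intro B S S' hB
  have h1 := h.sg (Cn B S S') (cn_upper B S S') (cn_loc B S S' (bdd_bb hB hTN))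
  have h2 := (isLw L).mono (act_sg B S S')
  have h3 := (abs_le.1 h1).1
  linarith

theorem hard_eq (h : ℕ) : hard h = Hd 0 h 0 (6 * h) := by
  ext ω
  constructor
  · rintro ⟨u, v, h1, h2, h3⟩
    refine ⟨u, ?_, v, ?_, h3⟩
    · show XX u ≤ 0 - 6 * h
      have : Qlw216.XX u = XX u := rfl
      omega
    · show 0 + 6 * h ≤ XX v
      have : Qlw216.XX v = XX v := rfl
      omega
  · rintro ⟨u, h1, v, h2, h3⟩
    have h1' : XX u ≤ 0 - 6 * h := h1
    have h2' : 0 + 6 * h ≤ XX v := h2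
    refine ⟨u, v, ?_, ?_, h3⟩
    · have : Qlw216.XX u = XX u := rfl
      omega
    · have : Qlw216.XX v = XX v := rfl
      omega

theorem rhard_eq (h : ℕ) : rhard h = Rh 0 h 0 (6 * h) := by
  ext ω
  constructor
  · rintro ⟨u, v, h1, h2, h3⟩
    refine ⟨u, v, ?_, ?_, h3⟩
    · have : Qlw216.XX u = XX u := rfl
      omega
    · have : Qlw216.XX v = XX v := rfl
      omega
  · rintro ⟨u, v, h1, h2, h3⟩
    refine ⟨u, v, ?_, ?_, h3⟩
    · have : Qlw216.XX u = XX u := rfl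
      omega
    · have : Qlw216.XX v = XX v := rfl
      omega

/-- the region of `K` -/
def Kr (a a' : ℤ) (h : ℕ) : Set P2 := {v | (0 ≤ v.2 ∧ v.2 ≤ 0 + (h : ℤ)) ∧ a - 20 * h ≤ XX v ∧
  XX v ≤ a' + 20 * h}

theorem K_eq (a a' : ℤ) (h : ℕ) : K a a' 0 h = Cn (Kr a a' h) (Win 0 a (W h)) (Win 0 a' (W h)) := by
  ext ω
  constructor
  · rintro ⟨u, v, h1, h2, h3, h4, h5⟩
    exact ⟨u, ⟨h1, h2⟩, v, ⟨h3, h4⟩, h5⟩
  · rintro ⟨u, ⟨h1, h2⟩, v, ⟨h3, h4⟩, h5⟩
    exact ⟨u, v, h1, h2, h3, h4, h5⟩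

theorem Kt_eq (a a' : ℤ) (h : ℕ) :
    Kt a a' 0 h = Cn (Kr a a' h) (Win (0 + h) a (W h)) (Win (0 + h) a' (W h)) := by
  ext ω
  constructor
  · rintro ⟨u, v, h1, h2, h3, h4, h5⟩
    exact ⟨u, ⟨h1, h2⟩, v, ⟨h3, h4⟩, h5⟩
  · rintro ⟨u, ⟨h1, h2⟩, v, ⟨h3, h4⟩, h5⟩
    exact ⟨u, v, h1, h2, h3, h4, h5⟩

theorem kr_sub (a a' : ℤ) (h : ℕ) : Kr a a' h ⊆ Rw 0 h := fun _ hv => hv.1

theorem tr_kr (k a a' : ℤ) (h : ℕ) : tr k (Kr a a' h) ⊆ Rw 0 h := fun _ hv => hv.1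

theorem bdd_kr {a a' : ℤ} {h : ℕ} (h1 : |a| ≤ 40 * h) (h2 : |a'| ≤ 40 * h) :
    Bdd (100 * h : ℕ) (Kr a a' h) := by
  rintro v ⟨⟨hv1, hv2⟩, hv3, hv4⟩
  rw [abs_le] at h1 h2
  push_cast
  constructor <;> rw [abs_le] <;> constructor <;> omega

theorem A_nil (h : ℕ) : Cn (Bx 0 h 0 (16 * h)) (Win 0 0 (W h)) (Win h 0 (W h)) ⊆
    Qlw216.A 0 h [] := by
  rintro ω ⟨u, ⟨hu1, hu2⟩, v, ⟨hv1, hv2⟩, hp⟩
  have e0 : ∀ w : P2, Qlw216.XX w - Qlw216.XX 0 = XX w - 0 := fun w => by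
    simp [Qlw216.XX, XX]
  refine ⟨{w | Pth (ω ∩ Bx 0 h 0 (16 * h)) u w}, ?_, ?_, ⟨u, ?_, ?_⟩, ⟨v, hp, ?_⟩, ?_⟩
  · intro w hw
    have h1 := Pth.right hw
    refine ⟨h1.1, ⟨h1.2.1, h1.2.2.1⟩, ?_⟩
    rw [e0]
    exact h1.2.2.2
  · intro a ha b hb
    have h1 := (Pth.comp ha).symm.trans (Pth.comp hb)
    exact h1.2
  · exact Pth.refl hp.1
  · refine ⟨hu1, ?_⟩
    rw [e0]; exact hu2
  · refine ⟨?_, ?_⟩
    · rw [hv1]; simp
    · rw [e0]; exact hv2
  · intro B hB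
    exact absurd hB (by simp)

/-- union bound for two families -/
theorem fam_prob {p : Set (Set P2) → ℝ} (L : IsLw p) {N : ℕ} (EK EV : ℕ → Set (Set P2))
    {H : Set (Set P2)} {κ v : ℝ} (hK : ∀ k ≤ N, 1 - κ ≤ p (EK k)) (hV : ∀ k < N, 1 - v ≤ p (EV k))
    (hsub : ∀ ω, (∀ k ≤ N, ω ∈ EK k) → (∀ k < N, ω ∈ EV k) → ω ∈ H) :
    1 - (N + 1) * κ - N * v ≤ p H := by
  classical
  have h1 := L.biInter_ge (Finset.range (N + 1)) EK
  have h2 := L.biInter_ge (Finset.range N) EV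
  have h3 : ∑ i ∈ Finset.range (N + 1), (1 - p (EK i)) ≤ (N + 1) * κ := by
    calc ∑ i ∈ Finset.range (N + 1), (1 - p (EK i)) ≤ ∑ i ∈ Finset.range (N + 1), κ :=
          Finset.sum_le_sum fun i hi => by
            have := hK i (by simpa [Nat.lt_succ_iff] using hi)
            linarith
      _ = (N + 1) * κ := by rw [Finset.sum_const, Finset.card_range, nsmul_eq_mul]; push_cast; ring
  have h4 : ∑ i ∈ Finset.range N, (1 - p (EV i)) ≤ N * v := by
    calc ∑ i ∈ Finset.range N, (1 - p (EV i)) ≤ ∑ i ∈ Finset.range N, v :=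
          Finset.sum_le_sum fun i hi => by
            have := hV i (by simpa using hi)
            linarith
      _ = N * v := by rw [Finset.sum_const, Finset.card_range, nsmul_eq_mul]
  have h5 := L.inter_ge (⋂ i ∈ Finset.range (N + 1), EK i) (⋂ i ∈ Finset.range N, EV i)
  have h6 : (⋂ i ∈ Finset.range (N + 1), EK i) ∩ (⋂ i ∈ Finset.range N, EV i) ⊆ H := by
    rintro ω ⟨hω1, hω2⟩
    simp only [Set.mem_iInter, Finset.mem_range, Nat.lt_succ_iff] at hω1 hω2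
    exact hsub ω hω1 hω2
  have h7 := L.mono h6
  linarith

/-- **(3.1) + (3.2)** -/
theorem p32 : Qlw216.P32 := by
  intro c1 hc1
  refine ⟨c1 / 216004, by positivity, ?_⟩
  intro ε hε
  set x : ℝ := min (min (ε / 2) (c1 / 10000000)) 1 with hx
  have hx0 : 0 < x := lt_min (lt_min (by positivity) (by positivity)) one_pos
  have hx1 : x ≤ 1 := min_le_right _ _
  have hxε : x ≤ ε / 2 := (min_le_left _ _).trans (min_le_left _ _)
  have hxc : x ≤ c1 / 10000000 := (min_le_left _ _).trans (min_le_right _ _)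
  set n2 : ℕ := 1400001 * 1400001 with hn2
  obtain ⟨e, he0, he1, he2⟩ : ∃ e : ℝ, 0 < e ∧ e ≤ x ^ n2 ∧ e ≤ x := by
    refine ⟨x ^ n2, pow_pos hx0 _, le_rfl, ?_⟩
    exact pow_le_of_le_one hx0.le hx1 (by rw [hn2]; norm_num)
  refine ⟨e, he0, ?_⟩
  intro L N h hInv hh hN hhard hrhard
  have hL := isLw L
  have hT : InvT L.p (100 * h : ℕ) e := invT_of hInv (by exact_mod_cast hN)
  have hR : InvR L.p (100 * h : ℕ) e := invR_of hInv (by exact_mod_cast hN)
  have hBd : Bdd (100 * h : ℕ) (Bx 0 h 0 (8 * h)) := bdd_bx (by rw [abs_zero]; push_cast; omega)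
    (by rw [abs_zero, abs_of_nonneg (by positivity)]; push_cast; omega)
  set w : ℕ := h / 100000 with hw
  have hw1 : 1 ≤ w := by omega
  have hwh : w ≤ h := by omega
  rw [rhard_eq] at hrhard
  rw [hard_eq] at hhard
  have hq : 7 * h / w + 1 ≤ 1400001 := by
    have h1 : 7 * h / w ≤ 7 * (200000 * w) / w := Nat.div_le_div_right (by omega)
    have h2 : 7 * (200000 * w) / w = 1400000 := by
      rw [show 7 * (200000 * w) = 1400000 * w by ring]
      exact Nat.mul_div_cancel _ (by omega)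
    omega
  obtain ⟨b, t, hb, ht, h1⟩ := crossing_pair hL (h := h) (w := w) hw1 hwh hx0.le hx1 (n := n2)
    (Nat.mul_le_mul hq hq) (hrhard.trans he1)
  have hal := aligned (N := 600001) (c1 := c1) (x := x) hL hT hR he0.le hw1 (b := b) (t := t) (by omega) (by omega)
    (by push_cast; omega) (by norm_num; nlinarith) hhard h1
  -- the aligned crossing at any centre
  have hWdef : W h = ((h / 9000 : ℕ) : ℤ) := rfl
  have hDdef : D h = ((h / 900 : ℕ) : ℤ) := rfl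
  have hwW : 6 * (w : ℤ) + 1 ≤ W h := by rw [hWdef]; omega
  have hW1 : 1 ≤ W h := by omega
  have hD10 : 10 * W h ≤ D h := by rw [hWdef, hDdef]; omega
  have hWh : 9000 * W h ≤ h := by rw [hWdef]; omega
  have hWh' : (h : ℤ) ≤ 18000 * W h := by rw [hWdef]; omega
  clear_value w
  have h2 : 1 - x ≤ L.p (Cn (Bx 0 h 0 (8 * h)) (Win 0 b (6 * w)) (Win h b (6 * w))) := by
    refine h1.trans (hL.mono (cn_mono subset_rfl (win_mono ?_) (win_mono ?_)))
    · rw [sub_self, abs_zero]; omega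
    · rw [abs_le] at hal
      have : |b - t| ≤ 5 * w := by rw [abs_le]; omega
      omega
  have hV : ∀ z : ℤ, |z| ≤ 100 * h → ∃ z' : ℤ, |z' - z| ≤ 1 ∧
      1 - (x + e) ≤ L.p (Cn (Bx 0 h (z' - b) (8 * h)) (Win 0 z (W h)) (Win h z (W h))) := by
    intro z hz
    obtain ⟨z', hz1, hz2, hz3⟩ := exists_parity z b
    have hzz : |z' - z| ≤ 1 := by rw [abs_le]; omega
    have h3 := translate hT hBd h2 (z := z') hz3 (by rw [abs_le] at *; push_cast; omega)
    rw [sub_self, add_zero, zero_add] at h3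
    refine ⟨z', hzz, h3.trans (hL.mono (cn_mono subset_rfl (win_mono ?_) (win_mono ?_)))⟩
    · rw [abs_sub_comm]; omega
    · rw [abs_sub_comm]; omega
  -- arcs
  have hρ : x + e ≤ 2 * x := by linarith
  have hfin : ¬ (1 - ((54000 : ℕ) + 1 : ℝ) * (c1 / 216004 + e) - (54000 : ℕ) * (x + e) ≤ 1 - c1) := by
    rw [not_le]
    push_cast
    linarith
  refine ⟨?_, ?_, ?_⟩
  · intro X Y hX hY hXY
    by_contra hcon
    rw [not_le] at hcon
    rw [K_eq] at hcon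
    apply hfin
    refine le_trans ?_ hhard
    obtain ⟨y0, hy1, hy2, hy3⟩ := exists_parity (-(6 * (h : ℤ)) - W h) X
    have hks : ∀ k : ℕ, k ≤ 54000 → (k : ℤ) * (4 * W h) ≤ 54000 * (4 * W h) := fun k hk =>
      mul_le_mul_of_nonneg_right (by exact_mod_cast hk) (by omega)
    have hks0 : ∀ k : ℕ, 0 ≤ (k : ℤ) * (4 * W h) := fun k => mul_nonneg (by positivity) (by omega)
    refine fam_prob hL
      (fun k => Cn (Rw 0 h) (Win 0 (y0 + (k : ℤ) * (4 * W h)) (W h))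
        (Win 0 (y0 + (k : ℤ) * (4 * W h) + (Y - X)) (W h)))
      (fun k => Cn (Rw 0 h) (Win 0 (y0 + (k : ℤ) * (4 * W h) + (6 * W h + 1)) (W h))
        (Win h (y0 + (k : ℤ) * (4 * W h) + (6 * W h + 1)) (W h))) ?_ ?_ ?_
    · intro k hk
      have e1 := hks k hk
      have e2 := hks0 k
      have h4 := hT ((y0 + (k : ℤ) * (4 * W h) - X) / 2)
        (by rw [abs_le] at *; push_cast; constructor <;> omega) (Kr X Y h)
        (Win 0 X (W h)) (Win 0 Y (W h)) (bdd_kr hX hY)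
      replace h4 := h4.trans (hL.mono (cn_mono (tr_kr _ X Y h) subset_rfl subset_rfl))
      rw [tr_win, tr_win] at h4
      have e3 : (y0 + (k : ℤ) * (4 * W h) - X) % 2 = 0 := by
        have : (k : ℤ) * (4 * W h) = 2 * (k * (2 * W h)) := by ring
        omega
      have e4 : 2 * ((y0 + (k : ℤ) * (4 * W h) - X) / 2) = y0 + (k : ℤ) * (4 * W h) - X := by omega
      rw [e4, show X + (y0 + (k : ℤ) * (4 * W h) - X) = y0 + (k : ℤ) * (4 * W h) by ring,
        show Y + (y0 + (k : ℤ) * (4 * W h) - X) = y0 + (k : ℤ) * (4 * W h) + (Y - X) by ring] at h4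
      linarith
    · intro k hk
      have e1 := hks k hk.le
      have e2 := hks0 k
      obtain ⟨z', _, h5⟩ := hV (y0 + (k : ℤ) * (4 * W h) + (6 * W h + 1))
        (by rw [abs_le] at *; constructor <;> omega)
      exact h5.trans (hL.mono (cn_mono (bx_sub_rw _ _ _ _) subset_rfl subset_rfl))
    · intro ω hω1 hω2
      refine hd_of_arcs_bot (j0 := 0) (h := h) (a := 0) (l := 6 * h) (y := y0) (s := 4 * W h)
        (d := Y - X) (c := 6 * W h + 1) (w := W h) (N := 54000) (by omega) (by omega) (by omega)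
        (by omega) (by push_cast; omega) hω1 ?_
      intro k hk
      refine ⟨Win h (y0 + (k : ℤ) * (4 * W h) + (6 * W h + 1)) (W h), ?_⟩
      refine cn_mono subset_rfl subset_rfl ?_ (hω2 k hk)
      intro v hv
      refine ⟨hv, ?_⟩
      show v.2 = 0 + h
      rw [hv.1, zero_add]
  · intro X Y hX hY hXY
    by_contra hcon
    rw [not_le] at hcon
    rw [Kt_eq] at hcon
    apply hfin
    refine le_trans ?_ hhard
    obtain ⟨y0, hy1, hy2, hy3⟩ := exists_parity (-(6 * (h : ℤ)) - W h) X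
    have hks : ∀ k : ℕ, k ≤ 54000 → (k : ℤ) * (4 * W h) ≤ 54000 * (4 * W h) := fun k hk =>
      mul_le_mul_of_nonneg_right (by exact_mod_cast hk) (by omega)
    have hks0 : ∀ k : ℕ, 0 ≤ (k : ℤ) * (4 * W h) := fun k => mul_nonneg (by positivity) (by omega)
    refine fam_prob hL
      (fun k => Cn (Rw 0 h) (Win (0 + h) (y0 + (k : ℤ) * (4 * W h)) (W h))
        (Win (0 + h) (y0 + (k : ℤ) * (4 * W h) + (Y - X)) (W h)))
      (fun k => Cn (Rw 0 h) (Win 0 (y0 + (k : ℤ) * (4 * W h) + (6 * W h + 1)) (W h))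
        (Win h (y0 + (k : ℤ) * (4 * W h) + (6 * W h + 1)) (W h))) ?_ ?_ ?_
    · intro k hk
      have e1 := hks k hk
      have e2 := hks0 k
      have h4 := hT ((y0 + (k : ℤ) * (4 * W h) - X) / 2)
        (by rw [abs_le] at *; push_cast; constructor <;> omega) (Kr X Y h)
        (Win (0 + h) X (W h)) (Win (0 + h) Y (W h)) (bdd_kr hX hY)
      replace h4 := h4.trans (hL.mono (cn_mono (tr_kr _ X Y h) subset_rfl subset_rfl))
      rw [tr_win, tr_win] at h4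
      have e3 : (y0 + (k : ℤ) * (4 * W h) - X) % 2 = 0 := by
        have : (k : ℤ) * (4 * W h) = 2 * (k * (2 * W h)) := by ring
        omega
      have e4 : 2 * ((y0 + (k : ℤ) * (4 * W h) - X) / 2) = y0 + (k : ℤ) * (4 * W h) - X := by omega
      rw [e4, show X + (y0 + (k : ℤ) * (4 * W h) - X) = y0 + (k : ℤ) * (4 * W h) by ring,
        show Y + (y0 + (k : ℤ) * (4 * W h) - X) = y0 + (k : ℤ) * (4 * W h) + (Y - X) by ring] at h4
      linarith
    · intro k hk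
      have e1 := hks k hk.le
      have e2 := hks0 k
      obtain ⟨z', _, h5⟩ := hV (y0 + (k : ℤ) * (4 * W h) + (6 * W h + 1))
        (by rw [abs_le] at *; constructor <;> omega)
      exact h5.trans (hL.mono (cn_mono (bx_sub_rw _ _ _ _) subset_rfl subset_rfl))
    · intro ω hω1 hω2
      refine hd_of_arcs_top (j0 := 0) (h := h) (a := 0) (l := 6 * h) (y := y0) (s := 4 * W h)
        (d := Y - X) (c := 6 * W h + 1) (w := W h) (N := 54000) (by omega) (by omega) (by omega)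
        (by omega) (by push_cast; omega) hω1 ?_
      intro k hk
      refine ⟨Win 0 (y0 + (k : ℤ) * (4 * W h) + (6 * W h + 1)) (W h), ?_⟩
      have h6 := hω2 k hk
      rw [← zero_add (h : ℤ)] at h6
      refine cn_mono (by simp) ?_ (by simp) (hω2 k hk)
      intro v hv
      exact ⟨hv, hv.1⟩
  · obtain ⟨z', hz1, hz2⟩ := hV 0 (by rw [abs_zero]; positivity)
    have h7 : L.p (Cn (Bx 0 h (z' - b) (8 * h)) (Win 0 0 (W h)) (Win h 0 (W h))) ≤
        L.p (Qlw216.A 0 h []) := by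
      refine (hL.mono (cn_mono (bx_mono ?_) subset_rfl subset_rfl)).trans (hL.mono (A_nil h))
      rw [abs_le] at *
      have : |0 - (z' - b)| ≤ 8 * h := by
        have hb' : |b| ≤ 8 * h - 1 := by omega
        rw [abs_le] at *
        constructor <;> omega
      omega
    rw [hL.compl]
    linarith

end Crest.Agent.R144.Qa277
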