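import Crest.Agent.R144.Qs2_356
import Crest.Agent.R144.Qlw_216

/-!
# R144, QRSW (doc 1941): the planar inclusions `Geo` of helper216's `Qlw_216` (helper356)
-/

set_option autoImplicit false
set_option linter.unusedSimpArgs false

namespace Crest.Agent.R144.Qg356

open Crest.Agent.R144.It844 (P2 adj_iff adj_symm)
open Crest.Agent.R144.Zg349 (StepIn IsConn)
open Crest.Agent.R144.Rsw867 (path_mono ball mem_ball)
open Crest.Agent.R144.Pst967 (stepIn_symm path_symm path_h path_v)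
open Crest.ProbabilityR.HexHeights (Adj)
open Crest.Agent.R144.Qs356 (crossX conn_union path_left path_right)
open Crest.Agent.R144.Qlw216

/-- reachability relation -/
abbrev RT (S : Set P2) : P2 → P2 → Prop := Relation.ReflTransGen (StepIn S)

/-! ### connectedness of `ball ∩ strip` -/

theorem center_path {z : P2} {r : ℕ} {j j' : ℤ} (hz : j ≤ z.2 ∧ z.2 ≤ j') (n : ℕ) :
    ∀ p q : ℤ, p.natAbs + q.natAbs ≤ n → |p| ≤ r → |q| ≤ r → |p + q| ≤ r →
      j ≤ z.2 + q → z.2 + q ≤ j' →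
      RT (((ball z r : Finset P2) : Set P2) ∩ {w | j ≤ w.2 ∧ w.2 ≤ j'}) (z.1 + p, z.2 + q) z := by
  have mem : ∀ p q : ℤ, |p| ≤ r → |q| ≤ r → |p + q| ≤ r → j ≤ z.2 + q → z.2 + q ≤ j' →
      ((z.1 + p, z.2 + q) : P2) ∈ ((ball z r : Finset P2) : Set P2) ∩ {w | j ≤ w.2 ∧ w.2 ≤ j'} := by
    intro p q h1 h2 h3 h4 h5
    refine ⟨?_, h4, h5⟩
    rw [Finset.mem_coe, mem_ball]
    simp only [add_sub_cancel_left]
    exact ⟨h1, h2, h3⟩
  induction n with
  | zero =>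
    intro p q h _ _ _ _ _
    have hp : p = 0 := by omega
    have hq : q = 0 := by omega
    subst hp hq
    simp only [add_zero]
    exact .refl
  | succ n ih =>
    intro p q h h1 h2 h3 h4 h5
    have hm := mem p q h1 h2 h3 h4 h5
    -- one step
    have go : ∀ p' q' : ℤ, p'.natAbs + q'.natAbs ≤ n → |p'| ≤ r → |q'| ≤ r → |p' + q'| ≤ r →
        j ≤ z.2 + q' → z.2 + q' ≤ j' → Adj (z.1 + p, z.2 + q) (z.1 + p', z.2 + q') →
        RT (((ball z r : Finset P2) : Set P2) ∩ {w | j ≤ w.2 ∧ w.2 ≤ j'}) (z.1 + p, z.2 + q) z := by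
      intro p' q' e0 e1 e2 e3 e4 e5 ha
      exact Relation.ReflTransGen.head ⟨hm, mem p' q' e1 e2 e3 e4 e5, ha⟩ (ih p' q' e0 e1 e2 e3 e4 e5)
    simp only [abs_le] at h1 h2 h3 go
    rcases lt_trichotomy q 0 with hq | hq | hq
    · by_cases hp : 0 < p
      · exact go (p - 1) (q + 1) (by omega) (by omega) (by omega) (by omega) (by omega) (by omega)
          (adj_iff.2 (by simp only [Prod.mk.injEq, true_and, and_true]; omega))
      · exact go p (q + 1) (by omega) (by omega) (by omega) (by omega) (by omega) (by omega)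
          (adj_iff.2 (by simp only [Prod.mk.injEq, true_and, and_true]; omega))
    · rcases lt_trichotomy p 0 with hp | hp | hp
      · exact go (p + 1) q (by omega) (by omega) (by omega) (by omega) (by omega) (by omega)
          (adj_iff.2 (by simp only [Prod.mk.injEq, true_and, and_true]; omega))
      · subst hp hq
        simp only [add_zero]
        exact .refl
      · exact go (p - 1) q (by omega) (by omega) (by omega) (by omega) (by omega) (by omega)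
          (adj_iff.2 (by simp only [Prod.mk.injEq, true_and, and_true]; omega))
    · by_cases hp : p < 0
      · exact go (p + 1) (q - 1) (by omega) (by omega) (by omega) (by omega) (by omega) (by omega)
          (adj_iff.2 (by simp only [Prod.mk.injEq, true_and, and_true]; omega))
      · exact go p (q - 1) (by omega) (by omega) (by omega) (by omega) (by omega) (by omega)
          (adj_iff.2 (by simp only [Prod.mk.injEq, true_and, and_true]; omega))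

theorem conn_bl {s : P2} {h : ℕ} {B : P2 × ℕ} (hB : InStrip s h B) : IsConn (bl B ∩ Rows s.2 h) := by
  have key : ∀ b ∈ bl B ∩ Rows s.2 h, RT (bl B ∩ Rows s.2 h) b B.1 := by
    rintro b ⟨h1, h2⟩
    have h3 : b ∈ ball B.1 B.2 := h1
    rw [mem_ball] at h3
    have h4 : s.2 ≤ b.2 ∧ b.2 ≤ s.2 + h := h2
    have := center_path (z := B.1) (r := B.2) (j := s.2) (j' := s.2 + h) hB _ (b.1 - B.1.1)
      (b.2 - B.1.2) le_rfl h3.1 h3.2.1 h3.2.2 (by omega) (by omega)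
    have e : ((B.1.1 + (b.1 - B.1.1), B.1.2 + (b.2 - B.1.2)) : P2) = b := by ext <;> simp
    rw [e] at this
    exact this
  exact fun u hu v hv => (key u hu).trans (path_symm (key v hv))

theorem center_mem {s : P2} {h : ℕ} {B : P2 × ℕ} (hB : InStrip s h B) : B.1 ∈ bl B ∩ Rows s.2 h := by
  refine ⟨?_, hB⟩
  show B.1 ∈ ball B.1 B.2
  rw [mem_ball]; simp

/-! ### the sets `C⁺` -/

section cp
variable {s : P2} {h : ℕ} {C : Set P2} {p q : P2}

theorem row_om {v : P2} (hv : v ∈ Om s h) : s.2 ≤ v.2 ∧ v.2 ≤ s.2 + h := hv.1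

theorem col_om {v : P2} (hv : v ∈ Om s h) : |XX v - XX s| ≤ 16 * h := hv.2

theorem cp_path (hC : IsConn C) (hp : p ∈ C) (hq : q ∈ C) {x : P2} (hx : x ∈ Cp C p q) :
    RT (Cp C p q) x p := by
  have hsub : C ⊆ Cp C p q := Set.subset_union_left
  have hx' := hx
  rcases hx with h | h | h | h | h
  · exact path_mono hsub (hC x h p hp)
  · refine Relation.ReflTransGen.single ⟨hx', hsub hp, ?_⟩
    rw [h, adj_iff]
    simp only [Prod.ext_iff, true_and, and_true]; omega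
  · refine Relation.ReflTransGen.single ⟨hx', hsub hp, ?_⟩
    rw [h, adj_iff]
    simp only [Prod.ext_iff, true_and, and_true]; omega
  · refine Relation.ReflTransGen.head ⟨hx', hsub hq, ?_⟩ (path_mono hsub (hC q hq p hp))
    rw [h, adj_iff]
    simp only [Prod.ext_iff, true_and, and_true]; omega
  · have h : x = (q.1 - 1, q.2 + 1) := h
    refine Relation.ReflTransGen.head ⟨hx', hsub hq, ?_⟩ (path_mono hsub (hC q hq p hp))
    rw [h, adj_iff]
    simp only [Prod.ext_iff, true_and, and_true]; omega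

theorem cp_conn (hC : IsConn C) (hp : p ∈ C) (hq : q ∈ C) : IsConn (Cp C p q) := fun _ hu _ hv =>
  (cp_path hC hp hq hu).trans (path_symm (cp_path hC hp hq hv))

theorem cp_cases {x : P2} (hx : x ∈ Cp C p q) : x ∈ C ∨ (x.2 = p.2 - 1 ∧ (x.1 = p.1 ∨ x.1 = p.1 + 1)) ∨
    (x.2 = q.2 + 1 ∧ (x.1 = q.1 ∨ x.1 = q.1 - 1)) := by
  rcases hx with h | h | h | h | h
  · exact Or.inl h
  · rw [h]; simp
  · rw [h]; simp
  · rw [h]; simp
  · have h : x = (q.1 - 1, q.2 + 1) := h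
    rw [h]; simp

theorem cp_sub (hC : C ⊆ Om s h) (hp : p.2 = s.2) (hq : q.2 = s.2 + h) : Cp C p q ⊆ Rp s.2 h := by
  intro x hx
  show s.2 - 1 ≤ x.2 ∧ x.2 ≤ s.2 + h + 1
  rcases cp_cases hx with h1 | h1 | h1
  · have := row_om (hC h1)
    omega
  · omega
  · omega

theorem cp_col (hC : C ⊆ Om s h) (hp : p ∈ C) (hq : q ∈ C) {x : P2} (hx : x ∈ Cp C p q) :
    |XX x - XX s| ≤ 16 * h + 1 := by
  have h1 := col_om (hC hp)
  have h2 := col_om (hC hq)
  unfold XX at *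
  rw [abs_le] at *
  rcases cp_cases hx with h3 | h3 | h3
  · have := col_om (hC h3)
    unfold XX at this
    rw [abs_le] at this
    omega
  · omega
  · omega

/-- `C⁺` separates the two ends of the strip -/
theorem no_both (hC : C ⊆ Om s h) (hc : IsConn C) (hp : p ∈ C) (hq : q ∈ C) (hp2 : p.2 = s.2)
    (hq2 : q.2 = s.2 + h) {b b' : P2} (hL : ReachL s.2 h (Cp C p q) b)
    (hR : ReachR s.2 h (Cp C p q) b') (hbb : RT (Rp s.2 h \ Cp C p q) b b') : False := by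
  obtain ⟨u, hu, hbu⟩ := hL (XX s - (16 * h + 1))
  obtain ⟨v, hv, hbv⟩ := hR (XX s + (16 * h + 1))
  have huS : u ∈ Rp s.2 h \ Cp C p q := by
    by_cases e : b = u
    · rw [← e]; exact hbu.1
    · exact path_right hbu.2 e
  have hp1 : ((p.1, p.2 - 1) : P2) ∈ Cp C p q := Or.inr (Or.inl rfl)
  have hq1 : ((q.1, q.2 + 1) : P2) ∈ Cp C p q := Or.inr (Or.inr (Or.inr (Or.inl rfl)))
  obtain ⟨w, hw1, hw2⟩ := crossX (S1 := Rp s.2 h \ Cp C p q) (S2 := Cp C p q) (u := u) (v := v)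
    (p := (p.1, p.2 - 1)) (q := (q.1, q.2 + 1)) (s := XX s - (16 * h + 1)) (s' := XX s + (16 * h + 1))
    huS hp1 (((path_symm hbu.2).trans hbb).trans hbv.2) (cp_conn hc hp hq _ hp1 _ hq1)
    (by
      rintro w ⟨hw, _⟩
      have hw' : s.2 - 1 ≤ w.2 ∧ w.2 ≤ s.2 + h + 1 := hw
      simp only
      omega)
    (by
      intro w hw
      have := cp_col hC hp hq hw
      unfold XX at this ⊢
      rw [abs_le] at this
      omega)
    hu hv
  exact hw1.2 hw2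

end cp

/-! ### travelling along a row -/

theorem reachR_of {j : ℤ} {h : ℕ} {T : Set P2} {b e : P2} (hb : b ∈ Rp j h \ T)
    (hbe : RT (Rp j h \ T) b e) (he : j - 1 ≤ e.2 ∧ e.2 ≤ j + h + 1)
    (hT : ∀ i, e.1 ≤ i → ((i, e.2) : P2) ∉ T) : ReachR j h T b := by
  intro M
  refine ⟨(max e.1 (|M| + |e.2|), e.2), ?_, hb, hbe.trans ?_⟩
  · unfold XX
    simp only
    have h1 := le_max_right e.1 (|M| + |e.2|)
    have h2 := le_abs_self M
    have h3 := neg_abs_le e.2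
    have h4 := abs_nonneg M
    have h5 := abs_nonneg e.2
    linarith
  · refine path_h (S := Rp j h \ T) e.2 e.1 _ fun t h1 h2 => ⟨he, hT t ?_⟩
    have := le_max_left e.1 (|M| + |e.2|)
    rw [min_eq_left this] at h1
    exact h1

theorem reachL_of {j : ℤ} {h : ℕ} {T : Set P2} {b e : P2} (hb : b ∈ Rp j h \ T)
    (hbe : RT (Rp j h \ T) b e) (he : j - 1 ≤ e.2 ∧ e.2 ≤ j + h + 1)
    (hT : ∀ i, i ≤ e.1 → ((i, e.2) : P2) ∉ T) : ReachL j h T b := by
  intro M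
  refine ⟨(min e.1 (-(|M| + |e.2|)), e.2), ?_, hb, hbe.trans ?_⟩
  · unfold XX
    simp only
    have h1 := min_le_right e.1 (-(|M| + |e.2|))
    have h2 := neg_abs_le M
    have h3 := le_abs_self e.2
    have h4 := abs_nonneg M
    have h5 := abs_nonneg e.2
    linarith
  · refine path_h (S := Rp j h \ T) e.2 e.1 _ fun t h1 h2 => ⟨he, hT t ?_⟩
    have := min_le_left e.1 (-(|M| + |e.2|))
    rw [max_eq_left this] at h2
    exact h2

theorem rp_conn {j : ℤ} {h : ℕ} {u v : P2} (hu : u ∈ Rp j h) (hv : v ∈ Rp j h) :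
    RT (Rp j h) u v := by
  have hu' : j - 1 ≤ u.2 ∧ u.2 ≤ j + h + 1 := hu
  have hv' : j - 1 ≤ v.2 ∧ v.2 ≤ j + h + 1 := hv
  refine (path_h (S := Rp j h) u.2 u.1 v.1 fun t _ _ => hu').trans
    (path_v (S := Rp j h) v.1 u.2 v.2 fun t h1 h2 => ?_)
  show j - 1 ≤ t ∧ t ≤ j + h + 1
  rcases le_total u.2 v.2 with h3 | h3
  · rw [min_eq_left h3] at h1; rw [max_eq_right h3] at h2; omega
  · rw [min_eq_right h3] at h1; rw [max_eq_left h3] at h2; omega

/-- windows are far from each other -/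
theorem win_sep {h : ℕ} (hh : 9000 ≤ h) : 2 * W h + 8 ≤ D h ∧ 1 ≤ W h := by
  unfold W D
  omega

theorem W_mono {h h' : ℕ} (hh : h' ≤ h) : W h' ≤ W h := by
  unfold W
  exact_mod_cast Nat.div_le_div_right hh

/-! ### the inclusions -/

theorem geo_a (s : P2) (h : ℕ) (B : P2 × ℕ) (BB : List (P2 × ℕ)) (hB : InStrip s h B) :
    A s h BB ⊆ A s h (B :: BB) ∪ (EL s h B ∪ ER s h B) := by
  rintro ω ⟨C, hC, hc, ⟨p, hp, hp'⟩, ⟨q, hq, hq'⟩, hBB⟩
  by_cases hm : (C ∩ bl B).Nonempty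
  · left
    refine ⟨C, hC, hc, ⟨p, hp, hp'⟩, ⟨q, hq, hq'⟩, ?_⟩
    intro B' hB'
    rcases List.mem_cons.1 hB' with h1 | h1
    · rw [h1]; exact hm
    · exact hBB B' h1
  · right
    have hdis : Disjoint C (bl B) := Set.disjoint_iff_inter_eq_empty.2 (Set.not_nonempty_iff_eq_empty.1 hm)
    by_contra hcon
    have h1 : ¬ ω ∈ EL s h B := fun hh => hcon (Or.inl hh)
    have h2 : ¬ ω ∈ ER s h B := fun hh => hcon (Or.inr hh)
    have h3 : ∃ b ∈ bl B ∩ Rows s.2 h, ReachL s.2 h (Cp C p q) b := by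
      by_contra h4
      push Not at h4
      exact h1 ⟨C, hC, hc, p, ⟨hp, hp'⟩, q, ⟨hq, hq'⟩, hdis, h4⟩
    have h5 : ∃ b ∈ bl B ∩ Rows s.2 h, ReachR s.2 h (Cp C p q) b := by
      by_contra h4
      push Not at h4
      exact h2 ⟨C, hC, hc, p, ⟨hp, hp'⟩, q, ⟨hq, hq'⟩, hdis, h4⟩
    obtain ⟨b, hb, hL⟩ := h3
    obtain ⟨b', hb', hR⟩ := h5
    have hsub : bl B ∩ Rows s.2 h ⊆ Rp s.2 h \ Cp C p q := by
      rintro x ⟨hx1, hx2⟩
      have hx2' : s.2 ≤ x.2 ∧ x.2 ≤ s.2 + h := hx2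
      refine ⟨?_, fun hx3 => ?_⟩
      · show s.2 - 1 ≤ x.2 ∧ x.2 ≤ s.2 + h + 1
        omega
      · rcases cp_cases hx3 with h6 | h6 | h6
        · exact Set.disjoint_left.1 hdis h6 hx1
        · have := hp'.1; omega
        · have := hq'.1; omega
    exact no_both (fun x hx => (hC hx).2) hc hp hq hp'.1 hq'.1 hL hR
      (path_mono hsub (conn_bl hB b hb b' hb'))

theorem geo_d (s : P2) (h : ℕ) (R : Set P2) (B B' : P2 × ℕ) (hB : InStrip s h B)
    (hB' : InStrip s h B') (hR : R ⊆ Om s h) :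
    A s h [] ∩ Dev R B B' ⊆ A s h [B] ∪ A s h [B'] ∪ (EL s h B ∪ ER s h B') := by
  rintro ω ⟨⟨C, hC, hc, ⟨p, hp, hp'⟩, ⟨q, hq, hq'⟩, _⟩, ⟨T, hT, ht, ⟨x, hx1, hx2⟩, ⟨y, hy1, hy2⟩⟩⟩
  by_cases hCT : (C ∩ T).Nonempty
  · obtain ⟨w, hw1, hw2⟩ := hCT
    left; left
    refine ⟨C ∪ T, ?_, conn_union hc ht hw1 hw2, ⟨p, Or.inl hp, hp'⟩, ⟨q, Or.inl hq, hq'⟩, ?_⟩
    · rintro v (hv | hv)
      · exact hC hv
      · exact ⟨(hT hv).1, hR (hT hv).2⟩
    · intro B1 hB1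
      rw [List.mem_singleton] at hB1
      rw [hB1]
      exact ⟨x, Or.inr hx1, hx2⟩
  by_cases hm : (C ∩ bl B).Nonempty
  · left; left
    refine ⟨C, hC, hc, ⟨p, hp, hp'⟩, ⟨q, hq, hq'⟩, ?_⟩
    intro B1 hB1
    rw [List.mem_singleton] at hB1
    rw [hB1]; exact hm
  by_cases hm' : (C ∩ bl B').Nonempty
  · left; right
    refine ⟨C, hC, hc, ⟨p, hp, hp'⟩, ⟨q, hq, hq'⟩, ?_⟩
    intro B1 hB1
    rw [List.mem_singleton] at hB1
    rw [hB1]; exact hm'
  right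
  have hdis : Disjoint C (bl B) := Set.disjoint_iff_inter_eq_empty.2 (Set.not_nonempty_iff_eq_empty.1 hm)
  have hdis' : Disjoint C (bl B') :=
    Set.disjoint_iff_inter_eq_empty.2 (Set.not_nonempty_iff_eq_empty.1 hm')
  have hdisT : Disjoint C T := Set.disjoint_iff_inter_eq_empty.2 (Set.not_nonempty_iff_eq_empty.1 hCT)
  by_contra hcon
  have h1 : ¬ ω ∈ EL s h B := fun hh => hcon (Or.inl hh)
  have h2 : ¬ ω ∈ ER s h B' := fun hh => hcon (Or.inr hh)
  have h3 : ∃ b ∈ bl B ∩ Rows s.2 h, ReachL s.2 h (Cp C p q) b := by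
    by_contra h4
    push Not at h4
    exact h1 ⟨C, hC, hc, p, ⟨hp, hp'⟩, q, ⟨hq, hq'⟩, hdis, h4⟩
  have h5 : ∃ b ∈ bl B' ∩ Rows s.2 h, ReachR s.2 h (Cp C p q) b := by
    by_contra h4
    push Not at h4
    exact h2 ⟨C, hC, hc, p, ⟨hp, hp'⟩, q, ⟨hq, hq'⟩, hdis', h4⟩
  obtain ⟨b, hb, hL⟩ := h3
  obtain ⟨b', hb', hR'⟩ := h5
  have hsub : ∀ S : Set P2, Disjoint C S → S ∩ Rows s.2 h ⊆ Rp s.2 h \ Cp C p q := by
    rintro S hS x ⟨hx1, hx2⟩
    have hx2' : s.2 ≤ x.2 ∧ x.2 ≤ s.2 + h := hx2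
    refine ⟨?_, fun hx3 => ?_⟩
    · show s.2 - 1 ≤ x.2 ∧ x.2 ≤ s.2 + h + 1
      omega
    · rcases cp_cases hx3 with h6 | h6 | h6
      · exact Set.disjoint_left.1 hS h6 hx1
      · have := hp'.1; omega
      · have := hq'.1; omega
  have hTr : T ⊆ Rp s.2 h \ Cp C p q := fun v hv => hsub T hdisT ⟨hv, (hR (hT hv).2).1⟩
  have p1 := path_mono (hsub _ hdis) (conn_bl hB b hb x ⟨hx2, (hR (hT hx1).2).1⟩)
  have p2 := path_mono hTr (ht x hx1 y hy1)
  have p3 := path_mono (hsub _ hdis') (conn_bl hB' y ⟨hy2, (hR (hT hy1).2).1⟩ b' hb')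
  exact no_both (fun x hx => (hC hx).2) hc hp hq hp'.1 hq'.1 hL hR' ((p1.trans p2).trans p3)

theorem geo_b (s s' : P2) (h : ℕ) (B : P2 × ℕ) (hs : s'.2 = s.2) (hB : InStrip s h B)
    (hh : 9000 ≤ h) (hss : XX s + D h ≤ XX s') : ER s h B ∩ EL s' h B ⊆ K (XX s) (XX s') s.2 h := by
  rintro ω ⟨⟨C, hC, hc, p, ⟨hp, hp'⟩, q, ⟨hq, hq'⟩, hdis, hnR⟩,
    ⟨C', hC', hc', p', ⟨hp1, hp1'⟩, q', ⟨hq1, hq1'⟩, hdis', hnL⟩⟩
  rw [hs] at hnL
  obtain ⟨hsep, hW1⟩ := win_sep hh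
  have hCr : C ⊆ ω ∩ KR (XX s) (XX s') s.2 h := fun x hx => by
    have h1 := abs_le.1 (col_om (hC hx).2)
    exact ⟨(hC hx).1, (hC hx).2.1, by omega, by omega⟩
  have hCr' : C' ⊆ ω ∩ KR (XX s) (XX s') s.2 h := fun x hx => by
    have h1 := abs_le.1 (col_om (hC' hx).2)
    exact ⟨(hC' hx).1, by rw [← hs]; exact (hC' hx).2.1, by omega, by omega⟩
  have ap : |XX p - XX s| ≤ W h := hp'.2
  have aq : |XX q - XX s| ≤ W h := hq'.2
  have ap' : |XX p' - XX s'| ≤ W h := hp1'.2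
  have aq' : |XX q' - XX s'| ≤ W h := hq1'.2
  have rp : p.2 = s.2 := hp'.1
  have rq : q.2 = s.2 + h := hq'.1
  have rp' : p'.2 = s.2 := by rw [← hs]; exact hp1'.1
  have rq' : q'.2 = s.2 + h := by rw [← hs]; exact hq1'.1
  rw [abs_le] at ap aq ap' aq'
  have hXXp : XX p = 2 * p.1 + p.2 := rfl
  have hXXq : XX q = 2 * q.1 + q.2 := rfl
  have hXXp' : XX p' = 2 * p'.1 + p'.2 := rfl
  have hXXq' : XX q' = 2 * q'.1 + q'.2 := rfl
  by_cases hm : (C ∩ C').Nonempty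
  · obtain ⟨w, hw1, hw2⟩ := hm
    refine ⟨p, p', rp, hp'.2, rp', hp1'.2, hCr hp, ?_⟩
    exact (path_mono hCr (hc p hp w hw1)).trans (path_mono hCr' (hc' w hw2 p' hp1))
  exfalso
  have hCC : Disjoint C C' := Set.disjoint_iff_inter_eq_empty.2 (Set.not_nonempty_iff_eq_empty.1 hm)
  set T := Cp C p q with hT
  set T' := Cp C' p' q' with hT'
  have hC2' : C' ⊆ Om s' h := fun x hx => (hC' hx).2
  have hC2 : C ⊆ Om s h := fun x hx => (hC hx).2
  have rowC : ∀ x ∈ C, s.2 ≤ x.2 ∧ x.2 ≤ s.2 + h := fun x hx => (hC hx).2.1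
  have rowC' : ∀ x ∈ C', s.2 ≤ x.2 ∧ x.2 ≤ s.2 + h := fun x hx => by
    have := (hC' hx).2.1
    rw [hs] at this
    exact this
  have hTT : ∀ x ∈ T, x ∉ T' := by
    intro x hx hx'
    rcases cp_cases hx with h1 | h1 | h1 <;> rcases cp_cases hx' with h2 | h2 | h2
    · exact Set.disjoint_left.1 hCC h1 h2
    · have := rowC x h1; omega
    · have := rowC x h1; omega
    · have := rowC' x h2; omega
    · omega
    · omega
    · have := rowC' x h2; omega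
    · omega
    · omega
  have hTsub : T ⊆ Rp s.2 h := cp_sub hC2 rp rq
  have hTsub' : T' ⊆ Rp s.2 h := by
    have := cp_sub (p := p') (q := q') hC2' (by rw [hs]; exact rp') (by rw [hs]; exact rq')
    rw [hs] at this
    exact this
  have hTT1 : T' ⊆ Rp s.2 h \ T := fun x hx => ⟨hTsub' hx, fun h1 => hTT x h1 hx⟩
  have hTT2 : T ⊆ Rp s.2 h \ T' := fun x hx => ⟨hTsub hx, hTT x hx⟩
  have hbmem := center_mem hB
  set b := B.1 with hb
  have brow : s.2 ≤ b.2 ∧ b.2 ≤ s.2 + h := hbmem.2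
  have hbR : b ∈ Rp s.2 h := by
    show s.2 - 1 ≤ b.2 ∧ b.2 ≤ s.2 + h + 1
    omega
  have hbT : b ∉ T := by
    intro hx
    rcases cp_cases hx with h1 | h1 | h1
    · exact Set.disjoint_left.1 hdis h1 hbmem.1
    · omega
    · omega
  have hbT' : b ∉ T' := by
    intro hx
    rcases cp_cases hx with h1 | h1 | h1
    · exact Set.disjoint_left.1 hdis' h1 hbmem.1
    · omega
    · omega
  set S := Rp s.2 h \ (T ∪ T') with hS
  have hS1 : S ⊆ Rp s.2 h \ T := fun x hx => ⟨hx.1, fun h1 => hx.2 (Or.inl h1)⟩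
  have hS2 : S ⊆ Rp s.2 h \ T' := fun x hx => ⟨hx.1, fun h1 => hx.2 (Or.inr h1)⟩
  have hbS : b ∈ S := ⟨hbR, fun h1 => h1.elim hbT hbT'⟩
  have key : ∀ x, RT (Rp s.2 h) b x → x ∈ S ∧ RT S b x := by
    intro x hx
    induction hx with
    | refl => exact ⟨hbS, .refl⟩
    | @tail x y _ hxy ih =>
      obtain ⟨hxS, hbx⟩ := ih
      have hy1 : y ∉ T' := by
        intro hy
        refine hnR b hbmem (reachR_of (e := (p'.1 + 1, p'.2 - 1)) ⟨hbR, hbT⟩ ?_ ?_ ?_)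
        · have e1 : ((p'.1 + 1, p'.2 - 1) : P2) ∈ T' := Or.inr (Or.inr (Or.inl rfl))
          exact ((path_mono hS1 hbx).tail ⟨hS1 hxS, hTT1 hy, hxy.2.2⟩).trans
            (path_mono hTT1 (cp_conn hc' hp1 hq1 y hy _ e1))
        · simp only; omega
        · intro i hi hiT
          rcases cp_cases hiT with h1 | h1 | h1
          · have := rowC _ h1; simp only at this hi; omega
          · simp only at h1 hi; omega
          · simp only at h1 hi; omega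
      have hy2 : y ∉ T := by
        intro hy
        refine hnL b ⟨hbmem.1, hbmem.2⟩ (reachL_of (e := (p.1, p.2 - 1)) ⟨hbR, hbT'⟩ ?_ ?_ ?_)
        · have e1 : ((p.1, p.2 - 1) : P2) ∈ T := Or.inr (Or.inl rfl)
          exact ((path_mono hS2 hbx).tail ⟨hS2 hxS, hTT2 hy, hxy.2.2⟩).trans
            (path_mono hTT2 (cp_conn hc hp hq y hy _ e1))
        · simp only; omega
        · intro i hi hiT
          rcases cp_cases hiT with h1 | h1 | h1
          · have := rowC' _ h1; simp only at this hi; omega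
          · simp only at h1 hi; omega
          · simp only at h1 hi; omega
      have hyS : y ∈ S := ⟨hxy.2.1, fun h1 => h1.elim hy2 hy1⟩
      exact ⟨hyS, hbx.tail ⟨hxS, hyS, hxy.2.2⟩⟩
  have hpT : p ∈ T := Or.inl hp
  exact (key p (rp_conn hbR (hTsub hpT))).1.2 (Or.inl hpT)

theorem geo_cb (s s' : P2) (h h' : ℕ) (B : P2 × ℕ) (hs : s'.2 = s.2) (hh' : h' ≤ h)
    (_hB : InStrip s h B) (hh : 9000 ≤ h) (hss : XX s' + D h ≤ XX s) :
    EL s h B ∩ A s' h' [B] ⊆ K (XX s') (XX s) s.2 h := by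
  rintro ω ⟨⟨C, hC, hc, p, ⟨hp, hp'⟩, q, ⟨hq, hq'⟩, _, hnL⟩,
    ⟨C', hC', hc', ⟨p', hp1, hp1'⟩, _, hBB⟩⟩
  obtain ⟨b, hb1, hb2⟩ := hBB B (by simp)
  obtain ⟨hsep, hW1⟩ := win_sep hh
  have h2 : (h' : ℤ) ≤ h := by exact_mod_cast hh'
  have hCr : C ⊆ ω ∩ KR (XX s') (XX s) s.2 h := fun x hx => by
    have h1 := abs_le.1 (col_om (hC hx).2)
    exact ⟨(hC hx).1, (hC hx).2.1, by omega, by omega⟩
  have rowC' : ∀ x ∈ C', s.2 ≤ x.2 ∧ x.2 ≤ s.2 + h := fun x hx => by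
    have h1 : s'.2 ≤ x.2 ∧ x.2 ≤ s'.2 + h' := (hC' hx).2.1
    omega
  have hCr' : C' ⊆ ω ∩ KR (XX s') (XX s) s.2 h := fun x hx => by
    have h1 := abs_le.1 (col_om (hC' hx).2)
    exact ⟨(hC' hx).1, rowC' x hx, by omega, by omega⟩
  have ap : |XX p - XX s| ≤ W h := hp'.2
  have ap' : |XX p' - XX s'| ≤ W h := le_trans hp1'.2 (W_mono hh')
  have ap2 := ap'
  have rp : p.2 = s.2 := hp'.1
  have rq : q.2 = s.2 + h := hq'.1
  have rp' : p'.2 = s.2 := by rw [← hs]; exact hp1'.1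
  rw [abs_le] at ap ap'
  have hXXp : XX p = 2 * p.1 + p.2 := rfl
  have hXXp' : XX p' = 2 * p'.1 + p'.2 := rfl
  by_cases hm : (C ∩ C').Nonempty
  · obtain ⟨w, hw1, hw2⟩ := hm
    refine ⟨p', p, rp', ap2, rp, hp'.2, hCr' hp1, ?_⟩
    exact (path_mono hCr' (hc' p' hp1 w hw2)).trans (path_mono hCr (hc w hw1 p hp))
  exfalso
  have hCC : Disjoint C C' := Set.disjoint_iff_inter_eq_empty.2 (Set.not_nonempty_iff_eq_empty.1 hm)
  have hsub : C' ⊆ Rp s.2 h \ Cp C p q := by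
    intro x hx
    have hr := rowC' x hx
    refine ⟨?_, fun hx3 => ?_⟩
    · show s.2 - 1 ≤ x.2 ∧ x.2 ≤ s.2 + h + 1
      omega
    · rcases cp_cases hx3 with h6 | h6 | h6
      · exact Set.disjoint_left.1 hCC h6 hx
      · omega
      · omega
  have hray : ∀ i, i ≤ p'.1 → ((i, p'.2 - 1) : P2) ∉ Cp C p q := by
    intro i hi hiT
    rcases cp_cases hiT with h1 | h1 | h1
    · have h2 : s.2 ≤ ((i, p'.2 - 1) : P2).2 ∧ _ := (hC h1).2.1
      simp only at h2; omega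
    · simp only at h1; omega
    · simp only at h1; omega
  refine hnL b ⟨hb2, rowC' b hb1⟩ (reachL_of (e := (p'.1, p'.2 - 1)) (hsub hb1) ?_ ?_ hray)
  · refine (path_mono hsub (hc' b hb1 p' hp1)).tail ⟨hsub hp1, ⟨?_, hray _ le_rfl⟩, ?_⟩
    · show s.2 - 1 ≤ p'.2 - 1 ∧ p'.2 - 1 ≤ s.2 + h + 1
      omega
    · rw [adj_iff]; simp
  · simp only; omega

theorem geo_ct (s s' : P2) (h h' : ℕ) (B : P2 × ℕ) (hs : s'.2 + h' = s.2 + h) (hh' : h' ≤ h)
    (_hB : InStrip s h B) (hh : 9000 ≤ h) (hss : XX s' + D h ≤ XX s) :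
    EL s h B ∩ A s' h' [B] ⊆ Kt (XX s') (XX s) s.2 h := by
  rintro ω ⟨⟨C, hC, hc, p, ⟨hp, hp'⟩, q, ⟨hq, hq'⟩, _, hnL⟩,
    ⟨C', hC', hc', _, ⟨q', hq1, hq1'⟩, hBB⟩⟩
  obtain ⟨b, hb1, hb2⟩ := hBB B (by simp)
  obtain ⟨hsep, hW1⟩ := win_sep hh
  have h2 : (h' : ℤ) ≤ h := by exact_mod_cast hh'
  have hCr : C ⊆ ω ∩ KR (XX s') (XX s) s.2 h := fun x hx => by
    have h1 := abs_le.1 (col_om (hC hx).2)
    exact ⟨(hC hx).1, (hC hx).2.1, by omega, by omega⟩
  have rowC' : ∀ x ∈ C', s.2 ≤ x.2 ∧ x.2 ≤ s.2 + h := fun x hx => by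
    have h1 : s'.2 ≤ x.2 ∧ x.2 ≤ s'.2 + h' := (hC' hx).2.1
    omega
  have hCr' : C' ⊆ ω ∩ KR (XX s') (XX s) s.2 h := fun x hx => by
    have h1 := abs_le.1 (col_om (hC' hx).2)
    exact ⟨(hC' hx).1, rowC' x hx, by omega, by omega⟩
  have aq : |XX q - XX s| ≤ W h := hq'.2
  have aq' : |XX q' - XX s'| ≤ W h := le_trans hq1'.2 (W_mono hh')
  have aq2 := aq'
  have rp : p.2 = s.2 := hp'.1
  have rq : q.2 = s.2 + h := hq'.1
  have rq' : q'.2 = s.2 + h := by rw [← hs]; exact hq1'.1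
  rw [abs_le] at aq aq'
  have hXXq : XX q = 2 * q.1 + q.2 := rfl
  have hXXq' : XX q' = 2 * q'.1 + q'.2 := rfl
  by_cases hm : (C ∩ C').Nonempty
  · obtain ⟨w, hw1, hw2⟩ := hm
    refine ⟨q', q, rq', aq2, rq, hq'.2, hCr' hq1, ?_⟩
    exact (path_mono hCr' (hc' q' hq1 w hw2)).trans (path_mono hCr (hc w hw1 q hq))
  exfalso
  have hCC : Disjoint C C' := Set.disjoint_iff_inter_eq_empty.2 (Set.not_nonempty_iff_eq_empty.1 hm)
  have hsub : C' ⊆ Rp s.2 h \ Cp C p q := by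
    intro x hx
    have hr := rowC' x hx
    refine ⟨?_, fun hx3 => ?_⟩
    · show s.2 - 1 ≤ x.2 ∧ x.2 ≤ s.2 + h + 1
      omega
    · rcases cp_cases hx3 with h6 | h6 | h6
      · exact Set.disjoint_left.1 hCC h6 hx
      · omega
      · omega
  have hray : ∀ i, i ≤ q'.1 → ((i, q'.2 + 1) : P2) ∉ Cp C p q := by
    intro i hi hiT
    rcases cp_cases hiT with h1 | h1 | h1
    · have h2 : _ ∧ ((i, q'.2 + 1) : P2).2 ≤ s.2 + h := (hC h1).2.1
      simp only at h2; omega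
    · simp only at h1; omega
    · simp only at h1; omega
  refine hnL b ⟨hb2, rowC' b hb1⟩ (reachL_of (e := (q'.1, q'.2 + 1)) (hsub hb1) ?_ ?_ hray)
  · refine (path_mono hsub (hc' b hb1 q' hq1)).tail ⟨hsub hq1, ⟨?_, hray _ le_rfl⟩, ?_⟩
    · show s.2 - 1 ≤ q'.2 + 1 ∧ q'.2 + 1 ≤ s.2 + h + 1
      omega
    · rw [adj_iff]; simp
  · simp only; omega

/-- **the planar inclusions (a) - (d) of doc 1941** -/
theorem geo : Geo where
  a_ := geo_a
  b_ := geo_b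
  cb_ := geo_cb
  ct_ := geo_ct
  d_ := geo_d

end Crest.Agent.R144.Qg356
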