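import Crest.Agent.R144.Qlw_216
import Crest.Agent.R144.Qb_277

/-!
# R144, R1 (doc 1941): macroscopic gluing, `PHd` of `Qlw_216` (helper674)

The deterministic part (`trim`, `meet`, `glue`) is copied from `Qp2_756` (helper756).
* **`phd : PHd`**.
-/

set_option autoImplicit false

noncomputable section

namespace Crest.Agent.R144.Qm674

open Crest.Agent.R144.It844 (P2 adj_iff adj_symm)
open Crest.Agent.R144.Zg349 (StepIn IsConn)
open Crest.Agent.R144.Qlw216
open Crest.ProbabilityR.HexHeights (Adj)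

/-! ### walks -/

theorem pth_refl {S : Set P2} {u : P2} (h : u ∈ S) : Pth S u u := Qa277.Pth.refl h
theorem pth_right {S : Set P2} {u v : P2} (h : Pth S u v) : v ∈ S := Qa277.Pth.right h
theorem pth_symm {S : Set P2} {u v : P2} (h : Pth S u v) : Pth S v u := Qa277.Pth.symm h
theorem pth_trans {S : Set P2} {u v w : P2} (h : Pth S u v) (h' : Pth S v w) : Pth S u w :=
  Qa277.Pth.trans h h'
theorem pth_mono {S T : Set P2} (hST : S ⊆ T) {u v : P2} (h : Pth S u v) : Pth T u v :=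
  Qa277.Pth.mono hST h
theorem pth_step {S : Set P2} {u v : P2} (hu : u ∈ S) (hv : v ∈ S) (h : Adj u v) : Pth S u v :=
  Qa277.Pth.step hu hv h
theorem pth_comp {S : Set P2} {u v : P2} (h : Pth S u v) : Pth {w | Pth S u w} u v :=
  Qa277.Pth.comp h

theorem pth_map {S T : Set P2} (g : P2 → P2) (hg : ∀ u v, Adj u v → Adj (g u) (g v))
    (hS : ∀ w ∈ S, g w ∈ T) {u v : P2} (p : Pth S u v) : Pth T (g u) (g v) :=
  ⟨hS _ p.1, Hex585.path_map g hg hS p.2⟩

/-- up to the first point of the level `hi` -/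
theorem trim_hi {S : Set P2} {f : P2 → ℤ} (hf : ∀ a b, Adj a b → f b ≤ f a + 1) {hi : ℤ} {u v : P2}
    (hp : Pth S u v) (hu : f u ≤ hi) (hv : hi ≤ f v) :
    ∃ q, f q = hi ∧ Pth (S ∩ {w | f w ≤ hi}) u q := by
  obtain ⟨h1, h2⟩ := hp
  induction h2 using Relation.ReflTransGen.head_induction_on with
  | refl => exact ⟨v, le_antisymm hu hv, pth_refl ⟨h1, hu⟩⟩
  | @head a c hac _ ih =>
    rcases eq_or_lt_of_le hu with he | hl
    · exact ⟨a, he, pth_refl ⟨h1, hu⟩⟩
    · have hc : f c ≤ hi := by have := hf a c hac.2.2; omega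
      obtain ⟨q, hq, hpq⟩ := ih hc hac.2.1
      exact ⟨q, hq, pth_trans (pth_step ⟨h1, hu⟩ hpq.1 hac.2.2) hpq⟩

/-- the part of a walk between two levels -/
theorem trim {S : Set P2} {f : P2 → ℤ} (hf : ∀ a b, Adj a b → |f b - f a| ≤ 1) {lo hi : ℤ}
    (hlh : lo ≤ hi) {u v : P2} (hp : Pth S u v) (hu : f u ≤ lo) (hv : hi ≤ f v) :
    ∃ p q, f p = lo ∧ f q = hi ∧ Pth (S ∩ {w | lo ≤ f w ∧ f w ≤ hi}) p q := by
  obtain ⟨q, hq, h1⟩ := trim_hi (fun a b h => by have := hf a b h; rw [abs_le] at this; omega) hp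
    (hu.trans hlh) hv
  obtain ⟨p, hp', h2⟩ := trim_hi (f := fun w => - f w) (hi := -lo)
    (fun a b h => by have := hf a b h; rw [abs_le] at this; omega) (pth_symm h1)
    (by omega) (by omega)
  refine ⟨p, q, by omega, hq, pth_mono ?_ (pth_symm h2)⟩
  rintro w ⟨⟨h3, h4⟩, h5⟩
  simp only [Set.mem_ofPred_eq] at h4 h5
  exact ⟨h3, by omega, h4⟩

theorem adj_row {a b : P2} (h : Adj a b) : |b.2 - a.2| ≤ 1 := by
  rw [adj_iff] at h
  rw [abs_le]
  rcases h with h | h | h | h | h | h <;> subst h <;> simp only <;> omega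

/-- **X1 in component form** -/
theorem meet {S C : Set P2} {t L R : ℤ} (hS : ∀ w ∈ S, 0 ≤ w.2 ∧ w.2 ≤ t) (hCS : C ⊆ S)
    (hC : ∀ w ∈ C, L ≤ XX w ∧ XX w ≤ R) {u v p q : P2} (h1 : Pth S u v) (hu : XX u ≤ L)
    (hv : R ≤ XX v) (h2 : Pth C p q) (hp : p.2 = 0) (hq : q.2 = t) : Pth S u p := by
  obtain ⟨w, hw1, hw2⟩ := Hex585.cross (W := {w | Pth S u w}) (C := {w | Pth C p w}) (a := u)
    (b := v) (p := p) (q := q) (pth_refl h1.1) (pth_comp h1).2 (pth_refl h2.1) (pth_comp h2).2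
    (by
      intro w hw
      have := hS w (pth_right hw)
      omega)
    (by
      intro w hw
      have := hC w (pth_right hw)
      exact ⟨hu.trans this.1, this.2.trans hv⟩)
  exact pth_trans hw1 (pth_symm (pth_mono hCS hw2))

/-! ### the two kinds of pieces -/

/-- the centre of the `k`-th piece -/
def ce (t M k : ℕ) : ℤ := 2 * (t : ℤ) * ((k : ℤ) - M)

/-- horizontal pieces -/
def Hp (t M k : ℕ) : Set (Set P2) := act (tr (ce t M k, 0)) (hard t)
/-- rotated pieces -/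
def Rq (t M k : ℕ) : Set (Set P2) := act (tr (ce t M k + t, 0)) (act ro (hard t))

theorem adj_tr {a u v : P2} (h : Adj u v) : Adj (tr a u) (tr a v) := by
  obtain ⟨u1, u2⟩ := u
  obtain ⟨v1, v2⟩ := v
  obtain ⟨a1, a2⟩ := a
  rw [adj_iff] at h ⊢
  simp only [tr, Prod.mk_add_mk, Prod.mk.injEq] at h ⊢
  omega

theorem adj_ro {u v : P2} (h : Adj u v) : Adj (ro u) (ro v) := by
  obtain ⟨u1, u2⟩ := u
  obtain ⟨v1, v2⟩ := v
  rw [adj_iff] at h ⊢
  simp only [ro, Prod.mk.injEq] at h ⊢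
  omega

theorem adj_sg {u v : P2} (h : Adj u v) : Adj (sg u) (sg v) := by
  obtain ⟨u1, u2⟩ := u
  obtain ⟨v1, v2⟩ := v
  rw [adj_iff] at h ⊢
  simp only [sg, Prod.mk.injEq] at h ⊢
  omega

theorem of_Hp {t M k : ℕ} {ω : Set P2} (h : ω ∈ Hp t M k) :
    ∃ u v, XX u ≤ 2 * ce t M k - 6 * t ∧ 2 * ce t M k + 6 * t ≤ XX v ∧ Pth (ω ∩ Rows 0 t) u v := by
  obtain ⟨u, v, h1, h2, h3⟩ := h
  refine ⟨tr (ce t M k, 0) u, tr (ce t M k, 0) v, ?_, ?_, pth_map _ (fun _ _ => adj_tr) ?_ h3⟩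
  · simp only [XX, tr, Prod.fst_add, Prod.snd_add] at h1 ⊢; omega
  · simp only [XX, tr, Prod.fst_add, Prod.snd_add] at h2 ⊢; omega
  · rintro w ⟨hw1, hw2⟩
    refine ⟨hw1, ?_⟩
    simpa [Rows, tr] using hw2

theorem of_Rq {t M k : ℕ} {ω : Set P2} (h : ω ∈ Rq t M k) :
    ∃ p q, p.2 = 0 ∧ q.2 = (t : ℤ) ∧ Pth (ω ∩ Rows 0 t ∩
      {w | 2 * ce t M k - t ≤ XX w ∧ XX w ≤ 2 * ce t M k + 2 * t}) p q := by
  obtain ⟨u, v, h1, h2, h3⟩ := h
  set g : P2 → P2 := fun w => tr (ce t M k + t, 0) (ro w) with hg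
  have e2 : ∀ w, (g w).2 = w.1 := fun w => by simp [hg, tr, ro]
  have eX : ∀ w, XX (g w) = - w.1 - 2 * w.2 + 2 * ce t M k + 2 * t := fun w => by
    simp only [hg, tr, ro, XX, Prod.fst_add, Prod.snd_add]; ring
  have hr1 := (h3.1).2
  have hr2 := (pth_right h3).2
  simp only [Rows, Set.mem_ofPred_eq, zero_add] at hr1 hr2
  have h4 : Pth (ω ∩ {w | 2 * ce t M k ≤ XX w + w.2 ∧ XX w + w.2 ≤ 2 * ce t M k + 2 * t}) (g u) (g v) := by
    refine pth_map g (fun _ _ h => adj_tr (adj_ro h)) ?_ h3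
    rintro w ⟨hw1, hw2⟩
    refine ⟨hw1, ?_⟩
    simp only [Rows, Set.mem_ofPred_eq, zero_add] at hw2
    simp only [Set.mem_ofPred_eq, eX, e2]
    omega
  obtain ⟨p, q, hp, hq, h5⟩ := trim (f := fun w => w.2) (fun a b h => adj_row h)
    (show (0 : ℤ) ≤ t by omega) h4
    (by simp only [e2]; simp only [XX] at h1; omega)
    (by simp only [e2]; simp only [XX] at h2; omega)
  refine ⟨p, q, hp, hq, pth_mono ?_ h5⟩
  rintro w ⟨⟨hw1, hw2⟩, hw3⟩
  simp only [Set.mem_ofPred_eq] at hw2 hw3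
  refine ⟨⟨hw1, ?_⟩, ?_⟩
  · simp only [Rows, Set.mem_ofPred_eq]; omega
  · simp only [Set.mem_ofPred_eq]; omega

/-- **the gluing** -/
theorem glue {t M n : ℕ} (htn : t ≤ n) (h6 : 6 * n ≤ 4 * t * M + 6 * t) {ω : Set P2}
    (hH : ∀ k ∈ Finset.range (2 * M + 1), ω ∈ Hp t M k)
    (hR : ∀ k ∈ Finset.range (2 * M + 1), ω ∈ Rq t M k) : ω ∈ hard n := by
  have key : ∀ k, k ≤ 2 * M → ∃ u v, XX u ≤ 2 * ce t M 0 - 6 * t ∧ 2 * ce t M k + 6 * t ≤ XX v ∧
      Pth (ω ∩ Rows 0 t) u v := by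
    intro k
    induction k with
    | zero => exact fun _ => of_Hp (hH 0 (Finset.mem_range.2 (by omega)))
    | succ k ih =>
      intro hk
      obtain ⟨u, v, h1, h2, h3⟩ := ih (by omega)
      obtain ⟨p, q, hp, hq, h4⟩ := of_Rq (hR k (Finset.mem_range.2 (by omega)))
      obtain ⟨u', v', h1', h2', h3'⟩ := of_Hp (hH (k + 1) (Finset.mem_range.2 (by omega)))
      have ek : ce t M (k + 1) = ce t M k + 2 * t := by
        unfold ce; push_cast; ring
      have e0 : ce t M 0 ≤ ce t M k := by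
        unfold ce
        have : (0 : ℤ) ≤ 2 * (t : ℤ) * k := by positivity
        push_cast
        nlinarith
      have hS : ∀ w ∈ ω ∩ Rows 0 t, 0 ≤ w.2 ∧ w.2 ≤ (t : ℤ) := by
        rintro w ⟨_, hw⟩
        simpa [Rows] using hw
      have m1 : Pth (ω ∩ Rows 0 t) u p := by
        refine meet (L := 2 * ce t M k - t) (R := 2 * ce t M k + 2 * t) hS
          (fun w hw => hw.1) (fun w hw => hw.2) h3 ?_ ?_ h4 hp hq
        · omega
        · omega
      have m2 : Pth (ω ∩ Rows 0 t) u' p := by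
        refine meet (L := 2 * ce t M k - t) (R := 2 * ce t M k + 2 * t) hS
          (fun w hw => hw.1) (fun w hw => hw.2) h3' ?_ ?_ h4 hp hq
        · rw [ek] at h1'; omega
        · rw [ek] at h2'; omega
      exact ⟨u, v', h1, h2', pth_trans m1 (pth_trans (pth_symm m2) h3')⟩
  obtain ⟨u, v, h1, h2, h3⟩ := key (2 * M) le_rfl
  have e1 : ce t M 0 = -(2 * (t : ℤ) * M) := by unfold ce; push_cast; ring
  have e2 : ce t M (2 * M) = 2 * (t : ℤ) * M := by unfold ce; push_cast; ring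
  have h6' : 6 * (n : ℤ) ≤ 4 * (t : ℤ) * M + 6 * t := by exact_mod_cast h6
  refine ⟨u, v, ?_, ?_, pth_mono ?_ h3⟩
  · rw [e1] at h1; linarith
  · rw [e2] at h2; linarith
  · rintro w ⟨hw1, hw2⟩
    refine ⟨hw1, ?_⟩
    simp only [Rows, Set.mem_ofPred_eq] at hw2 ⊢
    omega

/-! ### the placements -/

/-- the placement number `i` (first `4 k + 1` indices: horizontal pieces, the others: rotated) -/
def gg (t M k i : ℕ) : P2 → P2 :=
  if i < 4 * k + 1 then tr (ce t M (min i (2 * M)), 0)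
  else fun v => tr (ce t M (min (i - (4 * k + 1)) (2 * M)) + t, 0) (ro v)

/-- **macroscopic gluing** -/
theorem phd : PHd := by
  intro k
  refine ⟨2 * (4 * k + 1), ?_⟩
  intro n t ht hn hnk
  set M : ℕ := 2 * (n / t) with hM
  have ht0 : 0 < t := by omega
  have hdiv1 : t * (n / t) ≤ n := Nat.mul_div_le n t
  have hdiv2 : n < t * (n / t + 1) := Nat.lt_mul_div_succ n ht0
  have hMk : n / t ≤ k := by
    rw [Nat.div_le_iff_le_mul_add_pred ht0]
    nlinarith [Nat.mul_comm k t]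
  have hM1 : M ≤ 2 * k := by omega
  have h6 : 6 * n ≤ 4 * t * M + 6 * t := by
    rw [hM]
    nlinarith
  have hce : ∀ j, j ≤ 2 * M → |ce t M j| ≤ 4 * n := by
    intro j hj
    have e3 : (2 * (t : ℤ)) * M ≤ 4 * n := by
      rw [hM]
      have : (t : ℤ) * (n / t : ℕ) ≤ n := by exact_mod_cast hdiv1
      push_cast
      push_cast at this
      nlinarith
    have e4 : |(j : ℤ) - M| ≤ M := by rw [abs_le]; omega
    unfold ce
    rw [abs_mul, abs_of_nonneg (by positivity : (0 : ℤ) ≤ 2 * (t : ℤ))]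
    exact (mul_le_mul_of_nonneg_left e4 (by positivity)).trans e3
  refine ⟨fun i => gg t M k i, ?_, ?_⟩
  · rintro ⟨i, hi⟩
    by_cases h : i < 4 * k + 1
    · have := hce (min i (2 * M)) (min_le_right _ _)
      refine ⟨0, by norm_num, 0, by norm_num, (ce t M (min i (2 * M)), 0), ?_, by simp, ?_⟩
      · push_cast
        omega
      · intro v
        simp only [gg, h, if_true]
        rfl
    · have := hce (min (i - (4 * k + 1)) (2 * M)) (min_le_right _ _)
      refine ⟨1, by norm_num, 0, by norm_num, (ce t M (min (i - (4 * k + 1)) (2 * M)) + t, 0), ?_,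
        by simp, ?_⟩
      · push_cast
        rw [abs_le] at this ⊢
        omega
      · intro v
        simp only [gg, h, if_false]
        rfl
  · intro S hS
    refine glue (t := t) (M := M) (by omega) h6 ?_ ?_
    · intro j hj
      rw [Finset.mem_range] at hj
      have h1 := hS ⟨j, by omega⟩
      have h2 : j < 4 * k + 1 := by omega
      simp only [gg, h2, if_true, min_eq_left (by omega : j ≤ 2 * M)] at h1
      exact h1
    · intro j hj
      rw [Finset.mem_range] at hj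
      have h1 := hS ⟨j + (4 * k + 1), by omega⟩
      have h2 : ¬ (j + (4 * k + 1) < 4 * k + 1) := by omega
      simp only [gg, h2, if_false, Nat.add_sub_cancel, min_eq_left (by omega : j ≤ 2 * M)] at h1
      exact h1

end Crest.Agent.R144.Qm674
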