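import Crest.Agent.R144.Qca_216
import Crest.Agent.R144.Qg1_356
import Crest.Agent.R144.Qs3_356
import Crest.Agent.R144.Qd_277
import Crest.Agent.R144.Qm1_674

/-!
# R144, QRSW (doc 1941): the cascade and the final theorem `QF` (helper216)
-/

set_option autoImplicit false

noncomputable section

namespace Crest.Agent.R144.Qcb216

open Crest.Agent.R144.It844 (P2 adj_iff)
open Crest.Agent.R144.Rsw867 (ball mem_ball path_mono)
open Crest.Agent.R144.Qlw216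
open Crest.Agent.R144.Qgp216
open Crest.Agent.R144.Qst216
open Crest.Agent.R144.Qsp216
open Crest.Agent.R144.Qca216
open Crest.Agent.R144.Qfd216

theorem inv_mono {L : Lw} {N : ℕ} {ρ ρ' : ℝ} (h : Inv L N ρ) (hρ : ρ ≤ ρ') : Inv L N ρ' :=
  ⟨fun t h1 h2 E hE hl => (h.tr t h1 h2 E hE hl).trans hρ, fun E hE hl => (h.ro E hE hl).trans hρ,
    fun E hE hl => (h.sg E hE hl).trans hρ⟩

theorem rig_mono {L : Lw} {n : ℕ} {a a' ε ε' : ℝ} (h : Rig L n a ε) (ha : a' ≤ a) (hε : ε ≤ ε') :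
    Rig L n a' ε' :=
  ⟨fun x y h1 h2 h3 => (h.kb x y h1 h2 h3).trans (by linarith),
    fun x y h1 h2 h3 => (h.kt x y h1 h2 h3).trans (by linarith), h.v.trans hε⟩

/-- macroscopic gluing, probability -/
theorem macro_hard (hP : PHd) (k : ℕ) {c0 : ℝ} (hc0 : 0 < c0) : ∃ c1 : ℝ, 0 < c1 ∧ c1 ≤ c0 ∧
    ∀ (L : Lw) (N n t : ℕ) (ρ : ℝ), Inv L N ρ → 0 ≤ ρ → ρ ≤ c1 → 100 * n ≤ N → 9 ≤ t →
      18 * t ≤ n → n ≤ k * t → L.p (hard n) ≤ 1 - c0 → L.p (hard t) ≤ 1 - c1 := by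
  obtain ⟨M, hM⟩ := hP k
  refine ⟨c0 / (5 * (M + 1)), by positivity, ?_, ?_⟩
  · rw [div_le_iff₀ (by positivity)]
    have : (0 : ℝ) ≤ M := Nat.cast_nonneg M
    nlinarith
  · intro L N n t ρ hI hρ hρ1 hN ht h1 h2 h3
    obtain ⟨g, g1, g2⟩ := hM n t ht h1 h2
    have e1 := p_inter_ge L (Finset.univ : Finset (Fin M)) (fun i => act (g i) (hard t))
    have e2 : (⋂ i ∈ (Finset.univ : Finset (Fin M)), act (g i) (hard t)) ⊆ hard n := by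
      intro ω hω
      refine g2 ω fun i => ?_
      exact Set.mem_iInter₂.1 hω i (Finset.mem_univ i)
    have e3 := p_mono L e2
    have e4 : ∑ i : Fin M, L.p (act (g i) (hard t))ᶜ ≤ M * (1 - L.p (hard t) + 4 * ρ) := by
      have h9 : ∀ i ∈ (Finset.univ : Finset (Fin M)), L.p (act (g i) (hard t))ᶜ ≤
          1 - L.p (hard t) + 4 * ρ := by
        intro i _
        rw [p_compl]
        have h10 := pl_hard hI hρ (t := t) (by omega) (by omega) (isPl_mono (by omega) (g1 i))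
        linarith [(abs_le.1 h10).1]
      have h10 := Finset.sum_le_sum h9
      rw [Finset.sum_const, Finset.card_univ, Fintype.card_fin, nsmul_eq_mul] at h10
      exact h10
    have e5 := p_le_one L (hard t)
    have e6 : c0 / (5 * (M + 1)) = c0 / (M + 1) / 5 := by field_simp
    have e7 : c0 / (M + 1) ≤ 1 - L.p (hard t) + 4 * ρ := by
      rw [div_le_iff₀ (by positivity)]
      nlinarith
    rw [e6] at hρ1 ⊢
    linarith

/-- one step upwards with the uniform constants -/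
theorem up {L : Lw} {N i r : ℕ} {ρ a ε a' ε' : ℝ} (hI : Inv L N ρ) (hρ : 0 ≤ ρ) (hi : 3 ≤ i)
    (hN : 100 * 180 ^ (i + 1) ≤ N) (R1 : Rig L (10 * 180 ^ i) a ε) (R2 : Rig L (180 ^ (i + 1)) a' ε')
    (ha : 24 * ρ ≤ a) (ha0 : 0 < a) (haa : a ≤ a') (ha1 : a' ≤ 1) (hεε : ε' ≤ ε)
    (h3 : 18 / a ^ 2 * (ε + (6 / a ^ 2) ^ 2 * ε + 4 * ρ) ≤ (a / 6) ^ 2) (hε : 0 ≤ ε)
    (hH : Hit L r (180 ^ i) (a / 4)) : Hit L r (180 ^ (i + 1)) (6 / a' ^ 2 * ε') := by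
  have e1 : (180 : ℕ) ^ (i + 1) = 180 * 180 ^ i := by rw [pow_succ]; ring
  rw [e1] at hN R2 ⊢
  obtain ⟨j, rfl⟩ : ∃ j, i = j + 3 := ⟨i - 3, by omega⟩
  have hj : (180 : ℕ) ^ (j + 3) = 4 * (45 * 180 ^ 2 * 180 ^ j) := by
    rw [pow_add]
    ring
  have hj1 : 1 ≤ 180 ^ j := Nat.one_le_pow _ _ (by norm_num)
  refine step Crest.Agent.R144.Qg356.geo hI hρ hj (by omega) hN R1 R2 ha ha0 (by linarith)
    (by linarith) (by linarith) ha1 hH (by linarith) ?_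
  have h4 : 18 / a' ^ 2 ≤ 18 / a ^ 2 := by
    apply div_le_div_of_nonneg_left (by norm_num) (by positivity)
    exact pow_le_pow_left₀ ha0.le haa 2
  have h5 : (a / 6) ^ 2 ≤ (a' / 6) ^ 2 := pow_le_pow_left₀ (by positivity) (by linarith) 2
  refine le_trans ?_ (h3.trans h5)
  have h6 : 0 ≤ ε' + (6 / a ^ 2) ^ 2 * ε + 4 * ρ := by
    have := R2.v
    have h7 := L.nonneg (A 0 (180 * 180 ^ (j + 3)) [])ᶜ
    have h8 : 0 ≤ (6 / a ^ 2) ^ 2 * ε := by positivity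
    linarith
  calc 18 / a' ^ 2 * (ε' + (6 / a ^ 2) ^ 2 * ε + 4 * ρ)
      ≤ 18 / a ^ 2 * (ε' + (6 / a ^ 2) ^ 2 * ε + 4 * ρ) := mul_le_mul_of_nonneg_right h4 h6
    _ ≤ 18 / a ^ 2 * (ε + (6 / a ^ 2) ^ 2 * ε + 4 * ρ) :=
        mul_le_mul_of_nonneg_left (by linarith) (by positivity)

/-- from the base size `180 ^ i` up to `180 ^ J` -/
theorem chain {L : Lw} {N i J : ℕ} {ρ a ε a0 ε0 : ℝ} (hI : Inv L N ρ) (hρ : 0 ≤ ρ) (hi : 3 ≤ i)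
    (hiJ : i < J) (hN : 100 * 180 ^ J ≤ N)
    (hC : ∀ i', i ≤ i' → i' < J → Rig L (180 ^ i') a ε ∧ Rig L (10 * 180 ^ i') a ε)
    (hT : Rig L (180 ^ J) a0 ε0)
    (ha : 24 * ρ ≤ a) (ha0 : 0 < a) (haa : a ≤ a0) (ha1 : a0 ≤ 1) (hεε : ε0 ≤ ε) (hε : 0 ≤ ε)
    (h3 : 18 / a ^ 2 * (ε + (6 / a ^ 2) ^ 2 * ε + 4 * ρ) ≤ (a / 6) ^ 2)
    (h4 : 6 / a ^ 2 * ε ≤ a / 4) :
    Hit L (180 ^ (i + 1)) (180 ^ J) (6 / a0 ^ 2 * ε0) := by
  have hpos : ∀ j : ℕ, 3 ≤ j → 9000 ≤ 180 ^ j := fun j hj =>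
    le_trans (by norm_num) (Nat.pow_le_pow_right (by norm_num) hj : 180 ^ 3 ≤ 180 ^ j)
  have hεa : ε ≤ a / 4 := by
    have h5 : 1 ≤ 6 / a ^ 2 := by
      rw [le_div_iff₀ (by positivity)]
      nlinarith
    nlinarith
  have hw : ∀ m, i + m < J → Hit L (180 ^ (i + 1)) (180 ^ (i + m)) (a / 4) := by
    intro m
    induction m with
    | zero =>
      intro _
      refine (hit_base (hC i le_rfl hiJ).1 (hpos i hi) ?_).mono hεa
      rw [pow_succ]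
      have : 1 ≤ 180 ^ i := Nat.one_le_pow _ _ (by norm_num)
      omega
    | succ m ih =>
      intro hm
      have h5 := ih (by omega)
      have h6 := hC (i + m) (by omega) (by omega)
      have h7 := hC (i + (m + 1)) (by omega) hm
      refine (up hI hρ (by omega) ?_ h6.2 h7.1 ha ha0 le_rfl (by linarith) le_rfl h3 hε h5).mono h4
      refine le_trans (Nat.mul_le_mul_left 100 ?_) hN
      exact Nat.pow_le_pow_right (by norm_num) (by omega)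
  obtain ⟨j, rfl⟩ : ∃ j, J = j + 1 := ⟨J - 1, by omega⟩
  obtain ⟨m, rfl⟩ : ∃ m, j = i + m := ⟨j - i, by omega⟩
  exact up hI hρ (by omega) hN (hC (i + m) (by omega) (by omega)).2 hT ha ha0 haa ha1 hεε h3 hε
    (hw m (by omega))

/-- downward step of the cascade -/
theorem down {L : Lw} {N i J : ℕ} {ρ a ε a0 ε0 x e : ℝ} {M : ℕ} (hI : Inv L N ρ) (hρ : 0 ≤ ρ)
    (hi : 3 ≤ i) (hiJ : i + 3 ≤ J) (hN : 100 * 180 ^ J ≤ N)
    (hC : ∀ i', i + 1 ≤ i' → i' < J → Rig L (180 ^ i') a ε ∧ Rig L (10 * 180 ^ i') a ε)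
    (hT : Rig L (180 ^ J) a0 ε0)
    (ha : 24 * ρ ≤ a) (ha0 : 0 < a) (haa : a ≤ a0) (ha1 : a0 ≤ 1) (hεε : ε0 ≤ ε) (hε : 0 ≤ ε)
    (h3 : 18 / a ^ 2 * (ε + (6 / a ^ 2) ^ 2 * ε + 4 * ρ) ≤ (a / 6) ^ 2)
    (h4 : 6 / a ^ 2 * ε ≤ a / 4) (hM : (2 * 129600 + 3) ^ 2 ≤ M)
    (hx0 : 0 < x) (hx1 : x ≤ 1) (hu : 6 / a0 ^ 2 * ε0 < x ^ M) (he : 0 < e) (he1 : 8 * ρ ≤ e)
    (he2 : x + 4 * ρ < (e / 2) ^ 3) (hs : x + 6 / a0 ^ 2 * ε0 + 16 * ρ ≤ a0 / 4)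
    (hx : x + 4 * ρ ≤ a0 / 2) {q : ℕ} (hq : q = 1 ∨ q = 10) :
    L.p (hard (q * 180 ^ i)) ≤ 1 - a0 / 4 ∧ L.p (rhard (q * 180 ^ i)) ≤ e := by
  have hH := chain (i := i + 1) hI hρ (by omega) (by omega) hN hC hT ha ha0 haa ha1 hεε hε h3 h4
  obtain ⟨j, rfl⟩ : ∃ j, i = j + 3 := ⟨i - 3, by omega⟩
  have hj : (180 : ℕ) ^ (j + 3) = 4 * (45 * 180 ^ 2 * 180 ^ j) := by
    rw [pow_add]
    ring
  have hj2 : (180 : ℕ) ^ (j + 3 + 1 + 1) = 180 ^ 2 * 180 ^ (j + 3) := by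
    rw [pow_succ, pow_succ]
    ring
  have hj3 : 180 ^ 3 * 180 ^ (j + 3) ≤ 180 ^ J := by
    rw [← pow_add]
    exact Nat.pow_le_pow_right (by norm_num) (by omega)
  have hj1 : 1 ≤ 180 ^ j := Nat.one_le_pow _ _ (by norm_num)
  set T : ℕ := 180 ^ (j + 3) with hTdef
  set y : ℕ := 45 * 180 ^ 2 * 180 ^ j with hy
  have hy1 : 1 ≤ y := by
    rw [hy]
    exact Nat.one_le_iff_ne_zero.2 (by positivity)
  have hq1 : 1 ≤ q := by omega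
  have hc : ∀ z, ∃ Z : Finset P2, Z.card ≤ (2 * (180 ^ (j + 3 + 1 + 1) / (q * y)) + 3) ^ 2 ∧
      (∀ z' ∈ Z, |z'.1 - z.1| ≤ ((180 ^ (j + 3 + 1 + 1) : ℕ) : ℤ) + ((q * y : ℕ) : ℤ) ∧
        |z'.2 - z.2| ≤ ((180 ^ (j + 3 + 1 + 1) : ℕ) : ℤ) + ((q * y : ℕ) : ℤ)) ∧
      ball z (180 ^ (j + 3 + 1 + 1)) ⊆ Z.biUnion fun z' => ball z' (q * y) := fun z =>
    Crest.Agent.R144.Cov356.cov1 z _ _ (Nat.mul_pos hq1 hy1)
  choose Z hZ1 hZ2 hZ3 using hc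
  have hy2 : y ≤ q * y := Nat.le_mul_of_pos_left y hq1
  have hdiv : 180 ^ (j + 3 + 1 + 1) / (q * y) ≤ 129600 := by
    apply Nat.div_le_of_le_mul
    rw [hj2, hj]
    calc 180 ^ 2 * (4 * y) = y * 129600 := by ring
      _ ≤ q * y * 129600 := Nat.mul_le_mul_right _ hy2
  have hZc : ∀ z, (Z z).card ≤ M := fun z =>
    (hZ1 z).trans (le_trans (Nat.pow_le_pow_left (by omega) 2) hM)
  have hqT : q * T ≤ 10 * T := Nat.mul_le_mul_right _ (by omega)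
  have hqy : q * y ≤ 10 * y := Nat.mul_le_mul_right _ (by omega)
  have hqTy : q * T = 4 * (q * y) := by rw [hj]; ring
  have hN3 : 9000 ≤ 180 ^ J := by omega
  refine stepII Crest.Agent.R144.Qg356.geo Crest.Agent.R144.Qs356.ps2 hI hρ hT hN3 hN (by linarith)
    (by linarith) ha1 hH ?_ (r' := q * y) ?_ (by omega) ?_ ?_ hZc hZ2 hZ3 hx0 hx1 hu hx he he1 he2 hs
  · rw [hj2]
    calc 180 * (180 ^ 2 * T) = 180 ^ 3 * T := by ring
      _ ≤ _ := hj3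
  · rw [hj2, hj]
    omega
  · omega
  · omega

end Crest.Agent.R144.Qcb216
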