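import Crest.Agent.R144.Qcb_216

/-!
# R144, QRSW (doc 1941): the final theorem `qf : QF` (helper216)
-/

set_option autoImplicit false

noncomputable section

namespace Crest.Agent.R144.Qcc216

open Crest.Agent.R144.It844 (P2 adj_iff)
open Crest.Agent.R144.Qlw216
open Crest.Agent.R144.Qgp216
open Crest.Agent.R144.Qst216
open Crest.Agent.R144.Qsp216
open Crest.Agent.R144.Qca216
open Crest.Agent.R144.Qcb216
open Crest.Agent.R144.Qfd216

/-- the whole cascade, constants given -/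
theorem cascade {L : Lw} {N J : ℕ} {ρ a ε a0 ε0 x e : ℝ} {M : ℕ} (hI : Inv L N ρ) (hρ : 0 ≤ ρ)
    (hJ : 6 ≤ J) (hN : 100 * 180 ^ J ≤ N)
    (hC : ∀ i', J ≤ i' + 2 → i' < J → Rig L (180 ^ i') a ε ∧ Rig L (10 * 180 ^ i') a ε)
    (hT : Rig L (180 ^ J) a0 ε0)
    (hS : ∀ t : ℕ, 100000 ≤ t → t ≤ 180 ^ J → L.p (hard t) ≤ 1 - a0 / 4 → L.p (rhard t) ≤ e →
      Rig L t a ε)
    (ha : 24 * ρ ≤ a) (ha0 : 0 < a) (haa : a ≤ a0) (ha1 : a0 ≤ 1) (hεε : ε0 ≤ ε) (hε : 0 ≤ ε)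
    (h3 : 18 / a ^ 2 * (ε + (6 / a ^ 2) ^ 2 * ε + 4 * ρ) ≤ (a / 6) ^ 2)
    (h4 : 6 / a ^ 2 * ε ≤ a / 4) (hM : (2 * 129600 + 3) ^ 2 ≤ M)
    (hM' : (2 * 180 ^ 4 + 1) ^ 2 ≤ M)
    (hx0 : 0 < x) (hx1 : x ≤ 1) (hu : 6 / a0 ^ 2 * ε0 < x ^ M) (he : 0 < e) (he1 : 8 * ρ ≤ e)
    (he2 : x + 4 * ρ < (e / 2) ^ 3) (hs : x + 6 / a0 ^ 2 * ε0 + 16 * ρ ≤ a0 / 4)
    (hx : x + 4 * ρ ≤ a0 / 2) : False := by
  -- the cascade
  have hall : ∀ m, m + 5 ≤ J → ∀ i', J ≤ i' + 2 + m → i' < J →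
      Rig L (180 ^ i') a ε ∧ Rig L (10 * 180 ^ i') a ε := by
    intro m
    induction m with
    | zero =>
      intro _ i' h1 h2
      exact hC i' (by omega) h2
    | succ m ih =>
      intro hm i' h1 h2
      rcases Nat.lt_or_ge J (i' + 3 + m) with h5 | h5
      · exact ih (by omega) i' (by omega) h2
      · have hC' : ∀ i'', i' + 1 ≤ i'' → i'' < J →
            Rig L (180 ^ i'') a ε ∧ Rig L (10 * 180 ^ i'') a ε := fun i'' h6 h7 =>
          ih (by omega) i'' (by omega) h7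
        have hd := fun (q : ℕ) (hq : q = 1 ∨ q = 10) => down (i := i') hI hρ (by omega) (by omega) hN
          hC' hT ha ha0 haa ha1 hεε hε h3 h4 hM hx0 hx1 hu he he1 he2 hs hx hq
        have hb : (180 : ℕ) ^ 3 ≤ 180 ^ i' := Nat.pow_le_pow_right (by norm_num) (by omega)
        have hb3 : (180 : ℕ) ^ i' * 180 ≤ 180 ^ J := by
          rw [← pow_succ]
          exact Nat.pow_le_pow_right (by norm_num) (by omega)
        have hb2 : (180 : ℕ) ^ 3 = 5832000 := by norm_num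
        constructor
        · obtain ⟨h8, h9⟩ := hd 1 (Or.inl rfl)
          rw [one_mul] at h8 h9
          exact hS _ (by omega) (by omega) h8 h9
        · obtain ⟨h8, h9⟩ := hd 10 (Or.inr rfl)
          exact hS _ (by omega) (by omega) h8 h9
  obtain ⟨m, rfl⟩ : ∃ m, J = m + 5 := ⟨J - 5, by omega⟩
  have hC3 : ∀ i', 3 ≤ i' → i' < m + 5 → Rig L (180 ^ i') a ε ∧ Rig L (10 * 180 ^ i') a ε :=
    fun i' h1 h2 => hall m le_rfl i' (by omega) h2
  have hH := chain (i := 3) hI hρ le_rfl (by omega) hN hC3 hT ha ha0 haa ha1 hεε hε h3 h4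
  have h5 : (180 : ℕ) ^ (m + 5) = 180 ^ m * 180 ^ 5 := pow_add _ _ _
  have h6 : 1 ≤ 180 ^ m := Nat.one_le_pow _ _ (by norm_num)
  have h7 : 180 * (180 : ℕ) ^ (3 + 1) ≤ 180 ^ (m + 5) := by
    rw [h5]
    calc 180 * (180 : ℕ) ^ (3 + 1) = 1 * 180 ^ 5 := by norm_num
      _ ≤ _ := Nat.mul_le_mul_right _ h6
  have h8 : 9000 ≤ 180 ^ (m + 5) := by
    rw [h5]
    calc 9000 ≤ 1 * 180 ^ 5 := by norm_num
      _ ≤ _ := Nat.mul_le_mul_right _ h6
  generalize hr : (180 : ℕ) ^ (3 + 1) = r at hH h7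
  have hM'' : (2 * r + 1) ^ 2 ≤ M := by rw [← hr]; exact hM'
  exact end_ Crest.Agent.R144.Qg356.geo hI hρ hT h8 hN (by linarith) (by linarith) ha1 hH h7 hx0 hx1
    (hu.trans_le (pow_le_pow_of_le_one hx0.le hx1 hM'')) hx hs

/-- **the single-scale RSW theorem over `Lw`** -/
theorem qf : QF := by
  intro c0 hc0
  obtain ⟨c1, hc1, hc10, hmac⟩ := macro_hard Crest.Agent.R144.Qm674.phd (180 ^ 2) hc0
  obtain ⟨am, ham, hP1⟩ := Crest.Agent.R144.Qa277.p32 c1 hc1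
  set a0 : ℝ := min am 1 with ha0def
  have ha0 : 0 < a0 := lt_min ham one_pos
  have ha01 : a0 ≤ 1 := min_le_right _ _
  obtain ⟨as, has, hP2⟩ := Crest.Agent.R144.Qa277.p32 (a0 / 4) (by positivity)
  set a : ℝ := min a0 as with hadef
  have ha : 0 < a := lt_min ha0 has
  have haa : a ≤ a0 := min_le_left _ _
  have ha1 : a ≤ 1 := haa.trans ha01
  set ε : ℝ := a ^ 8 / 50000 with hεdef
  have hε : 0 < ε := by positivity
  obtain ⟨e1, he1, hP2'⟩ := hP2 ε hε
  set x : ℝ := min (a0 / 32) ((e1 / 2) ^ 3 / 4) with hxdef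
  have hx0 : 0 < x := lt_min (by positivity) (by positivity)
  have hxa : x ≤ a0 / 32 := min_le_left _ _
  have hxe : x ≤ (e1 / 2) ^ 3 / 4 := min_le_right _ _
  have hx1 : x ≤ 1 := by linarith
  obtain ⟨M, hM, hM'⟩ : ∃ M : ℕ, (2 * 129600 + 3) ^ 2 ≤ M ∧ (2 * 180 ^ 4 + 1) ^ 2 ≤ M :=
    ⟨_, le_max_left _ _, le_max_right _ _⟩
  have hM1 : 1 ≤ M := le_trans (by norm_num) hM
  have hxM : 0 < x ^ M := pow_pos hx0 M
  have hxM1 : x ^ M ≤ x := by
    calc x ^ M ≤ x ^ 1 := pow_le_pow_of_le_one hx0.le hx1 hM1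
      _ = x := pow_one x
  set ε0 : ℝ := min ε (a0 ^ 2 * x ^ M / 12) with hε0def
  have hε0 : 0 < ε0 := lt_min hε (by positivity)
  have hεε : ε0 ≤ ε := min_le_left _ _
  have hε0x : 6 / a0 ^ 2 * ε0 ≤ x ^ M / 2 := by
    have h1 : ε0 ≤ a0 ^ 2 * x ^ M / 12 := min_le_right _ _
    calc 6 / a0 ^ 2 * ε0 ≤ 6 / a0 ^ 2 * (a0 ^ 2 * x ^ M / 12) :=
          mul_le_mul_of_nonneg_left h1 (by positivity)
      _ = x ^ M / 2 := by field_simp; ring
  obtain ⟨e0, he0, hP1'⟩ := hP1 ε0 hε0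
  set η : ℝ := min (min (min e0 e1) (min c1 (a / 24))) (min (min (a ^ 4 / 5184) ((e1 / 2) ^ 3 / 16))
    (min (a0 / 128) (e1 / 8))) with hηdef
  have hη1 : η ≤ e0 := (min_le_left _ _).trans ((min_le_left _ _).trans (min_le_left _ _))
  have hη2 : η ≤ e1 := (min_le_left _ _).trans ((min_le_left _ _).trans (min_le_right _ _))
  have hη3 : η ≤ c1 := (min_le_left _ _).trans ((min_le_right _ _).trans (min_le_left _ _))
  have hη4 : η ≤ a / 24 := (min_le_left _ _).trans ((min_le_right _ _).trans (min_le_right _ _))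
  have hη5 : η ≤ a ^ 4 / 5184 := (min_le_right _ _).trans ((min_le_left _ _).trans (min_le_left _ _))
  have hη6 : η ≤ (e1 / 2) ^ 3 / 16 :=
    (min_le_right _ _).trans ((min_le_left _ _).trans (min_le_right _ _))
  have hη7 : η ≤ a0 / 128 := (min_le_right _ _).trans ((min_le_right _ _).trans (min_le_left _ _))
  have hη8 : η ≤ e1 / 8 := (min_le_right _ _).trans ((min_le_right _ _).trans (min_le_right _ _))
  have hη : 0 < η := by
    refine lt_min (lt_min (lt_min he0 he1) (lt_min hc1 (by positivity)))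
      (lt_min (lt_min (by positivity) (by positivity)) (lt_min (by positivity) (by positivity)))
  refine ⟨η, hη, 180 ^ 2, 6, ?_⟩
  intro J hJ L N hI hN hrh
  by_contra hcon
  push Not at hcon
  set n : ℕ := 180 ^ J with hn
  have hN' : 100 * n ≤ N := by omega
  have hpow : ∀ i, 3 ≤ i → 100000 ≤ 180 ^ i := fun i hi =>
    le_trans (by norm_num) (Nat.pow_le_pow_right (by norm_num) hi : 180 ^ 3 ≤ 180 ^ i)
  have hT' : Rig L n am ε0 :=
    hP1' L N n (inv_mono hI hη1) (hpow J (by omega)) hN' (by linarith) ((hrh n (by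
      exact Nat.le_mul_of_pos_left _ (by norm_num)) le_rfl).trans hη1)
  have hmacR : ∀ t, 100000 ≤ t → 18 * t ≤ n → n ≤ 180 ^ 2 * t → Rig L t am ε0 := by
    intro t h1 h2 h3
    refine hP1' L N t (inv_mono hI hη1) h1 (by omega) ?_ ((hrh t h3 (by omega)).trans hη1)
    exact hmac L N n t η hI hη.le hη3 hN' (by omega) h2 h3 hcon.le
  have hC : ∀ i', J ≤ i' + 2 → i' < J → Rig L (180 ^ i') a ε ∧ Rig L (10 * 180 ^ i') a ε := by
    intro i' h1 h2
    have h3 : 180 ^ i' * 180 ≤ n := by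
      rw [← pow_succ]
      exact Nat.pow_le_pow_right (by norm_num) (by omega)
    have h4 : n ≤ 180 ^ 2 * 180 ^ i' := by
      rw [← pow_add]
      exact Nat.pow_le_pow_right (by norm_num) (by omega)
    have h5 := hpow i' (by omega)
    have h6 : a ≤ am := haa.trans (min_le_left _ _)
    exact ⟨rig_mono (hmacR _ h5 (by omega) h4) h6 hεε,
      rig_mono (hmacR _ (by omega) (by omega) (by omega)) h6 hεε⟩
  refine cascade (a := a) (ε := ε) (a0 := a0) (ε0 := ε0) (x := x) (e := e1) (M := M) hI hη.le hJ hN'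
    hC (rig_mono hT' (min_le_left _ _) le_rfl) ?_ (by linarith) ha haa ha01 hεε hε.le ?_ ?_ hM hM'
    hx0 hx1 (by linarith) he1 (by linarith) ?_ (by linarith) (by linarith)
  · intro t h1 h2 h3 h4
    exact rig_mono (hP2' L N t (inv_mono hI hη2) h1 (by omega) h3 h4) (min_le_right _ _) le_rfl
  · -- the quadratic condition
    have h1 : 18 / a ^ 2 * (ε + (6 / a ^ 2) ^ 2 * ε + 4 * η) ≤
        18 / a ^ 2 * (37 / a ^ 4 * ε + 4 * (a ^ 4 / 5184)) := by
      apply mul_le_mul_of_nonneg_left _ (by positivity)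
      have h2 : ε ≤ 1 / a ^ 4 * ε := by
        have : 1 ≤ 1 / a ^ 4 := by
          rw [le_div_iff₀ (by positivity), one_mul]
          exact pow_le_one₀ ha.le ha1
        nlinarith
      have h3 : (6 / a ^ 2) ^ 2 * ε = 36 / a ^ 4 * ε := by
        field_simp
        ring
      have h4 : 37 / a ^ 4 * ε = 1 / a ^ 4 * ε + 36 / a ^ 4 * ε := by
        field_simp
        ring
      rw [h3, h4]
      linarith
    have h5 : 18 / a ^ 2 * (37 / a ^ 4 * ε + 4 * (a ^ 4 / 5184)) =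
        a ^ 2 * (666 / 50000 + 1 / 72) := by
      rw [hεdef]
      field_simp
      ring
    rw [h5] at h1
    refine h1.trans ?_
    have : (a / 6) ^ 2 = a ^ 2 * (1 / 36) := by ring
    rw [this]
    exact mul_le_mul_of_nonneg_left (by norm_num) (by positivity)
  · have h1 : 6 / a ^ 2 * ε = a * (6 * a ^ 5 / 50000) := by
      rw [hεdef]
      field_simp
    rw [h1]
    have h2 : a ^ 5 ≤ 1 := pow_le_one₀ ha.le ha1
    nlinarith
  · have : (0 : ℝ) < (e1 / 2) ^ 3 := by positivity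
    linarith

end Crest.Agent.R144.Qcc216
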