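import Crest.Agent.R144.Qp1_756

/-!
# R144, R1 / R2: the mixture as an almost invariant, positively associated law of colourings (helper756)

* `Gd` : closed triangles have a constant first colour (true for all configurations of positive weight);
* `Col B G` : `B : Cfg → Set P2` is increasing and equivariant; `G σ τ = σ` (sites) or `τ` (triangles).
  Instances `col_plusS` (`s1 = +`), `col_plusC` (`pC`), `col_nMin` (`¬ mC`);
* `mx_inv` : `|mx (f ∘ actC σ τ) - mx f| ≤ C / (b - a)`;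
* `lp` : the law of `B` under the mixture; `lp_inv`; `lp_le`, `le_lp` : comparison with
  `Pr c (hexB ..)` for upper sets.
-/

set_option autoImplicit false
set_option linter.unusedVariables false

noncomputable section

namespace Crest.Agent.R144.Qp756

open Finset
open Crest.Agent.R144.It844 (P2 adj_iff)
open Crest.Agent.R144.Zg349 Crest.Agent.R144.Zd349 Crest.Agent.R144.Zm349 Crest.Agent.R144.Ze349
open Crest.Agent.R144.Zf349
open Crest.Agent.R144.Pst967 (hexB mem_hexB hexB_mono conn_hexB stepIn_symm path_symm)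
open Crest.Agent.R144.Rsw867 Crest.Agent.R144.Rw146
open Crest.ProbabilityR.HexHeights (Adj)

/-! ### configurations of positive weight -/

/-- closed triangles have a constant first colour -/
def Gd (ω : Cfg) : Prop := ∀ t, ω.2 t = true → C1 ω.1 t

theorem gd_of_wt {c : ℝ} {F : Finset P2} {ω : Cfg} (h : Valid F ω) (hw : wt c F ω ≠ 0) : Gd ω := by
  intro t ht
  by_cases hF : t ∈ F
  · by_contra hC
    apply hw
    unfold wt
    apply Finset.prod_eq_zero hF
    unfold ew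
    rw [if_pos ht, if_neg hC]
  · rw [c1_iff_up]
    have key : ∀ u ∈ up t, s1 (ω.1 u) = true := fun u hu =>
      h.ht.s1_bd fun h1 => hF ((mem_IV'.1 h1) t hu)
    intro u hu v hv
    rw [key u hu, key v hv]

theorem E_congr_gd {c : ℝ} {F : Finset P2} {f g : Cfg → ℝ} (h : ∀ ω, Valid F ω → Gd ω → f ω = g ω) :
    E c F f = E c F g := by
  unfold E
  refine Finset.sum_congr rfl fun ω hω => ?_
  have hV := mem_conf.1 hω
  by_cases hw : wt c F ω = 0
  · rw [pr_of_valid c hV, hw, zero_div, zero_mul, zero_mul]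
  · rw [h ω hV (gd_of_wt hV hw)]

theorem mx_congr_gd {c : ℝ} {n a b : ℕ} {f g : Cfg → ℝ} (h : ∀ ω, Gd ω → f ω = g ω) :
    mx c n a b f = mx c n a b g := by
  unfold mx
  rw [Finset.sum_congr rfl fun K _ => E_congr_gd fun ω _ hω => h ω hω]

/-! ### invariance -/

/-- `τ` moves the hexagonal balls by at most `d` -/
def Dis (τ : P2 ≃ P2) (d : ℕ) : Prop :=
  ∀ k : ℕ, (∀ v ∈ hexB k, τ v ∈ hexB (k + d)) ∧ ∀ v ∈ hexB k, τ.symm v ∈ hexB (k + d)

theorem E_act_le {c : ℝ} (hc : 1 ≤ c) {σ τ : P2 ≃ P2} (h : Aut σ τ) {d k : ℕ} (hd : Dis τ d)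
    {f : Cfg → ℝ} (hf : IncP f) : E c (hexB (k + d)) (fun ω => f (actC σ τ ω)) ≤ E c (hexB k) f := by
  set F' := (hexB (k + d)).map τ.symm.toEmbedding with hF'
  have e : F'.map τ.toEmbedding = hexB (k + d) := by
    ext v
    simp [hF']
  rw [← e, E_map h]
  refine dom_mono hc (sc_hexB _) (h.symm.sc (sc_hexB _)) ?_ hf
  intro v hv
  rw [Finset.mem_map_equiv, Equiv.symm_symm]
  exact (hd k).1 v hv

theorem le_E_act {c : ℝ} (hc : 1 ≤ c) {σ τ : P2 ≃ P2} (h : Aut σ τ) {d k : ℕ} (hd : Dis τ d)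
    {f : Cfg → ℝ} (hf : IncP f) : E c (hexB (k + d)) f ≤ E c (hexB k) (fun ω => f (actC σ τ ω)) := by
  set F' := (hexB k).map τ.symm.toEmbedding with hF'
  have e : F'.map τ.toEmbedding = hexB k := by
    ext v
    simp [hF']
  rw [← e, E_map h]
  refine dom_mono hc (h.symm.sc (sc_hexB _)) (sc_hexB _) ?_ hf
  intro v hv
  rw [Finset.mem_map_equiv, Equiv.symm_symm] at hv
  have := (hd k).2 _ hv
  rwa [τ.symm_apply_apply] at this

theorem E_le_one {c : ℝ} (hc : 1 ≤ c) {F : Finset P2} {f : Cfg → ℝ} (hf : ∀ ω, f ω ≤ 1) :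
    E c F f ≤ 1 := by
  rw [← E_const hc F 1]
  exact E_mono hc fun ω _ => hf ω

/-- **approximate invariance of the mixture** -/
theorem mx_inv {c : ℝ} (hc : 1 ≤ c) {σ τ : P2 ≃ P2} (h : Aut σ τ) {n a b C d : ℕ} (hd : Dis τ d)
    (hdn : d ≤ C * n) (hCa : C ≤ a) (hab : a < b) {f : Cfg → ℝ} (hf : IncP f) (h0 : ∀ ω, 0 ≤ f ω)
    (h1 : ∀ ω, f ω ≤ 1) :
    |mx c n a b (fun ω => f (actC σ τ ω)) - mx c n a b f| ≤ C / ((b : ℝ) - a) := by
  have hden := den_pos hab
  set g : ℕ → ℝ := fun K => E c (hexB (K * n)) f with hg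
  have hg0 : ∀ K, 0 ≤ g K := fun K => E_nonneg hc fun ω _ => h0 ω
  have hg1 : ∀ K, g K ≤ 1 := fun K => E_le_one hc h1
  have hdC : Dis τ (C * n) := fun k => ⟨fun v hv => hexB_mono (by omega) ((hd k).1 v hv),
    fun v hv => hexB_mono (by omega) ((hd k).2 v hv)⟩
  have up : ∀ K, C ≤ K → E c (hexB (K * n)) (fun ω => f (actC σ τ ω)) ≤ g (K - C) := by
    intro K hK
    have := E_act_le hc h (k := (K - C) * n) hdC hf
    rw [← Nat.add_mul, Nat.sub_add_cancel hK] at this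
    exact this
  have lo : ∀ K, g (K + C) ≤ E c (hexB (K * n)) (fun ω => f (actC σ τ ω)) := by
    intro K
    have := le_E_act hc h (k := K * n) hdC hf
    rw [← Nat.add_mul] at this
    exact this
  have hblock : ∀ x : ℕ, ∑ K ∈ Finset.Ico x (x + C), g K ≤ C := by
    intro x
    refine (Finset.sum_le_card_nsmul _ _ 1 fun K _ => hg1 K).trans ?_
    rw [Nat.card_Ico, nsmul_eq_mul, mul_one, Nat.add_sub_cancel_left]
  have U : ∑ K ∈ Finset.Ico a b, E c (hexB (K * n)) (fun ω => f (actC σ τ ω)) ≤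
      ∑ K ∈ Finset.Ico a b, g K + C := by
    calc ∑ K ∈ Finset.Ico a b, E c (hexB (K * n)) (fun ω => f (actC σ τ ω))
        ≤ ∑ K ∈ Finset.Ico a b, g (K - C) :=
          Finset.sum_le_sum fun K hK => up K (hCa.trans (Finset.mem_Ico.1 hK).1)
      _ = ∑ K ∈ Finset.Ico (a - C) (b - C), g K := by
          have := Finset.sum_Ico_add' (fun x => g (x - C)) (a - C) (b - C) C
          rw [Nat.sub_add_cancel hCa, Nat.sub_add_cancel (hCa.trans hab.le)] at this
          rw [← this]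
          exact Finset.sum_congr rfl fun K _ => by rw [Nat.add_sub_cancel]
      _ ≤ ∑ K ∈ Finset.Ico (a - C) b, g K :=
          Finset.sum_le_sum_of_subset_of_nonneg
            (Finset.Ico_subset_Ico le_rfl (Nat.sub_le _ _)) fun K _ _ => hg0 K
      _ = ∑ K ∈ Finset.Ico (a - C) a, g K + ∑ K ∈ Finset.Ico a b, g K :=
          (Finset.sum_Ico_consecutive _ (Nat.sub_le _ _) hab.le).symm
      _ ≤ ∑ K ∈ Finset.Ico a b, g K + C := by
          have := hblock (a - C)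
          rw [Nat.sub_add_cancel hCa] at this
          linarith
  have D : ∑ K ∈ Finset.Ico a b, g K - C ≤
      ∑ K ∈ Finset.Ico a b, E c (hexB (K * n)) (fun ω => f (actC σ τ ω)) := by
    have s1 : ∑ K ∈ Finset.Ico a b, g K ≤ ∑ K ∈ Finset.Ico a (b + C), g K :=
      Finset.sum_le_sum_of_subset_of_nonneg
        (Finset.Ico_subset_Ico le_rfl (Nat.le_add_right _ _)) fun K _ _ => hg0 K
    have s2 : ∑ K ∈ Finset.Ico a (a + C), g K + ∑ K ∈ Finset.Ico (a + C) (b + C), g K =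
        ∑ K ∈ Finset.Ico a (b + C), g K :=
      Finset.sum_Ico_consecutive _ (Nat.le_add_right _ _) (Nat.add_le_add_right hab.le C)
    have s3 : ∑ K ∈ Finset.Ico (a + C) (b + C), g K = ∑ K ∈ Finset.Ico a b, g (K + C) :=
      (Finset.sum_Ico_add' g a b C).symm
    have s4 : ∑ K ∈ Finset.Ico a b, g (K + C) ≤
        ∑ K ∈ Finset.Ico a b, E c (hexB (K * n)) (fun ω => f (actC σ τ ω)) :=
      Finset.sum_le_sum fun K _ => lo K
    have s5 := hblock a
    linarith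
  unfold mx
  rw [← sub_div, abs_div, abs_of_pos hden]
  refine div_le_div_of_nonneg_right ?_ hden.le
  rw [abs_le]
  constructor <;> linarith

/-! ### colourings -/

/-- increasing equivariant colouring -/
structure Col (B : Cfg → Set P2) (G : (P2 ≃ P2) → (P2 ≃ P2) → (P2 ≃ P2)) : Prop where
  inc : ∀ ω ω', LeP ω ω' → B ω ⊆ B ω'
  eqv : ∀ σ τ : P2 ≃ P2, Aut σ τ → ∀ ω, Gd ω → B (actC σ τ ω) = (G σ τ) ⁻¹' (B ω)

/-- sites with `s1 = +` -/
def plusS (ω : Cfg) : Set P2 := {v | s1 (ω.1 v) = true}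
/-- plus-closed triangles -/
def plusC (ω : Cfg) : Set P2 := {t | pC ω t}
/-- triangles that are not minus-closed -/
def nMin (ω : Cfg) : Set P2 := {t | ¬ mC ω t}

theorem col_plusS : Col plusS (fun σ _ => σ) where
  inc := fun _ _ h v hv => h.v v hv
  eqv := fun _ _ _ _ _ => rfl

theorem Aut.self_mem {σ τ : P2 ≃ P2} (h : Aut σ τ) (t : P2) : σ t ∈ up (τ t) :=
  (h t t).2 (mem_up.2 (Or.inl rfl))

theorem gd_s1 {σ τ : P2 ≃ P2} (h : Aut σ τ) {ω : Cfg} (hω : Gd ω) {t : P2} (ht : ω.2 (τ t) = true) :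
    s1 (ω.1 (σ t)) = s1 (ω.1 (τ t)) :=
  (c1_iff_up.1 (hω _ ht)) _ (Aut.self_mem h t) _ (mem_up.2 (Or.inl rfl))

theorem pC_act {σ τ : P2 ≃ P2} (h : Aut σ τ) {ω : Cfg} (hω : Gd ω) (t : P2) :
    pC (actC σ τ ω) t ↔ pC ω (τ t) := by
  constructor
  · rintro ⟨h1, h2⟩
    exact ⟨h1, by rw [← gd_s1 h hω h1]; exact h2⟩
  · rintro ⟨h1, h2⟩
    exact ⟨h1, by show s1 (ω.1 (σ t)) = true; rw [gd_s1 h hω h1]; exact h2⟩

theorem mC_act {σ τ : P2 ≃ P2} (h : Aut σ τ) {ω : Cfg} (hω : Gd ω) (t : P2) :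
    mC (actC σ τ ω) t ↔ mC ω (τ t) := by
  constructor
  · rintro ⟨h1, h2⟩
    exact ⟨h1, by rw [← gd_s1 h hω h1]; exact h2⟩
  · rintro ⟨h1, h2⟩
    exact ⟨h1, by show s1 (ω.1 (σ t)) = false; rw [gd_s1 h hω h1]; exact h2⟩

theorem col_plusC : Col plusC (fun _ τ => τ) where
  inc := fun _ _ h t ht => h.p t ht
  eqv := fun _ _ h _ hω => Set.ext fun t => pC_act h hω t

theorem col_nMin : Col nMin (fun _ τ => τ) where
  inc := fun _ _ h t ht hm => ht (h.m t hm)
  eqv := fun _ _ h _ hω => Set.ext fun t => not_congr (mC_act h hω t)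

variable {B : Cfg → Set P2} {G : (P2 ≃ P2) → (P2 ≃ P2) → (P2 ≃ P2)}

theorem Col.incP (hB : Col B G) {A : Set (Set P2)} (hA : IsUpperSet A) :
    IncP (ind {ω | B ω ∈ A}) := fun ω ω' h => ind_le_ind fun h1 => hA (hB.inc ω ω' h) h1

/-! ### the law of a colouring -/

/-- probability of an event of the colouring `B` under the mixture -/
def lp (B : Cfg → Set P2) (c : ℝ) (n a b : ℕ) (A : Set (Set P2)) : ℝ :=
  mx c n a b (ind {ω | B ω ∈ A})

theorem ind_union_inter {A D : Set Cfg} (ω : Cfg) :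
    ind (A ∪ D) ω + ind (A ∩ D) ω = ind A ω + ind D ω := by
  by_cases h1 : ω ∈ A <;> by_cases h2 : ω ∈ D
  · rw [ind_of_mem h1, ind_of_mem h2, ind_of_mem (A := A ∪ D) (Or.inl h1),
      ind_of_mem (A := A ∩ D) ⟨h1, h2⟩]
  · rw [ind_of_mem h1, ind_of_not_mem h2, ind_of_mem (A := A ∪ D) (Or.inl h1),
      ind_of_not_mem (A := A ∩ D) fun h => h2 h.2]
  · rw [ind_of_not_mem h1, ind_of_mem h2, ind_of_mem (A := A ∪ D) (Or.inr h2),
      ind_of_not_mem (A := A ∩ D) fun h => h1 h.1]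
    ring
  · rw [ind_of_not_mem h1, ind_of_not_mem h2,
      ind_of_not_mem (A := A ∪ D) fun h => h.elim h1 h2,
      ind_of_not_mem (A := A ∩ D) fun h => h1 h.1]

theorem ind_mul_inter {A D : Set Cfg} (ω : Cfg) : ind A ω * ind D ω = ind (A ∩ D) ω := by
  by_cases h1 : ω ∈ A <;> by_cases h2 : ω ∈ D
  · rw [ind_of_mem h1, ind_of_mem h2, ind_of_mem (A := A ∩ D) ⟨h1, h2⟩]; ring
  · rw [ind_of_not_mem h2, ind_of_not_mem (A := A ∩ D) fun h => h2 h.2]; ring
  · rw [ind_of_not_mem h1, ind_of_not_mem (A := A ∩ D) fun h => h1 h.1]; ring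
  · rw [ind_of_not_mem h1, ind_of_not_mem (A := A ∩ D) fun h => h1 h.1]; ring

theorem lp_nonneg {c : ℝ} (hc : 1 ≤ c) {n a b : ℕ} (hab : a < b) (A : Set (Set P2)) :
    0 ≤ lp B c n a b A := mx_nonneg hc hab fun _ ω _ => ind_nonneg _ ω

theorem lp_empty {c : ℝ} (hc : 1 ≤ c) {n a b : ℕ} (hab : a < b) : lp B c n a b ∅ = 0 := by
  unfold lp
  rw [← mx_const hc (n := n) hab 0]
  exact mx_congr fun _ ω _ => ind_of_not_mem fun h => h

theorem lp_univ {c : ℝ} (hc : 1 ≤ c) {n a b : ℕ} (hab : a < b) : lp B c n a b Set.univ = 1 := by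
  unfold lp
  rw [← mx_const hc (n := n) hab 1]
  exact mx_congr fun _ ω _ => ind_of_mem trivial

theorem lp_mono {c : ℝ} (hc : 1 ≤ c) {n a b : ℕ} (hab : a < b) {A D : Set (Set P2)} (h : A ⊆ D) :
    lp B c n a b A ≤ lp B c n a b D :=
  mx_mono hc hab fun _ _ _ => ind_le_ind fun h1 => h h1

theorem lp_mod {c : ℝ} {n a b : ℕ} (A D : Set (Set P2)) :
    lp B c n a b (A ∪ D) + lp B c n a b (A ∩ D) = lp B c n a b A + lp B c n a b D := by
  unfold lp
  rw [← mx_add, ← mx_add]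
  exact mx_congr fun _ ω _ => ind_union_inter ω

theorem lp_assoc (hB : Col B G) {c : ℝ} (hc : 1 ≤ c) {n a b : ℕ} (hab : a < b) {A D : Set (Set P2)}
    (hA : IsUpperSet A) (hD : IsUpperSet D) :
    lp B c n a b A * lp B c n a b D ≤ lp B c n a b (A ∩ D) := by
  refine (mx_assoc hc hab (hB.incP hA) (hB.incP hD)).trans (le_of_eq ?_)
  exact mx_congr fun _ ω _ => ind_mul_inter ω

/-- comparison with one volume -/
theorem lp_le (hB : Col B G) {c : ℝ} (hc : 1 ≤ c) {n a b : ℕ} (hab : a < b) {A : Set (Set P2)}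
    (hA : IsUpperSet A) : lp B c n a b A ≤ Pr c (hexB (a * n)) {ω | B ω ∈ A} := by
  rw [Pr_eq]
  exact mx_le_left hc hab (hB.incP hA)

theorem le_lp (hB : Col B G) {c : ℝ} (hc : 1 ≤ c) {n a b : ℕ} (hab : a < b) {A : Set (Set P2)}
    (hA : IsUpperSet A) : Pr c (hexB (b * n)) {ω | B ω ∈ A} ≤ lp B c n a b A := by
  rw [Pr_eq]
  exact right_le_mx hc hab (hB.incP hA)

/-- invariance under an automorphism -/
theorem lp_inv (hB : Col B G) {c : ℝ} (hc : 1 ≤ c) {σ τ : P2 ≃ P2} (h : Aut σ τ) {n a b C d : ℕ}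
    (hd : Dis τ d) (hdn : d ≤ C * n) (hCa : C ≤ a) (hab : a < b) {g : P2 → P2}
    (hg : ∀ v, G σ τ v = g v) {A : Set (Set P2)} (hA : IsUpperSet A) :
    |lp B c n a b {w | g ⁻¹' w ∈ A} - lp B c n a b A| ≤ C / ((b : ℝ) - a) := by
  have h1 := mx_inv hc h hd hdn hCa hab (hB.incP hA) (fun ω => ind_nonneg _ ω)
    (fun ω => by
      by_cases h1 : ω ∈ {ω | B ω ∈ A}
      · rw [ind_of_mem h1]
      · rw [ind_of_not_mem h1]; exact zero_le_one)
  have e : lp B c n a b {w | g ⁻¹' w ∈ A} =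
      mx c n a b (fun ω => ind {ω | B ω ∈ A} (actC σ τ ω)) := by
    unfold lp
    refine mx_congr_gd fun ω hω => ?_
    have hg' : (⇑(G σ τ)) = g := funext hg
    have e1 : B (actC σ τ ω) = g ⁻¹' (B ω) := by rw [hB.eqv σ τ h ω hω, hg']
    by_cases h2 : g ⁻¹' (B ω) ∈ A
    · rw [ind_of_mem (A := {ω | B ω ∈ {w | g ⁻¹' w ∈ A}}) h2,
        ind_of_mem (A := {ω | B ω ∈ A}) (show B (actC σ τ ω) ∈ A by rw [e1]; exact h2)]
    · rw [ind_of_not_mem (A := {ω | B ω ∈ {w | g ⁻¹' w ∈ A}}) h2,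
        ind_of_not_mem (A := {ω | B ω ∈ A}) (show ¬ B (actC σ τ ω) ∈ A by rw [e1]; exact h2)]
  rw [e]
  exact h1

end Crest.Agent.R144.Qp756
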