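import Crest.Agent.R144.Qr9_315

/-!
# R144, QRSW, file 10: constants, macroscopic sizes, THE THEOREM `qrsw : QRSW` (helper315)
-/

set_option autoImplicit false

noncomputable section

namespace Crest.Agent.R144.Qr315

open Crest.Agent.R144.It844 (P2 adj_iff adj_symm)
open Crest.Agent.R144.Zg349 (StepIn IsConn)
open Crest.ProbabilityR.HexHeights (Adj)

variable {L : Law} {W : ℕ} {ρ : ℝ}

theorem Good.mono' {h k D : ℤ} {ε a0 ε' a' : ℝ} (G : Good L W ρ h k D ε a0) (h1 : ε ≤ ε') (h2 : a' ≤ a0)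
    (h3 : 0 < a') (h4 : 6 * ρ ≤ a') : Good L W ρ h k D ε' a' :=
  ⟨G.hh, G.hk, G.hW, G.ρ0, G.ε0.trans h1, h3, h4, G.al, by linarith [G.V],
    fun e y d a b c => (G.K e y d a b c).trans (by linarith)⟩

/-- the constants exist -/
theorem exists_cst (M K : ℕ) (hM : 30000000000000 ≤ M) (hK : (4000000000000000001) ^ 2 ≤ K) {aM : ℝ}
    (ha : 0 < aM) (ha1 : aM ≤ 1) : ∃ εL aL v0 u εM ρ0 : ℝ, 0 < εM ∧ εM ≤ εL ∧ aL ≤ aM ∧ 0 < ρ0 ∧
      ∀ ρ : ℝ, 0 ≤ ρ → ρ ≤ ρ0 → Cst ρ εM aM εL aL v0 u M K := by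
  obtain ⟨aL, haL⟩ : ∃ aL : ℝ, aL = aM / 1000000000000 := ⟨_, rfl⟩
  have hL0 : 0 < aL := by rw [haL]; positivity
  have hL1 : aL ≤ 1 / 1000000000000 := by rw [haL]; linarith
  have hLM : aL ≤ aM := by rw [haL]; linarith
  have p2 : 0 < aL ^ 2 := by positivity
  have p4 : 0 < aL ^ 4 := by positivity
  have p6 : 0 < aL ^ 6 := by positivity
  have p8 : 0 < aL ^ 8 := by positivity
  have hone : aL ≤ 1 := by linarith
  have q84 : aL ^ 8 ≤ aL ^ 4 := pow_le_pow_of_le_one hL0.le hone (by norm_num)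
  have q61 : aL ^ 6 ≤ aL := by
    calc aL ^ 6 ≤ aL ^ 1 := pow_le_pow_of_le_one hL0.le hone (by norm_num)
      _ = aL := pow_one _
  have q81 : aL ^ 8 ≤ aL := by
    calc aL ^ 8 ≤ aL ^ 1 := pow_le_pow_of_le_one hL0.le hone (by norm_num)
      _ = aL := pow_one _
  have q4M : aL ^ 4 ≤ aM ^ 4 := pow_le_pow_left₀ hL0.le hLM 4
  obtain ⟨εL, hεL⟩ : ∃ εL : ℝ, εL = aL ^ 8 / 1000000 := ⟨_, rfl⟩
  have hε0 : 0 < εL := by rw [hεL]; positivity
  have hε1 : εL ≤ 1 := by rw [hεL]; linarith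
  obtain ⟨v0, hv0⟩ : ∃ v0 : ℝ, v0 = εL / 2 := ⟨_, rfl⟩
  have hv00 : 0 < v0 := by rw [hv0]; positivity
  have hv01 : v0 ≤ 1 := by rw [hv0]; linarith
  obtain ⟨B, hB⟩ : ∃ B : ℝ, B = v0 ^ (2 * M ^ 2) * (aM / 8) ^ 2 := ⟨_, rfl⟩
  have hB0 : 0 < B := by rw [hB]; positivity
  have hB1 : B ≤ aM ^ 2 / 64 := by
    have : v0 ^ (2 * M ^ 2) ≤ 1 := pow_le_one₀ hv00.le hv01
    calc B = v0 ^ (2 * M ^ 2) * (aM / 8) ^ 2 := hB
      _ ≤ 1 * (aM / 8) ^ 2 := mul_le_mul_of_nonneg_right this (by positivity)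
      _ = aM ^ 2 / 64 := by ring
  have haM2 : aM ^ 2 ≤ aM := by nlinarith
  obtain ⟨u, hu⟩ : ∃ u : ℝ, u = B / 4 := ⟨_, rfl⟩
  have hu0 : 0 < u := by rw [hu]; positivity
  have hu1 : u ≤ aM ^ 2 / 256 := by rw [hu]; linarith
  have hu2 : u ≤ 1 := by linarith
  have hKpos : K ≠ 0 := by
    rintro rfl
    norm_num at hK
  have huK : u ^ K ≤ u := pow_le_of_le_one hu0.le hu2 hKpos
  have huK0 : 0 < u ^ K := by positivity
  obtain ⟨εM, hεM⟩ : ∃ εM : ℝ, εM = min (u ^ K * aM ^ 2 / 24) εL := ⟨_, rfl⟩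
  have hεM0 : 0 < εM := by
    rw [hεM]
    exact lt_min (by positivity) hε0
  have hεM1 : εM ≤ u ^ K * aM ^ 2 / 24 := by rw [hεM]; exact min_le_left _ _
  have hεM2 : εM ≤ εL := by rw [hεM]; exact min_le_right _ _
  have h6 : 6 * εM / aM ^ 2 ≤ u ^ K / 4 := by
    rw [div_le_iff₀ (by positivity)]
    linarith
  have h36 : εL / (aL ^ 2 / 6) ^ 2 = 36 * aL ^ 4 / 1000000 := by
    rw [hεL]
    field_simp
    ring
  have h62 : 6 * εL / aL ^ 2 = 6 * aL ^ 6 / 1000000 := by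
    rw [hεL]
    field_simp
  refine ⟨εL, aL, v0, u, εM, min (aL ^ 8 / 100000000) (u / 100), hεM0, hεM2, hLM,
    lt_min (by positivity) (by positivity), ?_⟩
  intro ρ hρ0 hρ
  have r1 : ρ ≤ aL ^ 8 / 100000000 := hρ.trans (min_le_left _ _)
  have r2 : ρ ≤ u / 100 := hρ.trans (min_le_right _ _)
  have hεM3 : εM ≤ aM ^ 4 / 6144 := by
    calc εM ≤ u ^ K * aM ^ 2 / 24 := hεM1
      _ ≤ u * aM ^ 2 / 24 := by
          have : u ^ K * aM ^ 2 ≤ u * aM ^ 2 := mul_le_mul_of_nonneg_right huK (by positivity)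
          linarith
      _ ≤ (aM ^ 2 / 256) * aM ^ 2 / 24 := by
          have : u * aM ^ 2 ≤ (aM ^ 2 / 256) * aM ^ 2 := mul_le_mul_of_nonneg_right hu1 (by positivity)
          linarith
      _ = aM ^ 4 / 6144 := by ring
  refine { hM := hM, hK := hK, hu0 := hu0, hu1 := hu2, hv0 := hv00, hv1 := hv01, haL := hL0, c1 := ?_,
           c2 := ?_, c3 := ?_, c4 := ?_, c5 := ?_, c6 := ?_, c7 := ?_, c8 := ?_, c9 := ?_, c10 := ?_,
           c11 := ?_, c12 := ?_, c13 := ?_, c14 := ?_, c15 := ?_ }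
  · rw [h62]; linarith
  · rw [h36, hεL]; linarith
  · rw [h36]; linarith
  · linarith
  · linarith
  · linarith
  · linarith
  · have e1 : (aM / 8) ^ 2 ≤ (aM / 4 - ρ) ^ 2 := by
      apply pow_le_pow_left₀ (by positivity)
      linarith
    have e2 : B ≤ v0 ^ (2 * M ^ 2) * (aM / 4 - ρ) ^ 2 := by
      rw [hB]
      exact mul_le_mul_of_nonneg_left e1 (by positivity)
    rw [hu] at *
    linarith
  · have e3 : 1000000000000 * aL = aM := by rw [haL]; ring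
    rw [hv0, hεL]
    linarith
  · rw [hv0, hεL]; linarith
  · rw [hv0, hεL]; linarith
  · linarith
  · linarith
  · linarith
  · rw [le_div_iff₀ p2]
    nlinarith

/-! ### macroscopic sizes -/

theorem inter_fin (L : Law) {ι : Type*} (s : Finset ι) (A : ι → Set (Set P2)) {δ : ℝ}
    (h : ∀ i ∈ s, 1 - δ ≤ L.P (A i)) : 1 - s.card * δ ≤ L.P (⋂ i ∈ s, A i) := by
  classical
  induction s using Finset.induction_on with
  | empty => simp [L.univ]
  | insert a s ha ih =>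
    rw [Finset.set_biInter_insert, Finset.card_insert_of_notMem ha]
    have h1 := ih fun i hi => h i (Finset.mem_insert_of_mem hi)
    have h2 := h a (Finset.mem_insert_self a s)
    have h3 := L.inter_ge (A a) (⋂ i ∈ s, A i)
    push_cast
    linarith

/-- **(M1)** a long crossing with high probability gives a blue layer -/
theorem macro_hard (hI : L.Inv W ρ) (hρ : 0 ≤ ρ) {n : ℕ} {σ t : ℤ} {N : ℕ} (hσ : 1 ≤ σ)
    (hσt : 2 * σ ≤ t) (hn : (n : ℤ) ≤ N * σ) (ht : 10 * t ≤ n)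
    (hW : 100 * (n : ℤ) ≤ W) :
    1 - ((2 * N + 1) ^ 2 : ℕ) * (3 * (1 - L.P (Hd t)) + 9 * ρ) ≤ L.P {ω | Layer ω 0 n (2 * n)} := by
  classical
  obtain ⟨I, hI1, _, hI3, hI4⟩ := cover n (t - 1) σ N hσ (by omega) hn
  have hδ : 0 ≤ 3 * (1 - L.P (Hd t)) + 9 * ρ := by linarith [L.le_one (Hd t)]
  set I' := I.filter fun c => c ∈ bal 0 (n + t) with hI'
  have hcard : (I'.card : ℝ) ≤ ((2 * N + 1) ^ 2 : ℕ) := by
    exact_mod_cast (Finset.card_filter_le _ _).trans hI1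
  have h1 := inter_fin L I' (fun c => {ω | Layer ω c (t - 1) (4 * t)}) (δ := 3 * (1 - L.P (Hd t)) + 9 * ρ) (by
    intro c hc
    rw [hI', Finset.mem_filter] at hc
    obtain ⟨b1, b2, b3⟩ := hc.2
    simp only [Prod.fst_zero, Prod.snd_zero, sub_zero, abs_le] at b1 b2 b3
    have h2 := three hI hρ (z := c) (t := t) (by omega) (by
      have e1 : |X c| ≤ 2 * n + 2 * t := by rw [abs_le]; unfold X; constructor <;> omega
      have e2 : |c.2| ≤ n + t := by rw [abs_le]; constructor <;> omega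
      omega)
    have h3 := L.mono _ _ (layer_of_slabs (z := c) (t := t) (m := t - 1) (N := 4 * t) (by omega) (by omega)
      le_rfl)
    linarith)
  have h2 : (⋂ c ∈ I', {ω | Layer ω c (t - 1) (4 * t)}) ⊆ {ω | Layer ω 0 n (2 * n)} := by
    intro ω hω u v hu hv p
    rw [Set.mem_iInter₂] at hω
    obtain ⟨c, hc, hvc⟩ := hI4 v hv
    have hvc' := hvc
    obtain ⟨d1, d2, d3⟩ := hvc
    obtain ⟨b1, b2, b3⟩ := hv
    simp only [Prod.fst_zero, Prod.snd_zero, sub_zero, abs_le] at b1 b2 b3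
    rw [abs_le] at d1 d2 d3
    have hcI : c ∈ I' := by
      rw [hI', Finset.mem_filter]
      refine ⟨hc, ?_⟩
      refine ⟨?_, ?_, ?_⟩ <;> simp only [Prod.fst_zero, Prod.snd_zero, sub_zero] <;> rw [abs_le] <;>
        constructor <;> omega
    refine hω c hcI u v ?_ hvc' p
    rintro ⟨e1, e2, e3⟩
    apply hu
    rw [abs_le] at e1 e2 e3
    refine ⟨?_, ?_, ?_⟩ <;> simp only [Prod.fst_zero, Prod.snd_zero, sub_zero] <;> rw [abs_le] <;>
      constructor <;> omega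
  have h3 := L.mono _ _ h2
  have h4 : (I'.card : ℝ) * (3 * (1 - L.P (Hd t)) + 9 * ρ) ≤
      ((2 * N + 1) ^ 2 : ℕ) * (3 * (1 - L.P (Hd t)) + 9 * ρ) := mul_le_mul_of_nonneg_right hcard hδ
  linarith

/-- **(M2)** blue arms at the smaller macroscopic sizes -/
theorem macro_arm (hI : L.Inv W ρ) {n : ℕ} {σ s R : ℤ} {N : ℕ} (hσ : 1 ≤ σ)
    (hσs : 2 * σ ≤ s) (hn : (n : ℤ) ≤ N * σ) (hs : 10 * s ≤ n) (hR : 2 * R ≤ n)
    (hW : 100 * (n : ℤ) ≤ W) {v η : ℝ} (hv : 0 ≤ v) (hη : η < v ^ ((2 * N + 1) ^ 2)) (hv1 : v ≤ 1)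
    (hP : 1 - η ≤ L.P {ω | ¬ Layer ωᶜ 0 n (2 * n)}) :
    1 - (v + ρ) ≤ L.P (Con (bal 0 (4 * n)) (bal 0 s) (bal 0 R)ᶜ) := by
  classical
  obtain ⟨I, hI1, _, hI3, hI4⟩ := cover n s σ N hσ (by omega) hn
  set I' := I.filter fun c => c ∈ bal 0 (n + s) with hI'
  have hcard : I'.card ≤ (2 * N + 1) ^ 2 := (Finset.card_filter_le _ _).trans hI1
  have h0 : (0 : P2) ∈ bal 0 (n : ℤ) := by
    refine ⟨?_, ?_, ?_⟩ <;> simp
  have memI' : ∀ x ∈ bal 0 (n : ℤ), ∃ c ∈ I', x ∈ bal c s := by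
    intro x hx
    obtain ⟨c, hc, hxc⟩ := hI4 x hx
    refine ⟨c, ?_, hxc⟩
    obtain ⟨d1, d2, d3⟩ := hxc
    obtain ⟨b1, b2, b3⟩ := hx
    simp only [Prod.fst_zero, Prod.snd_zero, sub_zero, abs_le] at b1 b2 b3
    rw [abs_le] at d1 d2 d3
    rw [hI', Finset.mem_filter]
    refine ⟨hc, ?_⟩
    refine ⟨?_, ?_, ?_⟩ <;> simp only [Prod.fst_zero, Prod.snd_zero, sub_zero] <;> rw [abs_le] <;>
      constructor <;> omega
  have hne : I'.Nonempty := by
    obtain ⟨c, hc, _⟩ := memI' 0 h0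
    exact ⟨c, hc⟩
  have hcov : {ω : Set P2 | ¬ Layer ωᶜ 0 n (2 * n)} ⊆
      ⋃ c ∈ I', Con (bal 0 (2 * n)) (bal c s) (bal c R)ᶜ := by
    intro ω hω
    have hω' : ¬ Layer ωᶜ 0 n (2 * n) := hω
    unfold Layer at hω'
    push Not at hω'
    obtain ⟨u, x, hu, hx, p⟩ := hω'
    rw [compl_compl] at p
    obtain ⟨c, hc, hxc⟩ := memI' x hx
    have hxR : x ∈ bal 0 (2 * n : ℤ) := by
      obtain ⟨b1, b2, b3⟩ := hx
      refine ⟨?_, ?_, ?_⟩ <;> omega
    obtain ⟨w, hwR, hxw, w', hw', hadj⟩ := first_exit (Cn.symm' p) hxR hu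
    have hxω : x ∈ ω := by
      rcases Relation.ReflTransGen.cases_head (Cn.symm' p) with h | ⟨y, h, _⟩
      · rw [h] at hxR
        exact absurd hxR hu
      · exact h.1
    have hsub : {y | Cn (ω ∩ bal 0 (2 * n)) x y} ⊆ ω ∩ bal 0 (2 * n) := fun y hy =>
      Cn.right_mem hy ⟨hxω, hxR⟩
    rw [Set.mem_iUnion₂]
    refine ⟨c, hc, {y | Cn (ω ∩ bal 0 (2 * n)) x y}, fun y hy => (hsub hy).1, isConn_reach _ _,
      fun y hy => (hsub hy).2, ⟨x, .refl, hxc⟩, w, hxw, ?_⟩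
    -- `w` is far from `c`
    rintro ⟨e1, e2, e3⟩
    rw [hI', Finset.mem_filter] at hc
    obtain ⟨b1, b2, b3⟩ := hc.2
    simp only [Prod.fst_zero, Prod.snd_zero, sub_zero, abs_le] at b1 b2 b3
    rw [abs_le] at e1 e2 e3
    apply hw'
    have ha : Adj w w' := hadj
    unfold Adj at ha
    refine ⟨?_, ?_, ?_⟩ <;> simp only [Prod.fst_zero, Prod.snd_zero, sub_zero] <;> rw [abs_le] <;>
      constructor <;> omega
  have h1 : 1 - L.P (⋃ c ∈ I', Con (bal 0 (2 * n)) (bal c s) (bal c R)ᶜ) < v ^ I'.card := by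
    have e1 := L.mono _ _ hcov
    have e2 : v ^ ((2 * N + 1) ^ 2) ≤ v ^ I'.card := pow_le_pow_of_le_one hv hv1 hcard
    linarith
  obtain ⟨c, hc, hPc⟩ := L.exists_of_union I' hne _ (fun c => Con_upper _ _ _) hv h1
  rw [hI', Finset.mem_filter] at hc
  obtain ⟨b1, b2, b3⟩ := hc.2
  simp only [Prod.fst_zero, Prod.snd_zero, sub_zero, abs_le] at b1 b2 b3
  have h2 := Con_shift hI (-c) (mem_bal_of (by
      have : X (-c) = - X c := by unfold X; simp only [Prod.fst_neg, Prod.snd_neg]; ring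
      rw [this, abs_le]; unfold X; constructor <;> omega)
    (by simp only [Prod.snd_neg]; rw [abs_le]; constructor <;> omega))
    (S := bal 0 (2 * n)) (U := bal c s) (U' := (bal c R)ᶜ) (T := bal 0 (4 * n)) (V := bal 0 s)
    (V' := (bal 0 R)ᶜ)
    (by
      rintro x ⟨a1, a2, a3⟩
      refine ⟨?_, ?_, ?_⟩ <;> omega)
    (by
      rintro x ⟨a1, a2, a3⟩
      simp only [Prod.fst_zero, Prod.snd_zero, sub_zero, abs_le] at a1 a2 a3
      refine ⟨?_, ?_, ?_⟩ <;> simp only [tr, Prod.fst_add, Prod.snd_add, Prod.fst_neg, Prod.snd_neg,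
        Prod.fst_zero, Prod.snd_zero, sub_zero] <;> rw [abs_le] <;> constructor <;> omega)
    (by
      intro x hx _
      have := tr_bal (-c) c s x hx
      have hz0 : tr (-c) c = 0 := by simp [tr]
      rwa [hz0] at this)
    (by
      intro x hx _ hx'
      apply hx
      have := tr_bal c 0 R _ hx'
      have hz0 : tr c 0 = c := by simp [tr]
      rw [hz0] at this
      have hz1 : tr c (tr (-c) x) = x := by simp [tr]
      rwa [hz1] at this)
  linarith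

set_option maxHeartbeats 4000000 in
/-- **SINGLE-SCALE RSW** -/
theorem qrsw : QRSW := by
  intro c0 hc0
  obtain ⟨N1, hN1⟩ : ∃ N1 : ℕ, N1 = 200000000000000000000000 := ⟨_, rfl⟩
  obtain ⟨K1, hK1⟩ : ∃ K1 : ℕ, K1 = (2 * N1 + 1) ^ 2 := ⟨_, rfl⟩
  obtain ⟨M, hM⟩ : ∃ M : ℕ, 30000000000000 ≤ M := ⟨_, le_rfl⟩
  obtain ⟨K, hK⟩ : ∃ K : ℕ, (4000000000000000001) ^ 2 ≤ K := ⟨_, le_rfl⟩
  have hK1pos : (1 : ℝ) ≤ K1 := by
    have : 1 ≤ K1 := by rw [hK1]; exact Nat.one_le_pow _ _ (by omega)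
    exact_mod_cast this
  obtain ⟨c1, hc1⟩ : ∃ c1 : ℝ, c1 = min c0 1 := ⟨_, rfl⟩
  have hc10 : 0 < c1 := by rw [hc1]; exact lt_min hc0 one_pos
  have hc11 : c1 ≤ 1 := by rw [hc1]; exact min_le_right _ _
  have hc12 : c1 ≤ c0 := by rw [hc1]; exact min_le_left _ _
  obtain ⟨cM, hcM⟩ : ∃ cM : ℝ, cM = c1 / (6 * K1) := ⟨_, rfl⟩
  have hcM0 : 0 < cM := by rw [hcM]; positivity
  have hcM1 : cM ≤ 1 := by
    rw [hcM, div_le_one (by positivity)]
    linarith
  have hcMK : 6 * K1 * cM = c1 := by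
    rw [hcM]
    field_simp
  obtain ⟨aM, haM⟩ : ∃ aM : ℝ, aM = cM / 1000000000000 := ⟨_, rfl⟩
  have haM0 : 0 < aM := by rw [haM]; positivity
  have haM1 : aM ≤ 1 := by rw [haM]; linarith
  obtain ⟨εL, aL, v0, u, εM, ρ0, hεM0, hεML, haLM, hρ0, hcst⟩ := exists_cst M K hM hK haM0 haM1
  have hc00 := hcst 0 le_rfl hρ0.le
  have hεL0 : 0 < εL := lt_of_lt_of_le hεM0 hεML
  have hεM1 : εM ≤ aM / 144 := by
    have h1 := hc00.c3
    have h2 : 0 ≤ εL / (aL ^ 2 / 6) ^ 2 := by positivity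
    have h3 : aM ^ 4 ≤ aM := by
      calc aM ^ 4 ≤ aM ^ 1 := pow_le_pow_of_le_one haM0.le haM1 (by norm_num)
        _ = aM := pow_one _
    linarith
  obtain ⟨vM, hvM⟩ : ∃ vM : ℝ, vM = εM / 2 := ⟨_, rfl⟩
  have hvM0 : 0 < vM := by rw [hvM]; positivity
  have hvM1 : vM ≤ 1 := by rw [hvM]; linarith
  obtain ⟨B, hB⟩ : ∃ B : ℝ, B = vM ^ (2 * M ^ 2) * (cM / 2) ^ 2 := ⟨_, rfl⟩
  have hB0 : 0 < B := by rw [hB]; positivity
  have hB1 : B ≤ 1 := by
    have h1 : vM ^ (2 * M ^ 2) ≤ 1 := pow_le_one₀ hvM0.le hvM1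
    have h2 : (cM / 2) ^ 2 ≤ 1 := pow_le_one₀ (by positivity) (by linarith)
    rw [hB]
    exact mul_le_one₀ h1 (by positivity) h2
  obtain ⟨v1, hv1⟩ : ∃ v1 : ℝ, v1 = B / 2 := ⟨_, rfl⟩
  have hv10 : 0 < v1 := by rw [hv1]; positivity
  have hv11 : v1 ≤ 1 := by rw [hv1]; linarith
  have hvK : 0 < v1 ^ K1 := by positivity
  obtain ⟨η, hη⟩ : ∃ η : ℝ, η = min (min (v1 ^ K1 / 2) ρ0) (min (B / 8) (min (cM / 1000) (εM / 8))) :=
    ⟨_, rfl⟩
  have hη0 : 0 < η := by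
    rw [hη]
    exact lt_min (lt_min (by positivity) hρ0) (lt_min (by positivity) (lt_min (by positivity) (by positivity)))
  have η1 : η ≤ v1 ^ K1 / 2 := by rw [hη]; exact (min_le_left _ _).trans (min_le_left _ _)
  have η2 : η ≤ ρ0 := by rw [hη]; exact (min_le_left _ _).trans (min_le_right _ _)
  have η3 : η ≤ B / 8 := by rw [hη]; exact (min_le_right _ _).trans (min_le_left _ _)
  have η4 : η ≤ cM / 1000 := by
    rw [hη]; exact (min_le_right _ _).trans ((min_le_right _ _).trans (min_le_left _ _))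
  have η5 : η ≤ εM / 8 := by
    rw [hη]; exact (min_le_right _ _).trans ((min_le_right _ _).trans (min_le_right _ _))
  have hc := hcst η hη0.le η2
  refine ⟨η, 10000, 100 * 1000 ^ 9, hη0, ?_⟩
  intro n hn L hI hP
  by_contra hcon
  push Not at hcon
  -- the top size
  obtain ⟨a, ha⟩ : ∃ a : ℕ, a = Nat.log 1000 (n / 100) := ⟨_, rfl⟩
  have hn100 : 1000 ^ 9 ≤ n / 100 := by omega
  have ha9 : 9 ≤ a := by
    rw [ha]
    exact Nat.le_log_of_pow_le (by norm_num) hn100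
  have ha1 : 1000 ^ a ≤ n / 100 := by
    rw [ha]
    exact Nat.pow_log_le_self 1000 (by omega)
  have ha2 : n / 100 < 1000 ^ (a + 1) := by
    rw [ha]
    exact Nat.lt_pow_succ_log_self (by norm_num) _
  obtain ⟨J', hJ'⟩ : ∃ J' : ℕ, a = J' + 9 := ⟨a - 9, by omega⟩
  rw [hJ'] at ha1 ha2
  obtain ⟨q, hq⟩ : ∃ q : ℤ, q = 1000 ^ J' := ⟨_, rfl⟩
  have hq1 : 1 ≤ q := by rw [hq]; exact one_le_pow₀ (by norm_num)
  have hn1 : 100 * (1000000000000000000000000000 * q) ≤ (n : ℤ) := by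
    have h1 : (100 : ℤ) * 1000 ^ (J' + 9) ≤ n := by
      have : 100 * 1000 ^ (J' + 9) ≤ n := by omega
      exact_mod_cast this
    have h2 : (1000 : ℤ) ^ (J' + 9) = 1000000000000000000000000000 * q := by rw [hq]; ring
    rw [h2] at h1
    exact h1
  have hn2 : (n : ℤ) < 100 * (1000000000000000000000000000000 * q) := by
    have h1 : (n : ℤ) < 100 * 1000 ^ (J' + 9 + 1) := by
      have : n < 100 * 1000 ^ (J' + 9 + 1) := by omega
      exact_mod_cast this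
    have h2 : (1000 : ℤ) ^ (J' + 9 + 1) = 1000000000000000000000000000000 * q := by rw [hq]; ring
    rw [h2] at h1
    exact h1
  have hW : ((10000 * n : ℕ) : ℤ) = 10000 * (n : ℤ) := by push_cast; ring
  have hcov : (n : ℤ) ≤ N1 * (500000000 * q) := by
    rw [hN1]
    push_cast
    omega
  -- long crossings
  have hard : ∀ t : ℤ, 1000000000 * q ≤ t → 10 * t ≤ n → L.P (Hd t) ≤ 1 - cM := by
    intro t ht1 ht2
    have h1 := macro_hard hI hη0.le (n := n) (σ := 500000000 * q) (t := t) (N := N1) (by omega) (by omega)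
      hcov ht2 (by omega)
    rw [← hK1] at h1
    by_contra hno
    push Not at hno
    have h2 : 3 * (1 - L.P (Hd t)) + 9 * η ≤ 3 * cM + 9 * (cM / 1000) := by linarith
    have h3 : (K1 : ℝ) * (3 * (1 - L.P (Hd t)) + 9 * η) ≤ K1 * (3 * cM + 9 * (cM / 1000)) :=
      mul_le_mul_of_nonneg_left h2 (by linarith)
    have h4 : (K1 : ℝ) * (3 * cM + 9 * (cM / 1000)) ≤ c1 := by
      rw [← hcMK]
      have : 0 < (K1 : ℝ) * cM := by positivity
      nlinarith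
    linarith
  -- rigid sizes
  have good : ∀ i : ℕ, i ≤ 5 → ∃ D, Good L (10000 * n) η (1000 ^ (J' + i + 4)) (1000 ^ (J' + i)) D εM aM := by
    intro i hi
    have p1 : (1000 : ℤ) ^ i ≤ 1000 ^ 5 := pow_le_pow_right₀ (by norm_num) hi
    have p0 : (1 : ℤ) ≤ 1000 ^ i := one_le_pow₀ (by norm_num)
    obtain ⟨w, hw⟩ : ∃ w : ℤ, w = 1000 ^ (J' + i) := ⟨_, rfl⟩
    have hw1 : q ≤ w := by
      rw [hw, hq, pow_add]
      nlinarith
    have hw2 : w ≤ 1000000000000000 * q := by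
      rw [hw, hq, pow_add]
      nlinarith
    obtain ⟨g, hg⟩ : ∃ g : ℤ, g = 1000000000000 * w := ⟨_, rfl⟩
    have hg' : (1000 : ℤ) ^ (J' + i + 4) = g := by rw [hg, hw]; ring
    rw [hg', ← hw]
    obtain ⟨s, hs⟩ : ∃ s : ℤ, s = 1000000000 * w := ⟨_, rfl⟩
    have H1 := hard g (by omega) (by omega)
    have H2 := hard (2 * (g + s)) (by omega) (by omega)
    have hArm := macro_arm hI (n := n) (σ := 500000000 * q) (s := s) (R := 20 * g) (N := N1) (by omega)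
      (by omega) hcov (by omega) (by omega) (by omega) hv10.le (η := η) (v := v1) (by
        rw [← hK1]
        linarith) hv11 hP
    obtain ⟨D, hD1, hD2⟩ := va hI hg (by omega) (by omega) (by omega) (le_refl (20 * g)) (by omega) hM
      hvM0 hvM1 (show η < cM by linarith) hArm H2 (by
        have e1 : (cM / 2) ^ 2 ≤ (cM - η) ^ 2 := by
          apply pow_le_pow_left₀ (by positivity)
          linarith
        have e2 : B ≤ vM ^ (2 * M ^ 2) * (cM - η) ^ 2 := by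
          rw [hB]
          exact mul_le_mul_of_nonneg_left e1 (by positivity)
        linarith)
    have hV : 1 - (vM + η) ≤ L.P (A (QQ 0 D 0 g w) []) := by linarith
    have hK := kb hI hη0.le hg (by omega) (by omega) hD1 haM0.le (by linarith) hV H1 (by
      have e3 : 1000000000000 * aM = cM := by rw [haM]; ring
      linarith)
    have hal := align hI hg (by omega) (by omega) hD1 (by linarith) hV
      (fun y d h1 h2 h3 => hK false h1 h2 h3)
    exact ⟨D, hg, by omega, by omega, hη0.le, hεM0.le, haM0, by linarith [hc.c14], hal, by linarith,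
      fun e y d h1 h2 h3 => hK e h1 h2 h3⟩
  obtain ⟨D, GM⟩ := good 5 le_rfl
  refine no_rigid hI hc (J := J' + 5) (by omega) GM ?_
  intro j hj1 hj2
  obtain ⟨i, hi⟩ : ∃ i, j = J' + i := ⟨j - J', by omega⟩
  subst hi
  obtain ⟨D, G⟩ := good i (by omega)
  exact ⟨D, G.mono' hεML haLM hc.haL hc.c14⟩

end Crest.Agent.R144.Qr315
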