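import Crest.Agent.R144.Qr0_315

/-!
# R144, QRSW, file 2: deterministic cluster lemmas (helper315)

`Qd` = strip with a box and two windows; `Cl Q C c c'` = cluster `C` of the box through both windows with
its two extra sites.  `Reach s T v` = `v` is joined to `s ∞` inside `T`.
-/

set_option autoImplicit false

noncomputable section

namespace Crest.Agent.R144.Qr315

open Crest.Agent.R144.It844 (P2 adj_iff adj_symm)
open Crest.Agent.R144.Zg349 (StepIn IsConn)
open Crest.ProbabilityR.HexHeights (Adj)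

theorem adj_X {u v : P2} (h : Adj u v) :
    (v.2 = u.2 ∧ (X v = X u + 2 ∨ X v = X u - 2)) ∨
      ((v.2 = u.2 + 1 ∨ v.2 = u.2 - 1) ∧ (X v = X u + 1 ∨ X v = X u - 1)) := by
  unfold Adj at h
  unfold X
  omega

/-! ### cutting paths -/

/-- last visit of the level `a` of a function with increments at most one -/
theorem cut_ge {f : P2 → ℤ} (hf : ∀ u v, Adj u v → f v ≤ f u + 1) {S : Set P2} {u v : P2} {a : ℤ}
    (p : Cn S u v) (hu : u ∈ S) (h1 : f u ≤ a) (h2 : a ≤ f v) :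
    ∃ w ∈ S, f w = a ∧ Cn (S ∩ {x | a ≤ f x}) w v := by
  induction p with
  | refl => exact ⟨u, hu, le_antisymm h1 h2, .refl⟩
  | @tail b c _ h4 ih =>
    by_cases hc : f c = a
    · exact ⟨c, h4.2.1, hc, .refl⟩
    · have hcb := hf b c h4.2.2
      have hb : a ≤ f b := by omega
      obtain ⟨w, hw, hw1, hw2⟩ := ih hb
      exact ⟨w, hw, hw1, hw2.tail ⟨⟨h4.1, hb⟩, ⟨h4.2.1, h2⟩, h4.2.2⟩⟩

/-- first visit of the level `b` -/
theorem cut_le {f : P2 → ℤ} (hf : ∀ u v, Adj u v → f v ≤ f u + 1) {S : Set P2} {u v : P2} {b : ℤ}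
    (p : Cn S u v) (hv : v ∈ S) (h1 : f u ≤ b) (h2 : b ≤ f v) :
    ∃ w ∈ S, f w = b ∧ Cn (S ∩ {x | f x ≤ b}) u w := by
  obtain ⟨w, hw, hw1, hw2⟩ := cut_ge (f := fun x => - f x) (a := -b)
    (fun x y hxy => by have := hf y x (adj_symm hxy); omega) (Cn.symm' p) hv (by omega) (by omega)
  refine ⟨w, hw, by omega, Cn.symm' (Cn.mono' ?_ hw2)⟩
  rintro x ⟨h3, h4⟩
  refine ⟨h3, ?_⟩
  have h5 : -b ≤ - f x := h4
  show f x ≤ b
  omega

/-- a connected set which visits `{f ≤ a}` and `{f ≥ b}` contains a connected set inside `{a ≤ f ≤ b}`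
which visits both levels -/
theorem trim {f : P2 → ℤ} (hf : ∀ u v, Adj u v → f v ≤ f u + 1) {S : Set P2} (hS : IsConn S) {u v : P2}
    {a b : ℤ} (hab : a ≤ b) (hu : u ∈ S) (hv : v ∈ S) (h1 : f u ≤ a) (h2 : b ≤ f v) :
    ∃ C ⊆ S ∩ {x | a ≤ f x ∧ f x ≤ b}, IsConn C ∧ (∃ p ∈ C, f p = a) ∧ (∃ q ∈ C, f q = b) := by
  obtain ⟨w, hw, hw1, hw2⟩ := cut_ge hf (hS u hu v hv) hu h1 (hab.trans h2)
  have hvS : v ∈ S ∩ {x | a ≤ f x} := ⟨hv, hab.trans h2⟩
  obtain ⟨z, hz, hz1, hz2⟩ := cut_le hf hw2 hvS (hw1.le.trans hab) h2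
  set T : Set P2 := S ∩ {x | a ≤ f x} ∩ {x | f x ≤ b} with hT
  have hwT : w ∈ T := ⟨⟨hw, hw1.ge⟩, hw1.le.trans hab⟩
  refine ⟨{x | Cn T w x}, ?_, isConn_reach _ _, ⟨w, .refl, hw1⟩, ⟨z, hz2, hz1⟩⟩
  intro x hx
  have hx' := Cn.right_mem hx hwT
  exact ⟨hx'.1.1, hx'.1.2, hx'.2⟩

/-- first exit of a region -/
theorem first_exit {S R : Set P2} {u v : P2} (p : Cn S u v) (hu : u ∈ R) (hv : v ∉ R) :
    ∃ w ∈ R, Cn (S ∩ R) u w ∧ ∃ w', w' ∉ R ∧ Adj w w' := by
  induction p with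
  | refl => exact absurd hu hv
  | @tail b c _ h4 ih =>
    by_cases hb : b ∈ R
    · -- the path may leave and come back before `b`; use the induction on the reversed statement
      by_cases h : ∃ w ∈ R, Cn (S ∩ R) u w ∧ ∃ w', w' ∉ R ∧ Adj w w'
      · exact h
      · exfalso
        push Not at h
        have key : ∀ y, Cn S u y → y ∈ R ∧ Cn (S ∩ R) u y := by
          intro y hy
          induction hy with
          | refl => exact ⟨hu, .refl⟩
          | @tail y z _ h7 ih2 =>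
            have hz : z ∈ R := by
              by_contra hz
              exact h y ih2.1 ih2.2 z hz h7.2.2
            exact ⟨hz, ih2.2.tail ⟨⟨h7.1, ih2.1⟩, ⟨h7.2.1, hz⟩, h7.2.2⟩⟩
        rename_i h3
        exact hv (key c (h3.tail h4)).1
    · exact ih hb

/-! ### strips, rays -/

/-- strip of rows `a .. b` -/
def strp (a b : ℤ) : Set P2 := {v | a ≤ v.2 ∧ v.2 ≤ b}

theorem row_travel' {S : Set P2} {u v : P2} (hr : u.2 = v.2) (hX : X u ≤ X v)
    (h : ∀ w : P2, w.2 = u.2 → X u ≤ X w → X w ≤ X v → w ∈ S) : Cn S u v := by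
  obtain ⟨i, j⟩ := u
  obtain ⟨i', j'⟩ := v
  unfold X at *
  simp only at *
  subst hr
  obtain ⟨n, hn⟩ : ∃ n : ℕ, i' = i + n := ⟨(i' - i).toNat, by omega⟩
  subst hn
  refine row_travel n fun m h1 h2 => h (m, j) rfl ?_ ?_ <;> simp only <;> omega

/-- strips are connected -/
theorem isConn_strp (a b : ℤ) : IsConn (strp a b) := by
  intro u hu v hv
  have hrow : ∀ u v : P2, u ∈ strp a b → u.2 = v.2 → Cn (strp a b) u v := by
    intro u v hu huv
    rcases le_total (X u) (X v) with h | h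
    · refine row_travel' huv h fun w hw _ _ => ?_
      show a ≤ w.2 ∧ w.2 ≤ b
      rw [hw]; exact hu
    · refine Cn.symm' (row_travel' huv.symm h fun w hw _ _ => ?_)
      show a ≤ w.2 ∧ w.2 ≤ b
      rw [hw, ← huv]; exact hu
  have hup : ∀ (n : ℕ) (i j : ℤ), a ≤ j → j + n ≤ b → Cn (strp a b) (i, j) (i, j + n) := by
    intro n
    induction n with
    | zero => intro i j _ _; simpa using Relation.ReflTransGen.refl
    | succ n ih =>
      intro i j h1 h2
      push_cast at h2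
      refine (ih i j h1 (by omega)).tail ⟨⟨?_, ?_⟩, ⟨?_, ?_⟩, ?_⟩
      · show a ≤ j + n; omega
      · show j + n ≤ b; omega
      · show a ≤ j + ((n + 1 : ℕ) : ℤ); push_cast; omega
      · show j + ((n + 1 : ℕ) : ℤ) ≤ b; push_cast; omega
      · push_cast
        right; right; left
        constructor <;> ring
  have hup' : ∀ u v : P2, u ∈ strp a b → v ∈ strp a b → u.1 = v.1 → u.2 ≤ v.2 → Cn (strp a b) u v := by
    rintro ⟨i, j⟩ ⟨i', j'⟩ hu hv h1 h2
    simp only at h1 h2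
    subst h1
    obtain ⟨n, hn⟩ : ∃ n : ℕ, j' = j + n := ⟨(j' - j).toNat, by omega⟩
    subst hn
    exact hup n i j hu.1 hv.2
  have hmid : ((u.1, v.2) : P2) ∈ strp a b := hv
  refine Relation.ReflTransGen.trans ?_ (hrow (u.1, v.2) v hmid rfl)
  rcases le_total u.2 v.2 with h | h
  · exact hup' u (u.1, v.2) hu hmid rfl h
  · exact Cn.symm' (hup' (u.1, v.2) u hmid hu rfl h)

/-- `β` is joined to `s ∞` inside `T` -/
def Reach (s : ℤ) (T : Set P2) (β : P2) : Prop := ∀ N : ℤ, ∃ v, N ≤ s * X v ∧ Cn T β v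

theorem Reach.of_cn {s : ℤ} {T : Set P2} {β γ : P2} (h : Cn T β γ) (hr : Reach s T γ) : Reach s T β :=
  fun N => by
    obtain ⟨v, h1, h2⟩ := hr N
    exact ⟨v, h1, h.trans h2⟩

theorem reach_ray {s : ℤ} (hs : s = 1 ∨ s = -1) {T : Set P2} {w : P2}
    (h : ∀ v : P2, v.2 = w.2 → s * X w ≤ s * X v → v ∈ T) : Reach s T w := by
  intro N
  set n : ℕ := (|N| + |X w|).toNat with hn
  have hn' : (n : ℤ) = |N| + |X w| := by
    rw [hn, Int.toNat_of_nonneg (by positivity)]
  have e1 := le_abs_self N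
  have e2 := neg_abs_le (X w)
  have e3 := le_abs_self (X w)
  rcases hs with rfl | rfl
  · refine ⟨(w.1 + n, w.2), ?_, row_travel' rfl ?_ ?_⟩
    · unfold X at *; simp only; omega
    · unfold X at *; simp only; omega
    · intro v h1 h2 _
      exact h v h1 (by omega)
  · refine ⟨(w.1 - n, w.2), ?_, Cn.symm' (row_travel' rfl ?_ ?_)⟩
    · unfold X at *; simp only; omega
    · unfold X at *; simp only; omega
    · intro v h1 _ h2
      exact h v h1 (by omega)

/-! ### clusters -/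

/-- strip with a box and two windows (`false` = bottom, `true` = top) -/
structure Qd where
  a : ℤ
  b : ℤ
  S : Set P2
  W : Bool → Set P2

/-- the extra row at the end `e` -/
def Qd.ex (Q : Qd) (e : Bool) : ℤ := if e then Q.b + 1 else Q.a - 1

/-- well formed: the box lies in the strip and is bounded -/
structure Qd.Ok (Q : Qd) : Prop where
  sub : Q.S ⊆ strp Q.a Q.b
  bdd : ∃ N, ∀ v ∈ Q.S, -N ≤ X v ∧ X v ≤ N

/-- cluster of the box through both windows, with its extra sites -/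
structure Cl (Q : Qd) (C : Set P2) (c c' : Bool → P2) : Prop where
  conn : IsConn C
  sub : C ⊆ Q.S
  mem : ∀ e, c e ∈ C
  win : ∀ e, c e ∈ Q.W e
  adj : ∀ e, Adj (c e) (c' e)
  row : ∀ e, (c' e).2 = Q.ex e

/-- the cluster with its two extra sites -/
def Cp (C : Set P2) (c' : Bool → P2) : Set P2 := {v | v ∈ C ∨ ∃ e, v = c' e}

theorem Cl.conn_p {Q : Qd} {C : Set P2} {c c' : Bool → P2} (h : Cl Q C c c') : IsConn (Cp C c') := by
  have h1 := isConn_insert (isConn_insert h.conn (h.mem false) (h.adj false))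
    (Set.mem_insert_of_mem _ (h.mem true)) (h.adj true)
  have h2 : Cp C c' = insert (c' true) (insert (c' false) C) := by
    ext v
    simp only [Cp, Set.mem_ofPred_eq, Set.mem_insert_iff, Bool.exists_bool]
    tauto
  rw [h2]; exact h1

theorem Cl.rows {Q : Qd} (hQ : Q.Ok) {C : Set P2} {c c' : Bool → P2} (h : Cl Q C c c') {v : P2}
    (hv : v ∈ C) : Q.a ≤ v.2 ∧ v.2 ≤ Q.b := hQ.sub (h.sub hv)

theorem Cl.ab {Q : Qd} (hQ : Q.Ok) {C : Set P2} {c c' : Bool → P2} (h : Cl Q C c c') : Q.a ≤ Q.b := by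
  have := h.rows hQ (h.mem false)
  omega

/-- in the extra row at the end `e` there is only `c' e` -/
theorem Cl.only {Q : Qd} (hQ : Q.Ok) {C : Set P2} {c c' : Bool → P2} (h : Cl Q C c c') {v : P2} {e : Bool}
    (hv : v ∈ Cp C c') (hr : v.2 = Q.ex e) : v = c' e := by
  rcases hv with hv | ⟨e', rfl⟩
  · have h1 := h.rows hQ hv
    cases e <;> simp only [Qd.ex] at hr <;> simp at hr <;> omega
  · have h1 := h.row e'
    have h2 := h.ab hQ
    cases e <;> cases e' <;> first | rfl | (exfalso; simp [Qd.ex] at h1 hr; omega)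

theorem Cl.rows_p {Q : Qd} (hQ : Q.Ok) {C : Set P2} {c c' : Bool → P2} (h : Cl Q C c c') {v : P2}
    (hv : v ∈ Cp C c') : Q.a - 1 ≤ v.2 ∧ v.2 ≤ Q.b + 1 := by
  have hab := h.ab hQ
  rcases hv with hv | ⟨e', rfl⟩
  · have h1 := h.rows hQ hv
    omega
  · have h1 := h.row e'
    cases e' <;> simp [Qd.ex] at h1 <;> omega

theorem Cl.mem_of_rows {Q : Qd} (hQ : Q.Ok) {C : Set P2} {c c' : Bool → P2} (h : Cl Q C c c') {v : P2}
    (hv : v ∈ Cp C c') (hr : Q.a ≤ v.2 ∧ v.2 ≤ Q.b) : v ∈ C := by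
  rcases hv with hv | ⟨e', rfl⟩
  · exact hv
  · exfalso
    have h1 := h.row e'
    cases e' <;> simp [Qd.ex] at h1 <;> omega

theorem Cl.X_extra {Q : Qd} {C : Set P2} {c c' : Bool → P2} (hQ : Q.Ok) (h : Cl Q C c c') (e : Bool) :
    X (c e) - 1 ≤ X (c' e) ∧ X (c' e) ≤ X (c e) + 1 := by
  have h1 := adj_X (h.adj e)
  have h2 := h.rows hQ (h.mem e)
  have h3 := h.row e
  cases e <;> simp [Qd.ex] at h3 <;> omega

/-- the strip minus the extended cluster -/
def Cut (Q : Qd) (C : Set P2) (c' : Bool → P2) : Set P2 := strp (Q.a - 1) (Q.b + 1) \ Cp C c'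

/-- **(a)** a connected set of the strip off the cluster does not reach both ends -/
theorem not_both {Q : Qd} (hQ : Q.Ok) {C : Set P2} {c c' : Bool → P2} (h : Cl Q C c c') {B : Set P2}
    (hB : IsConn B) (hBs : B ⊆ strp Q.a Q.b) (hBC : Disjoint B C) {β1 β2 : P2} (h1 : β1 ∈ B) (h2 : β2 ∈ B)
    (r1 : Reach 1 (Cut Q C c') β1) (r2 : Reach (-1) (Cut Q C c') β2) : False := by
  have hab := h.ab hQ
  have hBT : B ⊆ Cut Q C c' := by
    intro v hv
    have hv' := hBs hv
    refine ⟨⟨?_, ?_⟩, fun hvC => ?_⟩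
    · have := hv'.1; show Q.a - 1 ≤ v.2; omega
    · have := hv'.2; show v.2 ≤ Q.b + 1; omega
    · exact Set.disjoint_left.1 hBC hv (h.mem_of_rows hQ hvC hv')
  obtain ⟨N, hN⟩ := hQ.bdd
  have hNp : ∀ v ∈ Cp C c', -(N + 1) ≤ X v ∧ X v ≤ N + 1 := by
    rintro v (hv | ⟨e, rfl⟩)
    · have := hN v (h.sub hv); omega
    · have h3 := hN _ (h.sub (h.mem e))
      have h4 := h.X_extra hQ e
      omega
  obtain ⟨v, hv1, hv2⟩ := r1 (N + 1)
  obtain ⟨u, hu1, hu2⟩ := r2 (N + 1)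
  have hβ : Cn (Cut Q C c') β1 β2 := Cn.mono' hBT (hB _ h1 _ h2)
  have hD := isConn_reach (Cut Q C c') β1
  have hsub : {x | Cn (Cut Q C c') β1 x} ⊆ Cut Q C c' := fun x hx => Cn.right_mem hx (hBT h1)
  obtain ⟨w, hw1, hw2⟩ := x1 (a := Q.a - 1) (b := Q.b + 1) h.conn_p hD
    (fun x hx => (hsub hx).1) hNp (Or.inr ⟨false, rfl⟩) (by rw [h.row]; rfl)
    (Or.inr ⟨true, rfl⟩) (by rw [h.row]; rfl) (u := u) (v := v) (hβ.trans hu2) hv2
    (fun w hw _ => by have := hNp w hw; omega) (fun w hw _ => by have := hNp w hw; omega)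
  exact (hsub hw2).2 hw1

/-- touching sets -/
def Touch (C C' : Set P2) : Prop := ∃ u ∈ C, ∃ v ∈ C', u = v ∨ Adj u v

theorem Touch.symm' {C C' : Set P2} (h : Touch C C') : Touch C' C := by
  obtain ⟨u, hu, v, hv, h⟩ := h
  refine ⟨v, hv, u, hu, ?_⟩
  rcases h with h | h
  · exact Or.inl h.symm
  · exact Or.inr (adj_symm h)

theorem Touch.conn {C C' : Set P2} (hC : IsConn C) (hC' : IsConn C') (h : Touch C C') :
    IsConn (C ∪ C') := by
  obtain ⟨u, hu, v, hv, h⟩ := h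
  rcases h with rfl | h
  · exact isConn_union hC hC' ⟨u, hu, hv⟩
  · have h1 := isConn_insert hC hu h
    have h2 : C ∪ C' = insert v C ∪ C' := by
      ext x
      simp only [Set.mem_union, Set.mem_insert_iff]
      constructor
      · rintro (h | h)
        · exact Or.inl (Or.inr h)
        · exact Or.inr h
      · rintro ((rfl | h) | h)
        · exact Or.inr hv
        · exact Or.inl h
        · exact Or.inr h
    rw [h2]
    exact isConn_union h1 hC' ⟨v, Set.mem_insert _ _, hv⟩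

theorem touch_of_inter {C C' : Set P2} (h : (C ∩ C').Nonempty) : Touch C C' := by
  obtain ⟨x, h1, h2⟩ := h
  exact ⟨x, h1, x, h2, Or.inl rfl⟩

/-- two sites of one row next to one site of the neighbouring row are equal or adjacent -/
theorem adj_of_common {u v w : P2} (h1 : Adj u w) (h2 : Adj v w) (h3 : u.2 = v.2) (h4 : w.2 ≠ u.2) :
    u = v ∨ Adj u v := by
  obtain ⟨a, b⟩ := u
  obtain ⟨c, d⟩ := v
  obtain ⟨e, f⟩ := w
  simp only [Adj, Prod.mk.injEq] at *
  omega

/-- order of windows -/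
def WOrd (s : ℤ) (W W' : Set P2) : Prop := ∀ p ∈ W, ∀ p' ∈ W', s * X p + 2 < s * X p'

/-- **(b) INNER** -/
theorem inner {Q Q' : Qd} (hQ : Q.Ok) (hQ' : Q'.Ok) (ha : Q'.a = Q.a) (hb : Q'.b = Q.b)
    {C C' : Set P2} {c c' d d' : Bool → P2} (h : Cl Q C c c') (h' : Cl Q' C' d d') {e : Bool}
    (ho : WOrd 1 (Q.W e) (Q'.W e)) {β : P2} (hβ : β ∈ strp Q.a Q.b) (hβC : β ∉ C) (hβC' : β ∉ C')
    (hR : ¬ Reach 1 (Cut Q C c') β) (hL : ¬ Reach (-1) (Cut Q' C' d') β) : Touch C C' := by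
  by_contra hT
  have hab := h.ab hQ
  have hex : Q'.ex e = Q.ex e := by unfold Qd.ex; rw [ha, hb]
  have hex2 : ∀ e, Q'.ex e = Q.ex e := by intro e; unfold Qd.ex; rw [ha, hb]
  have hXo : X (c' e) < X (d' e) := by
    have h1 := h.X_extra hQ e
    have h2 := h'.X_extra hQ' e
    have h3 := ho _ (h.win e) _ (h'.win e)
    omega
  -- the extended clusters are disjoint
  have hdis : ∀ v, v ∈ Cp C c' → v ∉ Cp C' d' := by
    intro v hv hv'
    rcases hv with hv | ⟨f, rfl⟩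
    · have hr := h.rows hQ hv
      have := h'.mem_of_rows hQ' hv' (by rw [ha, hb]; exact hr)
      exact hT ⟨v, hv, v, this, Or.inl rfl⟩
    · have h1 := h'.only hQ' hv' (e := f) (by rw [h.row, hex2])
      have h2 := h.adj f
      have h3 := h'.adj f
      rw [← h1] at h3
      have h4 := h.rows hQ (h.mem f)
      have h5 := h'.rows hQ' (h'.mem f)
      have h6 := h.row f
      have h7 : (c f).2 = (d f).2 := by
        have a1 := adj_X h2
        have a2 := adj_X h3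
        cases f <;> simp [Qd.ex] at h6 <;> omega
      have h8 : (c' f).2 ≠ (c f).2 := by
        cases f <;> simp [Qd.ex] at h6 <;> omega
      exact hT ⟨c f, h.mem f, d f, h'.mem f, adj_of_common h2 h3 h7 h8⟩
  set T0 : Set P2 := strp (Q.a - 1) (Q.b + 1) \ (Cp C c' ∪ Cp C' d') with hT0
  have hT1 : T0 ⊆ Cut Q C c' := fun x hx => ⟨hx.1, fun hh => hx.2 (Or.inl hh)⟩
  have hT2 : T0 ⊆ Cut Q' C' d' := fun x hx =>
    ⟨by rw [ha, hb]; exact hx.1, fun hh => hx.2 (Or.inr hh)⟩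
  have hβT : β ∈ T0 := by
    refine ⟨⟨?_, ?_⟩, ?_⟩
    · have := hβ.1; show Q.a - 1 ≤ β.2; omega
    · have := hβ.2; show β.2 ≤ Q.b + 1; omega
    · rintro (hh | hh)
      · exact hβC (h.mem_of_rows hQ hh hβ)
      · exact hβC' (h'.mem_of_rows hQ' hh (by rw [ha, hb]; exact hβ))
  have hCp1 : Cp C c' ⊆ Cut Q' C' d' := fun x hx =>
    ⟨by rw [ha, hb]; exact h.rows_p hQ hx, hdis x hx⟩
  have hCp2 : Cp C' d' ⊆ Cut Q C c' := fun x hx =>
    ⟨by rw [← ha, ← hb]; exact h'.rows_p hQ' hx, fun hh => hdis x hh hx⟩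
  -- rays
  have hray2 : Reach 1 (Cut Q C c') (d' e) := by
    refine reach_ray (Or.inl rfl) fun v h1 h2 => ⟨?_, fun hh => ?_⟩
    · have h3 := h'.rows_p hQ' (v := d' e) (Or.inr ⟨e, rfl⟩)
      rw [ha, hb, ← h1] at h3
      exact h3
    · have := h.only hQ hh (e := e) (by rw [h1, h'.row, hex])
      rw [this] at h2
      omega
  have hray1 : Reach (-1) (Cut Q' C' d') (c' e) := by
    refine reach_ray (Or.inr rfl) fun v h1 h2 => ⟨?_, fun hh => ?_⟩
    · have h3 := h.rows_p hQ (v := c' e) (Or.inr ⟨e, rfl⟩)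
      rw [← ha, ← hb, ← h1] at h3
      exact h3
    · have := h'.only hQ' hh (e := e) (by rw [h1, h.row, hex])
      rw [this] at h2
      omega
  -- the component of `β` has no neighbour in the clusters
  have hU2 : ∀ v w, Cn T0 β v → Adj v w → w ∈ Cp C' d' → False := by
    intro v w h1 h2 h3
    apply hR
    have h4 : Cn (Cut Q C c') β w :=
      (Cn.mono' hT1 h1).tail ⟨hT1 (Cn.right_mem h1 hβT), hCp2 h3, h2⟩
    exact Reach.of_cn (h4.trans (Cn.mono' hCp2 (h'.conn_p w h3 _ (Or.inr ⟨e, rfl⟩)))) hray2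
  have hU1 : ∀ v w, Cn T0 β v → Adj v w → w ∈ Cp C c' → False := by
    intro v w h1 h2 h3
    apply hL
    have h4 : Cn (Cut Q' C' d') β w :=
      (Cn.mono' hT2 h1).tail ⟨hT2 (Cn.right_mem h1 hβT), hCp1 h3, h2⟩
    exact Reach.of_cn (h4.trans (Cn.mono' hCp1 (h.conn_p w h3 _ (Or.inr ⟨e, rfl⟩)))) hray1
  have hall : ∀ w, Cn (strp (Q.a - 1) (Q.b + 1)) β w → Cn T0 β w := by
    intro w hw
    induction hw with
    | refl => exact .refl
    | @tail x y _ h2 ih =>
      have hy : y ∈ T0 := by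
        refine ⟨h2.2.1, ?_⟩
        rintro (hh | hh)
        · exact hU1 x y ih h2.2.2 hh
        · exact hU2 x y ih h2.2.2 hh
      exact ih.tail ⟨Cn.right_mem ih hβT, hy, h2.2.2⟩
  have hend : c' e ∈ strp (Q.a - 1) (Q.b + 1) := h.rows_p hQ (Or.inr ⟨e, rfl⟩)
  have h9 := Cn.right_mem (hall _ (isConn_strp _ _ β hβT.1 _ hend)) hβT
  exact h9.2 (Or.inl (Or.inr ⟨e, rfl⟩))

/-- **(c) OUTER**: a cluster `C'` of a smaller strip with the same extra row at the end `e`, with window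
on the side `- s` of the window of `C`, through a site which `C` cuts from `- s ∞`, touches `C` -/
theorem outer {Q q : Qd} (hQ : Q.Ok) (hq : q.Ok) {e : Bool} (hex : q.ex e = Q.ex e)
    (ha : Q.a ≤ q.a) (hb : q.b ≤ Q.b) {C C' : Set P2} {c c' d d' : Bool → P2} (h : Cl Q C c c')
    (h' : Cl q C' d d') {s : ℤ} (hs : s = 1 ∨ s = -1) (ho : WOrd s (q.W e) (Q.W e)) {β : P2}
    (hβ : β ∈ C') (hL : ¬ Reach (-s) (Cut Q C c') β) : Touch C C' := by
  by_contra hT
  have hab := h.ab hQ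
  have hXo : s * X (d' e) < s * X (c' e) := by
    have h1 := h.X_extra hQ e
    have h2 := h'.X_extra hq e
    have h3 := ho _ (h'.win e) _ (h.win e)
    rcases hs with rfl | rfl <;> omega
  have hsub : C' ⊆ Cut Q C c' := by
    intro v hv
    have h1 := h'.rows hq hv
    refine ⟨⟨?_, ?_⟩, fun hh => ?_⟩
    · show Q.a - 1 ≤ v.2; omega
    · show v.2 ≤ Q.b + 1; omega
    · have := h.mem_of_rows hQ hh (by omega)
      exact hT ⟨v, this, v, hv, Or.inl rfl⟩
  have hde : d' e ∈ Cut Q C c' := by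
    refine ⟨?_, fun hh => ?_⟩
    · have h1 := h'.row e
      rw [hex] at h1
      show Q.a - 1 ≤ (d' e).2 ∧ (d' e).2 ≤ Q.b + 1
      cases e <;> simp [Qd.ex] at h1 <;> omega
    · have := h.only hQ hh (e := e) (by rw [h'.row, hex])
      rw [this] at hXo
      omega
  have hray : Reach (-s) (Cut Q C c') (d' e) := by
    refine reach_ray (by rcases hs with rfl | rfl <;> simp) fun v h1 h2 => ⟨?_, fun hh => ?_⟩
    · have h3 := hde.1
      show Q.a - 1 ≤ v.2 ∧ v.2 ≤ Q.b + 1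
      rw [h1]; exact h3
    · have := h.only hQ hh (e := e) (by rw [h1, h'.row, hex])
      rw [this] at h2
      rcases hs with rfl | rfl <;> omega
  apply hL
  have h4 : Cn (Cut Q C c') β (d e) := Cn.mono' hsub (h'.conn β hβ _ (h'.mem e))
  exact Reach.of_cn (h4.tail ⟨hsub (h'.mem e), hde, h'.adj e⟩) hray

/-- extra neighbour at the end `e` -/
def nb (e : Bool) (u : P2) : P2 := if e then (u.1, u.2 + 1) else (u.1, u.2 - 1)

theorem adj_nb (e : Bool) (u : P2) : Adj u (nb e u) := by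
  rw [adj_iff]
  cases e <;> simp [nb]

theorem X_nb (e : Bool) (u : P2) : X (nb e u) = X u + (if e then 1 else -1) := by
  cases e <;> simp [nb, X] <;> omega

/-- **(e)** an arc over the window of a cluster (end `e`) meets the cluster -/
theorem arc {Q : Qd} (hQ : Q.Ok) {C : Set P2} {c c' : Bool → P2} (h : Cl Q C c c') {D : Set P2}
    (hD : IsConn D) (hDs : D ⊆ strp Q.a Q.b) {e : Bool} {u v : P2} (hu : u ∈ D) (hv : v ∈ D)
    (hu' : (nb e u).2 = Q.ex e) (hv' : (nb e v).2 = Q.ex e) (h1 : X u + 3 < X (c e))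
    (h2 : X (c e) + 3 < X v) : (C ∩ D).Nonempty := by
  have hab := h.ab hQ
  obtain ⟨N, hN⟩ := hQ.bdd
  have hNp : ∀ v ∈ Cp C c', -(N + 1) ≤ X v ∧ X v ≤ N + 1 := by
    rintro v (hv | ⟨e, rfl⟩)
    · have := hN v (h.sub hv); omega
    · have h3 := hN _ (h.sub (h.mem e))
      have h4 := h.X_extra hQ e
      omega
  set D' : Set P2 := insert (nb e v) (insert (nb e u) D) with hD'
  have hDc : IsConn D' := isConn_insert (isConn_insert hD hu (adj_nb e u))
    (Set.mem_insert_of_mem _ hv) (adj_nb e v)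
  have hXe := h.X_extra hQ e
  have hXu := X_nb e u
  have hXv := X_nb e v
  have hsg : (if e then (1 : ℤ) else -1) = 1 ∨ (if e then (1 : ℤ) else -1) = -1 := by
    cases e <;> simp
  have hrow : Q.a - 1 ≤ Q.ex e ∧ Q.ex e ≤ Q.b + 1 := by
    cases e <;> simp [Qd.ex] <;> omega
  obtain ⟨w, hw1, hw2⟩ := x1 (a := Q.a - 1) (b := Q.b + 1) h.conn_p hDc
    (by
      rintro x (rfl | rfl | hx)
      · rw [hv']; exact hrow
      · rw [hu']; exact hrow
      · have := hDs hx
        have e1 := this.1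
        have e2 := this.2
        omega) hNp (Or.inr ⟨false, rfl⟩) (by rw [h.row]; rfl)
    (Or.inr ⟨true, rfl⟩) (by rw [h.row]; rfl) (u := nb e u) (v := nb e v)
    (Set.mem_insert_of_mem _ (Set.mem_insert _ _)) (Set.mem_insert _ _)
    (fun w hw hw' => by
      have := h.only hQ hw (e := e) (by rw [hw', hu'])
      rw [this]; omega)
    (fun w hw hw' => by
      have := h.only hQ hw (e := e) (by rw [hw', hv'])
      rw [this]; omega)
  rcases hw2 with rfl | rfl | hw2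
  · exfalso
    have := h.only hQ hw1 (e := e) hv'
    rw [this] at hXv
    omega
  · exfalso
    have := h.only hQ hw1 (e := e) hu'
    rw [this] at hXu
    omega
  · exact ⟨w, h.mem_of_rows hQ hw1 (hDs hw2), hw2⟩

/-- **(f)** clusters of the same strip with reversed windows meet -/
theorem reversed {Q Q' : Qd} (hQ : Q.Ok) (hQ' : Q'.Ok) (ha : Q'.a = Q.a) (hb : Q'.b = Q.b)
    {C C' : Set P2} {c c' d d' : Bool → P2} (h : Cl Q C c c') (h' : Cl Q' C' d d')
    (h1 : X (c false) + 2 < X (d false)) (h2 : X (d true) + 2 < X (c true)) : (C ∩ C').Nonempty := by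
  have hab := h.ab hQ
  have hex : ∀ e, Q'.ex e = Q.ex e := by intro e; unfold Qd.ex; rw [ha, hb]
  obtain ⟨N, hN⟩ := hQ'.bdd
  have hNp : ∀ v ∈ Cp C' d', -(N + 1) ≤ X v ∧ X v ≤ N + 1 := by
    rintro v (hv | ⟨e, rfl⟩)
    · have := hN v (h'.sub hv); omega
    · have h3 := hN _ (h'.sub (h'.mem e))
      have h4 := h'.X_extra hQ' e
      omega
  have a1 := h.X_extra hQ false
  have a2 := h.X_extra hQ true
  have a3 := h'.X_extra hQ' false
  have a4 := h'.X_extra hQ' true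
  obtain ⟨w, hw1, hw2⟩ := x1 (a := Q.a - 1) (b := Q.b + 1) h'.conn_p h.conn_p
    (fun x hx => h.rows_p hQ hx) hNp (Or.inr ⟨false, rfl⟩) (by rw [h'.row, hex]; rfl)
    (Or.inr ⟨true, rfl⟩) (by rw [h'.row, hex]; rfl) (u := c' false) (v := c' true)
    (Or.inr ⟨false, rfl⟩) (Or.inr ⟨true, rfl⟩)
    (fun w hw hw' => by
      have := h'.only hQ' hw (e := false) (by rw [hw', h.row, hex])
      rw [this]; omega)
    (fun w hw hw' => by
      have := h'.only hQ' hw (e := true) (by rw [hw', h.row, hex])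
      rw [this]; omega)
  by_cases hr : Q.a ≤ w.2 ∧ w.2 ≤ Q.b
  · exact ⟨w, h.mem_of_rows hQ hw2 hr, h'.mem_of_rows hQ' hw1 (by rw [ha, hb]; exact hr)⟩
  · exfalso
    have hr2 := h.rows_p hQ hw2
    have hr3 : w.2 = Q.ex false ∨ w.2 = Q.ex true := by
      simp [Qd.ex]; omega
    rcases hr3 with hr3 | hr3
    · have b1 := h.only hQ hw2 hr3
      have b2 := h'.only hQ' hw1 (e := false) (by rw [hr3, hex])
      rw [b1] at b2
      rw [b2] at a1
      omega
    · have b1 := h.only hQ hw2 hr3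
      have b2 := h'.only hQ' hw1 (e := true) (by rw [hr3, hex])
      rw [b1] at b2
      rw [b2] at a2
      omega

end Crest.Agent.R144.Qr315
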