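import Crest.Agent.R144.Qr2_315

/-!
# R144, QRSW, file 3: events, law, symmetries (helper315)
-/

set_option autoImplicit false

noncomputable section

namespace Crest.Agent.R144.Qr315

open Crest.Agent.R144.It844 (P2 adj_iff adj_symm)
open Crest.Agent.R144.Zg349 (StepIn IsConn)
open Crest.ProbabilityR.HexHeights (Adj)

/-! ### increasing events -/

/-- the configuration contains a set with the property `Φ` -/
def Ev (Φ : Set P2 → Prop) : Set (Set P2) := {ω | ∃ C, C ⊆ ω ∧ Φ C}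

theorem Ev.upper (Φ : Set P2 → Prop) : IsUpperSet (Ev Φ) := fun _ _ h ⟨C, h1, h2⟩ =>
  ⟨C, h1.trans h, h2⟩

theorem Ev.loc {Φ : Set P2 → Prop} {W : Set P2} (h : ∀ C, Φ C → C ⊆ W) : Loc W (Ev Φ) := by
  intro ω
  constructor
  · rintro ⟨C, h1, h2⟩
    exact ⟨C, Set.subset_inter h1 (h C h2), h2⟩
  · rintro ⟨C, h1, h2⟩
    exact ⟨C, h1.trans Set.inter_subset_left, h2⟩

theorem Ev.mono {Φ Ψ : Set P2 → Prop} (h : ∀ C, Φ C → Ψ C) : Ev Φ ⊆ Ev Ψ := fun _ ⟨C, h1, h2⟩ =>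
  ⟨C, h1, h C h2⟩

theorem pre_Ev {g : P2 → P2} {Φ Ψ : Set P2 → Prop} (h : ∀ C, Φ C → Ψ (g '' C)) :
    pre g (Ev Φ) ⊆ Ev Ψ := by
  rintro ω ⟨C, h1, h2⟩
  refine ⟨g '' C, ?_, h C h2⟩
  rintro _ ⟨v, hv, rfl⟩
  exact h1 hv

theorem pre_upper (g : P2 → P2) {E : Set (Set P2)} (h : IsUpperSet E) : IsUpperSet (pre g E) :=
  fun _ _ h1 h2 => h (Set.preimage_mono h1) h2

theorem pre_loc {g : P2 → P2} {W : Set P2} (hg : ∀ v ∈ W, g v ∈ W) {E : Set (Set P2)} (h : Loc W E) :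
    Loc W (pre g E) := by
  intro ω
  show g ⁻¹' ω ∈ E ↔ g ⁻¹' (ω ∩ W) ∈ E
  rw [h (g ⁻¹' ω), h (g ⁻¹' (ω ∩ W))]
  have : g ⁻¹' ω ∩ W = g ⁻¹' (ω ∩ W) ∩ W := by
    ext v
    constructor
    · rintro ⟨h1, h2⟩
      exact ⟨⟨h1, hg v h2⟩, h2⟩
    · rintro ⟨h1, h2⟩
      exact ⟨h1.1, h2⟩
  rw [this]

/-! ### the law -/

namespace Law

variable (L : Law)

theorem le_one (A : Set (Set P2)) : L.P A ≤ 1 := by
  rw [← L.univ]; exact L.mono _ _ (Set.subset_univ _)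

theorem inter_ge (A B : Set (Set P2)) : L.P A + L.P B - 1 ≤ L.P (A ∩ B) := by
  have h1 := L.modular A B
  have h2 := L.le_one (A ∪ B)
  linarith

theorem union_le (A B : Set (Set P2)) : L.P (A ∪ B) ≤ L.P A + L.P B := by
  have h1 := L.modular A B
  have h2 := L.nonneg (A ∩ B)
  linarith

theorem compl_mul {A B : Set (Set P2)} (hA : IsUpperSet A) (hB : IsUpperSet B) :
    (1 - L.P A) * (1 - L.P B) ≤ 1 - L.P (A ∪ B) := by
  have h1 := L.modular A B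
  have h2 := L.fkg A B hA hB
  nlinarith

/-- product form for three events -/
theorem compl_mul3 {A B C : Set (Set P2)} (hA : IsUpperSet A) (hB : IsUpperSet B) (hC : IsUpperSet C) :
    (1 - L.P A) * (1 - L.P B) * (1 - L.P C) ≤ 1 - L.P (A ∪ B ∪ C) := by
  have h1 := L.compl_mul hA hB
  have h2 := L.compl_mul (hA.union hB) hC
  have h3 : 0 ≤ 1 - L.P C := by linarith [L.le_one C]
  nlinarith

/-- square root trick -/
theorem prod_le {ι : Type*} (s : Finset ι) (hs : s.Nonempty) (A : ι → Set (Set P2))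
    (hA : ∀ i, IsUpperSet (A i)) :
    ∏ i ∈ s, (1 - L.P (A i)) ≤ 1 - L.P (⋃ i ∈ s, A i) := by
  classical
  induction hs using Finset.Nonempty.cons_induction with
  | singleton a => simp
  | cons a s ha _ ih =>
    rw [Finset.cons_eq_insert, Finset.prod_insert ha, Finset.set_biUnion_insert]
    have hU : IsUpperSet (⋃ i ∈ s, A i) := isUpperSet_iUnion fun i => isUpperSet_iUnion fun _ => hA i
    have h1 := L.compl_mul (hA a) hU
    have h2 : 0 ≤ 1 - L.P (A a) := by linarith [L.le_one (A a)]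
    nlinarith

theorem exists_of_union {ι : Type*} (s : Finset ι) (hs : s.Nonempty) (A : ι → Set (Set P2))
    (hA : ∀ i, IsUpperSet (A i)) {v : ℝ} (hv : 0 ≤ v) (h : 1 - L.P (⋃ i ∈ s, A i) < v ^ s.card) : ∃ i ∈ s, 1 - v ≤ L.P (A i) := by
  by_contra hcon
  push Not at hcon
  have h1 := L.prod_le s hs A hA
  have h2 : v ^ s.card ≤ ∏ i ∈ s, (1 - L.P (A i)) := by
    rw [← Finset.prod_const]
    exact Finset.prod_le_prod (fun _ _ => hv) fun i hi => by linarith [hcon i hi]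
  linarith

variable {L}

/-- composed symmetries -/
inductive Sym (W : ℕ) : (P2 → P2) → ℝ → Prop
  | tr (a : P2) (ha : a ∈ bal 0 W) : Sym W (tr a) 1
  | rfx (a : P2) (ha : a ∈ bal 0 W) : Sym W (tr a ∘ rfx) 2
  | rot (a : P2) (ha : a ∈ bal 0 W) : Sym W (tr a ∘ rot) 2
  | rot2 (a : P2) (ha : a ∈ bal 0 W) : Sym W (tr a ∘ (rot ∘ rot)) 3

theorem rfx_bal {W : ℕ} : ∀ v ∈ bal 0 W, Qr315.rfx v ∈ bal 0 W := by
  rintro ⟨i, j⟩ ⟨h1, h2, h3⟩
  simp only [bal, Qr315.rfx, Prod.fst_zero, Prod.snd_zero, sub_zero, abs_le] at *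
  refine ⟨⟨?_, ?_⟩, ⟨?_, ?_⟩, ⟨?_, ?_⟩⟩ <;> simp only <;> omega

theorem rot_bal {W : ℕ} : ∀ v ∈ bal 0 W, Qr315.rot v ∈ bal 0 W := by
  rintro ⟨i, j⟩ ⟨h1, h2, h3⟩
  simp only [bal, Qr315.rot, Prod.fst_zero, Prod.snd_zero, sub_zero, abs_le] at *
  refine ⟨⟨?_, ?_⟩, ⟨?_, ?_⟩, ⟨?_, ?_⟩⟩ <;> simp only <;> omega

theorem pre_comp (g f : P2 → P2) (E : Set (Set P2)) : pre (g ∘ f) E = pre g (pre f E) := rfl

theorem Inv.sym {W : ℕ} {ρ : ℝ} (hI : L.Inv W ρ) {g : P2 → P2} {k : ℝ} (hg : Sym W g k)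
    {E : Set (Set P2)} (hE : IsUpperSet E) (hL : Loc (bal 0 W) E) : L.P E ≤ L.P (pre g E) + k * ρ := by
  rcases hg with ⟨a, ha⟩ | ⟨a, ha⟩ | ⟨a, ha⟩ | ⟨a, ha⟩
  · have := hI.tr E hE hL a ha
    linarith
  · have h1 := hI.rfx E hE hL
    have h2 := hI.tr _ (pre_upper Qr315.rfx hE) (pre_loc rfx_bal hL) a ha
    rw [pre_comp]
    linarith
  · have h1 := hI.rot E hE hL
    have h2 := hI.tr _ (pre_upper Qr315.rot hE) (pre_loc rot_bal hL) a ha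
    rw [pre_comp]
    linarith
  · have h1 := hI.rot E hE hL
    have h3 := hI.rot _ (pre_upper Qr315.rot hE) (pre_loc rot_bal hL)
    have h2 := hI.tr _ (pre_upper Qr315.rot (pre_upper Qr315.rot hE)) (pre_loc rot_bal (pre_loc rot_bal hL)) a ha
    rw [pre_comp, pre_comp]
    linarith

theorem Inv.ev {W : ℕ} {ρ : ℝ} (hI : L.Inv W ρ) {g : P2 → P2} {k : ℝ} (hg : Sym W g k)
    {Φ Ψ : Set P2 → Prop} (hΦ : ∀ C, Φ C → C ⊆ bal 0 W) (h : ∀ C, Φ C → Ψ (g '' C)) :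
    L.P (Ev Φ) ≤ L.P (Ev Ψ) + k * ρ := by
  have h1 := hI.sym hg (Ev.upper Φ) (Ev.loc hΦ)
  have h2 := L.mono _ _ (pre_Ev h)
  linarith

end Law

/-! ### isometries -/

/-- horizontal isometry with its inverse: `X (g v) = s X v + dx`, row shifted by `dj` -/
structure HIso (s dx dj : ℤ) (g g' : P2 → P2) : Prop where
  s1 : s = 1 ∨ s = -1
  adj : ∀ u v, Adj u v → Adj (g u) (g v)
  adj' : ∀ u v, Adj u v → Adj (g' u) (g' v)
  l : ∀ v, g' (g v) = v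
  r : ∀ v, g (g' v) = v
  X : ∀ v, X (g v) = s * X v + dx
  row : ∀ v, (g v).2 = v.2 + dj

theorem hIso_tr (a : P2) : HIso 1 (X a) a.2 (tr a) (tr (-a)) where
  s1 := Or.inl rfl
  adj := by
    intro u v h
    simp only [Adj, tr, Prod.fst_add, Prod.snd_add] at *
    omega
  adj' := by
    intro u v h
    simp only [Adj, tr, Prod.fst_add, Prod.snd_add, Prod.fst_neg, Prod.snd_neg] at *
    omega
  l := by intro v; simp [tr]
  r := by intro v; simp [tr]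
  X := by intro v; simp only [X, tr, Prod.fst_add, Prod.snd_add]; ring
  row := by intro v; rfl

theorem hIso_rfx (i : ℤ) : HIso (-1) (2 * i) 0 (tr (i, 0) ∘ rfx) (tr (i, 0) ∘ rfx) where
  s1 := Or.inr rfl
  adj := by
    intro u v h
    simp only [Adj, tr, rfx, Function.comp, Prod.fst_add, Prod.snd_add] at *
    omega
  adj' := by
    intro u v h
    simp only [Adj, tr, rfx, Function.comp, Prod.fst_add, Prod.snd_add] at *
    omega
  l := by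
    intro v
    simp only [tr, rfx, Function.comp, Prod.mk_add_mk]
    apply Prod.ext <;> simp only <;> ring
  r := by
    intro v
    simp only [tr, rfx, Function.comp, Prod.mk_add_mk]
    apply Prod.ext <;> simp only <;> ring
  X := by
    intro v
    simp only [X, tr, rfx, Function.comp, Prod.fst_add, Prod.snd_add]
    ring
  row := by intro v; simp [tr, rfx]

theorem conn_image {g : P2 → P2} (hg : ∀ u v, Adj u v → Adj (g u) (g v)) {C : Set P2} (hC : IsConn C) :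
    IsConn (g '' C) := by
  rintro _ ⟨u, hu, rfl⟩ _ ⟨v, hv, rfl⟩
  have h := hC u hu v hv
  clear hv
  induction h with
  | refl => exact .refl
  | tail _ h2 ih =>
    exact ih.tail ⟨⟨_, h2.1, rfl⟩, ⟨_, h2.2.1, rfl⟩, hg _ _ h2.2.2⟩

theorem adj_rot {u v : P2} (h : Adj u v) : Adj (rot u) (rot v) := by
  simp only [Adj, rot] at *
  omega

/-- the maps of quads -/
structure QMap (s dx dj : ℤ) (g g' : P2 → P2) (Q Q' : Qd) : Prop where
  iso : HIso s dx dj g g'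
  a : Q'.a = Q.a + dj
  b : Q'.b = Q.b + dj
  S : ∀ v ∈ Q.S, g v ∈ Q'.S
  W : ∀ e, ∀ v ∈ Q.W e, g v ∈ Q'.W e

theorem QMap.cl {s dx dj : ℤ} {g g' : P2 → P2} {Q Q' : Qd} (hm : QMap s dx dj g g' Q Q') {C : Set P2}
    {c c' : Bool → P2} (h : Cl Q C c c') : Cl Q' (g '' C) (g ∘ c) (g ∘ c') where
  conn := conn_image hm.iso.adj h.conn
  sub := by
    rintro _ ⟨v, hv, rfl⟩
    exact hm.S v (h.sub hv)
  mem := fun e => ⟨_, h.mem e, rfl⟩
  win := fun e => hm.W e _ (h.win e)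
  adj := fun e => hm.iso.adj _ _ (h.adj e)
  row := by
    intro e
    show (g (c' e)).2 = Q'.ex e
    rw [hm.iso.row, h.row]
    unfold Qd.ex
    rw [hm.a, hm.b]
    cases e <;> simp <;> ring

theorem QMap.reach {s dx dj : ℤ} {g g' : P2 → P2} {Q Q' : Qd} (hm : QMap s dx dj g g' Q Q') {C : Set P2}
    {c' : Bool → P2} {t : ℤ} {β : P2} (h : Reach (s * t) (Cut Q' (g '' C) (g ∘ c')) (g β)) :
    Reach t (Cut Q C c') β := by
  intro N
  obtain ⟨v, hv1, hv2⟩ := h (N + t * (s * dx))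
  have hss : s * s = 1 := by rcases hm.iso.s1 with h | h <;> rw [h] <;> norm_num
  refine ⟨g' v, ?_, ?_⟩
  · have h1 := hm.iso.X (g' v)
    rw [hm.iso.r] at h1
    rw [h1] at hv1
    have h2 : s * t * (s * X (g' v) + dx) = (s * s) * (t * X (g' v)) + t * (s * dx) := by ring
    rw [h2, hss] at hv1
    linarith
  · have key : ∀ x y, Cn (Cut Q' (g '' C) (g ∘ c')) x y → Cn (Cut Q C c') (g' x) (g' y) := by
      have hin : ∀ x ∈ Cut Q' (g '' C) (g ∘ c'), g' x ∈ Cut Q C c' := by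
        rintro x ⟨⟨h1, h2⟩, h3⟩
        have hr := hm.iso.row (g' x)
        rw [hm.iso.r] at hr
        rw [hm.a] at h1
        rw [hm.b] at h2
        refine ⟨⟨?_, ?_⟩, ?_⟩
        · show Q.a - 1 ≤ (g' x).2; omega
        · show (g' x).2 ≤ Q.b + 1; omega
        · rintro (h4 | ⟨e, h4⟩)
          · exact h3 (Or.inl ⟨_, h4, hm.iso.r x⟩)
          · refine h3 (Or.inr ⟨e, ?_⟩)
            show x = g (c' e)
            rw [← h4, hm.iso.r]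
      intro x y hxy
      induction hxy with
      | refl => exact .refl
      | tail _ h2 ih => exact ih.tail ⟨hin _ h2.1, hin _ h2.2.1, hm.iso.adj' _ _ h2.2.2⟩
    have := key _ _ hv2
    rwa [hm.iso.l] at this

/-! ### the events -/

/-- there is a cluster of `Q` which meets all sets of the list `B` -/
def AΦ (Q : Qd) (B : List (Set P2)) (C : Set P2) : Prop :=
  (∃ c c', Cl Q C c c') ∧ ∀ S ∈ B, (C ∩ S).Nonempty

/-- `A Q B` : a blue cluster of `Q` meets all sets of the list -/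
def A (Q : Qd) (B : List (Set P2)) : Set (Set P2) := Ev (AΦ Q B)

def EΦ (s : ℤ) (Q : Qd) (B : Set P2) (C : Set P2) : Prop :=
  ∃ c c', Cl Q C c c' ∧ (∀ β ∈ B, β ∉ C) ∧ ∀ β ∈ B, β ∈ strp Q.a Q.b → ¬ Reach s (Cut Q C c') β

/-- `E s Q B` : a blue cluster of `Q` misses `B` and cuts it from `s ∞` -/
def E (s : ℤ) (Q : Qd) (B : Set P2) : Set (Set P2) := Ev (EΦ s Q B)

def ConΦ (S W W' : Set P2) (C : Set P2) : Prop :=
  IsConn C ∧ C ⊆ S ∧ (∃ p ∈ C, p ∈ W) ∧ (∃ p ∈ C, p ∈ W')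

/-- `Con S W W'` : a blue connected set of `S` meets `W` and `W'` -/
def Con (S W W' : Set P2) : Set (Set P2) := Ev (ConΦ S W W')

theorem A_upper (Q : Qd) (B : List (Set P2)) : IsUpperSet (A Q B) := Ev.upper _
theorem E_upper (s : ℤ) (Q : Qd) (B : Set P2) : IsUpperSet (E s Q B) := Ev.upper _
theorem Con_upper (S W W' : Set P2) : IsUpperSet (Con S W W') := Ev.upper _

theorem A_anti {Q : Qd} {B B' : List (Set P2)} (h : ∀ S ∈ B', ∃ T ∈ B, T ⊆ S) : A Q B ⊆ A Q B' :=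
  Ev.mono fun C hC => ⟨hC.1, fun S hS => by
    obtain ⟨T, h1, h2⟩ := h S hS
    exact (hC.2 T h1).mono (Set.inter_subset_inter_right _ h2)⟩

theorem Con_mono {S W W' T U U' : Set P2} (h1 : S ⊆ T) (h2 : W ⊆ U) (h3 : W' ⊆ U') :
    Con S W W' ⊆ Con T U U' := Ev.mono fun C hC => by
  obtain ⟨a, b, ⟨p, hp, hp'⟩, q, hq, hq'⟩ := hC
  exact ⟨a, b.trans h1, ⟨p, hp, h2 hp'⟩, q, hq, h3 hq'⟩

/-- **(a)** -/
theorem incl_a {Q : Qd} (hQ : Q.Ok) (L : List (Set P2)) {B : Set P2} (hB : IsConn (B ∩ strp Q.a Q.b)) :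
    A Q L ⊆ A Q (B :: L) ∪ E 1 Q B ∪ E (-1) Q B := by
  rintro ω ⟨C, hC, ⟨c, c', hcl⟩, hm⟩
  by_cases hB0 : ∃ β ∈ B, β ∈ C
  · left; left
    refine ⟨C, hC, ⟨c, c', hcl⟩, ?_⟩
    intro S hS
    rcases List.mem_cons.1 hS with rfl | hS
    · obtain ⟨β, h1, h2⟩ := hB0
      exact ⟨β, h2, h1⟩
    · exact hm S hS
  · push Not at hB0
    by_cases h1 : ∀ β ∈ B, β ∈ strp Q.a Q.b → ¬ Reach 1 (Cut Q C c') β
    · left; right
      exact ⟨C, hC, c, c', hcl, hB0, h1⟩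
    · by_cases h2 : ∀ β ∈ B, β ∈ strp Q.a Q.b → ¬ Reach (-1) (Cut Q C c') β
      · right
        exact ⟨C, hC, c, c', hcl, hB0, h2⟩
      · exfalso
        push Not at h1 h2
        obtain ⟨β1, a1, a2, a3⟩ := h1
        obtain ⟨β2, b1, b2, b3⟩ := h2
        exact not_both hQ hcl hB Set.inter_subset_right
          (Set.disjoint_left.2 fun x hx hx' => hB0 x hx.1 hx') ⟨a1, a2⟩ ⟨b1, b2⟩ a3 b3

/-- **(b)** -/
theorem incl_b {Q Q' : Qd} (hQ : Q.Ok) (hQ' : Q'.Ok) (ha : Q'.a = Q.a) (hb : Q'.b = Q.b) {e : Bool}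
    (ho : WOrd 1 (Q.W e) (Q'.W e)) {B : Set P2} {z : P2} (hz : z ∈ B) (hz' : z ∈ strp Q.a Q.b) :
    E 1 Q B ∩ E (-1) Q' B ⊆ Con (Q.S ∪ Q'.S) (Q.W e) (Q'.W e) := by
  rintro ω ⟨⟨C, hC, c, c', hcl, h1, h2⟩, ⟨C', hC', d, d', hcl', h1', h2'⟩⟩
  have hT := inner hQ hQ' ha hb hcl hcl' ho hz' (h1 z hz) (h1' z hz) (h2 z hz hz')
    (h2' z hz (by rw [ha, hb]; exact hz'))
  exact ⟨C ∪ C', Set.union_subset hC hC', hT.conn hcl.conn hcl'.conn,
    Set.union_subset_union hcl.sub hcl'.sub, ⟨_, Or.inl (hcl.mem e), hcl.win e⟩,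
    _, Or.inr (hcl'.mem e), hcl'.win e⟩

/-- **(c)** -/
theorem incl_c {Q q : Qd} (hQ : Q.Ok) (hq : q.Ok) {e : Bool} (hex : q.ex e = Q.ex e)
    (ha : Q.a ≤ q.a) (hb : q.b ≤ Q.b) {s : ℤ} (hs : s = 1 ∨ s = -1) (ho : WOrd s (q.W e) (Q.W e))
    {B : Set P2} :
    E (-s) Q B ∩ A q [B] ⊆ Con (Q.S ∪ q.S) (q.W e) (Q.W e) := by
  rintro ω ⟨⟨C, hC, c, c', hcl, _, h2⟩, ⟨C', hC', ⟨d, d', hcl'⟩, hm⟩⟩
  obtain ⟨β, hβ, hβB⟩ := hm B (List.mem_singleton.2 rfl)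
  have hr := hcl'.rows hq hβ
  have hT := outer hQ hq hex ha hb hcl hcl' hs ho hβ
    (h2 β hβB ⟨by show Q.a ≤ β.2; omega, by show β.2 ≤ Q.b; omega⟩)
  exact ⟨C ∪ C', Set.union_subset hC hC', hT.conn hcl.conn hcl'.conn,
    Set.union_subset_union hcl.sub hcl'.sub, ⟨_, Or.inr (hcl'.mem e), hcl'.win e⟩,
    _, Or.inl (hcl.mem e), hcl.win e⟩

/-- **(d)** -/
theorem incl_d {Q : Qd} (hQ : Q.Ok) {B B' : Set P2} (hB : IsConn (B ∩ strp Q.a Q.b))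
    (hB' : IsConn (B' ∩ strp Q.a Q.b)) :
    A Q [] ∩ Con Q.S B B' ⊆ A Q [B] ∪ A Q [B'] ∪ (E 1 Q B ∪ E (-1) Q B') := by
  rintro ω ⟨⟨C, hC, ⟨c, c', hcl⟩, _⟩, ⟨D, hD, hDc, hDS, ⟨p, hp, hpB⟩, q, hq, hqB⟩⟩
  by_cases hB0 : ∃ β ∈ B, β ∈ C
  · left; left
    refine ⟨C, hC, ⟨c, c', hcl⟩, ?_⟩
    intro S hS
    rw [List.mem_singleton.1 hS]
    obtain ⟨β, h1, h2⟩ := hB0
    exact ⟨β, h2, h1⟩
  by_cases hB1 : ∃ β ∈ B', β ∈ C
  · left; right
    refine ⟨C, hC, ⟨c, c', hcl⟩, ?_⟩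
    intro S hS
    rw [List.mem_singleton.1 hS]
    obtain ⟨β, h1, h2⟩ := hB1
    exact ⟨β, h2, h1⟩
  push Not at hB0 hB1
  by_cases hCD : (C ∩ D).Nonempty
  · left; left
    refine ⟨C ∪ D, Set.union_subset hC hD, ⟨c, c', ?_⟩, ?_⟩
    · exact ⟨isConn_union hcl.conn hDc hCD, Set.union_subset hcl.sub hDS, fun e => Or.inl (hcl.mem e),
        hcl.win, hcl.adj, hcl.row⟩
    · intro S hS
      rw [List.mem_singleton.1 hS]
      exact ⟨p, Or.inr hp, hpB⟩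
  right
  by_cases h1 : ∀ β ∈ B, β ∈ strp Q.a Q.b → ¬ Reach 1 (Cut Q C c') β
  · left
    exact ⟨C, hC, c, c', hcl, hB0, h1⟩
  by_cases h2 : ∀ β ∈ B', β ∈ strp Q.a Q.b → ¬ Reach (-1) (Cut Q C c') β
  · right
    exact ⟨C, hC, c, c', hcl, hB1, h2⟩
  exfalso
  push Not at h1 h2
  obtain ⟨β1, a1, a2, a3⟩ := h1
  obtain ⟨β2, b1, b2, b3⟩ := h2
  have hDs : D ⊆ strp Q.a Q.b := hDS.trans hQ.sub
  have hU1 : IsConn ((B ∩ strp Q.a Q.b) ∪ D) := isConn_union hB hDc ⟨p, ⟨hpB, hDs hp⟩, hp⟩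
  have hU2 : IsConn (((B ∩ strp Q.a Q.b) ∪ D) ∪ (B' ∩ strp Q.a Q.b)) :=
    isConn_union hU1 hB' ⟨q, Or.inr hq, hqB, hDs hq⟩
  refine not_both hQ hcl hU2 ?_ ?_ (Or.inl (Or.inl ⟨a1, a2⟩)) (Or.inr ⟨b1, b2⟩) a3 b3
  · exact Set.union_subset (Set.union_subset Set.inter_subset_right hDs) Set.inter_subset_right
  · rw [Set.disjoint_left]
    rintro x ((hx | hx) | hx) hx'
    · exact hB0 x hx.1 hx'
    · exact hCD ⟨x, hx', hx⟩
    · exact hB1 x hx.1 hx'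

/-! ### transport of the events -/

theorem A_map {L : Law} {W : ℕ} {ρ k : ℝ} (hI : L.Inv W ρ) {s dx dj : ℤ} {g g' : P2 → P2} {Q Q' : Qd}
    (hm : QMap s dx dj g g' Q Q') (hg : Law.Sym W g k) (hS : Q.S ⊆ bal 0 W) {B B' : List (Set P2)}
    (hB : ∀ S' ∈ B', ∃ S ∈ B, ∀ v ∈ S, g v ∈ S') : L.P (A Q B) ≤ L.P (A Q' B') + k * ρ := by
  refine hI.ev hg (fun C hC => ?_) fun C hC => ?_
  · obtain ⟨⟨c, c', h⟩, _⟩ := hC
    exact h.sub.trans hS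
  · obtain ⟨⟨c, c', h⟩, h2⟩ := hC
    refine ⟨⟨_, _, hm.cl h⟩, ?_⟩
    intro S' hS'
    obtain ⟨S, h3, h4⟩ := hB S' hS'
    obtain ⟨x, hx1, hx2⟩ := h2 S h3
    exact ⟨g x, ⟨x, hx1, rfl⟩, h4 x hx2⟩

theorem E_map {L : Law} {W : ℕ} {ρ k : ℝ} (hI : L.Inv W ρ) {s dx dj : ℤ} {g g' : P2 → P2} {Q Q' : Qd}
    (hm : QMap s dx dj g g' Q Q') (hg : Law.Sym W g k) (hS : Q.S ⊆ bal 0 W) {t : ℤ} {B B' : Set P2}
    (hB : ∀ v ∈ B', g' v ∈ B) : L.P (E t Q B) ≤ L.P (E (s * t) Q' B') + k * ρ := by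
  refine hI.ev hg (fun C hC => ?_) fun C hC => ?_
  · obtain ⟨c, c', h, _⟩ := hC
    exact h.sub.trans hS
  · obtain ⟨c, c', h, h2, h3⟩ := hC
    refine ⟨_, _, hm.cl h, ?_, ?_⟩
    · rintro β hβ ⟨x, hx, rfl⟩
      have := hB _ hβ
      rw [hm.iso.l] at this
      exact h2 x this hx
    · intro β hβ hβs hr
      have hr' := hm.iso.row (g' β)
      rw [hm.iso.r] at hr'
      have h4 : g' β ∈ strp Q.a Q.b := by
        have e1 : Q'.a ≤ β.2 := hβs.1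
        have e2 : β.2 ≤ Q'.b := hβs.2
        rw [hm.a] at e1
        rw [hm.b] at e2
        exact ⟨by show Q.a ≤ (g' β).2; omega, by show (g' β).2 ≤ Q.b; omega⟩
      refine h3 (g' β) (hB β hβ) h4 (hm.reach ?_)
      rw [hm.iso.r]
      exact hr

theorem Con_map {L : Law} {W : ℕ} {ρ k : ℝ} (hI : L.Inv W ρ) {g : P2 → P2} (hg : Law.Sym W g k)
    (hadj : ∀ u v, Adj u v → Adj (g u) (g v)) {S U U' T V V' : Set P2} (hS : S ⊆ bal 0 W)
    (h1 : ∀ v ∈ S, g v ∈ T) (h2 : ∀ v ∈ U, v ∈ S → g v ∈ V) (h3 : ∀ v ∈ U', v ∈ S → g v ∈ V') :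
    L.P (Con S U U') ≤ L.P (Con T V V') + k * ρ := by
  refine hI.ev hg (fun C hC => hC.2.1.trans hS) fun C hC => ?_
  obtain ⟨a, b, ⟨p, hp, hp'⟩, q, hq, hq'⟩ := hC
  refine ⟨conn_image hadj a, ?_, ⟨g p, ⟨p, hp, rfl⟩, h2 p hp' (b hp)⟩, g q, ⟨q, hq, rfl⟩,
    h3 q hq' (b hq)⟩
  rintro _ ⟨v, hv, rfl⟩
  exact h1 v (b hv)

end Crest.Agent.R144.Qr315
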