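import Crest.Agent.R144.Qr3_315

/-!
# R144, QRSW, file 4: K bound, alignment, GP lemma, W move (helper315)

One size: `h = 10^12 k`, windows of half-width `k`, basic distance `1000 k`.
-/

set_option autoImplicit false

noncomputable section

namespace Crest.Agent.R144.Qr315

open Crest.Agent.R144.It844 (P2 adj_iff adj_symm)
open Crest.Agent.R144.Zg349 (StepIn IsConn)
open Crest.ProbabilityR.HexHeights (Adj)

/-! ### boxes, windows, balls -/

def Bx (x l a b : ℤ) : Set P2 := {v | a ≤ v.2 ∧ v.2 ≤ b ∧ x - l ≤ X v ∧ X v ≤ x + l}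

def Wn (x w j : ℤ) : Set P2 := {v | v.2 = j ∧ x - w ≤ X v ∧ X v ≤ x + w}

/-- standard quad: rows `j .. j + h`, bottom window at `x`, top window at `x + D`, half-width `w` -/
def QQ (x D j h w : ℤ) : Qd :=
  ⟨j, j + h, Bx x (60 * h) j (j + h), fun e => if e then Wn (x + D) w (j + h) else Wn x w j⟩

theorem QQ_ok (x D j h w : ℤ) : (QQ x D j h w).Ok where
  sub := fun _ hv => ⟨hv.1, hv.2.1⟩
  bdd := by
    refine ⟨|x| + 60 * h, fun v hv => ?_⟩
    have h1 := hv.2.2.1
    have h2 := hv.2.2.2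
    have h3 := neg_abs_le x
    have h4 := le_abs_self x
    constructor <;> omega

theorem mem_bal_of {v : P2} {W : ℕ} (h1 : |X v| ≤ W) (h2 : |v.2| ≤ W) : v ∈ bal 0 W := by
  unfold X at h1
  simp only [bal, Prod.fst_zero, Prod.snd_zero, sub_zero, abs_le] at *
  refine ⟨⟨?_, ?_⟩, ⟨?_, ?_⟩, ⟨?_, ?_⟩⟩ <;> omega

theorem Bx_bal {x l a b : ℤ} {W : ℕ} (h1 : |x| + l ≤ W) (h2 : -(W : ℤ) ≤ a) (h3 : b ≤ W) :
    Bx x l a b ⊆ bal 0 W := by
  intro v hv
  obtain ⟨a1, a2, a3, a4⟩ := hv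
  have h4 := neg_abs_le x
  have h5 := le_abs_self x
  apply mem_bal_of <;> rw [abs_le] <;> constructor <;> omega

theorem isConn_bal_strp {z : P2} {r a b : ℤ} (hz : z ∈ strp a b) : IsConn (bal z r ∩ strp a b) := by
  have key : ∀ n : ℕ, ∀ v : P2, v ∈ bal z r ∩ strp a b →
      (v.1 - z.1).natAbs + (v.2 - z.2).natAbs = n → Cn (bal z r ∩ strp a b) z v := by
    intro n
    induction n using Nat.strong_induction_on with
    | _ n ih =>
      rintro v hv hn
      by_cases h0 : v = z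
      · rw [h0]
      · obtain ⟨w, hw, hadj, hlt⟩ : ∃ w, w ∈ bal z r ∩ strp a b ∧ Adj w v ∧
            (w.1 - z.1).natAbs + (w.2 - z.2).natAbs < n := by
          obtain ⟨i, j⟩ := v
          obtain ⟨i0, j0⟩ := z
          have hne : ¬ (i = i0 ∧ j = j0) := fun h => h0 (Prod.ext h.1 h.2)
          obtain ⟨⟨b1, b2, b3⟩, s1, s2⟩ := hv
          obtain ⟨t1, t2⟩ := hz
          simp only [bal, strp, Adj, Set.mem_inter_iff, Set.mem_ofPred_eq, abs_le] at *
          by_cases c1 : i > i0 ∧ j < j0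
          · exact ⟨(i - 1, j + 1), ⟨⟨by omega, by omega, by omega⟩, by omega, by omega⟩, by omega,
              by omega⟩
          by_cases c2 : i < i0 ∧ j > j0
          · exact ⟨(i + 1, j - 1), ⟨⟨by omega, by omega, by omega⟩, by omega, by omega⟩, by omega,
              by omega⟩
          by_cases c3 : i > i0
          · exact ⟨(i - 1, j), ⟨⟨by omega, by omega, by omega⟩, by omega, by omega⟩, by omega,
              by omega⟩
          by_cases c4 : i < i0
          · exact ⟨(i + 1, j), ⟨⟨by omega, by omega, by omega⟩, by omega, by omega⟩, by omega,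
              by omega⟩
          by_cases c5 : j > j0
          · exact ⟨(i, j - 1), ⟨⟨by omega, by omega, by omega⟩, by omega, by omega⟩, by omega,
              by omega⟩
          · exact ⟨(i, j + 1), ⟨⟨by omega, by omega, by omega⟩, by omega, by omega⟩, by omega,
              by omega⟩
        exact (ih _ hlt w hw rfl).tail ⟨hw, hv, hadj⟩
  exact isConn_of_base z fun v hv => key _ v hv rfl

theorem Con_symm (S W W' : Set P2) : Con S W W' ⊆ Con S W' W :=
  Ev.mono fun _ ⟨a, b, c, d⟩ => ⟨a, b, d, c⟩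

/-! ### translations of the standard objects -/

theorem qmap_tr (a : P2) (x D j h w : ℤ) :
    QMap 1 (X a) a.2 (tr a) (tr (-a)) (QQ x D j h w) (QQ (x + X a) D (j + a.2) h w) where
  iso := hIso_tr a
  a := rfl
  b := by show j + a.2 + h = j + h + a.2; ring
  S := by
    rintro v ⟨h1, h2, h3, h4⟩
    have hX := (hIso_tr a).X v
    have hr := (hIso_tr a).row v
    refine ⟨?_, ?_, ?_, ?_⟩ <;> omega
  W := by
    intro e v hv
    have hX := (hIso_tr a).X v
    have hr := (hIso_tr a).row v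
    cases e
    · obtain ⟨h1, h2, h3⟩ := hv
      refine ⟨?_, ?_, ?_⟩ <;> omega
    · obtain ⟨h1, h2, h3⟩ := hv
      refine ⟨?_, ?_, ?_⟩ <;> omega

theorem qmap_rfx (i : ℤ) (x D j h w : ℤ) :
    QMap (-1) (2 * i) 0 (tr (i, 0) ∘ rfx) (tr (i, 0) ∘ rfx) (QQ x D j h w)
      (QQ (2 * i - x) (-D) j h w) where
  iso := hIso_rfx i
  a := by show j = j + 0; ring
  b := by show j + h = j + h + 0; ring
  S := by
    rintro v ⟨h1, h2, h3, h4⟩
    have hX := (hIso_rfx i).X v
    have hr := (hIso_rfx i).row v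
    refine ⟨?_, ?_, ?_, ?_⟩ <;> omega
  W := by
    intro e v hv
    have hX := (hIso_rfx i).X v
    have hr := (hIso_rfx i).row v
    cases e
    · obtain ⟨h1, h2, h3⟩ := hv
      refine ⟨?_, ?_, ?_⟩ <;> omega
    · obtain ⟨h1, h2, h3⟩ := hv
      refine ⟨?_, ?_, ?_⟩ <;> omega

/-! ### K bound -/

/-- window centre and row at the end `e` -/
def wx (x D : ℤ) (e : Bool) : ℤ := if e then x + D else x
def er (j h : ℤ) (e : Bool) : ℤ := if e then j + h else j

theorem QQ_W (x D j h w : ℤ) (e : Bool) : (QQ x D j h w).W e = Wn (wx x D e) w (er j h e) := by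
  cases e <;> rfl

theorem QQ_ex (x D j h w : ℤ) (e : Bool) :
    (QQ x D j h w).ex e = if e then er j h e + 1 else er j h e - 1 := by
  cases e <;> rfl

/-- hard crossing of the canonical strip of size `h` -/
def Hd (h : ℤ) : Set (Set P2) := Con (Bx 0 (200 * h) 0 h) {v | X v ≤ -(6 * h)} {v | 6 * h ≤ X v}

/-- gluing of an arc, a cluster over its right part and the next arc -/
theorem glue_arc {x D h w : ℤ} {e : Bool} {S S' : Set P2} {y0 y1 y2 y3 : ℤ}
    (hS : S ⊆ strp 0 h) (hS' : S' ⊆ strp 0 h)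
    (h1 : y0 + w + 3 < wx x D e - w) (h2 : wx x D e + w + 3 < y1 - w)
    (h3 : y2 + w + 3 < wx x D e - w) (h4 : wx x D e + w + 3 < y3 - w) :
    Con S (Wn y0 w (er 0 h e)) (Wn y1 w (er 0 h e)) ∩ A (QQ x D 0 h w) [] ∩
        Con S' (Wn y2 w (er 0 h e)) (Wn y3 w (er 0 h e)) ⊆
      Con (S ∪ (QQ x D 0 h w).S ∪ S') (Wn y0 w (er 0 h e)) (Wn y3 w (er 0 h e)) := by
  rintro ω ⟨⟨⟨D1, a1, a2, a3, ⟨u, hu, hu'⟩, v, hv, hv'⟩, ⟨C, b1, ⟨c, c', hcl⟩, _⟩⟩,
    ⟨D2, d1, d2, d3, ⟨p, hp, hp'⟩, q, hq, hq'⟩⟩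
  have hQ := QQ_ok x D 0 h w
  have hwin := hcl.win e
  rw [QQ_W] at hwin
  obtain ⟨w1, w2, w3⟩ := hwin
  obtain ⟨u1, u2, u3⟩ := hu'
  obtain ⟨v1, v2, v3⟩ := hv'
  obtain ⟨p1, p2, p3⟩ := hp'
  obtain ⟨q1, q2, q3⟩ := hq'
  have hS2 : S ⊆ strp (QQ x D 0 h w).a (QQ x D 0 h w).b := by
    show S ⊆ strp 0 (0 + h)
    rw [zero_add]; exact hS
  have hS2' : S' ⊆ strp (QQ x D 0 h w).a (QQ x D 0 h w).b := by
    show S' ⊆ strp 0 (0 + h)
    rw [zero_add]; exact hS'
  have hex : ∀ t : P2, t.2 = er 0 h e → (nb e t).2 = (QQ x D 0 h w).ex e := by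
    intro t ht
    rw [QQ_ex]
    cases e <;> simp [nb, ht]
  have m1 := arc hQ hcl a2 (a3.trans hS2) (e := e) hu hv (hex u u1) (hex v v1) (by omega) (by omega)
  have m2 := arc hQ hcl d2 (d3.trans hS2') (e := e) hp hq (hex p p1) (hex q q1) (by omega) (by omega)
  have c1 : IsConn (D1 ∪ C) := by
    rw [Set.union_comm]
    exact isConn_union hcl.conn a2 m1
  have c2 : IsConn (D1 ∪ C ∪ D2) := by
    refine isConn_union c1 d2 ?_
    obtain ⟨t, t1, t2⟩ := m2
    exact ⟨t, Or.inr t1, t2⟩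
  refine ⟨D1 ∪ C ∪ D2, Set.union_subset (Set.union_subset a1 b1) d1, c2, ?_,
    ⟨u, Or.inl (Or.inl hu), u1, u2, u3⟩, q, Or.inr hq, q1, q2, q3⟩
  exact Set.union_subset_union (Set.union_subset_union a3 hcl.sub) d3

variable {L : Law} {W : ℕ} {ρ : ℝ}

/-- translated cluster events -/
theorem A_shift (hI : L.Inv W ρ) {x x' D j j' h w : ℤ} (a : P2) (hx : x' = x + X a) (hj : j' = j + a.2)
    (ha : a ∈ bal 0 W) (hS : (QQ x D j h w).S ⊆ bal 0 W) {B B' : List (Set P2)}
    (hB : ∀ S' ∈ B', ∃ S ∈ B, ∀ v ∈ S, tr a v ∈ S') :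
    L.P (A (QQ x D j h w) B) ≤ L.P (A (QQ x' D j' h w) B') + ρ := by
  subst hx hj
  have := A_map hI (qmap_tr a x D j h w) (.tr a ha) hS hB
  linarith

theorem Con_shift (hI : L.Inv W ρ) (a : P2) (ha : a ∈ bal 0 W) {S U U' T V V' : Set P2}
    (hS : S ⊆ bal 0 W) (h1 : ∀ v ∈ S, tr a v ∈ T) (h2 : ∀ v ∈ U, v ∈ S → tr a v ∈ V)
    (h3 : ∀ v ∈ U', v ∈ S → tr a v ∈ V') : L.P (Con S U U') ≤ L.P (Con T V V') + ρ := by
  have := Con_map hI (.tr a ha) (hIso_tr a).adj hS h1 h2 h3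
  linarith

theorem X_tr (a v : P2) : X (tr a v) = X v + X a := by
  have := (hIso_tr a).X v
  omega

theorem row_tr (a v : P2) : (tr a v).2 = v.2 + a.2 := rfl

theorem X_mk0 (p : ℤ) : X ((p, 0) : P2) = 2 * p := by
  unfold X; simp

/-- **(3.1) K BOUND.** -/
theorem kb (hI : L.Inv W ρ) (hρ : 0 ≤ ρ) {h k D : ℤ} (hh : h = 1000000000000 * k) (hk : 1 ≤ k)
    (hW : 10000 * h ≤ W) (hD : |D| ≤ 60 * h) {ε c a0 : ℝ} (ha0 : 0 ≤ a0) (hε : 0 ≤ ε)
    (hV : 1 - ε ≤ L.P (A (QQ 0 D 0 h k) [])) (hH : L.P (Hd h) ≤ 1 - c)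
    (hN : 100000000000 * (a0 + ε + 2 * ρ) < c) (e : Bool) {y d : ℤ}
    (hy : |y| ≤ 100 * h) (hd1 : 1000 * k ≤ d) (hd2 : d ≤ 10 * h) :
    L.P (Con (Bx y (100 * h) 0 h) (Wn y k (er 0 h e)) (Wn (y + d) k (er 0 h e))) ≤ 1 - a0 := by
  by_contra hcon
  push Not at hcon
  rw [abs_le] at hy hD
  obtain ⟨m, hm⟩ : ∃ m : ℤ, m = d / 4 := ⟨_, rfl⟩
  have hm1 : 249 * k ≤ m := by omega
  have hm2 : 4 * m ≤ d := by omega
  have hm3 : d < 4 * m + 4 := by omega
  -- number of arcs
  obtain ⟨N, hN1, hN2, hN3⟩ : ∃ N : ℕ, 7 * h ≤ N * m ∧ (N : ℤ) * m ≤ 7 * h + m ∧ (N : ℝ) ≤ 90000000000 := by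
    have h0 : 0 ≤ 7 * h / m := Int.ediv_nonneg (by omega) (by omega)
    have h1 : 0 ≤ 7 * h / m + 1 := by omega
    have h2 := Int.lt_ediv_add_one_mul_self (7 * h) (show 0 < m by omega)
    have h3 := Int.ediv_mul_le (7 * h) (show m ≠ 0 by omega)
    refine ⟨(7 * h / m + 1).toNat, ?_, ?_, ?_⟩
    · rw [Int.toNat_of_nonneg h1]
      exact h2.le
    · rw [Int.toNat_of_nonneg h1]
      linarith
    · have h3 : 7 * h / m + 1 ≤ 90000000000 := by
        have h4 : 7 * h / m ≤ 89999999999 := by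
          apply Int.ediv_le_of_le_mul (by omega)
          omega
        omega
      have h6 : (((7 * h / m + 1).toNat : ℤ)) ≤ 90000000000 := by
        rw [Int.toNat_of_nonneg h1]; exact h3
      exact_mod_cast h6
  -- the chain
  have chain : ∀ i : ℕ, i ≤ N → 1 - a0 - i * (a0 + ε + 2 * ρ) ≤
      L.P (Con (Bx y (160 * h) 0 h) (Wn y k (er 0 h e)) (Wn (y + d + 2 * (i * m)) k (er 0 h e))) := by
    intro i
    induction i with
    | zero =>
      intro _
      have h1 : Con (Bx y (100 * h) 0 h) (Wn y k (er 0 h e)) (Wn (y + d) k (er 0 h e)) ⊆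
          Con (Bx y (160 * h) 0 h) (Wn y k (er 0 h e)) (Wn (y + d) k (er 0 h e)) := by
        apply Con_mono
        · rintro v ⟨a, b, c, d⟩
          refine ⟨a, b, ?_, ?_⟩ <;> omega
        · exact subset_rfl
        · exact subset_rfl
      have h2 := L.mono _ _ h1
      simp only [Nat.cast_zero, zero_mul, mul_zero, add_zero, sub_zero]
      linarith
    | succ i ih =>
      intro hi
      have hi' : i ≤ N := by omega
      have h1 := ih hi'
      have hi2 : (i : ℤ) + 1 ≤ N := by exact_mod_cast hi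
      have him' : ((i : ℤ) + 1) * m ≤ 7 * h + m := by
        have : ((i : ℤ) + 1) * m ≤ N * m := mul_le_mul_of_nonneg_right hi2 (by omega)
        omega
      have him0 : 0 ≤ (i : ℤ) * m := mul_nonneg (Int.natCast_nonneg i) (by omega)
      obtain ⟨q, hq⟩ : ∃ q : ℤ, q = i * m := ⟨_, rfl⟩
      have hq1 : ((i : ℤ) + 1) * m = q + m := by rw [hq]; ring
      have hq2 : ((i + 1 : ℕ) : ℤ) * m = q + m := by push_cast; rw [hq]; ring
      rw [← hq] at h1 him0
      rw [hq1] at him'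
      rw [hq2]
      -- the cluster
      obtain ⟨p, hp⟩ : ∃ p : ℤ, p = (y + 2 * q + 3 * m - (if e then D else 0)) / 2 := ⟨_, rfl⟩
      have hwx : y + 2 * q + 3 * m - 2 < wx (2 * p) D e ∧ wx (2 * p) D e ≤ y + 2 * q + 3 * m := by
        cases e <;> simp [wx] at hp ⊢ <;> omega
      have hpb : |2 * p| ≤ 300 * h := by
        rw [abs_le]
        cases e <;> simp at hp <;> constructor <;> omega
      have hV' : 1 - ε - ρ ≤ L.P (A (QQ (2 * p) D 0 h k) []) := by
        have := A_shift (B := []) (B' := []) hI (x := 0) (x' := 2 * p) (D := D) (j := 0) (j' := 0)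
          (h := h) (w := k) (p, 0) (by rw [X_mk0]; ring) (by simp)
          (mem_bal_of (by rw [X_mk0]; omega) (by simp)) (Bx_bal (by simp; omega) (by omega) (by omega))
          (by simp)
        linarith
      -- the next arc
      have hK' : 1 - a0 - ρ ≤ L.P (Con (Bx (y + 2 * (q + m)) (100 * h) 0 h)
          (Wn (y + 2 * (q + m)) k (er 0 h e)) (Wn (y + d + 2 * (q + m)) k (er 0 h e))) := by
        have := Con_shift hI (q + m, 0) (mem_bal_of (by rw [X_mk0, abs_le]; constructor <;> omega) (by simp))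
          (S := Bx y (100 * h) 0 h) (U := Wn y k (er 0 h e)) (U' := Wn (y + d) k (er 0 h e))
          (T := Bx (y + 2 * (q + m)) (100 * h) 0 h) (V := Wn (y + 2 * (q + m)) k (er 0 h e))
          (V' := Wn (y + d + 2 * (q + m)) k (er 0 h e))
          (Bx_bal (by
            have : |y| ≤ 100 * h := abs_le.2 hy
            omega) (by omega) (by omega))
          (by
            rintro v ⟨a1, a2, a3, a4⟩
            have b1 := X_tr (q + m, 0) v
            have b2 := row_tr (q + m, 0) v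
            rw [X_mk0] at b1
            simp only at b2
            refine ⟨?_, ?_, ?_, ?_⟩ <;> omega)
          (by
            rintro v ⟨a1, a2, a3⟩ _
            have b1 := X_tr (q + m, 0) v
            have b2 := row_tr (q + m, 0) v
            rw [X_mk0] at b1
            simp only at b2
            refine ⟨?_, ?_, ?_⟩ <;> omega)
          (by
            rintro v ⟨a1, a2, a3⟩ _
            have b1 := X_tr (q + m, 0) v
            have b2 := row_tr (q + m, 0) v
            rw [X_mk0] at b1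
            simp only at b2
            refine ⟨?_, ?_, ?_⟩ <;> omega)
        linarith
      rw [abs_le] at hpb
      have hgl := glue_arc (x := 2 * p) (D := D) (h := h) (w := k) (e := e) (S := Bx y (160 * h) 0 h)
        (S' := Bx (y + 2 * (q + m)) (100 * h) 0 h) (y0 := y) (y1 := y + d + 2 * q)
        (y2 := y + 2 * (q + m)) (y3 := y + d + 2 * (q + m)) (fun v hv => ⟨hv.1, hv.2.1⟩)
        (fun v hv => ⟨hv.1, hv.2.1⟩) (by omega) (by omega) (by omega) (by omega)
      have hbox : Bx y (160 * h) 0 h ∪ (QQ (2 * p) D 0 h k).S ∪ Bx (y + 2 * (q + m)) (100 * h) 0 h ⊆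
          Bx y (160 * h) 0 h := by
        rintro v ((hv | hv) | hv)
        · exact hv
        · obtain ⟨b1, b2, b3, b4⟩ := hv
          have hp3 : y - 62 * h ≤ 2 * p ∧ 2 * p ≤ y + 90 * h := by
            cases e <;> simp at hp <;> constructor <;> omega
          refine ⟨?_, ?_, ?_, ?_⟩ <;> omega
        · obtain ⟨b1, b2, b3, b4⟩ := hv
          refine ⟨?_, ?_, ?_, ?_⟩ <;> omega
      have h5 := L.mono _ _ (hgl.trans (Con_mono hbox subset_rfl subset_rfl))
      have h6 := L.inter_ge (Con (Bx y (160 * h) 0 h) (Wn y k (er 0 h e)) (Wn (y + d + 2 * q) k (er 0 h e)) ∩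
        A (QQ (2 * p) D 0 h k) []) (Con (Bx (y + 2 * (q + m)) (100 * h) 0 h)
          (Wn (y + 2 * (q + m)) k (er 0 h e)) (Wn (y + d + 2 * (q + m)) k (er 0 h e)))
      have h7 := L.inter_ge (Con (Bx y (160 * h) 0 h) (Wn y k (er 0 h e)) (Wn (y + d + 2 * q) k (er 0 h e)))
        (A (QQ (2 * p) D 0 h k) [])
      push_cast
      linarith
  -- conclusion
  have hfin := chain N le_rfl
  obtain ⟨p, hp⟩ : ∃ p : ℤ, p = (y + 6 * h + k + 1) / 2 := ⟨_, rfl⟩
  obtain ⟨q, hq⟩ : ∃ q : ℤ, q = N * m := ⟨_, rfl⟩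
  rw [← hq] at hN1 hN2 hfin
  have hlast := Con_shift hI (-p, 0) (mem_bal_of (by rw [X_mk0, abs_le]; constructor <;> omega) (by simp))
    (S := Bx y (160 * h) 0 h) (U := Wn y k (er 0 h e)) (U' := Wn (y + d + 2 * q) k (er 0 h e))
    (T := Bx 0 (200 * h) 0 h) (V := {v | X v ≤ -(6 * h)}) (V' := {v | 6 * h ≤ X v})
    (Bx_bal (by
      have : |y| ≤ 100 * h := abs_le.2 hy
      omega) (by omega) (by omega))
    (by
      rintro v ⟨a1, a2, a3, a4⟩
      have b1 := X_tr (-p, 0) v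
      have b2 := row_tr (-p, 0) v
      rw [X_mk0] at b1
      simp only at b2
      refine ⟨?_, ?_, ?_, ?_⟩ <;> omega)
    (by
      rintro v ⟨a1, a2, a3⟩ _
      have b1 := X_tr (-p, 0) v
      rw [X_mk0] at b1
      show X (tr (-p, 0) v) ≤ -(6 * h)
      omega)
    (by
      rintro v ⟨a1, a2, a3⟩ _
      have b1 := X_tr (-p, 0) v
      rw [X_mk0] at b1
      show 6 * h ≤ X (tr (-p, 0) v)
      omega)
  have hHd : L.P (Con (Bx 0 (200 * h) 0 h) {v | X v ≤ -(6 * h)} {v | 6 * h ≤ X v}) ≤ 1 - c := hH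
  have hNr : (N : ℝ) * (a0 + ε + 2 * ρ) ≤ 90000000000 * (a0 + ε + 2 * ρ) :=
    mul_le_mul_of_nonneg_right hN3 (by linarith)
  linarith

end Crest.Agent.R144.Qr315
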