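import Crest.Agent.R144.Qr4_315

/-!
# R144, QRSW, file 5: alignment, GP lemma, W move (helper315)
-/

set_option autoImplicit false

noncomputable section

namespace Crest.Agent.R144.Qr315

open Crest.Agent.R144.It844 (P2 adj_iff adj_symm)
open Crest.Agent.R144.Zg349 (StepIn IsConn)
open Crest.ProbabilityR.HexHeights (Adj)

variable {L : Law} {W : ℕ} {ρ : ℝ}

/-- a rigid size -/
structure Good (L : Law) (W : ℕ) (ρ : ℝ) (h k D : ℤ) (ε a0 : ℝ) : Prop where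
  hh : h = 1000000000000 * k
  hk : 1 ≤ k
  hW : 10000 * h ≤ W
  ρ0 : 0 ≤ ρ
  ε0 : 0 ≤ ε
  apos : 0 < a0
  ρa : 6 * ρ ≤ a0
  al : |D| ≤ 510 * k
  V : 1 - ε ≤ L.P (A (QQ 0 D 0 h k) [])
  K : ∀ (e : Bool) (y d : ℤ), |y| ≤ 100 * h → 1000 * k ≤ d → d ≤ 10 * h →
    L.P (Con (Bx y (100 * h) 0 h) (Wn y k (er 0 h e)) (Wn (y + d) k (er 0 h e))) ≤ 1 - a0

theorem refl_bal (z : P2) (r : ℤ) : ∀ v ∈ bal z r, (tr (X z, 0) ∘ rfx) v ∈ bal z r := by
  rintro ⟨i, j⟩ ⟨h1, h2, h3⟩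
  obtain ⟨i0, j0⟩ := z
  simp only [bal, tr, rfx, X, Function.comp, Prod.mk_add_mk, Set.mem_ofPred_eq, abs_le] at *
  refine ⟨⟨?_, ?_⟩, ⟨?_, ?_⟩, ⟨?_, ?_⟩⟩ <;> omega

/-- **alignment of the two windows** -/
theorem align (hI : L.Inv W ρ) {h k D : ℤ} (hh : h = 1000000000000 * k) (hk : 1 ≤ k)
    (hW : 10000 * h ≤ W) (hD : |D| ≤ 60 * h) {ε a0 : ℝ} (hε : 2 * ε + 2 * ρ < a0)
    (hV : 1 - ε ≤ L.P (A (QQ 0 D 0 h k) []))
    (hK : ∀ (y d : ℤ), |y| ≤ 100 * h → 1000 * k ≤ d → d ≤ 10 * h →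
      L.P (Con (Bx y (100 * h) 0 h) (Wn y k 0) (Wn (y + d) k 0)) ≤ 1 - a0) : |D| ≤ 510 * k := by
  rw [abs_le] at hD
  have hQS : (QQ 0 D 0 h k).S ⊆ bal 0 W := Bx_bal (by simp; omega) (by omega) (by omega)
  rw [abs_le]
  by_contra hcon
  rcases lt_or_ge (510 * k) D with hpos | hneg
  · -- `D` large
    have h1 := A_map hI (qmap_rfx (500 * k) 0 D 0 h k)
      (.rfx (500 * k, 0) (mem_bal_of (by rw [X_mk0, abs_le]; constructor <;> omega) (by simp))) hQS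
      (B := []) (B' := []) (by simp)
    have h2 := L.inter_ge (A (QQ 0 D 0 h k) []) (A (QQ (2 * (500 * k) - 0) (-D) 0 h k) [])
    have h3 : A (QQ 0 D 0 h k) [] ∩ A (QQ (2 * (500 * k) - 0) (-D) 0 h k) [] ⊆
        Con (Bx 0 (100 * h) 0 h) (Wn 0 k 0) (Wn (0 + 1000 * k) k 0) := by
      rintro ω ⟨⟨C, hC, ⟨c, c', hcl⟩, _⟩, ⟨C', hC', ⟨d, d', hcl'⟩, _⟩⟩
      have w1 := hcl.win false
      have w2 := hcl.win true
      have w3 := hcl'.win false
      have w4 := hcl'.win true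
      rw [QQ_W] at w1 w2 w3 w4
      obtain ⟨w11, w12, w13⟩ := w1
      obtain ⟨w21, w22, w23⟩ := w2
      obtain ⟨w31, w32, w33⟩ := w3
      obtain ⟨w41, w42, w43⟩ := w4
      simp only [wx, er, if_true, if_false, Bool.false_eq_true] at *
      have hne := reversed (QQ_ok 0 D 0 h k) (QQ_ok (2 * (500 * k) - 0) (-D) 0 h k) rfl rfl hcl hcl'
        (by omega) (by omega)
      refine ⟨C ∪ C', Set.union_subset hC hC', isConn_union hcl.conn hcl'.conn hne, ?_,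
        ⟨_, Or.inl (hcl.mem false), ?_⟩, ⟨_, Or.inr (hcl'.mem false), ?_⟩⟩
      · rintro v (hv | hv)
        · obtain ⟨b1, b2, b3, b4⟩ := hcl.sub hv
          refine ⟨?_, ?_, ?_, ?_⟩ <;> omega
        · obtain ⟨b1, b2, b3, b4⟩ := hcl'.sub hv
          refine ⟨?_, ?_, ?_, ?_⟩ <;> omega
      · refine ⟨?_, ?_, ?_⟩ <;> omega
      · refine ⟨?_, ?_, ?_⟩ <;> omega
    have h4 := L.mono _ _ h3
    have h5 := hK 0 (1000 * k) (by simp; omega) le_rfl (by omega)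
    linarith
  · have hneg' : D < -(510 * k) := by omega
    have h1 := A_map hI (qmap_rfx (-(500 * k)) 0 D 0 h k)
      (.rfx (-(500 * k), 0) (mem_bal_of (by rw [X_mk0, abs_le]; constructor <;> omega) (by simp))) hQS
      (B := []) (B' := []) (by simp)
    have h2 := L.inter_ge (A (QQ 0 D 0 h k) []) (A (QQ (2 * (-(500 * k)) - 0) (-D) 0 h k) [])
    have h3 : A (QQ 0 D 0 h k) [] ∩ A (QQ (2 * (-(500 * k)) - 0) (-D) 0 h k) [] ⊆
        Con (Bx (-(1000 * k)) (100 * h) 0 h) (Wn (-(1000 * k)) k 0) (Wn (-(1000 * k) + 1000 * k) k 0) := by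
      rintro ω ⟨⟨C, hC, ⟨c, c', hcl⟩, _⟩, ⟨C', hC', ⟨d, d', hcl'⟩, _⟩⟩
      have w1 := hcl.win false
      have w2 := hcl.win true
      have w3 := hcl'.win false
      have w4 := hcl'.win true
      rw [QQ_W] at w1 w2 w3 w4
      obtain ⟨w11, w12, w13⟩ := w1
      obtain ⟨w21, w22, w23⟩ := w2
      obtain ⟨w31, w32, w33⟩ := w3
      obtain ⟨w41, w42, w43⟩ := w4
      simp only [wx, er, if_true, if_false, Bool.false_eq_true] at *
      have hne := reversed (QQ_ok (2 * (-(500 * k)) - 0) (-D) 0 h k) (QQ_ok 0 D 0 h k) rfl rfl hcl' hcl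
        (by omega) (by omega)
      refine ⟨C' ∪ C, Set.union_subset hC' hC, isConn_union hcl'.conn hcl.conn hne, ?_,
        ⟨_, Or.inl (hcl'.mem false), ?_⟩, ⟨_, Or.inr (hcl.mem false), ?_⟩⟩
      · rintro v (hv | hv)
        · obtain ⟨b1, b2, b3, b4⟩ := hcl'.sub hv
          refine ⟨?_, ?_, ?_, ?_⟩ <;> omega
        · obtain ⟨b1, b2, b3, b4⟩ := hcl.sub hv
          refine ⟨?_, ?_, ?_, ?_⟩ <;> omega
      · refine ⟨?_, ?_, ?_⟩ <;> omega
      · refine ⟨?_, ?_, ?_⟩ <;> omega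
    have h4 := L.mono _ _ h3
    have h5 := hK (-(1000 * k)) (1000 * k) (by rw [abs_le]; constructor <;> omega) le_rfl (by omega)
    linarith

namespace Good

variable {h k D : ℤ} {ε a0 : ℝ}

theorem QS (G : Good L W ρ h k D ε a0) : (QQ 0 D 0 h k).S ⊆ bal 0 W := by
  have h1 := G.hh
  have h2 := G.hk
  have h3 := G.hW
  exact Bx_bal (by simp; omega) (by omega) (by omega)

theorem prod_aux {p q a ρ : ℝ} (hp : 1 - a / 3 < p) (hq : p - 2 * ρ ≤ q) (hρ : 6 * ρ ≤ a)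
    (h : p * q ≤ 1 - a) (ha : 0 < a) (ha1 : a ≤ 1) : False := by
  have h1 : 1 - 2 * a / 3 ≤ q := by linarith
  have h2 : (1 - a / 3) * (1 - 2 * a / 3) ≤ p * q :=
    mul_le_mul hp.le h1 (by linarith) (by linarith)
  nlinarith [mul_pos ha ha]

/-- the cluster of `Q` does not go around a ball by the far side -/
theorem inner_le (G : Good L W ρ h k D ε a0) (hI : L.Inv W ρ) {s : ℤ} (hs : s = 1 ∨ s = -1) {z : P2}
    {r : ℤ} (hr : 0 ≤ r) (hz : z ∈ strp 0 h) (h1 : 500 * k ≤ s * X z) (h2 : |X z| ≤ 5 * h) :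
    L.P (E s (QQ 0 D 0 h k) (bal z r)) ≤ 1 - a0 / 3 := by
  have g1 := G.hh
  have g2 := G.hk
  have g3 := G.hW
  have g4 := G.ρ0
  have g5 := G.ρa
  have g6 := G.apos
  have g7 := G.al
  rw [abs_le] at h2 g7
  have hzB : z ∈ bal z r := by
    refine ⟨?_, ?_, ?_⟩ <;> simp [hr]
  have hz' : z ∈ strp (QQ 0 D 0 h k).a (QQ 0 D 0 h k).b := by
    show 0 ≤ z.2 ∧ z.2 ≤ 0 + h
    rw [zero_add]; exact hz
  have hm := E_map (t := s) hI (qmap_rfx (X z) 0 D 0 h k)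
    (.rfx (X z, 0) (mem_bal_of (by rw [X_mk0, abs_le]; constructor <;> omega) (by simp))) G.QS
    (refl_bal z r)
  set p := L.P (E s (QQ 0 D 0 h k) (bal z r)) with hp
  have hp0 : 0 ≤ p := L.nonneg _
  by_contra hcon
  push Not at hcon
  rcases hs with rfl | rfl
  · have hb := incl_b (QQ_ok 0 D 0 h k) (QQ_ok (2 * X z - 0) (-D) 0 h k) rfl rfl (e := false)
      (by
        intro q hq q' hq'
        obtain ⟨a1, a2, a3⟩ := hq
        obtain ⟨b1, b2, b3⟩ := hq'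
        omega) hzB hz'
    have h3 := L.mono _ _ (hb.trans (Con_mono (T := Bx 0 (100 * h) 0 h) (U := Wn 0 k (er 0 h false))
      (U' := Wn (0 + 2 * X z) k (er 0 h false))
      (by
        rintro v (⟨b1, b2, b3, b4⟩ | ⟨b1, b2, b3, b4⟩)
        · refine ⟨?_, ?_, ?_, ?_⟩ <;> omega
        · refine ⟨?_, ?_, ?_, ?_⟩ <;> omega) subset_rfl
      (by
        rintro v ⟨b1, b2, b3⟩
        rw [show er 0 h false = 0 from rfl]
        refine ⟨?_, ?_, ?_⟩ <;> omega)))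
    have h4 := G.K false 0 (2 * X z) (by simp; omega) (by omega) (by omega)
    have h5 := L.fkg _ _ (E_upper 1 (QQ 0 D 0 h k) (bal z r))
      (E_upper (-1) (QQ (2 * X z - 0) (-D) 0 h k) (bal z r))
    have h6 : p - 2 * ρ ≤ L.P (E (-1) (QQ (2 * X z - 0) (-D) 0 h k) (bal z r)) := by
      have : (-1 * 1 : ℤ) = -1 := by norm_num
      rw [this] at hm
      linarith
    have h7 := L.nonneg (Con (Bx 0 (100 * h) 0 h) (Wn 0 k (er 0 h false)) (Wn (0 + 2 * X z) k (er 0 h false)))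
    exact prod_aux hcon h6 g5 (h5.trans (h3.trans h4)) g6 (by linarith)
  · have hb := incl_b (QQ_ok (2 * X z - 0) (-D) 0 h k) (QQ_ok 0 D 0 h k) rfl rfl (e := false)
      (by
        intro q hq q' hq'
        obtain ⟨a1, a2, a3⟩ := hq
        obtain ⟨b1, b2, b3⟩ := hq'
        omega) hzB hz'
    have h3 := L.mono _ _ (hb.trans (Con_mono (T := Bx (2 * X z) (100 * h) 0 h)
      (U := Wn (2 * X z) k (er 0 h false)) (U' := Wn (2 * X z + -(2 * X z)) k (er 0 h false))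
      (by
        rintro v (⟨b1, b2, b3, b4⟩ | ⟨b1, b2, b3, b4⟩)
        · refine ⟨?_, ?_, ?_, ?_⟩ <;> omega
        · refine ⟨?_, ?_, ?_, ?_⟩ <;> omega)
      (by
        rintro v ⟨b1, b2, b3⟩
        rw [show er 0 h false = 0 from rfl]
        refine ⟨?_, ?_, ?_⟩ <;> omega)
      (by
        rintro v ⟨b1, b2, b3⟩
        rw [show er 0 h false = 0 from rfl]
        refine ⟨?_, ?_, ?_⟩ <;> omega)))
    have h4 := G.K false (2 * X z) (-(2 * X z)) (by rw [abs_le]; constructor <;> omega) (by omega)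
      (by omega)
    have h5 := L.fkg _ _ (E_upper 1 (QQ (2 * X z - 0) (-D) 0 h k) (bal z r))
      (E_upper (-1) (QQ 0 D 0 h k) (bal z r))
    have h6 : p - 2 * ρ ≤ L.P (E 1 (QQ (2 * X z - 0) (-D) 0 h k) (bal z r)) := by
      have : (-1 * -1 : ℤ) = 1 := by norm_num
      rw [this] at hm
      linarith
    have h7 := L.nonneg (Con (Bx (2 * X z) (100 * h) 0 h) (Wn (2 * X z) k (er 0 h false))
      (Wn (2 * X z + -(2 * X z)) k (er 0 h false)))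
    refine prod_aux hcon h6 g5 ?_ g6 (by linarith)
    rw [mul_comm]
    exact h5.trans (h3.trans h4)

/-- an outside cluster which hits the ball prevents the near side -/
theorem outer_le (G : Good L W ρ h k D ε a0) {s : ℤ} (hs : s = 1 ∨ s = -1)
    (e : Bool) {q : Qd} (hq : q.Ok) (hex : q.ex e = (QQ 0 D 0 h k).ex e) (ha : 0 ≤ q.a) (hb : q.b ≤ h)
    (hqS : q.S ⊆ Bx 0 (80 * h) 0 h) {y : ℤ} (hqW : q.W e ⊆ Wn y k (er 0 h e))
    (hy1 : s * y + 1000 * k ≤ s * wx 0 D e) (hy2 : |y| ≤ 9 * h) {B : Set P2}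
    (hA : 1 - a0 / 2 ≤ L.P (A q [B])) : L.P (E (-s) (QQ 0 D 0 h k) B) ≤ 1 - a0 / 2 := by
  have g1 := G.hh
  have g2 := G.hk
  have g7 := G.al
  rw [abs_le] at hy2 g7
  have hwx : |wx 0 D e| ≤ 510 * k := by
    rw [abs_le]
    cases e <;> simp [wx] <;> omega
  rw [abs_le] at hwx
  have hc := incl_c (Q := QQ 0 D 0 h k) (QQ_ok 0 D 0 h k) hq hex (by show (0 : ℤ) ≤ q.a; exact ha)
    (by show q.b ≤ 0 + h; omega) hs (by
      intro p hp p' hp'
      rw [QQ_W] at hp'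
      obtain ⟨a1, a2, a3⟩ := hqW hp
      obtain ⟨b1, b2, b3⟩ := hp'
      rcases hs with rfl | rfl <;> omega) (B := B)
  have hbox : ∀ y' : ℤ, |y'| ≤ 9 * h → (QQ 0 D 0 h k).S ∪ q.S ⊆ Bx y' (100 * h) 0 h := by
    intro y' hy'
    rw [abs_le] at hy'
    rintro v (⟨b1, b2, b3, b4⟩ | hv)
    · refine ⟨?_, ?_, ?_, ?_⟩ <;> omega
    · obtain ⟨b1, b2, b3, b4⟩ := hqS hv
      refine ⟨?_, ?_, ?_, ?_⟩ <;> omega
  have hQW : (QQ 0 D 0 h k).W e = Wn (wx 0 D e) k (er 0 h e) := QQ_W _ _ _ _ _ _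
  have hfin : L.P (E (-s) (QQ 0 D 0 h k) B ∩ A q [B]) ≤ 1 - a0 := by
    rcases hs with rfl | rfl
    · have h3 := L.mono _ _ (hc.trans (Con_mono (hbox y (abs_le.2 hy2)) hqW hQW.subset))
      have h4 := G.K e y (wx 0 D e - y) (by rw [abs_le]; constructor <;> omega) (by omega) (by omega)
      rw [show y + (wx 0 D e - y) = wx 0 D e by ring] at h4
      linarith
    · have h3 := L.mono _ _ ((hc.trans (Con_symm _ _ _)).trans
        (Con_mono (hbox (wx 0 D e) (by rw [abs_le]; constructor <;> omega)) hQW.subset hqW))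
      have h4 := G.K e (wx 0 D e) (y - wx 0 D e) (by rw [abs_le]; constructor <;> omega) (by omega)
        (by omega)
      rw [show wx 0 D e + (y - wx 0 D e) = y by ring] at h4
      linarith
  have h5 := L.inter_ge (E (-s) (QQ 0 D 0 h k) B) (A q [B])
  linarith

/-- **(3.3) GP LEMMA** -/
theorem gp (G : Good L W ρ h k D ε a0) (hI : L.Inv W ρ) {s : ℤ} (hs : s = 1 ∨ s = -1) {z : P2}
    {r : ℤ} (hr : 0 ≤ r) (hz : z ∈ strp 0 h) (h1 : 500 * k ≤ s * X z) (h2 : |X z| ≤ 5 * h)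
    (e : Bool) {q : Qd} (hq : q.Ok) (hex : q.ex e = (QQ 0 D 0 h k).ex e) (ha : 0 ≤ q.a) (hb : q.b ≤ h)
    (hqS : q.S ⊆ Bx 0 (80 * h) 0 h) {y : ℤ} (hqW : q.W e ⊆ Wn y k (er 0 h e))
    (hy1 : s * y + 1000 * k ≤ s * wx 0 D e) (hy2 : |y| ≤ 9 * h)
    (hA : 1 - a0 / 2 ≤ L.P (A q [bal z r])) (B : List (Set P2)) :
    (1 - L.P (A (QQ 0 D 0 h k) (bal z r :: B))) * (a0 ^ 2 / 6) ≤ 1 - L.P (A (QQ 0 D 0 h k) B) := by
  have g6 := G.apos
  have i1 := G.inner_le hI hs hr hz h1 h2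
  have i2 := G.outer_le hs e hq hex ha hb hqS hqW hy1 hy2 hA
  have hincl := incl_a (QQ_ok 0 D 0 h k) B (B := bal z r) (by
    show IsConn (bal z r ∩ strp 0 (0 + h))
    rw [zero_add]
    exact isConn_bal_strp hz)
  have h3 := L.mono _ _ hincl
  have h4 := L.compl_mul3 (A_upper (QQ 0 D 0 h k) (bal z r :: B))
    (E_upper 1 (QQ 0 D 0 h k) (bal z r)) (E_upper (-1) (QQ 0 D 0 h k) (bal z r))
  have h5 : 0 ≤ 1 - L.P (A (QQ 0 D 0 h k) (bal z r :: B)) := by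
    linarith [L.le_one (A (QQ 0 D 0 h k) (bal z r :: B))]
  have h6 : a0 ^ 2 / 6 ≤ (1 - L.P (E 1 (QQ 0 D 0 h k) (bal z r))) *
      (1 - L.P (E (-1) (QQ 0 D 0 h k) (bal z r))) := by
    rcases hs with rfl | rfl
    · have a1 : a0 / 3 ≤ 1 - L.P (E 1 (QQ 0 D 0 h k) (bal z r)) := by linarith
      have a2 : a0 / 2 ≤ 1 - L.P (E (-1) (QQ 0 D 0 h k) (bal z r)) := by linarith
      calc a0 ^ 2 / 6 = (a0 / 3) * (a0 / 2) := by ring
        _ ≤ _ := mul_le_mul a1 a2 (by linarith) (by linarith)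
    · have a1 : a0 / 3 ≤ 1 - L.P (E (-1) (QQ 0 D 0 h k) (bal z r)) := by linarith
      have a2 : a0 / 2 ≤ 1 - L.P (E 1 (QQ 0 D 0 h k) (bal z r)) := by
        rw [neg_neg] at i2
        linarith
      calc a0 ^ 2 / 6 = (a0 / 2) * (a0 / 3) := by ring
        _ ≤ _ := mul_le_mul a2 a1 (by linarith) (by linarith)
  calc (1 - L.P (A (QQ 0 D 0 h k) (bal z r :: B))) * (a0 ^ 2 / 6)
      ≤ (1 - L.P (A (QQ 0 D 0 h k) (bal z r :: B))) *
        ((1 - L.P (E 1 (QQ 0 D 0 h k) (bal z r))) * (1 - L.P (E (-1) (QQ 0 D 0 h k) (bal z r)))) :=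
        mul_le_mul_of_nonneg_left h6 h5
    _ ≤ _ := by
        rw [← mul_assoc]
        linarith

/-- **W MOVE** : a connected blue set meeting a ball on the right and a ball on the left -/
theorem wmove (G : Good L W ρ h k D ε a0) (hI : L.Inv W ρ) {z z' : P2} {r : ℤ} (hr : 0 ≤ r)
    (hz : z ∈ strp 0 h) (hz' : z' ∈ strp 0 h) (h1 : 500 * k ≤ X z) (h2 : X z ≤ 5 * h)
    (h1' : X z' ≤ -(500 * k)) (h2' : -(5 * h) ≤ X z') {v : ℝ}
    (hv : 1 - v ≤ L.P (Con (QQ 0 D 0 h k).S (bal z r) (bal z' r))) :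
    (1 - L.P (A (QQ 0 D 0 h k) [bal z r])) * (1 - L.P (A (QQ 0 D 0 h k) [bal z' r])) * (a0 ^ 2 / 9) ≤
      ε + v := by
  have g1 := G.hh
  have g2 := G.hk
  have g6 := G.apos
  have i1 := G.inner_le hI (Or.inl rfl) hr hz (s := 1) (by omega) (by rw [abs_le]; constructor <;> omega)
  have i2 := G.inner_le hI (Or.inr rfl) hr hz' (s := -1) (by omega) (by rw [abs_le]; constructor <;> omega)
  have hcon : ∀ z ∈ strp 0 h, IsConn (bal z r ∩ strp (QQ 0 D 0 h k).a (QQ 0 D 0 h k).b) := by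
    intro z hz
    show IsConn (bal z r ∩ strp 0 (0 + h))
    rw [zero_add]
    exact isConn_bal_strp hz
  have hincl := incl_d (QQ_ok 0 D 0 h k) (hcon z hz) (hcon z' hz')
  have h3 := L.mono _ _ hincl
  have h4 := L.compl_mul ((A_upper (QQ 0 D 0 h k) [bal z r]).union (A_upper (QQ 0 D 0 h k) [bal z' r]))
    ((E_upper 1 (QQ 0 D 0 h k) (bal z r)).union (E_upper (-1) (QQ 0 D 0 h k) (bal z' r)))
  have h5 := L.compl_mul (A_upper (QQ 0 D 0 h k) [bal z r]) (A_upper (QQ 0 D 0 h k) [bal z' r])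
  have h6 := L.compl_mul (E_upper 1 (QQ 0 D 0 h k) (bal z r)) (E_upper (-1) (QQ 0 D 0 h k) (bal z' r))
  have h7 := L.inter_ge (A (QQ 0 D 0 h k) []) (Con (QQ 0 D 0 h k).S (bal z r) (bal z' r))
  have h8 := G.V
  have b1 : 0 ≤ 1 - L.P (A (QQ 0 D 0 h k) [bal z r]) := by linarith [L.le_one (A (QQ 0 D 0 h k) [bal z r])]
  have b2 : 0 ≤ 1 - L.P (A (QQ 0 D 0 h k) [bal z' r]) := by
    linarith [L.le_one (A (QQ 0 D 0 h k) [bal z' r])]
  have h9 : a0 ^ 2 / 9 ≤ (1 - L.P (E 1 (QQ 0 D 0 h k) (bal z r))) *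
      (1 - L.P (E (-1) (QQ 0 D 0 h k) (bal z' r))) := by
    calc a0 ^ 2 / 9 = (a0 / 3) * (a0 / 3) := by ring
      _ ≤ _ := mul_le_mul (by linarith) (by linarith) (by linarith) (by linarith)
  have h10 : 0 ≤ a0 ^ 2 / 9 := by positivity
  calc (1 - L.P (A (QQ 0 D 0 h k) [bal z r])) * (1 - L.P (A (QQ 0 D 0 h k) [bal z' r])) * (a0 ^ 2 / 9)
      ≤ (1 - L.P (A (QQ 0 D 0 h k) [bal z r] ∪ A (QQ 0 D 0 h k) [bal z' r])) *
        (1 - L.P (E 1 (QQ 0 D 0 h k) (bal z r) ∪ E (-1) (QQ 0 D 0 h k) (bal z' r))) :=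
        mul_le_mul h5 (h9.trans h6) h10 (le_trans (mul_nonneg b1 b2) h5)
    _ ≤ ε + v := by linarith

end Good

end Crest.Agent.R144.Qr315
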