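import Crest.Agent.R144.Qr5_315

/-!
# R144, QRSW, file 6: STEP I (helper315)

`Hit L r h k D u` : the cluster of the canonical quad of size `h` hits a ball of radius `r` at horizontal
distance at least `3 * 10^6 k`, in the middle rows, up to probability `u`.
-/

set_option autoImplicit false

noncomputable section

namespace Crest.Agent.R144.Qr315

open Crest.Agent.R144.It844 (P2 adj_iff adj_symm)
open Crest.Agent.R144.Zg349 (StepIn IsConn)
open Crest.ProbabilityR.HexHeights (Adj)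

variable {L : Law} {W : ℕ} {ρ : ℝ}

def Hit (L : Law) (r h k D : ℤ) (u : ℝ) : Prop :=
  ∃ (s : ℤ) (z : P2), (s = 1 ∨ s = -1) ∧ h ≤ 4 * z.2 ∧ 4 * z.2 ≤ 3 * h ∧ 3000000 * k ≤ s * X z ∧
    |X z| ≤ 2 * h ∧ 1 - u ≤ L.P (A (QQ 0 D 0 h k) [bal z r])

theorem Hit.mono {r h k D : ℤ} {u v : ℝ} (huv : u ≤ v) (h1 : Hit L r h k D u) : Hit L r h k D v := by
  obtain ⟨s, z, a, b, c, d, e, f⟩ := h1
  exact ⟨s, z, a, b, c, d, e, by linarith⟩

theorem tr_bal (a z : P2) (r : ℤ) : ∀ v ∈ bal z r, tr a v ∈ bal (tr a z) r := by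
  rintro ⟨i, j⟩ ⟨h1, h2, h3⟩
  obtain ⟨i0, j0⟩ := z
  obtain ⟨a1, a2⟩ := a
  simp only [bal, tr, Prod.mk_add_mk, Set.mem_ofPred_eq, abs_le] at *
  refine ⟨⟨?_, ?_⟩, ⟨?_, ?_⟩, ⟨?_, ?_⟩⟩ <;> omega

theorem rot_bal' (z : P2) (r : ℤ) : ∀ v ∈ bal z r, rot v ∈ bal (rot z) r := by
  rintro ⟨i, j⟩ ⟨h1, h2, h3⟩
  obtain ⟨i0, j0⟩ := z
  simp only [bal, rot, Set.mem_ofPred_eq, abs_le] at *
  refine ⟨⟨?_, ?_⟩, ⟨?_, ?_⟩, ⟨?_, ?_⟩⟩ <;> omega

theorem X_rot (v : P2) : 2 * X (rot v) = -(X v) - 3 * v.2 := by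
  unfold X rot
  simp only
  ring

theorem row_rot (v : P2) : 2 * (rot v).2 = X v - v.2 := by
  unfold X rot
  simp only
  ring

/-- base of the recursion -/
theorem Hit.base {r h k D : ℤ} {ε : ℝ} (hh : h = 1000000000000 * k) (hk : 1 ≤ k) (hr : 100 * h ≤ r)
    (hV : 1 - ε ≤ L.P (A (QQ 0 D 0 h k) [])) : Hit L r h k D ε := by
  refine ⟨1, (-(250000000000 * k) + 2000000 * k, 500000000000 * k), Or.inl rfl, ?_, ?_, ?_, ?_, ?_⟩
  · simp only; omega
  · simp only; omega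
  · unfold X; simp only; omega
  · unfold X; simp only; rw [abs_le]; constructor <;> omega
  · refine hV.trans (L.mono _ _ ?_)
    refine Ev.mono fun C hC => ⟨hC.1, ?_⟩
    intro S hS
    rw [List.mem_singleton.1 hS]
    obtain ⟨⟨c, c', hcl⟩, _⟩ := hC
    refine ⟨c false, hcl.mem false, ?_⟩
    obtain ⟨b1, b2, b3, b4⟩ := hcl.sub (hcl.mem false)
    unfold X at b3 b4
    simp only [bal, Set.mem_ofPred_eq, abs_le]
    refine ⟨⟨?_, ?_⟩, ⟨?_, ?_⟩, ⟨?_, ?_⟩⟩ <;> omega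

/-- the small clusters pull the cluster of `Q'` onto a low ball and a high ball -/
theorem two_balls {h k D : ℤ} {ε a0 : ℝ} (G : Good L W ρ h k D ε a0) (hI : L.Inv W ρ) {h2 k2 D2 r : ℤ}
    (hr : 0 ≤ r) (hh2 : h2 = 1000000000000 * k2) (hk2 : k = 1000 * k2) (hD2 : |D2| ≤ 510 * k2) {u : ℝ}
    (hu : u + ρ ≤ a0 / 2) (hH : Hit L r h2 k2 D2 u) :
    ∃ z z' : P2, (0 ≤ z.2 ∧ z.2 ≤ h2) ∧ (h - h2 ≤ z'.2 ∧ z'.2 ≤ h) ∧ |X z| ≤ 4 * h2 ∧ |X z'| ≤ 4 * h2 ∧
      (1 - L.P (A (QQ 0 D 0 h k) [bal z' r, bal z r])) * (a0 ^ 2 / 6) ^ 2 ≤ ε := by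
  have g1 := G.hh
  have g2 := G.hk
  have g3 := G.hW
  have g4 := G.ρ0
  have g5 := G.ρa
  have g6 := G.apos
  have g7 := G.al
  have g8 := G.V
  obtain ⟨s, z2, hs, z21, z22, z23, z24, hP⟩ := hH
  rw [abs_le] at g7 hD2 z24
  -- low ball
  obtain ⟨ab, hab⟩ : ∃ ab : P2, ab = (-(s * (500 * k)), 0) := ⟨_, rfl⟩
  have Xab : X ab = -(s * (1000 * k)) := by rw [hab, X_mk0]; ring
  have rab : ab.2 = 0 := by rw [hab]
  have Xzb : X (tr ab z2) = X z2 - s * (1000 * k) := by rw [X_tr, Xab]; ring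
  have rzb : (tr ab z2).2 = z2.2 := by rw [row_tr, rab]; ring
  have hAb : 1 - a0 / 2 ≤ L.P (A (QQ (-(s * (1000 * k))) D2 0 h2 k2) [bal (tr ab z2) r]) := by
    have := A_shift hI (x := 0) (x' := -(s * (1000 * k))) (D := D2) (j := 0) (j' := 0)
      (h := h2) (w := k2) ab (by rw [Xab]; ring) (by rw [rab]; ring)
      (mem_bal_of (by rw [Xab]; rcases hs with rfl | rfl <;> rw [abs_le] <;> constructor <;> omega)
        (by rw [rab]; simp)) (Bx_bal (by simp; omega) (by omega) (by omega))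
      (B := [bal z2 r]) (B' := [bal (tr ab z2) r]) (by
        intro S' hS'
        rw [List.mem_singleton.1 hS']
        exact ⟨bal z2 r, List.mem_singleton.2 rfl, tr_bal ab z2 r⟩)
    linarith
  have hzb : tr ab z2 ∈ strp 0 h := by
    show 0 ≤ (tr ab z2).2 ∧ (tr ab z2).2 ≤ h
    rw [rzb]
    constructor <;> omega
  have e1 := G.gp hI hs hr hzb (by rw [Xzb]; rcases hs with rfl | rfl <;> omega)
    (by rw [Xzb]; rcases hs with rfl | rfl <;> rw [abs_le] <;> constructor <;> omega) false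
    (QQ_ok (-(s * (1000 * k))) D2 0 h2 k2) rfl le_rfl (by show 0 + h2 ≤ h; omega)
    (by
      rintro v ⟨b1, b2, b3, b4⟩
      refine ⟨?_, ?_, ?_, ?_⟩ <;> rcases hs with rfl | rfl <;> omega)
    (y := -(s * (1000 * k)))
    (by
      rintro v ⟨b1, b2, b3⟩
      refine ⟨b1, ?_, ?_⟩ <;> rcases hs with rfl | rfl <;> omega)
    (by
      show s * (-(s * (1000 * k))) + 1000 * k ≤ s * 0
      rcases hs with rfl | rfl <;> omega)
    (by rcases hs with rfl | rfl <;> rw [abs_le] <;> constructor <;> omega) hAb []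
  -- high ball
  obtain ⟨i, hi1, hi2⟩ : ∃ i : ℤ, s * (2 * i + (h - h2) + D2) + 1000 * k ≤ s * D ∧
      s * D - 2 ≤ s * (2 * i + (h - h2) + D2) + 1000 * k := by
    rcases hs with rfl | rfl
    · refine ⟨(D - 1000 * k - D2 - (h - h2)) / 2, ?_, ?_⟩ <;> omega
    · refine ⟨(D + 1000 * k - D2 - (h - h2) + 1) / 2, ?_, ?_⟩ <;> omega
  obtain ⟨at', hat⟩ : ∃ at' : P2, at' = (i, h - h2) := ⟨_, rfl⟩
  obtain ⟨xt, hxt⟩ : ∃ xt : ℤ, xt = 2 * i + (h - h2) := ⟨_, rfl⟩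
  have Xat : X at' = xt := by rw [hat, hxt]; rfl
  have rat : at'.2 = h - h2 := by rw [hat]
  have Xzt : X (tr at' z2) = X z2 + xt := by rw [X_tr, Xat]
  have rzt : (tr at' z2).2 = z2.2 + (h - h2) := by rw [row_tr, rat]
  rw [← hxt] at hi1 hi2
  have hxtb : -(1600 * k) ≤ xt ∧ xt ≤ 1600 * k := by
    rcases hs with rfl | rfl <;> constructor <;> omega
  have hAt : 1 - a0 / 2 ≤ L.P (A (QQ xt D2 (h - h2) h2 k2) [bal (tr at' z2) r]) := by
    have := A_shift hI (x := 0) (x' := xt) (D := D2) (j := 0) (j' := h - h2)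
      (h := h2) (w := k2) at' (by rw [Xat]; ring) (by rw [rat]; ring)
      (mem_bal_of (by rw [Xat, abs_le]; constructor <;> omega)
        (by rw [rat, abs_le]; constructor <;> omega)) (Bx_bal (by simp; omega) (by omega) (by omega))
      (B := [bal z2 r]) (B' := [bal (tr at' z2) r]) (by
        intro S' hS'
        rw [List.mem_singleton.1 hS']
        exact ⟨bal z2 r, List.mem_singleton.2 rfl, tr_bal at' z2 r⟩)
    linarith
  have hzt : tr at' z2 ∈ strp 0 h := by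
    show 0 ≤ (tr at' z2).2 ∧ (tr at' z2).2 ≤ h
    rw [rzt]
    constructor <;> omega
  have e2 := G.gp hI hs hr hzt (by rw [Xzt]; rcases hs with rfl | rfl <;> omega)
    (by rw [Xzt, abs_le]; constructor <;> omega) true
    (QQ_ok xt D2 (h - h2) h2 k2) (by show (h - h2) + h2 + 1 = 0 + h + 1; ring)
    (by show (0 : ℤ) ≤ h - h2; omega) (by show (h - h2) + h2 ≤ h; omega)
    (by
      rintro v ⟨b1, b2, b3, b4⟩
      refine ⟨?_, ?_, ?_, ?_⟩ <;> omega)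
    (y := xt + D2)
    (by
      rintro v ⟨b1, b2, b3⟩
      refine ⟨?_, ?_, ?_⟩
      · show v.2 = 0 + h
        omega
      · omega
      · omega)
    (by
      show s * (xt + D2) + 1000 * k ≤ s * (0 + D)
      rw [zero_add]; exact hi1)
    (by rw [abs_le]; constructor <;> omega) hAt [bal (tr ab z2) r]
  refine ⟨tr ab z2, tr at' z2, ⟨by rw [rzb]; omega, by rw [rzb]; omega⟩,
    ⟨by rw [rzt]; omega, by rw [rzt]; omega⟩, ?_, ?_, ?_⟩
  · rw [Xzb]; rcases hs with rfl | rfl <;> rw [abs_le] <;> constructor <;> omega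
  · rw [Xzt, abs_le]; constructor <;> omega
  · have h0 : 0 ≤ a0 ^ 2 / 6 := by positivity
    calc (1 - L.P (A (QQ 0 D 0 h k) [bal (tr at' z2) r, bal (tr ab z2) r])) * (a0 ^ 2 / 6) ^ 2
        = (1 - L.P (A (QQ 0 D 0 h k) [bal (tr at' z2) r, bal (tr ab z2) r])) * (a0 ^ 2 / 6) *
          (a0 ^ 2 / 6) := by ring
      _ ≤ (1 - L.P (A (QQ 0 D 0 h k) [bal (tr ab z2) r])) * (a0 ^ 2 / 6) :=
          mul_le_mul_of_nonneg_right e2 h0
      _ ≤ 1 - L.P (A (QQ 0 D 0 h k) []) := e1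
      _ ≤ ε := by linarith

/-- **STEP I** -/
theorem stepI {h k D : ℤ} {ε a0 : ℝ} (G : Good L W ρ h k D ε a0) {h1 k1 D1 : ℤ} {ε1 a1 : ℝ}
    (G1 : Good L W ρ h1 k1 D1 ε1 a1) (hI : L.Inv W ρ) {h2 k2 D2 r : ℤ}
    (hr : 0 ≤ r) (hk1 : k = 1000 * k1) (hh2 : h2 = 1000000000000 * k2) (hk2 : k1 = 1000 * k2)
    (hD2 : |D2| ≤ 510 * k2) {u : ℝ} (hu : u + ρ ≤ a1 / 2) (hH : Hit L r h2 k2 D2 u)
    (hc : ε + ε1 / (a1 ^ 2 / 6) ^ 2 + 2 * ρ ≤ a0 ^ 4 / 144) :
    Hit L r h k D (6 * ε / a0 ^ 2) := by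
  have g1 := G.hh
  have g2 := G.hk
  have g3 := G.hW
  have g4 := G.ρ0
  have g5 := G.ρa
  have g6 := G.apos
  have g7 := G.al
  have g8 := G.V
  have f1 := G1.hh
  have f2 := G1.hk
  have f6 := G1.apos
  rw [abs_le] at g7
  obtain ⟨ze, zt, ⟨ze1, ze2⟩, ⟨zt1, zt2⟩, Xze, Xzt, hP⟩ := two_balls G1 hI hr hh2 hk2 hD2 hu hH
  rw [abs_le] at Xze Xzt
  have hk20 : 1 ≤ k2 := by omega
  -- the rotated connected set
  obtain ⟨a, ha⟩ : ∃ a : P2, a = (375000000000 * k1 - 250000000000 * k, 500000000000 * k) := ⟨_, rfl⟩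
  have Xa : X a = 750000000000 * k1 := by rw [ha]; unfold X; simp only; ring
  have ra : a.2 = 500000000000 * k := by rw [ha]
  have hg : Law.Sym W (tr a ∘ rot) 2 := .rot a (mem_bal_of (by rw [Xa, abs_le]; constructor <;> omega)
    (by rw [ra, abs_le]; constructor <;> omega))
  have hadj : ∀ u v, Adj u v → Adj ((tr a ∘ rot) u) ((tr a ∘ rot) v) := fun u v huv =>
    (hIso_tr a).adj _ _ (adj_rot huv)
  have hXg : ∀ v, 2 * X ((tr a ∘ rot) v) = -(X v) - 3 * v.2 + 1500000000000 * k1 := by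
    intro v
    have h1 := X_rot v
    have h2 := X_tr a (rot v)
    show 2 * X (tr a (rot v)) = _
    rw [h2, Xa]
    omega
  have hrg : ∀ v, 2 * ((tr a ∘ rot) v).2 = X v - v.2 + 1000000000000 * k := by
    intro v
    have h1 := row_rot v
    show 2 * (tr a (rot v)).2 = _
    rw [row_tr, ra]
    omega
  have hmove := Con_map hI hg hadj (S := (QQ 0 D1 0 h1 k1).S) (U := bal ze r) (U' := bal zt r)
    (T := (QQ 0 D 0 h k).S) (V := bal ((tr a ∘ rot) ze) r) (V' := bal ((tr a ∘ rot) zt) r) G1.QS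
    (by
      rintro v ⟨b1, b2, b3, b4⟩
      have c1 := hXg v
      have c2 := hrg v
      refine ⟨?_, ?_, ?_, ?_⟩ <;> omega)
    (fun v hv _ => tr_bal a _ r _ (rot_bal' ze r v hv)) (fun v hv _ => tr_bal a _ r _ (rot_bal' zt r v hv))
  have hAC : A (QQ 0 D1 0 h1 k1) [bal zt r, bal ze r] ⊆ Con (QQ 0 D1 0 h1 k1).S (bal ze r) (bal zt r) := by
    refine Ev.mono fun C hC => ?_
    obtain ⟨⟨c, c', hcl⟩, hm⟩ := hC
    obtain ⟨p, hp1, hp2⟩ := hm (bal zt r) (by simp)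
    obtain ⟨q, hq1, hq2⟩ := hm (bal ze r) (by simp)
    exact ⟨hcl.conn, hcl.sub, ⟨q, hq1, hq2⟩, p, hp1, hp2⟩
  have hAC' := L.mono _ _ hAC
  have hδ : 1 - L.P (A (QQ 0 D1 0 h1 k1) [bal zt r, bal ze r]) ≤ ε1 / (a1 ^ 2 / 6) ^ 2 := by
    rw [le_div_iff₀ (by positivity)]
    exact hP
  obtain ⟨w, hw⟩ : ∃ w, w = (tr a ∘ rot) ze := ⟨_, rfl⟩
  obtain ⟨w', hw'⟩ : ∃ w', w' = (tr a ∘ rot) zt := ⟨_, rfl⟩
  have Xw := hXg ze
  have rw1 := hrg ze
  have Xw' := hXg zt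
  have rw2 := hrg zt
  rw [← hw] at Xw rw1 hmove
  rw [← hw'] at Xw' rw2 hmove
  have hwm := G.wmove hI hr (z := w) (z' := w') ⟨by omega, by omega⟩ ⟨by omega, by omega⟩ (by omega)
    (by omega) (by omega) (by omega) (v := ε1 / (a1 ^ 2 / 6) ^ 2 + 2 * ρ) (by linarith)
  -- one of the hits is weak
  have hweak : 1 - a0 / 4 ≤ L.P (A (QQ 0 D 0 h k) [bal w r]) ∨
      1 - a0 / 4 ≤ L.P (A (QQ 0 D 0 h k) [bal w' r]) := by
    by_contra hno
    push Not at hno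
    have e1 : a0 / 4 < 1 - L.P (A (QQ 0 D 0 h k) [bal w r]) := by linarith [hno.1]
    have e2 : a0 / 4 < 1 - L.P (A (QQ 0 D 0 h k) [bal w' r]) := by linarith [hno.2]
    have e3 : (a0 / 4) * (a0 / 4) < (1 - L.P (A (QQ 0 D 0 h k) [bal w r])) *
        (1 - L.P (A (QQ 0 D 0 h k) [bal w' r])) :=
      mul_lt_mul'' e1 e2 (by positivity) (by positivity)
    have e4 : (a0 / 4) * (a0 / 4) * (a0 ^ 2 / 9) < (1 - L.P (A (QQ 0 D 0 h k) [bal w r])) *
        (1 - L.P (A (QQ 0 D 0 h k) [bal w' r])) * (a0 ^ 2 / 9) :=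
      mul_lt_mul_of_pos_right e3 (by positivity)
    have e5 : (a0 / 4) * (a0 / 4) * (a0 ^ 2 / 9) = a0 ^ 4 / 144 := by ring
    linarith
  -- strong hit by a shifted cluster
  have fin : ∀ (s : ℤ) (z : P2), (s = 1 ∨ s = -1) → h ≤ 4 * z.2 → 4 * z.2 ≤ 3 * h →
      600000000000 * k1 ≤ s * X z → |X z| ≤ h → 1 - a0 / 4 ≤ L.P (A (QQ 0 D 0 h k) [bal z r]) →
      Hit L r h k D (6 * ε / a0 ^ 2) := by
    intro s z hs c1 c2 c3 c4 c5
    rw [abs_le] at c4
    obtain ⟨b, hb⟩ : ∃ b : P2, b = (-(s * (500 * k)), 0) := ⟨_, rfl⟩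
    have Xb : X b = -(s * (1000 * k)) := by rw [hb, X_mk0]; ring
    have rb : b.2 = 0 := by rw [hb]
    have Xzb : X (tr b z) = X z - s * (1000 * k) := by rw [X_tr, Xb]; ring
    have rzb : (tr b z).2 = z.2 := by rw [row_tr, rb]; ring
    have hAb : 1 - a0 / 2 ≤ L.P (A (QQ (-(s * (1000 * k))) D 0 h k) [bal (tr b z) r]) := by
      have := A_shift hI (x := 0) (x' := -(s * (1000 * k))) (D := D) (j := 0) (j' := 0)
        (h := h) (w := k) b (by rw [Xb]; ring) (by rw [rb]; ring)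
        (mem_bal_of (by rw [Xb]; rcases hs with rfl | rfl <;> rw [abs_le] <;> constructor <;> omega)
          (by rw [rb]; simp)) (Bx_bal (by simp; omega) (by omega) (by omega))
        (B := [bal z r]) (B' := [bal (tr b z) r]) (by
          intro S' hS'
          rw [List.mem_singleton.1 hS']
          exact ⟨bal z r, List.mem_singleton.2 rfl, tr_bal b z r⟩)
      linarith
    have hzb : tr b z ∈ strp 0 h := by
      show 0 ≤ (tr b z).2 ∧ (tr b z).2 ≤ h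
      rw [rzb]
      constructor <;> omega
    have e1 := G.gp hI hs hr hzb (by rw [Xzb]; rcases hs with rfl | rfl <;> omega)
      (by rw [Xzb]; rcases hs with rfl | rfl <;> rw [abs_le] <;> constructor <;> omega) false
      (QQ_ok (-(s * (1000 * k))) D 0 h k) rfl le_rfl (by show 0 + h ≤ h; omega)
      (by
        rintro v ⟨b1, b2, b3, b4⟩
        refine ⟨?_, ?_, ?_, ?_⟩ <;> rcases hs with rfl | rfl <;> omega)
      (y := -(s * (1000 * k)))
      (by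
        rintro v ⟨b1, b2, b3⟩
        refine ⟨b1, ?_, ?_⟩ <;> rcases hs with rfl | rfl <;> omega)
      (by
        show s * (-(s * (1000 * k))) + 1000 * k ≤ s * 0
        rcases hs with rfl | rfl <;> omega)
      (by rcases hs with rfl | rfl <;> rw [abs_le] <;> constructor <;> omega) hAb []
    refine ⟨s, tr b z, hs, by rw [rzb]; exact c1, by rw [rzb]; exact c2, ?_, ?_, ?_⟩
    · rw [Xzb]; rcases hs with rfl | rfl <;> omega
    · rw [Xzb]; rcases hs with rfl | rfl <;> rw [abs_le] <;> constructor <;> omega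
    · have e2 : 1 - L.P (A (QQ 0 D 0 h k) [bal (tr b z) r]) ≤ 6 * ε / a0 ^ 2 := by
        rw [le_div_iff₀ (by positivity)]
        have e3 : (1 - L.P (A (QQ 0 D 0 h k) [bal (tr b z) r])) * (a0 ^ 2 / 6) ≤ ε := by linarith
        linarith
      linarith
  rcases hweak with hwk | hwk
  · exact fin 1 w (Or.inl rfl) (by omega) (by omega) (by omega) (by rw [abs_le]; constructor <;> omega) hwk
  · exact fin (-1) w' (Or.inr rfl) (by omega) (by omega) (by omega)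
      (by rw [abs_le]; constructor <;> omega) hwk

end Crest.Agent.R144.Qr315
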