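import Crest.Agent.R144.Qr6_315

/-!
# R144, QRSW, file 7: three slabs (helper315)

Three rotated long crossings around a site form a circuit: they meet every connected set which goes from
the inside to the outside, and they are connected together.
-/

set_option autoImplicit false

noncomputable section

namespace Crest.Agent.R144.Qr315

open Crest.Agent.R144.It844 (P2 adj_iff adj_symm)
open Crest.Agent.R144.Zg349 (StepIn IsConn)
open Crest.ProbabilityR.HexHeights (Adj)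

/-! ### frames -/

structure Fr (ψ : P2 → P2) : Prop where
  adj : ∀ u v, Adj u v → Adj (ψ u) (ψ v)
  inj : Function.Injective ψ

theorem fr_tr (a : P2) : Fr (tr a) where
  adj := (hIso_tr a).adj
  inj := fun u v h => by
    have := congrArg (tr (-a)) h
    rwa [(hIso_tr a).l, (hIso_tr a).l] at this

theorem rot_inj : Function.Injective rot := by
  rintro ⟨i, j⟩ ⟨i', j'⟩ h
  simp only [rot, Prod.mk.injEq] at h
  apply Prod.ext <;> simp only <;> omega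

theorem Fr.rot {ψ : P2 → P2} (h : Fr ψ) : Fr (Qr315.rot ∘ ψ) where
  adj := fun u v huv => adj_rot (h.adj u v huv)
  inj := rot_inj.comp h.inj

theorem Fr.row_step {ψ : P2 → P2} (h : Fr ψ) : ∀ u v, Adj u v → (ψ v).2 ≤ (ψ u).2 + 1 := by
  intro u v huv
  have h1 := adj_X (h.adj u v huv)
  omega

/-- `x1` in a frame -/
theorem x1g {ψ : P2 → P2} (hψ : Fr ψ) {C D : Set P2} {a b N : ℤ} (hC : IsConn C) (hD : IsConn D)
    (hDs : ∀ v ∈ D, a ≤ (ψ v).2 ∧ (ψ v).2 ≤ b)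
    (hN : ∀ v ∈ C, -N ≤ X (ψ v) ∧ X (ψ v) ≤ N) {c1 c2 : P2} (h1 : c1 ∈ C) (h1' : (ψ c1).2 = a)
    (h2 : c2 ∈ C) (h2' : (ψ c2).2 = b) {u v : P2} (hu : u ∈ D) (hv : v ∈ D)
    (hL : ∀ w ∈ C, X (ψ u) ≤ X (ψ w)) (hR : ∀ w ∈ C, X (ψ w) ≤ X (ψ v)) :
    (C ∩ D).Nonempty := by
  obtain ⟨w, ⟨c, hc, hcw⟩, ⟨d, hd, hdw⟩⟩ := x1 (conn_image hψ.adj hC) (conn_image hψ.adj hD)
    (by rintro _ ⟨x, hx, rfl⟩; exact hDs x hx) (by rintro _ ⟨x, hx, rfl⟩; exact hN x hx)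
    ⟨c1, h1, rfl⟩ h1' ⟨c2, h2, rfl⟩ h2' ⟨u, hu, rfl⟩ ⟨v, hv, rfl⟩
    (by rintro _ ⟨x, hx, rfl⟩ _; exact hL x hx) (by rintro _ ⟨x, hx, rfl⟩ _; exact hR x hx)
  have : c = d := hψ.inj (hcw.trans hdw.symm)
  subst this
  exact ⟨c, hc, hd⟩

/-- long crossing in the slab of the frame `ψ` -/
structure SlabD (ψ : P2 → P2) (t : ℤ) (D : Set P2) : Prop where
  conn : IsConn D
  rows : ∀ v ∈ D, -(2 * t) ≤ (ψ v).2 ∧ (ψ v).2 ≤ -t
  lft : ∃ u ∈ D, X (ψ u) ≤ -(6 * t)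
  rgt : ∃ v ∈ D, 6 * t ≤ X (ψ v)

/-- the crossings of two consecutive slabs meet -/
theorem corner {ψ : P2 → P2} (hψ : Fr ψ) {t : ℤ} (ht : 0 ≤ t) {D D' : Set P2} (h : SlabD ψ t D)
    (h' : SlabD (rot ∘ ψ) t D') : (D' ∩ D).Nonempty := by
  obtain ⟨u, hu, hu'⟩ := h'.rgt
  obtain ⟨v, hv, hv'⟩ := h'.lft
  have key : ∀ w ∈ D', -(2 * t) ≤ (ψ w).1 ∧ (ψ w).1 ≤ -t := h'.rows
  have hX : ∀ w, X ((rot ∘ ψ) w) = -(ψ w).1 - 2 * (ψ w).2 := by
    intro w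
    simp only [X, rot, Function.comp]
    ring
  rw [hX] at hu' hv'
  have ku := key u hu
  have kv := key v hv
  obtain ⟨C, hC, hCc, ⟨p, hp, hp'⟩, q, hq, hq'⟩ := trim (f := fun x => (ψ x).2) hψ.row_step h'.conn
    (a := -(2 * t)) (b := -t) (by omega) hu hv (by omega) (by omega)
  obtain ⟨a, ha, ha'⟩ := h.lft
  obtain ⟨b, hb, hb'⟩ := h.rgt
  have hCb : ∀ w ∈ C, -(6 * t) ≤ X (ψ w) ∧ X (ψ w) ≤ 6 * t := by
    intro w hw
    have h1 := key w (hC hw).1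
    have h2 : -(2 * t) ≤ (ψ w).2 ∧ (ψ w).2 ≤ -t := (hC hw).2
    unfold X
    constructor <;> omega
  obtain ⟨w, hw, hw'⟩ := x1g hψ hCc h.conn h.rows hCb hp hp' hq hq' ha hb
    (fun w hw => ha'.trans (hCb w hw).1) (fun w hw => (hCb w hw).2.trans hb')
  exact ⟨w, (hC hw).1, hw'⟩

/-- the big triangle -/
def Tri3 (ψ : P2 → P2) (t : ℤ) : Set P2 :=
  {v | -(2 * t) ≤ (ψ v).2 ∧ -(2 * t) ≤ (rot (ψ v)).2 ∧ -(2 * t) ≤ (rot (rot (ψ v))).2}

theorem blocks {ψ : P2 → P2} (hψ : Fr ψ) {t : ℤ} (ht : 0 ≤ t) {C D : Set P2} (h : SlabD ψ t D)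
    (hC : IsConn C) (hCT : ∀ v ∈ C, -(2 * t) ≤ (ψ v).2 ∧ -(2 * t) ≤ (rot (ψ v)).2 ∧
      -(2 * t) ≤ (rot (rot (ψ v))).2) {p w : P2} (hp : p ∈ C) (hw : w ∈ C) (hp' : -t < (ψ p).2)
    (hw' : (ψ w).2 ≤ -(2 * t)) : (C ∩ D).Nonempty := by
  obtain ⟨C', hC', hCc, ⟨c, hc, hc'⟩, q, hq, hq'⟩ := trim (f := fun x => (ψ x).2) hψ.row_step hC
    (a := -(2 * t)) (b := -t) (by omega) hw hp hw' hp'.le
  obtain ⟨a, ha, ha'⟩ := h.lft
  obtain ⟨b, hb, hb'⟩ := h.rgt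
  have hCb : ∀ w ∈ C', -(6 * t) ≤ X (ψ w) ∧ X (ψ w) ≤ 6 * t := by
    intro w hw
    obtain ⟨h1, h2, h3⟩ := hCT w (hC' hw).1
    simp only [rot] at h2 h3
    unfold X
    constructor <;> omega
  obtain ⟨w, hw, hw'⟩ := x1g hψ hCc h.conn h.rows hCb hc hc' hq hq' ha hb
    (fun w hw => ha'.trans (hCb w hw).1) (fun w hw => (hCb w hw).2.trans hb')
  exact ⟨w, (hC' hw).1, hw'⟩

theorem rot3 (v : P2) : rot (rot (rot v)) = v := by
  obtain ⟨i, j⟩ := v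
  simp only [rot]
  apply Prod.ext <;> simp only <;> ring

/-- a connected set from the inside to the outside meets one of the three crossings -/
theorem exit3 {ψ : P2 → P2} (hψ : Fr ψ) {t : ℤ} (ht : 0 ≤ t) {C D0 D1 D2 : Set P2}
    (h0 : SlabD ψ t D0) (h1 : SlabD (rot ∘ ψ) t D1) (h2 : SlabD (rot ∘ rot ∘ ψ) t D2)
    (hC : IsConn C) {p q : P2} (hp : p ∈ C) (hq : q ∈ C) (p0 : -t < (ψ p).2) (p1 : -t < (rot (ψ p)).2)
    (p2 : -t < (rot (rot (ψ p))).2) (hqT : q ∉ Tri3 ψ t) : (C ∩ (D0 ∪ D1 ∪ D2)).Nonempty := by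
  have hpT : p ∈ Tri3 ψ t := ⟨by omega, by omega, by omega⟩
  obtain ⟨w, hwT, hpw, w', hw', hadj⟩ := first_exit (hC p hp q hq) hpT hqT
  set C' : Set P2 := {v | Cn (C ∩ Tri3 ψ t) p v} with hC'
  have hsub : C' ⊆ C ∩ Tri3 ψ t := fun v hv => Cn.right_mem hv ⟨hp, hpT⟩
  have hcon : IsConn C' := isConn_reach _ _
  have hpC : p ∈ C' := .refl
  have hwC : w ∈ C' := hpw
  have s0 := hψ.row_step w' w (adj_symm hadj)
  have s1 := hψ.rot.row_step w' w (adj_symm hadj)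
  have s2 := hψ.rot.rot.row_step w' w (adj_symm hadj)
  simp only [Function.comp] at s1 s2
  have hcase : (ψ w).2 ≤ -(2 * t) ∨ (rot (ψ w)).2 ≤ -(2 * t) ∨ (rot (rot (ψ w))).2 ≤ -(2 * t) := by
    by_contra hno
    push Not at hno
    apply hw'
    exact ⟨by omega, by omega, by omega⟩
  have fin : ∀ D : Set P2, D ⊆ D0 ∪ D1 ∪ D2 → (C' ∩ D).Nonempty → (C ∩ (D0 ∪ D1 ∪ D2)).Nonempty := by
    rintro D hD ⟨x, hx, hx'⟩
    exact ⟨x, (hsub hx).1, hD hx'⟩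
  rcases hcase with hc | hc | hc
  · refine fin D0 (fun x hx => Or.inl (Or.inl hx)) (blocks hψ ht h0 hcon (fun v hv => (hsub hv).2) hpC hwC p0 hc)
  · refine fin D1 (fun x hx => Or.inl (Or.inr hx)) (blocks hψ.rot ht h1 hcon (fun v hv => ?_) hpC hwC p1 hc)
    obtain ⟨a, b, c⟩ := (hsub hv).2
    refine ⟨b, c, ?_⟩
    show -(2 * t) ≤ (rot (rot (rot (ψ v)))).2
    rw [rot3]; exact a
  · refine fin D2 (fun x hx => Or.inr hx) (blocks hψ.rot.rot ht h2 hcon (fun v hv => ?_) hpC hwC p2 hc)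
    obtain ⟨a, b, c⟩ := (hsub hv).2
    refine ⟨c, ?_, ?_⟩
    · show -(2 * t) ≤ (rot (rot (rot (ψ v)))).2
      rw [rot3]; exact a
    · show -(2 * t) ≤ (rot (rot (rot (rot (ψ v))))).2
      rw [rot3]; exact b

/-- the three crossings form a connected set -/
theorem slabs_conn {ψ : P2 → P2} (hψ : Fr ψ) {t : ℤ} (ht : 0 ≤ t) {D0 D1 D2 : Set P2}
    (h0 : SlabD ψ t D0) (h1 : SlabD (rot ∘ ψ) t D1) (h2 : SlabD (rot ∘ rot ∘ ψ) t D2) :
    IsConn (D0 ∪ D1 ∪ D2) := by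
  have c1 : IsConn (D0 ∪ D1) := by
    obtain ⟨x, hx, hx'⟩ := corner hψ ht h0 h1
    exact isConn_union h0.conn h1.conn ⟨x, hx', hx⟩
  obtain ⟨x, hx, hx'⟩ := corner hψ.rot ht h1 h2
  exact isConn_union c1 h2.conn ⟨x, Or.inr hx', hx⟩

/-! ### slab events -/

def slS (ψ : P2 → P2) (t : ℤ) : Set P2 :=
  {v | -(2 * t) ≤ (ψ v).2 ∧ (ψ v).2 ≤ -t ∧ -(200 * t) ≤ X (ψ v) ∧ X (ψ v) ≤ 200 * t}

def Sl (ψ : P2 → P2) (t : ℤ) : Set (Set P2) := Con (slS ψ t) {v | X (ψ v) ≤ -(6 * t)} {v | 6 * t ≤ X (ψ v)}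

theorem Sl_upper (ψ : P2 → P2) (t : ℤ) : IsUpperSet (Sl ψ t) := Ev.upper _

theorem slabD_of {ψ : P2 → P2} {t : ℤ} {D : Set P2}
    (h : ConΦ (slS ψ t) {v | X (ψ v) ≤ -(6 * t)} {v | 6 * t ≤ X (ψ v)} D) : SlabD ψ t D :=
  ⟨h.1, fun v hv => ⟨(h.2.1 hv).1, (h.2.1 hv).2.1⟩, h.2.2.1, h.2.2.2⟩

variable {L : Law} {W : ℕ} {ρ : ℝ}

theorem Sl_map (hI : L.Inv W ρ) {g ψ : P2 → P2} {κ : ℝ} (hg : Law.Sym W g κ)
    (hadj : ∀ u v, Adj u v → Adj (g u) (g v)) {t : ℤ} (ht : 0 ≤ t) (hW : 200 * t ≤ W)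
    (h : ∀ v, ψ (g v) = v + (t, -(2 * t))) : L.P (Hd t) ≤ L.P (Sl ψ t) + κ * ρ := by
  have hX : ∀ v, X (ψ (g v)) = X v := by
    intro v
    rw [h]
    simp only [X, Prod.fst_add, Prod.snd_add]
    ring
  have hr : ∀ v, (ψ (g v)).2 = v.2 - 2 * t := by
    intro v
    rw [h]
    simp only [Prod.snd_add]
    ring
  refine Con_map hI hg hadj (Bx_bal (by simp; omega) (by omega) (by omega)) ?_ ?_ ?_
  · rintro v ⟨a1, a2, a3, a4⟩
    have e1 := hX v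
    have e2 := hr v
    refine ⟨?_, ?_, ?_, ?_⟩ <;> omega
  · rintro v hv _
    show X (ψ (g v)) ≤ -(6 * t)
    rw [hX]; exact hv
  · rintro v hv _
    show 6 * t ≤ X (ψ (g v))
    rw [hX]; exact hv

/-- three crossings around the site `z` -/
theorem three (hI : L.Inv W ρ) (hρ : 0 ≤ ρ) {z : P2} {t : ℤ} (ht : 0 ≤ t) (hW : |X z| + |z.2| + 200 * t ≤ W) :
    3 * L.P (Hd t) - 2 - 9 * ρ ≤
      L.P (Sl (tr (-z)) t ∩ Sl (rot ∘ tr (-z)) t ∩ Sl (rot ∘ rot ∘ tr (-z)) t) := by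
  have e1 := abs_nonneg (X z)
  have e2 := abs_nonneg z.2
  have e3 := neg_abs_le (X z)
  have e4 := le_abs_self (X z)
  have e5 := neg_abs_le z.2
  have e6 := le_abs_self z.2
  have hb : ∀ a : P2, |a.1 - z.1| ≤ 2 * t → |a.2 - z.2| ≤ 2 * t → a ∈ bal 0 W := by
    intro a h1 h2
    rw [abs_le] at h1 h2
    have hXa : X a = X z + 2 * (a.1 - z.1) + (a.2 - z.2) := by unfold X; ring
    apply mem_bal_of <;> rw [abs_le] <;> constructor <;> omega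
  have h0 := Sl_map hI (ψ := tr (-z)) (.tr (z + (t, -(2 * t))) (hb _ (by simp; rw [abs_le]; constructor <;> omega)
    (by simp; rw [abs_le]; constructor <;> omega)))
    (hIso_tr _).adj ht (by omega) (by
      rintro ⟨i, j⟩
      obtain ⟨i0, j0⟩ := z
      simp only [tr, Prod.mk_add_mk, Prod.neg_mk]
      apply Prod.ext <;> simp only <;> ring)
  have h1 := Sl_map hI (ψ := rot ∘ tr (-z)) (.rot2 (z + (-(2 * t), t))
    (hb _ (by simp; rw [abs_le]; constructor <;> omega) (by simp; rw [abs_le]; constructor <;> omega)))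
    (fun u v huv => (hIso_tr _).adj _ _ (adj_rot (adj_rot huv))) ht (by omega) (by
      rintro ⟨i, j⟩
      obtain ⟨i0, j0⟩ := z
      simp only [tr, rot, Function.comp, Prod.mk_add_mk, Prod.neg_mk]
      apply Prod.ext <;> simp only <;> ring)
  have h2 := Sl_map hI (ψ := rot ∘ rot ∘ tr (-z)) (.rot (z + (t, t))
    (hb _ (by simp; rw [abs_le]; constructor <;> omega) (by simp; rw [abs_le]; constructor <;> omega)))
    (fun u v huv => (hIso_tr _).adj _ _ (adj_rot huv)) ht (by omega) (by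
      rintro ⟨i, j⟩
      obtain ⟨i0, j0⟩ := z
      simp only [tr, rot, Function.comp, Prod.mk_add_mk, Prod.neg_mk]
      apply Prod.ext <;> simp only <;> ring)
  have h3 := L.inter_ge (Sl (tr (-z)) t) (Sl (rot ∘ tr (-z)) t)
  have h4 := L.inter_ge (Sl (tr (-z)) t ∩ Sl (rot ∘ tr (-z)) t) (Sl (rot ∘ rot ∘ tr (-z)) t)
  linarith

/-- blue circuits give layers -/
theorem layer_of_slabs {z : P2} {t m N : ℤ} (hm : m < t) (ht : 0 ≤ t) (hN : 4 * t ≤ N) :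
    Sl (tr (-z)) t ∩ Sl (rot ∘ tr (-z)) t ∩ Sl (rot ∘ rot ∘ tr (-z)) t ⊆ {ω | Layer ω z m N} := by
  rintro ω ⟨⟨⟨D0, a0, b0⟩, ⟨D1, a1, b1⟩⟩, ⟨D2, a2, b2⟩⟩
  intro u v hu hv p
  have s0 := slabD_of b0
  have s1 := slabD_of b1
  have s2 := slabD_of b2
  have hne : u ≠ v := by
    rintro rfl
    apply hu
    obtain ⟨c1, c2, c3⟩ := hv
    exact ⟨by omega, by omega, by omega⟩
  have huω : u ∈ ωᶜ := by
    rcases Relation.ReflTransGen.cases_head p with h | ⟨c, h, _⟩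
    · exact absurd h hne
    · exact h.1
  have hcon : IsConn {x | Cn ωᶜ u x} := isConn_reach _ _
  have hsub : {x | Cn ωᶜ u x} ⊆ ωᶜ := fun x hx => Cn.right_mem hx huω
  obtain ⟨c1, c2, c3⟩ := hv
  rw [abs_le] at c1 c2 c3
  obtain ⟨w, hw, hw'⟩ := exit3 (fr_tr (-z)) ht s0 s1 s2 hcon (p := v) (q := u) p .refl
    (by simp only [tr, Prod.snd_add, Prod.snd_neg]; omega)
    (by simp only [tr, rot, Prod.fst_add, Prod.fst_neg]; omega)
    (by simp only [tr, rot, Prod.fst_add, Prod.fst_neg, Prod.snd_add, Prod.snd_neg]; omega)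
    (by
      rintro ⟨d1, d2, d3⟩
      simp only [tr, rot, Prod.fst_add, Prod.fst_neg, Prod.snd_add, Prod.snd_neg] at d1 d2 d3
      apply hu
      refine ⟨?_, ?_, ?_⟩ <;> rw [abs_le] <;> constructor <;> omega)
  rcases hw' with (hw' | hw') | hw'
  · exact hsub hw (a0 hw')
  · exact hsub hw (a1 hw')
  · exact hsub hw (a2 hw')

/-- **STEP II, first half**: long crossings around a common small ball would join two disjoint clusters -/
theorem hard_le {h k D : ℤ} {ε a0 : ℝ} (G : Good L W ρ h k D ε a0) (hI : L.Inv W ρ) {z : P2}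
    {s t x2 : ℤ} {u : ℝ} (hx2 : x2 = 1000 * k ∨ x2 = -(1000 * k)) (hz1 : h ≤ 5 * z.2)
    (hz2 : 5 * z.2 ≤ 4 * h) (hzX : |X z| ≤ 4 * h) (hst : s < t) (ht0 : 0 ≤ t) (ht : 1000 * t ≤ h)
    (hA0 : 1 - u ≤ L.P (A (QQ 0 D 0 h k) [bal z s])) (hA2 : 1 - u ≤ L.P (A (QQ x2 D 0 h k) [bal z s])) :
    a0 ≤ 3 * (1 - L.P (Hd t)) + 9 * ρ + 2 * u := by
  have g1 := G.hh
  have g2 := G.hk
  have g3 := G.hW
  rw [abs_le] at hzX
  have h3 := three hI G.ρ0 (z := z) ht0 (by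
    have e1 : |X z| ≤ 4 * h := abs_le.2 hzX
    have e2 : |z.2| ≤ h := by rw [abs_le]; constructor <;> omega
    omega)
  set SS := Sl (tr (-z)) t ∩ Sl (rot ∘ tr (-z)) t ∩ Sl (rot ∘ rot ∘ tr (-z)) t with hSS
  have hk0 : er 0 h false = 0 := rfl
  have hincl : A (QQ 0 D 0 h k) [bal z s] ∩ A (QQ x2 D 0 h k) [bal z s] ∩ SS ⊆
      Con (Bx (min 0 x2) (100 * h) 0 h) (Wn 0 k 0) (Wn x2 k 0) := by
    rintro ω ⟨⟨⟨C, hC, ⟨c, c', hcl⟩, hm⟩, ⟨C', hC', ⟨d, d', hcl'⟩, hm'⟩⟩,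
      ⟨⟨D0, a0, b0⟩, ⟨D1, a1, b1⟩⟩, ⟨D2, a2, b2⟩⟩
    have s0 := slabD_of b0
    have s1 := slabD_of b1
    have s2 := slabD_of b2
    obtain ⟨p, hp, hpB⟩ := hm (bal z s) (List.mem_singleton.2 rfl)
    obtain ⟨p', hp', hpB'⟩ := hm' (bal z s) (List.mem_singleton.2 rfl)
    have w1 := hcl.win false
    have w2 := hcl'.win false
    rw [QQ_W] at w1 w2
    have r1 : (c false).2 = 0 := w1.1
    have r2 : (d false).2 = 0 := w2.1
    have key : ∀ (C : Set P2) (p q : P2), IsConn C → p ∈ C → q ∈ C → p ∈ bal z s → q.2 = 0 →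
        (C ∩ (D0 ∪ D1 ∪ D2)).Nonempty := by
      intro C p q hC hp hq hpB hq0
      obtain ⟨c1, c2, c3⟩ := hpB
      rw [abs_le] at c1 c2 c3
      refine exit3 (fr_tr (-z)) ht0 s0 s1 s2 hC hp hq
        (by simp only [tr, Prod.snd_add, Prod.snd_neg]; omega)
        (by simp only [tr, rot, Prod.fst_add, Prod.fst_neg]; omega)
        (by simp only [tr, rot, Prod.fst_add, Prod.fst_neg, Prod.snd_add, Prod.snd_neg]; omega) ?_
      rintro ⟨d1, d2, d3⟩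
      simp only [tr, rot, Prod.fst_add, Prod.fst_neg, Prod.snd_add, Prod.snd_neg] at d1 d2 d3
      omega
    have n1 := key C p (c false) hcl.conn hp (hcl.mem false) hpB r1
    have n2 := key C' p' (d false) hcl'.conn hp' (hcl'.mem false) hpB' r2
    have hD := slabs_conn (fr_tr (-z)) ht0 s0 s1 s2
    have u1 : IsConn (C ∪ (D0 ∪ D1 ∪ D2)) := isConn_union hcl.conn hD n1
    have u2 : IsConn ((C ∪ (D0 ∪ D1 ∪ D2)) ∪ C') := by
      refine isConn_union u1 hcl'.conn ?_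
      obtain ⟨x, hx, hx'⟩ := n2
      exact ⟨x, Or.inr hx', hx⟩
    refine ⟨(C ∪ (D0 ∪ D1 ∪ D2)) ∪ C', ?_, u2, ?_, ⟨c false, Or.inl (Or.inl (hcl.mem false)), w1⟩,
      d false, Or.inr (hcl'.mem false), w2⟩
    · exact Set.union_subset (Set.union_subset hC (Set.union_subset (Set.union_subset a0 a1) a2)) hC'
    · have hsl : ∀ ψ : P2 → P2, (ψ = tr (-z) ∨ ψ = rot ∘ tr (-z) ∨ ψ = rot ∘ rot ∘ tr (-z)) →
          slS ψ t ⊆ Bx (min 0 x2) (100 * h) 0 h := by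
        intro ψ hψ v hv
        obtain ⟨b1, b2, b3, b4⟩ := hv
        rcases hψ with rfl | rfl | rfl
        · simp only [tr, X, Prod.fst_add, Prod.fst_neg, Prod.snd_add, Prod.snd_neg] at b1 b2 b3 b4 hzX
          refine ⟨?_, ?_, ?_, ?_⟩ <;> (try unfold X) <;> rcases hx2 with rfl | rfl <;> omega
        · simp only [tr, rot, Function.comp, X, Prod.fst_add, Prod.fst_neg, Prod.snd_add,
            Prod.snd_neg] at b1 b2 b3 b4 hzX
          refine ⟨?_, ?_, ?_, ?_⟩ <;> (try unfold X) <;> rcases hx2 with rfl | rfl <;> omega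
        · simp only [tr, rot, Function.comp, X, Prod.fst_add, Prod.fst_neg, Prod.snd_add,
            Prod.snd_neg] at b1 b2 b3 b4 hzX
          refine ⟨?_, ?_, ?_, ?_⟩ <;> (try unfold X) <;> rcases hx2 with rfl | rfl <;> omega
      rintro v ((hv | ((hv | hv) | hv)) | hv)
      · obtain ⟨b1, b2, b3, b4⟩ := hcl.sub hv
        refine ⟨?_, ?_, ?_, ?_⟩ <;> rcases hx2 with rfl | rfl <;> omega
      · exact hsl _ (Or.inl rfl) (b0.2.1 hv)
      · exact hsl _ (Or.inr (Or.inl rfl)) (b1.2.1 hv)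
      · exact hsl _ (Or.inr (Or.inr rfl)) (b2.2.1 hv)
      · obtain ⟨b1, b2, b3, b4⟩ := hcl'.sub hv
        refine ⟨?_, ?_, ?_, ?_⟩ <;> rcases hx2 with rfl | rfl <;> omega
  have hK : L.P (Con (Bx (min 0 x2) (100 * h) 0 h) (Wn 0 k 0) (Wn x2 k 0)) ≤ 1 - a0 := by
    rcases hx2 with rfl | rfl
    · have := G.K false 0 (1000 * k) (by simp; omega) le_rfl (by omega)
      rw [hk0, zero_add] at this
      rwa [show min 0 (1000 * k) = 0 by omega]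
    · have := G.K false (-(1000 * k)) (1000 * k) (by rw [abs_le]; constructor <;> omega) le_rfl (by omega)
      rw [hk0, show -(1000 * k) + 1000 * k = 0 by ring] at this
      rw [show min 0 (-(1000 * k)) = -(1000 * k) by omega]
      exact (L.mono _ _ (Con_symm _ _ _)).trans this
  have h4 := L.mono _ _ hincl
  have h5 := L.inter_ge (A (QQ 0 D 0 h k) [bal z s] ∩ A (QQ x2 D 0 h k) [bal z s]) SS
  have h6 := L.inter_ge (A (QQ 0 D 0 h k) [bal z s]) (A (QQ x2 D 0 h k) [bal z s])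
  linarith

end Crest.Agent.R144.Qr315
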