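import Crest.Agent.R144.Qr7_315

/-!
# R144, QRSW, file 8: the bottom-top cluster from a blue arm (helper315)

If a small ball is joined to a long distance with high probability, and long crossings of the strip fail
with probability bounded below, then a bottom-top cluster with fixed windows exists with high probability.
-/

set_option autoImplicit false

noncomputable section

namespace Crest.Agent.R144.Qr315

open Crest.Agent.R144.It844 (P2 adj_iff adj_symm)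
open Crest.Agent.R144.Zg349 (StepIn IsConn)
open Crest.ProbabilityR.HexHeights (Adj)

theorem row_step' : ∀ u v : P2, Adj u v → v.2 ≤ u.2 + 1 := by
  intro u v huv
  have := adj_X huv
  omega

/-- the arm leaves the box through one of its four sides -/
theorem arm_exits {s t R N L0 : ℤ} (hs : 0 ≤ s) (hst : s ≤ t) (hL : L0 = 27 * t) (hN : 14 * t ≤ N) :
    Con (bal 0 R) (bal 0 s) (bal 0 N)ᶜ ⊆
      (Con (Bx 0 L0 s t) {v | v.2 = s} {v | v.2 = t} ∪ Con (Bx 0 L0 (-t) (-s)) {v | v.2 = -t} {v | v.2 = -s}) ∪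
        Con (Bx 0 L0 (-t) t) {v | X v ≤ -L0 + 1} {v | -(2 * s) ≤ X v} ∪
        Con (Bx 0 L0 (-t) t) {v | X v ≤ 2 * s} {v | L0 - 1 ≤ X v} := by
  rintro ω ⟨C, hC, hCc, _, ⟨p, hp, hpB⟩, q, hq, hqB⟩
  obtain ⟨b1, b2, b3⟩ := hpB
  simp only [Prod.fst_zero, Prod.snd_zero, sub_zero, abs_le] at b1 b2 b3
  have hXp : -(2 * s) ≤ X p ∧ X p ≤ 2 * s := by unfold X; omega
  have hpR : p ∈ Bx 0 L0 (-t) t := ⟨by omega, by omega, by omega, by omega⟩
  have hqR : q ∉ Bx 0 L0 (-t) t := by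
    rintro ⟨c1, c2, c3, c4⟩
    apply hqB
    unfold X at c3 c4
    simp only [bal, Prod.fst_zero, Prod.snd_zero, sub_zero, abs_le]
    refine ⟨⟨?_, ?_⟩, ⟨?_, ?_⟩, ⟨?_, ?_⟩⟩ <;> omega
  obtain ⟨w, hwR, hpw, w', hw', hadj⟩ := first_exit (hCc p hp q hq) hpR hqR
  set C' : Set P2 := {x | Cn (C ∩ Bx 0 L0 (-t) t) p x} with hC'
  have hsub : C' ⊆ C ∩ Bx 0 L0 (-t) t := fun v hv => Cn.right_mem hv ⟨hp, hpR⟩
  have hcon : IsConn C' := isConn_reach _ _
  have hpC : p ∈ C' := .refl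
  have hwC : w ∈ C' := hpw
  obtain ⟨w1, w2, w3, w4⟩ := hwR
  have hx := adj_X hadj
  have hcase : t ≤ w.2 ∨ w.2 ≤ -t ∨ X w ≤ -L0 + 1 ∨ L0 - 1 ≤ X w := by
    by_contra hno
    push Not at hno
    apply hw'
    refine ⟨?_, ?_, ?_, ?_⟩ <;> omega
  rcases hcase with h | h | h | h
  · left; left; left
    obtain ⟨C'', hC'', hc, h1, h2⟩ := trim row_step' hcon (a := s) (b := t) hst hpC hwC (by omega) h
    refine ⟨C'', (fun x hx => hC (hsub (hC'' hx).1).1), hc, ?_, h1, h2⟩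
    intro x hx
    obtain ⟨d1, d2, d3, d4⟩ := (hsub (hC'' hx).1).2
    obtain ⟨e1, e2⟩ := (hC'' hx).2
    exact ⟨e1, e2, d3, d4⟩
  · left; left; right
    obtain ⟨C'', hC'', hc, h1, h2⟩ := trim row_step' hcon (a := -t) (b := -s) (by omega) hwC hpC h (by omega)
    refine ⟨C'', (fun x hx => hC (hsub (hC'' hx).1).1), hc, ?_, h1, h2⟩
    intro x hx
    obtain ⟨d1, d2, d3, d4⟩ := (hsub (hC'' hx).1).2
    obtain ⟨e1, e2⟩ := (hC'' hx).2
    exact ⟨e1, e2, d3, d4⟩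
  · left; right
    exact ⟨C', (fun x hx => hC (hsub hx).1), hcon, (fun x hx => (hsub hx).2), ⟨w, hwC, h⟩, p, hpC, hXp.1⟩
  · right
    exact ⟨C', (fun x hx => hC (hsub hx).1), hcon, (fun x hx => (hsub hx).2), ⟨p, hpC, hXp.2⟩, w, hwC, h⟩

/-- window index -/
theorem window_index {c0 κ x L0 : ℤ} (hκ : 1 ≤ κ) (h1 : c0 ≤ -L0) (hx1 : -L0 ≤ x)
    (hx2 : x ≤ L0) {n0 : ℕ} (hn : (2 * L0 + 1 + κ) / (2 * κ) < n0) (h2 : -L0 - 1 ≤ c0) :
    ∃ i : ℕ, i < n0 ∧ c0 + 2 * κ * i - κ ≤ x ∧ x ≤ c0 + 2 * κ * i + κ := by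
  have h0 : 0 ≤ (x - c0 + κ) / (2 * κ) := Int.ediv_nonneg (by omega) (by omega)
  have h3 := Int.lt_ediv_add_one_mul_self (x - c0 + κ) (show 0 < 2 * κ by omega)
  have h4 := Int.ediv_mul_le (x - c0 + κ) (show 2 * κ ≠ 0 by omega)
  have h5 : (x - c0 + κ) / (2 * κ) ≤ (2 * L0 + 1 + κ) / (2 * κ) :=
    Int.ediv_le_ediv (by omega) (by omega)
  refine ⟨((x - c0 + κ) / (2 * κ)).toNat, ?_, ?_, ?_⟩
  · zify
    rw [Int.toNat_of_nonneg h0]
    omega
  · rw [Int.toNat_of_nonneg h0]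
    have : 2 * κ * ((x - c0 + κ) / (2 * κ)) = (x - c0 + κ) / (2 * κ) * (2 * κ) := by ring
    omega
  · rw [Int.toNat_of_nonneg h0]
    have : ((x - c0 + κ) / (2 * κ) + 1) * (2 * κ) = 2 * κ * ((x - c0 + κ) / (2 * κ)) + 2 * κ := by ring
    omega

variable {L : Law} {W : ℕ} {ρ : ℝ}

/-- the translated crossing with windows is a cluster of a standard quad -/
theorem con_to_A (hI : L.Inv W ρ) {g κ jb cb ct L0 : ℤ} (hg : 0 ≤ g) (hpar : ∃ m : ℤ, cb = jb + 2 * m)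
    (hb : |cb| + L0 ≤ 60 * g) (hL0 : 0 ≤ L0) (hjb : |jb| ≤ 2 * g) (hW : 100 * g ≤ W) :
    L.P (Con (Bx 0 L0 jb (jb + g)) (Wn cb κ jb) (Wn ct κ (jb + g))) ≤
      L.P (A (QQ 0 (ct - cb) 0 g κ) []) + ρ := by
  obtain ⟨m, hm⟩ := hpar
  have e1 := neg_abs_le cb
  have e2 := le_abs_self cb
  rw [abs_le] at hjb
  obtain ⟨a, ha⟩ : ∃ a : P2, a = (-m, -jb) := ⟨_, rfl⟩
  have Xa : X a = -cb := by rw [ha, hm]; unfold X; simp only; ring
  have ra : a.2 = -jb := by rw [ha]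
  have h := hI.ev (Ψ := AΦ (QQ 0 (ct - cb) 0 g κ) []) (Φ := ConΦ (Bx 0 L0 jb (jb + g)) (Wn cb κ jb)
    (Wn ct κ (jb + g))) (.tr a (mem_bal_of (by rw [Xa, abs_le]; constructor <;> omega)
      (by rw [ra, abs_le]; constructor <;> omega)))
    (fun C hC => hC.2.1.trans (Bx_bal (by simp; omega) (by omega) (by omega))) (by
      intro C hC
      obtain ⟨h1, h2, ⟨p, hp, p1, p2, p3⟩, ⟨q, hq, q1, q2, q3⟩⟩ := hC
      refine ⟨⟨fun e => if e then tr a q else tr a p, fun e => nb e (if e then tr a q else tr a p), ?_⟩,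
        by simp⟩
      refine ⟨conn_image (hIso_tr a).adj h1, ?_, ?_, ?_, ?_, ?_⟩
      · rintro _ ⟨v, hv, rfl⟩
        obtain ⟨b1, b2, b3, b4⟩ := h2 hv
        have f1 := X_tr a v
        have f2 := row_tr a v
        refine ⟨?_, ?_, ?_, ?_⟩ <;> omega
      · intro e
        cases e
        · exact ⟨p, hp, rfl⟩
        · exact ⟨q, hq, rfl⟩
      · intro e
        have f1 := X_tr a p
        have f2 := row_tr a p
        have f3 := X_tr a q
        have f4 := row_tr a q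
        cases e
        · refine ⟨?_, ?_, ?_⟩ <;> simp only [if_false, Bool.false_eq_true] <;> omega
        · refine ⟨?_, ?_, ?_⟩ <;> simp only [if_true] <;> omega
      · intro e
        exact adj_nb e _
      · intro e
        have f2 := row_tr a p
        have f4 := row_tr a q
        cases e
        · show (tr a p).2 - 1 = 0 - 1
          omega
        · show (tr a q).2 + 1 = 0 + g + 1
          omega)
  have h' : L.P (Con (Bx 0 L0 jb (jb + g)) (Wn cb κ jb) (Wn ct κ (jb + g))) ≤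
      L.P (A (QQ 0 (ct - cb) 0 g κ) []) + 1 * ρ := h
  linarith

/-- **V FROM A BLUE ARM** -/
theorem va (hI : L.Inv W ρ) {g κ s R N : ℤ} (hg : g = 1000000000000 * κ) (hκ : 1 ≤ κ)
    (hs0 : 0 ≤ s) (hs : 10 * s ≤ g) (hN : 20 * g ≤ N) (hW : 1000 * g ≤ W) {M : ℕ}
    (hM : 30000000000000 ≤ M) {v v0 c : ℝ} (hv0 : 0 < v0) (hv1 : v0 ≤ 1) (hc : ρ < c)
    (hArm : 1 - v ≤ L.P (Con (bal 0 R) (bal 0 s) (bal 0 N)ᶜ)) (hH : L.P (Hd (2 * (g + s))) ≤ 1 - c)
    (hv : v < v0 ^ (2 * M ^ 2) * (c - ρ) ^ 2) :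
    ∃ D : ℤ, |D| ≤ 60 * g ∧ 1 - v0 - ρ ≤ L.P (A (QQ 0 D 0 g κ) []) := by
  obtain ⟨t, ht⟩ : ∃ t : ℤ, t = g + s := ⟨_, rfl⟩
  obtain ⟨L0, hL0⟩ : ∃ L0 : ℤ, L0 = 27 * t := ⟨_, rfl⟩
  rw [← ht] at hH
  have h1 := L.mono _ _ (arm_exits (R := R) hs0 (show s ≤ t by omega) hL0 (show 14 * t ≤ N by omega))
  set VT := Con (Bx 0 L0 s t) {v | v.2 = s} {v | v.2 = t} with hVT
  set VB := Con (Bx 0 L0 (-t) (-s)) {v | v.2 = -t} {v | v.2 = -s} with hVB
  set HL := Con (Bx 0 L0 (-t) t) {v | X v ≤ -L0 + 1} {v | -(2 * s) ≤ X v} with hHL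
  set HR := Con (Bx 0 L0 (-t) t) {v | X v ≤ 2 * s} {v | L0 - 1 ≤ X v} with hHR
  -- left and right exits are long crossings
  have hboxW : Bx 0 L0 (-t) t ⊆ bal 0 W := Bx_bal (by simp; omega) (by omega) (by omega)
  have hl : L.P HL ≤ 1 - c + ρ := by
    have := Con_shift hI (13 * t / 2, t) (mem_bal_of (by unfold X; simp only; rw [abs_le]; constructor <;> omega)
      (by simp only; rw [abs_le]; constructor <;> omega)) (S := Bx 0 L0 (-t) t)
      (U := {v | X v ≤ -L0 + 1}) (U' := {v | -(2 * s) ≤ X v}) (T := Bx 0 (200 * (2 * t)) 0 (2 * t))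
      (V := {v | X v ≤ -(6 * (2 * t))}) (V' := {v | 6 * (2 * t) ≤ X v}) hboxW
      (by
        rintro v ⟨a1, a2, a3, a4⟩
        have b1 := X_tr (13 * t / 2, t) v
        have b2 := row_tr (13 * t / 2, t) v
        unfold X at *
        simp only at b1 b2
        refine ⟨?_, ?_, ?_, ?_⟩ <;> (try unfold X) <;> omega)
      (by
        rintro v (hv : X v ≤ -L0 + 1) _
        have b1 := X_tr (13 * t / 2, t) v
        show X (tr (13 * t / 2, t) v) ≤ -(6 * (2 * t))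
        rw [b1]
        unfold X at *
        simp only
        omega)
      (by
        rintro v (hv : -(2 * s) ≤ X v) _
        have b1 := X_tr (13 * t / 2, t) v
        show 6 * (2 * t) ≤ X (tr (13 * t / 2, t) v)
        rw [b1]
        unfold X at *
        simp only
        omega)
    have h2 : L.P (Con (Bx 0 (200 * (2 * t)) 0 (2 * t)) {v | X v ≤ -(6 * (2 * t))} {v | 6 * (2 * t) ≤ X v}) ≤
        1 - c := hH
    linarith
  have hr : L.P HR ≤ 1 - c + ρ := by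
    have := Con_shift hI (-(15 * t / 2), t) (mem_bal_of (by unfold X; simp only; rw [abs_le]; constructor <;> omega)
      (by simp only; rw [abs_le]; constructor <;> omega)) (S := Bx 0 L0 (-t) t)
      (U := {v | X v ≤ 2 * s}) (U' := {v | L0 - 1 ≤ X v}) (T := Bx 0 (200 * (2 * t)) 0 (2 * t))
      (V := {v | X v ≤ -(6 * (2 * t))}) (V' := {v | 6 * (2 * t) ≤ X v}) hboxW
      (by
        rintro v ⟨a1, a2, a3, a4⟩
        have b1 := X_tr (-(15 * t / 2), t) v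
        have b2 := row_tr (-(15 * t / 2), t) v
        unfold X at *
        simp only at b1 b2
        refine ⟨?_, ?_, ?_, ?_⟩ <;> (try unfold X) <;> omega)
      (by
        rintro v (hv : X v ≤ 2 * s) _
        have b1 := X_tr (-(15 * t / 2), t) v
        show X (tr (-(15 * t / 2), t) v) ≤ -(6 * (2 * t))
        rw [b1]
        unfold X at *
        simp only
        omega)
      (by
        rintro v (hv : L0 - 1 ≤ X v) _
        have b1 := X_tr (-(15 * t / 2), t) v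
        show 6 * (2 * t) ≤ X (tr (-(15 * t / 2), t) v)
        rw [b1]
        unfold X at *
        simp only
        omega)
    have h2 : L.P (Con (Bx 0 (200 * (2 * t)) 0 (2 * t)) {v | X v ≤ -(6 * (2 * t))} {v | 6 * (2 * t) ≤ X v}) ≤
        1 - c := hH
    linarith
  have h3 := L.compl_mul3 ((Con_upper (Bx 0 L0 s t) {v | v.2 = s} {v | v.2 = t}).union
    (Con_upper (Bx 0 L0 (-t) (-s)) {v | v.2 = -t} {v | v.2 = -s}))
    (Con_upper (Bx 0 L0 (-t) t) {v | X v ≤ -L0 + 1} {v | -(2 * s) ≤ X v})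
    (Con_upper (Bx 0 L0 (-t) t) {v | X v ≤ 2 * s} {v | L0 - 1 ≤ X v})
  rw [← hVT, ← hVB, ← hHL, ← hHR] at h3
  have hx0 : 0 ≤ 1 - L.P (VT ∪ VB) := by linarith [L.le_one (VT ∪ VB)]
  have h4 : (1 - L.P (VT ∪ VB)) * (c - ρ) ^ 2 ≤ v := by
    have e1 : (c - ρ) * (c - ρ) ≤ (1 - L.P HL) * (1 - L.P HR) :=
      mul_le_mul (by linarith) (by linarith) (by linarith) (by linarith)
    have e2 : (1 - L.P (VT ∪ VB)) * ((c - ρ) * (c - ρ)) ≤
        (1 - L.P (VT ∪ VB)) * ((1 - L.P HL) * (1 - L.P HR)) := mul_le_mul_of_nonneg_left e1 hx0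
    calc (1 - L.P (VT ∪ VB)) * (c - ρ) ^ 2 = (1 - L.P (VT ∪ VB)) * ((c - ρ) * (c - ρ)) := by ring
      _ ≤ (1 - L.P (VT ∪ VB)) * ((1 - L.P HL) * (1 - L.P HR)) := e2
      _ = (1 - L.P (VT ∪ VB)) * (1 - L.P HL) * (1 - L.P HR) := by ring
      _ ≤ v := by linarith
  have hcρ : 0 < (c - ρ) ^ 2 := by
    have : 0 < c - ρ := by linarith
    positivity
  have h5 : 1 - L.P (VT ∪ VB) < v0 ^ (2 * M ^ 2) := by
    have : (1 - L.P (VT ∪ VB)) * (c - ρ) ^ 2 < v0 ^ (2 * M ^ 2) * (c - ρ) ^ 2 := lt_of_le_of_lt h4 hv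
    exact lt_of_mul_lt_mul_right this hcρ.le
  -- windows
  have hdiv : (2 * L0 + 1 + κ) / (2 * κ) ≤ 29999999999999 := by
    apply Int.ediv_le_of_le_mul (by omega)
    omega
  have hdiv0 : 0 ≤ (2 * L0 + 1 + κ) / (2 * κ) := Int.ediv_nonneg (by omega) (by omega)
  obtain ⟨n0, hn0, hn1⟩ : ∃ n0 : ℕ, (n0 : ℤ) = (2 * L0 + 1 + κ) / (2 * κ) + 1 ∧ n0 ≤ M := by
    refine ⟨((2 * L0 + 1 + κ) / (2 * κ) + 1).toNat, ?_, ?_⟩
    · rw [Int.toNat_of_nonneg (by omega)]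
    · have : (((2 * L0 + 1 + κ) / (2 * κ) + 1).toNat : ℤ) ≤ 30000000000000 := by
        rw [Int.toNat_of_nonneg (by omega)]
        omega
      have h2 : ((2 * L0 + 1 + κ) / (2 * κ) + 1).toNat ≤ 30000000000000 := by exact_mod_cast this
      omega
  have hn0pos : 0 < n0 := by omega
  have hmul := Int.ediv_mul_le (2 * L0 + 1 + κ) (show 2 * κ ≠ 0 by omega)
  -- bottom row of the two types
  obtain ⟨jb, hjb⟩ : ∃ jb : Bool → ℤ, jb = fun τ => if τ then s else -t := ⟨_, rfl⟩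
  obtain ⟨c0, hc0⟩ : ∃ c0 : Bool → ℤ, c0 = fun τ => jb τ + 2 * ((-L0 - jb τ) / 2) := ⟨_, rfl⟩
  have hc01 : ∀ τ, c0 τ ≤ -L0 ∧ -L0 - 1 ≤ c0 τ := by
    intro τ
    rw [hc0]
    simp only
    constructor <;> omega
  have hjbg : ∀ τ, jb τ + g = if τ then t else -s := by
    intro τ
    rw [hjb]
    cases τ <;> simp <;> omega
  obtain ⟨F, hF⟩ : ∃ F : Bool × ℕ × ℕ → Set (Set P2), F = fun x => Con (Bx 0 L0 (jb x.1) (jb x.1 + g))
      (Wn (c0 x.1 + 2 * κ * x.2.1) κ (jb x.1)) (Wn (c0 x.1 + 2 * κ * x.2.2) κ (jb x.1 + g)) := ⟨_, rfl⟩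
  obtain ⟨I, hIdef⟩ : ∃ I : Finset (Bool × ℕ × ℕ),
      I = Finset.univ ×ˢ (Finset.range n0 ×ˢ Finset.range n0) := ⟨_, rfl⟩
  have hmemI : ∀ τ i l, i < n0 → l < n0 → ((τ, i, l) : Bool × ℕ × ℕ) ∈ I := by
    intro τ i l h2 h3
    rw [hIdef]
    simp [h2, h3]
  have hcard : I.card = 2 * n0 ^ 2 := by
    rw [hIdef, Finset.card_product, Finset.card_product, Finset.card_range]
    simp only [Finset.card_univ, Fintype.card_bool]
    ring
  have hcov : VT ∪ VB ⊆ ⋃ x ∈ I, F x := by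
    have key : ∀ τ : Bool, Con (Bx 0 L0 (jb τ) (jb τ + g)) {v | v.2 = jb τ} {v | v.2 = jb τ + g} ⊆
        ⋃ x ∈ I, F x := by
      rintro τ ω ⟨C, hC, hCc, hCs, ⟨p, hp, hp'⟩, q, hq, hq'⟩
      obtain ⟨a1, a2, a3, a4⟩ := hCs hp
      obtain ⟨b1, b2, b3, b4⟩ := hCs hq
      obtain ⟨i, hi, i1, i2⟩ := window_index hκ (hc01 τ).1 (x := X p) (by omega) (by omega) (n0 := n0)
        (by rw [hn0]; omega) (hc01 τ).2
      obtain ⟨l, hl, l1, l2⟩ := window_index hκ (hc01 τ).1 (x := X q) (by omega) (by omega) (n0 := n0)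
        (by rw [hn0]; omega) (hc01 τ).2
      rw [Set.mem_iUnion₂]
      refine ⟨(τ, i, l), hmemI τ i l hi hl, ?_⟩
      rw [hF]
      exact ⟨C, hC, hCc, hCs, ⟨p, hp, hp', i1, i2⟩, q, hq, hq', l1, l2⟩
    have kT := key true
    have kB := key false
    have j1 : jb true = s := by rw [hjb]; rfl
    have j2 : jb false = -t := by rw [hjb]; rfl
    have j3 : jb true + g = t := by rw [hjbg]; rfl
    have j4 : jb false + g = -s := by rw [hjbg]; rfl
    rw [j3, j1] at kT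
    rw [j4, j2] at kB
    exact Set.union_subset kT kB
  have h6 : 1 - L.P (⋃ x ∈ I, F x) < v0 ^ I.card := by
    have e1 := L.mono _ _ hcov
    have e2 : v0 ^ (2 * M ^ 2) ≤ v0 ^ I.card := by
      rw [hcard]
      apply pow_le_pow_of_le_one hv0.le hv1
      have := Nat.pow_le_pow_left hn1 2
      omega
    linarith
  obtain ⟨⟨τ, i, l⟩, hx, hx'⟩ := L.exists_of_union I ⟨(true, 0, 0), hmemI true 0 0 hn0pos hn0pos⟩ F
    (by intro x; rw [hF]; exact Con_upper _ _ _) hv0.le h6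
  rw [hIdef] at hx
  simp only [Finset.mem_product, Finset.mem_univ, Finset.mem_range, true_and] at hx
  obtain ⟨hi, hl'⟩ := hx
  have hcb : ∀ i : ℕ, i < n0 → -L0 - 1 ≤ c0 τ + 2 * κ * i ∧ c0 τ + 2 * κ * i ≤ L0 + 1 + κ := by
    intro i hi
    have e1 : (i : ℤ) ≤ (2 * L0 + 1 + κ) / (2 * κ) := by omega
    have e2 : (i : ℤ) * (2 * κ) ≤ (2 * L0 + 1 + κ) / (2 * κ) * (2 * κ) :=
      mul_le_mul_of_nonneg_right e1 (by omega)
    have e3 : 2 * κ * (i : ℤ) = i * (2 * κ) := by ring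
    have e4 : 0 ≤ (i : ℤ) * (2 * κ) := mul_nonneg (Int.natCast_nonneg i) (by omega)
    have e5 := hc01 τ
    constructor <;> omega
  have b1 := hcb i hi
  have b2 := hcb l hl'
  obtain ⟨ci, hci⟩ : ∃ ci : ℤ, ci = c0 τ + 2 * κ * i := ⟨_, rfl⟩
  obtain ⟨cl, hcl⟩ : ∃ cl : ℤ, cl = c0 τ + 2 * κ * l := ⟨_, rfl⟩
  rw [← hci] at b1
  rw [← hcl] at b2
  have hx2 : 1 - v0 ≤ L.P (Con (Bx 0 L0 (jb τ) (jb τ + g)) (Wn ci κ (jb τ)) (Wn cl κ (jb τ + g))) := by
    rw [hF] at hx'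
    rw [hci, hcl]
    exact hx'
  have hpar : ∃ m : ℤ, ci = jb τ + 2 * m := by
    refine ⟨(-L0 - jb τ) / 2 + κ * i, ?_⟩
    rw [hci, hc0]
    ring
  have hjbb : |jb τ| ≤ 2 * g := by
    rw [hjb, abs_le]
    cases τ <;> simp <;> constructor <;> omega
  have h7 := con_to_A hI (κ := κ) (ct := cl) (show 0 ≤ g by omega) hpar (L0 := L0) (by
    have : |ci| ≤ L0 + 1 + κ := by rw [abs_le]; constructor <;> omega
    omega) (by omega) hjbb (by omega)
  refine ⟨cl - ci, ?_, by linarith⟩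
  rw [abs_le]
  constructor <;> omega

end Crest.Agent.R144.Qr315
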