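import Crest.Agent.R144.Qr8_315

/-!
# R144, QRSW, file 9: STEP II and the cascade (helper315)
-/

set_option autoImplicit false

noncomputable section

namespace Crest.Agent.R144.Qr315

open Crest.Agent.R144.It844 (P2 adj_iff adj_symm)
open Crest.Agent.R144.Zg349 (StepIn IsConn)
open Crest.ProbabilityR.HexHeights (Adj)

variable {L : Law} {W : ℕ} {ρ : ℝ}

/-- offsets of a cover of a ball by small balls -/
theorem cover (r s σ : ℤ) (n : ℕ) (hσ : 1 ≤ σ) (hs : 2 * (σ - 1) ≤ s) (hr : r ≤ n * σ) :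
    ∃ I : Finset P2, I.card ≤ (2 * n + 1) ^ 2 ∧ I.Nonempty ∧
      (∀ c ∈ I, |c.1| ≤ n * σ ∧ |c.2| ≤ n * σ) ∧ ∀ v ∈ bal 0 r, ∃ c ∈ I, v ∈ bal c s := by
  classical
  refine ⟨((Finset.Icc (-(n : ℤ)) n) ×ˢ (Finset.Icc (-(n : ℤ)) n)).image fun p => (σ * p.1, σ * p.2),
    ?_, ?_, ?_, ?_⟩
  · refine Finset.card_image_le.trans ?_
    rw [Finset.card_product, Int.card_Icc]
    have : ((n : ℤ) + 1 - -(n : ℤ)).toNat = 2 * n + 1 := by omega
    rw [this]
    exact le_of_eq (by ring)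
  · refine ⟨(σ * 0, σ * 0), Finset.mem_image.2 ⟨(0, 0), ?_, rfl⟩⟩
    simp
  · intro c hc
    obtain ⟨p, hp, rfl⟩ := Finset.mem_image.1 hc
    simp only [Finset.mem_product, Finset.mem_Icc] at hp
    obtain ⟨⟨h1, h2⟩, h3, h4⟩ := hp
    have key : ∀ x : ℤ, -(n : ℤ) ≤ x → x ≤ n → |σ * x| ≤ n * σ := by
      intro x hx1 hx2
      rw [abs_le]
      constructor
      · nlinarith
      · nlinarith
    exact ⟨key _ h1 h2, key _ h3 h4⟩
  · rintro v ⟨h1, h2, h3⟩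
    simp only [Prod.fst_zero, Prod.snd_zero, sub_zero, abs_le] at h1 h2 h3
    have m1 := Int.emod_add_mul_ediv v.1 σ
    have m2 := Int.emod_add_mul_ediv v.2 σ
    have p1 := Int.emod_nonneg v.1 (show σ ≠ 0 by omega)
    have p2 := Int.emod_lt_of_pos v.1 (show 0 < σ by omega)
    have p3 := Int.emod_nonneg v.2 (show σ ≠ 0 by omega)
    have p4 := Int.emod_lt_of_pos v.2 (show 0 < σ by omega)
    have key : ∀ x : ℤ, -r ≤ x → x ≤ r → -(n : ℤ) ≤ x / σ ∧ x / σ ≤ n := by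
      intro x hx1 hx2
      constructor
      · rw [Int.le_ediv_iff_mul_le (by omega)]
        linarith
      · apply Int.ediv_le_of_le_mul (by omega)
        linarith
    refine ⟨(σ * (v.1 / σ), σ * (v.2 / σ)), Finset.mem_image.2 ⟨(v.1 / σ, v.2 / σ), ?_, rfl⟩, ?_⟩
    · simp only [Finset.mem_product, Finset.mem_Icc]
      exact ⟨key _ h1.1 h1.2, key _ h2.1 h2.2⟩
    · refine ⟨?_, ?_, ?_⟩ <;> simp only <;> rw [abs_le] <;> constructor <;> omega

/-- **one small ball hit by two shifted clusters** -/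
theorem pair {h k D : ℤ} {ε a0 : ℝ} (G : Good L W ρ h k D ε a0) (hI : L.Inv W ρ) {r s : ℤ} {u u' : ℝ}
    (hs : 0 ≤ s) {m : ℤ} (hm : m ≤ 200000 * k) (hH : Hit L r h k D u) {I : Finset P2}
    (hIne : I.Nonempty) (hIb : ∀ c ∈ I, |c.1| ≤ m ∧ |c.2| ≤ m)
    (hIc : ∀ v ∈ bal 0 r, ∃ c ∈ I, v ∈ bal c s) (hu0 : 0 ≤ u') (hu : u < u' ^ I.card)
    (hu1 : u' + ρ ≤ a0 / 2) (hu2 : 6 * ε / a0 ^ 2 + ρ ≤ u') :
    ∃ (z : P2) (x2 : ℤ), (x2 = 1000 * k ∨ x2 = -(1000 * k)) ∧ h ≤ 5 * z.2 ∧ 5 * z.2 ≤ 4 * h ∧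
      |X z| ≤ 4 * h ∧ 1 - u' ≤ L.P (A (QQ 0 D 0 h k) [bal z s]) ∧
      1 - u' ≤ L.P (A (QQ x2 D 0 h k) [bal z s]) := by
  have g1 := G.hh
  have g2 := G.hk
  have g3 := G.hW
  have g4 := G.ρ0
  have g6 := G.apos
  have g7 := G.al
  have g8 := G.V
  rw [abs_le] at g7
  obtain ⟨s0, z0, hs0, z1, z2, z3, z4, hP⟩ := hH
  rw [abs_le] at z4
  have hcov : A (QQ 0 D 0 h k) [bal z0 r] ⊆ ⋃ c ∈ I, A (QQ 0 D 0 h k) [bal (z0 + c) s] := by
    rintro ω ⟨C, hC, hcl, hm⟩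
    obtain ⟨v, hv, hvB⟩ := hm _ (List.mem_singleton.2 rfl)
    obtain ⟨c, hc, hvc⟩ := hIc (v - z0) (by
      obtain ⟨b1, b2, b3⟩ := hvB
      refine ⟨?_, ?_, ?_⟩ <;> simpa using by assumption)
    rw [Set.mem_iUnion₂]
    refine ⟨c, hc, C, hC, hcl, ?_⟩
    intro S hS
    rw [List.mem_singleton.1 hS]
    refine ⟨v, hv, ?_⟩
    obtain ⟨b1, b2, b3⟩ := hvc
    simp only [Prod.fst_sub, Prod.snd_sub, abs_le] at b1 b2 b3
    refine ⟨?_, ?_, ?_⟩ <;> simp only [Prod.fst_add, Prod.snd_add] <;> rw [abs_le] <;> constructor <;> omega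
  have h1 : 1 - L.P (⋃ c ∈ I, A (QQ 0 D 0 h k) [bal (z0 + c) s]) < u' ^ I.card := by
    have := L.mono _ _ hcov
    linarith
  obtain ⟨c, hc, hPc⟩ := L.exists_of_union I hIne _ (fun c => A_upper _ _) hu0 h1
  obtain ⟨c1, c2⟩ := hIb c hc
  rw [abs_le] at c1 c2
  obtain ⟨z, hz⟩ : ∃ z : P2, z = z0 + c := ⟨_, rfl⟩
  have rz : z.2 = z0.2 + c.2 := by rw [hz]; rfl
  have Xz : X z = X z0 + (2 * c.1 + c.2) := by
    rw [hz]; unfold X; simp only [Prod.fst_add, Prod.snd_add]; ring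
  rw [← hz] at hPc
  -- GP
  obtain ⟨b, hb⟩ : ∃ b : P2, b = (-(s0 * (500 * k)), 0) := ⟨_, rfl⟩
  have Xb : X b = -(s0 * (1000 * k)) := by rw [hb, X_mk0]; ring
  have rb : b.2 = 0 := by rw [hb]
  have Xzb : X (tr b z) = X z - s0 * (1000 * k) := by rw [X_tr, Xb]; ring
  have rzb : (tr b z).2 = z.2 := by rw [row_tr, rb]; ring
  have hAb : 1 - a0 / 2 ≤ L.P (A (QQ (-(s0 * (1000 * k))) D 0 h k) [bal (tr b z) s]) := by
    have := A_shift hI (x := 0) (x' := -(s0 * (1000 * k))) (D := D) (j := 0) (j' := 0)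
      (h := h) (w := k) b (by rw [Xb]; ring) (by rw [rb]; ring)
      (mem_bal_of (by rw [Xb]; rcases hs0 with rfl | rfl <;> rw [abs_le] <;> constructor <;> omega)
        (by rw [rb]; simp)) (Bx_bal (by simp; omega) (by omega) (by omega))
      (B := [bal z s]) (B' := [bal (tr b z) s]) (by
        intro S' hS'
        rw [List.mem_singleton.1 hS']
        exact ⟨bal z s, List.mem_singleton.2 rfl, tr_bal b z s⟩)
    linarith
  have hzb : tr b z ∈ strp 0 h := by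
    show 0 ≤ (tr b z).2 ∧ (tr b z).2 ≤ h
    rw [rzb]
    constructor <;> omega
  have e1 := G.gp hI hs0 hs hzb (by rw [Xzb]; rcases hs0 with rfl | rfl <;> omega)
    (by rw [Xzb]; rcases hs0 with rfl | rfl <;> rw [abs_le] <;> constructor <;> omega) false
    (QQ_ok (-(s0 * (1000 * k))) D 0 h k) rfl le_rfl (by show 0 + h ≤ h; omega)
    (by
      rintro v ⟨b1, b2, b3, b4⟩
      refine ⟨?_, ?_, ?_, ?_⟩ <;> rcases hs0 with rfl | rfl <;> omega)
    (y := -(s0 * (1000 * k)))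
    (by
      rintro v ⟨b1, b2, b3⟩
      refine ⟨b1, ?_, ?_⟩ <;> rcases hs0 with rfl | rfl <;> omega)
    (by
      show s0 * (-(s0 * (1000 * k))) + 1000 * k ≤ s0 * 0
      rcases hs0 with rfl | rfl <;> omega)
    (by rcases hs0 with rfl | rfl <;> rw [abs_le] <;> constructor <;> omega) hAb []
  have e2 : 1 - L.P (A (QQ 0 D 0 h k) [bal (tr b z) s]) ≤ 6 * ε / a0 ^ 2 := by
    rw [le_div_iff₀ (by positivity)]
    have e3 : (1 - L.P (A (QQ 0 D 0 h k) [bal (tr b z) s])) * (a0 ^ 2 / 6) ≤ ε := by linarith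
    linarith
  have e4 := A_shift hI (x := 0) (x' := s0 * (1000 * k)) (D := D) (j := 0) (j' := 0)
    (h := h) (w := k) (-b) (by
      have : X (-b) = - X b := by unfold X; simp only [Prod.fst_neg, Prod.snd_neg]; ring
      rw [this, Xb]; ring) (by simp [rb])
    (mem_bal_of (by
        have : X (-b) = - X b := by unfold X; simp only [Prod.fst_neg, Prod.snd_neg]; ring
        rw [this, Xb]; rcases hs0 with rfl | rfl <;> rw [abs_le] <;> constructor <;> omega)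
      (by simp [rb])) (Bx_bal (by simp; omega) (by omega) (by omega))
    (B := [bal (tr b z) s]) (B' := [bal z s]) (by
      intro S' hS'
      rw [List.mem_singleton.1 hS']
      refine ⟨bal (tr b z) s, List.mem_singleton.2 rfl, fun v hv => ?_⟩
      have := tr_bal (-b) (tr b z) s v hv
      rwa [(hIso_tr b).l] at this)
  refine ⟨z, s0 * (1000 * k), ?_, by omega, by omega, by rw [abs_le]; constructor <;> omega, hPc, by linarith⟩
  rcases hs0 with rfl | rfl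
  · left; ring
  · right; ring

/-- **STEP II** : a smaller size becomes rigid -/
theorem newGood {h k D : ℤ} {εM aM : ℝ} (G : Good L W ρ h k D εM aM) (hI : L.Inv W ρ) {z : P2}
    {s g κ x2 : ℤ} {u v0 εL aL : ℝ} {M : ℕ} (hM : 30000000000000 ≤ M)
    (hx2 : x2 = 1000 * k ∨ x2 = -(1000 * k)) (hz1 : h ≤ 5 * z.2)
    (hz2 : 5 * z.2 ≤ 4 * h) (hzX : |X z| ≤ 4 * h) (hg : g = 1000000000000 * κ) (hκ : 1 ≤ κ)
    (hs0 : 0 ≤ s) (hs : 10 * s ≤ g) (hgh : 10000 * g ≤ h)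
    (hA0 : 1 - u ≤ L.P (A (QQ 0 D 0 h k) [bal z s])) (hA2 : 1 - u ≤ L.P (A (QQ x2 D 0 h k) [bal z s]))
    (hv0 : 0 < v0) (hv1 : v0 ≤ 1) (haL : 0 < aL) (hρL : 6 * ρ ≤ aL)
    (c7 : 9 * ρ + 2 * u ≤ aM / 4) (c8 : u + ρ < v0 ^ (2 * M ^ 2) * (aM / 4 - ρ) ^ 2) (c12 : ρ < aM / 4)
    (c9 : 100000000000 * (aL + (v0 + ρ) + 2 * ρ) < aM / 4) (c10 : 2 * (v0 + ρ) + 2 * ρ < aL)
    (c11 : v0 + ρ ≤ εL) : ∃ D', Good L W ρ g κ D' εL aL := by
  have g1 := G.hh
  have g2 := G.hk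
  have g3 := G.hW
  have g4 := G.ρ0
  have H1 : L.P (Hd g) ≤ 1 - aM / 4 := by
    have := hard_le G hI (t := g) hx2 hz1 hz2 hzX (by omega) (by omega) (by omega) hA0 hA2
    linarith
  have H2 : L.P (Hd (2 * (g + s))) ≤ 1 - aM / 4 := by
    have := hard_le G hI (t := 2 * (g + s)) hx2 hz1 hz2 hzX (by omega) (by omega) (by omega) hA0 hA2
    linarith
  rw [abs_le] at hzX
  -- the arm
  have hArm : 1 - (u + ρ) ≤ L.P (Con (bal 0 (100 * h)) (bal 0 s) (bal 0 (20 * g))ᶜ) := by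
    have h1 := hI.ev (Φ := AΦ (QQ 0 D 0 h k) [bal z s])
      (Ψ := ConΦ (bal 0 (100 * h)) (bal 0 s) (bal 0 (20 * g))ᶜ)
      (.tr (-z) (mem_bal_of (by
          have : X (-z) = - X z := by unfold X; simp only [Prod.fst_neg, Prod.snd_neg]; ring
          rw [this, abs_le]; constructor <;> omega)
        (by simp only [Prod.snd_neg]; rw [abs_le]; constructor <;> omega)))
      (fun C hC => by
        obtain ⟨⟨c, c', hcl⟩, _⟩ := hC
        exact hcl.sub.trans G.QS)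
      (by
        intro C hC
        obtain ⟨⟨c, c', hcl⟩, hm⟩ := hC
        obtain ⟨p, hp, hpB⟩ := hm _ (List.mem_singleton.2 rfl)
        have w1 := hcl.win false
        rw [QQ_W] at w1
        have r1 : (c false).2 = 0 := w1.1
        refine ⟨conn_image (hIso_tr (-z)).adj hcl.conn, ?_, ⟨tr (-z) p, ⟨p, hp, rfl⟩, ?_⟩,
          tr (-z) (c false), ⟨c false, hcl.mem false, rfl⟩, ?_⟩
        · rintro _ ⟨v, hv, rfl⟩
          obtain ⟨b1, b2, b3, b4⟩ := hcl.sub hv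
          unfold X at b3 b4 hzX
          simp only [bal, tr, Set.mem_ofPred_eq, Prod.fst_add, Prod.snd_add, Prod.fst_neg, Prod.snd_neg,
            Prod.fst_zero, Prod.snd_zero, sub_zero, abs_le]
          refine ⟨⟨?_, ?_⟩, ⟨?_, ?_⟩, ⟨?_, ?_⟩⟩ <;> omega
        · have := tr_bal (-z) z s p hpB
          have hz0 : tr (-z) z = 0 := by simp [tr]
          rwa [hz0] at this
        · intro hq
          obtain ⟨b1, b2, b3⟩ := hq
          simp only [tr, Prod.snd_add, Prod.snd_neg, Prod.snd_zero, sub_zero, abs_le] at b2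
          omega)
    have h1' : L.P (A (QQ 0 D 0 h k) [bal z s]) ≤
        L.P (Con (bal 0 (100 * h)) (bal 0 s) (bal 0 (20 * g))ᶜ) + 1 * ρ := h1
    linarith
  obtain ⟨D', hD1, hD2⟩ := va hI hg hκ hs0 hs (le_refl (20 * g)) (by omega) hM hv0 hv1 c12 hArm H2 c8
  have hV : 1 - (v0 + ρ) ≤ L.P (A (QQ 0 D' 0 g κ) []) := by linarith
  have hK := kb hI g4 hg hκ (by omega) hD1 haL.le (by linarith) hV H1 c9
  have hal := align hI hg hκ (by omega) hD1 c10 hV (fun y d h1 h2 h3 => hK false h1 h2 h3)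
  exact ⟨D', hg, hκ, by omega, g4, by linarith, haL, hρL, hal, by linarith,
    fun e y d h1 h2 h3 => hK e h1 h2 h3⟩

/-- two clusters through one site -/
theorem site_contra {h k D : ℤ} {ε a0 : ℝ} (G : Good L W ρ h k D ε a0) {z : P2} {x2 : ℤ} {u : ℝ}
    (hx2 : x2 = 1000 * k ∨ x2 = -(1000 * k))
    (hA0 : 1 - u ≤ L.P (A (QQ 0 D 0 h k) [bal z 0])) (hA2 : 1 - u ≤ L.P (A (QQ x2 D 0 h k) [bal z 0])) :
    a0 ≤ 2 * u := by
  have g1 := G.hh
  have g2 := G.hk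
  have hk0 : er 0 h false = 0 := rfl
  have hz : ∀ p ∈ bal z 0, p = z := by
    rintro p ⟨b1, b2, b3⟩
    rw [abs_le] at b1 b2
    exact Prod.ext (by omega) (by omega)
  have hincl : A (QQ 0 D 0 h k) [bal z 0] ∩ A (QQ x2 D 0 h k) [bal z 0] ⊆
      Con (Bx (min 0 x2) (100 * h) 0 h) (Wn 0 k 0) (Wn x2 k 0) := by
    rintro ω ⟨⟨C, hC, ⟨c, c', hcl⟩, hm⟩, ⟨C', hC', ⟨d, d', hcl'⟩, hm'⟩⟩
    obtain ⟨p, hp, hpB⟩ := hm _ (List.mem_singleton.2 rfl)
    obtain ⟨p', hp', hpB'⟩ := hm' _ (List.mem_singleton.2 rfl)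
    rw [hz p hpB] at hp
    rw [hz p' hpB'] at hp'
    have w1 := hcl.win false
    have w2 := hcl'.win false
    rw [QQ_W] at w1 w2
    refine ⟨C ∪ C', Set.union_subset hC hC', isConn_union hcl.conn hcl'.conn ⟨z, hp, hp'⟩, ?_,
      ⟨c false, Or.inl (hcl.mem false), w1⟩, d false, Or.inr (hcl'.mem false), w2⟩
    rintro v (hv | hv)
    · obtain ⟨b1, b2, b3, b4⟩ := hcl.sub hv
      refine ⟨?_, ?_, ?_, ?_⟩ <;> rcases hx2 with rfl | rfl <;> omega
    · obtain ⟨b1, b2, b3, b4⟩ := hcl'.sub hv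
      refine ⟨?_, ?_, ?_, ?_⟩ <;> rcases hx2 with rfl | rfl <;> omega
  have hK : L.P (Con (Bx (min 0 x2) (100 * h) 0 h) (Wn 0 k 0) (Wn x2 k 0)) ≤ 1 - a0 := by
    rcases hx2 with rfl | rfl
    · have := G.K false 0 (1000 * k) (by simp; omega) le_rfl (by omega)
      rw [hk0, zero_add] at this
      rwa [show min 0 (1000 * k) = 0 by omega]
    · have := G.K false (-(1000 * k)) (1000 * k) (by rw [abs_le]; constructor <;> omega) le_rfl (by omega)
      rw [hk0, show -(1000 * k) + 1000 * k = 0 by ring] at this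
      rw [show min 0 (-(1000 * k)) = -(1000 * k) by omega]
      exact (L.mono _ _ (Con_symm _ _ _)).trans this
  have h4 := L.mono _ _ hincl
  have h6 := L.inter_ge (A (QQ 0 D 0 h k) [bal z 0]) (A (QQ x2 D 0 h k) [bal z 0])
  linarith

/-- the constants -/
structure Cst (ρ εM aM εL aL v0 u : ℝ) (M K : ℕ) : Prop where
  hM : 30000000000000 ≤ M
  hK : (4000000000000000001) ^ 2 ≤ K
  hu0 : 0 < u
  hu1 : u ≤ 1
  hv0 : 0 < v0
  hv1 : v0 ≤ 1
  haL : 0 < aL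
  c1 : 6 * εL / aL ^ 2 + ρ ≤ aL / 2
  c2 : εL + εL / (aL ^ 2 / 6) ^ 2 + 2 * ρ ≤ aL ^ 4 / 144
  c3 : εM + εL / (aL ^ 2 / 6) ^ 2 + 2 * ρ ≤ aM ^ 4 / 144
  c4 : 6 * εM / aM ^ 2 < u ^ K
  c5 : u + ρ ≤ aM / 2
  c6 : 6 * εM / aM ^ 2 + ρ ≤ u
  c7 : 9 * ρ + 2 * u ≤ aM / 4
  c8 : u + ρ < v0 ^ (2 * M ^ 2) * (aM / 4 - ρ) ^ 2
  c9 : 100000000000 * (aL + (v0 + ρ) + 2 * ρ) < aM / 4
  c10 : 2 * (v0 + ρ) + 2 * ρ < aL
  c11 : v0 + ρ ≤ εL
  c12 : ρ < aM / 4
  c13 : 2 * u < aM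
  c14 : 6 * ρ ≤ aL
  c15 : εL ≤ 6 * εL / aL ^ 2

/-- hits at all sizes up to the top -/
theorem hit_all (hI : L.Inv W ρ) {εM aM εL aL v0 u : ℝ} {M K : ℕ} (hc : Cst ρ εM aM εL aL v0 u M K)
    {J j0 : ℕ} (hJ : j0 + 2 ≤ J) {D : ℤ} (GM : Good L W ρ (1000 ^ (J + 4)) (1000 ^ J) D εM aM)
    (GG : ∀ j, j0 ≤ j → j ≤ J → ∃ D, Good L W ρ (1000 ^ (j + 4)) (1000 ^ j) D εL aL) :
    Hit L (1000 ^ (j0 + 6)) (1000 ^ (J + 4)) (1000 ^ J) D (6 * εM / aM ^ 2) := by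
  have hr : (0 : ℤ) ≤ 1000 ^ (j0 + 6) := by positivity
  have key : ∀ i : ℕ, j0 + i ≤ J → ∃ D2 : ℤ, |D2| ≤ 510 * 1000 ^ (j0 + i) ∧
      Hit L (1000 ^ (j0 + 6)) (1000 ^ (j0 + i + 4)) (1000 ^ (j0 + i)) D2 (6 * εL / aL ^ 2) := by
    intro i
    induction i using Nat.strong_induction_on with
    | _ i ih =>
      intro hi
      obtain ⟨D0, G0⟩ := GG (j0 + i) (by omega) hi
      refine ⟨D0, G0.al, ?_⟩
      by_cases h2 : i < 2
      · refine (Hit.base G0.hh G0.hk ?_ G0.V).mono hc.c15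
        have : (1000 : ℤ) ^ (j0 + i + 4) ≤ 1000 ^ (j0 + 5) :=
          pow_le_pow_right₀ (by norm_num) (by omega)
        have e : (1000 : ℤ) ^ (j0 + 6) = 1000 * 1000 ^ (j0 + 5) := by ring
        have p : (0 : ℤ) < 1000 ^ (j0 + 5) := by positivity
        omega
      · obtain ⟨D2, hD2, hH2⟩ := ih (i - 2) (by omega) (by omega)
        obtain ⟨D1, G1⟩ := GG (j0 + i - 1) (by omega) (by omega)
        obtain ⟨j, hj⟩ : ∃ j, j0 + i = j + 2 := ⟨j0 + i - 2, by omega⟩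
        have e1 : j0 + (i - 2) = j := by omega
        have e2 : j0 + i - 1 = j + 1 := by omega
        rw [e1] at hH2 hD2
        rw [e2] at G1
        rw [hj] at G0 ⊢
        refine stepI G0 G1 hI hr (by ring) (by ring) (by ring) hD2 hc.c1 hH2 hc.c2
  obtain ⟨j, hj⟩ : ∃ j, J = j + 2 := ⟨J - 2, by omega⟩
  obtain ⟨D2, hD2, hH2⟩ := key (J - 2 - j0) (by omega)
  obtain ⟨D1, G1⟩ := GG (J - 1) (by omega) (by omega)
  have e1 : j0 + (J - 2 - j0) = j := by omega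
  have e2 : J - 1 = j + 1 := by omega
  rw [e1] at hH2 hD2
  rw [e2] at G1
  rw [hj] at GM ⊢
  exact stepI GM G1 hI hr (by ring) (by ring) (by ring) hD2 hc.c1 hH2 hc.c3

/-- **THE CASCADE** : rigidity at six consecutive sizes is contradictory -/
theorem no_rigid (hI : L.Inv W ρ) {εM aM εL aL v0 u : ℝ} {M K : ℕ} (hc : Cst ρ εM aM εL aL v0 u M K)
    {J : ℕ} (hJ : 5 ≤ J) {D : ℤ} (GM : Good L W ρ (1000 ^ (J + 4)) (1000 ^ J) D εM aM)
    (GG : ∀ j, J - 5 ≤ j → j ≤ J → ∃ D, Good L W ρ (1000 ^ (j + 4)) (1000 ^ j) D εL aL) : False := by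
  -- all sizes are rigid
  have all : ∀ i : ℕ, i + 5 ≤ J → ∀ j, J - 5 - i ≤ j → j ≤ J →
      ∃ D, Good L W ρ (1000 ^ (j + 4)) (1000 ^ j) D εL aL := by
    intro i
    induction i with
    | zero => intro _; exact GG
    | succ i ih =>
      intro hi j hj1 hj2
      by_cases hj : J - 5 - i ≤ j
      · exact ih (by omega) j hj hj2
      · obtain ⟨j0, hj0⟩ : ∃ j0, j0 = J - 5 - i := ⟨_, rfl⟩
        have hj' : j + 1 = j0 := by omega
        have GG' : ∀ j, j0 ≤ j → j ≤ J → ∃ D, Good L W ρ (1000 ^ (j + 4)) (1000 ^ j) D εL aL := by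
          rw [hj0]; exact ih (by omega)
        have hH := hit_all hI hc (by omega) GM GG'
        -- cover
        obtain ⟨I, hI1, hI2, hI3, hI4⟩ := cover (1000 ^ (j0 + 6)) (1000 ^ (j0 + 2)) (500 * 1000 ^ (j0 + 1))
          2000000000000 (by
            have : (1 : ℤ) ≤ 1000 ^ (j0 + 1) := one_le_pow₀ (by norm_num)
            omega) (by
            have : (1000 : ℤ) ^ (j0 + 2) = 1000 * 1000 ^ (j0 + 1) := by ring
            omega) (by
            have : (1000 : ℤ) ^ (j0 + 6) = 1000000000000000 * 1000 ^ (j0 + 1) := by ring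
            push_cast
            omega)
        have hcard : I.card ≤ K := hI1.trans (le_trans (by norm_num) hc.hK)
        have hu : 6 * εM / aM ^ 2 < u ^ I.card :=
          hc.c4.trans_le (pow_le_pow_of_le_one hc.hu0.le hc.hu1 hcard)
        have hJj : (1000 : ℤ) ^ (j0 + 5) ≤ 1000 ^ J := pow_le_pow_right₀ (by norm_num) (by omega)
        obtain ⟨z, x2, hx2, z1, z2, z3, hA0, hA2⟩ := pair GM hI (s := 1000 ^ (j0 + 2)) (by positivity)
          (m := (2000000000000 : ℕ) * (500 * 1000 ^ (j0 + 1))) (by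
            have : (1000 : ℤ) ^ (j0 + 5) = 1000000000000 * 1000 ^ (j0 + 1) := by ring
            have p : (0 : ℤ) < 1000 ^ (j0 + 1) := by positivity
            push_cast
            omega) hH hI2 hI3 hI4 hc.hu0.le hu hc.c5 hc.c6
        subst hj'
        exact newGood GM hI hc.hM hx2 z1 z2 z3 (s := 1000 ^ (j + 1 + 2)) (by ring)
          (one_le_pow₀ (by norm_num)) (by positivity) (by
            have : (1000 : ℤ) ^ (j + 4) = 1000 * 1000 ^ (j + 1 + 2) := by ring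
            have p : (0 : ℤ) < 1000 ^ (j + 1 + 2) := by positivity
            omega) (by
            have e1 : (1000 : ℤ) ^ (j + 6) ≤ 1000 ^ (J + 4) := pow_le_pow_right₀ (by norm_num) (by omega)
            have e2 : (1000 : ℤ) ^ (j + 6) = 1000000 * 1000 ^ (j + 4) := by ring
            have p : (0 : ℤ) < 1000 ^ (j + 4) := by positivity
            omega) hA0 hA2 hc.hv0 hc.hv1 hc.haL hc.c14 hc.c7 hc.c8 hc.c12 hc.c9 hc.c10 hc.c11
  -- single site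
  have GG0 : ∀ j, 0 ≤ j → j ≤ J → ∃ D, Good L W ρ (1000 ^ (j + 4)) (1000 ^ j) D εL aL := by
    intro j _ hj2
    exact all (J - 5) (by omega) j (by omega) hj2
  have hH := hit_all hI hc (j0 := 0) (by omega) GM GG0
  obtain ⟨I, hI1, hI2, hI3, hI4⟩ := cover (1000 ^ (0 + 6)) 0 1 1000000000000000000 le_rfl (by norm_num)
    (by norm_num)
  have hcard : I.card ≤ K := hI1.trans (le_trans (by norm_num) hc.hK)
  have hu : 6 * εM / aM ^ 2 < u ^ I.card :=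
    hc.c4.trans_le (pow_le_pow_of_le_one hc.hu0.le hc.hu1 hcard)
  have hJj : (1000 : ℤ) ^ 5 ≤ 1000 ^ J := pow_le_pow_right₀ (by norm_num) (by omega)
  obtain ⟨z, x2, hx2, z1, z2, z3, hA0, hA2⟩ := pair GM hI (s := 0) le_rfl
    (m := (1000000000000000000 : ℕ) * 1) (by push_cast; omega) hH hI2 hI3 hI4 hc.hu0.le hu hc.c5 hc.c6
  have := site_contra GM hx2 hA0 hA2
  have := hc.c13
  linarith

end Crest.Agent.R144.Qr315
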