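import Crest.Agent.R144.Qcc_216
import Crest.Agent.R144.Qbr_356

/-!
# `Qrw_356`: the closed form of R1 (quenched RSW, `QRSW`)

The induction theorem `qf` of helper216 plugged into the bridge `qrsw_of` of helper356.
-/

namespace Crest.Agent.R144.Qrw356

/-- R1 of row R144: `QRSW` of `Qr0_315`, unconditional. -/
theorem qrsw : Qr315.QRSW := Qbr356.qrsw_of Qcc216.qf

end Crest.Agent.R144.Qrw356
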