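import Crest.Agent.R144.Qs1_356

/-!
# R144, R1 (QRSW, doc 1941): STEP II GEOMETRY, centred form (helper356)

`slabs` : three long crossings (rows `0 .. t`, `|2i+j|` up to `6 t`) placed around `ball z n`
(`n + 2 ≤ t`) by `w ↦ rot^k (w + off n t) + z` contain a connected set `L` inside
`ball z (2 (n + 1 + t) + 1)` meeting every connected set from `ball z n` to outside
`ball z (2 (n + 1 + t))`.
`slabs_block` : red slabs block blue sets; `slabs_join` : blue slabs join blue sets.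
-/

set_option autoImplicit false

namespace Crest.Agent.R144.Qs356

open Crest.Agent.R144.It844 (P2 adj_iff)
open Crest.Agent.R144.Zg349 (StepIn IsConn)
open Crest.Agent.R144.Rsw867 (path_mono trim first_hit ball mem_ball)
open Crest.Agent.R144.Pst967 (stepIn_symm path_symm)
open Crest.ProbabilityR.HexHeights (Adj)

theorem adj_add {u v : P2} (d : P2) : Adj (u + d) (v + d) ↔ Adj u v := by
  simp only [adj_iff, Prod.ext_iff, Prod.fst_add, Prod.snd_add]
  omega

theorem pth_add {S : Set P2} (d : P2) {u v : P2} (h : Pth {w | w + d ∈ S} u v) :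
    Pth S (u + d) (v + d) := by
  induction h with
  | refl => exact .refl
  | tail _ h ih => exact ih.tail ⟨h.1, h.2.1, (adj_add d).2 h.2.2⟩

theorem pth_sub {S : Set P2} (d : P2) {u v : P2} (h : Pth S u v) :
    Pth {w | w + d ∈ S} (u - d) (v - d) := by
  induction h with
  | refl => exact .refl
  | @tail b c _ h ih =>
    refine ih.tail ⟨?_, ?_, ?_⟩
    · show b - d + d ∈ S
      rw [sub_add_cancel]; exact h.1
    · show c - d + d ∈ S
      rw [sub_add_cancel]; exact h.2.1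
    · rw [← adj_add d, sub_add_cancel, sub_add_cancel]; exact h.2.2

theorem hrow_mono {A B : Set P2} {r0 r1 s s' t t' : ℤ} (h : Hrow A r0 r1 s s') (hAB : A ⊆ B)
    (h1 : s ≤ t) (h2 : t' ≤ s') : Hrow B r0 r1 t t' := by
  obtain ⟨u, v, hu, hv, p⟩ := h
  exact ⟨u, v, hu.trans h1, h2.trans hv, path_mono (Set.inter_subset_inter_left _ hAB) p⟩

theorem Hrow.shift {A : Set P2} (d : P2) {r0 r1 s s' : ℤ} (h : Hrow {w | w + d ∈ A} r0 r1 s s') :
    Hrow A (r0 + d.2) (r1 + d.2) (s + (2 * d.1 + d.2)) (s' + (2 * d.1 + d.2)) := by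
  obtain ⟨u, v, hu, hv, p⟩ := h
  refine ⟨u + d, v + d, ?_, ?_, pth_add d (path_mono ?_ p)⟩
  · simp only [Prod.fst_add, Prod.snd_add]; omega
  · simp only [Prod.fst_add, Prod.snd_add]; omega
  · rintro w ⟨h1, h2⟩
    refine ⟨h1, ?_⟩
    have h3 : r0 ≤ w.2 ∧ w.2 ≤ r1 := h2
    show r0 + d.2 ≤ (w + d).2 ∧ (w + d).2 ≤ r1 + d.2
    simp only [Prod.snd_add]; omega

/-- the offset of the slab of rows `0 .. t` placed below a ball of radius `n` -/
def off (n t : ℕ) : P2 := (((n + 1 + t) / 2 : ℕ), -((n + 1 + t : ℕ) : ℤ))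

/-- three placed long crossings -/
def Slabs (z : P2) (n t : ℕ) (A : Set P2) : Prop :=
  Hrow {w | w + off n t + z ∈ A} 0 t (-(6 * t)) (6 * t) ∧
  Hrow {w | rot (w + off n t) + z ∈ A} 0 t (-(6 * t)) (6 * t) ∧
  Hrow {w | rot (rot (w + off n t)) + z ∈ A} 0 t (-(6 * t)) (6 * t)

theorem hrow_off {B : Set P2} {n t : ℕ} (ht : n + 2 ≤ t)
    (h : Hrow {w | w + off n t ∈ B} 0 t (-(6 * t)) (6 * t)) :
    Hrow B (-((n + 1 + t : ℕ) : ℤ)) (-((n + 1 : ℕ) : ℤ)) (-(3 * ((n + 1 + t : ℕ) : ℤ) + 2))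
      (3 * ((n + 1 + t : ℕ) : ℤ) + 2) := by
  have h1 := h.shift
  have e1 : (0 : ℤ) + (off n t).2 = -((n + 1 + t : ℕ) : ℤ) := by unfold off; simp
  have e2 : (t : ℤ) + (off n t).2 = -((n + 1 : ℕ) : ℤ) := by unfold off; push_cast; ring
  rw [e1, e2] at h1
  refine hrow_mono h1 subset_rfl ?_ ?_
  · unfold off; simp only; push_cast; omega
  · unfold off; simp only; push_cast; omega

/-- **circuit around a ball** -/
theorem slabs {A : Set P2} {z : P2} {n t : ℕ} (ht : n + 2 ≤ t) (h : Slabs z n t A) :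
    ∃ L ⊆ A, IsConn L ∧ (∀ w ∈ L, w ∈ ball z (2 * (n + 1 + t) + 1)) ∧
      ∀ (C : Set P2) (x y : P2), Pth C x y → x ∈ ball z n → y ∉ ball z (2 * (n + 1 + t)) →
        ∃ w ∈ L, w ∈ C := by
  obtain ⟨h0, h1, h2⟩ := h
  obtain ⟨L, hLA, hLc, hLb, hL⟩ := circuit0 (A := {w | w + z ∈ A}) (m := ((n + 1 : ℕ) : ℤ))
    (N := ((n + 1 + t : ℕ) : ℤ)) (by positivity) (by push_cast; omega)
    (hrow_off ht h0) (hrow_off ht h1) (hrow_off ht h2)
  refine ⟨{w | w - z ∈ L}, ?_, ?_, ?_, ?_⟩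
  · intro w hw
    have := hLA hw
    have h3 : w - z + z ∈ A := this
    rwa [sub_add_cancel] at h3
  · intro x hx y hy
    have := hLc _ hx _ hy
    have h3 := pth_sub (-z) this
    have e : {w : P2 | w + -z ∈ L} = {w | w - z ∈ L} := by
      ext w
      show w + -z ∈ L ↔ w - z ∈ L
      rw [sub_eq_add_neg]
    rw [e] at h3
    simpa using h3
  · intro w hw
    have := hLb _ hw
    rw [mem_ball]
    simp only [Prod.fst_sub, Prod.snd_sub] at this
    push_cast at this ⊢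
    refine ⟨this.1, this.2.1, ?_⟩
    have h3 := this.2.2
    exact h3
  · intro C x y hp hx hy
    rw [mem_ball] at hx hy
    simp only [abs_le] at hx
    have h3 := pth_sub z hp
    obtain ⟨w, hw1, hw2⟩ := hL _ _ _ h3
      (by simp only [Prod.fst_sub, Prod.snd_sub]; push_cast; omega)
      (by
        by_contra hcon
        apply hy
        simp only [Prod.fst_sub, Prod.snd_sub, abs_le] at hcon ⊢
        push_cast at hcon ⊢
        omega)
    refine ⟨w + z, ?_, hw2⟩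
    show w + z - z ∈ L
    rw [add_sub_cancel_right]; exact hw1

/-- red slabs block blue paths -/
theorem slabs_block {A : Set P2} {z : P2} {n t : ℕ} (ht : n + 2 ≤ t) (h : Slabs z n t Aᶜ)
    {C : Set P2} (hC : C ⊆ A) {x y : P2} (p : Pth C x y) (hx : x ∈ ball z n) :
    y ∈ ball z (2 * (n + 1 + t)) := by
  by_contra hy
  obtain ⟨L, hLA, _, _, hL⟩ := slabs ht h
  obtain ⟨w, hw1, hw2⟩ := hL C x y p hx hy
  exact hLA hw1 (hC hw2)

/-- blue slabs join blue sets -/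
theorem slabs_join {A : Set P2} {z : P2} {n t : ℕ} (ht : n + 2 ≤ t) (h : Slabs z n t A)
    {C C' : Set P2} (hC : IsConn C) (hC' : IsConn C') {x y x' y' : P2}
    (hx : x ∈ C) (hy : y ∈ C) (hx' : x' ∈ C') (hy' : y' ∈ C')
    (bx : x ∈ ball z n) (b_y : y ∉ ball z (2 * (n + 1 + t)))
    (bx' : x' ∈ ball z n) (b_y' : y' ∉ ball z (2 * (n + 1 + t))) :
    ∃ L ⊆ A, (∀ w ∈ L, w ∈ ball z (2 * (n + 1 + t) + 1)) ∧ IsConn (C ∪ L ∪ C') := by
  obtain ⟨L, hLA, hLc, hLb, hL⟩ := slabs ht h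
  obtain ⟨w, hw1, hw2⟩ := hL C x y (hC _ hx _ hy) bx b_y
  obtain ⟨w', hw1', hw2'⟩ := hL C' x' y' (hC' _ hx' _ hy') bx' b_y'
  exact ⟨L, hLA, hLb, conn_union (conn_union hC hLc hw2 hw1) hC' (Or.inr hw1') hw2'⟩

/-- the events are increasing -/
theorem Slabs.mono {A B : Set P2} (hAB : A ⊆ B) {z : P2} {n t : ℕ} (h : Slabs z n t A) :
    Slabs z n t B :=
  ⟨hrow_mono h.1 (fun _ hw => hAB hw) le_rfl le_rfl,
    hrow_mono h.2.1 (fun _ hw => hAB hw) le_rfl le_rfl,
    hrow_mono h.2.2 (fun _ hw => hAB hw) le_rfl le_rfl⟩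

end Crest.Agent.R144.Qs356
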