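import Crest.Agent.R144.Qst_216

/-!
# R144, QRSW (doc 1941): Step I, the recursion `m → 10 m → 180 m` (helper216)
-/

set_option autoImplicit false

noncomputable section

namespace Crest.Agent.R144.Qsp216

open Crest.Agent.R144.It844 (P2 adj_iff)
open Crest.Agent.R144.Zg349 (StepIn IsConn)
open Crest.Agent.R144.Rsw867 (ball mem_ball path_mono)
open Crest.Agent.R144.Qlw216
open Crest.Agent.R144.Qgp216
open Crest.Agent.R144.Qst216
open Crest.ProbabilityR.HexHeights (Adj)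

/-- weak hit by the box ⟹ `Hit` with the strong constant -/
theorem finish {L : Lw} {N H r : ℕ} {ρ a ε : ℝ} (G : Geo) (hI : Inv L N ρ) (hρ : 0 ≤ ρ)
    (hR : Rig L H a ε) {q : ℕ} (hH : H = 720 * q) (hq : 100 ≤ q) (hN : 100 * H ≤ N)
    (ha : 24 * ρ ≤ a) (ha0 : 0 < a) (ha1 : a ≤ 1) {b : P2} (h1 : 27 * (q : ℤ) - 1 ≤ XX b)
    (h2 : XX b ≤ 27 * (q : ℤ) + 1) (h3 : 330 * (q : ℤ) ≤ b.2) (h4 : b.2 ≤ 361 * (q : ℤ))
    (hw : L.p (A 0 H [(b, r)])ᶜ + 4 * ρ ≤ a / 2) : Hit L r H (6 / a ^ 2 * ε) := by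
  have hD : D H = ((720 * q / 900 : ℕ) : ℤ) := by rw [hH]; rfl
  have hD1 : 5 * D H ≤ 4 * q := by rw [hD]; omega
  have hD0 : 0 ≤ D H := by rw [hD]; positivity
  have hHz : (H : ℤ) = 720 * q := by rw [hH]; push_cast; ring
  have hqz : (100 : ℤ) ≤ q := by exact_mod_cast hq
  have h5 := self_hit G hI hρ hR (by omega) hN ha ha0 ha1 (B := (b, r))
    (by unfold InStrip; simp only [Prod.snd_zero]; constructor <;> omega) (k := D H) (by omega)
    (by omega) (by simp only; omega) (by simp only; omega) hw []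
  refine ⟨tr (-D H, 0) b, ?_, ?_, ?_, ?_, h5.trans ?_⟩
  · show (H : ℤ) ≤ 4 * (b.2 + 0)
    omega
  · show 4 * (b.2 + 0) ≤ 3 * (H : ℤ)
    omega
  · rw [XX_tr]
    have : XX ((-D H, 0) : P2) = -(2 * D H) := by unfold XX; ring
    rw [this]
    omega
  · rw [XX_tr]
    have : XX ((-D H, 0) : P2) = -(2 * D H) := by unfold XX; ring
    rw [this]
    omega
  · exact mul_le_mul_of_nonneg_left hR.v (by positivity)

set_option maxHeartbeats 4000000 in
/-- **Step I**: a weak hit at size `m` gives a strong hit at size `180 m` -/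
theorem step {L : Lw} {N m r : ℕ} {ρ a ε a' ε' u : ℝ} (G : Geo) (hI : Inv L N ρ) (hρ : 0 ≤ ρ)
    {q : ℕ} (hm : m = 4 * q) (hq : 2250 ≤ q) (hN : 100 * (180 * m) ≤ N)
    (hR : Rig L (10 * m) a ε) (hR' : Rig L (180 * m) a' ε')
    (ha : 24 * ρ ≤ a) (ha0 : 0 < a) (ha1 : a ≤ 1)
    (ha' : 24 * ρ ≤ a') (ha0' : 0 < a') (ha1' : a' ≤ 1)
    (hH : Hit L r m u) (hu : u + 4 * ρ ≤ a / 2)
    (hε : 18 / a' ^ 2 * (ε' + (6 / a ^ 2) ^ 2 * ε + 4 * ρ) ≤ (a' / 6) ^ 2) :
    Hit L r (180 * m) (6 / a' ^ 2 * ε') := by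
  obtain ⟨z, hz1, hz2, hz3, hz4, hz5⟩ := hH
  have hmz : (m : ℤ) = 4 * q := by rw [hm]; push_cast; ring
  have hqz : (2250 : ℤ) ≤ q := by exact_mod_cast hq
  set k : ℤ := D (10 * m) with hk
  have hk' : k = ((10 * (4 * q) / 900 : ℕ) : ℤ) := by rw [hk, hm]; rfl
  have hk1 : 45 * k ≤ 2 * q := by rw [hk']; omega
  have hk0 : 0 ≤ k := by rw [hk']; positivity
  set x : ℤ := XX z with hx
  have hNz : (72000 * q : ℤ) ≤ N := by
    have : (100 * (180 * m) : ℤ) ≤ N := by exact_mod_cast hN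
    omega
  -- the bottom aligned small box
  have hs : XX ((-k, 0) : P2) = -(2 * k) := by unfold XX; ring
  have e0 : tr (-k, 0) (0 : P2) = (-k, 0) := by unfold tr; simp
  set B : P2 × ℕ := (tr (-k, 0) z, r) with hB
  have hw1 : L.p (A (-k, 0) m [B])ᶜ ≤ a / 2 := by
    have h := hit_tr hI hρ (t := (-k, 0)) (by simp only [abs_neg]; rw [abs_of_nonneg hk0]; omega)
      (by simp) (h := m) (by omega) (z, r)
    rw [e0] at h
    linarith
  have hXB : XX B.1 = x - 2 * k := by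
    show XX (tr (-k, 0) z) = _
    rw [XX_tr, hs]
    ring
  have hBs : InStrip 0 (10 * m) B := by
    show (0 : ℤ) ≤ z.2 + 0 ∧ z.2 + 0 ≤ 0 + ((10 * m : ℕ) : ℤ)
    constructor
    · omega
    · push_cast; omega
  have g1 := gp_b G hI hρ hR (by omega) (by omega) ha ha0 ha1 hBs (by rw [hXB, ← hk]; omega)
    (by rw [hXB]; push_cast; omega) (s := (-k, 0)) rfl (h' := m) (by omega) (by rw [hs]; omega)
    (by rw [hs]; push_cast; omega) hw1 []
  -- the top aligned small box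
  set t : P2 := (-k - 18 * q, 36 * q) with ht
  have hst : XX t = -(2 * k) := by rw [ht]; unfold XX; ring
  have e1 : tr t (0 : P2) = t := by unfold tr; simp
  set B' : P2 × ℕ := (tr t z, r) with hB'
  have hw2 : L.p (A t m [B'])ᶜ ≤ a / 2 := by
    have h := hit_tr hI hρ (t := t)
      (by rw [ht]; simp only; rw [abs_le]; constructor <;> omega)
      (by rw [ht]; simp only; rw [abs_le]; constructor <;> omega) (h := m) (by omega) (z, r)
    rw [e1] at h
    linarith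
  have hXB' : XX B'.1 = x - 2 * k := by
    show XX (tr t z) = _
    rw [XX_tr, hst]
    ring
  have hBs' : InStrip 0 (10 * m) B' := by
    show (0 : ℤ) ≤ z.2 + 36 * q ∧ z.2 + 36 * q ≤ 0 + ((10 * m : ℕ) : ℤ)
    constructor
    · omega
    · push_cast; omega
  have g2 := gp_t G hI hρ hR (by omega) (by omega) ha ha0 ha1 hBs' (by rw [hXB', ← hk]; omega)
    (by rw [hXB']; push_cast; omega) (s := t) (h' := m)
    (by show (36 * q : ℤ) + m = ((10 * m : ℕ) : ℤ); push_cast; omega) (by omega)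
    (by rw [hst]; omega) (by rw [hst]; push_cast; omega) hw2 [B]
  have g3 : L.p (A 0 (10 * m) [B', B])ᶜ ≤ (6 / a ^ 2) ^ 2 * ε := by
    have h6 : (0 : ℝ) ≤ 6 / a ^ 2 := by positivity
    calc L.p (A 0 (10 * m) [B', B])ᶜ ≤ 6 / a ^ 2 * L.p (A 0 (10 * m) [B])ᶜ := g2
      _ ≤ 6 / a ^ 2 * (6 / a ^ 2 * L.p (A 0 (10 * m) [])ᶜ) := mul_le_mul_of_nonneg_left g1 h6
      _ ≤ 6 / a ^ 2 * (6 / a ^ 2 * ε) :=
        mul_le_mul_of_nonneg_left (mul_le_mul_of_nonneg_left hR.v h6) h6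
      _ = (6 / a ^ 2) ^ 2 * ε := by ring
  -- the placement
  set H : ℕ := 180 * m with hHdef
  have hHz : (H : ℤ) = 720 * q := by rw [hHdef]; push_cast; omega
  set β : ℤ := B.1.2 - B.1.1 with hβ
  set c1 : ℤ := (-(27 * q) - 360 * q - β) / 2 with hc1
  set g : P2 → P2 := fun v => ro (ro v) + (c1, 360 * (q : ℤ)) with hg
  have hgv : ∀ v, g v = (v.2 + c1, -v.1 - v.2 + 360 * (q : ℤ)) := by
    intro v
    rw [hg]
    unfold ro
    refine Prod.ext ?_ ?_
    · show -(-v.1 - v.2) - v.1 + c1 = v.2 + c1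
      ring
    · show -v.1 - v.2 + 360 * (q : ℤ) = -v.1 - v.2 + 360 * (q : ℤ)
      rfl
  have hB1 : B.1 = (z.1 - k, z.2) := by
    show tr (-k, 0) z = _
    unfold tr
    exact Prod.ext (by simp only [Prod.fst_add]; ring) (by simp)
  have hB1' : B'.1 = (z.1 - k - 18 * q, z.2 + 36 * q) := by
    show tr t z = _
    unfold tr
    rw [ht]
    exact Prod.ext (by simp only [Prod.fst_add]; ring) (by simp)
  have hβ' : β = z.2 - z.1 + k := by rw [hβ, hB1]; ring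
  have hxz : x = 2 * z.1 + z.2 := rfl
  have hpl : IsPl N g := by
    refine ⟨2, by norm_num, 0, by norm_num, (c1, 360 * (q : ℤ)), ?_, ?_, fun v => rfl⟩
    · simp only
      rw [abs_le]
      constructor <;> omega
    · simp only
      rw [abs_le]
      constructor <;> omega
  have hadj : ∀ u v, Adj u v → Adj (g u) (g v) := fun u v h =>
    adj_tr _ _ _ (adj_ro _ _ (adj_ro _ _ h))
  have hbl : ∀ (B : P2 × ℕ) (v : P2), v ∈ bl B → g v ∈ bl (g B.1, B.2) := fun B v h =>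
    bl_tr (t := (c1, 360 * (q : ℤ))) (bl_ro (bl_ro h))
  have hOm : ∀ v ∈ Om (0 : P2) (10 * m), g v ∈ Om (0 : P2) H := by
    rintro v ⟨⟨h1, h2⟩, h3⟩
    rw [hgv]
    have h1' : (0 : ℤ) ≤ v.2 := h1
    have h2' : v.2 ≤ 40 * q := by
      have : v.2 ≤ 0 + ((10 * m : ℕ) : ℤ) := h2
      push_cast at this
      omega
    rw [XX_zero, sub_zero] at h3
    push_cast at h3
    unfold XX at h3
    rw [abs_le] at h3
    refine ⟨⟨?_, ?_⟩, ?_⟩
    · show (0 : ℤ) ≤ -v.1 - v.2 + 360 * (q : ℤ)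
      omega
    · show -v.1 - v.2 + 360 * (q : ℤ) ≤ 0 + (H : ℤ)
      omega
    · rw [XX_zero, sub_zero]
      unfold XX
      simp only
      rw [abs_le]
      constructor <;> omega
  set b1 : P2 := g B.1 with hb1
  set b2 : P2 := g B'.1 with hb2
  have hb1' : b1 = (z.2 + c1, -(z.1 - k) - z.2 + 360 * (q : ℤ)) := by rw [hb1, hgv, hB1]
  have hb2' : b2 = (z.2 + 36 * q + c1,
      -(z.1 - k - 18 * q) - (z.2 + 36 * q) + 360 * (q : ℤ)) := by rw [hb2, hgv, hB1']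
  have hX1 : XX b1 = β + 2 * c1 + 360 * q := by rw [hb1', hβ']; unfold XX; ring
  have hX2 : XX b2 = β + 2 * c1 + 360 * q + 54 * q := by rw [hb2', hβ']; unfold XX; ring
  have hX1a : -(27 * (q : ℤ)) - 1 ≤ XX b1 := by rw [hX1]; omega
  have hX1b : XX b1 ≤ -(27 * (q : ℤ)) := by rw [hX1]; omega
  have hX2a : 27 * (q : ℤ) - 1 ≤ XX b2 := by rw [hX2]; omega
  have hX2b : XX b2 ≤ 27 * (q : ℤ) := by rw [hX2]; omega
  have hr1 : 330 * (q : ℤ) ≤ b1.2 ∧ b1.2 ≤ 361 * (q : ℤ) := by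
    rw [hb1']
    simp only
    constructor <;> omega
  have hr2 : 330 * (q : ℤ) ≤ b2.2 ∧ b2.2 ≤ 361 * (q : ℤ) := by
    rw [hb2']
    simp only
    constructor <;> omega
  -- the four events
  have hd := G.d_ 0 H (Om 0 H) (b1, r) (b2, r)
    (by unfold InStrip; simp only [Prod.snd_zero]; constructor <;> omega)
    (by unfold InStrip; simp only [Prod.snd_zero]; constructor <;> omega) subset_rfl
  have hDev : L.p (Dev (Om 0 H) (b1, r) (b2, r))ᶜ ≤ (6 / a ^ 2) ^ 2 * ε + 4 * ρ := by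
    have h1 := dev_img hadj hbl hOm B B'
    have h2 := (abs_le.1 (pl_near hI hρ hpl (A_upper 0 (10 * m) [B', B])
      (loc_A (by omega) _))).1
    have h3 := p_mono L h1
    rw [p_compl] at g3 ⊢
    have e3 : (g B.1, B.2) = (b1, r) := rfl
    have e4 : (g B'.1, B'.2) = (b2, r) := rfl
    rw [e3, e4] at h3
    linarith
  have hDH : D H = ((180 * m / 900 : ℕ) : ℤ) := rfl
  have hDH1 : 5 * D H ≤ 4 * q := by rw [hDH]; omega
  have hF1 := inner' G hI hρ hR' (by omega) (by omega) ha' ha0' ha1' (B := (b1, r))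
    (by unfold InStrip; simp only [Prod.snd_zero]; constructor <;> omega)
    (by simp only; omega) (by simp only; omega)
  have hF2 := inner G hI hρ hR' (by omega) (by omega) ha' ha0' ha1' (B := (b2, r))
    (by unfold InStrip; simp only [Prod.snd_zero]; constructor <;> omega)
    (by simp only; omega) (by simp only; omega)
  have hsub : ((A 0 H [(b1, r)])ᶜ ∩ (A 0 H [(b2, r)])ᶜ) ∩ ((EL 0 H (b1, r))ᶜ ∩ (ER 0 H (b2, r))ᶜ) ⊆
      (A 0 H [])ᶜ ∪ (Dev (Om 0 H) (b1, r) (b2, r))ᶜ := by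
    rintro ω ⟨⟨h1, h2⟩, h3, h4⟩
    by_contra hcon
    rw [Set.mem_union, not_or, Set.mem_compl_iff, Set.mem_compl_iff, not_not, not_not] at hcon
    rcases hd hcon with (h5 | h5) | h5 | h5
    · exact h1 h5
    · exact h2 h5
    · exact h3 h5
    · exact h4 h5
  have hp1 := assoc_compl L (A_upper 0 H [(b1, r)]) (A_upper 0 H [(b2, r)])
  have hp2 := assoc_compl L (EL_upper 0 H (b1, r)) (ER_upper 0 H (b2, r))
  have hp3 := assoc_lower L
    ((A_upper 0 H [(b1, r)]).compl.inter (A_upper 0 H [(b2, r)]).compl)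
    ((EL_upper 0 H (b1, r)).compl.inter (ER_upper 0 H (b2, r)).compl)
  have hp4 := (p_mono L hsub).trans (p_union_le L _ _)
  have hp5 : a' / 6 * (a' / 3) ≤ L.p ((EL 0 H (b1, r))ᶜ ∩ (ER 0 H (b2, r))ᶜ) :=
    (mul_le_mul hF1 hF2 (by positivity) (L.nonneg _)).trans hp2
  have hp6 : L.p (A 0 H [(b1, r)])ᶜ * L.p (A 0 H [(b2, r)])ᶜ * (a' / 6 * (a' / 3)) ≤
      ε' + ((6 / a ^ 2) ^ 2 * ε + 4 * ρ) :=
    (mul_le_mul hp1 hp5 (by positivity) (L.nonneg _)).trans
      (hp3.trans (hp4.trans (add_le_add hR'.v hDev)))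
  have hp7 : L.p (A 0 H [(b1, r)])ᶜ * L.p (A 0 H [(b2, r)])ᶜ ≤ (a' / 6) ^ 2 := by
    have h1 : L.p (A 0 H [(b1, r)])ᶜ * L.p (A 0 H [(b2, r)])ᶜ = 18 / a' ^ 2 *
        (L.p (A 0 H [(b1, r)])ᶜ * L.p (A 0 H [(b2, r)])ᶜ * (a' / 6 * (a' / 3))) := by
      field_simp
      ring
    rw [h1]
    refine (mul_le_mul_of_nonneg_left hp6 (by positivity)).trans ?_
    rw [← add_assoc]
    exact hε
  have hq' : 100 ≤ q := by omega
  have hHq : H = 720 * q := by omega
  rcases le_or_gt (L.p (A 0 H [(b2, r)])ᶜ) (a' / 6) with h7 | h7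
  · exact finish G hI hρ hR' hHq hq' hN ha' ha0' ha1' hX2a (by omega) hr2.1 hr2.2 (by linarith)
  · have h8 : L.p (A 0 H [(b1, r)])ᶜ ≤ a' / 6 := by
      by_contra hcon
      push Not at hcon
      nlinarith [mul_lt_mul'' hcon h7 (by positivity) (by positivity)]
    have h9 := hit_rf hI hρ (h := H) hN (b1, r)
    simp only at h9
    have hXr : XX (rf 0 b1) = - XX b1 := by rw [XX_rf]; ring
    exact finish G hI hρ hR' hHq hq' hN ha' ha0' ha1' (b := rf 0 b1) (by rw [hXr]; omega)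
      (by rw [hXr]; omega) hr1.1 hr1.2 (by linarith)

end Crest.Agent.R144.Qsp216
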