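import Crest.Agent.R144.Qgp_216

/-!
# R144, QRSW (doc 1941): GP lemma and Step I (helper216)
-/

set_option autoImplicit false

noncomputable section

namespace Crest.Agent.R144.Qst216

open Crest.Agent.R144.It844 (P2 adj_iff)
open Crest.Agent.R144.Zg349 (StepIn IsConn)
open Crest.Agent.R144.Rsw867 (ball mem_ball path_mono)
open Crest.Agent.R144.Qlw216
open Crest.Agent.R144.Qgp216
open Crest.ProbabilityR.HexHeights (Adj)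

theorem XX_zero : XX (0 : P2) = 0 := rfl

theorem XX_tr (t v : P2) : XX (tr t v) = XX v + XX t := by
  unfold XX tr
  simp only [Prod.fst_add, Prod.snd_add]
  ring

/-- inner passing (right) -/
theorem inner {L : Lw} {N h : ℕ} {ρ a ε : ℝ} (G : Geo) (hI : Inv L N ρ) (hρ : 0 ≤ ρ)
    (hR : Rig L h a ε) (hh : 9000 ≤ h) (hN : 100 * h ≤ N) (ha : 24 * ρ ≤ a) (ha0 : 0 < a)
    (ha1 : a ≤ 1) {B : P2 × ℕ} (hB : InStrip 0 h B) (h1 : D h ≤ 2 * XX B.1)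
    (h2 : XX B.1 ≤ 20 * h) : a / 3 ≤ L.p (ER 0 h B)ᶜ := by
  set c : ℤ := XX B.1 with hc
  have hc0 : 0 ≤ c := by
    have : (0 : ℤ) ≤ D h := by unfold D; positivity
    omega
  have hrz : rf c (0 : P2) = (c, 0) := by
    unfold rf
    exact Prod.ext (by simp) rfl
  have hrB : rf c B.1 = B.1 := by
    unfold rf
    refine Prod.ext ?_ rfl
    simp only
    rw [hc]
    unfold XX
    ring
  have hX : XX (c, (0 : ℤ)) = 2 * c := by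
    unfold XX
    ring
  have hb := G.b_ 0 (c, 0) h B rfl hB hh (by rw [hX, XX_zero]; linarith)
  rw [hX, XX_zero] at hb
  have hk : L.p (K 0 (2 * c) 0 h) ≤ 1 - a := by
    refine hR.kb 0 (2 * c) ?_ ?_ (by linarith)
    · simp
    · rw [abs_of_nonneg (by omega)]
      omega
  have hpl : IsPl N (rf c) := isPl_rf (by
    rw [abs_of_nonneg hc0]
    have : (100 * h : ℤ) ≤ N := by exact_mod_cast hN
    omega)
  have h3 := (abs_le.1 (pl_near hI hρ hpl (ER_upper 0 h B) (loc_ER (by omega) B))).1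
  have h4 : L.p (act (rf c) (ER 0 h B)) ≤ L.p (EL (c, 0) h B) := by
    have h5 := ER_rf c 0 h B
    rw [hrz, hrB] at h5
    exact p_mono L h5
  have h6 : L.p (ER 0 h B) * L.p (EL (c, 0) h B) ≤ 1 - a :=
    (L.assoc _ _ (ER_upper _ _ _) (EL_upper _ _ _)).trans ((p_mono L hb).trans hk)
  rw [p_compl]
  by_contra hcon
  push Not at hcon
  have h7 := p_le_one L (ER 0 h B)
  set x := L.p (ER 0 h B)
  set y := L.p (EL (c, 0) h B)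
  have h8 : 1 - a / 3 < x := by linarith
  have h9 : 1 - a / 2 ≤ y := by linarith
  nlinarith [mul_le_mul h8.le h9 (by linarith) (by linarith : (0 : ℝ) ≤ x)]

/-- inner passing (left) -/
theorem inner' {L : Lw} {N h : ℕ} {ρ a ε : ℝ} (G : Geo) (hI : Inv L N ρ) (hρ : 0 ≤ ρ)
    (hR : Rig L h a ε) (hh : 9000 ≤ h) (hN : 100 * h ≤ N) (ha : 24 * ρ ≤ a) (ha0 : 0 < a)
    (ha1 : a ≤ 1) {B : P2 × ℕ} (hB : InStrip 0 h B) (h1 : D h ≤ - (2 * XX B.1))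
    (h2 : -(20 * h) ≤ XX B.1) : a / 6 ≤ L.p (EL 0 h B)ᶜ := by
  have hr0 : rf 0 (0 : P2) = 0 := rfl
  have hX : XX (rf 0 B.1) = - XX B.1 := by
    rw [XX_rf]
    ring
  have h3 := inner G hI hρ hR hh hN ha ha0 ha1 (B := (rf 0 B.1, B.2)) hB
    (by simp only [hX]; linarith) (by simp only [hX]; linarith)
  have hpl : IsPl N (rf 0) := isPl_rf (by simp)
  have h4 := (abs_le.1 (pl_near hI hρ hpl (EL_upper 0 h B) (loc_EL (by omega) B))).1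
  have h5 : L.p (act (rf 0) (EL 0 h B)) ≤ L.p (ER 0 h (rf 0 B.1, B.2)) := by
    have h6 := EL_rf 0 0 h B
    rw [hr0] at h6
    exact p_mono L h6
  rw [p_compl] at *
  linarith

/-- outer passing, bottom aligned -/
theorem outer_b {L : Lw} {h h' : ℕ} {a ε : ℝ} (G : Geo) (hR : Rig L h a ε) (hh : 9000 ≤ h)
    (ha0 : 0 < a) (ha1 : a ≤ 1) {B : P2 × ℕ} (hB : InStrip 0 h B) {s : P2} (hs : s.2 = 0)
    (hh' : h' ≤ h) (h1 : XX s + D h ≤ 0) (h2 : -(40 * h) ≤ XX s)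
    (hw : L.p (A s h' [B])ᶜ ≤ a / 2) : a / 2 ≤ L.p (EL 0 h B)ᶜ := by
  have hD : (0 : ℤ) ≤ D h := by unfold D; positivity
  have hb := G.cb_ 0 s h h' B hs hh' hB hh (by rw [XX_zero]; exact h1)
  rw [XX_zero] at hb
  have hk : L.p (K (XX s) 0 0 h) ≤ 1 - a := by
    refine hR.kb _ 0 ?_ ?_ h1
    · rw [abs_le]
      constructor <;> omega
    · simp
  have h6 : L.p (EL 0 h B) * L.p (A s h' [B]) ≤ 1 - a :=
    (L.assoc _ _ (EL_upper _ _ _) (A_upper _ _ _)).trans ((p_mono L hb).trans hk)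
  rw [p_compl] at *
  by_contra hcon
  push Not at hcon
  set x := L.p (EL 0 h B)
  set y := L.p (A s h' [B])
  nlinarith [mul_le_mul (by linarith : 1 - a / 2 ≤ x) (by linarith : 1 - a / 2 ≤ y) (by linarith)
    (by linarith : (0 : ℝ) ≤ x)]

/-- outer passing, top aligned -/
theorem outer_t {L : Lw} {h h' : ℕ} {a ε : ℝ} (G : Geo) (hR : Rig L h a ε) (hh : 9000 ≤ h)
    (ha0 : 0 < a) (ha1 : a ≤ 1) {B : P2 × ℕ} (hB : InStrip 0 h B) {s : P2} (hs : s.2 + h' = h)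
    (hh' : h' ≤ h) (h1 : XX s + D h ≤ 0) (h2 : -(40 * h) ≤ XX s)
    (hw : L.p (A s h' [B])ᶜ ≤ a / 2) : a / 2 ≤ L.p (EL 0 h B)ᶜ := by
  have hD : (0 : ℤ) ≤ D h := by unfold D; positivity
  have hb := G.ct_ 0 s h h' B (by rw [hs]; simp) hh' hB hh (by rw [XX_zero]; exact h1)
  rw [XX_zero] at hb
  have hk : L.p (Kt (XX s) 0 0 h) ≤ 1 - a := by
    refine hR.kt _ 0 ?_ ?_ h1
    · rw [abs_le]
      constructor <;> omega
    · simp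
  have h6 : L.p (EL 0 h B) * L.p (A s h' [B]) ≤ 1 - a :=
    (L.assoc _ _ (EL_upper _ _ _) (A_upper _ _ _)).trans ((p_mono L hb).trans hk)
  rw [p_compl] at *
  by_contra hcon
  push Not at hcon
  set x := L.p (EL 0 h B)
  set y := L.p (A s h' [B])
  nlinarith [mul_le_mul (by linarith : 1 - a / 2 ≤ x) (by linarith : 1 - a / 2 ≤ y) (by linarith)
    (by linarith : (0 : ℝ) ≤ x)]

/-- GP lemma, core -/
theorem gp_core {L : Lw} {h : ℕ} {a : ℝ} (G : Geo) (ha0 : 0 < a) {B : P2 × ℕ}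
    (hB : InStrip 0 h B) (BB : List (P2 × ℕ)) (h1 : a / 3 ≤ L.p (ER 0 h B)ᶜ)
    (h2 : a / 2 ≤ L.p (EL 0 h B)ᶜ) :
    L.p (A 0 h (B :: BB))ᶜ ≤ 6 / a ^ 2 * L.p (A 0 h BB)ᶜ := by
  have hs : (A 0 h (B :: BB))ᶜ ∩ ((EL 0 h B)ᶜ ∩ (ER 0 h B)ᶜ) ⊆ (A 0 h BB)ᶜ := by
    rintro ω ⟨h3, h4, h5⟩ h6
    rcases G.a_ 0 h B BB hB h6 with h7 | h7 | h7
    · exact h3 h7
    · exact h4 h7
    · exact h5 h7
  have h3 := assoc_lower L (A_upper 0 h (B :: BB)).compl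
    ((EL_upper 0 h B).compl.inter (ER_upper 0 h B).compl)
  have h4 := assoc_compl L (EL_upper 0 h B) (ER_upper 0 h B)
  have h5 : a / 2 * (a / 3) ≤ L.p ((EL 0 h B)ᶜ ∩ (ER 0 h B)ᶜ) :=
    (mul_le_mul h2 h1 (by positivity) (L.nonneg _)).trans h4
  have h6 : L.p (A 0 h (B :: BB))ᶜ * (a / 2 * (a / 3)) ≤ L.p (A 0 h BB)ᶜ :=
    (mul_le_mul_of_nonneg_left h5 (L.nonneg _)).trans (h3.trans (p_mono L hs))
  have h7 : L.p (A 0 h (B :: BB))ᶜ = 6 / a ^ 2 * (L.p (A 0 h (B :: BB))ᶜ * (a / 2 * (a / 3))) := by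
    field_simp
    ring
  rw [h7]
  exact mul_le_mul_of_nonneg_left h6 (by positivity)

/-- GP lemma, the small box is bottom aligned -/
theorem gp_b {L : Lw} {N h h' : ℕ} {ρ a ε : ℝ} (G : Geo) (hI : Inv L N ρ) (hρ : 0 ≤ ρ)
    (hR : Rig L h a ε) (hh : 9000 ≤ h) (hN : 100 * h ≤ N) (ha : 24 * ρ ≤ a) (ha0 : 0 < a)
    (ha1 : a ≤ 1) {B : P2 × ℕ} (hB : InStrip 0 h B) (hX1 : D h ≤ 2 * XX B.1)
    (hX2 : XX B.1 ≤ 20 * h) {s : P2} (hs : s.2 = 0) (hh' : h' ≤ h) (h1 : XX s + D h ≤ 0)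
    (h2 : -(40 * h) ≤ XX s) (hw : L.p (A s h' [B])ᶜ ≤ a / 2) (BB : List (P2 × ℕ)) :
    L.p (A 0 h (B :: BB))ᶜ ≤ 6 / a ^ 2 * L.p (A 0 h BB)ᶜ :=
  gp_core G ha0 hB BB (inner G hI hρ hR hh hN ha ha0 ha1 hB hX1 hX2)
    (outer_b G hR hh ha0 ha1 hB hs hh' h1 h2 hw)

/-- GP lemma, the small box is top aligned -/
theorem gp_t {L : Lw} {N h h' : ℕ} {ρ a ε : ℝ} (G : Geo) (hI : Inv L N ρ) (hρ : 0 ≤ ρ)
    (hR : Rig L h a ε) (hh : 9000 ≤ h) (hN : 100 * h ≤ N) (ha : 24 * ρ ≤ a) (ha0 : 0 < a)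
    (ha1 : a ≤ 1) {B : P2 × ℕ} (hB : InStrip 0 h B) (hX1 : D h ≤ 2 * XX B.1)
    (hX2 : XX B.1 ≤ 20 * h) {s : P2} (hs : s.2 + h' = h) (hh' : h' ≤ h) (h1 : XX s + D h ≤ 0)
    (h2 : -(40 * h) ≤ XX s) (hw : L.p (A s h' [B])ᶜ ≤ a / 2) (BB : List (P2 × ℕ)) :
    L.p (A 0 h (B :: BB))ᶜ ≤ 6 / a ^ 2 * L.p (A 0 h BB)ᶜ :=
  gp_core G ha0 hB BB (inner G hI hρ hR hh hN ha ha0 ha1 hB hX1 hX2)
    (outer_t G hR hh ha0 ha1 hB hs hh' h1 h2 hw)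

/-- translated hit -/
theorem hit_tr {L : Lw} {N : ℕ} {ρ : ℝ} (hI : Inv L N ρ) (hρ : 0 ≤ ρ) {t : P2} (h1 : |t.1| ≤ N)
    (h2 : |t.2| ≤ N) {h : ℕ} (hN : 100 * h ≤ N) (B : P2 × ℕ) :
    L.p (A (tr t 0) h [(tr t B.1, B.2)])ᶜ ≤ L.p (A 0 h [B])ᶜ + 4 * ρ := by
  have h3 := (abs_le.1 (pl_near hI hρ (isPl_tr h1 h2) (A_upper 0 h [B]) (loc_A (by omega) _))).1
  have h4 := p_mono L (A_tr t 0 h [B])
  have e : ([B].map fun B : P2 × ℕ => (tr t B.1, B.2)) = [(tr t B.1, B.2)] := rfl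
  rw [e] at h4
  rw [p_compl, p_compl]
  linarith

/-- reflected hit -/
theorem hit_rf {L : Lw} {N : ℕ} {ρ : ℝ} (hI : Inv L N ρ) (hρ : 0 ≤ ρ) {h : ℕ} (hN : 100 * h ≤ N)
    (B : P2 × ℕ) :
    L.p (A 0 h [(rf 0 B.1, B.2)])ᶜ ≤ L.p (A 0 h [B])ᶜ + 4 * ρ := by
  have h3 := (abs_le.1 (pl_near hI hρ (isPl_rf (c := 0) (by simp)) (A_upper 0 h [B])
    (loc_A (by omega) _))).1
  have h4 := p_mono L (A_rf 0 0 h [B])
  have e : ([B].map fun B : P2 × ℕ => (rf 0 B.1, B.2)) = [(rf 0 B.1, B.2)] := rfl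
  have e0 : rf 0 (0 : P2) = 0 := rfl
  rw [e, e0] at h4
  rw [p_compl, p_compl]
  linarith

/-- weak hit by the box itself ⟹ strong hit by the shifted box -/
theorem self_hit {L : Lw} {N h : ℕ} {ρ a ε : ℝ} (G : Geo) (hI : Inv L N ρ) (hρ : 0 ≤ ρ)
    (hR : Rig L h a ε) (hh : 9000 ≤ h) (hN : 100 * h ≤ N) (ha : 24 * ρ ≤ a) (ha0 : 0 < a)
    (ha1 : a ≤ 1) {B : P2 × ℕ} (hB : InStrip 0 h B) {k : ℤ} (hk : D h ≤ 2 * k) (hk2 : k ≤ 2 * h)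
    (hX1 : D h + 4 * k ≤ 2 * XX B.1) (hX2 : XX B.1 ≤ 20 * h)
    (hw : L.p (A 0 h [B])ᶜ + 4 * ρ ≤ a / 2) (BB : List (P2 × ℕ)) :
    L.p (A 0 h ((tr (-k, 0) B.1, B.2) :: BB))ᶜ ≤ 6 / a ^ 2 * L.p (A 0 h BB)ᶜ := by
  have hD : (0 : ℤ) ≤ D h := by unfold D; positivity
  have hNz : (100 * h : ℤ) ≤ N := by exact_mod_cast hN
  have h3 := hit_tr hI hρ (t := (-k, 0)) (by simp only [abs_neg]; rw [abs_of_nonneg (by omega)]; omega)
    (by simp) hN B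
  have e : tr (-k, 0) (0 : P2) = (-k, 0) := by
    unfold tr
    simp
  have eX : XX ((-k, 0) : P2) = -(2 * k) := by
    unfold XX
    ring
  rw [e] at h3
  have hB' : InStrip 0 h (tr (-k, 0) B.1, B.2) := by
    unfold InStrip tr at *
    simpa using hB
  refine gp_b G hI hρ hR hh hN ha ha0 ha1 hB' ?_ ?_ (s := (-k, 0)) rfl le_rfl ?_ ?_
    (h3.trans hw) BB
  · show D h ≤ 2 * XX (tr (-k, 0) B.1)
    rw [XX_tr, eX]
    omega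
  · show XX (tr (-k, 0) B.1) ≤ 20 * h
    rw [XX_tr, eX]
    omega
  · rw [eX]
    omega
  · rw [eX]
    omega

/-! ### Step I -/

/-- the box of size `h` hits a ball of radius `r`, to the right, in the middle rows -/
def Hit (L : Lw) (r h : ℕ) (u : ℝ) : Prop :=
  ∃ z : P2, (h : ℤ) ≤ 4 * z.2 ∧ 4 * z.2 ≤ 3 * h ∧ (h : ℤ) ≤ 30 * XX z ∧ XX z ≤ 2 * h ∧
    L.p (A 0 h [(z, r)])ᶜ ≤ u

theorem Hit.mono {L : Lw} {r h : ℕ} {u v : ℝ} (hu : Hit L r h u) (huv : u ≤ v) : Hit L r h v := by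
  obtain ⟨z, h1, h2, h3, h4, h5⟩ := hu
  exact ⟨z, h1, h2, h3, h4, h5.trans huv⟩

/-- base of the recursion -/
theorem hit_base {L : Lw} {r h : ℕ} {a ε : ℝ} (hR : Rig L h a ε) (hh : 9000 ≤ h)
    (hr : 20 * h ≤ r) : Hit L r h ε := by
  have hh' : (9000 : ℤ) ≤ h := by exact_mod_cast hh
  have hr' : (20 * h : ℤ) ≤ r := by exact_mod_cast hr
  refine ⟨((h : ℤ) / 4, (h : ℤ) / 2), by simp only; omega, by simp only; omega,
    by unfold XX; simp only; omega, by unfold XX; simp only; omega, ?_⟩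
  refine (p_mono L (Set.compl_subset_compl.2 ?_)).trans hR.v
  rintro ω ⟨C, h1, h2, ⟨x, hx, hx'⟩, h4, -⟩
  refine ⟨C, h1, h2, ⟨x, hx, hx'⟩, h4, ?_⟩
  intro B hB
  rw [List.mem_singleton] at hB
  subst hB
  refine ⟨x, hx, ?_⟩
  obtain ⟨⟨h5, h6⟩, h7⟩ := (h1 hx).2
  unfold bl
  rw [Finset.mem_coe, mem_ball]
  unfold XX at h7
  simp only [abs_le, Prod.fst_zero, Prod.snd_zero] at *
  refine ⟨⟨?_, ?_⟩, ⟨?_, ?_⟩, ⟨?_, ?_⟩⟩ <;> omega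

/-- two rows -/
theorem dev_img {g : P2 → P2} (hg : ∀ u v, Adj u v → Adj (g u) (g v))
    (hB : ∀ (B : P2 × ℕ) (v : P2), v ∈ bl B → g v ∈ bl (g B.1, B.2)) {s : P2} {h : ℕ} {R : Set P2}
    (hR : ∀ v ∈ Om s h, g v ∈ R) (B B' : P2 × ℕ) :
    act g (A s h [B', B]) ⊆ Dev R (g B.1, B.2) (g B'.1, B'.2) := by
  rintro ω ⟨C, h1, h2, -, -, h5⟩
  refine ⟨g '' C, ?_, conn_img hg h2, ?_, ?_⟩
  · rintro _ ⟨v, hv, rfl⟩
    exact ⟨(h1 hv).1, hR v (h1 hv).2⟩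
  · obtain ⟨w, hw, hw'⟩ := h5 B (by simp)
    exact ⟨g w, ⟨w, hw, rfl⟩, hB B w hw'⟩
  · obtain ⟨w, hw, hw'⟩ := h5 B' (by simp)
    exact ⟨g w, ⟨w, hw, rfl⟩, hB B' w hw'⟩

end Crest.Agent.R144.Qst216
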