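import Crest.Agent.R144.Pst6_967

/-!
# R144: the two FK representations at once (helper851), part 1

For an arbitrary finite family `H` of heights and a finite set `F` of up triangles.

* `ng h = -h` exchanges the colours (`c1_ng`, `c2_ng`);
* `ew3` : joint weight of the two closed statuses `z` (closed for the first representation: `s1` constant) and
  `y` (closed for the second one: `s2` constant); never both open; `Σ_y ew3 = ew (h, z)`,
  `Σ_z ew3 = ew (-h, y)`; nonnegative for `1 ≤ c ≤ 2`;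
* `S3 c F H f` : unnormalised joint sum; `S3_fst`, `S3_snd` : marginals;
* `E3 c F f` (`H = hts F`), `E3_fst : E3 (f (h, z)) = E c F f`, `EX c F f := E3 (f (-h, y))`;
* `EX_heights`, **`F4`**, `F4'` : open triangles of one representation are closed for the other one.
-/

set_option autoImplicit false
set_option linter.unusedSectionVars false

noncomputable section

namespace Crest.Agent.R144.Xc851

open Finset
open Crest.Agent.R144.It844 (P2 Lip adj_iff adj_symm lip_iff)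
open Crest.Agent.R144.Zg349 Crest.Agent.R144.Zk349 Crest.Agent.R144.Zd349 Crest.Agent.R144.Zm349
open Crest.Agent.R144.Ze349
open Crest.ProbabilityR.HexHeights (Adj)

/-! ### exchange of the colours -/

/-- opposite heights: the colours are exchanged -/
def ng (h : P2 → ℤ) : P2 → ℤ := fun v => - h v

theorem ng_ng (h : P2 → ℤ) : ng (ng h) = h := by
  funext v; simp [ng]

theorem ng_inj : Function.Injective ng := fun h g e => by
  rw [← ng_ng h, e, ng_ng]

theorem s1_ng (h : P2 → ℤ) (v : P2) : s1 (ng h v) = s2 (h v) := s1_neg _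
theorem s2_ng (h : P2 → ℤ) (v : P2) : s2 (ng h v) = s1 (h v) := s2_neg _

theorem c1_ng {h : P2 → ℤ} {t : P2} : C1 (ng h) t ↔ C2 h t := by
  unfold C1 C2
  simp only [s1_ng]

theorem c2_ng {h : P2 → ℤ} {t : P2} : C2 (ng h) t ↔ C1 h t := by
  unfold C1 C2
  simp only [s2_ng]

theorem lip_ng {h : P2 → ℤ} (hh : Lip h) : Lip (ng h) := by
  rw [lip_iff] at *
  intro u
  obtain ⟨h1, h2, h3⟩ := hh u
  unfold ng
  refine ⟨?_, ?_, ?_⟩ <;> rw [abs_le] at * <;> omega

/-! ### joint weights -/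

/-- joint weight of the two closed statuses -/
def ew3 (c : ℝ) (h : P2 → ℤ) (t : P2) (z y : Bool) : ℝ :=
  if z then (if y then (if C1 h t ∧ C2 h t then 2 - c else 0)
      else (if C1 h t then (if C2 h t then c - 1 else 1) else 0))
  else (if y then (if C2 h t then (if C1 h t then c - 1 else 1) else 0) else 0)

theorem ew3_nonneg {c : ℝ} (hc : 1 ≤ c) (hc2 : c ≤ 2) (h : P2 → ℤ) (t : P2) (z y : Bool) :
    0 ≤ ew3 c h t z y := by
  unfold ew3
  split_ifs <;> first | exact zero_le_one | exact le_rfl | linarith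

theorem ew3_open (c : ℝ) (h : P2 → ℤ) (t : P2) : ew3 c h t false false = 0 := by simp [ew3]

theorem ew3_sum_y (c : ℝ) (h : P2 → ℤ) (t : P2) (z : P2 → Bool) :
    ew3 c h t (z t) true + ew3 c h t (z t) false = ew c (h, z) t := by
  unfold ew3 ew
  by_cases h1 : C1 h t <;> by_cases h2 : C2 h t <;> rcases hb : z t with _ | _ <;>
    simp [h1, h2, hb]
  norm_num

theorem ew3_sum_z (c : ℝ) (h : P2 → ℤ) (t : P2) (y : P2 → Bool) :
    ew3 c h t true (y t) + ew3 c h t false (y t) = ew c (ng h, y) t := by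
  unfold ew3 ew
  simp only [c1_ng, c2_ng]
  generalize y t = b
  by_cases h1 : C1 h t <;> by_cases h2 : C2 h t <;> cases b <;> simp [h1, h2]
  norm_num

/-- nonzero joint weight -/
theorem ew3_ne {c : ℝ} {h : P2 → ℤ} {t : P2} {z y : Bool} (hw : ew3 c h t z y ≠ 0) :
    (z = true → C1 h t) ∧ (z = false → C2 h t) ∧ (y = true → C2 h t) ∧ (y = false → C1 h t) ∧
      (z = true ∨ y = true) := by
  unfold ew3 at hw
  by_cases h1 : C1 h t <;> by_cases h2 : C2 h t <;> cases z <;> cases y <;> simp_all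

/-- sums over closed indicators of products -/
theorem sum_zs_prod (F : Finset P2) (w : P2 → Bool → ℝ) :
    ∑ z ∈ zs F, ∏ t ∈ F, w t (z t) = ∏ t ∈ F, (w t true + w t false) := by
  classical
  rw [sum_zs F fun z => ∏ t ∈ F, w t (z t), Finset.prod_add]
  refine Finset.sum_congr rfl fun Z hZ => ?_
  rw [Finset.mem_powerset] at hZ
  rw [← Finset.prod_inter_mul_prod_sdiff F Z, Finset.inter_eq_right.2 hZ]
  congr 1
  · refine Finset.prod_congr rfl fun t ht => ?_
    have : zb F Z t = true := by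
      unfold zb
      rw [decide_eq_true_eq]
      exact Or.inr ht
    rw [this]
  · refine Finset.prod_congr rfl fun t ht => ?_
    rw [Finset.mem_sdiff] at ht
    have : zb F Z t = false := by
      unfold zb
      rw [decide_eq_false_iff_not]
      tauto
    rw [this]

/-- configurations with both closed statuses -/
abbrev C3 : Type := (P2 → ℤ) × (P2 → Bool) × (P2 → Bool)

/-- first representation -/
def fst3 (ω : C3) : Cfg := (ω.1, ω.2.1)
/-- second representation -/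
def snd3 (ω : C3) : Cfg := (ng ω.1, ω.2.2)

/-- joint weight -/
def wt3 (c : ℝ) (F : Finset P2) (ω : C3) : ℝ := ∏ t ∈ F, ew3 c ω.1 t (ω.2.1 t) (ω.2.2 t)

theorem wt3_nonneg {c : ℝ} (hc : 1 ≤ c) (hc2 : c ≤ 2) (F : Finset P2) (ω : C3) : 0 ≤ wt3 c F ω :=
  Finset.prod_nonneg fun t _ => ew3_nonneg hc hc2 _ t _ _

theorem wt3_ne {c : ℝ} {F : Finset P2} {ω : C3} (h : wt3 c F ω ≠ 0) {t : P2} (ht : t ∈ F) :
    (ω.2.1 t = true → C1 ω.1 t) ∧ (ω.2.1 t = false → C2 ω.1 t) ∧ (ω.2.2 t = true → C2 ω.1 t) ∧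
      (ω.2.2 t = false → C1 ω.1 t) ∧ (ω.2.1 t = true ∨ ω.2.2 t = true) :=
  ew3_ne fun h0 => h (Finset.prod_eq_zero ht h0)

theorem sum_y (c : ℝ) (F : Finset P2) (h : P2 → ℤ) (z : P2 → Bool) :
    ∑ y ∈ zs F, wt3 c F (h, z, y) = wt c F (h, z) := by
  unfold wt3 wt
  rw [sum_zs_prod F fun t b => ew3 c h t (z t) b]
  exact Finset.prod_congr rfl fun t _ => ew3_sum_y c h t z

theorem sum_z (c : ℝ) (F : Finset P2) (h : P2 → ℤ) (y : P2 → Bool) :
    ∑ z ∈ zs F, wt3 c F (h, z, y) = wt c F (ng h, y) := by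
  unfold wt3 wt
  rw [sum_zs_prod F fun t b => ew3 c h t b (y t)]
  exact Finset.prod_congr rfl fun t _ => ew3_sum_z c h t y

/-- unnormalised joint sum over a finite family of heights -/
def S3 (c : ℝ) (F : Finset P2) (H : Finset (P2 → ℤ)) (f : C3 → ℝ) : ℝ :=
  ∑ h ∈ H, ∑ z ∈ zs F, ∑ y ∈ zs F, wt3 c F (h, z, y) * f (h, z, y)

/-- unnormalised sum over a finite family of heights -/
def S2 (c : ℝ) (F : Finset P2) (H : Finset (P2 → ℤ)) (f : Cfg → ℝ) : ℝ :=
  ∑ h ∈ H, ∑ z ∈ zs F, wt c F (h, z) * f (h, z)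

theorem S3_fst (c : ℝ) (F : Finset P2) (H : Finset (P2 → ℤ)) (f : Cfg → ℝ) :
    S3 c F H (fun ω => f (fst3 ω)) = S2 c F H f := by
  unfold S3 S2
  refine Finset.sum_congr rfl fun h _ => Finset.sum_congr rfl fun z _ => ?_
  rw [← sum_y, Finset.sum_mul]
  rfl

open Classical in
theorem S3_snd (c : ℝ) (F : Finset P2) (H : Finset (P2 → ℤ)) (f : Cfg → ℝ) :
    S3 c F H (fun ω => f (snd3 ω)) = S2 c F (H.image ng) f := by
  unfold S3 S2
  rw [Finset.sum_image fun a _ b _ e => ng_inj e]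
  refine Finset.sum_congr rfl fun h _ => ?_
  rw [Finset.sum_comm]
  refine Finset.sum_congr rfl fun y _ => ?_
  rw [← sum_z, Finset.sum_mul]
  rfl

theorem S3_mono {c : ℝ} (hc : 1 ≤ c) (hc2 : c ≤ 2) {F : Finset P2} {H : Finset (P2 → ℤ)}
    {f g : C3 → ℝ} (h : ∀ ω : C3, ω.1 ∈ H → (∀ t, t ∉ F → ω.2.1 t = true) →
      (∀ t, t ∉ F → ω.2.2 t = true) → wt3 c F ω ≠ 0 → f ω ≤ g ω) : S3 c F H f ≤ S3 c F H g := by
  unfold S3
  refine Finset.sum_le_sum fun a ha => Finset.sum_le_sum fun z hz => Finset.sum_le_sum fun y hy => ?_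
  by_cases hw : wt3 c F (a, z, y) = 0
  · rw [hw, zero_mul, zero_mul]
  · exact mul_le_mul_of_nonneg_left (h _ ha (mem_zs.1 hz) (mem_zs.1 hy) hw) (wt3_nonneg hc hc2 _ _)

theorem S3_congr {c : ℝ} {F : Finset P2} {H : Finset (P2 → ℤ)}
    {f g : C3 → ℝ} (h : ∀ ω : C3, ω.1 ∈ H → (∀ t, t ∉ F → ω.2.1 t = true) →
      (∀ t, t ∉ F → ω.2.2 t = true) → wt3 c F ω ≠ 0 → f ω = g ω) : S3 c F H f = S3 c F H g := by
  unfold S3
  refine Finset.sum_congr rfl fun a ha => Finset.sum_congr rfl fun z hz =>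
    Finset.sum_congr rfl fun y hy => ?_
  by_cases hw : wt3 c F (a, z, y) = 0
  · rw [hw, zero_mul, zero_mul]
  · rw [h _ ha (mem_zs.1 hz) (mem_zs.1 hy) hw]

open Classical in
/-- the partition functions of a family and of the opposite family agree -/
theorem S2_heights (c : ℝ) (F : Finset P2) (H : Finset (P2 → ℤ)) (g : (P2 → ℤ) → ℝ) :
    S2 c F (H.image ng) (fun ω => g ω.1) = S2 c F H (fun ω => g (ng ω.1)) := by
  have h1 := S3_snd c F H fun ω => g ω.1
  have h2 := S3_fst c F H fun ω => g (ng ω.1)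
  rw [← h1, ← h2]
  rfl

open Classical in
/-- **F4**, unnormalised, any family of heights: open triangles of the first representation are closed for the
second one. -/
theorem S2_F4 {c : ℝ} (hc : 1 ≤ c) (hc2 : c ≤ 2) (F : Finset P2) (H : Finset (P2 → ℤ))
    {G : (P2 → ℤ) → Set P2 → ℝ} (hG : ∀ h s s', s ⊆ s' → G h s ≤ G h s') :
    S2 c F H (fun ω => G ω.1 {t | ω.2 t = false}) ≤
      S2 c F (H.image ng) (fun ω => G (ng ω.1) {t | ω.2 t = true}) := by
  rw [← S3_fst, ← S3_snd]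
  refine S3_mono hc hc2 fun ω _ h1 _ hw => ?_
  simp only [fst3, snd3, ng_ng]
  refine hG _ _ _ fun t ht => ?_
  simp only [Set.mem_ofPred_eq] at *
  by_cases htF : t ∈ F
  · rcases (wt3_ne hw htF).2.2.2.2 with h | h
    · rw [ht] at h
      exact absurd h (by decide)
    · exact h
  · rw [h1 t htF] at ht
    exact absurd ht (by decide)

/-! ### the F-type laws -/

theorem S2_hts (c : ℝ) (F : Finset P2) (f : Cfg → ℝ) : S2 c F (hts F) f = S c F f := by
  unfold S2 S conf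
  rw [Finset.sum_product]

/-- joint law with F-type boundary condition: `s1 = +` at the non-interior sites -/
def E3 (c : ℝ) (F : Finset P2) (f : C3 → ℝ) : ℝ := S3 c F (hts F) f / Z c F

/-- the colour-exchanged law: `s2 = +` at the non-interior sites -/
def EX (c : ℝ) (F : Finset P2) (f : Cfg → ℝ) : ℝ := E3 c F (fun ω => f (snd3 ω))

theorem E3_fst (c : ℝ) (F : Finset P2) (f : Cfg → ℝ) : E3 c F (fun ω => f (fst3 ω)) = E c F f := by
  unfold E3
  rw [S3_fst, S2_hts, E_eq_S]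

theorem E3_snd (c : ℝ) (F : Finset P2) (f : Cfg → ℝ) : E3 c F (fun ω => f (snd3 ω)) = EX c F f := rfl

/-- support of the joint law -/
structure V3 (c : ℝ) (F : Finset P2) (ω : C3) : Prop where
  ht : HV F ω.1
  z : ∀ t, t ∉ F → ω.2.1 t = true
  y : ∀ t, t ∉ F → ω.2.2 t = true
  ne : wt3 c F ω ≠ 0

theorem V3.c1_z {c : ℝ} {F : Finset P2} {ω : C3} (h : V3 c F ω) {t : P2} (hz : ω.2.1 t = true) :
    C1 ω.1 t := by
  by_cases ht : t ∈ F
  · exact (wt3_ne h.ne ht).1 hz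
  · have key : ∀ k, s1 (ω.1 (cr t k)) = true := fun k =>
      h.ht.s1_bd fun hk => ht ((mem_IV'.1 hk) t (cr_mem_up t k))
    exact ⟨by rw [key, key], by rw [key, key]⟩

theorem V3.c2_z {c : ℝ} {F : Finset P2} {ω : C3} (h : V3 c F ω) {t : P2} (hz : ω.2.1 t = false) :
    C2 ω.1 t := by
  by_cases ht : t ∈ F
  · exact (wt3_ne h.ne ht).2.1 hz
  · rw [h.z t ht] at hz
    exact absurd hz (by decide)

theorem V3.c2_y {c : ℝ} {F : Finset P2} {ω : C3} (h : V3 c F ω) {t : P2} (ht : t ∈ F)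
    (hy : ω.2.2 t = true) : C2 ω.1 t := (wt3_ne h.ne ht).2.2.1 hy

theorem V3.c1_y {c : ℝ} {F : Finset P2} {ω : C3} (h : V3 c F ω) {t : P2} (hy : ω.2.2 t = false) :
    C1 ω.1 t := by
  by_cases ht : t ∈ F
  · exact (wt3_ne h.ne ht).2.2.2.1 hy
  · rw [h.y t ht] at hy
    exact absurd hy (by decide)

/-- **never both open** -/
theorem V3.disj {c : ℝ} {F : Finset P2} {ω : C3} (h : V3 c F ω) (t : P2) :
    ω.2.1 t = true ∨ ω.2.2 t = true := by
  by_cases ht : t ∈ F
  · exact (wt3_ne h.ne ht).2.2.2.2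
  · exact Or.inl (h.z t ht)

theorem E3_mono {c : ℝ} (hc : 1 ≤ c) (hc2 : c ≤ 2) {F : Finset P2} {f g : C3 → ℝ}
    (h : ∀ ω, V3 c F ω → f ω ≤ g ω) : E3 c F f ≤ E3 c F g := by
  unfold E3
  refine div_le_div_of_nonneg_right (S3_mono hc hc2 fun ω h1 h2 h3 h4 => h ω ⟨mem_hts.1 h1, h2, h3, h4⟩)
    (Z_pos hc F).le

theorem E3_congr {c : ℝ} {F : Finset P2} {f g : C3 → ℝ}
    (h : ∀ ω, V3 c F ω → f ω = g ω) : E3 c F f = E3 c F g := by
  unfold E3
  rw [S3_congr fun ω h1 h2 h3 h4 => h ω ⟨mem_hts.1 h1, h2, h3, h4⟩]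

theorem S3_add (c : ℝ) (F : Finset P2) (H : Finset (P2 → ℤ)) (f g : C3 → ℝ) :
    S3 c F H (fun ω => f ω + g ω) = S3 c F H f + S3 c F H g := by
  simp only [S3, mul_add, Finset.sum_add_distrib]

theorem S3_smul (c : ℝ) (F : Finset P2) (H : Finset (P2 → ℤ)) (a : ℝ) (f : C3 → ℝ) :
    S3 c F H (fun ω => a * f ω) = a * S3 c F H f := by
  simp only [S3, Finset.mul_sum]
  exact Finset.sum_congr rfl fun h _ => Finset.sum_congr rfl fun z _ =>
    Finset.sum_congr rfl fun y _ => by ring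

theorem E3_add (c : ℝ) (F : Finset P2) (f g : C3 → ℝ) :
    E3 c F (fun ω => f ω + g ω) = E3 c F f + E3 c F g := by
  unfold E3
  rw [S3_add, add_div]

theorem E3_smul (c : ℝ) (F : Finset P2) (a : ℝ) (f : C3 → ℝ) :
    E3 c F (fun ω => a * f ω) = a * E3 c F f := by
  unfold E3
  rw [S3_smul, mul_div_assoc]

theorem E3_sub (c : ℝ) (F : Finset P2) (f g : C3 → ℝ) :
    E3 c F (fun ω => f ω - g ω) = E3 c F f - E3 c F g := by
  have h := E3_add c F (fun ω => f ω) (fun ω => (-1) * g ω)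
  rw [E3_smul] at h
  have e : (fun ω => f ω - g ω) = fun ω => f ω + (-1) * g ω := by funext ω; ring
  rw [e, h]
  ring

theorem E3_const {c : ℝ} (hc : 1 ≤ c) (F : Finset P2) (a : ℝ) : E3 c F (fun _ => a) = a := by
  have := E3_fst c F fun _ => a
  rw [E_const hc] at this
  exact this

theorem E3_nonneg {c : ℝ} (hc : 1 ≤ c) (hc2 : c ≤ 2) {F : Finset P2} {f : C3 → ℝ}
    (h : ∀ ω, V3 c F ω → 0 ≤ f ω) : 0 ≤ E3 c F f := by
  have h1 := E3_mono hc hc2 (f := fun _ => 0) h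
  rwa [E3_const hc] at h1

/-! ### the exchanged law -/

/-- valid configurations of the exchanged law -/
structure VX (F : Finset P2) (ω : Cfg) : Prop where
  ht : HV F (ng ω.1)
  cl : ∀ t, t ∉ F → ω.2 t = true

open Classical in
/-- the exchanged law as a normalised sum -/
theorem EX_eq (c : ℝ) (F : Finset P2) (f : Cfg → ℝ) :
    EX c F f = S2 c F ((hts F).image ng) f / Z c F := by
  unfold EX E3
  rw [S3_snd]

/-- heights of the exchanged law -/
theorem EX_heights (c : ℝ) (F : Finset P2) (g : (P2 → ℤ) → ℝ) :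
    EX c F (fun ω => g ω.1) = E c F (fun ω => g (ng ω.1)) := by
  rw [← E3_fst, ← E3_snd]
  rfl

theorem EX_heights' (c : ℝ) (F : Finset P2) (g : (P2 → ℤ) → ℝ) :
    EX c F (fun ω => g (ng ω.1)) = E c F (fun ω => g ω.1) := by
  rw [EX_heights c F fun h => g (ng h)]
  simp only [ng_ng]

theorem EX_add (c : ℝ) (F : Finset P2) (f g : Cfg → ℝ) :
    EX c F (fun ω => f ω + g ω) = EX c F f + EX c F g := E3_add _ _ _ _
theorem EX_sub (c : ℝ) (F : Finset P2) (f g : Cfg → ℝ) :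
    EX c F (fun ω => f ω - g ω) = EX c F f - EX c F g := E3_sub _ _ _ _
theorem EX_smul (c : ℝ) (F : Finset P2) (a : ℝ) (f : Cfg → ℝ) :
    EX c F (fun ω => a * f ω) = a * EX c F f := E3_smul _ _ _ _
theorem EX_const {c : ℝ} (hc : 1 ≤ c) (F : Finset P2) (a : ℝ) : EX c F (fun _ => a) = a :=
  E3_const hc F a

open Classical in
/-- monotonicity (any `c ≥ 1`) -/
theorem EX_mono {c : ℝ} (hc : 1 ≤ c) {F : Finset P2} {f g : Cfg → ℝ}
    (h : ∀ ω, VX F ω → wt c F ω ≠ 0 → f ω ≤ g ω) : EX c F f ≤ EX c F g := by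
  rw [EX_eq, EX_eq]
  refine div_le_div_of_nonneg_right ?_ (Z_pos hc F).le
  unfold S2
  refine Finset.sum_le_sum fun a ha => Finset.sum_le_sum fun z hz => ?_
  rw [Finset.mem_image] at ha
  obtain ⟨b, hb, rfl⟩ := ha
  by_cases hw : wt c F (ng b, z) = 0
  · rw [hw, zero_mul, zero_mul]
  · exact mul_le_mul_of_nonneg_left (h _ ⟨by rw [ng_ng]; exact mem_hts.1 hb, mem_zs.1 hz⟩ hw)
      (wt_nonneg hc _ _)

theorem EX_congr {c : ℝ} {F : Finset P2} {f g : Cfg → ℝ}
    (h : ∀ ω, VX F ω → wt c F ω ≠ 0 → f ω = g ω) : EX c F f = EX c F g := by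
  classical
  rw [EX_eq, EX_eq]
  congr 1
  unfold S2
  refine Finset.sum_congr rfl fun a ha => Finset.sum_congr rfl fun z hz => ?_
  rw [Finset.mem_image] at ha
  obtain ⟨b, hb, rfl⟩ := ha
  by_cases hw : wt c F (ng b, z) = 0
  · rw [hw, zero_mul, zero_mul]
  · rw [h _ ⟨by rw [ng_ng]; exact mem_hts.1 hb, mem_zs.1 hz⟩ hw]

theorem EX_nonneg {c : ℝ} (hc : 1 ≤ c) {F : Finset P2} {f : Cfg → ℝ}
    (h : ∀ ω, VX F ω → wt c F ω ≠ 0 → 0 ≤ f ω) : 0 ≤ EX c F f := by
  have h1 := EX_mono hc (f := fun _ => 0) h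
  rwa [EX_const hc] at h1

/-- **F4** : open triangles of the exchanged law are below closed triangles of `E c F`. -/
theorem F4 {c : ℝ} (hc : 1 ≤ c) (hc2 : c ≤ 2) (F : Finset P2)
    {G : (P2 → ℤ) → Set P2 → ℝ} (hG : ∀ h s s', s ⊆ s' → G h s ≤ G h s') :
    EX c F (fun ω => G ω.1 {t | ω.2 t = false}) ≤ E c F (fun ω => G (ng ω.1) {t | ω.2 t = true}) := by
  rw [← E3_fst, ← E3_snd]
  refine E3_mono hc hc2 fun ω hω => ?_
  simp only [fst3, snd3]
  refine hG _ _ _ fun t ht => ?_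
  simp only [Set.mem_ofPred_eq] at *
  rcases hω.disj t with h | h
  · exact h
  · rw [ht] at h
    exact absurd h (by decide)

/-- **F4**, other direction. -/
theorem F4' {c : ℝ} (hc : 1 ≤ c) (hc2 : c ≤ 2) (F : Finset P2)
    {G : (P2 → ℤ) → Set P2 → ℝ} (hG : ∀ h s s', s ⊆ s' → G h s ≤ G h s') :
    E c F (fun ω => G ω.1 {t | ω.2 t = false}) ≤ EX c F (fun ω => G (ng ω.1) {t | ω.2 t = true}) := by
  rw [← E3_fst, ← E3_snd]
  refine E3_mono hc hc2 fun ω hω => ?_
  simp only [fst3, snd3, ng_ng]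
  refine hG _ _ _ fun t ht => ?_
  simp only [Set.mem_ofPred_eq] at *
  rcases hω.disj t with h | h
  · rw [ht] at h
    exact absurd h (by decide)
  · exact h

end Crest.Agent.R144.Xc851
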