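import Crest.Agent.R144.Ht1_948
import Crest.Agent.R144.Xc1_851
import Crest.Agent.R144.Lay7_356
import Crest.Agent.R144.Zs2_349

/-!
# R144, block R2 (THM2), file 0: LITERAL INTERFACES (helper121)

* `pB c F t N` : probability, under the joint law `E3 c F` of helper851, of a layer of triangles closed for the
  second representation in the annulus `A(t, N)`;
* `PW c s K u` : plus-closed layers in `A(u, 2 u)` are near-sure under `E c (hexB (K * u))`;
* the Props `One`, `Flip`, `Lev`, `TV2`, `MixP` consumed by the assembly;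
* elementary facts: events on the support of `E c F`, moving the centre, `nob`.
-/

set_option autoImplicit false
set_option linter.unusedVariables false

noncomputable section

namespace Crest.Agent.R144.Th121

open Finset
open Crest.Agent.R144.It844 (P2 adj_iff adj_symm)
open Crest.Agent.R144.Zg349 Crest.Agent.R144.Zd349 Crest.Agent.R144.Zm349 Crest.Agent.R144.Ze349
open Crest.Agent.R144.Zs349 (closed_c1)
open Crest.Agent.R144.Pst967 (hexB mem_hexB hexB_mono conn_hexB stepIn_symm path_symm)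
open Crest.Agent.R144.Rsw867
open Crest.Agent.R144.Rw146
open Crest.Agent.R144.Xc851 (C3 E3 E3_fst V3 E3_mono fst3)
open Crest.Agent.R144.Ht948 (up1 LocH TVH)
open Crest.Agent.R144.Lay356 (Far)
open Crest.Agent.R144.Qr315 (Law Layer)
open Crest.ProbabilityR.HexHeights (Adj)

/-! ### definitions -/

open Classical in
/-- a layer of triangles closed for the second representation in `A(t, N)` -/
def pB (c : ℝ) (F : Finset P2) (t N : ℕ) : ℝ :=
  E3 c F (fun ω => if Sepr {x | ω.2.2 x = true} 0 t N then 1 else 0)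

/-- plus-closed layers are near-sure at scale `u` -/
def PW (c s : ℝ) (K u : ℕ) : Prop := Pr c (hexB (K * u)) (BlkP 0 u (2 * u))ᶜ ≤ s

/-- connection by `s1 = +` sites from `ball a m` to the outside of `F` -/
def Up (a : P2) (m : ℕ) (F : Finset P2) : Set Cfg :=
  {ω | ∃ u ∈ ball a m, ∃ v, v ∉ IV F ∧ Relation.ReflTransGen (StepIn {x | s1 (ω.1 x) = true}) u v}

/-- ONE (helper696) -/
def One (c : ℝ) : Prop := ∀ (F : Finset P2) (t N u : ℕ), SC F → ball 0 (N + 2) ⊆ F → t ≤ N → 1 ≤ u →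
  2 * u + 8 ≤ t → ∃ D : Finset P2, SC D ∧ ball 0 (t - 1) ⊆ D ∧ D ⊆ F ∧
    pB c F t N * (1 - Pr c D {ω | Sepr {x | ω.2 x = true} 0 u (2 * u)}) ≤
      4 * Pr c F {ω | ¬ Sepr {x | ¬ mC ω x} 0 u (2 * u)}

/-- FLIP (helper851) -/
def Flip (c : ℝ) : Prop := ∀ (F : Finset P2) (t N v : ℕ), SC F → ball 0 (N + 2) ⊆ F → t ≤ N → 1 ≤ v →
  2 * v + 8 ≤ t → pB c F t N ≤ Pr c F (BlkP 0 v (2 * v))ᶜ + Pr c F (Blk 0 v (2 * v))

/-- LEV (helper851) -/
def Lev (c : ℝ) : Prop := ∀ (F : Finset P2) (t N u : ℕ), SC F → ball 0 (N + 2) ⊆ F → t ≤ N → 1 ≤ u →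
  2 * u + 8 ≤ t → Pr c F ({ω | Sepr (up1 ω) 0 t N} ∩ BlkP 0 u (2 * u)) ≤ pB c F u (2 * u)

/-- TV2 (helper643, helper948) -/
def TV2 (c : ℝ) : Prop := ∀ (F1 F2 : Finset P2) (m N : ℕ), SC F1 → SC F2 → F1 ⊆ F2 → ball 0 N ⊆ F1 →
  m + 1 ≤ N → ∀ A : Set Cfg, LocH m A →
    |Pr c F1 A - Pr c F2 A| ≤ Pr c F2 (BlkP 0 (m + 1) N ∩ Up 0 m F2)ᶜ

/-- MIX (helper756) -/
def MixP (c : ℝ) (col : Cfg → Set P2) : Prop := ∀ (C : ℕ) (ρ : ℝ), 0 < ρ → ∃ M : ℕ, ∀ n Ka : ℕ, 1 ≤ n →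
  ∃ L : Law, L.Inv (C * n) ρ ∧ ∀ A : Set (Set P2), IsUpperSet A →
    Pr c (hexB ((Ka + M) * n)) {ω | col ω ∈ A} ≤ L.P A ∧ L.P A ≤ Pr c (hexB (Ka * n)) {ω | col ω ∈ A}

/-! ### events on the support -/

theorem Pr_le_supp {c : ℝ} (hc : 1 ≤ c) {F : Finset P2} {A B : Set Cfg}
    (h : ∀ ω, Valid F ω → wt c F ω ≠ 0 → ω ∈ A → ω ∈ B) : Pr c F A ≤ Pr c F B := by
  rw [Pr_eq, Pr_eq, E_eq_S, E_eq_S]
  refine div_le_div_of_nonneg_right ?_ (Z_pos hc F).le
  unfold S
  refine Finset.sum_le_sum fun ω hω => ?_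
  by_cases hw : wt c F ω = 0
  · rw [hw, zero_mul, zero_mul]
  · exact mul_le_mul_of_nonneg_left (ind_le_ind fun hA => h ω (mem_conf.1 hω) hw hA)
      (wt_nonneg hc F ω)

theorem Pr_union_le {c : ℝ} (hc : 1 ≤ c) (F : Finset P2) (A B : Set Cfg) :
    Pr c F (A ∪ B) ≤ Pr c F A + Pr c F B := by
  rw [Pr_eq, Pr_eq, Pr_eq, ← E_add]
  refine E_mono hc fun ω _ => ?_
  by_cases hA : ω ∈ A
  · rw [ind_of_mem hA, ind_of_mem (Or.inl hA)]
    linarith [ind_nonneg B ω]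
  · by_cases hB : ω ∈ B
    · rw [ind_of_mem hB, ind_of_mem (Or.inr hB)]
      linarith [ind_nonneg A ω]
    · rw [ind_of_not_mem (fun h : ω ∈ A ∪ B => h.elim hA hB)]
      linarith [ind_nonneg A ω, ind_nonneg B ω]

theorem Pr_le_one {c : ℝ} (hc : 1 ≤ c) (F : Finset P2) (A : Set Cfg) : Pr c F A ≤ 1 := by
  have h := Pr_mono hc (F := F) (Set.subset_univ A)
  rwa [Pr_univ hc] at h

theorem Pr_biUnion_le {c : ℝ} (hc : 1 ≤ c) (F : Finset P2) {ι : Type*} (s : Finset ι) (A : ι → Set Cfg) :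
    Pr c F (⋃ i ∈ s, A i) ≤ ∑ i ∈ s, Pr c F (A i) := by
  classical
  induction s using Finset.induction_on with
  | empty =>
    have e : (⋃ i ∈ (∅ : Finset ι), A i) = (Set.univ : Set Cfg)ᶜ := by simp
    rw [e, Pr_compl hc, Pr_univ hc]
    simp
  | insert a s ha ih =>
    rw [Finset.sum_insert ha, Finset.set_biUnion_insert]
    exact (Pr_union_le hc F _ _).trans (by linarith)

/-- increasing events -/
def IncS (A : Set Cfg) : Prop := ∀ ω ω', LeP ω ω' → ω ∈ A → ω' ∈ A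

theorem IncS.compl {A : Set Cfg} (h : IncS A) : DecS Aᶜ := fun ω ω' hl h1 h2 => h1 (h ω ω' hl h2)
theorem DecS.compl {A : Set Cfg} (h : DecS A) : IncS Aᶜ := fun ω ω' hl h1 h2 => h1 (h ω ω' hl h2)

theorem IncS.mono_dom {c : ℝ} (hc : 1 ≤ c) {F F' : Finset P2} (hF : SC F) (hF' : SC F') (h : F ⊆ F')
    {A : Set Cfg} (hA : IncS A) : Pr c F' A ≤ Pr c F A := by
  have h1 := Pr_mono_dom hc hF hF' h hA.compl
  rw [Pr_compl hc, Pr_compl hc] at h1
  linarith

theorem incS_blkP (a : P2) (m N : ℕ) : IncS (BlkP a m N) := fun _ _ h hω =>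
  Sepr.mono (fun t ht => h.p t ht) hω

/-- no minus-closed path crosses -/
theorem incS_noM (a : P2) (m N : ℕ) : IncS {ω | Sepr {x | ¬ mC ω x} a m N} := by
  intro ω ω' h hω
  have h0 : Sepr {x | ¬ mC ω x} a m N := hω
  exact Sepr.mono (fun t (ht : ¬ mC ω t) (h' : mC ω' t) => ht (h.m t h')) h0

theorem sc_hexB (n : ℕ) : SC (hexB n) := conn_hexB n

theorem hexB_sub {m n : ℕ} (h : m ≤ n) : hexB m ⊆ hexB n := hexB_mono h

/-- transport of layers by a translation -/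
theorem BlkP_ball (c : ℝ) (a : P2) (N m M : ℕ) : Pr c (ball a N) (BlkP a m M) = Pr c (hexB N) (BlkP 0 m M) :=
  Pr_blkP_ball c a N m M

/-- plus-closed layers: any centre, any smaller domain -/
theorem PW.dom {c s : ℝ} (hc : 1 ≤ c) {K u : ℕ} (h : PW c s K u) {a : P2} {F : Finset P2} (hF : SC F)
    (hFB : F ⊆ ball a (K * u)) : Pr c F (BlkP a u (2 * u))ᶜ ≤ s := by
  have h1 := Pr_mono_dom hc hF (sc_ball a (K * u)) hFB (incS_blkP a u (2 * u)).compl
  rw [Pr_compl hc (ball a (K * u)), BlkP_ball, ← Pr_compl hc] at h1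
  exact h1.trans h

theorem PW.mono {c s s' : ℝ} (hc : 1 ≤ c) {K K' u : ℕ} (h : PW c s K u) (hs : s ≤ s') (hK : K' ≤ K) :
    PW c s' K' u := by
  have h1 : hexB (K' * u) ⊆ ball 0 (K * u) := by
    rw [Rsw867.ball_zero_eq]
    exact hexB_mono (Nat.mul_le_mul_right _ hK)
  exact (h.dom hc (sc_hexB _) h1).trans hs

/-- minus-closed layers are rare in every smaller domain -/
theorem blk_le {c p : ℝ} (hc : 1 ≤ c) {K u M : ℕ} (h : Pr c (hexB (K * u)) (Blk 0 u M) ≤ p) {a : P2}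
    {F : Finset P2} (hF : SC F) (hFB : F ⊆ ball a (K * u)) : Pr c F (Blk a u M) ≤ p := by
  refine (Pr_mono_dom hc hF (sc_ball a (K * u)) hFB (decS_blk a u M)).trans ?_
  rw [Pr_blk_ball]
  exact h

/-! ### closed triangles of different signs are not adjacent -/

theorem far_pm {c : ℝ} {F : Finset P2} {ω : Cfg} (hω : Valid F ω) (hw : wt c F ω ≠ 0) :
    Far {x | pC ω x} {x | mC ω x} := by
  intro u hu v hv
  have hu' : pC ω u := hu
  have hv' : mC ω v := hv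
  refine ⟨fun e => ?_, fun hadj => ?_⟩
  · subst e
    have := hu'.2.symm.trans hv'.2
    exact absurd this (by decide)
  · obtain ⟨x, hx1, hx2⟩ := adj_site hadj
    have h1 := closed_c1 hω hw hu'.1 hx1
    have h2 := closed_c1 hω hw hv'.1 hx2
    rw [hu'.2] at h1
    rw [hv'.2, h1] at h2
    exact absurd h2 (by decide)

theorem closed_eq (ω : Cfg) : {x | ω.2 x = true} = {x | pC ω x} ∪ {x | mC ω x} := by
  ext x
  show ω.2 x = true ↔ pC ω x ∨ mC ω x
  unfold pC mC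
  rcases h : s1 (ω.1 x) with _ | _ <;> simp

/-- a closed layer is a plus-closed layer or a minus-closed layer -/
theorem closed_split {c : ℝ} (hc : 1 ≤ c) (F : Finset P2) {m N : ℕ} (hmN : m ≤ N) :
    Pr c F {ω | Sepr {x | ω.2 x = true} 0 m N} ≤ Pr c F (BlkP 0 m N) + Pr c F (Blk 0 m N) := by
  refine le_trans ?_ (Pr_union_le hc F _ _)
  refine Pr_le_supp hc fun ω hω hw h => ?_
  have h' : Sepr {x | ω.2 x = true} 0 m N := h
  rw [closed_eq] at h'
  rcases Lay356.Sepr.split (far_pm hω hw) hmN h' with h1 | h1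
  · exact Or.inl h1
  · exact Or.inr h1

/-- no plus-closed radial path and no minus-closed radial path imply no closed radial path -/
theorem closed_radial {c : ℝ} (hc : 1 ≤ c) (F : Finset P2) {m N : ℕ} (hmN : m ≤ N) :
    Pr c F {ω | ¬ Sepr {x | ω.2 x = false} 0 m N} ≤
      Pr c F {ω | ¬ Sepr {x | ¬ pC ω x} 0 m N} + Pr c F {ω | ¬ Sepr {x | ¬ mC ω x} 0 m N} := by
  refine le_trans ?_ (Pr_union_le hc F _ _)
  refine Pr_le_supp hc fun ω hω hw h => ?_
  by_contra hcon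
  have h1 : Sepr {x | pC ω x}ᶜ 0 m N := not_not.1 fun h' => hcon (Or.inl h')
  have h2 : Sepr {x | mC ω x}ᶜ 0 m N := not_not.1 fun h' => hcon (Or.inr h')
  have h3 := Lay356.Sepr.compl_union (far_pm hω hw) h1 h2
  rw [← closed_eq] at h3
  refine h (Sepr.mono (fun x hx => ?_) h3)
  show ω.2 x = false
  exact Bool.eq_false_iff.2 hx

end Crest.Agent.R144.Th121
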