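import Crest.Agent.R144.Th0_121

/-!
# R144, block R2 (THM2), file 1 (helper121)

* `nob` : no layer closed for the second representation implies a closed radial path;
* `tube` : layers around the points of a ray force a radial path;
* `plus_heights` : near-sure plus-closed layers + `QRSW` give `{h ≥ 1}`-layers with probability at least `c1`.
-/

set_option autoImplicit false
set_option linter.unusedVariables false

noncomputable section

namespace Crest.Agent.R144.Th121

open Finset
open Crest.Agent.R144.It844 (P2 adj_iff adj_symm)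
open Crest.Agent.R144.Zg349 Crest.Agent.R144.Zd349 Crest.Agent.R144.Zm349 Crest.Agent.R144.Ze349
open Crest.Agent.R144.Pst967 (hexB mem_hexB hexB_mono conn_hexB stepIn_symm path_symm)
open Crest.Agent.R144.Rsw867
open Crest.Agent.R144.Rw146
open Crest.Agent.R144.Xc851 (C3 E3 E3_fst V3 E3_mono E3_add E3_sub fst3)
open Crest.Agent.R144.Ht948 (up1 LocH TVH heights)
open Crest.Agent.R144.Lay356 (Far)
open Crest.Agent.R144.Qr315 (Law Layer QRSW)
open Crest.ProbabilityR.HexHeights (Adj)

/-- no `y`-closed layer ⟹ a `z`-closed radial path -/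
theorem nob {c : ℝ} (hc : 1 ≤ c) (hc2 : c ≤ 2) (F : Finset P2) (t N : ℕ) :
    1 - pB c F t N ≤ Pr c F {ω | ¬ Sepr {x | ω.2 x = false} 0 t N} := by
  classical
  have e1 : E3 c F (fun _ => 1) = 1 := by
    have := E3_fst c F (fun _ => (1 : ℝ))
    rwa [E_const hc] at this
  have e2 : 1 - pB c F t N =
      E3 c F (fun ω => 1 - (if Sepr {x | ω.2.2 x = true} 0 t N then 1 else 0)) := by
    rw [E3_sub, e1]
    rfl
  rw [Pr_eq, ← E3_fst, e2]
  refine E3_mono hc hc2 fun ω hω => ?_
  by_cases h : Sepr {x | ω.2.2 x = true} 0 t N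
  · rw [if_pos h, sub_self]
    exact ind_nonneg _ _
  · rw [if_neg h, sub_zero]
    have : fst3 ω ∈ {ω : Cfg | ¬ Sepr {x | ω.2 x = false} 0 t N} := by
      intro h'
      apply h
      have h'' : Sepr {x | ω.2.1 x = false} 0 t N := h'
      refine Sepr.mono (fun x hx => ?_) h''
      rcases hω.disj x with h1 | h1
      · have hx' : ω.2.1 x = false := hx
        rw [h1] at hx'
        exact absurd hx' (by decide)
      · exact h1
    rw [ind_of_mem this]

/-! ### the tube lemma -/

theorem row_path {S : Set P2} (a b : ℤ) (k : ℕ) (h : ∀ j : ℕ, j ≤ k → ((a + j, b) : P2) ∈ S) :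
    Relation.ReflTransGen (StepIn S) ((a + k, b) : P2) (a, b) := by
  induction k with
  | zero => simpa using Relation.ReflTransGen.refl
  | succ k ih =>
    refine Relation.ReflTransGen.head ?_ (ih fun j hj => h j (by omega))
    refine ⟨h (k + 1) le_rfl, h k (by omega), ?_⟩
    rw [adj_iff]
    right; left
    push_cast
    ext <;> simp <;> ring

theorem tube {S : Set P2} {v m l M : ℕ} (hv : 1 ≤ v) (hm : 2 * v + 1 ≤ m) (hml : m ≤ l) (hM : l < M * v)
    (h : ∀ i : ℕ, i ≤ M → Sepr S (((i * v : ℕ) : ℤ), 0) v (2 * v)) : ¬ Sepr Sᶜ 0 m l := by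
  classical
  intro h0
  set T : Set P2 := Sᶜ with hT
  set T1 : Set P2 := {t | t ∈ T ∧ ∃ i : ℕ, i ≤ M ∧ ∃ x ∈ ball (((i * v : ℕ) : ℤ), 0) v,
    Relation.ReflTransGen (StepIn T) t x} with hT1
  set T2 : Set P2 := {t | t ∈ T ∧ t ∉ T1} with hT2
  have hU : T1 ∪ T2 = T := by
    ext t
    constructor
    · rintro (h | h)
      · exact h.1
      · exact h.1
    · intro ht
      by_cases h1 : t ∈ T1
      · exact Or.inl h1
      · exact Or.inr ⟨ht, h1⟩
  have hF : Far T1 T2 := by
    intro u hu w hw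
    refine ⟨fun e => hw.2 (e ▸ hu), fun hadj => hw.2 ⟨hw.1, ?_⟩⟩
    obtain ⟨hu1, i, hi, x, hx, hp⟩ := hu
    exact ⟨i, hi, x, hx, Relation.ReflTransGen.head ⟨hw.1, hu1, adj_symm hadj⟩ hp⟩
  rw [← hU] at h0
  rcases Lay356.Sepr.split hF hml h0 with h1 | h1
  · -- `T1` lies in the fat tube
    have hb : ∀ t ∈ T1, -(2 * v : ℤ) ≤ t.1 := by
      rintro t ⟨_, i, hi, x, hx, hp⟩
      by_contra hcon
      have ht : t ∉ ball (((i * v : ℕ) : ℤ), 0) (2 * v) := by
        intro hmem
        rw [mem_ball] at hmem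
        have h2 := (abs_le.1 hmem.1).1
        have h3 : (0 : ℤ) ≤ ((i * v : ℕ) : ℤ) := by positivity
        simp only at h2
        push_cast at h2 h3
        apply hcon
        linarith
      exact h i hi t x ht hx hp
    have key := row_path (S := T1ᶜ) (-(l + 1 : ℤ)) 0 (l - 2 * v) (by
      intro j hj hmem
      have := hb _ hmem
      simp only at this
      omega)
    have e1 : (-(l + 1 : ℤ) + ((l - 2 * v : ℕ) : ℤ)) = -(2 * v + 1 : ℤ) := by
      have : 2 * v ≤ l := by omega
      push_cast [Nat.cast_sub this]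
      ring
    rw [e1] at key
    refine h1 (-(l + 1 : ℤ), 0) (-(2 * v + 1 : ℤ), 0) ?_ ?_ (path_symm key)
    · intro hmem
      rw [mem_ball] at hmem
      have := (abs_le.1 hmem.1).1
      simp only [Prod.fst_zero] at this
      omega
    · rw [mem_ball]
      simp only [Prod.fst_zero, Prod.snd_zero, sub_zero, add_zero, abs_le]
      refine ⟨⟨by omega, by omega⟩, ⟨by omega, by omega⟩, by omega, by omega⟩
  · -- the ray avoids `T2`
    have key := row_path (S := T2ᶜ) 0 0 (M * v) (by
      intro j hj hmem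
      apply hmem.2
      refine ⟨hmem.1, j / v, Nat.div_le_of_le_mul (by rw [mul_comm]; exact hj), _, ?_,
        Relation.ReflTransGen.refl⟩
      rw [mem_ball]
      have h2 : v * (j / v) ≤ j := Nat.mul_div_le j v
      have h3 : j < v * (j / v) + v := by
        have := Nat.lt_mul_div_succ j (show 0 < v by omega)
        rw [Nat.mul_succ] at this
        exact this
      have h4 : j / v * v = v * (j / v) := mul_comm _ _
      rw [h4]
      generalize v * (j / v) = q at *
      simp only [sub_zero, abs_le, zero_add]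
      refine ⟨⟨by omega, by omega⟩, ⟨by omega, by omega⟩, by omega, by omega⟩)
    refine h1 (0 + ((M * v : ℕ) : ℤ), 0) (0, 0) ?_ ?_ key
    · intro hmem
      rw [mem_ball] at hmem
      have := (abs_le.1 hmem.1).2
      simp only [Prod.fst_zero, sub_zero, zero_add] at this
      omega
    · rw [mem_ball]
      simp

/-- plus-closed layers along a ray join `ball 0 m` to the outside by plus sites -/
theorem up_of_layers {ω : Cfg} {F : Finset P2} {v m l M : ℕ} (hv : 1 ≤ v) (hm : 2 * v + 1 ≤ m)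
    (hml : m ≤ l) (hM : l < M * v) (hF : F ⊆ ball 0 l)
    (h : ∀ i : ℕ, i ≤ M → ω ∈ BlkP (((i * v : ℕ) : ℤ), 0) v (2 * v)) : ω ∈ Up 0 m F := by
  have key := tube hv hm hml hM h
  unfold Sepr at key
  push Not at key
  obtain ⟨u, w, hu, hw, hp⟩ := key
  rw [compl_compl] at hp
  refine ⟨w, hw, u, fun h' => hu (hF (IV_sub F h')), path_symm (path_mono ?_ hp)⟩
  intro x hx
  exact hx.2

/-! ### heights -/

theorem locH_mono {m m' : ℕ} (h : m ≤ m') {A : Set Cfg} (hA : LocH m A) : LocH m' A := fun ω ω' h1 =>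
  hA ω ω' fun v hv => h1 v (ball_mono 0 h hv)

theorem TVH.mono {c : ℝ} {m m' N : ℕ} {G : Finset P2} {δ : ℝ} (h : m ≤ m') (hT : TVH c m' N G δ) :
    TVH c m N G δ := fun F h1 h2 h3 A hA => hT F h1 h2 h3 A (locH_mono h hA)

theorem plus_heights (hQ : QRSW) : ∃ (c1 s : ℝ) (K k l n0 : ℕ), 0 < c1 ∧ 0 < s ∧ 1 ≤ k ∧ 4 ≤ l ∧ l ≤ K ∧
    ∀ c : ℝ, 1 ≤ c → TV2 c → ∀ n : ℕ, n0 ≤ n → (∀ u, n ≤ u → u ≤ k * n → PW c s K u) →
      c1 ≤ Pr c (hexB (l * n)) {ω | Sepr (up1 ω) 0 n (2 * n)} := by
  obtain ⟨c1, C, n0, hc1, hC, H⟩ := heights hQ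
  refine ⟨c1, c1 / (5 * C + 13), 10 * C + 21, C + 4, 4 * C + 10, n0 + 1, hc1, by positivity, by omega,
    by omega, by omega, fun c hc hTV n hn hPW => ?_⟩
  have hn1 : 1 ≤ n := by omega
  set s : ℝ := c1 / (5 * C + 13) with hs
  set M : ℕ := 5 * C + 11 with hM
  set m : ℕ := (C + 3) * n with hm
  have e1 : m = C * n + 3 * n := by rw [hm]; ring
  have hCn : n ≤ C * n := Nat.le_mul_of_pos_left n (by omega)
  have eG : (4 * C + 10) * n + C * n = (5 * C + 10) * n := by ring
  have e2 : (4 * C + 10) * n = 4 * (C * n) + 10 * n := by ring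
  have e3 : (5 * C + 10) * n = 5 * (C * n) + 10 * n := by ring
  have e4 : M * n = 5 * (C * n) + 11 * n := by rw [hM]; ring
  refine H c hc n (2 * (m + 1)) ((4 * C + 10) * n) (by omega) ?_ ?_
  · rw [e1, e2]; omega
  · refine TVH.mono (m' := m) (by rw [e1]; omega) ?_
    intro F hF hFG hball A hA
    rw [eG] at *
    have hG : SC (hexB ((5 * C + 10) * n)) := sc_hexB _
    refine (hTV F _ m (2 * (m + 1)) hF hG hFG hball (by omega) A hA).trans ?_
    -- the bad event
    have hsub : (BlkP 0 (m + 1) (2 * (m + 1)) ∩ Up 0 m (hexB ((5 * C + 10) * n)))ᶜ ⊆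
        (BlkP 0 (m + 1) (2 * (m + 1)))ᶜ ∪
          ⋃ i ∈ Finset.range (M + 1), (BlkP (((i * n : ℕ) : ℤ), 0) n (2 * n))ᶜ := by
      intro ω hω
      by_contra hcon
      rw [Set.mem_union, not_or, Set.mem_compl_iff, not_not] at hcon
      refine hω ⟨hcon.1, ?_⟩
      refine up_of_layers (l := (5 * C + 10) * n) (M := M) hn1 ?_ ?_ ?_ ?_ fun i hi => ?_
      · rw [e1]; omega
      · rw [e1, e3]; omega
      · rw [e3, e4]; omega
      · rw [Rsw867.ball_zero_eq]
      · by_contra h'
        exact hcon.2 (Set.mem_biUnion (Finset.mem_coe.2 (Finset.mem_range.2 (by omega))) h')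
    refine (Pr_mono hc hsub).trans ((Pr_union_le hc _ _ _).trans ?_)
    have h1 : Pr c (hexB ((5 * C + 10) * n)) (BlkP 0 (m + 1) (2 * (m + 1)))ᶜ ≤ s := by
      refine (hPW (m + 1) ?_ ?_).dom hc hG ?_
      · rw [e1]; omega
      · rw [e1]
        have : (C + 4) * n = C * n + 4 * n := by ring
        rw [this]; omega
      · rw [Rsw867.ball_zero_eq]
        refine hexB_mono ?_
        have : (10 * C + 21) * (m + 1) = 10 * (C * m) + 21 * m + (10 * C + 21) := by ring
        rw [this, e3]
        have h5 : m ≤ C * m := Nat.le_mul_of_pos_left m (by omega)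
        omega
    have h2 : ∀ i ∈ Finset.range (M + 1),
        Pr c (hexB ((5 * C + 10) * n)) (BlkP (((i * n : ℕ) : ℤ), 0) n (2 * n))ᶜ ≤ s := by
      intro i hi
      rw [Finset.mem_range] at hi
      refine (hPW n le_rfl ?_).dom hc hG ?_
      · have : (C + 4) * n = C * n + 4 * n := by ring
        rw [this]; omega
      · rw [← Rsw867.ball_zero_eq]
        have hin : i * n ≤ M * n := Nat.mul_le_mul_right n (by omega)
        have : (10 * C + 21) * n = 10 * (C * n) + 21 * n := by ring
        intro x hx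
        rw [mem_ball] at hx ⊢
        simp only [Prod.fst_zero, Prod.snd_zero, sub_zero, abs_le] at hx ⊢
        obtain ⟨⟨a1, a2⟩, ⟨a3, a4⟩, a5, a6⟩ := hx
        rw [e3] at a1 a2 a3 a4 a5 a6
        rw [this]
        rw [e4] at hin
        have hin' : ((i * n : ℕ) : ℤ) ≤ ((5 * (C * n) + 11 * n : ℕ) : ℤ) := by exact_mod_cast hin
        have h0 : (0 : ℤ) ≤ ((i * n : ℕ) : ℤ) := Int.natCast_nonneg _
        generalize ((i * n : ℕ) : ℤ) = z at *
        push_cast at *
        generalize (C : ℤ) * n = q at *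
        refine ⟨⟨by omega, by omega⟩, ⟨by omega, by omega⟩, by omega, by omega⟩
    have h3 : Pr c (hexB ((5 * C + 10) * n))
        (⋃ i ∈ Finset.range (M + 1), (BlkP (((i * n : ℕ) : ℤ), 0) n (2 * n))ᶜ) ≤ (M + 1) * s := by
      refine (Pr_biUnion_le hc _ _ _).trans ((Finset.sum_le_sum h2).trans ?_)
      rw [Finset.sum_const, Finset.card_range, nsmul_eq_mul]
      push_cast
      exact le_rfl
    have h4 : s + (M + 1) * s = c1 := by
      have h5 : (5 * (C : ℝ) + 13) ≠ 0 := by positivity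
      rw [hs, hM]
      push_cast
      field_simp
      ring
    linarith

end Crest.Agent.R144.Th121
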