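import Crest.Agent.R144.Th1_121

/-!
# R144, block R2 (THM2), file 2 (helper121)

* `qstep` : single-scale RSW for the maximal laws, with a change of domain;
* `window` : if minus-closed layers are rare on a long window of scales then plus-closed layers are near-sure on
  a long window of scales.
-/

set_option autoImplicit false
set_option linter.unusedVariables false

noncomputable section

namespace Crest.Agent.R144.Th121

open Finset
open Crest.Agent.R144.It844 (P2 adj_iff adj_symm)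
open Crest.Agent.R144.Zg349 Crest.Agent.R144.Zd349 Crest.Agent.R144.Zm349 Crest.Agent.R144.Ze349
open Crest.Agent.R144.Pst967 (hexB mem_hexB hexB_mono conn_hexB stepIn_symm path_symm)
open Crest.Agent.R144.Rsw867
open Crest.Agent.R144.Rw146
open Crest.Agent.R144.Ht948 (up1 LocH TVH heights layer_iff)
open Crest.Agent.R144.Qr315 (Law Layer QRSW)

theorem upper_blue (m N : ℕ) : IsUpperSet {S : Set P2 | Sepr S 0 m N} := fun _ _ h hS => Sepr.mono h hS

theorem upper_nored (m N : ℕ) : IsUpperSet {S : Set P2 | ¬ Sepr Sᶜ 0 m N} := fun _ _ h hS h' =>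
  hS (Sepr.mono (Set.compl_subset_compl.2 h) h')

/-- single-scale RSW with a change of domain -/
theorem qstep (hQ : QRSW) {c : ℝ} (hc : 1 ≤ c) {col : Cfg → Set P2} (hM : MixP c col) {c0 : ℝ}
    (h0 : 0 < c0) : ∃ (η : ℝ) (M n0 : ℕ), 0 < η ∧ ∀ n : ℕ, n0 ≤ n → ∀ Ka : ℕ,
      Pr c (hexB ((Ka + M) * n)) {ω | Sepr (col ω)ᶜ 0 n (2 * n)} ≤ η →
      1 - c0 ≤ Pr c (hexB (Ka * n)) {ω | Sepr (col ω) 0 n (2 * n)} := by
  obtain ⟨η, C, n0, hη, H⟩ := hQ c0 h0
  obtain ⟨M, HM⟩ := hM C η hη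
  refine ⟨η, M, n0 + 1, hη, fun n hn Ka hP => ?_⟩
  obtain ⟨L, hinv, hL⟩ := HM n Ka (by omega)
  have e1 : {S : Set P2 | ¬ Layer Sᶜ 0 (n : ℤ) (2 * (n : ℤ))} = {S : Set P2 | ¬ Sepr Sᶜ 0 n (2 * n)} := by
    ext S
    have := layer_iff (S := Sᶜ) (a := 0) (m := n) (N := 2 * n)
    push_cast at this
    show ¬ _ ↔ ¬ _
    rw [this]
  have e2 : {S : Set P2 | Layer S 0 (n : ℤ) (2 * (n : ℤ))} = {S : Set P2 | Sepr S 0 n (2 * n)} := by
    ext S
    have := layer_iff (S := S) (a := 0) (m := n) (N := 2 * n)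
    push_cast at this
    exact this
  have h1 := (hL _ (upper_nored n (2 * n))).1
  have h2 := (hL _ (upper_blue n (2 * n))).2
  have h3 : {ω : Cfg | col ω ∈ {S : Set P2 | ¬ Sepr Sᶜ 0 n (2 * n)}} =
      {ω : Cfg | Sepr (col ω)ᶜ 0 n (2 * n)}ᶜ := rfl
  rw [h3, Pr_compl hc] at h1
  refine le_trans ?_ h2
  rw [← e2]
  refine H n (by omega) L hinv ?_
  rw [e1]
  linarith

/-- no minus-closed radial path, at scale `u`, from rare minus-closed layers -/
theorem window (hQ : QRSW) {c : ℝ} (hc : 1 ≤ c) (hc2 : c ≤ 2) (hOne : One c)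
    (hMm : MixP c (fun ω => {x | ¬ mC ω x})) (hMp : MixP c (fun ω => {x | pC ω x})) {s : ℝ} (hs : 0 < s)
    {K' Lw : ℕ} (hK' : 4 ≤ K') (hLw : 1 ≤ Lw) : ∃ (K L n0 : ℕ) (p : ℝ), 0 < p ∧ ∀ n : ℕ, n0 ≤ n →
      (∀ n' : ℕ, n ≤ n' → n' ≤ L * n → Pr c (hexB (K * n')) (Blk 0 n' (2 * n')) < p) →
      ∃ v : ℕ, n ≤ v ∧ Lw * v ≤ L * n ∧ ∀ w : ℕ, v ≤ w → w ≤ Lw * v → PW c s K' w := by
  obtain ⟨η2, M2, n2, hη2, H2⟩ := qstep hQ hc hMp hs
  set ε : ℝ := min (η2 / 2) (s * η2 / 16) with hε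
  have hε0 : 0 < ε := lt_min (by positivity) (by positivity)
  obtain ⟨η1, M1, n1, hη1, H1⟩ := qstep hQ hc hMm hε0
  set K2 : ℕ := max (K' + 1) 10 with hK2
  have hK2' : K' + 1 ≤ K2 := le_max_left _ _
  have hK210 : 10 ≤ K2 := le_max_right _ _
  set Ka : ℕ := (K' + M2) * (Lw * (K2 * Lw)) with hKa
  refine ⟨Ka + M1, Lw * (K2 * Lw), n1 + n2 + 1, min η1 (s / 2), lt_min hη1 (by positivity),
    fun n hn hblk => ?_⟩
  have hn1 : 1 ≤ n := by omega
  set v2 : ℕ := K2 * Lw * n with hv2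
  have hnLw : n ≤ Lw * n := Nat.le_mul_of_pos_left n hLw
  have hLwv2 : Lw * n ≤ v2 := by
    rw [hv2, mul_assoc]
    exact Nat.le_mul_of_pos_left _ (by omega)
  have hv2L : Lw * v2 = Lw * (K2 * Lw) * n := by rw [hv2]; ring
  have hLwL : Lw * n ≤ Lw * (K2 * Lw) * n := by
    rw [← hv2L]
    exact hLwv2.trans (Nat.le_mul_of_pos_left _ hLw)
  have hKaM : K' + M2 ≤ Ka := by
    rw [hKa]
    exact Nat.le_mul_of_pos_right _ (by positivity)
  -- no minus-closed radial paths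
  have hA : ∀ u : ℕ, n ≤ u → u ≤ Lw * (K2 * Lw) * n → ∀ F : Finset P2, SC F → F ⊆ hexB (Ka * u) →
      Pr c F {ω | ¬ Sepr {x | ¬ mC ω x} 0 u (2 * u)} ≤ ε := by
    intro u hu1 hu2 F hF hFu
    have h1 := H1 u (by omega) Ka (by
      have h2 : ∀ ω : Cfg, ({x | ¬ mC ω x} : Set P2)ᶜ = {x | mC ω x} := by
        intro ω; ext x; show ¬ ¬ mC ω x ↔ _; rw [not_not]; rfl
      simp only [h2]
      exact ((hblk u hu1 hu2).le.trans (min_le_left _ _)))
    have h3 := IncS.mono_dom hc hF (sc_hexB _) hFu (incS_noM 0 u (2 * u))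
    have h4 : {ω : Cfg | ¬ Sepr {x | ¬ mC ω x} 0 u (2 * u)} =
        {ω : Cfg | Sepr {x | ¬ mC ω x} 0 u (2 * u)}ᶜ := rfl
    rw [h4, Pr_compl hc]
    linarith
  by_cases hW2 : ∀ T : ℕ, v2 ≤ T → T ≤ Lw * v2 → PW c s K' T
  · exact ⟨v2, hnLw.trans hLwv2, hv2L.le, hW2⟩
  push Not at hW2
  obtain ⟨T, hT1, hT2, hT⟩ := hW2
  have hTL : T ≤ Lw * (K2 * Lw) * n := by rw [← hv2L]; exact hT2
  have hnT : n ≤ T := (hnLw.trans hLwv2).trans hT1
  refine ⟨n, le_rfl, hLwL, fun w hw1 hw2 => ?_⟩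
  -- the domain
  set F : Finset P2 := hexB ((K' + M2) * T) with hF
  have hFsc : SC F := sc_hexB _
  have hTn : (K' + M2) * T ≤ Ka * n := by
    calc (K' + M2) * T ≤ (K' + M2) * (Lw * (K2 * Lw) * n) := Nat.mul_le_mul_left _ hTL
      _ = Ka * n := by rw [hKa]; ring
  have hFw : F ⊆ hexB (Ka * w) := hexB_mono (hTn.trans (Nat.mul_le_mul_left _ hw1))
  have hFT : F ⊆ hexB (Ka * T) := hexB_mono (Nat.mul_le_mul_right _ hKaM)
  have hbad : η2 < Pr c F {ω | Sepr {x | pC ω x}ᶜ 0 T (2 * T)} := by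
    by_contra hcon
    have h1 := H2 T (by omega) K' (not_lt.1 hcon)
    apply hT
    unfold PW
    rw [Pr_compl hc]
    have h2 : Pr c (hexB (K' * T)) (BlkP 0 T (2 * T)) =
      Pr c (hexB (K' * T)) {ω | Sepr {x | pC ω x} 0 T (2 * T)} := rfl
    rw [h2]
    linarith
  have hpB : η2 - ε ≤ pB c F T (2 * T) := by
    have h1 := nob hc hc2 F T (2 * T)
    have h2 := closed_radial hc F (show T ≤ 2 * T by omega)
    have h3 := hA T hnT hTL F hFsc hFT
    have h4 : Pr c F {ω | ¬ Sepr {x | ¬ pC ω x} 0 T (2 * T)} =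
        1 - Pr c F {ω | Sepr {x | pC ω x}ᶜ 0 T (2 * T)} := by
      rw [← Pr_compl hc]; rfl
    rw [h4] at h2
    linarith
  have h10 : 10 * w ≤ T := by
    calc 10 * w ≤ K2 * (Lw * n) := Nat.mul_le_mul hK210 hw2
      _ = v2 := by rw [hv2]; ring
      _ ≤ T := hT1
  have hKw : K' * w ≤ T - 1 := by
    have : (K' + 1) * w ≤ T := by
      calc (K' + 1) * w ≤ K2 * (Lw * n) := Nat.mul_le_mul hK2' hw2
        _ = v2 := by rw [hv2]; ring
        _ ≤ T := hT1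
    rw [Nat.add_mul] at this
    omega
  obtain ⟨D, hDsc, hTD, hDF, hD⟩ := hOne F T (2 * T) w hFsc (by
      rw [Rsw867.ball_zero_eq]
      refine hexB_mono ?_
      have : 4 * T ≤ (K' + M2) * T := Nat.mul_le_mul_right _ (by omega)
      omega) (by omega) (by omega) (by omega)
  have h5 := hA w hw1 (hw2.trans hLwL) F hFsc hFw
  -- the closed layers in `D`
  have hε1 : ε ≤ η2 / 2 := min_le_left _ _
  have hε2 : ε ≤ s * η2 / 16 := min_le_right _ _
  set X : ℝ := Pr c D {ω | Sepr {x | ω.2 x = true} 0 w (2 * w)} with hX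
  have hX1 : X ≤ 1 := Pr_le_one hc _ _
  have h6 : η2 / 2 * (1 - X) ≤ 4 * ε := by
    calc η2 / 2 * (1 - X) ≤ pB c F T (2 * T) * (1 - X) :=
          mul_le_mul_of_nonneg_right (by linarith) (by linarith)
      _ ≤ _ := hD
      _ ≤ 4 * ε := by linarith
  have h7 : 1 - X ≤ s / 2 := by
    by_contra hcon
    have h8 : η2 / 2 * (s / 2) < η2 / 2 * (1 - X) :=
      mul_lt_mul_of_pos_left (not_le.1 hcon) (by positivity)
    nlinarith
  have h8 : X ≤ Pr c D (BlkP 0 w (2 * w)) + Pr c D (Blk 0 w (2 * w)) := closed_split hc D (by omega)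
  have h9 : Pr c D (Blk 0 w (2 * w)) ≤ s / 2 := by
    refine blk_le (K := Ka + M1) (u := w) hc ((hblk w hw1 (hw2.trans hLwL)).le.trans (min_le_right _ _))
      hDsc (hDF.trans (hFw.trans ?_))
    rw [Rsw867.ball_zero_eq]
    exact hexB_mono (Nat.mul_le_mul_right _ (by omega))
  have h11 : Pr c D (BlkP 0 w (2 * w)) ≤ Pr c (hexB (K' * w)) (BlkP 0 w (2 * w)) := by
    refine IncS.mono_dom hc (sc_hexB _) hDsc (subset_trans ?_ hTD) (incS_blkP 0 w (2 * w))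
    rw [Rsw867.ball_zero_eq]
    exact hexB_mono hKw
  unfold PW
  rw [Pr_compl hc]
  linarith

end Crest.Agent.R144.Th121
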