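import Crest.Agent.R144.Mk1_696
import Crest.Agent.R144.Zs2_349

/-!
# R144, integer chain S5 (contiguity), block TIGHT, part 1: geometry and heights (helper425)

`S` = minus-closed triangles, `Ex S K` = exploration from the outside of `K` through `Sᶜ` (696's `Mk1`).
* `comp_facts` : the component of an unexplored triangle is finite, connected, with connected complement, and its
  boundary triangles are in `S`;
* `mac_small` : if `P` is disjoint from `S` and every ball `ball y s` of a cover of `K` is separated by `P` from the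
  outside of `ball y (2 s)`, then every unexplored component has diameter at most `4 s`;
* `ex_ht`, `lay_ht` : heights on the explored triangles are in `{-1, 0, 1, 2}`, on the layer in `{-2, -1}` or `{2, 3}`;
* `lev_pm` : the level of the inside is `2` or `-2`.
-/

set_option autoImplicit false
set_option linter.unusedSectionVars false
set_option linter.unusedVariables false

noncomputable section

namespace Crest.Agent.R144.Tig425

open Finset
open Crest.Agent.R144.It844 (P2 adj_symm adj_iff adj_comm Lip)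
open Crest.ProbabilityR.HexHeights (Adj)
open Crest.Agent.R144.Zg349 Crest.Agent.R144.Zd349 Crest.Agent.R144.Zm349 Crest.Agent.R144.Ze349
open Crest.Agent.R144.Rsw867
open Crest.Agent.R144.Mk696
open Crest.Agent.R144.Zs349
open Crest.Agent.R144.Pst967 (stepIn_symm path_symm)

/-- the component of an unexplored triangle -/
theorem comp_facts {K : Finset P2} (hK : SC K) (S : Set P2) {a0 : P2} (ha0 : a0 ∉ Ex S K) :
    ∃ W : Finset P2, IsConn (W : Set P2) ∧ SC W ∧
      (∀ w, w ∈ W ↔ Relation.ReflTransGen (StepIn (Ex S K)ᶜ) a0 w) ∧ (∀ w ∈ W, w ∈ K) ∧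
      (∀ u ∈ W, ∀ v, v ∉ W → Adj u v → u ∈ S) := by
  classical
  set X : Set P2 := Ex S K with hX
  set W : Finset P2 := K.filter fun w => Relation.ReflTransGen (StepIn Xᶜ) a0 w with hWdef
  have hXK : ∀ t, t ∉ X → t ∈ K := fun t ht => by
    by_contra h1
    exact ht (ex_of_notMem _ h1)
  have stepX : ∀ w, Relation.ReflTransGen (StepIn Xᶜ) a0 w → w ∉ X := by
    intro w hw
    cases hw with
    | refl => exact ha0
    | tail _ h2 => exact h2.2.1
  have mW : ∀ w, w ∈ W ↔ Relation.ReflTransGen (StepIn Xᶜ) a0 w := fun w => by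
    rw [hWdef, Finset.mem_filter]
    exact ⟨fun h1 => h1.2, fun h1 => ⟨hXK w (stepX w h1), h1⟩⟩
  have WX : ∀ w ∈ W, w ∉ X := fun w hw => stepX w ((mW w).1 hw)
  have WK : ∀ w ∈ W, w ∈ K := fun w hw => hXK w (WX w hw)
  have Wstep : ∀ u v, u ∈ W → v ∉ X → Adj u v → v ∈ W := by
    intro u v hu hv ha
    rw [mW] at *
    exact hu.tail ⟨stepX u hu, hv, ha⟩
  have hpre : ∀ w, Relation.ReflTransGen (StepIn Xᶜ) a0 w →
      Relation.ReflTransGen (StepIn (W : Set P2)) a0 w := by
    intro w hw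
    induction hw with
    | refl => exact Relation.ReflTransGen.refl
    | @tail b d h1 h2 ih =>
      exact ih.tail ⟨(mW b).2 h1, (mW d).2 (h1.tail h2), h2.2.2⟩
  have hWc : IsConn (W : Set P2) := by
    intro u hu v hv
    exact (path_symm (hpre u ((mW u).1 hu))).trans (hpre v ((mW v).1 hv))
  have hXW : ∀ t, t ∈ X → t ∉ W := fun t ht hw => WX t hw ht
  have hXpath : ∀ t0 t, t0 ∉ K → Relation.ReflTransGen (NStep S) t0 t →
      Relation.ReflTransGen (StepIn ((W : Finset P2) : Set P2)ᶜ) t0 t := by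
    intro t0 t h0 h1
    induction h1 with
    | refl => exact Relation.ReflTransGen.refl
    | @tail b d h2 h3 ih =>
      exact ih.tail ⟨hXW _ ⟨t0, h0, h2⟩, hXW _ ⟨t0, h0, h2.tail h3⟩, h3.1⟩
  have hto : ∀ y o, o ∉ K → Relation.ReflTransGen Adj y o → y ∉ W →
      ∃ x ∈ X, Relation.ReflTransGen (StepIn ((W : Finset P2) : Set P2)ᶜ) y x := by
    intro y o ho hyo
    induction hyo using Relation.ReflTransGen.head_induction_on with
    | refl => exact fun _ => ⟨o, ex_of_notMem _ ho, Relation.ReflTransGen.refl⟩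
    | @head a b hab _ ih =>
      intro haW
      by_cases haX : a ∈ X
      · exact ⟨a, haX, Relation.ReflTransGen.refl⟩
      · have hbW : b ∉ W := fun hb => haW (Wstep b a hb haX (adj_symm hab))
        obtain ⟨x, hx, hp⟩ := ih hbW
        exact ⟨x, hx, Relation.ReflTransGen.head ⟨haW, hbW, hab⟩ hp⟩
  obtain ⟨o, ho⟩ : ∃ o : P2, o ∉ K := by
    obtain ⟨w, _, hw⟩ := exists_far K 0
    exact ⟨w, hw⟩
  have hto' : ∀ y, y ∉ W → ∃ t0, t0 ∉ K ∧
      Relation.ReflTransGen (StepIn ((W : Finset P2) : Set P2)ᶜ) y t0 := by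
    intro y hy
    obtain ⟨x, ⟨t0, h1, h2⟩, hp⟩ := hto y o ho (plane_conn y o) hy
    exact ⟨t0, h1, hp.trans (path_symm (hXpath t0 x h1 h2))⟩
  have hWsc : SC W := by
    intro u hu v hv
    obtain ⟨t0, h1, h2⟩ := hto' u (by simpa using hu)
    obtain ⟨t1, h3, h4⟩ := hto' v (by simpa using hv)
    refine (h2.trans ?_).trans (path_symm h4)
    have := hK t0 (by simpa using h1) t1 (by simpa using h3)
    refine Relation.ReflTransGen.mono (fun a b hab => ?_) _ _ this
    exact ⟨fun h5 => hab.1 (WK a h5), fun h5 => hab.2.1 (WK b h5), hab.2.2⟩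
  refine ⟨W, hWc, hWsc, mW, WK, fun u hu v hv ha => ?_⟩
  by_contra h1
  have hvX : v ∈ X := by
    by_contra h2
    exact hv (Wstep u v hu h2 ha)
  exact WX u hu (ex_step hvX (adj_symm ha) h1)

/-- a path leaving a set -/
theorem exit {S : Set P2} {W : Set P2} {u v : P2} (p : Relation.ReflTransGen (StepIn S) u v)
    (hu : u ∈ W) (hv : v ∉ W) : ∃ a b, a ∈ S ∧ a ∈ W ∧ b ∉ W ∧ Adj a b := by
  induction p with
  | refl => exact absurd hu hv
  | @tail b d _ h2 ih =>
    by_cases hb : b ∈ W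
    · exact ⟨b, d, h2.1, hb, hv, h2.2.2⟩
    · exact ih hb

/-- **Unexplored components are small.** -/
theorem mac_small {K : Finset P2} (hK : SC K) {S P : Set P2} (hSP : ∀ t, t ∈ S → t ∉ P)
    {Y : Set P2} {s : ℕ} (hY : ∀ t ∈ K, ∃ y ∈ Y, t ∈ ball y s)
    (hB : ∀ y ∈ Y, Sepr P y s (2 * s)) {u v : P2} (hu : u ∉ Ex S K)
    (hp : Relation.ReflTransGen (StepIn (Ex S K)ᶜ) u v) : v ∈ ball u (4 * s) := by
  classical
  obtain ⟨W, hWc, hWsc, mW, WK, hb⟩ := comp_facts hK S hu
  have huW : u ∈ W := (mW u).2 Relation.ReflTransGen.refl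
  have hvW : v ∈ W := (mW v).2 hp
  -- a boundary triangle
  obtain ⟨o, -, ho⟩ := exists_far W 0
  have hpl : Relation.ReflTransGen (StepIn Set.univ) u o :=
    Relation.ReflTransGen.mono (fun a b hab => ⟨trivial, trivial, hab⟩) _ _ (plane_conn u o)
  obtain ⟨t0, b0, -, ht0, hb0, hab0⟩ := exit (W := (W : Set P2)) hpl huW ho
  have ht0S : t0 ∈ S := hb t0 ht0 b0 hb0 hab0
  obtain ⟨y, hy, hty⟩ := hY t0 (WK t0 ht0)
  set A : Set P2 := {t | Relation.ReflTransGen (StepIn S) t0 t} with hA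
  have hAS : ∀ t, t ∈ A → t ∈ S := by
    intro t ht
    cases ht with
    | refl => exact ht0S
    | tail _ h2 => exact h2.2.1
  have key := unico hWc hWsc (P := A) (Q := S ∩ Aᶜ)
    (fun a ha b hb' h1 h2 h3 => h2.2 (Relation.ReflTransGen.tail h1 ⟨hAS a h1, h2.1, h3⟩))
    (fun a ha b hb' h1 => by
      by_cases h : a ∈ A
      · exact Or.inl h
      · exact Or.inr ⟨hb a ha b hb' h1, h⟩)
  have hall : ∀ a ∈ W, ∀ b, b ∉ W → Adj a b → a ∈ A := by
    rcases key with h | h
    · exact h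
    · exact absurd Relation.ReflTransGen.refl (h t0 ht0 b0 hb0 hab0)
  -- the boundary is in the ball
  have hbd : ∀ a ∈ W, ∀ b, b ∉ W → Adj a b → a ∈ ball y (2 * s) := by
    intro a ha b hb' hab
    by_contra hc
    have h1 : Relation.ReflTransGen (StepIn S) t0 a := hall a ha b hb' hab
    refine hB y hy a t0 hc hty (path_symm (path_mono (fun t ht => hSP t ht) h1))
  -- the whole component is in the ball
  have hin : ∀ w ∈ W, w ∈ ball y (2 * s) := by
    intro w hw
    by_contra hc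
    obtain ⟨z, -, hz⟩ := exists_far (W ∪ ball y (2 * s)) 0
    rw [Finset.mem_union, not_or] at hz
    have hq := sc_ball y (2 * s) w (by simpa using hc) z (by simpa using hz.2)
    obtain ⟨a, b, h1, h2, h3, h4⟩ := exit (W := (W : Set P2)) hq hw hz.1
    exact h1 (hbd a h2 b h3 h4)
  have h1 := hin u huW
  have h2 := hin v hvW
  rw [mem_ball] at h1 h2 ⊢
  obtain ⟨a1, a2, a3⟩ := h1
  obtain ⟨b1, b2, b3⟩ := h2
  rw [abs_le] at a1 a2 a3 b1 b2 b3
  simp only [abs_le]
  push_cast at *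
  omega

/-- the explored set depends only on `S` off the unexplored domain -/
theorem Ex_congr {S S' : Set P2} {K B : Finset P2} (h : ∀ t, t ∉ B → (t ∈ S ↔ t ∈ S'))
    (hB : Un S K = B) : Ex S' K = Ex S K := by
  ext t
  constructor
  · rintro ⟨t0, h3, h4⟩
    induction h4 with
    | refl => exact ex_of_notMem S h3
    | @tail b d _ h5 ih =>
      by_contra h6
      have h7 : d ∉ B := by
        rw [← hB, notMem_Un]
        exact Or.inr ⟨b, adj_symm h5.1, ih⟩
      exact h6 (ex_step ih h5.1 fun h8 => h5.2 ((h d h7).1 h8))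
  · rintro ⟨t0, h3, h4⟩
    induction h4 with
    | refl => exact ex_of_notMem S' h3
    | @tail b d h4 h5 ih =>
      refine ex_step ih h5.1 fun h6 => ?_
      have h7 : d ∉ B := by
        rw [← hB, notMem_Un]
        exact Or.inl ⟨t0, h3, h4.tail h5⟩
      exact h5.2 ((h d h7).2 h6)

/-! ### heights -/

/-- minus-closed triangles -/
def mS (ω : Cfg) : Set P2 := {t | mC ω t}

section

variable {c : ℝ} {F : Finset P2} {ω : Cfg}

/-- an unclosed triangle has constant `s2` -/
theorem open_s2 (hω : Valid F ω) (hw : wt c F ω ≠ 0) {t : P2} (ht : ω.2 t = false) {u v : P2}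
    (hu : u ∈ up t) (hv : v ∈ up t) : s2 (ω.1 u) = s2 (ω.1 v) := by
  have htF : t ∈ F := by
    by_contra h
    rw [hω.cl t h] at ht
    exact absurd ht (by decide)
  have h1 : ew c ω t ≠ 0 := fun h => hw (Finset.prod_eq_zero htF h)
  have h2 : C2 ω.1 t := by
    by_contra h
    apply h1
    unfold ew
    rw [if_neg (by rw [ht]; decide), if_neg h]
  obtain ⟨a, b⟩ := h2
  have key : ∀ w ∈ up t, s2 (ω.1 w) = s2 (ω.1 (cr t 0)) := by
    intro w hw
    obtain ⟨i, rfl⟩ := mem_up_iff.1 hw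
    fin_cases i
    · rfl
    · exact a.symm
    · exact b.symm
  rw [key u hu, key v hv]

theorem up_lip (hω : Valid F ω) {t u v : P2} (hu : u ∈ up t) (hv : v ∈ up t) :
    |ω.1 u - ω.1 v| ≤ 1 := by
  obtain ⟨i, rfl⟩ := mem_up_iff.1 hu
  obtain ⟨j, rfl⟩ := mem_up_iff.1 hv
  exact lip_cr hω.ht.toLip t i j

theorem ht_off (hω : Valid F ω) {t v : P2} (ht : t ∉ F) (hv : v ∈ up t) : ω.1 v = 0 ∨ ω.1 v = 1 :=
  hω.ht.bd v fun h => ht (mem_of_corner hv h)

/-- **heights on the explored triangles** -/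
theorem ex_ht (hω : Valid F ω) (hw : wt c F ω ≠ 0) {t : P2} (ht : t ∈ Ex (mS ω) F) :
    ∀ v ∈ up t, -1 ≤ ω.1 v ∧ ω.1 v ≤ 2 := by
  obtain ⟨t0, h0, hp⟩ := ht
  induction hp with
  | refl =>
    intro v hv
    rcases ht_off hω h0 hv with h | h <;> rw [h] <;> decide
  | @tail b d _ hs ih =>
    intro v hv
    obtain ⟨v0, h1, h2⟩ := adj_site hs.1
    obtain ⟨i1, i2⟩ := ih v0 h1
    have l1 := abs_le.1 (up_lip hω hv h2)
    by_contra hc
    have hd : d ∈ up d := base_mem_up d
    have l2 := abs_le.1 (up_lip hω hd h2)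
    have l3 := abs_le.1 (up_lip hω hd hv)
    -- heights `{2, 3}` or `{-2, -1}`
    have hcase : (ω.1 v = 3 ∧ ω.1 v0 = 2) ∨ (ω.1 v = -2 ∧ ω.1 v0 = -1) := by omega
    have hs1 : s1 (ω.1 d) = false := by
      rw [s1_false]
      omega
    cases hz : ω.2 d with
    | true => exact hs.2 ⟨hz, hs1⟩
    | false =>
      have h3 := open_s2 hω hw hz hv h2
      rcases hcase with ⟨e1, e2⟩ | ⟨e1, e2⟩
      · rw [e1, e2] at h3
        exact absurd h3 (by decide)
      · rw [e1, e2] at h3
        exact absurd h3 (by decide)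

/-- **heights on the layer** -/
theorem lay_ht (hω : Valid F ω) (hw : wt c F ω ≠ 0) {t t' : P2} (ht : t ∉ Ex (mS ω) F)
    (ha : Adj t t') (ht' : t' ∈ Ex (mS ω) F) :
    mC ω t ∧ ((∀ v ∈ up t, ω.1 v = 2 ∨ ω.1 v = 3) ∨ (∀ v ∈ up t, ω.1 v = -2 ∨ ω.1 v = -1)) := by
  have hm : mC ω t := by
    by_contra h
    exact ht (ex_step ht' (adj_symm ha) h)
  refine ⟨hm, ?_⟩
  obtain ⟨v0, h1, h2⟩ := adj_site ha
  have hs : ∀ v ∈ up t, s1 (ω.1 v) = false := fun v hv => by
    rw [closed_c1 hω hw hm.1 hv, hm.2]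
  obtain ⟨i1, i2⟩ := ex_ht hω hw ht' v0 h2
  have h3 := s1_false.1 (hs v0 h1)
  have hcase : ω.1 v0 = 2 ∨ ω.1 v0 = -1 := by omega
  rcases hcase with e | e
  · left
    intro v hv
    have l1 := abs_le.1 (up_lip hω hv h1)
    have h4 := s1_false.1 (hs v hv)
    omega
  · right
    intro v hv
    have l1 := abs_le.1 (up_lip hω hv h1)
    have h4 := s1_false.1 (hs v hv)
    omega

/-- a triangle off the unexplored domain, next to it, is a layer triangle -/
theorem next_ex {t t' : P2} (h : t ∈ Un (mS ω) F) (ht' : t' ∉ Un (mS ω) F) (ha : Adj t t') :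
    t' ∉ Ex (mS ω) F ∧ ∃ u, Adj t' u ∧ u ∈ Ex (mS ω) F := by
  rw [mem_Un] at h
  have h1 := h.2 t' ha
  refine ⟨h1, ?_⟩
  rcases notMem_Un.1 ht' with h2 | h2
  · exact absurd h2 h1
  · exact h2

/-- the layer around the unexplored domain -/
theorem lay_un (hω : Valid F ω) (hw : wt c F ω ≠ 0) : Lay false (Un (mS ω) F) ω := by
  refine lay_of hω hw fun t ht hv => ?_
  obtain ⟨v, hv1, hv2⟩ := hv
  obtain ⟨t', ht', hv3⟩ := mem_VF.1 hv1
  have hne : t' ≠ t := fun h => ht (h ▸ ht')
  exact (layer_Un ht' ht (adj_of_site hne hv3 hv2)).1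

/-- **the level of the inside is `2` or `-2`** -/
theorem lev_pm (hF : SC F) (hω : Valid F ω) (hw : wt c F ω ≠ 0) {v : P2}
    (hv : v ∈ VF (Un (mS ω) F)) :
    lev false (Un (mS ω) F) ω v = 2 ∨ lev false (Un (mS ω) F) ω v = -2 := by
  set U := Un (mS ω) F with hU
  have hW : SC U := sc_Un _ hF
  have hl : Lip ω.1 := hω.ht.toLip
  have hL : Lay false U ω := lay_un hω hw
  have same : ∀ t ∈ U, ∀ a ∈ up t, ∀ b ∈ up t, lev false U ω a = lev false U ω b := by
    intro t ht a ha b hb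
    obtain ⟨i, rfl⟩ := mem_up_iff.1 ha
    obtain ⟨j, rfl⟩ := mem_up_iff.1 hb
    exact lev_tri hW hl hL ht i j
  have key : ∀ t o, Relation.ReflTransGen Adj t o → o ∉ U → t ∈ U → ∀ a ∈ up t,
      lev false U ω a = 2 ∨ lev false U ω a = -2 := by
    intro t o hp
    induction hp using Relation.ReflTransGen.head_induction_on with
    | refl => exact fun h1 h2 => absurd h2 h1
    | @head t b hab _ ih =>
      intro ho ht a ha
      obtain ⟨x, hx1, hx2⟩ := adj_site hab
      rw [same t ht a ha x hx1]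
      by_cases hb : b ∈ U
      · exact ih ho hb x hx2
      · obtain ⟨h1, u, h2, h3⟩ := next_ex ht hb hab
        obtain ⟨-, h4⟩ := lay_ht hω hw h1 h2 h3
        have hxV : x ∈ VF U := mem_VF.2 ⟨t, ht, hx1⟩
        obtain ⟨h5, -⟩ := lay_corner hW hl hL hb hxV hx2 hx2
        have h6 := lev_mod hW hl hL hxV
        have h7 : (off false : ℤ) = 2 := rfl
        rw [h7] at h6
        rcases h4 with h4 | h4
        · have h8 := h4 x hx2
          omega
        · have h8 := h4 x hx2
          omega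
  obtain ⟨t, ht, hvt⟩ := mem_VF.1 hv
  obtain ⟨o, -, ho⟩ := exists_far U 0
  exact key t o (plane_conn t o) ho ht v hvt

/-- heights off the inside -/
theorem ht_out (hω : Valid F ω) (hw : wt c F ω ≠ 0) {v : P2} (hv : v ∉ VF (Un (mS ω) F)) :
    -2 ≤ ω.1 v ∧ ω.1 v ≤ 3 := by
  have h1 : v ∉ Un (mS ω) F := fun h => hv (mem_VF.2 ⟨v, h, base_mem_up v⟩)
  by_cases h2 : v ∈ Ex (mS ω) F
  · have := ex_ht hω hw h2 v (base_mem_up v)
    omega
  · rcases notMem_Un.1 h1 with h3 | ⟨u, h3, h4⟩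
    · exact absurd h3 h2
    · obtain ⟨-, h5⟩ := lay_ht hω hw h2 h3 h4
      rcases h5 with h5 | h5
      · have := h5 v (base_mem_up v)
        omega
      · have := h5 v (base_mem_up v)
        omega

/-- sites of the inside are unexplored as triangles -/
theorem vf_unex {v : P2} (hv : v ∈ VF (Un (mS ω) F)) : v ∉ Ex (mS ω) F := by
  obtain ⟨t, ht, hvt⟩ := mem_VF.1 hv
  by_cases h : t = v
  · subst h
    exact (mem_Un.1 ht).1
  · exact (mem_Un.1 ht).2 v (adj_of_site h hvt (base_mem_up v))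

end

end Crest.Agent.R144.Tig425
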