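import Crest.Agent.R144.Tig1_425
import Crest.Agent.R144.Hf2_702

/-!
# R144, integer chain S5 (contiguity), block TIGHT, part 2: the recursion (helper425)

`X m R h` : a cluster of `{m ≤ |h - 1/2| - 1/2}` contains two sites at distance more than `R`.
* `rec_step` : `E_F (X (m+2) R) ≤ E_F (X m R) * E_F (Gr F R)`, `1 ≤ m`, `Gr` = the unexplored set (through triangles
  which are not minus-closed) has a component with two triangles at distance more than `R`;
* `gr_le` : `E_F (Gr F R) ≤ 1 - p ^ J`, `J` = number of balls of radius `s` covering `F`, `4 s ≤ R`;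
* `X_iter` : `E_F (X (2 j + 1) R) ≤ (1 - p ^ J) ^ j`.
-/

set_option autoImplicit false
set_option linter.unusedSectionVars false
set_option linter.unusedVariables false

noncomputable section

namespace Crest.Agent.R144.Tig425

open Finset
open Crest.Agent.R144.It844 (P2 adj_symm adj_iff adj_comm Lip)
open Crest.ProbabilityR.HexHeights (Adj)
open Crest.Agent.R144.Zg349 Crest.Agent.R144.Zd349 Crest.Agent.R144.Zm349 Crest.Agent.R144.Ze349
open Crest.Agent.R144.Rsw867
open Crest.Agent.R144.Mk696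
open Crest.Agent.R144.Zs349
open Crest.Agent.R144.Pst967 (stepIn_symm path_symm)
open Crest.Agent.R144.Hf702 (kof EH SH Inc MPos E_eq_EH EH_mono EH_congr EH_le EI htsI mem_htsI EI_mono EI_self
  ext ext_of hh kof_hh)

/-! ### clusters of large heights -/

/-- macroscopic cluster of `{m ≤ |h - 1/2| - 1/2}` -/
def X (m R : ℕ) (h : P2 → ℤ) : Prop :=
  ∃ u v, v ∉ ball u R ∧ Relation.ReflTransGen (StepIn {w | m ≤ kof (h w)}) u v

/-- the same inside `S` -/
def XV (S : Finset P2) (m R : ℕ) (h : P2 → ℤ) : Prop :=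
  ∃ u v, v ∉ ball u R ∧ Relation.ReflTransGen (StepIn {w | w ∈ S ∧ m ≤ kof (h w)}) u v

/-- macroscopic unexplored component -/
def Gr (F : Finset P2) (R : ℕ) (ω : Cfg) : Prop :=
  ∃ u v, v ∉ ball u R ∧ Relation.ReflTransGen (StepIn (Ex (mS ω) F)ᶜ) u v

open Classical in
/-- indicator -/
def iX (m R : ℕ) (h : P2 → ℤ) : ℝ := if X m R h then 1 else 0

open Classical in
/-- indicator -/
def iXV (S : Finset P2) (m R : ℕ) (h : P2 → ℤ) : ℝ := if XV S m R h then 1 else 0

open Classical in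
/-- indicator -/
def iGr (F : Finset P2) (R : ℕ) (ω : Cfg) : ℝ := if Gr F R ω then 1 else 0

theorem XV.toX {S : Finset P2} {m R : ℕ} {h : P2 → ℤ} (H : XV S m R h) : X m R h := by
  obtain ⟨u, v, h1, h2⟩ := H
  exact ⟨u, v, h1, path_mono (fun w hw => hw.2) h2⟩

theorem X.toXV {S : Finset P2} {m R : ℕ} {h : P2 → ℤ} (hS : ∀ v, v ∉ S → kof (h v) < m) (H : X m R h) :
    XV S m R h := by
  obtain ⟨u, v, h1, h2⟩ := H
  refine ⟨u, v, h1, path_mono ?_ h2⟩
  intro w hw
  refine ⟨?_, hw⟩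
  by_contra hc
  exact absurd hw (not_le.2 (hS w hc))

theorem X.anti {m m' R : ℕ} (hm : m ≤ m') {h : P2 → ℤ} (H : X m' R h) : X m R h := by
  obtain ⟨u, v, h1, h2⟩ := H
  exact ⟨u, v, h1, path_mono (fun w hw => hm.trans hw) h2⟩

theorem self_ball (u : P2) (R : ℕ) : u ∈ ball u R := by
  rw [mem_ball]; simp

/-- the sites of a macroscopic path -/
theorem start_in {S : Set P2} {u v : P2} {R : ℕ} (h : v ∉ ball u R)
    (hp : Relation.ReflTransGen (StepIn S) u v) : u ∈ S := by
  rcases Relation.ReflTransGen.cases_head hp with h1 | ⟨w, h1, _⟩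
  · subst h1
    exact absurd (self_ball u R) h
  · exact h1.1

theorem kof_zero : kof 0 = 0 := rfl

theorem kof_out {a : ℤ} (h : -2 ≤ a ∧ a ≤ 3) : kof a ≤ 2 := by
  unfold kof
  split_ifs <;> omega

theorem kof_in {l b : ℤ} (hl : l = 2 ∨ l = -2) : kof (l + b) ≤ kof b + 2 := by
  unfold kof
  split_ifs <;> omega

theorem iX_nonneg (m R : ℕ) (h : P2 → ℤ) : 0 ≤ iX m R h := by unfold iX; split_ifs <;> norm_num
theorem iX_le_one (m R : ℕ) (h : P2 → ℤ) : iX m R h ≤ 1 := by unfold iX; split_ifs <;> norm_num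
theorem iXV_nonneg (S : Finset P2) (m R : ℕ) (h : P2 → ℤ) : 0 ≤ iXV S m R h := by
  unfold iXV; split_ifs <;> norm_num
theorem iGr_nonneg (F : Finset P2) (R : ℕ) (ω : Cfg) : 0 ≤ iGr F R ω := by
  unfold iGr; split_ifs <;> norm_num

/-- **pointwise**: a macroscopic cluster at level `m + 2` -/
theorem point {c : ℝ} {F : Finset P2} {ω : Cfg} (hF : SC F) (hω : Valid F ω) (hw : wt c F ω ≠ 0)
    {m R : ℕ} (hm : 1 ≤ m) (hX : X (m + 2) R ω.1) :
    Gr F R ω ∧ XV (VF (Un (mS ω) F)) m R (inH false (Un (mS ω) F) ω) := by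
  obtain ⟨u, v, huv, hp⟩ := hX
  have hV : ∀ w, m + 2 ≤ kof (ω.1 w) → w ∈ VF (Un (mS ω) F) := by
    intro w hw'
    by_contra hc
    have := kof_out (ht_out hω hw hc)
    omega
  refine ⟨⟨u, v, huv, path_mono (fun w hw' => vf_unex (hV w hw')) hp⟩, u, v, huv,
    path_mono ?_ hp⟩
  intro w hw'
  refine ⟨hV w hw', ?_⟩
  have h1 := kof_in (b := inH false (Un (mS ω) F) ω w) (lev_pm hF hω hw (hV w hw'))
  have h2 : lev false (Un (mS ω) F) ω w + inH false (Un (mS ω) F) ω w = ω.1 w := by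
    unfold lev; ring
  rw [h2] at h1
  have h3 : m + 2 ≤ kof (ω.1 w) := hw'
  omega

/-! ### increasing functions -/

theorem inc_iXV {S S' : Finset P2} (hS : S ⊆ S') (m R : ℕ) : Inc S' (iXV S m R) := by
  classical
  constructor
  · intro h h' e
    have : {w : P2 | w ∈ S ∧ m ≤ kof (h w)} = {w : P2 | w ∈ S ∧ m ≤ kof (h' w)} := by
      ext w
      constructor
      · rintro ⟨h1, h2⟩
        exact ⟨h1, by rw [← e w (hS h1)]; exact h2⟩
      · rintro ⟨h1, h2⟩
        exact ⟨h1, by rw [e w (hS h1)]; exact h2⟩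
    unfold iXV XV
    rw [this]
  · intro W hW
    set Q : (↥W → ℕ) → Prop := fun k => ∃ u v, v ∉ ball u R ∧
      Relation.ReflTransGen (StepIn {w | ∃ hw : w ∈ W, w ∈ S ∧ m ≤ k ⟨w, hw⟩}) u v with hQ
    have e1 : ∀ (k : ↥W → ℕ) (σ : ↥W → ℤˣ), iXV S m R (ext W k σ) = if Q k then 1 else 0 := by
      intro k σ
      have : {w : P2 | w ∈ S ∧ m ≤ kof (ext W k σ w)} =
          {w : P2 | ∃ hw : w ∈ W, w ∈ S ∧ m ≤ k ⟨w, hw⟩} := by
        ext w
        constructor
        · rintro ⟨h1, h2⟩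
          have hw : w ∈ W := hW (hS h1)
          refine ⟨hw, h1, ?_⟩
          rw [ext_of hw] at h2
          unfold hh at h2
          rwa [kof_hh] at h2
        · rintro ⟨hw, h1, h2⟩
          refine ⟨h1, ?_⟩
          rw [ext_of hw]
          unfold hh
          rwa [kof_hh]
      unfold iXV XV
      rw [this]
    refine MPos.congr (Φ := fun k _ => if Q k then 1 else 0) ⟨fun k => ?_, fun k k' hk => ?_⟩ e1
    · refine Crest.Agent.R161.Gks375.Pos.const ?_
      split_ifs <;> norm_num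
    · refine Crest.Agent.R161.Gks375.Pos.const ?_
      have hmono : Q k → Q k' := by
        rintro ⟨u, v, h1, h2⟩
        refine ⟨u, v, h1, path_mono ?_ h2⟩
        rintro w ⟨hw, h3, h4⟩
        exact ⟨hw, h3, h4.trans (hk _)⟩
      by_cases h1 : Q k
      · rw [if_pos h1, if_pos (hmono h1)]; norm_num
      · rw [if_neg h1]
        split_ifs <;> norm_num

theorem X_iff_XV {F : Finset P2} {m R : ℕ} (hm : 1 ≤ m) {h : P2 → ℤ} (hh : HV F h) :
    iX m R h = iXV (VF F) m R h := by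
  have key : X m R h ↔ XV (VF F) m R h :=
    ⟨fun H => H.toXV fun v hv => by rw [hh.off v hv, kof_zero]; omega, XV.toX⟩
  unfold iX iXV
  by_cases H : X m R h
  · rw [if_pos H, if_pos (key.1 H)]
  · rw [if_neg H, if_neg fun h => H (key.2 h)]

/-- **domain monotonicity** of the macroscopic cluster probability -/
theorem EH_X_mono {x : ℝ} (hx0 : 0 ≤ x) (hx1 : x ≤ 1) {F F' : Finset P2} (hF : F ⊆ F') {m R : ℕ}
    (hm : 1 ≤ m) : EH x F (iX m R) ≤ EH x F' (iX m R) := by
  have e1 : EH x F (iX m R) = EH x F (iXV (VF F) m R) := EH_congr fun h hh => X_iff_XV hm hh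
  rw [e1]
  refine (EH_mono hx0 hx1 hF (inc_iXV (Finset.Subset.refl _) m R)).trans (EH_le fun h _ => ?_)
  unfold iXV iX
  by_cases H : XV (VF F) m R h
  · rw [if_pos H, if_pos H.toX]
  · rw [if_neg H]; split_ifs <;> norm_num

/-- arbitrary free sites -/
theorem EI_X_le {x : ℝ} (hx0 : 0 ≤ x) (hx1 : x ≤ 1) {F I : Finset P2} (hI : I ⊆ IV F) {m R : ℕ}
    (hm : 1 ≤ m) : EI x F I (iX m R) ≤ EH x F (iX m R) := by
  have e1 : EI x F I (iX m R) = EI x F I (iXV (VF F) m R) := by
    unfold EI Hf702.SI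
    congr 1
    exact Finset.sum_congr rfl fun a ha => by rw [X_iff_XV hm (mem_htsI.1 ha).1]
  have e2 : EH x F (iX m R) = EI x F (IV F) (iXV (VF F) m R) := by
    rw [EI_self]
    exact EH_congr fun h hh => X_iff_XV hm hh
  rw [e1, e2]
  exact EI_mono hx0 hx1 (Finset.Subset.refl F) hI (Finset.Subset.refl _) hI
    (inc_iXV (Finset.Subset.refl _) m R)

/-! ### one step -/

theorem E_le_wt {c : ℝ} (hc : 1 ≤ c) {F : Finset P2} {f g : Cfg → ℝ}
    (h : ∀ ω, Valid F ω → wt c F ω ≠ 0 → f ω ≤ g ω) : E c F f ≤ E c F g := by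
  rw [E_eq_S, E_eq_S]
  refine div_le_div_of_nonneg_right ?_ (Z_pos hc F).le
  unfold S
  refine Finset.sum_le_sum fun ω hω => ?_
  by_cases hw : wt c F ω = 0
  · rw [hw, zero_mul, zero_mul]
  · exact mul_le_mul_of_nonneg_left (h ω (mem_conf.1 hω) hw) (wt_nonneg hc F ω)

open Classical in
/-- the event seen from one unexplored domain -/
def Ps (F U : Finset P2) (m R : ℕ) (ω : Cfg) : ℝ :=
  if Un (mS ω) F = U ∧ Gr F R ω ∧ XV (VF U) m R (inH false U ω) then 1 else 0

open Classical in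
/-- its outside part -/
def Pg (F U : Finset P2) (R : ℕ) (ω : Cfg) : ℝ := if Un (mS ω) F = U ∧ Gr F R ω then 1 else 0

theorem Pg_nonneg (F U : Finset P2) (R : ℕ) (ω : Cfg) : 0 ≤ Pg F U R ω := by
  unfold Pg; split_ifs <;> norm_num

theorem glue_mS {U : Finset P2} {ω ω' : Cfg} (hU : SC U) (hl : Lip ω.1) (hL : Lay false U ω)
    (hω' : Valid U ω') : ∀ t, t ∉ U → (t ∈ mS (glue false U ω ω') ↔ t ∈ mS ω) := by
  intro t ht
  show mC (glue false U ω ω') t ↔ mC ω t
  unfold mC
  rw [glue_z' ht, glue_s1_off hU hl hL hω' fun h => ht (IV_sub U h)]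

/-- gluing does not change the outside part, the inside becomes `ω'` -/
theorem Ps_glue {F U : Finset P2} {m R : ℕ} {ω ω' : Cfg} (hU : SC U) (hω : Valid F ω)
    (hL : Lay false U ω) (hω' : Valid U ω') :
    Ps F U m R (glue false U ω ω') ≤ Pg F U R ω * iXV (VF U) m R ω'.1 := by
  have hl : Lip ω.1 := hω.ht.toLip
  unfold Ps
  split_ifs with h
  · obtain ⟨h1, h2, h3⟩ := h
    have hm := glue_mS hU hl hL hω'
    have e1 : Un (mS ω) F = U := Un_congr hm h1
    have e2 := Ex_congr hm h1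
    have e3 : Gr F R ω := by
      obtain ⟨u, v, h4, h5⟩ := h2
      exact ⟨u, v, h4, by rw [e2]; exact h5⟩
    rw [inH_glue hU hl hL hω'] at h3
    unfold Pg iXV
    rw [if_pos ⟨e1, e3⟩, if_pos h3, mul_one]
  · exact mul_nonneg (Pg_nonneg _ _ _ _) (iXV_nonneg _ _ _ _)

/-- **the recursion** -/
theorem rec_step {x : ℝ} (hx0 : 0 < x) (hx1 : x ≤ 1) {F : Finset P2} (hF : SC F) {m R : ℕ}
    (hm : 1 ≤ m) :
    E ((x ^ 2)⁻¹) F (fun ω => iX (m + 2) R ω.1) ≤
      E ((x ^ 2)⁻¹) F (fun ω => iX m R ω.1) * E ((x ^ 2)⁻¹) F (iGr F R) := by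
  classical
  set c : ℝ := (x ^ 2)⁻¹ with hcdef
  have hc : 1 ≤ c := by
    rw [hcdef]
    exact (one_le_inv₀ (by positivity)).2 (pow_le_one₀ hx0.le hx1)
  set e : ℝ := E c F (fun ω => iX m R ω.1) with he
  have he0 : 0 ≤ e := E_nonneg hc fun ω _ => iX_nonneg m R _
  -- step 1: decompose along the unexplored domain
  have h1 : E c F (fun ω => iX (m + 2) R ω.1) ≤
      E c F (fun ω => ∑ U ∈ F.powerset.filter SC, layI false U ω * Ps F U m R ω) := by
    refine E_le_wt hc fun ω hω hw => ?_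
    unfold iX
    split_ifs with hX
    · obtain ⟨g1, g2⟩ := point hF hω hw hm hX
      have hmem : Un (mS ω) F ∈ F.powerset.filter SC := by
        rw [Finset.mem_filter, Finset.mem_powerset]
        exact ⟨Un_sub _ _, sc_Un _ hF⟩
      refine le_trans ?_ (Finset.single_le_sum (fun U _ => ?_) hmem)
      · rw [layI_of (lay_un hω hw), one_mul]
        unfold Ps
        rw [if_pos ⟨rfl, g1, g2⟩]
      · refine mul_nonneg (layI_nonneg _ _ _) ?_
        unfold Ps; split_ifs <;> norm_num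
    · refine Finset.sum_nonneg fun U _ => mul_nonneg (layI_nonneg _ _ _) ?_
      unfold Ps; split_ifs <;> norm_num
  rw [E_sum] at h1
  -- step 2: one domain
  have h2 : ∀ U ∈ F.powerset.filter SC, E c F (fun ω => layI false U ω * Ps F U m R ω) ≤
      e * E c F (Pg F U R) := by
    intro U hU
    rw [Finset.mem_filter, Finset.mem_powerset] at hU
    obtain ⟨hUF, hUsc⟩ := hU
    rw [E_swap hc hUsc hUF, ← E_smul]
    have hin : E c U (fun ω' => iXV (VF U) m R ω'.1) ≤ e := by
      have a1 : E c U (fun ω' => iXV (VF U) m R ω'.1) = EH x U (iX m R) := by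
        rw [hcdef, E_eq_EH hx0.ne' U (iXV (VF U) m R)]
        exact (EH_congr fun h hh => X_iff_XV hm hh).symm
      rw [a1, he, hcdef, E_eq_EH hx0.ne' F (iX m R)]
      exact EH_X_mono hx0.le hx1 hUF hm
    refine E_mono hc fun ω hω => ?_
    by_cases hL : Lay false U ω
    · rw [layI_of hL, one_mul]
      have a2 : E c U (fun ω' => Ps F U m R (glue false U ω ω')) ≤
          E c U (fun ω' => Pg F U R ω * iXV (VF U) m R ω'.1) :=
        E_mono hc fun ω' hω' => Ps_glue hUsc hω hL hω'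
      rw [E_smul] at a2
      refine a2.trans ?_
      rw [mul_comm e]
      exact mul_le_mul_of_nonneg_left hin (Pg_nonneg _ _ _ _)
    · rw [layI_of_not hL, zero_mul]
      exact mul_nonneg he0 (Pg_nonneg _ _ _ _)
  -- step 3: sum up
  refine h1.trans ((Finset.sum_le_sum h2).trans ?_)
  rw [← Finset.mul_sum, ← E_sum]
  refine mul_le_mul_of_nonneg_left (E_mono hc fun ω hω => ?_) he0
  by_cases hG : Gr F R ω
  · have a3 : ∀ U ∈ F.powerset.filter SC, Pg F U R ω = if Un (mS ω) F = U then 1 else 0 := by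
      intro U _
      unfold Pg
      simp only [hG, and_true]
    rw [Finset.sum_congr rfl a3, Finset.sum_ite_eq]
    unfold iGr
    rw [if_pos hG]
    split_ifs <;> norm_num
  · have a3 : ∀ U ∈ F.powerset.filter SC, Pg F U R ω = 0 := by
      intro U _
      unfold Pg
      simp only [hG, and_false, if_false]
    rw [Finset.sum_congr rfl a3, Finset.sum_const_zero]
    exact iGr_nonneg F R ω

/-! ### the bound on the macroscopic unexplored component -/

/-- all blocks of a family of centres -/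
def AllP (Y : Finset P2) (s : ℕ) : Set Cfg := {ω | ∀ y ∈ Y, ω ∈ BlkP y s (2 * s)}

theorem incP_allP (Y : Finset P2) (s : ℕ) : IncP (ind (AllP Y s)) := fun _ _ h =>
  ind_le_ind fun hω y hy => Sepr.mono (fun t ht => h.p t ht) (hω y hy)

theorem allP_ge {c : ℝ} (hc : 1 ≤ c) {K : ℕ} {p : ℝ} (hR : RSW c K p) {F : Finset P2} (hF : SC F)
    {s : ℕ} (hs : 1 ≤ s) (Y : Finset P2) : p ^ Y.card ≤ E c F (ind (AllP Y s)) := by
  classical
  induction Y using Finset.induction_on with
  | empty =>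
    rw [Finset.card_empty, pow_zero]
    have : E c F (ind (AllP ∅ s)) = 1 := by
      rw [← E_const hc F 1]
      exact E_congr fun ω _ => ind_of_mem fun y hy => absurd hy (by simp)
    rw [this]
  | insert y Y hy ih =>
    rw [Finset.card_insert_of_notMem hy, pow_succ]
    have h1 : p ≤ E c F (ind (BlkP y s (2 * s))) := by
      have := hR.plus s hs y F hF (fun _ => 1) (fun _ => zero_le_one) fun _ _ _ _ => rfl
      rw [E_const hc, mul_one] at this
      simpa only [one_mul] using this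
    have h2 := assoc hc hF (incP_allP Y s) (incP_blkP y s (2 * s))
    have h3 : E c F (fun ω => ind (AllP Y s) ω * ind (BlkP y s (2 * s)) ω) =
        E c F (ind (AllP (insert y Y) s)) := E_congr fun ω _ => by
      by_cases a : ω ∈ AllP Y s
      · by_cases b : ω ∈ BlkP y s (2 * s)
        · rw [ind_of_mem a, ind_of_mem b, ind_of_mem, mul_one]
          intro z hz
          rcases Finset.mem_insert.1 hz with h | h
          · rw [h]; exact b
          · exact a z h
        · rw [ind_of_not_mem b, mul_zero, ind_of_not_mem]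
          exact fun h => b (h y (Finset.mem_insert_self y Y))
      · rw [ind_of_not_mem a, zero_mul, ind_of_not_mem]
        exact fun h => a fun z hz => h z (Finset.mem_insert_of_mem hz)
    rw [← h3]
    refine le_trans ?_ h2
    have hp := hR.p0
    exact mul_le_mul ih h1 hp.le (E_nonneg hc fun ω _ => ind_nonneg _ _)

theorem not_gr {F : Finset P2} (hF : SC F) {Y : Finset P2} {s R : ℕ} (hsR : 4 * s ≤ R)
    (hY : ∀ t ∈ F, ∃ y ∈ Y, t ∈ ball y s) {ω : Cfg} (hω : ω ∈ AllP Y s) : ¬ Gr F R ω := by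
  rintro ⟨u, v, h1, h2⟩
  have hu : u ∉ Ex (mS ω) F := start_in h1 h2
  have := mac_small (K := F) hF (S := mS ω) (P := {t | pC ω t})
    (fun t ht hp => by
      have a : s1 (ω.1 t) = false := ht.2
      rw [hp.2] at a
      exact absurd a (by decide)) (Y := (Y : Set P2))
    (fun t ht => hY t ht) (fun y hy => hω y hy) hu h2
  exact h1 (ball_mono u hsR this)

theorem gr_le {c : ℝ} (hc : 1 ≤ c) {K : ℕ} {p : ℝ} (hR : RSW c K p) {F : Finset P2} (hF : SC F)
    {Y : Finset P2} {s R : ℕ} (hs : 1 ≤ s) (hsR : 4 * s ≤ R)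
    (hY : ∀ t ∈ F, ∃ y ∈ Y, t ∈ ball y s) : E c F (iGr F R) ≤ 1 - p ^ Y.card := by
  have h1 := allP_ge hc hR hF hs Y
  have h2 : E c F (iGr F R) ≤ E c F (fun ω => 1 - ind (AllP Y s) ω) := E_mono hc fun ω _ => by
    unfold iGr
    by_cases h : ω ∈ AllP Y s
    · rw [ind_of_mem h, if_neg (not_gr hF hsR hY h)]; norm_num
    · rw [ind_of_not_mem h]
      split_ifs <;> norm_num
  rw [E_sub, E_const hc] at h2
  linarith

/-- **exponential decay in the height** -/
theorem X_iter {x : ℝ} (hx0 : 0 < x) (hx1 : x ≤ 1) {K : ℕ} {p : ℝ} (hR : RSW ((x ^ 2)⁻¹) K p)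
    {F : Finset P2} (hF : SC F) {Y : Finset P2} {s R : ℕ} (hs : 1 ≤ s) (hsR : 4 * s ≤ R)
    (hY : ∀ t ∈ F, ∃ y ∈ Y, t ∈ ball y s) (j : ℕ) :
    E ((x ^ 2)⁻¹) F (fun ω => iX (2 * j + 1) R ω.1) ≤ (1 - p ^ Y.card) ^ j := by
  have hc : 1 ≤ (x ^ 2)⁻¹ := (one_le_inv₀ (by positivity)).2 (pow_le_one₀ hx0.le hx1)
  have hp0 := hR.p0
  have hp1 := hR.p1
  have hq : 0 ≤ 1 - p ^ Y.card := by
    have : p ^ Y.card ≤ 1 := pow_le_one₀ hp0.le (by linarith)
    linarith
  induction j with
  | zero =>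
    rw [pow_zero, ← E_const hc F 1]
    exact E_mono hc fun ω _ => iX_le_one _ _ _
  | succ j ih =>
    have h1 := rec_step hx0 hx1 hF (m := 2 * j + 1) (R := R) (by omega)
    have e : 2 * (j + 1) + 1 = 2 * j + 1 + 2 := by ring
    rw [e, pow_succ]
    refine h1.trans (mul_le_mul ih (gr_le hc hR hF hs hsR hY) ?_ (pow_nonneg hq j))
    exact E_nonneg hc fun ω _ => iGr_nonneg F R ω

end Crest.Agent.R144.Tig425
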