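import Crest.Agent.R144.Rw1_146
import Crest.Agent.R144.Zs2_349

/-!
# R144, integer models: innermost plus-closed layer (helper643), geometry

* `Xi B ω` : the cluster of not-plus-closed triangles of the seed `B`;
* `Wf F₁ B ω` : the filled cluster (triangles of `F₁` which cannot leave `F₁` without meeting `Xi`);
* `sc_Wf`, `conn_Wf`, `layer_Wf` : it is simply connected, connected to `B`, all its outer neighbours
  are plus-closed;
* `Wf_congr` : it is a function of the plus-closed triangles inside.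
-/

set_option autoImplicit false

noncomputable section

namespace Crest.Agent.R144.Tvp643

open Finset
open Crest.Agent.R144.It844 (P2 adj_iff adj_symm)
open Crest.Agent.R144.Zg349 Crest.Agent.R144.Zd349 Crest.Agent.R144.Zm349 Crest.Agent.R144.Ze349
open Crest.Agent.R144.Zf349
open Crest.Agent.R144.Pst967 (hexB mem_hexB hexB_mono conn_hexB stepIn_symm path_symm)
open Crest.Agent.R144.Rsw867
open Crest.Agent.R144.Rw146 (adj_iff_share)
open Crest.ProbabilityR.HexHeights (Adj)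

/-! ### the whole lattice is connected -/

theorem path_right (a : P2) (n : ℕ) :
    Relation.ReflTransGen (StepIn Set.univ) a (a.1 + n, a.2) := by
  induction n with
  | zero => simpa using (Relation.ReflTransGen.refl : Relation.ReflTransGen (StepIn Set.univ) a a)
  | succ n ih =>
    refine ih.tail ⟨Set.mem_univ _, Set.mem_univ _, adj_iff.2 (Or.inl ?_)⟩
    refine Prod.ext ?_ rfl
    push_cast
    ring

theorem path_up (a : P2) (n : ℕ) :
    Relation.ReflTransGen (StepIn Set.univ) a (a.1, a.2 + n) := by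
  induction n with
  | zero => simpa using (Relation.ReflTransGen.refl : Relation.ReflTransGen (StepIn Set.univ) a a)
  | succ n ih =>
    refine ih.tail ⟨Set.mem_univ _, Set.mem_univ _, adj_iff.2 (Or.inr (Or.inr (Or.inl ?_)))⟩
    refine Prod.ext rfl ?_
    push_cast
    ring

theorem conn_univ (a b : P2) : Relation.ReflTransGen (StepIn Set.univ) a b := by
  have h1 : ∀ (x : P2) (k : ℤ), Relation.ReflTransGen (StepIn Set.univ) x (x.1 + k, x.2) := by
    intro x k
    rcases le_total 0 k with hk | hk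
    · obtain ⟨n, rfl⟩ := Int.eq_ofNat_of_zero_le hk
      exact path_right x n
    · obtain ⟨n, hn⟩ := Int.eq_ofNat_of_zero_le (neg_nonneg.2 hk)
      have := path_symm (path_right (x.1 + k, x.2) n)
      simp only at this
      rw [show x.1 + k + (n : ℤ) = x.1 by rw [← hn]; ring] at this
      exact this
  have h2 : ∀ (x : P2) (k : ℤ), Relation.ReflTransGen (StepIn Set.univ) x (x.1, x.2 + k) := by
    intro x k
    rcases le_total 0 k with hk | hk
    · obtain ⟨n, rfl⟩ := Int.eq_ofNat_of_zero_le hk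
      exact path_up x n
    · obtain ⟨n, hn⟩ := Int.eq_ofNat_of_zero_le (neg_nonneg.2 hk)
      have := path_symm (path_up (x.1, x.2 + k) n)
      simp only at this
      rw [show x.2 + k + (n : ℤ) = x.2 by rw [← hn]; ring] at this
      exact this
  have h3 := h1 a (b.1 - a.1)
  have h4 := h2 (a.1 + (b.1 - a.1), a.2) (b.2 - a.2)
  have h5 : ((a.1 + (b.1 - a.1), a.2 + (b.2 - a.2)) : P2) = b := by
    ext <;> simp
  simp only at h4
  rw [h5] at h4
  exact h3.trans h4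

/-! ### filled clusters -/

/-- filling of `X` inside `F₁` -/
def fil (F₁ : Finset P2) (X : Set P2) : Set P2 :=
  {t | t ∈ F₁ ∧ ¬ ∃ u, u ∉ F₁ ∧ Relation.ReflTransGen (StepIn Xᶜ) t u}

theorem sub_fil {F₁ : Finset P2} {X : Set P2} (hX : X ⊆ F₁) : X ⊆ fil F₁ X := by
  intro t ht
  refine ⟨hX ht, ?_⟩
  rintro ⟨u, hu, h⟩
  rcases Relation.ReflTransGen.cases_head h with h | ⟨w, h, _⟩
  · exact hu (h ▸ hX ht)
  · exact h.1 ht

theorem not_fil_iff {F₁ : Finset P2} {X : Set P2} {t : P2} :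
    t ∉ fil F₁ X ↔ ∃ u, u ∉ F₁ ∧ Relation.ReflTransGen (StepIn Xᶜ) t u := by
  constructor
  · intro h
    by_cases ht : t ∈ F₁
    · by_contra h2
      exact h ⟨ht, h2⟩
    · exact ⟨t, ht, Relation.ReflTransGen.refl⟩
  · rintro h ⟨_, h2⟩
    exact h2 h

/-- the outer neighbours of the filling are neighbours of `X` -/
theorem fil_bd {F₁ : Finset P2} {X : Set P2} (hX : X ⊆ F₁) {t t' : P2} (ht : t ∉ fil F₁ X)
    (ht' : t' ∈ fil F₁ X) (h : Adj t' t) : t' ∈ X := by
  by_contra h1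
  obtain ⟨u, hu, hp⟩ := not_fil_iff.1 ht
  exact ht'.2 ⟨u, hu, (Relation.ReflTransGen.single ⟨h1, fun h2 => ht (sub_fil hX h2), h⟩).trans hp⟩

/-- points off the filling are connected to the outside of `F₁` off the filling -/
theorem path_fil {F₁ : Finset P2} {X : Set P2} (hX : X ⊆ F₁) {t : P2} (ht : t ∉ fil F₁ X) :
    ∃ u, u ∉ F₁ ∧ Relation.ReflTransGen (StepIn (fil F₁ X)ᶜ) t u := by
  obtain ⟨u, hu, hp⟩ := not_fil_iff.1 ht
  refine ⟨u, hu, ?_⟩
  clear ht
  induction hp using Relation.ReflTransGen.head_induction_on with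
  | refl => exact Relation.ReflTransGen.refl
  | @head a b hab hbu ih =>
    refine Relation.ReflTransGen.head ⟨?_, ?_, hab.2.2⟩ ih
    · exact not_fil_iff.2 ⟨u, hu, Relation.ReflTransGen.head hab hbu⟩
    · exact not_fil_iff.2 ⟨u, hu, hbu⟩

theorem conn_fil_compl {F₁ : Finset P2} (hF : SC F₁) {X : Set P2} (hX : X ⊆ F₁) :
    IsConn (fil F₁ X)ᶜ := by
  intro a ha b hb
  obtain ⟨u, hu, h1⟩ := path_fil hX ha
  obtain ⟨v, hv, h2⟩ := path_fil hX hb
  have h3 : Relation.ReflTransGen (StepIn (fil F₁ X)ᶜ) u v :=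
    path_mono (S := ((F₁ : Finset P2) : Set P2)ᶜ) (T := (fil F₁ X)ᶜ)
      (fun x hx h => hx (Finset.mem_coe.2 h.1)) (hF u hu v hv)
  exact (h1.trans h3).trans (path_symm h2)

/-- a point of the filling is connected to `X` inside the filling -/
theorem fil_to {F₁ : Finset P2} {X : Set P2} (hX : X ⊆ F₁) {t x : P2} (hx : x ∈ X)
    (ht : t ∈ fil F₁ X) : ∃ y ∈ X, Relation.ReflTransGen (StepIn (fil F₁ X)) t y := by
  have key : ∀ a b : P2, Relation.ReflTransGen (StepIn Set.univ) a b → a ∈ fil F₁ X →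
      (∃ y ∈ X, Relation.ReflTransGen (StepIn (fil F₁ X)) a y) ∨
        (b ∈ fil F₁ X ∧ Relation.ReflTransGen (StepIn (fil F₁ X)) a b) := by
    intro a b hab ha
    induction hab with
    | refl => exact Or.inr ⟨ha, Relation.ReflTransGen.refl⟩
    | @tail b d _ hbd ih =>
      rcases ih with h1 | ⟨hb, h1⟩
      · exact Or.inl h1
      · by_cases hbX : b ∈ X
        · exact Or.inl ⟨b, hbX, h1⟩
        · have hd : d ∈ fil F₁ X := by
            by_contra hd
            exact hbX (fil_bd hX hd hb hbd.2.2)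
          exact Or.inr ⟨hd, h1.tail ⟨hb, hd, hbd.2.2⟩⟩
  rcases key t x (conn_univ t x) ht with h | ⟨_, h⟩
  · exact h
  · exact ⟨x, hx, h⟩

/-! ### the innermost layer -/

/-- the cluster of not-plus-closed triangles of the seed `B` -/
def Xi (B : Finset P2) (ω : Cfg) : Set P2 :=
  {t | ∃ v ∈ B, Relation.ReflTransGen (StepIn ({t | ¬ pC ω t} ∪ (B : Set P2))) v t}

theorem seed_sub_Xi (B : Finset P2) (ω : Cfg) : (B : Set P2) ⊆ Xi B ω := fun v hv =>
  ⟨v, hv, Relation.ReflTransGen.refl⟩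

theorem Xi_sub (B : Finset P2) (ω : Cfg) : Xi B ω ⊆ {t | ¬ pC ω t} ∪ (B : Set P2) := by
  rintro t ⟨v, hv, h⟩
  rcases Relation.ReflTransGen.cases_tail h with h | ⟨w, _, h⟩
  · exact Or.inr (h ▸ hv)
  · exact h.2.1

theorem Xi_step {B : Finset P2} {ω : Cfg} {t t' : P2} (ht : t ∈ Xi B ω) (h : Adj t t')
    (hp : ¬ pC ω t') : t' ∈ Xi B ω := by
  obtain ⟨v, hv, hp'⟩ := ht
  exact ⟨v, hv, hp'.tail ⟨Xi_sub B ω ⟨v, hv, hp'⟩, Or.inl hp, h⟩⟩

/-- every point of `Xi` is connected to the seed inside `Xi` -/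
theorem Xi_conn {B : Finset P2} {ω : Cfg} {t : P2} (ht : t ∈ Xi B ω) :
    ∃ v ∈ B, Relation.ReflTransGen (StepIn (Xi B ω)) v t := by
  obtain ⟨v, hv, h⟩ := ht
  refine ⟨v, hv, ?_⟩
  induction h with
  | refl => exact Relation.ReflTransGen.refl
  | @tail b d hvb hbd ih =>
    exact ih.tail ⟨⟨v, hv, hvb⟩, ⟨v, hv, hvb.tail hbd⟩, hbd.2.2⟩

open Classical in
/-- the filled cluster -/
def Wf (F₁ B : Finset P2) (ω : Cfg) : Finset P2 := F₁.filter fun t => t ∈ fil F₁ (Xi B ω)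

theorem coe_Wf {F₁ B : Finset P2} {ω : Cfg} : ((Wf F₁ B ω : Finset P2) : Set P2) = fil F₁ (Xi B ω) := by
  classical
  ext t
  rw [Wf, Finset.mem_coe, Finset.mem_filter, and_iff_right_iff_imp]
  exact fun h => h.1

theorem mem_Wf {F₁ B : Finset P2} {ω : Cfg} {t : P2} : t ∈ Wf F₁ B ω ↔ t ∈ fil F₁ (Xi B ω) := by
  rw [← coe_Wf, Finset.mem_coe]

theorem Wf_sub (F₁ B : Finset P2) (ω : Cfg) : Wf F₁ B ω ⊆ F₁ := fun _ ht => (mem_Wf.1 ht).1

section
variable {F₁ B : Finset P2} {ω : Cfg} (hX : Xi B ω ⊆ (F₁ : Set P2))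
include hX

theorem sc_Wf (hF : SC F₁) : SC (Wf F₁ B ω) := by
  unfold SC
  rw [coe_Wf]
  exact conn_fil_compl hF hX

theorem Xi_sub_Wf {t : P2} (ht : t ∈ Xi B ω) : t ∈ Wf F₁ B ω := mem_Wf.2 (sub_fil hX ht)

theorem seed_sub_Wf : B ⊆ Wf F₁ B ω := fun _ ht => Xi_sub_Wf hX (seed_sub_Xi B ω ht)

/-- outer neighbours of the filled cluster are plus closed -/
theorem layer_Wf {t t' : P2} (ht : t ∉ Wf F₁ B ω) (ht' : t' ∈ Wf F₁ B ω) (h : Adj t' t) : pC ω t := by
  by_contra hp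
  have h1 : t' ∈ Xi B ω := fil_bd hX (fun h => ht (mem_Wf.2 h)) (mem_Wf.1 ht') h
  exact ht (Xi_sub_Wf hX (Xi_step h1 h hp))

/-- the filled cluster is connected to the seed -/
theorem conn_Wf (hB : B.Nonempty) {t : P2} (ht : t ∈ Wf F₁ B ω) :
    ∃ v ∈ B, Relation.ReflTransGen (StepIn (Wf F₁ B ω : Set P2)) v t := by
  obtain ⟨b, hb⟩ := hB
  obtain ⟨y, hy, h1⟩ := fil_to hX (seed_sub_Xi B ω hb) (mem_Wf.1 ht)
  obtain ⟨v, hv, h2⟩ := Xi_conn hy
  refine ⟨v, hv, (path_mono (fun x hx => ?_) h2).trans (path_symm (path_mono (fun x hx => ?_) h1))⟩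
  · exact Finset.mem_coe.2 (Xi_sub_Wf hX hx)
  · rw [coe_Wf]; exact hx

end

/-- the cluster does not leave a set with plus closed outer neighbours -/
theorem Xi_sub_of {B W : Finset P2} {ω : Cfg} (hBW : B ⊆ W)
    (hL : ∀ t, t ∉ W → ∀ t' ∈ W, Adj t' t → pC ω t) : Xi B ω ⊆ (W : Set P2) := by
  rintro t ⟨v, hv, h⟩
  induction h with
  | refl => exact hBW hv
  | @tail b d _ hbd ih =>
    by_contra hd
    rcases hbd.2.1 with h | h
    · exact h (hL d hd b ih hbd.2.2)
    · exact hd (hBW h)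

/-- `Xi` only depends on the plus closed triangles inside -/
theorem Xi_congr {B W : Finset P2} {ω ω' : Cfg} (hBW : B ⊆ W)
    (hL : ∀ t, t ∉ W → ∀ t' ∈ W, Adj t' t → pC ω t) (h : ∀ t ∈ W, (pC ω t ↔ pC ω' t)) :
    Xi B ω ⊆ Xi B ω' := by
  rintro t ⟨v, hv, hp⟩
  have key : ∀ b, Relation.ReflTransGen (StepIn ({t | ¬ pC ω t} ∪ (B : Set P2))) v b →
      b ∈ W ∧ Relation.ReflTransGen (StepIn ({t | ¬ pC ω' t} ∪ (B : Set P2))) v b := by
    intro b hb
    have hbW : b ∈ W := Xi_sub_of hBW hL ⟨v, hv, hb⟩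
    refine ⟨hbW, ?_⟩
    clear hbW
    induction hb with
    | refl => exact Relation.ReflTransGen.refl
    | @tail b d hvb hbd ih =>
      have hb : b ∈ W := Xi_sub_of hBW hL ⟨v, hv, hvb⟩
      have hd : d ∈ W := Xi_sub_of hBW hL ⟨v, hv, hvb.tail hbd⟩
      refine ih.tail ⟨?_, ?_, hbd.2.2⟩
      · rcases hbd.1 with h1 | h1
        · exact Or.inl fun h2 => h1 ((h b hb).2 h2)
        · exact Or.inr h1
      · rcases hbd.2.1 with h1 | h1
        · exact Or.inl fun h2 => h1 ((h d hd).2 h2)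
        · exact Or.inr h1
  exact ⟨v, hv, (key t hp).2⟩

theorem Xi_eq {B W : Finset P2} {ω ω' : Cfg} (hBW : B ⊆ W)
    (hL : ∀ t, t ∉ W → ∀ t' ∈ W, Adj t' t → pC ω t)
    (hL' : ∀ t, t ∉ W → ∀ t' ∈ W, Adj t' t → pC ω' t)
    (h : ∀ t ∈ W, (pC ω t ↔ pC ω' t)) : Xi B ω = Xi B ω' :=
  Set.Subset.antisymm (Xi_congr hBW hL h) (Xi_congr hBW hL' fun t ht => (h t ht).symm)

/-- a blocking layer of 867 -/
theorem Xi_sub_ball {a : P2} {m N : ℕ} (hmN : m + 1 ≤ N) {ω : Cfg} (h : ω ∈ BlkP a (m + 1) N) :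
    Xi (ball a m) ω ⊆ (ball a N : Set P2) := by
  rintro t ⟨v, hv, hp⟩
  by_contra ht
  have key : ∀ b, Relation.ReflTransGen (StepIn ({t | ¬ pC ω t} ∪ (ball a m : Set P2))) v b →
      b ∈ ball a m ∨ ∃ w ∈ ball a (m + 1), Relation.ReflTransGen (StepIn {t | pC ω t}ᶜ) w b := by
    intro b hb
    induction hb with
    | refl => exact Or.inl hv
    | @tail b d _ hbd ih =>
      by_cases hd : d ∈ ball a m
      · exact Or.inl hd
      · have hd' : ¬ pC ω d := by
          rcases hbd.2.1 with h1 | h1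
          · exact h1
          · exact absurd h1 hd
        rcases ih with h1 | ⟨w, hw, h1⟩
        · exact Or.inr ⟨d, adj_ball h1 hbd.2.2, Relation.ReflTransGen.refl⟩
        · rcases hbd.1 with h2 | h2
          · exact Or.inr ⟨w, hw, h1.tail ⟨h2, hd', hbd.2.2⟩⟩
          · exact Or.inr ⟨d, adj_ball h2 hbd.2.2, Relation.ReflTransGen.refl⟩
  rcases key t hp with h1 | ⟨w, hw, h1⟩
  · exact ht (ball_mono a (by omega) h1)
  · exact h t w ht hw (path_symm h1)

end Crest.Agent.R144.Tvp643
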