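import Crest.Agent.R144.Tvp1_643

/-!
# R144, integer models: total variation closeness of maximal laws (helper643)

Innermost plus-closed layer around a seed `B`: `E_F[f ; W] = P_F(layer of W) * E_W[f ; W]`, and
`P_F(layer of W)` is decreasing in `F`. Hence for `F₁ ⊆ F₂` and every `0 ≤ f ≤ 1` seen from `B`:
`|E c F₁ f - E c F₂ f| ≤ E c F₂ (no layer)`.
-/

set_option autoImplicit false

noncomputable section

namespace Crest.Agent.R144.Tvp643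

open Finset
open Crest.Agent.R144.It844 (P2 adj_iff adj_symm)
open Crest.Agent.R144.Zg349 Crest.Agent.R144.Zk349 Crest.Agent.R144.Zd349 Crest.Agent.R144.Zm349
open Crest.Agent.R144.Ze349
open Crest.Agent.R144.Zf349 Crest.Agent.R144.Zs349
open Crest.Agent.R144.Pst967 (hexB mem_hexB hexB_mono conn_hexB stepIn_symm path_symm)
open Crest.Agent.R144.Rsw867
open Crest.Agent.R144.Rw146 (adj_iff_share)
open Crest.ProbabilityR.HexHeights (Adj)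

/-! ### layer event -/

/-- all triangles off `W` touching `W` are plus closed -/
def LP (W : Finset P2) : Set Cfg := {ω | ∀ t, t ∉ W → (∃ v ∈ VF W, v ∈ up t) → pC ω t}

theorem touch_of_adj {W : Finset P2} {t t' : P2} (ht' : t' ∈ W) (h : Adj t' t) :
    ∃ v ∈ VF W, v ∈ up t := by
  obtain ⟨_, v, h1, h2⟩ := adj_iff_share.1 h
  exact ⟨v, mem_VF.2 ⟨t', ht', h1⟩, h2⟩

theorem adj_of_touch {W : Finset P2} {t : P2} (ht : t ∉ W) (h : ∃ v ∈ VF W, v ∈ up t) :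
    ∃ t' ∈ W, Adj t' t := by
  obtain ⟨v, hv, hvt⟩ := h
  obtain ⟨t', ht', hv'⟩ := mem_VF.1 hv
  exact ⟨t', ht', adj_iff_share.2 ⟨fun e => ht (e ▸ ht'), v, hv', hvt⟩⟩

theorem LP.mono {W : Finset P2} {ω ω' : Cfg} (h : LeP ω ω') (hω : ω ∈ LP W) : ω' ∈ LP W :=
  fun t ht h1 => h.p t (hω t ht h1)

theorem offTZ_LP (W : Finset P2) : OffTZ W (ind (LP W)) := by
  intro ω ω' h1 h2
  refine ind_congr ⟨fun h t ht h3 => ?_, fun h t ht h3 => ?_⟩
  · obtain ⟨a, b⟩ := h t ht h3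
    exact ⟨by rw [← h2 t ht]; exact a, by rw [← h1 t fun h => ht (IV_sub W h)]; exact b⟩
  · obtain ⟨a, b⟩ := h t ht h3
    exact ⟨by rw [h2 t ht]; exact a, by rw [h1 t fun h => ht (IV_sub W h)]; exact b⟩

theorem lay_of_LP {c : ℝ} {F W : Finset P2} {ω : Cfg} (hω : Valid F ω) (hw : wt c F ω ≠ 0)
    (h : ω ∈ LP W) : Lay true W ω := lay_of hω hw h

theorem LP_of_lay {W : Finset P2} {ω : Cfg} (h : Lay true W ω) : ω ∈ LP W := fun t ht h1 =>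
  ⟨(h t ht h1).1, (h t ht h1).2 t (base_mem_up t)⟩

theorem pC_of_valid {W : Finset P2} {ω : Cfg} (h : Valid W ω) {t : P2} (ht : t ∉ W) : pC ω t :=
  ⟨h.cl t ht, h.ht.s1_bd fun h' => ht (IV_sub W h')⟩

/-! ### cluster events -/

/-- the filled cluster of `B` is `W` -/
def DW (F₁ B W : Finset P2) : Set Cfg := {ω | Xi B ω ⊆ (F₁ : Set P2) ∧ Wf F₁ B ω = W}

/-- possible filled clusters -/
structure Nice (F₁ B W : Finset P2) : Prop where
  sc : SC W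
  seed : B ⊆ W
  sub : W ⊆ F₁
  conn : IsConn (W : Set P2)

theorem nice_of_DW {F₁ B W : Finset P2} (hF : SC F₁) (hB : B.Nonempty) (hBc : IsConn (B : Set P2))
    {ω : Cfg} (h : ω ∈ DW F₁ B W) : Nice F₁ B W := by
  obtain ⟨h1, rfl⟩ := h
  refine ⟨sc_Wf h1 hF, seed_sub_Wf h1, Wf_sub _ _ _, fun a ha b hb => ?_⟩
  obtain ⟨v, hv, hp⟩ := conn_Wf h1 hB (Finset.mem_coe.1 ha)
  obtain ⟨w, hw, hq⟩ := conn_Wf h1 hB (Finset.mem_coe.1 hb)
  have h2 := path_mono (Finset.coe_subset.2 (seed_sub_Wf h1)) (hBc v hv w hw)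
  exact ((path_symm hp).trans h2).trans hq

theorem LP_of_DW {F₁ B W : Finset P2} {ω : Cfg} (h : ω ∈ DW F₁ B W) : ω ∈ LP W := by
  obtain ⟨h1, rfl⟩ := h
  intro t ht h2
  obtain ⟨t', ht', h3⟩ := adj_of_touch ht h2
  exact layer_Wf h1 ht ht' h3

theorem pC_glue {W : Finset P2} {ω ω' : Cfg} (hW : SC W) (hl : It844.Lip ω.1) (hL : Lay true W ω)
    {t : P2} (ht : t ∈ W) : pC (glue true W ω ω') t ↔ pC ω' t := by
  have hv : t ∈ VF W := mem_VF.2 ⟨t, ht, base_mem_up t⟩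
  unfold pC
  rw [glue_z ht, glue_in hv, s1_lev (lev_mod hW hl hL hv)]

theorem Xi_glue {F₁ B W : Finset P2} {ω ω' : Cfg} (hN : Nice F₁ B W) (hl : It844.Lip ω.1)
    (hL : Lay true W ω) (hω' : Valid W ω') : Xi B (glue true W ω ω') = Xi B ω' := by
  refine Xi_eq hN.seed (fun t ht t' ht' h => ?_) (fun t ht _ _ _ => pC_of_valid hω' ht)
    fun t ht => pC_glue hN.sc hl hL ht
  exact LP_of_lay (glue_lay hN.sc hl hL hω') t ht (touch_of_adj ht' h)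

theorem DW_glue {F₁ B W : Finset P2} {ω ω' : Cfg} (hN : Nice F₁ B W) (hl : It844.Lip ω.1)
    (hL : Lay true W ω) (hω' : Valid W ω') :
    glue true W ω ω' ∈ DW F₁ B W ↔ ω' ∈ DW F₁ B W := by
  have e := Xi_glue hN hl hL hω'
  have e2 : Wf F₁ B (glue true W ω ω') = Wf F₁ B ω' := by
    ext t
    rw [mem_Wf, mem_Wf, e]
  constructor
  · rintro ⟨h1, h2⟩
    exact ⟨e ▸ h1, e2 ▸ h2⟩
  · rintro ⟨h1, h2⟩
    exact ⟨by rw [e]; exact h1, by rw [e2]; exact h2⟩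

/-! ### one term -/

theorem step {c : ℝ} (hc : 1 ≤ c) {F F₁ B W : Finset P2} (hN : Nice F₁ B W) (hWF : W ⊆ F)
    {Q : Set Cfg} (ho : OffTZ W (ind Q)) {f : Cfg → ℝ}
    (hf : ∀ ω ω', Valid F ω → Lay true W ω → Valid W ω' → ω ∈ Q → f (glue true W ω ω') = f ω') :
    E c F (fun ω => ind (DW F₁ B W) ω * ind Q ω * f ω) =
      E c W (fun ω' => ind (DW F₁ B W) ω' * f ω') * E c F (fun ω => ind (LP W) ω * ind Q ω) := by
  have h1 := E_dec (e := true) hc hN.sc hWF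
    (Ψ := fun ω => ind (DW F₁ B W) ω * ind Q ω * f ω)
    (g := fun ω => ind (LP W) ω * ind Q ω)
    (φ := fun _ ω' => ind (DW F₁ B W) ω' * f ω') ?_ ?_
  · rw [h1, ← E_smul]
    congr 1
    funext ω
    ring
  · intro ω hω hw hL
    have a : ω ∉ LP W := fun h => hL (lay_of_LP hω hw h)
    have b : ω ∉ DW F₁ B W := fun h => a (LP_of_DW h)
    exact ⟨by rw [ind_of_not_mem b, zero_mul, zero_mul], by rw [ind_of_not_mem a, zero_mul]⟩
  · intro ω ω' hω hw hL hω'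
    have hl := hω.ht.toLip
    have a : ind Q (glue true W ω ω') = ind Q ω := offTZ_glue hN.sc hl hL hω' ho
    have b : ind (DW F₁ B W) (glue true W ω ω') = ind (DW F₁ B W) ω' :=
      ind_congr (DW_glue hN hl hL hω')
    show ind (DW F₁ B W) (glue true W ω ω') * ind Q (glue true W ω ω') * f (glue true W ω ω') =
      ind (LP W) ω * ind Q ω * (ind (DW F₁ B W) ω' * f ω')
    rw [a, b, ind_of_mem (LP_of_lay hL)]
    by_cases hq : ω ∈ Q
    · rw [hf ω ω' hω hL hω' hq]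
      ring
    · rw [ind_of_not_mem hq]
      ring

/-! ### the sum over the possible clusters -/

/-- good event: the cluster stays in `F₁` and `Q` holds for its filling -/
def Gd (F₁ B : Finset P2) (Q : Finset P2 → Set Cfg) : Set Cfg :=
  {ω | Xi B ω ⊆ (F₁ : Set P2) ∧ ω ∈ Q (Wf F₁ B ω)}

theorem sum_DW {F₁ B : Finset P2} (Q : Finset P2 → Set Cfg) (f : Cfg → ℝ) (ω : Cfg) :
    ind (Gd F₁ B Q) ω * f ω =
      ∑ W ∈ F₁.powerset, ind (DW F₁ B W) ω * ind (Q W) ω * f ω := by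
  by_cases h : Xi B ω ⊆ (F₁ : Set P2)
  · rw [Finset.sum_eq_single (Wf F₁ B ω)]
    · rw [ind_of_mem (show ω ∈ DW F₁ B (Wf F₁ B ω) from ⟨h, rfl⟩), one_mul]
      congr 1
      exact ind_congr ⟨fun h => h.2, fun h' => ⟨h, h'⟩⟩
    · intro W _ hW
      rw [ind_of_not_mem (fun h' => hW h'.2.symm), zero_mul, zero_mul]
    · intro h'
      exact absurd (Finset.mem_powerset.2 (Wf_sub F₁ B ω)) h'
  · rw [ind_of_not_mem (fun h' => h h'.1), zero_mul]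
    symm
    apply Finset.sum_eq_zero
    intro W _
    rw [ind_of_not_mem (fun h' => h h'.1), zero_mul, zero_mul]

theorem tv_gen {c : ℝ} (hc : 1 ≤ c) {F₁ F₂ B : Finset P2} (h1 : SC F₁) (h2 : SC F₂) (h12 : F₁ ⊆ F₂)
    (hB : B.Nonempty) (hBc : IsConn (B : Set P2)) {Q₁ Q₂ : Finset P2 → Set Cfg}
    (hQ : ∀ W, W ⊆ F₁ → Q₂ W ⊆ Q₁ W)
    (hi : ∀ W ω ω', LeP ω ω' → ω ∈ Q₁ W → ω' ∈ Q₁ W)
    (ho1 : ∀ W, OffTZ W (ind (Q₁ W))) (ho2 : ∀ W, OffTZ W (ind (Q₂ W)))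
    {f : Cfg → ℝ} (f0 : ∀ ω, 0 ≤ f ω)
    (hf1 : ∀ W, Nice F₁ B W → ∀ ω ω', Valid F₁ ω → Lay true W ω → Valid W ω' → ω ∈ Q₁ W →
      f (glue true W ω ω') = f ω')
    (hf2 : ∀ W, Nice F₁ B W → ∀ ω ω', Valid F₂ ω → Lay true W ω → Valid W ω' → ω ∈ Q₂ W →
      f (glue true W ω ω') = f ω') :
    E c F₂ (fun ω => ind (Gd F₁ B Q₂) ω * f ω) ≤ E c F₁ (fun ω => ind (Gd F₁ B Q₁) ω * f ω) := by
  have e2 : (fun ω => ind (Gd F₁ B Q₂) ω * f ω) =
      fun ω => ∑ W ∈ F₁.powerset, ind (DW F₁ B W) ω * ind (Q₂ W) ω * f ω := by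
    funext ω; exact sum_DW Q₂ f ω
  have e1 : (fun ω => ind (Gd F₁ B Q₁) ω * f ω) =
      fun ω => ∑ W ∈ F₁.powerset, ind (DW F₁ B W) ω * ind (Q₁ W) ω * f ω := by
    funext ω; exact sum_DW Q₁ f ω
  rw [e1, e2, E_sum, E_sum]
  refine Finset.sum_le_sum fun W hW => ?_
  by_cases hN : Nice F₁ B W
  · rw [step hc hN (hN.sub.trans h12) (ho2 W) (hf2 W hN), step hc hN hN.sub (ho1 W) (hf1 W hN)]
    refine mul_le_mul_of_nonneg_left ?_ (E_nonneg hc fun ω _ => mul_nonneg (ind_nonneg _ _) (f0 ω))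
    refine (E_mono hc fun ω _ => ?_).trans (dom_mono hc h1 h2 h12
      (f := fun ω => ind (LP W) ω * ind (Q₁ W) ω) fun ω ω' h => ?_)
    · exact mul_le_mul_of_nonneg_left (ind_le_ind fun h => hQ W hN.sub h) (ind_nonneg _ _)
    · exact mul_le_mul (ind_le_ind fun h' => LP.mono h h') (ind_le_ind fun h' => hi W ω ω' h h')
        (ind_nonneg _ _) (ind_nonneg _ _)
  · have key : ∀ ω, ind (DW F₁ B W) ω = 0 := fun ω =>
      ind_of_not_mem fun h => hN (nice_of_DW h1 hB hBc h)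
    simp only [key, zero_mul]
    exact le_of_eq (by rw [E_const hc, E_const hc])

/-- total variation bound, abstract form -/
theorem tv_abs {c : ℝ} (hc : 1 ≤ c) {F₁ F₂ B : Finset P2} (h1 : SC F₁) (h2 : SC F₂) (h12 : F₁ ⊆ F₂)
    (hB : B.Nonempty) (hBc : IsConn (B : Set P2)) {Q₁ Q₂ : Finset P2 → Set Cfg}
    (hQ : ∀ W, W ⊆ F₁ → Q₂ W ⊆ Q₁ W)
    (hi : ∀ W ω ω', LeP ω ω' → ω ∈ Q₁ W → ω' ∈ Q₁ W)
    (ho1 : ∀ W, OffTZ W (ind (Q₁ W))) (ho2 : ∀ W, OffTZ W (ind (Q₂ W)))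
    {f : Cfg → ℝ} (f0 : ∀ ω, 0 ≤ f ω) (f1 : ∀ ω, f ω ≤ 1)
    (hf1 : ∀ W, Nice F₁ B W → ∀ ω ω', Valid F₁ ω → Lay true W ω → Valid W ω' → ω ∈ Q₁ W →
      f (glue true W ω ω') = f ω')
    (hf2 : ∀ W, Nice F₁ B W → ∀ ω ω', Valid F₂ ω → Lay true W ω → Valid W ω' → ω ∈ Q₂ W →
      f (glue true W ω ω') = f ω') :
    |E c F₁ f - E c F₂ f| ≤ E c F₂ (ind (Gd F₁ B Q₂)ᶜ) := by
  have main : ∀ g : Cfg → ℝ, (∀ ω, 0 ≤ g ω) → (∀ ω, g ω ≤ 1) →
      (∀ W, Nice F₁ B W → ∀ ω ω', Valid F₁ ω → Lay true W ω → Valid W ω' → ω ∈ Q₁ W →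
        g (glue true W ω ω') = g ω') →
      (∀ W, Nice F₁ B W → ∀ ω ω', Valid F₂ ω → Lay true W ω → Valid W ω' → ω ∈ Q₂ W →
        g (glue true W ω ω') = g ω') →
      E c F₂ g ≤ E c F₁ g + E c F₂ (ind (Gd F₁ B Q₂)ᶜ) := by
    intro g g0 g1 hg1 hg2
    have a := tv_gen hc h1 h2 h12 hB hBc hQ hi ho1 ho2 g0 hg1 hg2
    have b : E c F₁ (fun ω => ind (Gd F₁ B Q₁) ω * g ω) ≤ E c F₁ g :=
      E_mono hc fun ω _ => mul_le_of_le_one_left (g0 ω) (ind_le_one _ _)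
    have d : E c F₂ g ≤ E c F₂ (fun ω => ind (Gd F₁ B Q₂) ω * g ω + ind (Gd F₁ B Q₂)ᶜ ω) := by
      refine E_mono hc fun ω _ => ?_
      rw [ind_compl]
      have p1 := ind_nonneg (Gd F₁ B Q₂) ω
      have p2 := ind_le_one (Gd F₁ B Q₂) ω
      nlinarith [g0 ω, g1 ω]
    rw [E_add] at d
    linarith
  have p := main f f0 f1 hf1 hf2
  have q := main (fun ω => 1 - f ω) (fun ω => sub_nonneg.2 (f1 ω)) (fun ω => by linarith [f0 ω])
    (fun W hN ω ω' a b d e => by rw [hf1 W hN ω ω' a b d e])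
    (fun W hN ω ω' a b d e => by rw [hf2 W hN ω ω' a b d e])
  rw [E_sub, E_sub, E_const hc, E_const hc] at q
  rw [abs_le]
  constructor <;> linarith

end Crest.Agent.R144.Tvp643
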