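import Crest.Agent.R144.Tvp2_643

/-!
# R144, integer models: total variation closeness of maximal laws (helper643), final forms

* `tv_neutral` (T1) : `f` invariant under the shifts by `4 k` :
  `|E c F₁ f - E c F₂ f| ≤ E c F₂ (no plus-closed layer in A(m + 1, N))`;
* `tv_heights` (T2) : any `f` (true heights), on the event that the ball is joined to the outside by a
  path of plus sites;
* `tv_neutral'`, `tv_heights'` : `|f| ≤ C`.
-/

set_option autoImplicit false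

noncomputable section

namespace Crest.Agent.R144.Tvp643

open Finset
open Crest.Agent.R144.It844 (P2 adj_iff adj_symm)
open Crest.Agent.R144.Zg349 Crest.Agent.R144.Zk349 Crest.Agent.R144.Zd349 Crest.Agent.R144.Zm349
open Crest.Agent.R144.Ze349
open Crest.Agent.R144.Zf349 Crest.Agent.R144.Zs349
open Crest.Agent.R144.Pst967 (hexB mem_hexB hexB_mono conn_hexB stepIn_symm path_symm path_h path_v)
open Crest.Agent.R144.Rsw867
open Crest.Agent.R144.Rw146 (adj_iff_share)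
open Crest.ProbabilityR.HexHeights (Adj)

/-! ### balls are connected -/

theorem conn_in_hexB (n : ℕ) {v : P2} (hv : v ∈ hexB n) :
    Relation.ReflTransGen (StepIn (hexB n : Set P2)) v 0 := by
  obtain ⟨x, y⟩ := v
  rw [mem_hexB] at hv
  simp only [abs_le] at hv
  have hmem : ∀ a b : ℤ, ((-(n : ℤ) ≤ a ∧ a ≤ n) ∧ (-(n : ℤ) ≤ b ∧ b ≤ n) ∧
      (-(n : ℤ) ≤ a + b ∧ a + b ≤ n)) → ((a, b) : P2) ∈ (hexB n : Set P2) := by
    intro a b h
    rw [Finset.mem_coe, mem_hexB]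
    simp only [abs_le]
    exact h
  refine (path_h y x 0 fun t h1 h2 => hmem t y ?_).trans (path_v 0 y 0 fun t h1 h2 => hmem 0 t ?_)
  · rcases le_total x 0 with h | h
    · rw [min_eq_left h] at h1
      rw [max_eq_right h] at h2
      omega
    · rw [min_eq_right h] at h1
      rw [max_eq_left h] at h2
      omega
  · rcases le_total y 0 with h | h
    · rw [min_eq_left h] at h1
      rw [max_eq_right h] at h2
      omega
    · rw [min_eq_right h] at h1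
      rw [max_eq_left h] at h2
      omega

theorem conn_ball (a : P2) (n : ℕ) : IsConn ((ball a n : Finset P2) : Set P2) := by
  have h := conn_shift a (S := ((hexB n : Finset P2) : Set P2))
    fun u hu v hv => (conn_in_hexB n (Finset.mem_coe.1 hu)).trans
      (path_symm (conn_in_hexB n (Finset.mem_coe.1 hv)))
  have e : {v : P2 | v - a ∈ ((hexB n : Finset P2) : Set P2)} = ((ball a n : Finset P2) : Set P2) := by
    ext v
    show (v - a ∈ ((hexB n : Finset P2) : Set P2)) ↔ v ∈ ((ball a n : Finset P2) : Set P2)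
    simp only [Finset.mem_coe, mem_ball']
  rw [e] at h
  exact h

theorem ball_nonempty (a : P2) (n : ℕ) : (ball a n).Nonempty := ⟨a, by rw [mem_ball]; simp⟩

/-! ### local observables and the level -/

/-- `f` is seen from the triangles of `B` (heights at their corners, `z`) -/
def LocB (B : Finset P2) (f : Cfg → ℝ) : Prop :=
  ∀ ω ω' : Cfg, (∀ v ∈ VF B, ω.1 v = ω'.1 v) → (∀ t ∈ B, ω.2 t = ω'.2 t) → f ω = f ω'

theorem VF_mono' {B W : Finset P2} (h : B ⊆ W) : VF B ⊆ VF W := fun v hv => by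
  obtain ⟨t, ht, hvt⟩ := mem_VF.1 hv
  exact mem_VF.2 ⟨t, h ht, hvt⟩

/-- the level is constant on connected `W` -/
theorem lev_const {W : Finset P2} (hW : SC W) (hWc : IsConn (W : Set P2)) {ω : Cfg}
    (hl : It844.Lip ω.1) (hL : Lay true W ω) {v w : P2} (hv : v ∈ VF W) (hw : w ∈ VF W) :
    lev true W ω v = lev true W ω w := by
  obtain ⟨t, ht, hvt⟩ := mem_VF.1 hv
  obtain ⟨t', ht', hwt⟩ := mem_VF.1 hw
  have tri : ∀ s ∈ W, ∀ x ∈ up s, ∀ y ∈ up s, lev true W ω x = lev true W ω y := by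
    intro s hs x hx y hy
    obtain ⟨i, rfl⟩ := mem_up_iff.1 hx
    obtain ⟨j, rfl⟩ := mem_up_iff.1 hy
    exact lev_tri hW hl hL hs i j
  have key : ∀ s, Relation.ReflTransGen (StepIn (W : Set P2)) t s →
      ∀ y ∈ up s, lev true W ω v = lev true W ω y := by
    intro s hs
    induction hs with
    | refl => exact fun y hy => tri t ht v hvt y hy
    | @tail b d _ hbd ih =>
      intro y hy
      obtain ⟨_, x, hx1, hx2⟩ := adj_iff_share.1 hbd.2.2
      rw [ih x hx1]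
      exact tri d (Finset.mem_coe.1 hbd.2.1) x hx2 y hy
  exact key t' (hWc t ht t' ht') w hwt

/-- gluing shifts a local observable by the level -/
theorem loc_glue {F₁ B W : Finset P2} (hN : Nice F₁ B W) {f : Cfg → ℝ} (hf : LocB B f) {ω ω' : Cfg}
    (hl : It844.Lip ω.1) (hL : Lay true W ω) {v : P2} (hv : v ∈ VF W) :
    f (glue true W ω ω') = f (addH (lev true W ω v) ω') := by
  refine hf _ _ (fun u hu => ?_) fun t ht => glue_z (hN.seed ht)
  have h1 : u ∈ VF W := VF_mono' hN.seed hu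
  rw [glue_in h1, lev_const hN.sc hN.conn hl hL h1 hv]
  exact add_comm _ _

/-! ### T1 -/

/-- the cluster of the seed stays in `F₁` -/
def In (F₁ B : Finset P2) : Set Cfg := {ω | Xi B ω ⊆ ((F₁ : Finset P2) : Set P2)}

theorem tv_neutral_gen {c : ℝ} (hc : 1 ≤ c) {F₁ F₂ B : Finset P2} (h1 : SC F₁) (h2 : SC F₂)
    (h12 : F₁ ⊆ F₂) (hB : B.Nonempty) (hBc : IsConn (B : Set P2)) {f : Cfg → ℝ} (hf : LocB B f)
    (hn : ∀ (k : ℤ) (ω : Cfg), f (addH (4 * k) ω) = f ω) (f0 : ∀ ω, 0 ≤ f ω) (f1 : ∀ ω, f ω ≤ 1) :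
    |E c F₁ f - E c F₂ f| ≤ E c F₂ (ind (In F₁ B)ᶜ) := by
  have key : ∀ F : Finset P2, ∀ W, Nice F₁ B W → ∀ ω ω', Valid F ω → Lay true W ω → Valid W ω' →
      ω ∈ (Set.univ : Set Cfg) → f (glue true W ω ω') = f ω' := by
    intro F W hN ω ω' hω hL hω' _
    obtain ⟨b, hb⟩ := hB
    have hv : b ∈ VF W := mem_VF.2 ⟨b, hN.seed hb, base_mem_up b⟩
    rw [loc_glue hN hf hω.ht.toLip hL hv]
    have hm := lev_mod hN.sc hω.ht.toLip hL hv
    have hm' : lev true W ω b % 4 = 0 := hm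
    obtain ⟨k, hk⟩ := Int.dvd_of_emod_eq_zero hm'
    rw [hk]
    exact hn k ω'
  have h := tv_abs hc h1 h2 h12 hB hBc (Q₁ := fun _ => Set.univ) (Q₂ := fun _ => Set.univ)
    (fun _ _ => subset_rfl) (fun _ _ _ _ _ => Set.mem_univ _)
    (fun W ω ω' _ _ => ind_congr Iff.rfl) (fun W ω ω' _ _ => ind_congr Iff.rfl) f0 f1
    (fun W hN ω ω' a b d e => key F₁ W hN ω ω' a b d e)
    (fun W hN ω ω' a b d e => key F₂ W hN ω ω' a b d e)
  have e : Gd F₁ B (fun _ => Set.univ) = In F₁ B := by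
    ext ω
    exact ⟨fun h => h.1, fun h => ⟨h, Set.mem_univ _⟩⟩
  rwa [e] at h

/-- **(T1)** total variation closeness of the maximal laws for level-insensitive observables -/
theorem tv_neutral {c : ℝ} (hc : 1 ≤ c) {F₁ F₂ : Finset P2} (h1 : SC F₁) (h2 : SC F₂)
    (h12 : F₁ ⊆ F₂) {a : P2} {m N : ℕ} (hmN : m + 1 ≤ N) (hN : ball a N ⊆ F₁) {f : Cfg → ℝ}
    (hf : LocB (ball a m) f) (hn : ∀ (k : ℤ) (ω : Cfg), f (addH (4 * k) ω) = f ω)
    (f0 : ∀ ω, 0 ≤ f ω) (f1 : ∀ ω, f ω ≤ 1) :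
    |E c F₁ f - E c F₂ f| ≤ E c F₂ (ind (BlkP a (m + 1) N)ᶜ) := by
  refine (tv_neutral_gen hc h1 h2 h12 (ball_nonempty a m) (conn_ball a m) hf hn f0 f1).trans
    (E_mono hc fun ω _ => ind_le_ind fun h h' => h ?_)
  exact (Xi_sub_ball hmN h').trans (Finset.coe_subset.2 hN)

/-! ### T2 -/

/-- `W` is joined to the outside of `F` by plus sites off `W` -/
def Cn (F W : Finset P2) : Set Cfg :=
  {ω | ∃ v ∈ VF W, v ∉ IV W ∧ ∃ u, u ∉ IV F ∧
    Relation.ReflTransGen (StepIn {x | s1 (ω.1 x) = true ∧ x ∉ IV W}) v u}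

theorem Cn.mono {F W : Finset P2} {ω ω' : Cfg} (h : LeP ω ω') (hω : ω ∈ Cn F W) : ω' ∈ Cn F W := by
  obtain ⟨v, h1, h2, u, h3, h4⟩ := hω
  exact ⟨v, h1, h2, u, h3, path_mono (S := {x | s1 (ω.1 x) = true ∧ x ∉ IV W})
    (T := {x | s1 (ω'.1 x) = true ∧ x ∉ IV W}) (fun x hx => ⟨h.v x hx.1, hx.2⟩) h4⟩

theorem Cn.sub {F₁ F₂ W : Finset P2} (h : F₁ ⊆ F₂) : Cn F₂ W ⊆ Cn F₁ W := by
  rintro ω ⟨v, h1, h2, u, h3, h4⟩
  exact ⟨v, h1, h2, u, fun h' => h3 (IV_mono h h'), h4⟩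

theorem offTZ_Cn (F W : Finset P2) : OffTZ W (ind (Cn F W)) := by
  intro ω ω' h1 _
  have e : {x | s1 (ω.1 x) = true ∧ x ∉ IV W} = {x | s1 (ω'.1 x) = true ∧ x ∉ IV W} := by
    ext x
    constructor
    · rintro ⟨a, b⟩
      exact ⟨by rw [← h1 x b]; exact a, b⟩
    · rintro ⟨a, b⟩
      exact ⟨by rw [h1 x b]; exact a, b⟩
  refine ind_congr ?_
  unfold Cn
  show (∃ v ∈ VF W, _) ↔ (∃ v ∈ VF W, _)
  rw [e]

/-- along plus sites the height stays in the same pair `{4k, 4k+1}` -/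
theorem plus_path {h : P2 → ℤ} (hl : It844.Lip h) {S : Set P2} (hS : ∀ x ∈ S, s1 (h x) = true)
    {v u : P2} (hv : s1 (h v) = true) (p : Relation.ReflTransGen (StepIn S) v u)
    (hu : h u = 0 ∨ h u = 1) : h v = 0 ∨ h v = 1 := by
  induction p using Relation.ReflTransGen.head_induction_on with
  | refl => exact hu
  | @head a b hab _ ih =>
    have h1 := ih (hS b hab.2.1)
    have h2 := abs_le.1 (hl a b hab.2.2)
    have h3 := s1_true.1 hv
    omega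

theorem lev_zero {F W : Finset P2} (hW : SC W) (hWc : IsConn (W : Set P2)) {ω : Cfg}
    (hω : Valid F ω) (hL : Lay true W ω) (h : ω ∈ Cn F W) {w : P2} (hw : w ∈ VF W) :
    lev true W ω w = 0 := by
  obtain ⟨v, h1, h2, u, h3, h4⟩ := h
  have hl := hω.ht.toLip
  rw [lev_const hW hWc hl hL hw h1]
  have h5 : ω.1 v = 0 ∨ ω.1 v = 1 :=
    plus_path hl (fun x hx => hx.1) (hL.bd h1 h2) h4 (hω.ht.bd u h3)
  have h6 := inH_bd hW hl hL h2
  have h7 : lev true W ω v % 4 = 0 := lev_mod hW hl hL h1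
  unfold lev at *
  omega

/-- `B` is joined to the outside of `F` by plus sites -/
def UpB (B F : Finset P2) : Set Cfg :=
  {ω | ∃ v ∈ VF B, ∃ u, u ∉ IV F ∧ Relation.ReflTransGen (StepIn {x | s1 (ω.1 x) = true}) v u}

theorem UpB.mono {B F : Finset P2} {ω ω' : Cfg} (h : LeP ω ω') (hω : ω ∈ UpB B F) : ω' ∈ UpB B F := by
  obtain ⟨v, h1, u, h3, h4⟩ := hω
  exact ⟨v, h1, u, h3, path_mono (S := {x | s1 (ω.1 x) = true})
    (T := {x | s1 (ω'.1 x) = true}) (fun x hx => h.v x hx) h4⟩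

theorem exists_up_of_adj {x y : P2} (h : Adj x y) : ∃ t, x ∈ up t ∧ y ∈ up t := by
  rw [adj_iff] at h
  obtain ⟨a, b⟩ := x
  obtain ⟨p, q⟩ := y
  simp only [Prod.mk.injEq, mem_up] at *
  rcases h with h | h | h | h | h | h
  · exact ⟨(a, b), by simp, by simp; omega⟩
  · exact ⟨(p, q), by simp; omega, by simp⟩
  · exact ⟨(a, b), by simp, by simp; omega⟩
  · exact ⟨(p, q), by simp; omega, by simp⟩
  · exact ⟨(a, b - 1), by simp, by simp; omega⟩
  · exact ⟨(a - 1, b), by simp, by simp; omega⟩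

theorem cn_of_upB {B F W : Finset P2} (hBW : B ⊆ W) (hWF : W ⊆ F) {ω : Cfg} (h : ω ∈ UpB B F) :
    ω ∈ Cn F W := by
  obtain ⟨v, h1, u, h3, h4⟩ := h
  have key : ∀ x, Relation.ReflTransGen (StepIn {x | s1 (ω.1 x) = true}) x u →
      ω ∈ Cn F W ∨ (x ∉ IV W ∧
        Relation.ReflTransGen (StepIn {x | s1 (ω.1 x) = true ∧ x ∉ IV W}) x u) := by
    intro x hx
    induction hx using Relation.ReflTransGen.head_induction_on with
    | refl => exact Or.inr ⟨fun h => h3 (IV_mono hWF h), Relation.ReflTransGen.refl⟩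
    | @head a b hab _ ih =>
      rcases ih with h | ⟨h5, h6⟩
      · exact Or.inl h
      · by_cases ha : a ∈ IV W
        · left
          obtain ⟨t, hat, hbt⟩ := exists_up_of_adj hab.2.2
          exact ⟨b, mem_VF.2 ⟨t, mem_IV'.1 ha t hat, hbt⟩, h5, u, h3, h6⟩
        · exact Or.inr ⟨ha, Relation.ReflTransGen.head ⟨⟨hab.1, ha⟩, ⟨hab.2.1, h5⟩, hab.2.2⟩ h6⟩
  rcases key v h4 with h | ⟨h5, h6⟩
  · exact h
  · exact ⟨v, VF_mono' hBW h1, h5, u, h3, h6⟩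

theorem tv_heights_gen {c : ℝ} (hc : 1 ≤ c) {F₁ F₂ B : Finset P2} (h1 : SC F₁) (h2 : SC F₂)
    (h12 : F₁ ⊆ F₂) (hB : B.Nonempty) (hBc : IsConn (B : Set P2)) {f : Cfg → ℝ} (hf : LocB B f)
    (f0 : ∀ ω, 0 ≤ f ω) (f1 : ∀ ω, f ω ≤ 1) :
    |E c F₁ f - E c F₂ f| ≤ E c F₂ (ind (In F₁ B ∩ UpB B F₂)ᶜ) := by
  have key : ∀ F : Finset P2, ∀ W, Nice F₁ B W → ∀ ω ω', Valid F ω → Lay true W ω → Valid W ω' →
      ω ∈ Cn F W → f (glue true W ω ω') = f ω' := by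
    intro F W hN ω ω' hω hL hω' hq
    obtain ⟨b, hb⟩ := hB
    have hv : b ∈ VF W := mem_VF.2 ⟨b, hN.seed hb, base_mem_up b⟩
    rw [loc_glue hN hf hω.ht.toLip hL hv, lev_zero hN.sc hN.conn hω hL hq hv]
    refine hf _ _ (fun u _ => ?_) fun _ _ => rfl
    exact add_zero _
  have h := tv_abs hc h1 h2 h12 hB hBc (Q₁ := fun W => Cn F₁ W) (Q₂ := fun W => Cn F₂ W)
    (fun W _ => Cn.sub h12) (fun W ω ω' h h' => Cn.mono h h')
    (fun W => offTZ_Cn F₁ W) (fun W => offTZ_Cn F₂ W) f0 f1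
    (fun W hN ω ω' a b d e => key F₁ W hN ω ω' a b d e)
    (fun W hN ω ω' a b d e => key F₂ W hN ω ω' a b d e)
  refine h.trans (E_mono hc fun ω _ => ind_le_ind fun h h' => h ⟨h'.1, ?_⟩)
  exact cn_of_upB (seed_sub_Wf h'.1) ((Wf_sub _ _ _).trans h12) h'.2

/-- **(T2)** total variation closeness of the maximal laws, true heights -/
theorem tv_heights {c : ℝ} (hc : 1 ≤ c) {F₁ F₂ : Finset P2} (h1 : SC F₁) (h2 : SC F₂)
    (h12 : F₁ ⊆ F₂) {a : P2} {m N : ℕ} (hmN : m + 1 ≤ N) (hN : ball a N ⊆ F₁) {f : Cfg → ℝ}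
    (hf : LocB (ball a m) f) (f0 : ∀ ω, 0 ≤ f ω) (f1 : ∀ ω, f ω ≤ 1) :
    |E c F₁ f - E c F₂ f| ≤ E c F₂ (ind (BlkP a (m + 1) N ∩ UpB (ball a m) F₂)ᶜ) := by
  refine (tv_heights_gen hc h1 h2 h12 (ball_nonempty a m) (conn_ball a m) hf f0 f1).trans
    (E_mono hc fun ω _ => ind_le_ind fun h h' => h ⟨?_, h'.2⟩)
  exact (Xi_sub_ball hmN h'.1).trans (Finset.coe_subset.2 hN)

/-! ### bounded observables -/

theorem abs_rescale {c : ℝ} (hc : 1 ≤ c) {F₁ F₂ : Finset P2} {f : Cfg → ℝ} {C : ℝ} (hC : 0 < C)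
    {δ : ℝ} (h : |E c F₁ (fun ω => (f ω + C) / (2 * C)) - E c F₂ (fun ω => (f ω + C) / (2 * C))| ≤ δ) :
    |E c F₁ f - E c F₂ f| ≤ 2 * C * δ := by
  have e : ∀ F : Finset P2, E c F (fun ω => (f ω + C) / (2 * C)) = (E c F f + C) / (2 * C) := by
    intro F
    have : (fun ω => (f ω + C) / (2 * C)) = fun ω => (2 * C)⁻¹ * (f ω + C) := by funext ω; ring
    rw [this, E_smul, E_add, E_const hc]
    ring
  rw [e, e, ← sub_div, abs_div, abs_of_pos (by positivity : (0 : ℝ) < 2 * C),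
    div_le_iff₀ (by positivity), add_sub_add_right_eq_sub] at h
  linarith

theorem tv_neutral' {c : ℝ} (hc : 1 ≤ c) {F₁ F₂ : Finset P2} (h1 : SC F₁) (h2 : SC F₂)
    (h12 : F₁ ⊆ F₂) {a : P2} {m N : ℕ} (hmN : m + 1 ≤ N) (hN : ball a N ⊆ F₁) {f : Cfg → ℝ}
    (hf : LocB (ball a m) f) (hn : ∀ (k : ℤ) (ω : Cfg), f (addH (4 * k) ω) = f ω) {C : ℝ}
    (hC : 0 < C) (hfC : ∀ ω, |f ω| ≤ C) :
    |E c F₁ f - E c F₂ f| ≤ 2 * C * E c F₂ (ind (BlkP a (m + 1) N)ᶜ) := by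
  refine abs_rescale hc hC (tv_neutral hc h1 h2 h12 hmN hN (fun ω ω' a b => ?_) (fun k ω => ?_)
    (fun ω => ?_) fun ω => ?_)
  · show (f ω + C) / (2 * C) = (f ω' + C) / (2 * C)
    rw [hf ω ω' a b]
  · show (f (addH (4 * k) ω) + C) / (2 * C) = (f ω + C) / (2 * C)
    rw [hn k ω]
  · have := abs_le.1 (hfC ω)
    exact div_nonneg (by linarith) (by linarith)
  · have := abs_le.1 (hfC ω)
    show (f ω + C) / (2 * C) ≤ 1
    rw [div_le_one (by linarith)]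
    linarith

theorem tv_heights' {c : ℝ} (hc : 1 ≤ c) {F₁ F₂ : Finset P2} (h1 : SC F₁) (h2 : SC F₂)
    (h12 : F₁ ⊆ F₂) {a : P2} {m N : ℕ} (hmN : m + 1 ≤ N) (hN : ball a N ⊆ F₁) {f : Cfg → ℝ}
    (hf : LocB (ball a m) f) {C : ℝ} (hC : 0 < C) (hfC : ∀ ω, |f ω| ≤ C) :
    |E c F₁ f - E c F₂ f| ≤ 2 * C * E c F₂ (ind (BlkP a (m + 1) N ∩ UpB (ball a m) F₂)ᶜ) := by
  refine abs_rescale hc hC (tv_heights hc h1 h2 h12 hmN hN (fun ω ω' a b => ?_)
    (fun ω => ?_) fun ω => ?_)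
  · show (f ω + C) / (2 * C) = (f ω' + C) / (2 * C)
    rw [hf ω ω' a b]
  · have := abs_le.1 (hfC ω)
    exact div_nonneg (by linarith) (by linarith)
  · have := abs_le.1 (hfC ω)
    show (f ω + C) / (2 * C) ≤ 1
    rw [div_le_one (by linarith)]
    linarith

end Crest.Agent.R144.Tvp643
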