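import Crest.Agent.R144.Tvp3_643
import Crest.Agent.R144.Ht1_948
import Crest.Agent.R144.Lay7_356
import Crest.Agent.R144.Cov_356

/-!
# R144, integer models: near-sure plus layers at a net of small balls (helper643)

* `path_of_net` : if small balls around every point are blocked by `S`-layers then `ball 0 m` is joined
  to the outside of `hexB l` by an `S`-path;
* `up_prob` : the side event of `tv_heights` is near-sure;
* `tvh` : 948's `TVH`.
-/

set_option autoImplicit false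

noncomputable section

namespace Crest.Agent.R144.Tvp643

open Finset
open Crest.Agent.R144.It844 (P2 adj_iff adj_symm)
open Crest.Agent.R144.Zg349 Crest.Agent.R144.Zk349 Crest.Agent.R144.Zd349 Crest.Agent.R144.Zm349
open Crest.Agent.R144.Ze349
open Crest.Agent.R144.Zf349 Crest.Agent.R144.Zs349
open Crest.Agent.R144.Pst967 (hexB mem_hexB hexB_mono conn_hexB stepIn_symm path_symm path_h path_v)
open Crest.Agent.R144.Rsw867
open Crest.Agent.R144.Rw146 (adj_iff_share)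
open Crest.ProbabilityR.HexHeights (Adj)

/-! ### TV2 -/

/-- **(TV2)** -/
theorem tv2 {c : ℝ} (hc : 1 ≤ c) {F₁ F₂ : Finset P2} (h1 : SC F₁) (h2 : SC F₂)
    (h12 : F₁ ⊆ F₂) {m N : ℕ} (hmN : m + 1 ≤ N) (hN : ball 0 N ⊆ F₁) {A : Set Cfg}
    (hA : Ht948.LocH m A) :
    |Pr c F₁ A - Pr c F₂ A| ≤ Pr c F₂ (BlkP 0 (m + 1) N ∩ UpB (ball 0 m) F₂)ᶜ := by
  have h := tv_heights hc h1 h2 h12 hmN hN (f := ind A) (fun ω ω' h _ => ind_congr (hA ω ω'
    fun v hv => h v (mem_VF.2 ⟨v, hv, base_mem_up v⟩))) (ind_nonneg A) (ind_le_one A)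
  exact h

/-! ### a connected blocking part -/

theorem exists_conn_block {T : Finset P2} {m N : ℕ} (hmN : m ≤ N) (h : Sepr (T : Set P2) 0 m N) :
    ∃ T' ⊆ T, Sepr (T' : Set P2) 0 m N ∧ IsConn (T' : Set P2) := by
  classical
  -- clopen blocking parts
  let P : Finset P2 → Prop := fun T' => T' ⊆ T ∧ (∀ x ∈ T', ∀ y ∈ T, y ∉ T' → ¬ Adj x y) ∧
    Sepr (T' : Set P2) 0 m N
  have hex : ∃ n, ∃ T', P T' ∧ T'.card = n :=
    ⟨T.card, T, ⟨Finset.Subset.refl _, fun x _ y hy hy' => absurd hy hy', h⟩, rfl⟩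
  obtain ⟨T', hT', hcard⟩ := Nat.find_spec hex
  have hmin : ∀ T'', P T'' → Nat.find hex ≤ T''.card := fun T'' h'' => Nat.find_min' hex ⟨T'', h'', rfl⟩
  refine ⟨T', hT'.1, hT'.2.2, fun x hx y hy => ?_⟩
  by_contra hxy
  set C : Finset P2 := T'.filter fun z => Relation.ReflTransGen (StepIn (T' : Set P2)) x z with hC
  set D : Finset P2 := T' \ C with hD
  have hxC : x ∈ C := Finset.mem_filter.2 ⟨hx, Relation.ReflTransGen.refl⟩
  have hyD : y ∈ D := Finset.mem_sdiff.2 ⟨hy, fun h => hxy (Finset.mem_filter.1 h).2⟩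
  have hCT : C ⊆ T' := Finset.filter_subset _ _
  have hDT : D ⊆ T' := Finset.sdiff_subset
  have hna : ∀ a ∈ C, ∀ b ∈ D, ¬ Adj a b := by
    intro a ha b hb hab
    obtain ⟨h1, h2⟩ := Finset.mem_filter.1 ha
    obtain ⟨h3, h4⟩ := Finset.mem_sdiff.1 hb
    exact h4 (Finset.mem_filter.2 ⟨h3, h2.tail ⟨h1, h3, hab⟩⟩)
  have hfar : Lay356.Far (C : Set P2) (D : Set P2) := by
    intro a ha b hb
    refine ⟨?_, hna a ha b hb⟩
    rintro rfl
    exact (Finset.mem_sdiff.1 hb).2 ha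
  have hun : ((C : Set P2) ∪ (D : Set P2)) = (T' : Set P2) := by
    rw [← Finset.coe_union, hD, Finset.union_sdiff_of_subset hCT]
  have hs := Lay356.Sepr.split hfar (a := 0) hmN (by rw [hun]; exact hT'.2.2)
  have cC : C.card < T'.card := Finset.card_lt_card
    ⟨hCT, fun h => (Finset.mem_sdiff.1 hyD).2 (h hy)⟩
  have cD : D.card < T'.card := Finset.card_lt_card
    ⟨hDT, fun h => (Finset.mem_sdiff.1 (h hx)).2 hxC⟩
  rcases hs with hs | hs
  · have := hmin C ⟨hCT.trans hT'.1, fun a ha b hb hb' => ?_, hs⟩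
    · omega
    · by_cases hbT : b ∈ T'
      · exact hna a ha b (Finset.mem_sdiff.2 ⟨hbT, hb'⟩)
      · exact hT'.2.1 a (hCT ha) b hb hbT
  · have := hmin D ⟨hDT.trans hT'.1, fun a ha b hb hb' => ?_, hs⟩
    · omega
    · by_cases hbT : b ∈ T'
      · have hbC : b ∈ C := by
          by_contra h
          exact hb' (Finset.mem_sdiff.2 ⟨hbT, h⟩)
        exact fun hab => hna b hbC a ha (adj_symm hab)
      · exact hT'.2.1 a (hDT ha) b hb hbT

/-- **small blocked balls everywhere give a long path** -/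
theorem path_of_net {S : Set P2} {l u m : ℕ} (hS : ∀ t, t ∉ hexB l → t ∈ S) (hu : 1 ≤ u)
    (hm : 2 * u ≤ m) (hml : m ≤ l)
    (H : ∀ p ∈ hexB l, ∃ x, p ∈ ball x u ∧ Sepr S x u (2 * u)) :
    ∃ v ∈ ball 0 m, ∃ w, w ∉ hexB l ∧ Relation.ReflTransGen (StepIn S) v w := by
  classical
  by_contra hno
  set T : Finset P2 := (hexB l).filter fun t => t ∉ S with hT
  have eT : ((T : Finset P2) : Set P2)ᶜ = S := by
    ext t
    rw [Set.mem_compl_iff, Finset.mem_coe, hT, Finset.mem_filter]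
    constructor
    · intro h
      by_contra h'
      exact h ⟨by_contra fun h'' => h' (hS t h''), h'⟩
    · intro h h'
      exact h'.2 h
  have h0 : Sepr (T : Set P2) 0 m l := by
    intro p q hp hq hpath
    rw [eT] at hpath
    exact hno ⟨q, hq, p, by rwa [ball_zero_eq] at hp, path_symm hpath⟩
  obtain ⟨T', hTT, h1, h2⟩ := exists_conn_block hml h0
  have hTS : ((T' : Finset P2) : Set P2) ⊆ Sᶜ := fun t ht => (Finset.mem_filter.1 (hTT ht)).2
  -- a point on the right half axis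
  have hr : ∃ k : ℤ, (m : ℤ) ≤ k ∧ ((k, 0) : P2) ∈ T' := by
    by_contra h
    push Not at h
    refine h1 ((l : ℤ) + 1, 0) ((m : ℤ), 0) ?_ ?_ (path_h 0 _ _ fun t ht _ => ?_)
    · rw [mem_ball]
      simp only [Prod.fst_zero, Prod.snd_zero, sub_zero, add_zero, abs_le]
      omega
    · rw [mem_ball]
      simp only [Prod.fst_zero, Prod.snd_zero, sub_zero, add_zero, abs_le]
      omega
    · exact h t (by omega)
  have hl : ∃ k : ℤ, (m : ℤ) ≤ k ∧ ((-k, 0) : P2) ∈ T' := by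
    by_contra h
    push Not at h
    refine h1 (-((l : ℤ) + 1), 0) (-(m : ℤ), 0) ?_ ?_ (path_h 0 _ _ fun t _ ht => ?_)
    · rw [mem_ball]
      simp only [Prod.fst_zero, Prod.snd_zero, sub_zero, add_zero, abs_le]
      omega
    · rw [mem_ball]
      simp only [Prod.fst_zero, Prod.snd_zero, sub_zero, add_zero, abs_le]
      omega
    · have := h (-t) (by omega)
      rwa [neg_neg] at this
  obtain ⟨k1, hk1, hp1⟩ := hr
  obtain ⟨k2, hk2, hp2⟩ := hl
  obtain ⟨x, hx, hsx⟩ := H (k1, 0) (Finset.mem_filter.1 (hTT hp1)).1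
  refine hsx (-k2, 0) (k1, 0) ?_ hx (path_mono hTS (h2 _ hp2 _ hp1))
  rw [mem_ball] at hx ⊢
  simp only [abs_le] at hx ⊢
  push_cast
  omega

/-! ### from triangles to sites -/

theorem adj_corner {t x y : P2} (hx : x ∈ up t) (hy : y ∈ up t) (h : x ≠ y) : Adj x y := by
  obtain ⟨a, b⟩ := x
  obtain ⟨p, q⟩ := y
  obtain ⟨r, s⟩ := t
  rw [adj_iff]
  simp only [mem_up, Prod.mk.injEq, ne_eq] at *
  omega

theorem upB_of_path {c : ℝ} {F B : Finset P2} {ω : Cfg} (hω : Valid F ω) (hw : wt c F ω ≠ 0)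
    (h : ∃ v ∈ B, ∃ w, w ∉ F ∧ Relation.ReflTransGen (StepIn {t | pC ω t}) v w) : ω ∈ UpB B F := by
  obtain ⟨v, hv, w, hwF, p⟩ := h
  refine ⟨v, mem_VF.2 ⟨v, hv, base_mem_up v⟩, w, fun h => hwF (IV_sub F h), ?_⟩
  have hs : ∀ t, pC ω t → ∀ x ∈ up t, s1 (ω.1 x) = true := fun t ht x hx => by
    rw [closed_c1 hω hw ht.1 hx]; exact ht.2
  have seg : ∀ t, pC ω t → ∀ x ∈ up t, ∀ y ∈ up t,
      Relation.ReflTransGen (StepIn {x | s1 (ω.1 x) = true}) x y := by
    intro t ht x hx y hy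
    by_cases h : x = y
    · rw [h]
    · exact Relation.ReflTransGen.single ⟨hs t ht x hx, hs t ht y hy, adj_corner hx hy h⟩
  clear hwF
  induction p with
  | refl => exact Relation.ReflTransGen.refl
  | @tail b d _ hbd ih =>
    obtain ⟨_, x, hx1, hx2⟩ := adj_iff_share.1 hbd.2.2
    have h1 := seg b hbd.1 b (base_mem_up b) x hx1
    have h2 := seg d hbd.2.1 x hx2 d (base_mem_up d)
    exact (ih.trans h1).trans h2

/-! ### probabilities -/

/-- monotonicity on the support -/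
theorem E_mono_supp {c : ℝ} (hc : 1 ≤ c) {F : Finset P2} {f g : Cfg → ℝ}
    (h : ∀ ω, Valid F ω → wt c F ω ≠ 0 → f ω ≤ g ω) : E c F f ≤ E c F g := by
  rw [E_eq_S, E_eq_S]
  refine div_le_div_of_nonneg_right ?_ (Z_pos hc F).le
  unfold S
  refine Finset.sum_le_sum fun ω hω => ?_
  by_cases hw : wt c F ω = 0
  · rw [hw, zero_mul, zero_mul]
  · exact mul_le_mul_of_nonneg_left (h ω (mem_conf.1 hω) hw) (wt_nonneg hc F ω)

/-- **(T3)** the side event of `tv_heights` is near-sure when small balls are blocked near-surely -/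
theorem up_prob {c : ℝ} (hc : 1 ≤ c) {l u m : ℕ} (hu : 1 ≤ u) (hm : 2 * u ≤ m) (hml : m ≤ l) {s : ℝ}
    (H : ∀ x : P2, |x.1| ≤ l + u → |x.2| ≤ l + u →
      Pr c (hexB l) (BlkP x u (2 * u))ᶜ ≤ s) :
    Pr c (hexB l) (UpB (ball 0 m) (hexB l))ᶜ ≤
      ((2 * ((l + u / 2) / (2 * (u / 2) + 1)) + 1) ^ 2 : ℕ) * s := by
  obtain ⟨Z, hZ, hZ1, hZ2⟩ := Cov356.cov 0 l u
  have hs : 0 ≤ s := (E_nonneg hc fun ω _ => ind_nonneg (BlkP 0 u (2 * u))ᶜ ω).trans
    (H 0 (by simp; positivity) (by simp; positivity))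
  have h1 : Pr c (hexB l) (UpB (ball 0 m) (hexB l))ᶜ ≤
      ∑ x ∈ Z, Pr c (hexB l) (BlkP x u (2 * u))ᶜ := by
    have e : ∑ x ∈ Z, Pr c (hexB l) (BlkP x u (2 * u))ᶜ =
        E c (hexB l) (fun ω => ∑ x ∈ Z, ind (BlkP x u (2 * u))ᶜ ω) := by
      rw [E_sum]; rfl
    rw [e]
    refine E_mono_supp hc (f := ind (UpB (ball 0 m) (hexB l))ᶜ) fun ω hω hw => ?_
    by_cases h : ω ∈ UpB (ball 0 m) (hexB l)
    · rw [ind_of_not_mem (A := (UpB (ball 0 m) (hexB l))ᶜ) (fun h' => h' h)]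
      exact Finset.sum_nonneg fun x _ => ind_nonneg _ _
    · rw [ind_of_mem h]
      have h2 : ∃ x ∈ Z, ω ∉ BlkP x u (2 * u) := by
        by_contra hno
        push Not at hno
        apply h
        refine upB_of_path hω hw (path_of_net (fun t ht => pC_of_valid hω ht) hu hm hml fun p hp => ?_)
        have h3 := hZ2 (show p ∈ ball 0 l by rw [Rsw867.ball_zero_eq]; exact hp)
        obtain ⟨x, hx, hpx⟩ := Finset.mem_biUnion.1 h3
        exact ⟨x, hpx, hno x hx⟩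
      obtain ⟨x, hx, hx'⟩ := h2
      refine le_trans (le_of_eq ?_) (Finset.single_le_sum
        (f := fun x => ind (BlkP x u (2 * u))ᶜ ω) (fun y _ => ind_nonneg _ _) hx)
      exact (ind_of_mem (A := (BlkP x u (2 * u))ᶜ) hx').symm
  refine h1.trans ((Finset.sum_le_sum fun x hx => H x ?_ ?_).trans ?_)
  · have := (hZ1 x hx).1
    simpa using this
  · have := (hZ1 x hx).2
    simpa using this
  · rw [Finset.sum_const, nsmul_eq_mul]
    exact mul_le_mul_of_nonneg_right (by exact_mod_cast hZ) hs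

/-- **948's `TVH`** from near-sure plus layers -/
theorem tvh {c : ℝ} (hc : 1 ≤ c) {L u m N : ℕ} (hu : 1 ≤ u) (hm : 2 * u ≤ m) (hmL : m ≤ L)
    (hmN : m + 1 ≤ N) {s : ℝ}
    (H : ∀ x : P2, |x.1| ≤ L + u → |x.2| ≤ L + u → Pr c (hexB L) (BlkP x u (2 * u))ᶜ ≤ s)
    (H0 : Pr c (hexB L) (BlkP 0 (m + 1) N)ᶜ ≤ s) :
    Ht948.TVH c m N (hexB L)
      (s + ((2 * ((L + u / 2) / (2 * (u / 2) + 1)) + 1) ^ 2 : ℕ) * s) := by
  intro F hF hFG hN A hA
  refine (tv2 hc hF (conn_hexB L) hFG hmN hN hA).trans ?_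
  refine le_trans ?_ (add_le_add H0 (up_prob hc hu hm hmL H))
  rw [Pr_eq, Pr_eq, Pr_eq, ← E_add]
  refine E_mono hc fun ω _ => ?_
  by_cases h1 : ω ∈ BlkP 0 (m + 1) N
  · by_cases h2 : ω ∈ UpB (ball 0 m) (hexB L)
    · rw [ind_of_not_mem (A := (BlkP 0 (m + 1) N ∩ UpB (ball 0 m) (hexB L))ᶜ) (fun h => h ⟨h1, h2⟩)]
      exact add_nonneg (ind_nonneg _ _) (ind_nonneg _ _)
    · rw [ind_of_mem (A := (UpB (ball 0 m) (hexB L))ᶜ) h2]
      have := ind_nonneg (BlkP 0 (m + 1) N)ᶜ ω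
      have := ind_le_one (BlkP 0 (m + 1) N ∩ UpB (ball 0 m) (hexB L))ᶜ ω
      linarith
  · rw [ind_of_mem (A := (BlkP 0 (m + 1) N)ᶜ) h1]
    have := ind_nonneg (UpB (ball 0 m) (hexB L))ᶜ ω
    have := ind_le_one (BlkP 0 (m + 1) N ∩ UpB (ball 0 m) (hexB L))ᶜ ω
    linarith

end Crest.Agent.R144.Tvp643
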