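import Crest.Agent.R144.Uig6_714
import Crest.Agent.R144.Zb3_560
import Crest.Agent.R144.LoB5_95

/-!
# R144 (S0197), block UID (helper674), part 1: covering of the lengths of the cheap paths

* `covAt_mc` : `{mc w = k}` is covered by fresh tight lists near `w`, total weight `CA / A ^ k`;
* `exists_block` : a path with many edges, half of them tight, has a block of `r` edges, a quarter of
  them tight;
* `covAt_long`, `mc_subset_long` : very long cheap paths.
-/

set_option autoImplicit false

open MeasureTheory Set Filter Topology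
open scoped ENNReal NNReal

noncomputable section

namespace Crest.Agent.R144.Uid674

open Crest.Agent.R144.Ham560 (ext ham nbr mem_nbr Fresh tight)
open Crest.Agent.R144.Tri560
open Crest.Agent.R144.Zb560
open Crest.Agent.R144.LoB95 (mc exists_mc length_le_mc measurable_mc)
open Crest.Agent.R144.Kor620 (P2 nrm)
open Crest.Agent.R144.KorE761 (LatE)
open Crest.Agent.R144.Uig714 (CovAt nrm_tri)
open Crest.ProbabilityR.HexHeights (Adj)

variable {κ : Type*} [Fintype κ]
variable {F S : Finset P2} {E : Finset (P2 × P2)} {ξ : P2 → ℝ} {ρ ε Λ c0 L : ℝ}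
  {φs : κ → P2 → ℝ} {w : P2}

/-- the length of the longest cheap path is attained -/
theorem mc_eq_subset (m : ℕ) :
    {x : F → ℝ | mc S E ρ ε Λ c0 φs (ext F ξ x) w = m + 1} ⊆
      ⋃ i, bad S E ρ ε Λ c0 (φs i) F ξ m w := by
  intro x hx
  simp only [Set.mem_ofPred_eq] at hx
  obtain ⟨i, l, hl, h1, h2⟩ := exists_mc (K := m + 1) (by omega) hx.ge
  have h3 := length_le_mc hl h2
  simp only [mem_iUnion]
  exact ⟨i, mem_bad hl (by omega) h2.le⟩

/-- the metric of the lattice -/
def dn (a b : P2) : ℕ := nrm (b - a)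

theorem dn_self (a : P2) : dn a a = 0 := by simp [dn, nrm]

theorem dn_tri (a b d : P2) : dn a d ≤ dn a b + dn b d := by
  have := nrm_tri d b a
  unfold dn
  omega

theorem dn_adj (hE : LatE E) (a b : P2) (h : b ∈ nbr E a) : dn a b ≤ 1 :=
  (KorE761.nrm_eq_one (Kor620.adj_symm (hE.nbr h))).le

/-- weight of a list when `2304 e ≤ d ^ 4` -/
theorem weight_le {e d : ℝ} (he : 0 ≤ e) (hd : 0 ≤ d) (hd1 : d ≤ 1) (h : 2304 * e ≤ d ^ 4)
    {m t : ℕ} (ht : m ≤ 4 * t) : (2304 * e) ^ t ≤ d ^ m := by
  calc (2304 * e) ^ t ≤ (d ^ 4) ^ t := by gcongr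
    _ = d ^ (4 * t) := (pow_mul _ _ _).symm
    _ ≤ d ^ m := pow_le_pow_of_le_one hd hd1 ht

/-- **covering of the lengths of the cheap paths** -/
theorem covAt_mc (hSF : S ⊆ F) (hE : LatE E) (hn : ∀ v ∈ F, (nbr E v).card ≤ 6)
    (hρ : 0 ≤ ρ) (hε : 0 < ε) (hΛ : 0 < Λ) (hL : 4 * L ≤ Λ)
    (hφ : ∀ i a b, b ∈ nbr E a → |φs i a - φs i b| ≤ L)
    {A CA : ℝ} (hA : 1 ≤ A) (hsm : 2304 * (ρ + ε) ≤ (1 / (12 * A)) ^ 4)
    {k0 : ℕ} (hk0 : 4 * c0 ≤ Λ * k0) (hCA : A ^ (k0 + 1) ≤ CA) (k : ℕ) :
    CovAt F E ξ 2304 (ρ + ε) (CA / A ^ k) k w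
      {x | mc S E ρ ε Λ c0 φs (ext F ξ x) w = k} := by
  classical
  have hA0 : 0 < A := by linarith
  by_cases hk : k ≤ k0
  · refine ⟨{[]}, ?_, ?_, ?_⟩
    · simp only [Finset.sum_singleton, List.length_nil, pow_zero]
      rw [le_div_iff₀ (by positivity), one_mul]
      exact (pow_le_pow_right₀ hA (by omega)).trans hCA
    · simp
    · rintro h ⟨hh, _⟩
      exact ⟨[], by simp, Fresh.nil, hh, by simp⟩
  · push Not at hk
    obtain ⟨m, rfl⟩ : ∃ m, k = m + 1 := ⟨k - 1, by omega⟩
    have hm : 4 * c0 ≤ Λ * (m : ℝ) := by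
      have : (k0 : ℝ) ≤ m := by exact_mod_cast (by omega : k0 ≤ m)
      nlinarith
    refine ⟨Zb560.Fam S E m w, ?_, ?_, ?_⟩
    · have hd0 : 0 ≤ 1 / (12 * A) := by positivity
      have hd1 : 1 / (12 * A) ≤ 1 := by
        rw [div_le_one (by positivity)]; linarith
      calc ∑ T ∈ Zb560.Fam S E m w, (2304 * (ρ + ε)) ^ T.length
          ≤ ∑ _T ∈ Zb560.Fam S E m w, (1 / (12 * A)) ^ m := by
            refine Finset.sum_le_sum fun T hT => ?_
            have := (Fam_len hT).1
            exact weight_le (by positivity) hd0 hd1 hsm (by omega)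
        _ = (Zb560.Fam S E m w).card * (1 / (12 * A)) ^ m := by
            rw [Finset.sum_const, nsmul_eq_mul]
        _ ≤ 12 ^ m * (1 / (12 * A)) ^ m := by
            gcongr
            have := Fam_card (V := S) (E := E) (n := 6) (fun v hv => hn v (hSF hv)) m w
            exact_mod_cast this
        _ = 1 / A ^ m := by
            rw [← mul_pow, ← one_div_pow]
            congr 1
            field_simp
        _ ≤ CA / A ^ (m + 1) := by
            rw [div_le_div_iff₀ (by positivity) (by positivity), one_mul, pow_succ']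
            have : A ≤ CA := (le_self_pow₀ hA (by omega)).trans hCA
            gcongr
    · intro T hT q hq
      have h1 := Fam_near dn dn_self dn_tri (dn_adj hE) hT q hq
      unfold dn at h1
      omega
    · rintro x ⟨hx, hx'⟩
      have h1 := mc_eq_subset (S := S) (E := E) (ρ := ρ) (ε := ε) (Λ := Λ) (c0 := c0) (φs := φs)
        (w := w) (ξ := ξ) m hx'
      simp only [mem_iUnion] at h1
      obtain ⟨i, hi⟩ := h1
      have h2 := bad_subset hε hΛ hL (hφ i) hm hi
      simp only [mem_iUnion] at h2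
      obtain ⟨T, hT, hT'⟩ := h2
      exact ⟨T, hT, Fresh_mono hSF (Fam_fresh hT), hx, hT'⟩

/-! ### Very long paths -/

/-- splitting of the list of edges -/
theorem pe_split (r : ℕ) : ∀ l : List P2, r < l.length →
    pe l = pe (l.take (r + 1)) ++ pe (l.drop r) := by
  induction r with
  | zero =>
    intro l hl
    match l with
    | [] => simp at hl
    | [a] => simp [pe]
    | a :: b :: t => simp [pe]
  | succ r ih =>
    intro l hl
    match l with
    | [] => simp at hl
    | [a] => simp at hl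
    | a :: b :: t =>
      have h1 := ih (b :: t) (by simp only [List.length_cons] at hl ⊢; omega)
      rw [List.take_succ_cons, List.drop_succ_cons]
      rw [List.take_succ_cons] at h1 ⊢
      rw [pe_cons, pe_cons, h1, List.cons_append]

/-- a path with many edges, half of them tight, has a block of `r` edges, a quarter of them
tight -/
theorem exists_block {p : P2 × P2 → Bool} {r : ℕ} (hr : 0 < r) : ∀ (N : ℕ) (l : List P2),
    l.length ≤ N → l ≠ [] →
    (∀ l1 l' l2, l = l1 ++ l' ++ l2 → l'.length = r + 1 → 4 * ((pe l').filter p).length < r) →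
    4 * ((pe l).filter p).length ≤ (pe l).length + 3 * r := by
  intro N
  induction N with
  | zero =>
    intro l hl hne
    exact absurd (List.length_eq_zero_iff.mp (by omega)) hne
  | succ N ih =>
    intro l hl hne H
    have hlen := pe_length l hne
    by_cases hlr : (pe l).length < r
    · have := List.length_filter_le p (pe l)
      omega
    · have hrl : r < l.length := by omega
      have hd : l.drop r ≠ [] := by
        intro h
        have := List.drop_eq_nil_iff.mp h
        omega
      have e1 := pe_split r l hrl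
      have h1 : 4 * ((pe (l.take (r + 1))).filter p).length < r := by
        refine H [] (l.take (r + 1)) (l.drop (r + 1)) (by simp) ?_
        rw [List.length_take]; omega
      have h2 := ih (l.drop r) (by rw [List.length_drop]; omega) hd (by
        intro l1 l' l2 h3 h4
        refine H (l.take r ++ l1) l' l2 ?_ h4
        rw [List.append_assoc, List.append_assoc, ← List.append_assoc l1, ← h3]
        exact (List.take_append_drop r l).symm)
      have e2 : (pe (l.take (r + 1))).length + (pe (l.drop r)).length = (pe l).length := by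
        rw [e1, List.length_append]
      have e3 : ((pe (l.take (r + 1))).filter p).length + ((pe (l.drop r)).filter p).length =
          ((pe l).filter p).length := by
        rw [e1, List.filter_append, List.length_append]
      have e4 := pe_length (l.take (r + 1)) (by
        intro h
        have := congrArg List.length h
        rw [List.length_take, List.length_nil] at this
        omega)
      rw [List.length_take, min_eq_left (by omega)] at e4
      omega

/-- edge lists covering the paths with `m` edges, a quarter of them tight -/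
def Fam4 (V : Finset P2) (E : Finset (P2 × P2)) (m : ℕ) (u : P2) : Finset (List (P2 × P2)) :=
  ((wf V E m u).filter fun l => l ∈ pt V E u ∧ l.length = m + 1).biUnion fun l =>
    (pe l).sublists.toFinset.filter fun S => m ≤ 4 * S.length

theorem mem_Fam4 {V : Finset P2} {m : ℕ} {u : P2} {S : List (P2 × P2)} : S ∈ Fam4 V E m u ↔
    ∃ l ∈ wf V E m u, l ∈ pt V E u ∧ l.length = m + 1 ∧ S.Sublist (pe l) ∧
      m ≤ 4 * S.length := by
  simp only [Fam4, Finset.mem_biUnion, Finset.mem_filter, List.mem_toFinset, List.mem_sublists]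
  constructor
  · rintro ⟨l, ⟨h1, h2, h3⟩, h4, h5⟩
    exact ⟨l, h1, h2, h3, h4, h5⟩
  · rintro ⟨l, h1, h2, h3, h4, h5⟩
    exact ⟨l, ⟨h1, h2, h3⟩, h4, h5⟩

theorem Fam4_card {V : Finset P2} {n : ℕ} (hn : ∀ v ∈ V, (nbr E v).card ≤ n) (m : ℕ) (u : P2) :
    (Fam4 V E m u).card ≤ (2 * n) ^ m := by
  calc (Fam4 V E m u).card
      ≤ ((wf V E m u).filter fun l => l ∈ pt V E u ∧ l.length = m + 1).card * 2 ^ m := by
        refine Finset.card_biUnion_le_card_mul _ _ _ fun l hl => ?_
        refine (Finset.card_filter_le _ _).trans ((List.toFinset_card_le _).trans ?_)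
        rw [List.length_sublists]
        rw [Finset.mem_filter] at hl
        have := pe_length l (pt_ne_nil hl.2.1)
        have h1 : (pe l).length = m := by omega
        rw [h1]
    _ ≤ n ^ m * 2 ^ m := by
        gcongr
        exact (Finset.card_filter_le _ _).trans (card_wf hn m u)
    _ = (2 * n) ^ m := by rw [mul_pow, mul_comm]

theorem Fam4_fresh {V : Finset P2} {m : ℕ} {u : P2} {S : List (P2 × P2)} (hS : S ∈ Fam4 V E m u) :
    Fresh V E S := by
  obtain ⟨l, _, h2, h3, h4, h5⟩ := mem_Fam4.mp hS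
  rcases Nat.eq_zero_or_pos m with rfl | hm
  · have h6 := pe_length l (pt_ne_nil h2)
    have h7 : pe l = [] := List.length_eq_zero_iff.mp (by omega)
    rw [h7] at h4
    rw [List.sublist_nil.mp h4]
    exact Fresh.nil
  · have hV := pt_mem h2 (by omega)
    obtain ⟨h6, _, h8⟩ := pt_spec h2
    refine Fresh_sublist (fresh_pe l h6 h8 fun l1 l2 b c hl => ?_) h4
    exact hV b (by rw [hl]; simp)

theorem Fam4_near (dd : P2 → P2 → ℕ) (h0 : ∀ a, dd a a = 0)
    (ht : ∀ a b d, dd a d ≤ dd a b + dd b d) (h1 : ∀ a b, b ∈ nbr E a → dd a b ≤ 1)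
    {V : Finset P2} {m : ℕ} {u : P2} {S : List (P2 × P2)} (hS : S ∈ Fam4 V E m u) :
    ∀ q ∈ S, dd u q.1 ≤ m ∧ dd u q.2 ≤ m := by
  obtain ⟨l, _, h2, h3, h4, h5⟩ := mem_Fam4.mp hS
  intro q hq
  have h6 := pe_mem l q (h4.subset hq)
  obtain ⟨_, h7, h8⟩ := pt_spec h2
  have h9 := dd_le dd h0 ht (R := fun a b => b ∈ nbr E a) h1 l u h7 h8
  have e1 := h9 _ h6.1
  have e2 := h9 _ h6.2
  constructor <;> omega

/-- there is a path with `r` edges from `v`, a quarter of them tight -/
def lng (S : Finset P2) (E : Finset (P2 × P2)) (e : ℝ) (F : Finset P2) (ξ : P2 → ℝ) (r : ℕ)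
    (v : P2) : Set (F → ℝ) := ⋃ T ∈ Fam4 S E r v, tS F ξ e T

theorem covAt_long (hSF : S ⊆ F) (hE : LatE E) (hn : ∀ v ∈ F, (nbr E v).card ≤ 6)
    {e : ℝ} (he : 0 ≤ e) {A : ℝ} (hA : 1 ≤ A) (hsm : 2304 * e ≤ (1 / (12 * A)) ^ 4) (r : ℕ)
    (v : P2) : CovAt F E ξ 2304 e (1 / A ^ r) r v (lng S E e F ξ r v) := by
  classical
  have hA0 : 0 < A := by linarith
  refine ⟨Fam4 S E r v, ?_, ?_, ?_⟩
  · have hd0 : 0 ≤ 1 / (12 * A) := by positivity
    have hd1 : 1 / (12 * A) ≤ 1 := by
      rw [div_le_one (by positivity)]; linarith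
    calc ∑ T ∈ Fam4 S E r v, (2304 * e) ^ T.length
        ≤ ∑ _T ∈ Fam4 S E r v, (1 / (12 * A)) ^ r := by
          refine Finset.sum_le_sum fun T hT => ?_
          obtain ⟨l, _, _, _, _, h5⟩ := mem_Fam4.mp hT
          exact weight_le (by positivity) hd0 hd1 hsm (by omega)
      _ = (Fam4 S E r v).card * (1 / (12 * A)) ^ r := by
          rw [Finset.sum_const, nsmul_eq_mul]
      _ ≤ 12 ^ r * (1 / (12 * A)) ^ r := by
          gcongr
          have := Fam4_card (V := S) (E := E) (n := 6) (fun v hv => hn v (hSF hv)) r v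
          exact_mod_cast this
      _ = 1 / A ^ r := by
          rw [← mul_pow, ← one_div_pow]
          congr 1
          field_simp
  · intro T hT q hq
    have h1 := Fam4_near dn dn_self dn_tri (dn_adj hE) hT q hq
    unfold dn at h1
    omega
  · rintro x ⟨hx, hx'⟩
    simp only [lng, mem_iUnion] at hx'
    obtain ⟨T, hT, hT'⟩ := hx'
    exact ⟨T, hT, Fresh_mono hSF (Fam4_fresh hT), hx, hT'⟩

/-- **very long cheap paths contain long tight blocks** -/
theorem mc_subset_long (hε : 0 < ε) (hΛ : 0 < Λ) (hL : 4 * L ≤ Λ)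
    (hφ : ∀ i a b, b ∈ nbr E a → |φs i a - φs i b| ≤ L) {r : ℕ} (hr : 0 < r)
    (hc : c0 ≤ Λ * r) {k : ℕ} (hk : 4 * r + 1 ≤ k) :
    {x : F → ℝ | k ≤ mc S E ρ ε Λ c0 φs (ext F ξ x) w} ⊆
      ⋃ v ∈ S, lng S E (ρ + ε) F ξ r v := by
  classical
  intro x hx
  simp only [Set.mem_ofPred_eq] at hx
  obtain ⟨i, l, hl, h1, h2⟩ := exists_mc (K := k) (by omega) hx
  obtain ⟨h3, h4, h5⟩ := pt_spec hl
  have hne := pt_ne_nil hl
  have h6 := pe_length l hne
  have hV := pt_mem hl (by omega)
  have h7 : (4 * r : ℕ) ≤ (pe l).length := by omega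
  have h8 := tight_half (h := ext F ξ x) (ρ := ρ) hε hΛ hL (hφ i) h5 h4 h2.le (by
    have : ((4 * r : ℕ) : ℝ) ≤ (pe l).length := by exact_mod_cast h7
    push_cast at this
    nlinarith)
  set p : P2 × P2 → Bool := fun q => decide (1 - (ρ + ε) ≤ |ext F ξ x q.1 - ext F ξ x q.2|)
    with hp
  by_contra hcon
  have hb := exists_block (p := p) hr l.length l le_rfl hne (by
    intro l1 l' l2 h9 h10
    by_contra hlt
    push Not at hlt
    apply hcon
    have hl'ne : l' ≠ [] := by
      intro h; rw [h] at h10; simp at h10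
    obtain ⟨v, t, rfl⟩ := List.exists_cons_of_ne_nil hl'ne
    have hsub : ∀ a ∈ v :: t, a ∈ S := fun a ha => hV a (by
      rw [h9]; exact List.mem_append_left _ (List.mem_append_right _ ha))
    have hnd : (v :: t).Nodup := by
      have : (l1 ++ (v :: t)).Nodup := by
        rw [h9] at h3; exact (List.nodup_append.mp h3).1
      exact (List.nodup_append.mp this).2.1
    have hch : (v :: t).IsChain (fun a b => b ∈ nbr E a) := by
      rw [h9] at h5
      exact (h5.left_of_append).right_of_append
    have hpt : (v :: t) ∈ pt S E v := mem_pt.mpr (Or.inr ⟨hnd, hsub, rfl, hch⟩)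
    simp only [mem_iUnion]
    refine ⟨v, hsub v List.mem_cons_self, ?_⟩
    simp only [lng, mem_iUnion]
    refine ⟨(pe (v :: t)).filter p, mem_Fam4.mpr ⟨v :: t, ?_, hpt, h10, List.filter_sublist, hlt⟩,
      ?_⟩
    · exact mem_wf r v (v :: t) h10 rfl hch fun l1 l2 b c hbc => hsub b (by rw [hbc]; simp)
    · intro q hq
      simpa [hp] using (List.mem_filter.mp hq).2)
  have h8' : (pe l).length ≤ 2 * ((pe l).filter p).length := h8
  omega

end Crest.Agent.R144.Uid674
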