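import Crest.Agent.R144.Uid1_674

/-!
# R144 (S0197), block UID (helper674), part 2: the instances

* `tbq_u` : the LC bound in hexagonal balls with a universal exponential rate `KU`;
* `e0` : the universal smallness of `ρ + ε`;
* `Prm` : admissible parameters of the cheap paths;
* `mid_le`, `long_le`, `window_le`.
-/

set_option autoImplicit false

open MeasureTheory Set Filter Topology
open scoped ENNReal NNReal

noncomputable section

namespace Crest.Agent.R144.Uid674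

open Crest.Agent.R144.Skel144
open Crest.Agent.R144.Ham560 (ext ham nbr mem_nbr Fresh tight hamP measurableSet_ham ext_mem
  ext_notMem FreshR tightR wgt wgt_const)
open Crest.Agent.R144.Tri560
open Crest.Agent.R144.Zb560
open Crest.Agent.R144.LoB95 (mc exists_mc length_le_mc measurable_mc)
open Crest.Agent.R144.Kor620 (P2 nrm FullE)
open Crest.Agent.R144.KorE761 (LatE)
open Crest.Agent.R144.Uig714 (CovAt TBQ nrm_tri Off xe rh k2 single_le joint_le uib_sets pos_bound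
  delta_small tendsto_delta_rh tendsto_rh pow_k2_le lt_pow_k2 rh_pos one_div_delta_le
  real_le_sqrt latE_inst ham_xe)
open Crest.ProbabilityR.TriHeights Crest.ProbabilityR.HexHeights

variable (I : Inst)

/-- universal exponential rate of the LC bound -/
def KU : ℝ := LC121.KL ^ 25

theorem one_le_KU : 1 ≤ KU := one_le_pow₀ LC121.one_le_KL

/-- **LEMMA LC for the instances, universal exponential rate** -/
theorem tbq_u {ε : ℝ} (hε : 0 < ε) : ∃ ρ : ℝ, 0 < ρ ∧ ∃ C : ℝ, 1 ≤ C ∧ ∀ᶠ n in atTop,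
    ∀ (z : P2) (r : ℕ), I.δ n * r ≤ ρ → Off I ε n z →
      TBQ (I.Fr n) (I.Ed n) (I.xi n) (I.P0 n) 2304 (ENNReal.ofReal (C / I.δ n * KU ^ r))
        {u | nrm (u - z) ≤ r} := by
  obtain ⟨ρ, hρ, hρf⟩ := LC121.flat_inst I hε
  obtain ⟨C, hC, hCb⟩ := LC121.height_bound I
  have hK := LC121.one_le_KL
  refine ⟨ρ / 2, by positivity, KU * (2 * C), ?_, ?_⟩
  · have := one_le_KU
    nlinarith
  have hδ1 : ∀ᶠ n in atTop, I.δ n < min 1 (ρ / 2) :=
    (tendsto_order.1 I.hM.2.1).2 _ (by positivity)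
  filter_upwards [hρf, hCb, hδ1] with n hn hCn hδn z r hr hoff T hT hTQ ε' hε' _
  have hδ := I.hM.1 n
  have hδn1 : I.δ n < 1 := hδn.trans_le (min_le_left _ _)
  have hδn2 : I.δ n < ρ / 2 := hδn.trans_le (min_le_right _ _)
  obtain ⟨c0, hc0, hF⟩ := hn z (r + 1) (by push_cast; linarith) hoff.1 hoff.2
  have key : ∀ u : P2, nrm (u - z) ≤ r → u ∈ LC121.box z r := by
    intro u hu
    have h3 : (u.1 - z.1).natAbs ≤ r := le_trans (by simp [nrm]) hu
    have h4 : (u.2 - z.2).natAbs ≤ r := le_trans (by simp [nrm]) hu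
    rw [LC121.mem_box, abs_le, abs_le]
    omega
  set S : List ((P2 × P2) × ℝ) := T.map fun q => (q, ε') with hS
  have hSb : ∀ q ∈ S, q.1.1 ∈ LC121.box z r ∧ q.1.2 ∈ LC121.box z r := by
    intro q hq
    obtain ⟨q', hq', rfl⟩ := List.mem_map.mp hq
    exact ⟨key _ (hTQ q' hq').1, key _ (hTQ q' hq').2⟩
  have hS' : ∀ q ∈ S, q.1.1 ∈ LC121.box z (r + 1) ∧ q.1.2 ∈ LC121.box z (r + 1) := fun q hq =>
    ⟨LC121.box_mono (Nat.le_succ r) (hSb q hq).1, LC121.box_mono (Nat.le_succ r) (hSb q hq).2⟩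
  have hSo : ∀ q ∈ S, q.1.1 ≠ (z.1 + (r + 1 : ℕ), z.2 + (r + 1 : ℕ)) := by
    intro q hq h
    have h1 := (LC121.mem_box.mp (hSb q hq).1).1
    rw [h] at h1
    simp only [add_sub_cancel_left] at h1
    rw [abs_of_nonneg (by positivity)] at h1
    push_cast at h1
    linarith
  have hmain := LC121.LC_box_prob (LC121.lat_inst I n) (I.anch n) (fun u _ => I.abs_xi_le n u) hc0
    hF hCn (fun v _ => LC121.card_nbr_triE (I.T n) v) (hT.toR hε') hS' hSo
  have e0 : wgt 6 S = ENNReal.ofReal (2304 * ε') ^ T.length := by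
    rw [hS, wgt_const]
    norm_num
  have hsub : tight (I.Fr n) (I.Ed n) (I.xi n) T ε' ⊆ tightR (I.Fr n) (I.Ed n) (I.xi n) S := by
    rintro x ⟨hx, hx2⟩
    refine ⟨hx, fun q hq => ?_⟩
    obtain ⟨q', hq', rfl⟩ := List.mem_map.mp hq
    exact hx2 q' hq'
  refine (measure_mono hsub).trans (hmain.trans ?_)
  rw [e0]
  have e1 : max 1 (2 * (C / I.δ n)) ≤ 2 * C / I.δ n := by
    refine max_le ?_ (le_of_eq (by ring))
    rw [one_le_div hδ]; linarith
  have e2 : ENNReal.ofReal LC121.KL ^ (10 * (r + 1) + 5) ≤ ENNReal.ofReal (KU * KU ^ r) := by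
    have hK1 : (1 : ℝ≥0∞) ≤ ENNReal.ofReal LC121.KL := by
      rw [← ENNReal.ofReal_one]; exact ENNReal.ofReal_le_ofReal hK
    calc ENNReal.ofReal LC121.KL ^ (10 * (r + 1) + 5) ≤ ENNReal.ofReal LC121.KL ^ (25 + 25 * r) :=
          pow_le_pow_right₀ hK1 (by omega)
      _ = ENNReal.ofReal (KU * KU ^ r) := by
          rw [KU, ← pow_mul, ← pow_add, ← ENNReal.ofReal_pow (by linarith)]
  calc ENNReal.ofReal LC121.KL ^ (10 * (r + 1) + 5) *
        (ENNReal.ofReal (max 1 (2 * (C / I.δ n))) * ENNReal.ofReal (2304 * ε') ^ T.length)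
      ≤ ENNReal.ofReal (KU * KU ^ r) *
        (ENNReal.ofReal (2 * C / I.δ n) * ENNReal.ofReal (2304 * ε') ^ T.length) :=
        mul_le_mul' e2 (mul_le_mul' (ENNReal.ofReal_le_ofReal e1) le_rfl)
    _ = ENNReal.ofReal (2304 * ε') ^ T.length *
        (ENNReal.ofReal (KU * KU ^ r) * ENNReal.ofReal (2 * C / I.δ n)) := by ring
    _ = _ := by
        have hKU := one_le_KU
        rw [← ENNReal.ofReal_mul (by positivity)]
        congr 2
        ring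

/-- universal base -/
def AU : ℕ := ⌈KU * (24 ^ 4) ^ 40⌉₊ + 96

theorem AU_ge : KU * (24 ^ 4) ^ 40 ≤ (AU : ℝ) := by
  unfold AU
  push_cast
  have := Nat.le_ceil (KU * (24 ^ 4) ^ 40)
  linarith

theorem AU_96 : 8 * 12 ≤ AU := by unfold AU; omega

theorem one_le_AU : (1 : ℝ) ≤ AU := by
  have : 1 ≤ AU := by unfold AU; omega
  exact_mod_cast this

/-- the universal smallness of the parameters -/
def e0 : ℝ := (1 / (12 * (AU : ℝ))) ^ 4 / 2304

theorem e0_pos : 0 < e0 := by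
  have := one_le_AU
  unfold e0
  positivity

theorem le_e0 {e : ℝ} (h : e ≤ e0) : 2304 * e ≤ (1 / (12 * (AU : ℝ))) ^ 4 := by
  unfold e0 at h
  rw [le_div_iff₀ (by norm_num)] at h
  linarith

theorem e0_le_one {e : ℝ} (h : e ≤ e0) : e ≤ 1 := by
  have h1 := le_e0 h
  have h2 : (1 / (12 * (AU : ℝ))) ^ 4 ≤ 1 := by
    have := one_le_AU
    refine pow_le_one₀ (by positivity) ?_
    rw [div_le_one (by positivity)]; linarith
  linarith

/-- admissible parameters of the cheap paths -/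
structure Prm {κ : Type*} (ρ ε Λ c0 L : ℝ) (φs : κ → P2 → ℝ) : Prop where
  hρ : 0 ≤ ρ
  hε : 0 < ε
  small : ρ + ε ≤ e0
  hΛ : 0 < Λ
  hL : 4 * L ≤ Λ
  hφ : ∀ i a b, Adj a b → |φs i a - φs i b| ≤ L

variable {κ : Type*} [Fintype κ] {ρ ε Λ c0 L : ℝ} {φs : κ → P2 → ℝ}

/-- the length of the longest cheap path at the instance -/
abbrev MC (n : ℕ) (S : Finset P2) (ρ ε Λ c0 : ℝ) (φs : κ → P2 → ℝ) (w : P2) (x : I.Fr n → ℝ) :
    ℕ := mc S (I.Ed n) ρ ε Λ c0 φs (ext (I.Fr n) (I.xi n) x) w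

theorem measurable_MC (n : ℕ) (S : Finset P2) (w : P2) :
    Measurable (MC I n S ρ ε Λ c0 φs w) :=
  (measurable_mc S (I.Ed n) w).comp (measurable_pi_iff.mpr fun u =>
    (Ham560.continuous_ext (F := I.Fr n) (ξ := I.xi n) u).measurable)

theorem ae_ham (n : ℕ) : ∀ᵐ h ∂(I.P0 n), h ∈ ham (I.Fr n) (I.Ed n) (I.xi n) := by
  have := Uig714.ae_ham I n
  rwa [ham_xe] at this

theorem deg_inst (n : ℕ) : ∀ v ∈ I.Fr n, (nbr (I.Ed n) v).card ≤ 6 := fun v _ =>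
  LC121.card_nbr_triE (I.T n) v

/-- covering at the instance -/
theorem covAt_inst (H : Prm ρ ε Λ c0 L φs) {n : ℕ} {S : Finset P2} (hS : S ⊆ I.Fr n)
    {k0 : ℕ} (hk0 : 4 * c0 ≤ Λ * k0) (w : P2) (k : ℕ) :
    CovAt (I.Fr n) (I.Ed n) (I.xi n) 2304 (ρ + ε) ((AU : ℝ) ^ (k0 + 1) / (AU : ℝ) ^ k) k w
      {x | MC I n S ρ ε Λ c0 φs w x = k} :=
  covAt_mc hS (latE_inst I n) (deg_inst I n) H.hρ H.hε H.hΛ H.hL
    (fun i a b h => H.hφ i a b ((latE_inst I n).nbr h)) one_le_AU (le_e0 H.small) hk0 le_rfl k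

omit [Fintype κ] in
theorem eps_bd (H : Prm ρ ε Λ c0 L φs) : 0 < ρ + ε ∧ ρ + ε ≤ 1 := by
  have h1 := H.hρ
  have h2 := H.hε
  exact ⟨by linarith, e0_le_one H.small⟩

/-- the ratio of the rates -/
def rt : ℝ := KU / AU

theorem rt_nonneg : 0 ≤ rt := by
  have := one_le_KU
  unfold rt
  positivity

theorem rt_le : rt ≤ 1 / (24 ^ 4) ^ 40 := by
  have := AU_ge
  have h1 := one_le_AU
  unfold rt
  rw [div_le_div_iff₀ (by linarith) (by positivity)]
  linarith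

/-- one site, moderate lengths -/
theorem mid_le (H : Prm ρ ε Λ c0 L φs) {ε₁ : ℝ} (hε₁ : 0 < ε₁) : ∃ ρ₁ : ℝ, 0 < ρ₁ ∧ ∃ C : ℝ, 1 ≤ C ∧
    ∀ᶠ n in atTop, ∀ S : Finset P2, S ⊆ I.Fr n → ∀ w, Off I ε₁ n w → ∀ k : ℕ, I.δ n * k ≤ ρ₁ →
      (I.P0 n).real {x | MC I n S ρ ε Λ c0 φs w x = k} ≤ C / I.δ n * rt ^ k := by
  obtain ⟨ρ₁, hρ₁, C, hC, h⟩ := tbq_u I hε₁
  obtain ⟨k0, hk0⟩ : ∃ k0 : ℕ, 4 * c0 ≤ Λ * k0 := by
    obtain ⟨k0, hk0⟩ := exists_nat_ge (4 * c0 / Λ)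
    refine ⟨k0, ?_⟩
    rw [div_le_iff₀ H.hΛ] at hk0
    linarith
  have hAU := one_le_AU
  refine ⟨ρ₁, hρ₁, (AU : ℝ) ^ (k0 + 1) * C, ?_, ?_⟩
  · have : (1 : ℝ) ≤ (AU : ℝ) ^ (k0 + 1) := one_le_pow₀ hAU
    nlinarith
  filter_upwards [h] with n hn S hS w hw k hk
  have hδ := I.hM.1 n
  obtain ⟨e1, e2⟩ := eps_bd H
  have h1 := single_le (hn w k hk hw) (by norm_num) e1 e2 (covAt_inst I H hS hk0 w k) (ae_ham I n)
  rw [← ENNReal.ofReal_mul (by positivity)] at h1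
  rw [measureReal_def]
  have hKU := one_le_KU
  refine ENNReal.toReal_le_of_le_ofReal ?_ (h1.trans (le_of_eq ?_))
  · have := rt_nonneg
    positivity
  · congr 1
    rw [rt, div_pow]
    field_simp

/-- one site, very long paths -/
theorem long_le (H : Prm ρ ε Λ c0 L φs) {ε₁ : ℝ} (hε₁ : 0 < ε₁) : ∃ ρ₁ : ℝ, 0 < ρ₁ ∧ ∃ C : ℝ, 1 ≤ C ∧
    ∀ᶠ n in atTop, ∀ S : Finset P2, S ⊆ I.Fr n → (∀ v ∈ S, Off I ε₁ n v) →
    ∀ r : ℕ, 0 < r → c0 ≤ Λ * r → I.δ n * r ≤ ρ₁ →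
      (I.P0 n).real {x | ∃ w, 4 * r + 1 ≤ MC I n S ρ ε Λ c0 φs w x} ≤
        S.card * (C / I.δ n * rt ^ r) := by
  obtain ⟨ρ₁, hρ₁, C, hC, h⟩ := tbq_u I hε₁
  have hAU := one_le_AU
  refine ⟨ρ₁, hρ₁, C, hC, ?_⟩
  filter_upwards [h] with n hn S hS hoff r hr hc hk
  have hδ := I.hM.1 n
  obtain ⟨e1, e2⟩ := eps_bd H
  have hKU := one_le_KU
  have hrt := rt_nonneg
  have hsub : {x : I.Fr n → ℝ | ∃ w, 4 * r + 1 ≤ MC I n S ρ ε Λ c0 φs w x} ⊆
      ⋃ v ∈ S, lng S (I.Ed n) (ρ + ε) (I.Fr n) (I.xi n) r v := by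
    rintro x ⟨w, hw⟩
    exact mc_subset_long H.hε H.hΛ H.hL (fun i a b h => H.hφ i a b ((latE_inst I n).nbr h)) hr hc
      (k := 4 * r + 1) le_rfl hw
  have h1 : I.P0 n {x : I.Fr n → ℝ | ∃ w, 4 * r + 1 ≤ MC I n S ρ ε Λ c0 φs w x} ≤
      ENNReal.ofReal (S.card * (C / I.δ n * rt ^ r)) := by
    calc _ ≤ I.P0 n (⋃ v ∈ S, lng S (I.Ed n) (ρ + ε) (I.Fr n) (I.xi n) r v) := measure_mono hsub
      _ ≤ ∑ v ∈ S, I.P0 n (lng S (I.Ed n) (ρ + ε) (I.Fr n) (I.xi n) r v) :=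
          measure_biUnion_finset_le _ _
      _ ≤ ∑ _v ∈ S, ENNReal.ofReal (C / I.δ n * rt ^ r) := by
          refine Finset.sum_le_sum fun v hv => ?_
          have h2 := single_le (hn v r hk (hoff v hv)) (by norm_num) e1 e2
            (covAt_long hS (latE_inst I n) (deg_inst I n) e1.le one_le_AU (le_e0 H.small) r v)
            (ae_ham I n)
          rw [← ENNReal.ofReal_mul (by positivity)] at h2
          refine h2.trans (le_of_eq ?_)
          congr 1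
          rw [rt, div_pow]
          field_simp
      _ = _ := by
          rw [Finset.sum_const, nsmul_eq_mul,
            ENNReal.ofReal_mul (p := (S.card : ℝ)) (Nat.cast_nonneg _), ENNReal.ofReal_natCast]
  rw [measureReal_def]
  exact ENNReal.toReal_le_of_le_ofReal (by positivity) h1

/-- **boxes: moderate lengths, averaged** -/
theorem window_le (H : Prm ρ ε Λ c0 L φs) {ε₁ : ℝ} (hε₁ : 0 < ε₁) : ∃ C : ℝ, 1 ≤ C ∧
    ∀ᶠ n in atTop, ∀ S : Finset P2, S ⊆ I.Fr n → (∀ v ∈ S, Off I ε₁ n v) →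
    ∀ k : ℕ, k ≤ k2 I n →
      I.δ n ^ 2 * ∑ w ∈ S, (I.P0 n).real {x | MC I n S ρ ε Λ c0 φs w x = k} ≤
        C * (1 / 12) ^ k := by
  classical
  obtain ⟨ρ₁, hρ₁, C, hC, hTBQ⟩ := tbq_u I hε₁
  obtain ⟨R, hR, hpos⟩ := pos_bound I
  have hC0 : 0 ≤ C := by linarith
  have hKU := one_le_KU
  obtain ⟨k0, hk0⟩ : ∃ k0 : ℕ, 4 * c0 ≤ Λ * k0 := by
    obtain ⟨k0, hk0⟩ := exists_nat_ge (4 * c0 / Λ)
    refine ⟨k0, ?_⟩
    rw [div_le_iff₀ H.hΛ] at hk0
    linarith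
  have hAU := one_le_AU
  obtain ⟨e1, e2⟩ := eps_bd H
  have hCA : (1 : ℝ) ≤ (AU : ℝ) ^ (k0 + 1) := one_le_pow₀ hAU
  have hC₃ : (1 : ℝ) ≤ 4 * C * KU ^ 4 := by
    have : (1 : ℝ) ≤ KU ^ 4 := one_le_pow₀ hKU
    nlinarith
  obtain ⟨k₁, ρ₀, hk₁, key⟩ := uib_sets.{0} (B := 12) (Cf := 1) (κ₀ := 0) (A := AU) (by norm_num)
      (by norm_num) AU_96 (c := 2304) (by norm_num) hCA hC₃ one_pos
  refine ⟨12 ^ k₁ * (2 * R + 3) ^ 2, ?_, ?_⟩
  · have h1 : (1 : ℝ) ≤ 12 ^ k₁ := one_le_pow₀ (by norm_num)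
    have h2 : (1 : ℝ) ≤ (2 * R + 3) ^ 2 := one_le_pow₀ (by linarith)
    nlinarith
  filter_upwards [hTBQ, hpos, delta_small I one_pos,
    (tendsto_order.1 (tendsto_delta_rh I)).2 (min (ρ₁ / 4) 1) (by positivity),
    (tendsto_atTop.mp (tendsto_rh I)) ρ₀] with n hn hpn hδ1 hδr hr S hS hoff k hk
  have hδ := I.hM.1 n
  have hδr1 : I.δ n * rh I n < ρ₁ / 4 := hδr.trans_le (min_le_left _ _)
  have hδr2 : I.δ n * rh I n < 1 := hδr.trans_le (min_le_right _ _)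
  set W : ℕ := ⌊R / I.δ n⌋₊ with hW
  have hWR : (W : ℝ) ≤ R / I.δ n := Nat.floor_le (by positivity)
  -- number of sites
  have hcard : I.δ n ^ 2 * (S.card : ℝ) ≤ (2 * R + 3) ^ 2 := by
    have h1 : S.card ≤ (2 * W + 1) ^ 2 := by
      rw [← Uig714.card_grid]
      refine Finset.card_le_card fun u hu => ?_
      have h2 := hpn u (hS hu)
      have h3 := Nat.le_floor h2.1
      have h4 := Nat.le_floor h2.2
      rw [Finset.mem_product, Finset.mem_Icc, Finset.mem_Icc]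
      omega
    have h2 : (S.card : ℝ) ≤ (2 * W + 1) ^ 2 := by exact_mod_cast h1
    have h3 : I.δ n * (2 * W + 1) ≤ 2 * R + 3 := by
      rw [le_div_iff₀ hδ] at hWR
      nlinarith
    calc I.δ n ^ 2 * (S.card : ℝ) ≤ I.δ n ^ 2 * (2 * W + 1) ^ 2 := by gcongr
      _ = (I.δ n * (2 * W + 1)) ^ 2 := by ring
      _ ≤ _ := by gcongr
  have h12 : (12 : ℝ) ^ k₁ * (2 * R + 3) ^ 2 * (1 / 12) ^ k =
      (2 * R + 3) ^ 2 * (12 ^ k₁ * (1 / 12) ^ k) := by ring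
  rw [h12]
  by_cases hkk : k < k₁
  · have h1 : ∑ w ∈ S, (I.P0 n).real {x | MC I n S ρ ε Λ c0 φs w x = k} ≤ S.card := by
      calc _ ≤ ∑ _w ∈ S, (1 : ℝ) := Finset.sum_le_sum fun _ _ => measureReal_le_one
        _ = _ := by simp
    have h2 : (1 : ℝ) ≤ 12 ^ k₁ * (1 / 12) ^ k := by
      rw [one_div_pow, mul_one_div, one_le_div (by positivity)]
      exact pow_le_pow_right₀ (by norm_num) hkk.le
    calc I.δ n ^ 2 * ∑ w ∈ S, (I.P0 n).real {x | MC I n S ρ ε Λ c0 φs w x = k}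
        ≤ I.δ n ^ 2 * S.card := by gcongr
      _ ≤ (2 * R + 3) ^ 2 := hcard
      _ ≤ (2 * R + 3) ^ 2 * (12 ^ k₁ * (1 / 12) ^ k) := le_mul_of_one_le_right (by positivity) h2
  · push Not at hkk
    have key' := key (rh I n) hr (k2 I n) (pow_k2_le I n) (I.Fr n) (I.Ed n) (I.xi n) (I.P0 n)
      (I.P0 n) (ae_ham I n) (fun A _ => real_le_sqrt _ A) S (fun p => p) W
      (fun p hp => by
        have h1 := hpn p (hS hp)
        exact ⟨Nat.le_floor h1.1, Nat.le_floor h1.2⟩)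
      (fun z T hT => by
        have : T ⊆ {z} := fun p hp => Finset.mem_singleton.mpr (hT p hp).2
        simpa using Finset.card_le_card this)
      (fun w k => {x | MC I n S ρ ε Λ c0 φs w x = k})
      (fun w k => (measurable_MC I n S w) (measurableSet_singleton k))
      (fun k _ _ => ⟨ρ + ε, e1, e2, fun w _ => covAt_inst I H hS hk0 w k⟩)
      (fun w hw => by
        refine (hn w (4 * rh I n) ?_ (hoff w hw)).mono ?_ (Set.Subset.refl _)
        · push_cast; linarith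
        · apply ENNReal.ofReal_le_ofReal
          have h1 := one_div_delta_le I n
          have h2 : (rh I n : ℝ) ≤ 2 ^ rh I n := by
            exact_mod_cast (Nat.lt_two_pow_self (n := rh I n)).le
          have hr1 : 1 ≤ rh I n := rh_pos I n
          calc C / I.δ n * KU ^ (4 * rh I n) = C * (1 / I.δ n) * KU ^ (4 * rh I n) := by ring
            _ ≤ C ^ (rh I n) * (2 ^ rh I n) ^ 2 * KU ^ (4 * rh I n) := by
                have h3 : C ≤ C ^ rh I n := le_self_pow₀ hC (by omega)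
                have h4 : 1 / I.δ n ≤ ((2 : ℝ) ^ rh I n) ^ 2 := h1.trans (by gcongr)
                have h5 : 0 ≤ 1 / I.δ n := by positivity
                gcongr
            _ = (4 * C * KU ^ 4) ^ rh I n := by
                have e1 : ((2 : ℝ) ^ rh I n) ^ 2 = 4 ^ rh I n := by
                  rw [pow_right_comm]; norm_num
                rw [e1, mul_pow, mul_pow, ← pow_mul]; ring)
    have h1 : ((12 : ℕ) : ℝ≥0∞) ^ k * ∑ w ∈ S, I.P0 n {x | MC I n S ρ ε Λ c0 φs w x = k} ≤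
        ENNReal.ofReal ((1 * (2 * W + 3 * rh I n) ^ 2 : ℕ) * 1) := by
      refine le_trans ?_ key'
      exact Finset.single_le_sum (f := fun k => ((12 : ℕ) : ℝ≥0∞) ^ k *
        ∑ w ∈ S, I.P0 n {x | MC I n S ρ ε Λ c0 φs w x = k}) (fun _ _ => bot_le)
        (Finset.mem_Ico.mpr ⟨hkk, by omega⟩)
    have h2 : (12 : ℝ) ^ k * ∑ w ∈ S, (I.P0 n).real {x | MC I n S ρ ε Λ c0 φs w x = k} ≤
        (2 * W + 3 * rh I n) ^ 2 := by
      have h3 : ((12 : ℕ) : ℝ≥0∞) ^ k * ∑ w ∈ S, I.P0 n {x | MC I n S ρ ε Λ c0 φs w x = k} =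
          ENNReal.ofReal ((12 : ℝ) ^ k *
            ∑ w ∈ S, (I.P0 n).real {x | MC I n S ρ ε Λ c0 φs w x = k}) := by
        rw [ENNReal.ofReal_mul (by positivity), ENNReal.ofReal_pow (by norm_num),
          ENNReal.ofReal_sum_of_nonneg fun _ _ => measureReal_nonneg]
        congr 1
        · simp
        · exact Finset.sum_congr rfl fun w _ => (ofReal_measureReal).symm
      rw [h3, ENNReal.ofReal_le_ofReal_iff (by positivity)] at h1
      push_cast at h1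
      linarith
    have h4 : ∑ w ∈ S, (I.P0 n).real {x | MC I n S ρ ε Λ c0 φs w x = k} ≤
        (2 * W + 3 * rh I n) ^ 2 * (1 / 12) ^ k := by
      rw [one_div_pow, mul_one_div, le_div_iff₀ (by positivity)]
      linarith
    have h5 : I.δ n * (2 * W + 3 * rh I n) ≤ 2 * R + 3 := by
      rw [le_div_iff₀ hδ] at hWR
      nlinarith
    calc I.δ n ^ 2 * ∑ w ∈ S, (I.P0 n).real {x | MC I n S ρ ε Λ c0 φs w x = k}
        ≤ I.δ n ^ 2 * ((2 * W + 3 * rh I n) ^ 2 * (1 / 12) ^ k) := by gcongr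
      _ = (I.δ n * (2 * W + 3 * rh I n)) ^ 2 * (1 / 12) ^ k := by ring
      _ ≤ (2 * R + 3) ^ 2 * (1 * (1 / 12) ^ k) := by rw [one_mul]; gcongr
      _ ≤ _ := by
        gcongr
        exact one_le_pow₀ (by norm_num)

end Crest.Agent.R144.Uid674
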