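import Crest.Agent.R144.Upp6_296
import Crest.Agent.R144.Upp7_296
import Crest.Agent.R144.Skel99_144
import Crest.Agent.R144.Bl3_565

/-!
R144 / S0197, approach P, upper bound, part 8 (helper296): the last glue of `UP'`.

* `exists_flowI` : the flow dictionary at `Skel144.Inst` on any set of sites between `KX` and `KS`;
* `hA_of_abT` : the isotropic lower bound of the averaged matrices from 565's shared scalar;
* `upperB0_of` : `UpperB0 (c0 / b)`, `c0 = √3 / 2`, from `UpHyp` + `BlkHyp` at every instance.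
-/

set_option autoImplicit false
set_option linter.unusedSectionVars false
set_option linter.unusedVariables false

open Filter Set Metric Topology MeasureTheory ProbabilityTheory

namespace Crest.Agent.R144.Upp296

open Crest.Agent.R144.Flat296 Crest.ProbabilityR.HexHeights Crest.ProbabilityR.TriHeights
  Crest.Agent.R144.Lat549 Crest.Agent.R144.Geo268 Crest.Agent.R144.Skel144 Crest.Agent.R144.Ham560
open scoped ContDiff

/-- the flow at an instance: everything `UpHyp` needs -/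
structure Flow (I : Inst) (ε ρ : ℝ) (j : ℕ → Fin 2 → P2 → ℝ) : Prop where
  pos : 0 < ρ
  jb : ∃ Cj : ℝ, ∀ n i x, |j n i x| ≤ Cj
  jc : ∀ R : ℕ, ∀ ε' : ℝ, 0 < ε' → ∀ᶠ n in atTop, ∀ i x, ∀ p ∈ Flat296.sq R,
    |j n i x - j n i (x - Flat296.pt p)| ≤ ε'
  sup : ∀ᶠ n in atTop, ∀ i x, centre (I.δ n) x ∈ ball (I.γ 0) ρ ∪ ball (I.γ I.θ) ρ → j n i x = 0
  sbp : ∀ᶠ n in atTop, ∀ Y : P2 → ℝ, (∀ v, v ∉ I.Fr n → Y v = 0) →
    ∑ v ∈ I.Fr n, wA (I.δ n) I.f v * Y v =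
      I.δ n * ∑ i, ∑ x ∈ KX I.γ I.θ ρ (I.δ n) (I.T n) (I.c n), j n i x * (Y (x + dir i) - Y x)
  en : ∀ᶠ n in atTop, I.δ n ^ 2 * ∑ x ∈ KX I.γ I.θ ρ (I.δ n) (I.T n) (I.c n),
    isos (fun i => j n i x) ≤ Real.sqrt 3 / 2 * (I.g + ε)

theorem exists_flowI (I : Inst) {ε : ℝ} (hε : 0 < ε) : ∃ ρ j, Flow I ε ρ j := by
  obtain ⟨ρ, j, h0, h1, h2, h3, h4, h5⟩ :=
    exists_flow I.hD I.hM I.hφ I.hbij (f := I.f) ⟨I.hf, I.hfc, I.hfs⟩ hε
  exact ⟨ρ, j, h0, h1, h2, h3, h4, h5⟩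

/-- a set of sites on which the flow may be summed -/
def FlowSet (I : Inst) (ρ : ℝ) (K : ℕ → Finset P2) : Prop :=
  ∀ n, (∀ x ∈ K n, x ∈ KS (I.Fr n)) ∧ ∀ x ∈ KS (I.Fr n), ρ ≤ dist (centre (I.δ n) x) (I.γ 0) →
    ρ ≤ dist (centre (I.δ n) x) (I.γ I.θ) → x ∈ K n

theorem FlowSet.sub {I : Inst} {ρ : ℝ} {K : ℕ → Finset P2} (h : FlowSet I ρ K) (n : ℕ) :
    KX I.γ I.θ ρ (I.δ n) (I.T n) (I.c n) ⊆ K n := fun x hx => by
  rw [mem_KX] at hx
  exact (h n).2 x (mem_KS.2 hx.1) hx.2.1 hx.2.2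

theorem FlowSet.near {I : Inst} {ρ : ℝ} {K : ℕ → Finset P2} (h : FlowSet I ρ K) {n : ℕ} {x : P2}
    (hx : x ∈ K n) (hx' : x ∉ KX I.γ I.θ ρ (I.δ n) (I.T n) (I.c n)) :
    centre (I.δ n) x ∈ ball (I.γ 0) ρ ∪ ball (I.γ I.θ) ρ := by
  have h1 := (h n).1 x hx
  rw [mem_KX, ← mem_KS, not_and, not_and_or] at hx'
  rcases hx' h1 with h | h
  · left; rw [mem_ball]; exact not_le.1 h
  · right; rw [mem_ball]; exact not_le.1 h

/-- summation by parts on a general set of sites -/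
theorem Flow.sbpK {I : Inst} {ε ρ : ℝ} {j : ℕ → Fin 2 → P2 → ℝ} (h : Flow I ε ρ j)
    {K : ℕ → Finset P2} (hK : FlowSet I ρ K) :
    ∀ᶠ n in atTop, ∀ Y : P2 → ℝ, (∀ v, v ∉ I.Fr n → Y v = 0) →
      ∑ v ∈ I.Fr n, wA (I.δ n) I.f v * Y v =
        I.δ n * ∑ i, ∑ x ∈ K n, j n i x * (Y (x + dir i) - Y x) := by
  filter_upwards [h.sbp, h.sup] with n h1 h2 Y hY
  rw [h1 Y hY]
  congr 1
  refine Finset.sum_congr rfl fun i _ => ?_
  refine Finset.sum_subset (hK.sub n) fun x hx hx' => ?_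
  rw [h2 i x (hK.near hx hx'), zero_mul]

/-- the energy on a general set of sites -/
theorem Flow.enK {I : Inst} {ε ρ : ℝ} {j : ℕ → Fin 2 → P2 → ℝ} (h : Flow I ε ρ j)
    {K : ℕ → Finset P2} (hK : FlowSet I ρ K) :
    ∀ᶠ n in atTop, I.δ n ^ 2 * ∑ x ∈ K n, isos (fun i => j n i x) ≤
      Real.sqrt 3 / 2 * (I.g + ε) := by
  filter_upwards [h.en, h.sup] with n h1 h2
  rw [← Finset.sum_subset (hK.sub n) fun x hx hx' => ?_]
  · exact h1
  · have h3 := fun i => h2 i x (hK.near hx hx')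
    simp only [isos, h3]
    norm_num

/-- the isotropic lower bound from the shared scalar -/
theorem hA_of_abT {P : Bl565.Par} {μ : Measure (P2 → ℝ)} (hμ : Bl565.Inv μ) {b : ℝ} {r : ℕ}
    {L : ℝ} (h : b ≤ Bl565.abT P μ r L) (y : Fin 2 → ℝ) :
    b * iso y ≤ qf (fun i j => (Fintype.card (Fin 3) : ℝ)⁻¹ * ∑ o, Bl565.Amat P μ r L o i j) y := by
  have h1 := Bl565.sum_A_eq (P := P) hμ r L y
  have h2 : qf (fun i j => (Fintype.card (Fin 3) : ℝ)⁻¹ * ∑ o, Bl565.Amat P μ r L o i j) y =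
      (1 / 3) * ∑ o, Bl565.qd (Matrix.of (Bl565.Amat P μ r L o)) y := by
    simp only [qf_eq, Bl565.qd_eq, Matrix.of_apply, Fin.sum_univ_three, Fintype.card_fin]
    norm_num
    ring
  rw [h2, h1]
  have h3 : 0 ≤ iso y := by
    unfold iso
    nlinarith [sq_nonneg (y 0 - y 1), sq_nonneg (y 0), sq_nonneg (y 1)]
  calc b * iso y ≤ Bl565.abT P μ r L * iso y := mul_le_mul_of_nonneg_right h h3
    _ = _ := by unfold iso; ring

/-- **`UP'` from `UpHyp` and `BlkHyp` at every instance.** -/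
theorem upperB0_of {b : ℝ} (hb : 0 < b) {O : Type} [Fintype O] [Nonempty O]
    {A : ℕ → O → Fin 2 → Fin 2 → ℝ} {r0 : ℕ}
    (hA : ∀ r, r0 ≤ r → ∀ y : Fin 2 → ℝ,
      b * iso y ≤ qf (fun i j => (Fintype.card O : ℝ)⁻¹ * ∑ o, A r o i j) y)
    (H : ∀ (I : Inst) (ε ρ : ℝ) (j : ℕ → Fin 2 → P2 → ℝ), 0 < ε → Flow I ε ρ j →
      ∃ (K : ℕ → Finset P2) (u : ∀ n, Fld (I.Fr n → ℝ)) (e : ℕ → ℝ) (Kc : ℕ → ℕ → Finset P2)
        (B : ℕ → O → ∀ n, Fin 2 → Fin 2 → Fld (I.Fr n → ℝ)) (Lr : ℕ → ℝ), FlowSet I ρ K ∧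
        UpHyp I.P0 I.δ u (fun n => Var[I.X n; I.P0 n]) e K Kc j ∧
        BlkHyp I.P0 I.δ u e Kc O r0 B A Lr) : UpperB0 (Real.sqrt 3 / 2 / b) := by
  intro I ε hε
  set c : ℝ := Real.sqrt 3 / 2 / b with hc
  have hc0 : 0 < c := by positivity
  obtain ⟨ρ, j, hF⟩ := exists_flowI I (ε := ε / (2 * c)) (by positivity)
  obtain ⟨K, u, e, Kc, B, Lr, hK, hU, hB⟩ := H I _ ρ j (by positivity) hF
  have h1 := upper hU hB hb hA (half_pos hε)
  filter_upwards [h1, hF.enK hK] with n h2 h3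
  refine h2.trans ?_
  have h4 : b⁻¹ * (I.δ n ^ 2 * ∑ a ∈ K n, isos fun i => j n i a) ≤
      b⁻¹ * (Real.sqrt 3 / 2 * (I.g + ε / (2 * c))) :=
    mul_le_mul_of_nonneg_left h3 (inv_pos.2 hb).le
  have h5 : b⁻¹ * (Real.sqrt 3 / 2 * (I.g + ε / (2 * c))) = c * I.g + ε / 2 := by
    have : b⁻¹ * (Real.sqrt 3 / 2) = c := by rw [hc]; field_simp
    rw [← mul_assoc, this, mul_add]
    congr 1
    field_simp
  rw [h5] at h4
  linarith

end Crest.Agent.R144.Upp296
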