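import Crest.Agent.R144.Bl4_565
import Crest.Agent.R144.Upp8_296
import Crest.Agent.R144.Lc16_279
import Crest.Agent.R144.Fa5_812
import Crest.Agent.R144.Uig11_714

/-!
R144 (S0197), helper540.  UPI-2: the hypotheses `BlkHyp` of helper296's limit theorem at the
instances of `Skel144`, for helper565's truncated block matrices `bbL` and the plane state `mu0`.

* `Bi P I L r o n i j`: the truncated block matrix at `a`, as a field on the instance;
* `bd_Bi`, `abs_Bi_le`, `qf_Bi_nonneg`: boundedness, measurability, positivity;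
* `lln_Bi`: the law of large numbers (helper279);
* `blkHyp_of`: `BlkHyp` from the fibre assembly.
-/

set_option autoImplicit false
set_option linter.unusedSectionVars false

open MeasureTheory Set Filter Topology
open scoped ENNReal NNReal

noncomputable section

namespace Crest.Agent.R144.Upi540

open Crest.Agent.R144.Ham560
open Crest.Agent.R144.Flat296 (P2 Fld bm)
open Crest.Agent.R144.Upp296
open Crest.Agent.R144.Bl565 (Par bbL bbO qd Amat abT)
open Crest.Agent.R144.Skel144 (Inst)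
open Crest.Agent.R144.Lc279 (mu0)
open Crest.Agent.R144.Uig714 (Kc mem_Kc)

/-- the configuration seen from `a` -/
def hs {F : Finset P2} (ξ : P2 → ℝ) (a : P2) (ω : F → ℝ) : P2 → ℝ := fun v =>
  Ham560.ext F ξ ω (a + v)

theorem measurable_hs {F : Finset P2} (ξ : P2 → ℝ) (a : P2) : Measurable (hs (F := F) ξ a) := by
  refine measurable_pi_lambda _ fun v => ?_
  unfold hs Ham560.ext
  by_cases h : a + v ∈ F
  · simp only [h, dite_true]; exact measurable_pi_apply _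
  · simp only [h, dite_false]; exact measurable_const

/-- the truncated block matrices on an instance -/
def Bi (P : Par) (I : Inst) (L : ℕ → ℝ) (r : ℕ) (o : Fin 3) (n : ℕ) (i j : Fin 2) :
    Fld (I.Fr n → ℝ) :=
  fun a ω => bbL P r o (L r) (fun v => Ham560.ext (I.Fr n) (I.xi n) ω (a + v)) i j

/-- the averaged matrices -/
def Ai (P : Par) (L : ℕ → ℝ) (r : ℕ) (o : Fin 3) (i j : Fin 2) : ℝ := Amat P mu0 r (L r) o i j

variable {P : Par} {I : Inst} {L : ℕ → ℝ}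

theorem abs_Bi_le {r : ℕ} (hL : 0 ≤ L r) (o : Fin 3) (n : ℕ) (i j : Fin 2) (a : P2)
    (ω : I.Fr n → ℝ) : |Bi P I L r o n i j a ω| ≤ 2 * L r :=
  Bl565.abs_bbL_le hL _ i j

theorem bd_Bi {r : ℕ} (hL : 0 ≤ L r) (o : Fin 3) (n : ℕ) (i j : Fin 2) :
    Bd (Bi P I L r o n i j) where
  mb a := (Bl565.measurable_bbL r o (L r) i j).comp (measurable_hs (I.xi n) a)
  bd := ⟨2 * L r, fun a ω => abs_Bi_le hL o n i j a ω⟩

theorem qf_Bi_nonneg (r : ℕ) (o : Fin 3) (n : ℕ) (a : P2) (ω : I.Fr n → ℝ) (x : Fin 2 → ℝ) :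
    0 ≤ qf (fun i j => Bi P I L r o n i j a ω) x :=
  Bl565.qd_bbL_nonneg r o (L r) _ x

/-- the quadratic form of `Bi` -/
theorem qf_Bi (r : ℕ) (o : Fin 3) (n : ℕ) (a : P2) (ω : I.Fr n → ℝ) (x : Fin 2 → ℝ) :
    qf (fun i j => Bi P I L r o n i j a ω) x =
      qd (bbL P r o (L r) (fun v => Ham560.ext (I.Fr n) (I.xi n) ω (a + v))) x := rfl

/-- the law of large numbers for the block matrices -/
theorem lln_Bi {r : ℕ} (hr : 1 ≤ r) (hL : 0 < L r) (o : Fin 3) {ε : ℝ} (hε : 0 < ε) :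
    ∃ R0 : ℕ, ∀ R, R0 ≤ R → ∀ᶠ n in atTop, ∀ K ⊆ I.Fr n,
      I.δ n ^ 2 * ∑ i, ∑ j, Ex (I.P0 n) K
        (fun a ω => |bm R (Bi P I L r o n i j) a ω - Ai P L r o i j|) ≤ ε :=
  (Lc279.sq_inst I).lln296' (r := 4 * r) (C := 2 * L r) (by positivity)
    (G := fun i j h => bbL P r o (L r) h i j) (fun i j => Bl565.lobs_bbL hr o hL i j) hε

/-- **`BlkHyp` at an instance**, from the fibre assembly -/
theorem blkHyp_of {ρ : ℝ} (u : ∀ n, Fld (I.Fr n → ℝ)) (e : ℕ → ℝ) {r0 : ℕ} (hr0 : 1 ≤ r0)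
    (hL : ∀ r, r0 ≤ r → 0 < L r)
    (hfas : ∀ θ Λ ε1 : ℝ, 0 < θ → 1 ≤ Λ → 0 < ε1 → ∃ C : ℝ, 0 ≤ C ∧ ∃ r1 : ℕ, ∀ r, r1 ≤ r →
      r0 ≤ r → ∀ o k, ∀ ε2 : ℝ, 0 < ε2 → ∃ R1 : ℕ, ∀ R, R1 ≤ R → ∀ᶠ n in atTop,
        FasAt (fun n => I.P0 n) I.δ u e (Kc I ρ) (Bi P I L r o) θ Λ ε1 C ε2 r R k n) :
    BlkHyp (fun n => I.P0 n) I.δ u e (Kc I ρ) (Fin 3) r0 (Bi P I L) (Ai P L)
      (fun r => 2 * L r) where
  bd r hr o n i j := bd_Bi (hL r hr).le o n i j
  le r hr o n i j a ω := abs_Bi_le (hL r hr).le o n i j a ω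
  psd r _ o n a ω x := qf_Bi_nonneg r o n a ω x
  lln r hr o k ε hε := by
    obtain ⟨R0, hR0⟩ := lln_Bi (P := P) (I := I) (L := L) (hr0.trans hr) (hL r hr) o hε
    exact ⟨R0, fun R hR => (hR0 R hR).mono fun n hn =>
      hn (Kc I ρ k n) fun x hx => (mem_Kc.1 hx).1⟩
  fas := hfas

end Crest.Agent.R144.Upi540
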