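import Crest.Agent.R144.Bf1_856
import Crest.Agent.R144.Set1_268

/-!
# R144, block BND: wiring of the boundary decay (field `c2` of `Inputs`) (helper856)

`c2_of` : from the crossing bound at an unmarked boundary point (`CrossTop`), the fourth moment bound of the
bumps (`Mom4`) and the bounded variances (`bd` of `Inputs`), through the reflection covariance bound
`Bf1856.f1_pow`.
-/

set_option autoImplicit false

noncomputable section

open Set Topology Filter Metric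

namespace Crest.Agent.R144.Wc2856

open Crest.ProbabilityR.HexHeights Crest.ProbabilityR.TriHeights Crest.Agent.R144.HexTil353
open Crest.Agent.R144.Set268 (Setup)
open Crest.Agent.R144.It844 (P2 Lip ex pr adj_symm)
open Crest.Agent.R144.Zg349 (StepIn)
open Crest.Agent.R144.Fin268 (LS cS Cv Vr Bump Over)
open Crest.Agent.R144.Bf1856

variable {x : ℝ} {D : Set ℂ} {γ : ℝ → ℂ} {Q : Finset ℂ} {δ : ℕ → ℝ} {Λ : ℕ → Finset (ℤ × ℤ)}
  {τ : ℕ → ℤ × ℤ → ℤ}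

/-- crossing bound at the boundary point `p` -/
def CrossAt (x : ℝ) (δ : ℕ → ℝ) (Λ : ℕ → Finset (ℤ × ℤ)) (τ : ℕ → ℤ × ℤ → ℤ) (p : ℂ) : Prop :=
  ∃ k : ℤ, (k = -1 ∨ k = 0) ∧ ∃ r1 > 0,
    (∀ᶠ n in atTop, ∀ v, Set268.Bd (Λ n) v → dist (centre (δ n) v) p ≤ r1 → τ n v = k) ∧
    ∀ ε > 0, ∀ r2 > 0, ∃ η > 0, ∀ᶠ n in atTop, ∀ s : ℤ, (s = 1 ∨ s = -1) →
      pr x (Λ n) (τ n) {h | ∃ u ∈ Λ n, dist (centre (δ n) u) p ≤ η ∧
        ∃ v ∈ Λ n, r2 ≤ dist (centre (δ n) v) p ∧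
          Relation.ReflTransGen (StepIn {w | w ∈ Λ n ∧ 1 ≤ s * (h w - k)}) u v} ≤ ε

/-- fourth moment bound of the bumps -/
def Mom4 (x : ℝ) (D : Set ℂ) (δ : ℕ → ℝ) (Λ : ℕ → Finset (ℤ × ℤ)) (τ : ℕ → ℤ × ℤ → ℤ) : Prop :=
  ∀ M : ℝ, ∃ C : ℝ, ∀ z ∈ D, ∀ᶠ n in atTop, ∀ b, Bump D (δ n) M z b → ∀ k : ℤ, (k = -1 ∨ k = 0) →
    ex x (Λ n) (τ n) (fun h => (∑ v ∈ Λ n, b v * ((h v : ℝ) - k)) ^ 4) ≤ C

theorem dist_adj {d : ℝ} (hd : 0 < d) {u v : ℤ × ℤ} (h : Adj u v) :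
    dist (centre d u) (centre d v) ≤ d := by
  have h1 := dist_centre_sq d u v
  rw [(HexTil353.adj_iff _ _).1 h] at h1
  have h2 : dist (centre d u) (centre d v) ^ 2 ≤ d ^ 2 := by rw [h1]; simp
  exact (abs_le_of_sq_le_sq' h2 hd.le).2

theorem pr_mono {L : Finset P2} {t : P2 → ℤ} {A B : Set (P2 → ℤ)} (h : A ⊆ B) :
    pr x L t A ≤ pr x L t B := by
  rw [pr_eq, pr_eq]
  refine It844.ex_mono fun g _ => ?_
  unfold kI
  by_cases h1 : g ∈ A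
  · rw [if_pos h1, if_pos (h h1)]
  · rw [if_neg h1]; split_ifs <;> norm_num

/-- **boundary decay** -/
theorem c2_of (hx0 : 0 < x) (hS : Setup D γ Q δ Λ τ) {p : ℂ} (hp : p ∈ frontier D)
    (hC : CrossAt x δ Λ τ p) (hM : Mom4 x D δ Λ τ) {K : Set ℂ} (hK : IsCompact K) (hKD : K ⊆ D)
    (hbd : ∃ C : ℝ, ∀ᶠ n in atTop, ∀ M g, Over K (δ n) M g → Vr x (Λ n) (τ n) g ≤ C * M ^ 2)
    (M : ℝ) {ε : ℝ} (hε : 0 < ε) :
    ∃ η > 0, ∀ z ∈ D, dist z p < η → ∀ᶠ n in atTop, ∀ b g, Bump D (δ n) M z b → Over K (δ n) M g →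
      |Cv x (Λ n) (τ n) b g| ≤ ε := by
  obtain ⟨k, hk, r1, hr1, hcst, hcr⟩ := hC
  obtain ⟨C4, hC4⟩ := hM M
  obtain ⟨Cb, hCb⟩ := hbd
  have hpD : p ∉ D := by
    intro h
    rw [hS.dom.op.frontier_eq] at hp
    exact hp.2 h
  have hpK : p ∉ K := fun h => hpD (hKD h)
  obtain ⟨ρ, hρ, hρK⟩ := Metric.isOpen_iff.1 hK.isClosed.isOpen_compl p hpK
  set r2 : ℝ := min ρ (r1 / 2) with hr2
  have hr2p : 0 < r2 := lt_min hρ (by positivity)
  set A : ℝ := |C4| * (Cb * M ^ 2) ^ 2 + 1 with hA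
  have hAp : 0 < A := by positivity
  obtain ⟨η, hη, hη2⟩ := hcr (ε ^ 4 / (2 * A)) (by positivity) r2 hr2p
  refine ⟨η / 2, by positivity, fun z hz hzp => ?_⟩
  have hsm : ∀ᶠ n in atTop, δ n < r1 / 2 := hS.sites.small (by positivity)
  filter_upwards [hcst, hη2, hC4 z hz, hCb, hsm] with n h1 h2 h3 h4 h5 b g hb hg
  have hδ := hS.sites.pos n
  have hτ : Lip (τ n) := fun u v _ => by
    rcases hS.data n u with e1 | e1 <;> rcases hS.data n v with e2 | e2 <;> rw [e1, e2] <;> norm_num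
  have hu : ∀ u, b u ≠ 0 → dist (centre (δ n) u) p ≤ η := by
    intro u hbu
    have e1 := hb.supp u hbu
    have e2 : infDist z Dᶜ ≤ dist z p := infDist_le_dist_of_mem hpD
    have e3 := dist_triangle (centre (δ n) u) z p
    have e4 := dist_nonneg (x := z) (y := p)
    linarith
  have hf : ∀ v ∈ Λ n, Far (Λ n) (τ n) g k v → r2 ≤ dist (centre (δ n) v) p := by
    rintro v hv (hgv | ⟨w, hw, ha, htw⟩)
    · have e1 := hg.supp v hgv
      have e2 : centre (δ n) v ∉ ball p ρ := fun h => hρK h e1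
      rw [Metric.mem_ball, not_lt] at e2
      exact (min_le_left _ _).trans e2
    · have e1 : r1 < dist (centre (δ n) w) p := by
        by_contra hle
        exact htw (h1 w ⟨hw, v, hv, ha⟩ (not_lt.1 hle))
      have e2 := dist_adj hδ (adj_symm ha)
      have e3 := dist_triangle (centre (δ n) w) (centre (δ n) v) p
      have e4 : r2 ≤ r1 / 2 := min_le_right _ _
      linarith
  have hEp : pr x (Λ n) (τ n) (Ep (Λ n) (τ n) b g k) ≤ ε ^ 4 / (2 * A) := by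
    refine le_trans (pr_mono ?_) (h2 1 (Or.inl rfl))
    rintro h ⟨u, huL, hbu, _, v, hvL, hfv, hp⟩
    refine ⟨u, huL, hu u hbu, v, hvL, hf v hvL hfv, ?_⟩
    simpa only [one_mul] using hp
  have hEm : pr x (Λ n) (τ n) (Em (Λ n) (τ n) b g k) ≤ ε ^ 4 / (2 * A) := by
    refine le_trans (pr_mono ?_) (h2 (-1) (Or.inr rfl))
    rintro h ⟨u, huL, hbu, _, v, hvL, hfv, hp⟩
    refine ⟨u, huL, hu u hbu, v, hvL, hf v hvL hfv, ?_⟩
    simpa only [neg_one_mul] using hp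
  have key := f1_pow (L := Λ n) hx0 hτ b g k
  have hX : ex x (Λ n) (τ n) (fun h => X' (Λ n) b k h ^ 4) ≤ |C4| := (h3 b hb k hk).trans (le_abs_self _)
  have hX0 : 0 ≤ ex x (Λ n) (τ n) (fun h => X' (Λ n) b k h ^ 4) := It844.ex_nonneg fun h _ => by positivity
  have hV0 := Vr_nonneg (x := x) (L := Λ n) (τ := τ n) g
  have hV := h4 M g hg
  have hV2 : Vr x (Λ n) (τ n) g ^ 2 ≤ (Cb * M ^ 2) ^ 2 := pow_le_pow_left₀ hV0 hV 2
  have hP0 : 0 ≤ pr x (Λ n) (τ n) (Ep (Λ n) (τ n) b g k) + pr x (Λ n) (τ n) (Em (Λ n) (τ n) b g k) :=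
    add_nonneg (pr_nonneg _) (pr_nonneg _)
  have hP1 : pr x (Λ n) (τ n) (Ep (Λ n) (τ n) b g k) + pr x (Λ n) (τ n) (Em (Λ n) (τ n) b g k) ≤
      ε ^ 4 / A := by
    have e : ε ^ 4 / A = ε ^ 4 / (2 * A) + ε ^ 4 / (2 * A) := by field_simp; ring
    rw [e]; exact add_le_add hEp hEm
  have h6 : Cv x (Λ n) (τ n) b g ^ 4 ≤ ε ^ 4 := by
    refine key.trans ?_
    calc _ ≤ (|C4| * (Cb * M ^ 2) ^ 2) * (ε ^ 4 / A) := by
          refine mul_le_mul (mul_le_mul hX hV2 (sq_nonneg _) (abs_nonneg _)) hP1 hP0 (by positivity)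
      _ ≤ A * (ε ^ 4 / A) := by
          refine mul_le_mul_of_nonneg_right ?_ (by positivity)
          rw [hA]; linarith
      _ = ε ^ 4 := by field_simp
  refine le_of_pow_le_pow_left₀ (n := 4) (by norm_num) hε.le ?_
  rwa [show |Cv x (Λ n) (τ n) b g| ^ 4 = Cv x (Λ n) (τ n) b g ^ 4 by
    rw [show (4 : ℕ) = 2 * 2 from rfl, pow_mul, pow_mul, sq_abs]]

end Crest.Agent.R144.Wc2856
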