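import Crest.Agent.R144.Wc2_856
import Crest.Agent.R144.Hf12_702
import Crest.Agent.R144.Dpl5_702

/-!
# R144, block BND (F1b): uniform fourth moments of bump statistics (helper856)

`mom4_of` : `Hyp x`, `Setup`, `Env` imply `Wc2856.Mom4`.
-/

set_option autoImplicit false

noncomputable section

open Set Topology Filter Metric MeasureTheory

namespace Crest.Agent.R144.Wc2856

open Crest.ProbabilityR.HexHeights (Adj centre cell)
open Crest.Agent.R144.It844 (P2 ex Lip upT ex_const ex_add ex_smul ex_congr ex_mono)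
open Crest.Agent.R144.Pst967 (Hz GObs FLim)
open Crest.Agent.R144.Zg349 (SC)
open Crest.Agent.R144.HexTil353
open Crest.Agent.R144.Fin268 (LS cS Cv Vr Bump Over lip_of_data)
open Crest.Agent.R144.Set268 (Setup)
open Crest.Agent.R144.Env702 (Env)
open Crest.Agent.R144.Hf702 (Hyp Ln InB hf_ex mem_hball exists_off)
open Crest.Agent.R144.Dpl702 (Cm ex_abs_moment_linear)

variable {x : ℝ}

/-- **core, fourth moments** -/
theorem core4 (hH : Hyp x) (A : ℕ) : ∃ C : ℝ, 0 ≤ C ∧ ∀ (δ r : ℝ) (Λ F : Finset P2) (τ : P2 → ℤ) (b : P2)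
    (w : P2 → ℝ) (k : ℤ), (k = -1 ∨ k = 0) → 0 < δ → δ ≤ r → SC F → upT Λ ⊆ F → b ∉ F →
      (∀ v, τ v = -1 ∨ τ v = 0) →
      (∀ v ∈ Λ, w v ≠ 0 → dist (centre δ v) (centre δ b) ≤ r) → (∀ v, |w v| * r ^ 2 ≤ A * δ ^ 2) →
      ex x Λ τ (fun h => (∑ v ∈ Λ, w v * ((h v : ℝ) - k)) ^ 4) ≤ C := by
  obtain ⟨K, p, P, hR, hPS, hFL⟩ := hH.ex
  obtain ⟨C, hC, h⟩ := hf_ex hH.pos hH.le hR hPS hFL (121 * A)
  set σ : ℝ := 2 * C + 2 * (1089 * A) ^ 2 + 1 with hσ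
  refine ⟨2 * Cm 4 * (4 * σ + 1089 * A) ^ 4, ?_, fun δ r Λ F τ b w k hk hδ hδr hF hΛ hb hτ hs hw => ?_⟩
  · have h4 : 0 ≤ (4 * σ + 1089 * (A : ℝ)) ^ 4 := by positivity
    exact mul_nonneg (mul_nonneg (by norm_num) (Dpl702.cm_nonneg 4)) h4
  have hr : 0 < r := hδ.trans_le hδr
  set N : ℕ := ⌈4 * (r + δ) / δ⌉₊ with hN
  have hN1 : 4 * (r + δ) / δ ≤ N := Nat.le_ceil _
  have hN2 : (N : ℝ) < 4 * (r + δ) / δ + 1 := Nat.ceil_lt_add_one (by positivity)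
  have hrd : 1 ≤ r / δ := by rw [le_div_iff₀ hδ]; linarith
  have hN3 : ((N + 1 : ℕ) : ℝ) ≤ 11 * (r / δ) := by
    have e : 4 * (r + δ) / δ = 4 * (r / δ) + 4 := by field_simp
    rw [e] at hN2
    push_cast
    linarith
  have hNpos : (0 : ℝ) < ((N + 1 : ℕ) : ℝ) := by positivity
  set S := Λ.filter fun v => w v ≠ 0 with hS
  have hInB : InB b (N + 1 - 1) S := by
    intro v hv t ht
    obtain ⟨hvΛ, hw0⟩ := Finset.mem_filter.1 hv
    have h1 : dist (centre δ t) (centre δ v) ≤ δ := Hf702.dist_adj hδ (Env702.adj_of_up (t := t)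
      (by simp [Zg349.mem_up]) ht)
    have h2 := hs v hvΛ hw0
    have h3 := dist_triangle (centre δ t) (centre δ v) (centre δ b)
    rw [Nat.add_sub_cancel]
    exact mem_hball hδ (r := r + δ) (by linarith) hN1
  have hwb : ∀ v ∈ S, |w v| ≤ ((121 * A : ℕ) : ℝ) / ((N + 1 : ℕ) : ℝ) ^ 2 := by
    intro v _
    have h1 := hw v
    rw [le_div_iff₀ (by positivity)]
    have h2 : (((N + 1 : ℕ) : ℝ)) ^ 2 ≤ 121 * (r / δ) ^ 2 := by
      have := pow_le_pow_left₀ hNpos.le hN3 2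
      linarith [this, mul_pow (11 : ℝ) (r / δ) 2]
    have h3 : |w v| * (121 * (r / δ) ^ 2) ≤ 121 * A := by
      have e : |w v| * (121 * (r / δ) ^ 2) = 121 * (|w v| * r ^ 2 / δ ^ 2) := by
        rw [div_pow]; ring
      rw [e]
      refine mul_le_mul_of_nonneg_left ?_ (by norm_num)
      rw [div_le_iff₀ (by positivity)]
      exact h1
    calc |w v| * (((N + 1 : ℕ) : ℝ)) ^ 2 ≤ |w v| * (121 * (r / δ) ^ 2) :=
          mul_le_mul_of_nonneg_left h2 (abs_nonneg _)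
      _ ≤ 121 * A := h3
      _ = ((121 * A : ℕ) : ℝ) := by push_cast; ring
  have h2m := h (N + 1) (by omega) b Λ F hF hΛ hb τ hτ S w (Finset.filter_subset _ _) hInB hwb
  -- total mass
  have hmass : ∑ v ∈ S, |w v| ≤ 1089 * A := by
    have h1 : ∑ v ∈ S, |w v| ≤ S.card • (((121 * A : ℕ) : ℝ) / ((N + 1 : ℕ) : ℝ) ^ 2) :=
      Finset.sum_le_card_nsmul _ _ _ hwb
    have h2 : (S.card : ℝ) ≤ (2 * ((N + 1 : ℕ) : ℝ) + 1) ^ 2 := by
      have h3 : S ⊆ Rsw867.ball b (N + 1) := hInB.sub.trans (Rsw867.ball_mono b (Nat.sub_le (N + 1) 1))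
      exact le_trans (by exact_mod_cast Finset.card_le_card h3) (Hf702.card_ball_le b (N + 1))
    rw [nsmul_eq_mul] at h1
    have hN1' : (1 : ℝ) ≤ ((N + 1 : ℕ) : ℝ) := by push_cast; linarith [Nat.cast_nonneg (α := ℝ) N]
    have h4 : (2 * ((N + 1 : ℕ) : ℝ) + 1) ^ 2 ≤ 9 * ((N + 1 : ℕ) : ℝ) ^ 2 := by nlinarith
    have h5 : (S.card : ℝ) * (((121 * A : ℕ) : ℝ) / ((N + 1 : ℕ) : ℝ) ^ 2) ≤
        (9 * ((N + 1 : ℕ) : ℝ) ^ 2) * (((121 * A : ℕ) : ℝ) / ((N + 1 : ℕ) : ℝ) ^ 2) :=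
      mul_le_mul_of_nonneg_right (h2.trans h4) (by positivity)
    have h6 : (9 * ((N + 1 : ℕ) : ℝ) ^ 2) * (((121 * A : ℕ) : ℝ) / ((N + 1 : ℕ) : ℝ) ^ 2) = 1089 * A := by
      field_simp
      push_cast
      ring
    linarith
  -- the statistic
  set m : ℝ := k * ∑ v ∈ S, w v with hm
  have hX : ∀ g : P2 → ℤ, ∑ v ∈ Λ, w v * ((g v : ℝ) - k) = ∑ v ∈ S, w v * (g v : ℝ) - m := by
    intro g
    rw [hm, Finset.mul_sum, ← Finset.sum_sub_distrib, hS, Finset.sum_filter]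
    refine Finset.sum_congr rfl fun v _ => ?_
    by_cases h0 : w v = 0
    · simp [h0]
    · rw [if_pos h0]; ring
  have hk1 : |(k : ℝ)| ≤ 1 := by rcases hk with rfl | rfl <;> norm_num
  have hm2 : m ^ 2 ≤ (1089 * A) ^ 2 := by
    have h1 : |m| ≤ 1089 * A := by
      rw [hm, abs_mul]
      calc |(k : ℝ)| * |∑ v ∈ S, w v| ≤ 1 * ∑ v ∈ S, |w v| :=
            mul_le_mul hk1 (Finset.abs_sum_le_sum_abs _ _) (abs_nonneg _) zero_le_one
        _ ≤ 1089 * A := by rw [one_mul]; exact hmass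
    rw [← sq_abs m]
    exact pow_le_pow_left₀ (abs_nonneg _) h1 2
  have hσ1 : 1 ≤ σ := by rw [hσ]; nlinarith [sq_nonneg (1089 * (A : ℝ))]
  have hv : ex x Λ τ (fun g => (∑ v ∈ S, w v * (g v : ℝ) - m) ^ 2) ≤ σ ^ 2 := by
    have h1 : ex x Λ τ (fun g => (∑ v ∈ S, w v * (g v : ℝ) - m) ^ 2) ≤
        ex x Λ τ (fun g => (2 : ℝ) • (Ln S w g ^ 2) + 2 * m ^ 2) := by
      refine ex_mono fun g _ => ?_
      rw [smul_eq_mul]
      unfold Hf702.Ln
      nlinarith [sq_nonneg (∑ v ∈ S, w v * (g v : ℝ) + m)]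
    rw [ex_add, ex_smul, ex_const hH.pos (lip_of_data hτ), smul_eq_mul] at h1
    nlinarith
  have h4 := ex_abs_moment_linear hH.pos hH.le (lip_of_data hτ) S w m (by linarith : (0 : ℝ) ≤ σ) hv 4
  have e4 : ex x Λ τ (fun g => (∑ v ∈ Λ, w v * ((g v : ℝ) - k)) ^ 4) =
      ex x Λ τ (fun g => |∑ v ∈ S, w v * (g v : ℝ) - m| ^ 4) :=
    ex_congr fun g _ => by
      rw [hX g, show (4 : ℕ) = 2 * 2 from rfl, pow_mul, pow_mul, sq_abs]
  rw [e4]
  have hs0 : 0 ≤ ∑ v ∈ S, |w v| := Finset.sum_nonneg fun v _ => abs_nonneg _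
  refine h4.trans (mul_le_mul_of_nonneg_left ?_ (mul_nonneg (by norm_num) (Dpl702.cm_nonneg 4)))
  exact pow_le_pow_left₀ (by linarith) (by linarith) 4

variable {D : Set ℂ} {γ : ℝ → ℂ} {P : Finset ℂ} {δ : ℕ → ℝ} {Λn : ℕ → Finset P2} {τn : ℕ → P2 → ℤ}

/-- **(F1b)** uniform fourth moments of the bumps -/
theorem mom4_of (hH : Hyp x) (h : Setup D γ P δ Λn τn) (hE : Env D δ Λn) : Mom4 x D δ Λn τn := by
  intro M
  obtain ⟨F, hSC, hup, hF⟩ := hE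
  obtain ⟨C, hC, hcore⟩ := core4 hH (4 * ⌈|M|⌉₊)
  refine ⟨C, fun z hz => ?_⟩
  have hne := Set268.compl_nonempty' h.dom.bdd
  obtain ⟨p, hp, hd⟩ := Set268.exists_frontier_near h.dom.op h.dom.bdd hz
  set r := infDist z Dᶜ with hr
  have hr0 : 0 < r := (h.dom.op.isClosed_compl.notMem_iff_infDist_pos hne).1 fun h => h hz
  filter_upwards [exists_off h hF (show 0 < r / 8 by positivity), h.sites.small (show 0 < r by positivity)]
    with n hn hδ b hb k hk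
  obtain ⟨b0, hb0, hb1⟩ := hn p hp
  refine hcore (δ n) (2 * r) (Λn n) (F n) (τn n) b0 b k hk (h.sites.pos n) (by linarith) (hSC n) (hup n) hb0
    (h.data n) ?_ ?_
  · intro v _ hv
    have h1 := hb.supp v hv
    have h2 := dist_triangle4 (centre (δ n) v) z p (centre (δ n) b0)
    rw [dist_comm p] at h2
    linarith
  · intro v
    have h1 := hb.le v
    rw [abs_of_nonneg (hb.nonneg v)]
    have h2 : M ≤ (⌈|M|⌉₊ : ℝ) := (le_abs_self M).trans (Nat.le_ceil _)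
    have h3 : M * δ n ^ 2 ≤ (⌈|M|⌉₊ : ℝ) * δ n ^ 2 := mul_le_mul_of_nonneg_right h2 (sq_nonneg _)
    push_cast
    have e : b v * (2 * r) ^ 2 = 4 * (b v * r ^ 2) := by ring
    rw [e]
    linarith

end Crest.Agent.R144.Wc2856
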