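import Crest.Agent.R144.Xc2_851
import Crest.Agent.R144.Rsw0_867
import Crest.Agent.R144.Pst8_967

/-!
# R144: the joint law of both FK representations (helper851), part 3: FLIP

* `zf`, `E3_coin` : the joint law is the law of `(h, y)` with independent coins `κ` on the triangles, the status
  `z` being a function of `(h, y, κ)` (closed if `y` is open; open if `s1` is not constant; the coin otherwise);
* `mem_IV_of_sepr` : if `y`-closed triangles separate `ball a t` from outside `ball a N`, the `y`-open clusters of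
  the sites well inside `ball a t` consist of interior sites;
* **`flip_layer`** : on that event the first colour may be flipped inside;
* **`flip_B`** : `P(y-closed triangles separate) ≤ P(no plus closed layer) + P(minus closed layer)`.
-/

set_option autoImplicit false
set_option linter.unusedSectionVars false

noncomputable section

namespace Crest.Agent.R144.Xc851

open Finset
open Crest.Agent.R144.It844 (P2 Lip adj_iff adj_symm lip_iff)
open Crest.Agent.R144.Zg349 Crest.Agent.R144.Zk349 Crest.Agent.R144.Zd349 Crest.Agent.R144.Zm349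
open Crest.Agent.R144.Ze349
open Crest.Agent.R144.Pst967 (OConn OStep oConn_of_open oConn_refl path_symm)
open Crest.Agent.R144.Rsw867
open Crest.ProbabilityR.HexHeights (Adj)

/-! ### coins -/

/-- weight of a coin -/
def vc (c : ℝ) (b : Bool) : ℝ := if b then 2 - c else c - 1

theorem vc_nonneg {c : ℝ} (hc : 1 ≤ c) (hc2 : c ≤ 2) (b : Bool) : 0 ≤ vc c b := by
  unfold vc
  split_ifs <;> linarith

theorem vc_sum (c : ℝ) : vc c true + vc c false = 1 := by
  simp only [vc, if_true, Bool.false_eq_true, if_false]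
  ring

/-- the status `z` as a function of the heights, of `y` and of the coins -/
def zf (h : P2 → ℤ) (y κ : P2 → Bool) (t : P2) : Bool := if y t then (decide (C1 h t) && κ t) else true

theorem kz_eq (c : ℝ) (h : P2 → ℤ) (t : P2) (y : P2 → Bool) (b : Bool) :
    kz c h t (y t) b = (if b = (if y t then (decide (C1 h t) && true) else true) then vc c true else 0) +
      (if b = (if y t then (decide (C1 h t) && false) else true) then vc c false else 0) := by
  unfold kz vc
  by_cases h1 : C1 h t <;> cases b <;> rcases hb : y t with _ | _ <;> simp [h1] <;> norm_num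

/-- push forward of the coins -/
theorem sum_coin (c : ℝ) {F : Finset P2} {h : P2 → ℤ} {y : P2 → Bool}
    (hy : ∀ t, t ∉ F → y t = true) (hC : ∀ t, t ∉ F → C1 h t) (g : (P2 → Bool) → ℝ) :
    ∑ κ ∈ zs F, (∏ t ∈ F, vc c (κ t)) * g (zf h y κ) =
      ∑ z ∈ zs F, (∏ t ∈ F, kz c h t (y t) (z t)) * g z := by
  classical
  have hz : ∀ κ ∈ zs F, zf h y κ ∈ zs F := by
    intro κ hκ
    rw [mem_zs] at *
    intro t ht
    unfold zf
    rw [hy t ht, hκ t ht]
    simp [hC t ht]
  have e1 : ∀ κ ∈ zs F, (∏ t ∈ F, vc c (κ t)) * g (zf h y κ) =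
      ∑ z ∈ zs F, (if z = zf h y κ then (∏ t ∈ F, vc c (κ t)) * g z else 0) := by
    intro κ hκ
    rw [Finset.sum_ite_eq' (zs F) (zf h y κ) fun z => (∏ t ∈ F, vc c (κ t)) * g z, if_pos (hz κ hκ)]
  rw [Finset.sum_congr rfl e1, Finset.sum_comm]
  refine Finset.sum_congr rfl fun z hzz => ?_
  have e2 : ∀ κ ∈ zs F, (if z = zf h y κ then (∏ t ∈ F, vc c (κ t)) * g z else 0) =
      (∏ t ∈ F, (if z t = (if y t then (decide (C1 h t) && κ t) else true) then vc c (κ t) else 0)) *
        g z := by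
    intro κ hκ
    by_cases he : z = zf h y κ
    · rw [if_pos he]
      congr 1
      refine Finset.prod_congr rfl fun t _ => ?_
      have e3 : z t = zf h y κ t := congrFun he t
      unfold zf at e3
      rw [if_pos e3]
    · rw [if_neg he]
      have : ∃ t ∈ F, z t ≠ zf h y κ t := by
        by_contra hcon
        push Not at hcon
        apply he
        funext t
        by_cases ht : t ∈ F
        · exact hcon t ht
        · rw [mem_zs.1 hzz t ht, mem_zs.1 (hz κ hκ) t ht]
      obtain ⟨t, ht, hne⟩ := this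
      unfold zf at hne
      rw [Finset.prod_eq_zero ht (if_neg hne), zero_mul]
  rw [Finset.sum_congr rfl e2, ← Finset.sum_mul]
  congr 1
  rw [sum_zs_prod F fun t b => if z t = (if y t then (decide (C1 h t) && b) else true) then vc c b else 0]
  refine Finset.prod_congr rfl fun t _ => ?_
  exact (kz_eq c h t y (z t)).symm

theorem c1_off {F : Finset P2} {h : P2 → ℤ} (hh : HV F h) {t : P2} (ht : t ∉ F) : C1 h t := by
  have key : ∀ k, s1 (h (cr t k)) = true := fun k =>
    hh.s1_bd fun hk => ht ((mem_IV'.1 hk) t (cr_mem_up t k))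
  exact ⟨by rw [key, key], by rw [key, key]⟩

theorem EX_sum {ι : Type*} (c : ℝ) (F : Finset P2) (s : Finset ι) (f : ι → Cfg → ℝ) :
    EX c F (fun ω => ∑ i ∈ s, f i ω) = ∑ i ∈ s, EX c F (f i) := by
  classical
  induction s using Finset.induction_on with
  | empty =>
    simp only [Finset.sum_empty]
    have := EX_smul c F 0 fun _ => 1
    simpa using this
  | insert a s ha ih =>
    rw [Finset.sum_insert ha, ← ih, ← EX_add]
    simp only [Finset.sum_insert ha]

/-- **Coin representation** of the joint law. -/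
theorem E3_coin (c : ℝ) {F : Finset P2} (f : C3 → ℝ) :
    E3 c F f = ∑ κ ∈ zs F, (∏ t ∈ F, vc c (κ t)) *
      EX c F (fun ω => f (ng ω.1, zf (ng ω.1) ω.2 κ, ω.2)) := by
  rw [E3_cond]
  have e1 : EX c F (fun ω => avz c F f (ng ω.1) ω.2) = EX c F (fun ω => ∑ κ ∈ zs F,
      (∏ t ∈ F, vc c (κ t)) * f (ng ω.1, zf (ng ω.1) ω.2 κ, ω.2)) := by
    refine EX_congr fun ω hω _ => ?_
    unfold avz
    exact (sum_coin c hω.cl (fun t ht => c1_off hω.ht ht) fun z => f (ng ω.1, z, ω.2)).symm
  rw [e1, EX_sum]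
  exact Finset.sum_congr rfl fun κ _ => EX_smul c F _ _

/-! ### clusters inside a closed layer -/

theorem up_ball {a : P2} {n : ℕ} {s s' w : P2} (hs : s ∈ ball a n) (h : w ∈ up s) (h' : w ∈ up s') :
    s' ∈ ball a (n + 1) := by
  rcases Crest.Agent.R144.Pst967.adj_of_share h h' with rfl | ha
  · exact ball_mono a (Nat.le_succ n) hs
  · exact adj_ball hs ha

/-- clusters of inner sites do not reach the boundary -/
theorem mem_IV_of_sepr {F : Finset P2} {a : P2} {t N : ℕ} (hB : ball a (N + 2) ⊆ F) (htN : t ≤ N)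
    {y : P2 → Bool} (hL : Sepr {x | y x = true} a t N) {v : P2} (hv : ∀ s, v ∈ up s → s ∈ ball a t)
    {w : P2} (hw : OConn y v w) : w ∈ IV F := by
  have key : (∀ s, y s = false → w ∈ up s → ∃ u ∈ ball a t,
      Relation.ReflTransGen (StepIn {x | y x = true}ᶜ) s u) ∧ w ∈ IV F := by
    unfold OConn at hw
    induction hw with
    | refl =>
      refine ⟨fun s _ hs => ⟨s, hv s hs, Relation.ReflTransGen.refl⟩, ?_⟩
      rw [mem_IV']
      exact fun s hs => hB (ball_mono a (by omega) (hv s hs))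
    | @tail b d _ h2 ih =>
      obtain ⟨t', h3, h4, h5⟩ := h2
      obtain ⟨u, hu, hp⟩ := ih.1 t' h3 h4
      have h6 : t' ∈ ball a N := by
        by_contra h7
        exact hL t' u h7 hu hp
      refine ⟨fun s hs hds => ?_, ?_⟩
      · rcases Crest.Agent.R144.Pst967.adj_of_share hds h5 with rfl | ha
        · exact ⟨u, hu, hp⟩
        · refine ⟨u, hu, Relation.ReflTransGen.head ⟨?_, ?_, ha⟩ hp⟩
          · show ¬ y s = true
            rw [hs]; decide
          · show ¬ y t' = true
            rw [h3]; decide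
      · rw [mem_IV']
        exact fun s hs => hB (ball_mono a (by omega) (up_ball h6 h5 hs))
  exact key.2

/-! ### the flip -/

open Classical in
/-- sites whose `y`-open cluster stays in the interior -/
def UU (F : Finset P2) (y : P2 → Bool) (v : P2) : Bool := decide (∀ w, OConn y v w → w ∈ IV F)

open Classical in
theorem UU_iff {F : Finset P2} {y : P2 → Bool} {v : P2} :
    UU F y v = true ↔ ∀ w, OConn y v w → w ∈ IV F := by
  unfold UU
  rw [decide_eq_true_eq]

theorem UU_congr {F : Finset P2} {y : P2 → Bool} {v w : P2} (h : OConn y v w) : UU F y v = UU F y w := by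
  apply bool_eq_of_iff
  rw [UU_iff, UU_iff]
  exact ⟨fun h1 x hx => h1 x (h.trans hx), fun h1 x hx => h1 x (h.symm.trans hx)⟩

/-- the status `z` in terms of the first colour -/
def zc (a : P2 → Bool) (y κ : P2 → Bool) (t : P2) : Bool :=
  if y t then (decide (a (cr t 0) = a (cr t 1) ∧ a (cr t 0) = a (cr t 2)) && κ t) else true

theorem zf_eq (h : P2 → ℤ) (y κ : P2 → Bool) (t : P2) : zf h y κ t = zc (fun v => s1 (h v)) y κ t := by
  unfold zf zc C1
  rfl

/-- triangles of sign `e`, closed -/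
def PB (e : Bool) (a y κ : P2 → Bool) : Set P2 := {t | zc a y κ t = true ∧ a t = e}

theorem base_up (t : P2) : t ∈ up t := mem_up.2 (Or.inl rfl)

open Classical in
/-- **Flip inside a `y`-closed layer**, one coin configuration. -/
theorem flip_EX {c : ℝ} {F : Finset P2} (hF : SC F) {a : P2} {t N v : ℕ}
    (hB : ball a (N + 2) ⊆ F) (htN : t ≤ N) (hvt : 2 * v + 4 ≤ t) (κ : P2 → Bool) (e : Bool) :
    EX c F (fun ω => if Sepr {x | ω.2 x = true} a t N ∧
        Sepr (PB e (fun u => s2 (ω.1 u)) ω.2 κ) a v (2 * v) then 1 else 0) =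
      EX c F (fun ω => if Sepr {x | ω.2 x = true} a t N ∧
        Sepr (PB (!e) (fun u => s2 (ω.1 u)) ω.2 κ) a v (2 * v) then 1 else 0) := by
  have h := flipX hF c (fun _ y => UU F y) (fun _ y w _ hw => UU_iff.1 hw w (oConn_refl _ _))
    (fun _ y s _ hs i j => UU_congr (oConn_of_open hs (cr_mem_up s i) (cr_mem_up s j)))
    (fun _ b y => if Sepr {x | y x = true} a t N ∧ Sepr (PB (!e) b y κ) a v (2 * v) then (1 : ℝ) else 0)
  beta_reduce at h
  rw [← h]
  refine congrArg (EX c F) ?_
  funext ω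
  by_cases hL : Sepr {x | ω.2 x = true} a t N
  · have hU : ∀ s ∈ ball a (2 * v + 1), ∀ w ∈ up s, UU F ω.2 w = true := by
      intro s hs w hw
      rw [UU_iff]
      intro x hx
      refine mem_IV_of_sepr hB htN hL (fun s' hs' => ?_) hx
      exact ball_mono a (by omega) (up_ball hs hw hs')
    have hz : ∀ s ∈ ball a (2 * v + 1),
        zc (fun u => xor (s2 (ω.1 u)) (UU F ω.2 u)) ω.2 κ s = zc (fun u => s2 (ω.1 u)) ω.2 κ s := by
      intro s hs
      unfold zc
      have e0 := hU s hs _ (cr_mem_up s 0)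
      have e1 := hU s hs _ (cr_mem_up s 1)
      have e2 := hU s hs _ (cr_mem_up s 2)
      simp only [e0, e1, e2, Bool.xor_true, Bool.not_inj_iff]
    have hm : ∀ s ∈ ball a (2 * v + 1), (s ∈ PB e (fun u => s2 (ω.1 u)) ω.2 κ ↔
        s ∈ PB (!e) (fun u => xor (s2 (ω.1 u)) (UU F ω.2 u)) ω.2 κ) := by
      intro s hs
      have e0 := hU s hs s (base_up s)
      show (_ ∧ _) ↔ (_ ∧ _)
      rw [hz s hs]
      simp only [e0, Bool.xor_true, Bool.not_inj_iff]
    have key : Sepr (PB e (fun u => s2 (ω.1 u)) ω.2 κ) a v (2 * v) ↔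
        Sepr (PB (!e) (fun u => xor (s2 (ω.1 u)) (UU F ω.2 u)) ω.2 κ) a v (2 * v) := by
      constructor
      · exact Sepr.congr (by omega) fun s hs _ => (hm s hs).1
      · exact Sepr.congr (by omega) fun s hs _ => (hm s hs).2
    simp only [key]
  · simp only [hL, false_and, if_false]

open Classical in
/-- **Flip inside a `y`-closed layer.** -/
theorem flip_layer {c : ℝ} {F : Finset P2} (hF : SC F) {a : P2} {t N v : ℕ}
    (hB : ball a (N + 2) ⊆ F) (htN : t ≤ N) (hvt : 2 * v + 4 ≤ t) :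
    E3 c F (fun ω => if Sepr {x | ω.2.2 x = true} a t N ∧ fst3 ω ∈ BlkP a v (2 * v) then 1 else 0) =
      E3 c F (fun ω => if Sepr {x | ω.2.2 x = true} a t N ∧ fst3 ω ∈ Blk a v (2 * v) then 1 else 0) := by
  rw [E3_coin, E3_coin]
  refine Finset.sum_congr rfl fun κ _ => ?_
  congr 1
  have h := flip_EX (c := c) hF (a := a) hB htN hvt κ true
  have e1 : ∀ (e : Bool) (ω : Cfg), {s | zf (ng ω.1) ω.2 κ s = true ∧ s1 (ng ω.1 s) = e} =
      PB e (fun u => s2 (ω.1 u)) ω.2 κ := by
    intro e ω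
    ext s
    show (_ ∧ _) ↔ (_ ∧ _)
    rw [zf_eq]
    simp only [s1_ng]
  have e2 : ∀ ω : Cfg, (fst3 (ng ω.1, zf (ng ω.1) ω.2 κ, ω.2) ∈ BlkP a v (2 * v)) ↔
      Sepr (PB true (fun u => s2 (ω.1 u)) ω.2 κ) a v (2 * v) := by
    intro ω
    rw [← e1]
    rfl
  have e3 : ∀ ω : Cfg, (fst3 (ng ω.1, zf (ng ω.1) ω.2 κ, ω.2) ∈ Blk a v (2 * v)) ↔
      Sepr (PB false (fun u => s2 (ω.1 u)) ω.2 κ) a v (2 * v) := by
    intro ω
    rw [← e1]
    rfl
  simp only [e2, e3]
  exact h

open Classical in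
/-- probability that `y`-closed triangles separate `ball a t` from outside `ball a N` -/
def pBa (c : ℝ) (F : Finset P2) (a : P2) (t N : ℕ) : ℝ :=
  E3 c F (fun ω => if Sepr {x | ω.2.2 x = true} a t N then 1 else 0)

open Classical in
/-- the same, centre `0` -/
def pB (c : ℝ) (F : Finset P2) (t N : ℕ) : ℝ :=
  E3 c F (fun ω => if Sepr {x | ω.2.2 x = true} 0 t N then 1 else 0)

theorem pB_eq (c : ℝ) (F : Finset P2) (t N : ℕ) : pB c F t N = pBa c F 0 t N := rfl

open Classical in
/-- **FLIP** -/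
theorem flip_Ba {c : ℝ} (hc : 1 ≤ c) (hc2 : c ≤ 2) {F : Finset P2} (hF : SC F) {a : P2} {t N v : ℕ}
    (hB : ball a (N + 2) ⊆ F) (htN : t ≤ N) (hvt : 2 * v + 4 ≤ t) :
    pBa c F a t N ≤ Pr c F (BlkP a v (2 * v))ᶜ + Pr c F (Blk a v (2 * v)) := by
  have e1 : Pr c F (BlkP a v (2 * v))ᶜ = E3 c F (fun ω => ind (BlkP a v (2 * v))ᶜ (fst3 ω)) := by
    rw [Pr_eq, ← E3_fst]
  have e2 : Pr c F (Blk a v (2 * v)) = E3 c F (fun ω => ind (Blk a v (2 * v)) (fst3 ω)) := by
    rw [Pr_eq, ← E3_fst]
  have h1 : pBa c F a t N ≤ E3 c F (fun ω => ind (BlkP a v (2 * v))ᶜ (fst3 ω)) +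
      E3 c F (fun ω => if Sepr {x | ω.2.2 x = true} a t N ∧ fst3 ω ∈ BlkP a v (2 * v) then 1 else 0) := by
    rw [← E3_add]
    refine E3_mono hc hc2 fun ω _ => ?_
    by_cases hP : fst3 ω ∈ BlkP a v (2 * v)
    · have h0 := ind_nonneg (BlkP a v (2 * v))ᶜ (fst3 ω)
      by_cases hL : Sepr {x | ω.2.2 x = true} a t N
      · simp only [hL, hP, true_and, if_true]; linarith
      · simp only [hL, false_and, if_false]; linarith
    · rw [ind_of_mem (show fst3 ω ∈ (BlkP a v (2 * v))ᶜ from hP)]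
      simp only [hP, and_false, if_false]
      split_ifs <;> norm_num
  rw [flip_layer hF hB htN hvt] at h1
  have h2 : E3 c F (fun ω => if Sepr {x | ω.2.2 x = true} a t N ∧ fst3 ω ∈ Blk a v (2 * v) then 1 else 0)
      ≤ E3 c F (fun ω => ind (Blk a v (2 * v)) (fst3 ω)) := by
    refine E3_mono hc hc2 fun ω _ => ?_
    by_cases hP : fst3 ω ∈ Blk a v (2 * v)
    · rw [ind_of_mem hP]
      split_ifs <;> norm_num
    · simp only [hP, and_false, if_false]
      exact ind_nonneg _ _
  rw [e1, e2]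
  linarith

/-- **FLIP**, the form of the R2 table -/
theorem flip_B {c : ℝ} (hc : 1 ≤ c) (hc2 : c ≤ 2) {F : Finset P2} (hF : SC F) {t N v : ℕ}
    (hB : ball 0 (N + 2) ⊆ F) (htN : t ≤ N) (hvt : 2 * v + 8 ≤ t) :
    pB c F t N ≤ Pr c F (BlkP 0 v (2 * v))ᶜ + Pr c F (Blk 0 v (2 * v)) := by
  rw [pB_eq]
  exact flip_Ba hc hc2 hF hB htN (by omega)

end Crest.Agent.R144.Xc851
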