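import Crest.Agent.R144.Zk_349

/-!
# R144: the integer model with closed up triangles, boundary condition of type F (helper349)

`F : Finset P2` = finite set of up triangles.  Configurations `ω = (h, z)`: heights `h : P2 → ℤ` and closed up
triangles `z : P2 → Bool` (`true` = closed).  Two colours: `s1 = +` iff `h mod 4 ∈ {0, 1}`, `s2 = +` iff
`h mod 4 ∈ {3, 0}`.

* `HV F h` : `h` is 1-Lipschitz on the triangles of `F`, in `{0, 1}` at the non-interior sites of `F`, `0` off
  the sites of `F`;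
* `Valid F ω`, `conf F`, `ew`, `wt c F`, `Z`, `E`, `Pr`, `mu` with `c = x⁻²`: a closed triangle needs constant
  `s1` (weight `1`), an open one needs constant `s2` (weight `1` if `s1` is not constant, `c - 1` if it is);
  summing over `z` gives `c` on constant triangles and `1` on the others, i.e. `x⁻²` times the height weight.
-/

set_option autoImplicit false
set_option linter.unusedSectionVars false

noncomputable section

namespace Crest.Agent.R144.Zd349

open Finset MeasureTheory
open Crest.Agent.R144.It844 (P2 Lip Cst adj_iff adj_e1 adj_e2 adj_e3 adj_symm exists_exit)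
open Crest.Agent.R144.Zg349 Crest.Agent.R144.Zk349
open Crest.ProbabilityR.HexHeights (Adj)

/-- configurations: heights and closed up triangles -/
abbrev Cfg : Type := (P2 → ℤ) × (P2 → Bool)

/-- first colour: `+` iff the height is `0, 1` mod 4 -/
def s1 (a : ℤ) : Bool := decide (a % 4 < 2)
/-- second colour: `+` iff the height is `3, 0` mod 4 -/
def s2 (a : ℤ) : Bool := decide ((a + 1) % 4 < 2)

theorem s1_true {a : ℤ} : s1 a = true ↔ a % 4 < 2 := by simp [s1]
theorem s2_true {a : ℤ} : s2 a = true ↔ (a + 1) % 4 < 2 := by simp [s2]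
theorem s1_false {a : ℤ} : s1 a = false ↔ 2 ≤ a % 4 := by
  unfold s1; rw [decide_eq_false_iff_not]; omega
theorem s2_false {a : ℤ} : s2 a = false ↔ 2 ≤ (a + 1) % 4 := by
  unfold s2; rw [decide_eq_false_iff_not]; omega

theorem mod4_of_s {a b : ℤ} (h1 : s1 a = s1 b) (h2 : s2 a = s2 b) : (a - b) % 4 = 0 := by
  rcases h : s1 a with _ | _ <;> rcases h' : s2 a with _ | _ <;> rw [h] at h1 <;> rw [h'] at h2
  · rw [s1_false] at h; rw [s2_false] at h'; rw [eq_comm, s1_false] at h1
    rw [eq_comm, s2_false] at h2; omega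
  · rw [s1_false] at h; rw [s2_true] at h'; rw [eq_comm, s1_false] at h1
    rw [eq_comm, s2_true] at h2; omega
  · rw [s1_true] at h; rw [s2_false] at h'; rw [eq_comm, s1_true] at h1
    rw [eq_comm, s2_false] at h2; omega
  · rw [s1_true] at h; rw [s2_true] at h'; rw [eq_comm, s1_true] at h1
    rw [eq_comm, s2_true] at h2; omega

/-- shift by `2` flips both colours -/
theorem s1_add_two (a : ℤ) : s1 (a + 2) = !s1 a := by
  rcases h : s1 a with _ | _
  · rw [s1_false] at h; rw [Bool.not_false, s1_true]; omega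
  · rw [s1_true] at h; rw [Bool.not_true, s1_false]; omega
theorem s2_add_two (a : ℤ) : s2 (a + 2) = !s2 a := by
  rcases h : s2 a with _ | _
  · rw [s2_false] at h; rw [Bool.not_false, s2_true]; omega
  · rw [s2_true] at h; rw [Bool.not_true, s2_false]; omega
/-- reflection `h ↦ 1 - h` flips the second colour only -/
theorem s1_refl (a : ℤ) : s1 (1 - a) = s1 a := by
  rcases h : s1 a with _ | _
  · rw [s1_false] at h; rw [s1_false]; omega
  · rw [s1_true] at h; rw [s1_true]; omega
theorem s2_refl (a : ℤ) : s2 (1 - a) = !s2 a := by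
  rcases h : s2 a with _ | _
  · rw [s2_false] at h; rw [Bool.not_false, s2_true]; omega
  · rw [s2_true] at h; rw [Bool.not_true, s2_false]; omega
/-- `h ↦ -h` exchanges the colours -/
theorem s1_neg (a : ℤ) : s1 (-a) = s2 a := by
  rcases h : s2 a with _ | _
  · rw [s2_false] at h; rw [s1_false]; omega
  · rw [s2_true] at h; rw [s1_true]; omega
theorem s2_neg (a : ℤ) : s2 (-a) = s1 a := by
  rcases h : s1 a with _ | _
  · rw [s1_false] at h; rw [s2_false]; omega
  · rw [s1_true] at h; rw [s2_true]; omega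

/-- first colour constant on the up triangle `t` -/
def C1 (h : P2 → ℤ) (t : P2) : Prop := s1 (h (cr t 0)) = s1 (h (cr t 1)) ∧ s1 (h (cr t 0)) = s1 (h (cr t 2))
/-- second colour constant on the up triangle `t` -/
def C2 (h : P2 → ℤ) (t : P2) : Prop := s2 (h (cr t 0)) = s2 (h (cr t 1)) ∧ s2 (h (cr t 0)) = s2 (h (cr t 2))

instance (h : P2 → ℤ) (t : P2) : Decidable (C1 h t) := by unfold C1; infer_instance
instance (h : P2 → ℤ) (t : P2) : Decidable (C2 h t) := by unfold C2; infer_instance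

/-- admissible heights (boundary condition of type F) -/
structure HV (F : Finset P2) (h : P2 → ℤ) : Prop where
  lip : ∀ t ∈ F, ∀ i j, |h (cr t i) - h (cr t j)| ≤ 1
  bd : ∀ v, v ∉ IV F → h v = 0 ∨ h v = 1
  off : ∀ v, v ∉ VF F → h v = 0

theorem HV.s1_bd {F : Finset P2} {h : P2 → ℤ} (hh : HV F h) {v : P2} (hv : v ∉ IV F) :
    s1 (h v) = true := by
  rcases hh.bd v hv with h1 | h1 <;> rw [h1] <;> decide

/-- an admissible height is globally Lipschitz -/
theorem HV.glip {F : Finset P2} {h : P2 → ℤ} (hh : HV F h) (t : P2) (i j : Fin 3) :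
    |h (cr t i) - h (cr t j)| ≤ 1 := by
  by_cases ht : t ∈ F
  · exact hh.lip t ht i j
  · have key : ∀ k, cr t k ∉ IV F := fun k hk => ht ((mem_IV'.1 hk) t (cr_mem_up t k))
    rcases hh.bd _ (key i) with h1 | h1 <;> rcases hh.bd _ (key j) with h2 | h2 <;>
      rw [h1, h2] <;> decide

theorem HV.toLip {F : Finset P2} {h : P2 → ℤ} (hh : HV F h) : Lip h := by
  rw [Crest.Agent.R144.It844.lip_iff]
  intro u
  exact ⟨hh.glip u 0 1, hh.glip u 0 2, hh.glip u 1 2⟩

theorem cst_iff {h : P2 → ℤ} {t : P2} (hl : ∀ i j, |h (cr t i) - h (cr t j)| ≤ 1) :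
    Cst h t ↔ C1 h t ∧ C2 h t := by
  have e : Cst h t ↔ h (cr t 0) = h (cr t 1) ∧ h (cr t 0) = h (cr t 2) := Iff.rfl
  rw [e]
  constructor
  · rintro ⟨a, b⟩
    unfold C1 C2
    rw [← a, ← b]
    exact ⟨⟨rfl, rfl⟩, rfl, rfl⟩
  · rintro ⟨⟨a1, a2⟩, b1, b2⟩
    have h1 := mod4_of_s a1 b1
    have h2 := mod4_of_s a2 b2
    have l1 := abs_le.1 (hl 0 1)
    have l2 := abs_le.1 (hl 0 2)
    omega

/-- at most one colour is split on a triangle -/
theorem c1_or_c2 {h : P2 → ℤ} {t : P2} (hl : ∀ i j, |h (cr t i) - h (cr t j)| ≤ 1) :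
    C1 h t ∨ C2 h t := by
  have l1 := abs_le.1 (hl 0 1)
  have l2 := abs_le.1 (hl 0 2)
  have l3 := abs_le.1 (hl 1 2)
  unfold C1 C2
  generalize h (cr t 0) = a at *
  generalize h (cr t 1) = b at *
  generalize h (cr t 2) = d at *
  unfold s1 s2
  simp only [decide_eq_decide]
  omega

/-! ### the mod 4 lift -/

/-- residue with given colours -/
def rs (T A : Finset P2) (v : P2) : ℤ :=
  if v ∈ T then (if v ∈ A then 2 else 3) else (if v ∈ A then 1 else 0)

/-- increment -/
def Dc (a b : ℤ) : ℤ := (b - a + 1) % 4 - 1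

theorem rs_cases (T A : Finset P2) (v : P2) :
    (v ∈ T ∧ v ∈ A ∧ rs T A v = 2) ∨ (v ∈ T ∧ v ∉ A ∧ rs T A v = 3) ∨
    (v ∉ T ∧ v ∈ A ∧ rs T A v = 1) ∨ (v ∉ T ∧ v ∉ A ∧ rs T A v = 0) := by
  unfold rs
  by_cases h1 : v ∈ T <;> by_cases h2 : v ∈ A <;> simp [h1, h2]

theorem m3_ch {T : Finset P2} {t : P2} :
    M3 (cr t) (ch T) ↔ ((cr t 0 ∈ T ↔ cr t 1 ∈ T) ∧ (cr t 0 ∈ T ↔ cr t 2 ∈ T)) := by
  unfold M3 ch
  by_cases h0 : cr t 0 ∈ T <;> by_cases h1 : cr t 1 ∈ T <;> by_cases h2 : cr t 2 ∈ T <;>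
    simp only [h0, h1, h2, if_true, if_false] <;> decide

/-- good edges: the increment is in `{-1, 0, 1}` -/
theorem dc_good {F T A : Finset P2} (hT : T ⊆ IV F)
    (hc : ∀ t ∈ F, M3 (cr t) (ch T) ∨ M3 (cr t) (ch A)) (t : P2) (i j : Fin 3) :
    Dc (rs T A (cr t i)) (rs T A (cr t j)) ≤ 1 := by
  have key : ∀ u v : P2, ((u ∈ T ↔ v ∈ T) ∨ (u ∈ A ↔ v ∈ A)) → Dc (rs T A u) (rs T A v) ≤ 1 := by
    intro u v h
    unfold Dc
    rcases rs_cases T A u with ⟨a1, a2, a3⟩ | ⟨a1, a2, a3⟩ | ⟨a1, a2, a3⟩ | ⟨a1, a2, a3⟩ <;>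
      rcases rs_cases T A v with ⟨b1, b2, b3⟩ | ⟨b1, b2, b3⟩ | ⟨b1, b2, b3⟩ | ⟨b1, b2, b3⟩ <;>
      rw [a3, b3] <;> first | (norm_num; done) | (exfalso; tauto)
  apply key
  by_cases ht : t ∈ F
  · have aux : ∀ S : Finset P2, M3 (cr t) (ch S) → (cr t i ∈ S ↔ cr t j ∈ S) := by
      intro S hS
      rw [m3_ch] at hS
      fin_cases i <;> fin_cases j <;> simp only [Fin.zero_eta, Fin.mk_one, Fin.reduceFinMk] <;> tauto
    rcases hc t ht with h | h
    · exact Or.inl (aux T h)
    · exact Or.inr (aux A h)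
  · have hn : ∀ k, cr t k ∉ T := fun k hk => ht ((mem_IV'.1 (hT hk)) t (cr_mem_up t k))
    exact Or.inl ⟨fun h => absurd h (hn i), fun h => absurd h (hn j)⟩

/-- **Lift**: compatible colours come from an admissible height. -/
theorem exists_height {F T A : Finset P2} (hF : SC F) (hT : T ⊆ IV F) (hA : A ⊆ VF F)
    (hc : ∀ t ∈ F, M3 (cr t) (ch T) ∨ M3 (cr t) (ch A)) :
    ∃ h : P2 → ℤ, HV F h ∧ (∀ v, s1 (h v) = true ↔ v ∉ T) ∧ (∀ v, s2 (h v) = true ↔ v ∉ A) := by
  classical
  -- a vertical line to the left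
  obtain ⟨N, hN⟩ : ∃ N : ℤ, ∀ t ∈ VF F, N + 1 < t.1 := by
    rcases ((VF F).image fun t => t.1).eq_empty_or_nonempty with h | h
    · exact ⟨0, fun t ht => by
        have : t.1 ∈ (VF F).image fun t => t.1 := Finset.mem_image_of_mem _ ht
        rw [h] at this; exact absurd this (by simp)⟩
    · exact ⟨Finset.min' _ h - 2, fun t ht => by
        have := Finset.min'_le _ t.1 (Finset.mem_image_of_mem (fun t : P2 => t.1) ht)
        omega⟩
  have r0 : ∀ v : P2, v ∉ VF F → rs T A v = 0 := by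
    intro v hv
    unfold rs
    rw [if_neg fun h => hv (IV_sub_VF F (hT h)), if_neg fun h => hv (hA h)]
  have rz : ∀ v : P2, v.1 ≤ N + 1 → rs T A v = 0 := fun v hv => r0 v fun h => by
    have := hN v h
    omega
  have rge : ∀ v, 0 ≤ rs T A v ∧ rs T A v ≤ 3 := by
    intro v
    rcases rs_cases T A v with ⟨_, _, h⟩ | ⟨_, _, h⟩ | ⟨_, _, h⟩ | ⟨_, _, h⟩ <;> rw [h] <;> norm_num
  have gd := fun t i j => dc_good (F := F) hT hc t i j
  obtain ⟨g, hg1, hg2, hg3⟩ := Crest.Agent.R161.Geo729.poincare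
    (fun p : P2 => Dc (rs T A p) (rs T A (p.1 + 1, p.2)))
    (fun p : P2 => Dc (rs T A p) (rs T A (p.1, p.2 + 1))) N
    (fun i j h => by
      simp only
      rw [rz (i, j) (by simp only; omega), rz (i + 1, j) (by simp only; omega)]
      decide)
    (fun i j h => by
      simp only
      rw [rz (i, j) (by simp only; omega), rz (i, j + 1) (by simp only; omega)]
      decide)
    (fun i j => by
      have a1 := gd (i, j) 0 1
      have a2 := gd (i, j) 1 0
      have a3 := gd (i, j) 0 2
      have a4 := gd (i, j) 2 0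
      have a5 := gd (i, j) 1 2
      have a6 := gd (i, j) 2 1
      have b1 := gd (i + 1, j) 0 2
      have b2 := gd (i + 1, j) 2 0
      have b3 := gd (i, j + 1) 0 1
      have b4 := gd (i, j + 1) 1 0
      simp only [cr0, cr1, cr2] at *
      simp only [Dc] at *
      generalize rs T A (i, j) = x at *
      generalize rs T A (i + 1, j) = y at *
      generalize rs T A (i, j + 1) = z at *
      generalize rs T A (i + 1, j + 1) = w at *
      omega)
  -- congruence
  have hmod : ∀ v, (g v - rs T A v) % 4 = 0 := by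
    have : ∀ n : ℕ, ∀ j : ℤ, (g (N + n, j) - rs T A (N + n, j)) % 4 = 0 := by
      intro n
      induction n with
      | zero =>
        intro j
        rw [hg3 _ _ (by simp), rz _ (by simp)]
        norm_num
      | succ n ih =>
        intro j
        have h1 := ih j
        have h2 := hg1 (N + n) j
        have e : N + ((n + 1 : ℕ) : ℤ) = N + n + 1 := by push_cast; ring
        rw [e, h2]
        simp only [Dc]
        omega
    intro v
    rcases le_or_gt v.1 N with h | h
    · have h1 : g v = 0 := hg3 v.1 v.2 h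
      rw [h1, rz v (by omega)]
      norm_num
    · obtain ⟨n, hn⟩ : ∃ n : ℕ, v.1 = N + n := ⟨(v.1 - N).toNat, by omega⟩
      have := this n v.2
      rw [← hn] at this
      exact this
  -- global Lipschitz
  have hlip : ∀ (t : P2) (i j : Fin 3), |g (cr t i) - g (cr t j)| ≤ 1 := by
    intro t
    have e1 := hg1 t.1 t.2
    have e2 := hg2 t.1 t.2
    have a1 := gd t 0 1
    have a2 := gd t 1 0
    have a3 := gd t 0 2
    have a4 := gd t 2 0
    have a5 := gd t 1 2
    have a6 := gd t 2 1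
    have m0 := hmod (cr t 0)
    have m1 := hmod (cr t 1)
    have m2 := hmod (cr t 2)
    simp only [cr0, cr1, cr2, Dc] at *
    have key : |g t - g (t.1 + 1, t.2)| ≤ 1 ∧ |g t - g (t.1, t.2 + 1)| ≤ 1 ∧
        |g (t.1 + 1, t.2) - g (t.1, t.2 + 1)| ≤ 1 := by
      refine ⟨?_, ?_, ?_⟩ <;> rw [abs_le] <;>
      · generalize g (t.1 + 1, t.2) = G1 at *
        generalize g (t.1, t.2 + 1) = G2 at *
        generalize g t = G0 at *
        generalize rs T A (t.1 + 1, t.2) = R1 at *
        generalize rs T A (t.1, t.2 + 1) = R2 at *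
        generalize rs T A t = R0 at *
        constructor <;> omega
    intro i j
    fin_cases i <;> fin_cases j <;>
      simp only [Fin.zero_eta, Fin.mk_one, Fin.reduceFinMk, cr0, cr1, cr2, sub_self, abs_zero,
        zero_le_one]
    · exact key.1
    · exact key.2.1
    · rw [abs_sub_comm]; exact key.1
    · exact key.2.2
    · rw [abs_sub_comm]; exact key.2.1
    · rw [abs_sub_comm]; exact key.2.2
  -- non-interior sites
  have hT' : ∀ v, v ∉ IV F → rs T A v = 0 ∨ rs T A v = 1 := by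
    intro v hv
    rcases rs_cases T A v with ⟨h, _, _⟩ | ⟨h, _, _⟩ | ⟨_, _, h⟩ | ⟨_, _, h⟩
    · exact absurd (hT h) hv
    · exact absurd (hT h) hv
    · exact Or.inr h
    · exact Or.inl h
  have hbd : ∀ v, v ∉ IV F → g v = 0 ∨ g v = 1 := by
    intro v hv
    obtain ⟨w0, h3, h4⟩ := exists_far (IV F) N
    have h5 := const_site hF (fun v => g v / 4) (fun t ht v hv => by
      obtain ⟨i, rfl⟩ := mem_up_iff.1 hv
      have hn : ∀ k, cr t k ∉ IV F := fun k hk => ht ((mem_IV'.1 hk) t (cr_mem_up t k))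
      have l := abs_le.1 (hlip t i 0)
      have m0 := hmod (cr t 0)
      have m1 := hmod (cr t i)
      have n0 := hT' _ (hn 0)
      have n1 := hT' _ (hn i)
      simp only [cr0] at *
      generalize g (cr t i) = G1 at *
      generalize g t = G0 at *
      generalize rs T A (cr t i) = R1 at *
      generalize rs T A t = R0 at *
      omega) hv h4
    have h6 : g w0 = 0 := hg3 w0.1 w0.2 h3
    simp only [h6] at h5
    have m := hmod v
    have n := hT' v hv
    generalize rs T A v = R at *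
    omega
  refine ⟨g, ⟨fun t _ => hlip t, hbd, fun v hv => ?_⟩, fun v => ?_, fun v => ?_⟩
  · have h1 := hbd v fun h => hv (IV_sub_VF F h)
    have m := hmod v
    rw [r0 v hv] at m
    omega
  · rw [s1_true]
    have m := hmod v
    rcases rs_cases T A v with ⟨h1, _, h⟩ | ⟨h1, _, h⟩ | ⟨h1, _, h⟩ | ⟨h1, _, h⟩ <;> rw [h] at m
    · simp only [h1, not_true_eq_false, iff_false]; omega
    · simp only [h1, not_true_eq_false, iff_false]; omega
    · simp only [h1, not_false_eq_true, iff_true]; omega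
    · simp only [h1, not_false_eq_true, iff_true]; omega
  · rw [s2_true]
    have m := hmod v
    rcases rs_cases T A v with ⟨_, h1, h⟩ | ⟨_, h1, h⟩ | ⟨_, h1, h⟩ | ⟨_, h1, h⟩ <;> rw [h] at m
    · simp only [h1, not_true_eq_false, iff_false]; omega
    · simp only [h1, not_false_eq_true, iff_true]; omega
    · simp only [h1, not_true_eq_false, iff_false]; omega
    · simp only [h1, not_false_eq_true, iff_true]; omega

/-- **Uniqueness**: an admissible height is determined by its colours. -/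
theorem height_inj {F : Finset P2} {h g : P2 → ℤ} (hh : HV F h) (hg : HV F g)
    (e1 : ∀ v, s1 (h v) = s1 (g v)) (e2 : ∀ v, s2 (h v) = s2 (g v)) : h = g := by
  have hm : ∀ v, (h v - g v) % 4 = 0 := fun v => mod4_of_s (e1 v) (e2 v)
  funext v
  obtain ⟨j, -, hj, hj'⟩ := exists_exit (IV F) v
  have key : ∀ i : ℕ, i ≤ j → h (v.1 + (i : ℤ), v.2) - g (v.1 + (i : ℤ), v.2) = h v - g v := by
    intro i
    induction i with
    | zero => intro _; simp
    | succ i ih =>
      intro hi
      rw [← ih (by omega)]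
      have l1 := abs_le.1 (hh.glip (v.1 + (i : ℤ), v.2) 0 1)
      have l2 := abs_le.1 (hg.glip (v.1 + (i : ℤ), v.2) 0 1)
      have m1 := hm (v.1 + (i : ℤ), v.2)
      have m2 := hm (v.1 + (i : ℤ) + 1, v.2)
      simp only [cr0, cr1] at l1 l2
      have e : v.1 + (((i + 1 : ℕ) : ℤ)) = v.1 + i + 1 := by push_cast; ring
      rw [e]
      omega
  have h1 := key j le_rfl
  have h2 := hh.bd _ hj
  have h3 := hg.bd _ hj
  have h4 := hm (v.1 + (j : ℤ), v.2)
  omega

end Crest.Agent.R144.Zd349
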