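import Crest.Agent.R144.Ze_349

/-!
# R144: F-type model, comparison inequalities (helper349)

Conditionally on everything off a domain `B`, the `(s1, z)` law inside `B` is between the `F01`
law of `B` and its shift by `2`:

* `upper` : `B ⊆ F`, `E_F [g f] ≤ E_F [g] E_B [f]`;
* `lower` : any `B`, `E_F [g] E_B [f ∘ addH 2] ≤ E_F [g f]`,

for `f` increasing and in `B`, `g ≥ 0` off `B`. Port of R161/AtFkF_729.
-/

set_option autoImplicit false
set_option linter.unusedSectionVars false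
set_option linter.unusedSimpArgs false

noncomputable section

namespace Crest.Agent.R144.Zf349

open Finset
open Crest.Agent.R144.It844 (P2)
open Crest.Agent.R144.Zg349 Crest.Agent.R144.Zk349 Crest.Agent.R144.Zd349 Crest.Agent.R144.Zm349
open Crest.Agent.R144.HyA349 Crest.Agent.R144.HyB349 Crest.Agent.R144.HyC349
open Crest.Agent.R144.Ze349

/-! ### the maximal environment -/

/-- maximal environment -/
def etaMax (G B : Finset P2) : BC P2 P2 := ⟨∅, G \ B, ∅⟩

theorem etaMax_ok (G B : Finset P2) : (etaMax G B).Ok (IV B) B :=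
  ⟨Finset.disjoint_empty_left _, Finset.sdiff_disjoint, Finset.disjoint_empty_left _⟩

theorem etaMax_sep (VA G B : Finset P2) : Sep up dn VA (IV B) B (etaMax G B) := by
  constructor
  · intro e he v hv
    exact ⟨fun hv' => (Finset.mem_sdiff.mp he).2 (mem_of_corner hv hv'), by simp [etaMax]⟩
  · intro e he
    exact absurd he (by simp [etaMax])
  · intro e _ e' _ i j hij _
    exact share hij
  · intro e _
    exact ⟨e, base_mem_up e⟩

theorem eta0_sep (VA B : Finset P2) : Sep up dn VA (IV B) B (eta ∅ ∅) := by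
  constructor
  · intro e he
    exact absurd he (by simp [eta])
  · intro e he
    exact absurd he (by simp [eta])
  · intro e _ e' _ i j hij _
    exact share hij
  · intro e _
    exact ⟨e, base_mem_up e⟩

theorem EB_max (c : ℝ) {G B : Finset P2} (hB : SC B) (hBG : B ⊆ G)
    (φ : Finset P2 → Finset P2 → Finset P2 → ℝ) :
    EB c (ID G) B (etaMax G B) φ * ncl B ∅ = ncl G ∅ * EB c (ID B) B (eta ∅ ∅) φ := by
  rw [EB_eq c (ID G) B (etaMax_sep _ G B), EB_eq c (ID B) B (eta0_sep _ B)]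
  simp only [psi_ncl]
  have h1 : ∀ T ∈ (IV B).powerset, ∀ Z ∈ B.powerset,
      fw up c B (T ∪ (etaMax G B).T0) Z * ncl G ((etaMax G B).Dp ∪ (etaMax G B).Dm ∪ Z) *
        φ T (Z ∩ E2 up B (T ∪ (etaMax G B).T0)) (Z ∩ E1 up B (T ∪ (etaMax G B).T0)) =
      fw up c B (T ∪ (eta ∅ ∅).T0) Z * ncl B ((eta ∅ ∅).Dp ∪ (eta ∅ ∅).Dm ∪ Z) *
        φ T (Z ∩ E2 up B (T ∪ (eta ∅ ∅).T0)) (Z ∩ E1 up B (T ∪ (eta ∅ ∅).T0)) := by
    intro T _ Z hZ
    rw [Finset.mem_powerset] at hZ
    have e1 : (etaMax G B).Dp ∪ (etaMax G B).Dm ∪ Z = (G \ B) ∪ Z := by simp [etaMax]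
    have e2 : (eta ∅ ∅).Dp ∪ (eta ∅ ∅).Dm ∪ Z = Z := by simp [eta]
    have e3 : ((G \ B) ∪ Z) ∩ B = Z := by
      ext x
      have := fun h : x ∈ Z => hZ h
      simp only [Finset.mem_inter, Finset.mem_union, Finset.mem_sdiff]
      tauto
    rw [e1, e2, ncl_restrict hB hBG (Z := (G \ B) ∪ Z) Finset.subset_union_left, e3]
    rfl
  rw [Finset.sum_congr rfl (fun T hT => Finset.sum_congr rfl (h1 T hT))]
  ring

/-! ### the minimal environment -/

/-- minimal environment -/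
def etaMin (G B : Finset P2) : BC P2 P2 :=
  ⟨IV G \ IV B, ∅, (G \ B).filter fun t => up t ⊆ IV G⟩

theorem etaMin_ok (G B : Finset P2) : (etaMin G B).Ok (IV B) B := by
  refine ⟨Finset.sdiff_disjoint, Finset.disjoint_empty_left _, ?_⟩
  exact Finset.disjoint_of_subset_left (Finset.filter_subset _ _) Finset.sdiff_disjoint

theorem etaMin_sep (VA G B : Finset P2) : Sep up dn VA (IV B) B (etaMin G B) := by
  constructor
  · intro e he
    exact absurd he (by simp [etaMin])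
  · intro e he v hv
    have h1 := Finset.mem_filter.1 he
    exact Finset.mem_sdiff.2 ⟨h1.2 hv, fun h => (Finset.mem_sdiff.1 h1.1).2 (mem_of_corner hv h)⟩
  · intro e _ e' _ i j hij _
    exact share hij
  · intro e _
    exact ⟨e, base_mem_up e⟩

/-- down triangles at the boundary of `B` -/
def Bd (B : Finset P2) (w : P2) : Prop := w ∉ ID B ∧ ∃ t ∈ B, ∃ i, w = dn t i

/-- `G` is large for `B` -/
structure Big (G B : Finset P2) : Prop where
  sub : B ⊆ G
  vf : ∀ t ∈ B, up t ⊆ IV G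
  con : ∃ P : Finset P2, (∀ t ∈ P, t ∈ (G \ B).filter fun t => up t ⊆ IV G) ∧
    ∀ w w', Bd B w → Bd B w' → ∃ t ∈ P, ∃ t' ∈ P, (∃ i, w = dn t i) ∧ (∃ i, w' = dn t' i) ∧
      Relation.ReflTransGen (StepIn (P : Set P2)) t t'

theorem path_finset {S : Set P2} {a b : P2} (ha : a ∈ S) (h : Relation.ReflTransGen (StepIn S) a b) :
    ∃ P : Finset P2, (P : Set P2) ⊆ S ∧ a ∈ P ∧ b ∈ P ∧
      Relation.ReflTransGen (StepIn (P : Set P2)) a b := by
  induction h with
  | refl => exact ⟨{a}, by simpa using ha, by simp, by simp, Relation.ReflTransGen.refl⟩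
  | @tail b c _ h2 ih =>
    obtain ⟨P, hP, haP, hbP, h⟩ := ih
    refine ⟨insert c P, ?_, Finset.mem_insert_of_mem haP, Finset.mem_insert_self _ _, ?_⟩
    · intro x hx
      rw [Finset.coe_insert, Set.mem_insert_iff] at hx
      rcases hx with rfl | hx
      · exact h2.2.1
      · exact hP hx
    · refine Relation.ReflTransGen.tail (b := b) ?_ ⟨?_, ?_, h2.2.2⟩
      · refine Relation.ReflTransGen.mono (fun x y hxy => ?_) _ _ h
        exact ⟨Finset.mem_coe.2 (Finset.mem_insert_of_mem (Finset.mem_coe.1 hxy.1)),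
          Finset.mem_coe.2 (Finset.mem_insert_of_mem (Finset.mem_coe.1 hxy.2.1)), hxy.2.2⟩
      · exact Finset.mem_coe.2 (Finset.mem_insert_of_mem hbP)
      · exact Finset.mem_coe.2 (Finset.mem_insert_self _ _)

/-- the boundary down triangles form a finite set -/
theorem bd_finite (B : Finset P2) : {w | Bd B w}.Finite := by
  refine Set.Finite.subset (Finset.finite_toSet (B.biUnion fun t => Finset.univ.image (dn t))) ?_
  rintro w ⟨_, t, ht, i, rfl⟩
  rw [Finset.mem_coe, Finset.mem_biUnion]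
  exact ⟨t, ht, Finset.mem_image_of_mem _ (Finset.mem_univ i)⟩

theorem exists_big (F B : Finset P2) (hB : SC B) : ∃ G : Finset P2, F ⊆ G ∧ Big G B := by
  classical
  -- outer triangles at the boundary duals
  have hout : ∀ w, Bd B w → ∃ t, t ∉ B ∧ ∃ i, w = dn t i := by
    intro w hw
    have h1 := hw.1
    rw [mem_ID'] at h1
    push Not at h1
    obtain ⟨t, i, h2, h3⟩ := h1
    exact ⟨t, h3, i, h2⟩
  choose! o ho1 ho2 using hout
  have hpath : ∀ w w', Bd B w → Bd B w' → ∃ P : Finset P2, (P : Set P2) ⊆ (B : Set P2)ᶜ ∧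
      o w ∈ P ∧ o w' ∈ P ∧ Relation.ReflTransGen (StepIn (P : Set P2)) (o w) (o w') := by
    intro w w' hw hw'
    exact path_finset (by simpa using ho1 w hw)
      (hB (o w) (by simpa using ho1 w hw) (o w') (by simpa using ho1 w' hw'))
  choose! Q hQ1 hQ2 hQ3 hQ4 using hpath
  let W : Finset P2 := (bd_finite B).toFinset
  have hW : ∀ w, w ∈ W ↔ Bd B w := fun w => by simp [W]
  let P : Finset P2 := W.biUnion fun w => W.biUnion fun w' => Q w w'
  have hQP : ∀ w w', Bd B w → Bd B w' → Q w w' ⊆ P := by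
    intro w w' hw hw' x hx
    exact Finset.mem_biUnion.2 ⟨w, (hW w).2 hw, Finset.mem_biUnion.2 ⟨w', (hW w').2 hw', hx⟩⟩
  have hPB : ∀ t ∈ P, t ∉ B := by
    intro t ht
    obtain ⟨w, hw, h1⟩ := Finset.mem_biUnion.1 ht
    obtain ⟨w', hw', h2⟩ := Finset.mem_biUnion.1 h1
    have := hQ1 w w' ((hW w).1 hw) ((hW w').1 hw') (Finset.mem_coe.2 h2)
    simpa using this
  let nb : P2 → Finset P2 := fun t => (up t).biUnion fun v => {v, (v.1 - 1, v.2), (v.1, v.2 - 1)}
  have hnb : ∀ t v s, v ∈ up t → v ∈ up s → s ∈ nb t := by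
    intro t v s h1 h2
    refine Finset.mem_biUnion.2 ⟨v, h1, ?_⟩
    rw [mem_up'] at h2
    simp only [Finset.mem_insert, Finset.mem_singleton]
    exact h2
  let G : Finset P2 := F ∪ B ∪ (P ∪ B).biUnion nb
  have hup : ∀ t ∈ P ∪ B, up t ⊆ IV G := by
    intro t ht v hv
    rw [mem_IV']
    intro s hs
    exact Finset.mem_union_right _ (Finset.mem_biUnion.2 ⟨t, ht, hnb t v s hv hs⟩)
  refine ⟨G, fun x hx => Finset.mem_union_left _ (Finset.mem_union_left _ hx), ⟨?_, ?_, P, ?_, ?_⟩⟩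
  · exact fun x hx => Finset.mem_union_left _ (Finset.mem_union_right _ hx)
  · exact fun t ht => hup t (Finset.mem_union_right _ ht)
  · intro t ht
    refine Finset.mem_filter.2 ⟨Finset.mem_sdiff.2 ⟨?_, hPB t ht⟩, hup t (Finset.mem_union_left _ ht)⟩
    exact IV_sub G (hup t (Finset.mem_union_left _ ht) (base_mem_up t))
  · intro w w' hw hw'
    refine ⟨o w, hQP w w' hw hw' (hQ2 w w' hw hw'), o w', hQP w w' hw hw' (hQ3 w w' hw hw'),
      ho2 w hw, ho2 w' hw', ?_⟩
    refine Relation.ReflTransGen.mono (fun x y hxy => ?_) _ _ (hQ4 w w' hw hw')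
    exact ⟨Finset.mem_coe.2 (hQP w w' hw hw' (Finset.mem_coe.1 hxy.1)),
      Finset.mem_coe.2 (hQP w w' hw hw' (Finset.mem_coe.1 hxy.2.1)), hxy.2.2⟩

theorem m3_iff {t : P2} {A : Finset P2} :
    M3 (dn t) (ch A) ↔ ∀ i j, (dn t i ∈ A ↔ dn t j ∈ A) := by
  unfold M3
  rw [ch_eq_iff, ch_eq_iff]
  constructor
  · rintro ⟨h1, h2⟩ i j
    fin_cases i <;> fin_cases j <;> simp_all
  · intro h
    exact ⟨h 0 1, h 0 2⟩

/-- boundary duals are wired together in the minimal environment -/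
theorem bd_const {G B A : Finset P2} (hG : Big G B) (hA : ∀ t ∈ (etaMin G B).Dm, M3 (dn t) (ch A))
    {w w' : P2} (hw : Bd B w) (hw' : Bd B w') : w ∈ A ↔ w' ∈ A := by
  obtain ⟨P, hP, hc⟩ := hG.con
  obtain ⟨t, ht, t', ht', ⟨i, rfl⟩, ⟨j, rfl⟩, h⟩ := hc w w' hw hw'
  have h1 : ∀ s ∈ P, ∀ i j, (dn s i ∈ A ↔ dn s j ∈ A) := fun s hs => m3_iff.1 (hA s (hP s hs))
  have h2 : ∀ s, Relation.ReflTransGen (StepIn (P : Set P2)) t s → s ∈ P →
      ∀ j, (dn t i ∈ A ↔ dn s j ∈ A) := by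
    intro s hs
    induction hs with
    | refl => exact fun hs j => h1 t hs i j
    | @tail b c _ h2 ih =>
      intro hs j
      obtain ⟨i', j', hx⟩ := adj_dn h2.2.2
      have hb := ih (Finset.mem_coe.1 h2.1) i'
      rw [hb, hx]
      exact h1 c hs j' j
  exact h2 t' h ht' j

/-- number of exponentiated clusters of the minimal environment -/
def Kmin (G B : Finset P2) : ℝ :=
  ∑ A ∈ (ID G \ ID B).powerset, ∏ t ∈ (etaMin G B).Dm, (if M3 (dn t) (ch A) then (1 : ℝ) else 0)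

theorem m3_nonneg (D A : Finset P2) : 0 ≤ ∏ t ∈ D, (if M3 (dn t) (ch A) then (1 : ℝ) else 0) :=
  Finset.prod_nonneg fun t _ => by split_ifs <;> norm_num

theorem Kmin_pos (G B : Finset P2) : 0 < Kmin G B := by
  unfold Kmin
  refine Finset.sum_pos' (fun A _ => m3_nonneg _ _) ⟨∅, by simp, ?_⟩
  refine Finset.prod_pos fun t _ => ?_
  rw [if_pos (m3_iff.2 fun i j => by simp)]
  norm_num

theorem sum_powerset_compl {α : Type*} [DecidableEq α] (A : Finset α) (F : Finset α → ℝ) :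
    ∑ T ∈ A.powerset, F T = ∑ T ∈ A.powerset, F (A \ T) := by
  have hdd : ∀ T ∈ A.powerset, A \ (A \ T) = T := by
    intro T hT
    rw [Finset.mem_powerset] at hT
    ext x
    have := fun h : x ∈ T => hT h
    simp only [Finset.mem_sdiff]
    tauto
  refine Finset.sum_bij' (fun T _ => A \ T) (fun T _ => A \ T)
    (fun T _ => Finset.mem_powerset.mpr Finset.sdiff_subset)
    (fun T _ => Finset.mem_powerset.mpr Finset.sdiff_subset) hdd hdd ?_
  intro T hT
  rw [hdd T hT]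

theorem ncl_min {G B : Finset P2} (hG : Big G B) {Z : Finset P2} (hZ : Z ⊆ B) :
    ncl G ((etaMin G B).Dm ∪ Z) = Kmin G B * ncl B Z := by
  classical
  have hdis : Disjoint (etaMin G B).Dm Z := (etaMin_ok G B).m.mono_right hZ
  unfold Kmin ncl
  rw [psi_eq, psi_eq, sum_powerset_split (ID_mono hG.sub), Finset.sum_mul]
  refine Finset.sum_congr rfl fun A1 hA1 => ?_
  rw [Finset.mem_powerset] at hA1
  have hD : ∀ A2 ∈ (ID B).powerset, (∏ t ∈ (etaMin G B).Dm ∪ Z,
      (if M3 (dn t) (ch (A2 ∪ A1)) then (1 : ℝ) else 0)) =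
      (∏ t ∈ (etaMin G B).Dm, (if M3 (dn t) (ch A1) then (1 : ℝ) else 0)) *
        ∏ t ∈ Z, (if M3 (dn t) (ch (A2 ∪ A1)) then (1 : ℝ) else 0) := by
    intro A2 hA2
    rw [Finset.mem_powerset] at hA2
    rw [Finset.prod_union hdis]
    congr 1
    refine Finset.prod_congr rfl fun t ht => ?_
    have htB : t ∉ B := Finset.disjoint_left.1 (etaMin_ok G B).m ht
    have h1 : ∀ i, (dn t i ∈ A2 ∪ A1 ↔ dn t i ∈ A1) := by
      intro i
      have : dn t i ∉ A2 := fun h => htB ((mem_ID'.1 (hA2 h)) t i rfl)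
      simp only [Finset.mem_union, this, false_or]
    have h2 : M3 (dn t) (ch (A2 ∪ A1)) ↔ M3 (dn t) (ch A1) := by
      rw [m3_iff, m3_iff]
      simp only [h1]
    simp only [h2]
  rw [Finset.sum_congr rfl hD, ← Finset.mul_sum]
  by_cases hall : ∀ t ∈ (etaMin G B).Dm, M3 (dn t) (ch A1)
  · congr 1
    have hbd : ∀ t ∈ Z, ∀ i, dn t i ∉ ID B → Bd B (dn t i) := fun t ht i h =>
      ⟨h, t, hZ ht, i, rfl⟩
    have hA1B : ∀ w ∈ ID B, w ∉ A1 := fun w hw h => (Finset.mem_sdiff.1 (hA1 h)).2 hw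
    by_cases hcase : ∃ w, Bd B w ∧ w ∈ A1
    · obtain ⟨w0, hw0, hw0A⟩ := hcase
      rw [sum_powerset_compl (ID B)]
      refine Finset.sum_congr rfl fun A2 hA2 => Finset.prod_congr rfl fun t ht => ?_
      rw [Finset.mem_powerset] at hA2
      have h1 : ∀ i, (dn t i ∈ (ID B \ A2) ∪ A1 ↔ dn t i ∉ A2) := by
        intro i
        by_cases h : dn t i ∈ ID B
        · have := hA1B _ h
          simp only [Finset.mem_union, Finset.mem_sdiff, h, true_and, this, or_false]
        · have h2 : dn t i ∈ A1 := (bd_const hG hall hw0 (hbd t ht i h)).1 hw0A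
          have h3 : dn t i ∉ A2 := fun h' => h (hA2 h')
          simp only [Finset.mem_union, h2, or_true, h3, not_false_eq_true]
      have h2 : M3 (dn t) (ch ((ID B \ A2) ∪ A1)) ↔ M3 (dn t) (ch A2) := by
        rw [m3_iff, m3_iff]
        simp only [h1, not_iff_not]
      simp only [h2]
    · push Not at hcase
      refine Finset.sum_congr rfl fun A2 hA2 => Finset.prod_congr rfl fun t ht => ?_
      rw [Finset.mem_powerset] at hA2
      have h1 : ∀ i, (dn t i ∈ A2 ∪ A1 ↔ dn t i ∈ A2) := by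
        intro i
        by_cases h : dn t i ∈ ID B
        · have := hA1B _ h
          simp only [Finset.mem_union, this, or_false]
        · have h2 : dn t i ∉ A1 := hcase _ (hbd t ht i h)
          simp only [Finset.mem_union, h2, or_false]
      have h2 : M3 (dn t) (ch (A2 ∪ A1)) ↔ M3 (dn t) (ch A2) := by
        rw [m3_iff, m3_iff]
        simp only [h1]
      simp only [h2]
  · push Not at hall
    obtain ⟨t, ht, hne⟩ := hall
    rw [Finset.prod_eq_zero ht (if_neg hne)]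
    ring

theorem mkZ_add2_s (G T : Finset P2) (Z : Finset P2) (v : P2) :
    s1 ((addH 2 (mkZ G T Z)).1 v) = true ↔ v ∈ T := by
  unfold addH mkZ
  by_cases h : v ∈ T
  · simp only [h, if_true, iff_true]; decide
  · simp only [h, if_false, iff_false]; decide

theorem EB_min (c : ℝ) {G B : Finset P2} (hG : Big G B) (hB : SC B) {f : Cfg → ℝ} (hf : IncP f)
    (hin : InTZ B f) :
    EB c (ID G) B (etaMin G B) (fun T P M => f (mk B T P M)) * Nm B =
      ncl G ∅ * Kmin G B * S c B (fun ω => f (addH 2 ω)) := by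
  rw [S_tz hB c (hf.tz.addH2), EB_eq c (ID G) B (etaMin_sep _ G B)]
  rw [sum_powerset_compl (IV B)]
  simp only [psi_ncl]
  have e0 : (etaMin G B).T0 = IV G \ IV B := rfl
  have h1 : ∀ T ∈ (IV B).powerset, ∀ Z ∈ B.powerset,
      fw up c B ((IV B \ T) ∪ (etaMin G B).T0) Z *
        ncl G ((etaMin G B).Dp ∪ (etaMin G B).Dm ∪ Z) *
        f (mk B (IV B \ T) (Z ∩ E2 up B ((IV B \ T) ∪ (etaMin G B).T0))
          (Z ∩ E1 up B ((IV B \ T) ∪ (etaMin G B).T0))) =
      Kmin G B * (fw up c B T Z * ncl B Z * f (addH 2 (mkZ B T Z))) := by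
    intro T hT Z hZ
    rw [Finset.mem_powerset] at hT hZ
    have e1 : (etaMin G B).Dp ∪ (etaMin G B).Dm ∪ Z = (etaMin G B).Dm ∪ Z := by
      simp [etaMin]
    rw [e0, e1, ncl_min hG hZ]
    have hmem : ∀ v ∈ IV G, (v ∈ (IV B \ T) ∪ (IV G \ IV B) ↔ v ∉ T) := by
      intro v hv
      have := fun h : v ∈ T => hT h
      simp only [Finset.mem_union, Finset.mem_sdiff]
      tauto
    have hcs : ∀ t ∈ B, (Cs up ((IV B \ T) ∪ (IV G \ IV B)) t ↔ Cs up T t) := by
      intro t ht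
      unfold Cs
      have a1 : ∀ v ∈ up t, (v ∈ (IV B \ T) ∪ (IV G \ IV B) ↔ v ∉ T) := fun v hv =>
        hmem v (hG.vf t ht hv)
      constructor
      · rintro (h | h)
        · exact Or.inr fun v hv => (a1 v hv).1 (h v hv)
        · exact Or.inl fun v hv => not_not.1 (mt (a1 v hv).2 (h v hv))
      · rintro (h | h)
        · exact Or.inr fun v hv h' => (a1 v hv).1 h' (h v hv)
        · exact Or.inl fun v hv => (a1 v hv).2 (h v hv)
    have hfw : fw up c B ((IV B \ T) ∪ (IV G \ IV B)) Z = fw up c B T Z := by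
      unfold fw
      refine Finset.prod_congr rfl fun t ht => ?_
      simp only [hcs t ht]
    rw [hfw]
    by_cases hs : ∀ t ∈ Z, Cs up T t
    · have h3 : f (mk B (IV B \ T) (Z ∩ E2 up B ((IV B \ T) ∪ (IV G \ IV B)))
          (Z ∩ E1 up B ((IV B \ T) ∪ (IV G \ IV B)))) = f (addH 2 (mkZ B T Z)) := by
        apply hin.eq_of_agree hf
        · intro v hv
          apply bool_eq_of_iff
          rw [mk_s, mkZ_add2_s, Finset.mem_sdiff]
          tauto
        · intro t ht htv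
          apply bool_eq_of_iff
          have h4 : (addH 2 (mkZ B T Z)).2 t = (mkZ B T Z).2 t := rfl
          rw [h4, mk_z, mkZ_z]
          have a1 : ∀ v ∈ up t, (v ∈ (IV B \ T) ∪ (IV G \ IV B) ↔ v ∉ T) := fun v hv =>
            hmem v (hG.vf t ht hv)
          constructor
          · rintro (h | h | h)
            · exact Or.inl h
            · exact Or.inr (Finset.mem_inter.1 h.1).1
            · exact Or.inr (Finset.mem_inter.1 h.1).1
          · rintro (h | h)
            · exact Or.inl h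
            · by_cases htT : t ∈ T
              · refine Or.inr (Or.inl ⟨Finset.mem_inter.2 ⟨h, ?_⟩, fun h' =>
                  (Finset.mem_sdiff.1 h').2 htT⟩)
                refine Finset.mem_filter.2 ⟨ht, fun v hv h' => (a1 v hv).1 h' ?_⟩
                exact cs_minus (hs t h) htT v hv
              · refine Or.inr (Or.inr ⟨Finset.mem_inter.2 ⟨h, ?_⟩, Finset.mem_sdiff.2 ⟨htv, htT⟩⟩)
                refine Finset.mem_filter.2 ⟨ht, fun v hv => (a1 v hv).2 ?_⟩
                exact cs_plus (hs t h) htT v hv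
      rw [h3]
      ring
    · rw [fw_zero_of_not c _ _ hZ hs]
      ring
  rw [Finset.sum_congr rfl (fun T hT => Finset.sum_congr rfl (h1 T hT))]
  simp only [← Finset.mul_sum]
  ring

/-! ### environment representation -/

open Classical in
/-- outer factor -/
def gout (F G B : Finset P2) (g : Cfg → ℝ) (T1 : Finset P2) (Z1 : Finset P2) : ℝ :=
  if T1 ⊆ IV F ∧ (G \ B) \ F ⊆ Z1 then g (mkZ G T1 Z1) else 0

/-- **Environment representation.** -/
theorem env (c : ℝ) {F G B : Finset P2} (hF : SC F) (hFG : F ⊆ G) (hBG : B ⊆ G)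
    {f g : Cfg → ℝ} (hf : IncP f) (hin : InTZ B f) (hg : OffTZ B g) :
    S c F (fun ω => g ω * f ω) =
      Kc F G * ∑ T1 ∈ (IV G \ IV B).powerset, ∑ Z1 ∈ (G \ B).powerset,
        fw up c (G \ B) T1 Z1 * gout F G B g T1 Z1 *
          EB c (ID G) B (eta T1 Z1)
            (fun T P M => Ain F B T P M * f (mk B T P M)) := by
  classical
  refine master c hF hFG hBG (hg.tz.mul hf.tz) (gout F G B g)
    (fun T P M => Ain F B T P M * f (mk B T P M)) ?_
  intro T hT Z hZ hs
  have hgv : g (mkZ G T Z) = g (mkZ G (T \ IV B) (Z \ B)) := by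
    refine hg _ _ (fun v hv => ?_) (fun e he => ?_)
    · apply bool_eq_of_iff
      rw [mkZ_s, mkZ_s, Finset.mem_sdiff]
      tauto
    · apply bool_eq_of_iff
      rw [mkZ_z, mkZ_z, Finset.mem_sdiff]
      tauto
  have hfv : f (mkZ G T Z) = f (mk B (T ∩ IV B) (Z ∩ E2 up B T) (Z ∩ E1 up B T)) := by
    apply hin.eq_of_agree hf
    · intro v hv
      apply bool_eq_of_iff
      rw [mkZ_s, mk_s, Finset.mem_inter]
      tauto
    · intro t ht htv
      apply bool_eq_of_iff
      rw [mkZ_z, mk_z]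
      have h1 := hBG ht
      constructor
      · rintro (h | h)
        · exact absurd h1 h
        · by_cases htT : t ∈ T
          · exact Or.inr (Or.inr ⟨Finset.mem_inter.2 ⟨h, Finset.mem_filter.2 ⟨ht,
              cs_minus (hs t h) htT⟩⟩, Finset.mem_inter.2 ⟨htT, htv⟩⟩)
          · exact Or.inr (Or.inl ⟨Finset.mem_inter.2 ⟨h, Finset.mem_filter.2 ⟨ht,
              cs_plus (hs t h) htT⟩⟩, fun h' => htT (Finset.mem_inter.1 h').1⟩)
      · rintro (h | h | h)
        · exact absurd ht h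
        · exact Or.inr (Finset.mem_inter.1 h.1).1
        · exact Or.inr (Finset.mem_inter.1 h.1).1
  have hiff : (T ⊆ IV F ∧ G \ F ⊆ Z) ↔
      ((T \ IV B ⊆ IV F ∧ (G \ B) \ F ⊆ Z \ B) ∧
        (T ∩ IV B ⊆ IV F ∧ B \ F ⊆ Z ∩ E2 up B T)) := by
    constructor
    · rintro ⟨h1, h2⟩
      refine ⟨⟨Finset.sdiff_subset.trans h1, fun e he => ?_⟩,
        ⟨Finset.inter_subset_left.trans h1, fun e he => ?_⟩⟩
      · rw [Finset.mem_sdiff, Finset.mem_sdiff] at he
        exact Finset.mem_sdiff.mpr ⟨h2 (Finset.mem_sdiff.mpr ⟨he.1.1, he.2⟩), he.1.2⟩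
      · rw [Finset.mem_sdiff] at he
        simp only [Finset.mem_inter, E2, Finset.mem_filter]
        exact ⟨h2 (Finset.mem_sdiff.mpr ⟨hBG he.1, he.2⟩), he.1,
          fun v hv h => he.2 (mem_of_corner hv (h1 h))⟩
    · rintro ⟨⟨h1, h2⟩, h3, h4⟩
      constructor
      · intro v hv
        by_cases hvB : v ∈ IV B
        · exact h3 (Finset.mem_inter.mpr ⟨hv, hvB⟩)
        · exact h1 (Finset.mem_sdiff.mpr ⟨hv, hvB⟩)
      · intro e he
        rw [Finset.mem_sdiff] at he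
        by_cases heB : e ∈ B
        · exact (Finset.mem_inter.mp (h4 (Finset.mem_sdiff.mpr ⟨heB, he.2⟩))).1
        · exact (Finset.mem_sdiff.mp (h2 (Finset.mem_sdiff.mpr
            ⟨Finset.mem_sdiff.mpr ⟨he.1, heB⟩, he.2⟩))).1
  unfold gout Ain
  by_cases hA : T ⊆ IV F ∧ G \ F ⊆ Z
  · have hA' := hiff.1 hA
    rw [if_pos hA, if_pos hA'.1, if_pos hA'.2, one_mul, hgv, hfv]
  · rw [if_neg hA]
    by_cases h1 : T \ IV B ⊆ IV F ∧ (G \ B) \ F ⊆ Z \ B
    · rw [if_neg (fun h2 => hA (hiff.2 ⟨h1, h2⟩))]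
      ring
    · rw [if_neg h1]
      ring

theorem inTZ_one (B : Finset P2) : InTZ B (fun _ => 1) := fun _ _ _ _ => rfl

theorem env_one (c : ℝ) {F G B : Finset P2} (hF : SC F) (hFG : F ⊆ G) (hBG : B ⊆ G)
    {g : Cfg → ℝ} (hg : OffTZ B g) :
    S c F g =
      Kc F G * ∑ T1 ∈ (IV G \ IV B).powerset, ∑ Z1 ∈ (G \ B).powerset,
        fw up c (G \ B) T1 Z1 * gout F G B g T1 Z1 *
          EB c (ID G) B (eta T1 Z1) (Ain F B) := by
  have h := env c hF hFG hBG incP_one (inTZ_one B) hg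
  simp only [mul_one] at h
  exact h

theorem gout_nonneg {F G B : Finset P2} {g : Cfg → ℝ} (hg : ∀ ω, 0 ≤ g ω) (T1 : Finset P2)
    (Z1 : Finset P2) : 0 ≤ gout F G B g T1 Z1 := by
  unfold gout
  split_ifs
  · exact hg _
  · exact le_rfl

/-- Comparison of sums over environments. -/
theorem sum_env_le {c : ℝ} (hc : 1 ≤ c) {F G B : Finset P2} {g : Cfg → ℝ} (hg : ∀ ω, 0 ≤ g ω)
    {a b : BC P2 P2 → ℝ}
    (h : ∀ T1 ⊆ IV G \ IV B, ∀ Z1 ⊆ G \ B, (∀ t ∈ Z1, Cs up T1 t) →
      a (eta T1 Z1) ≤ b (eta T1 Z1)) :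
    Kc F G * ∑ T1 ∈ (IV G \ IV B).powerset, ∑ Z1 ∈ (G \ B).powerset,
        fw up c (G \ B) T1 Z1 * gout F G B g T1 Z1 * a (eta T1 Z1) ≤
      Kc F G * ∑ T1 ∈ (IV G \ IV B).powerset, ∑ Z1 ∈ (G \ B).powerset,
        fw up c (G \ B) T1 Z1 * gout F G B g T1 Z1 * b (eta T1 Z1) := by
  refine mul_le_mul_of_nonneg_left (Finset.sum_le_sum fun T1 hT1 => Finset.sum_le_sum
    fun Z1 hZ1 => ?_) (Kc_pos F G).le
  rw [Finset.mem_powerset] at hT1 hZ1
  by_cases hs : ∀ t ∈ Z1, Cs up T1 t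
  · exact mul_le_mul_of_nonneg_left (h T1 hT1 Z1 hZ1 hs)
      (mul_nonneg (fw_nonneg up hc _ _ _) (gout_nonneg hg _ _))
  · rw [fw_zero_of_not c _ _ hZ1 hs]
    simp

/-! ### comparisons -/

/-- **(D+)** Upper comparison. -/
theorem upper {c : ℝ} (hc : 1 ≤ c) {F B : Finset P2} (hF : SC F) (hB : SC B)
    (hBF : B ⊆ F) {f g : Cfg → ℝ} (hf : IncP f) (hin : InTZ B f) (hg0 : ∀ ω, 0 ≤ g ω)
    (hg : OffTZ B g) :
    E c F (fun ω => g ω * f ω) ≤ E c F g * E c B f := by
  classical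
  -- one environment
  set fB : Finset P2 → Finset P2 → Finset P2 → ℝ := fun T P M => f (mk B T P M) with hfB
  have hincB : Inc fB := mkG_inc B hf
  have hloc : ∀ T1 ⊆ IV F \ IV B, ∀ Z1 ⊆ F \ B, (∀ t ∈ Z1, Cs Zg349.up T1 t) →
      EB c (ID F) B (eta T1 Z1) fB * EB c (ID B) B (eta ∅ ∅) (fun _ _ _ => 1) ≤
        EB c (ID F) B (eta T1 Z1) (fun _ _ _ => 1) * EB c (ID B) B (eta ∅ ∅) fB := by
    intro T1 hT1 Z1 hZ1 hs
    have hle : (eta T1 Z1).Le (etaMax F B) := by
      refine ⟨Finset.empty_subset _, ?_, Finset.empty_subset _⟩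
      intro e he
      exact hZ1 (Finset.mem_filter.1 he).1
    have h1 := EB_mono hc (VA := ID F) (eta_ok hT1 hZ1) (etaMax_ok F B) hle hincB
    have h2 := EB_max c hB hBF fB
    have h3 := EB_max c hB hBF (fun _ _ _ => 1)
    have p1 := ncl_pos B ∅
    have p2 := ncl_pos F ∅
    have h4 := mul_le_mul_of_nonneg_right h1 p1.le
    have h5 : EB c (ID F) B (eta T1 Z1) fB * (ncl F ∅ *
        EB c (ID B) B (eta ∅ ∅) (fun _ _ _ => 1)) ≤
        EB c (ID F) B (eta T1 Z1) (fun _ _ _ => 1) * (ncl F ∅ *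
          EB c (ID B) B (eta ∅ ∅) fB) := by
      rw [← h2, ← h3]
      linarith
    have h6 : ncl F ∅ * (EB c (ID F) B (eta T1 Z1) fB *
        EB c (ID B) B (eta ∅ ∅) (fun _ _ _ => 1)) ≤ ncl F ∅ *
        (EB c (ID F) B (eta T1 Z1) (fun _ _ _ => 1) * EB c (ID B) B (eta ∅ ∅) fB) := by
      linarith
    exact le_of_mul_le_mul_left h6 p2
  -- drop the (trivial) restriction factor
  have hdrop : ∀ (η : BC P2 P2) (h : Cfg → ℝ),
      EB c (ID F) B η (fun T P M => Ain F B T P M * h (mk B T P M)) =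
        EB c (ID F) B η (fun T P M => h (mk B T P M)) := by
    intro η h
    apply EB_congr
    intro T hT P _ M _
    unfold Ain
    rw [if_pos ⟨hT.trans (IV_mono hBF), by
      rw [Finset.sdiff_eq_empty_iff_subset.mpr hBF]; exact Finset.empty_subset _⟩,
      one_mul]
  have hdrop1 : ∀ (η : BC P2 P2), EB c (ID F) B η (Ain F B) =
        EB c (ID F) B η (fun _ _ _ => 1) := by
    intro η
    have := hdrop η (fun _ => 1)
    simpa using this
  have s1 := env c hF (Finset.Subset.refl F) hBF hf hin hg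
  have s2 := env_one c hF (Finset.Subset.refl F) hBF hg
  simp only [hdrop] at s1
  simp only [hdrop1] at s2
  have hmain : S c F (fun ω => g ω * f ω) * EB c (ID B) B (eta ∅ ∅) (fun _ _ _ => 1) ≤
      S c F g * EB c (ID B) B (eta ∅ ∅) fB := by
    have h7 := sum_env_le hc (F := F) (G := F) (B := B) hg0
      (a := fun η => EB c (ID F) B η fB * EB c (ID B) B (eta ∅ ∅) (fun _ _ _ => 1))
      (b := fun η => EB c (ID F) B η (fun _ _ _ => 1) * EB c (ID B) B (eta ∅ ∅) fB) hloc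
    rw [s1, s2, mul_assoc, mul_assoc, Finset.sum_mul, Finset.sum_mul]
    simp only [Finset.sum_mul, mul_assoc] at h7 ⊢
    exact h7
  have hZF := Z_pos hc F
  have hZB := Z_pos hc B
  have hKB := Kc_pos B B
  have o1 : 0 < EB c (ID B) B (eta ∅ ∅) (fun _ _ _ => 1) := EB_one_pos hc (eta0_ok B)
  have hEB : E c B f = EB c (ID B) B (eta ∅ ∅) fB / EB c (ID B) B (eta ∅ ∅) (fun _ _ _ => 1) := by
    rw [E_eq_S, rep_self c hB hf.tz, Z_eq c hB]
    exact mul_div_mul_left _ _ hKB.ne'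
  rw [hEB, E_eq_S, E_eq_S, div_mul_div_comm, div_le_div_iff₀ hZF (mul_pos hZF o1)]
  nlinarith [mul_le_mul_of_nonneg_left hmain hZF.le]

theorem EB_nonneg {c : ℝ} (hc : 1 ≤ c) {VA B : Finset P2} {η : BC P2 P2}
    {f : Finset P2 → Finset P2 → Finset P2 → ℝ} (hf : ∀ T P M, 0 ≤ f T P M) :
    0 ≤ EB c VA B η f := by
  unfold EB En
  refine Finset.sum_nonneg fun T _ => Finset.sum_nonneg fun M _ => Finset.sum_nonneg
    fun P _ => ?_
  exact mul_nonneg (mul_nonneg (aw_nonneg _ _ hc _ _ _) (aw_nonneg _ _ hc _ _ _)) (hf _ _ _)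

/-- **(D-)** Lower comparison (`B` in arbitrary position). -/
theorem lower {c : ℝ} (hc : 1 ≤ c) {F B : Finset P2} (hF : SC F) (hB : SC B)
    {f g : Cfg → ℝ} (hf : IncP f) (hin : InTZ B f) (hg0 : ∀ ω, 0 ≤ g ω)
    (hg : OffTZ B g) :
    E c F g * E c B (fun ω => f (addH 2 ω)) ≤ E c F (fun ω => g ω * f ω) := by
  classical
  obtain ⟨G, hFG, hG⟩ := exists_big F B hB
  have hBG := hG.sub
  have hIV : IV B ⊆ IV G := IV_mono hBG
  set fB : Finset P2 → Finset P2 → Finset P2 → ℝ := fun T P M => f (mk B T P M) with hfB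
  have hincB : Inc fB := mkG_inc B hf
  set mf := EB c (ID G) B (etaMin G B) fB with hmf
  set m1 := EB c (ID G) B (etaMin G B) (fun _ _ _ => 1) with hm1
  have hm1pos : 0 < m1 := EB_one_pos hc (etaMin_ok G B)
  have hloc : ∀ T1 ⊆ IV G \ IV B, ∀ Z1 ⊆ G \ B, (∀ t ∈ Z1, Cs up T1 t) →
      EB c (ID G) B (eta T1 Z1) (Ain F B) * mf ≤
        EB c (ID G) B (eta T1 Z1) (fun T P M => Ain F B T P M * fB T P M) * m1 := by
    intro T1 hT1 Z1 hZ1 hs
    have hle : (etaMin G B).Le (eta T1 Z1) := by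
      refine ⟨hT1, Finset.empty_subset _, ?_⟩
      intro e he
      have h1 := Finset.mem_filter.1 he
      refine Finset.mem_filter.2 ⟨hZ1 h1.1, fun v hv => ?_⟩
      exact (Finset.mem_sdiff.1 (hT1 (cs_minus (hs e h1.1) h1.2 v hv))).1
    have hok := eta_ok (B := B) (G := G) hT1 hZ1
    have h1 := EB_mono hc (VA := ID G) (etaMin_ok G B) hok hle hincB
    have h2 := EB_fkg hc (VA := ID G) hok (Ain_inc F B) hincB
    have o1 : 0 < EB c (ID G) B (eta T1 Z1) (fun _ _ _ => 1) := EB_one_pos hc hok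
    have hA : 0 ≤ EB c (ID G) B (eta T1 Z1) (Ain F B) := EB_nonneg hc (Ain_nonneg F B)
    set o := EB c (ID G) B (eta T1 Z1) (fun _ _ _ => 1)
    set a := EB c (ID G) B (eta T1 Z1) (Ain F B)
    set b := EB c (ID G) B (eta T1 Z1) fB
    set d := EB c (ID G) B (eta T1 Z1) (fun T P M => Ain F B T P M * fB T P M)
    -- h1 : mf * o ≤ m1 * b ; h2 : a * b ≤ o * d
    have h3 : a * (mf * o) ≤ a * (m1 * b) := mul_le_mul_of_nonneg_left h1 hA
    have h4 : m1 * (a * b) ≤ m1 * (o * d) := mul_le_mul_of_nonneg_left h2 hm1pos.le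
    have h5 : o * (a * mf) ≤ o * (d * m1) := by linarith
    exact le_of_mul_le_mul_left h5 o1
  have s1 := env c hF hFG hBG hf hin hg
  have s2 := env_one c hF hFG hBG hg
  have hmain : S c F g * mf ≤ S c F (fun ω => g ω * f ω) * m1 := by
    have h7 := sum_env_le hc (F := F) (G := G) (B := B) hg0
      (a := fun η => EB c (ID G) B η (Ain F B) * mf)
      (b := fun η => EB c (ID G) B η (fun T P M => Ain F B T P M * fB T P M) * m1) hloc
    rw [s1, s2, mul_assoc, mul_assoc, Finset.sum_mul, Finset.sum_mul]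
    simp only [Finset.sum_mul, mul_assoc] at h7 ⊢
    exact h7
  have e1 := EB_min c hG hB hf hin
  have e2 := EB_min c hG hB incP_one (inTZ_one B)
  rw [S_one] at e2
  have hZF := Z_pos hc F
  have hZB := Z_pos hc B
  have hn := Nm_pos B
  have hk := Kmin_pos G B
  have hnw := ncl_pos G ∅
  have hratio : E c B (fun ω => f (addH 2 ω)) = mf / m1 := by
    rw [E_eq_S, div_eq_div_iff hZB.ne' hm1pos.ne']
    have h8 : (ncl G ∅ * Kmin G B) * Nm B * (S c B (fun ω => f (addH 2 ω)) * m1) =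
        (ncl G ∅ * Kmin G B) * Nm B * (mf * Z c B) := by
      calc _ = (ncl G ∅ * Kmin G B * S c B (fun ω => f (addH 2 ω))) * (m1 * Nm B) := by ring
        _ = (mf * Nm B) * (ncl G ∅ * Kmin G B * Z c B) := by rw [← e1, e2]
        _ = _ := by ring
    exact mul_left_cancel₀ (by positivity) h8
  rw [hratio, E_eq_S, E_eq_S, div_mul_div_comm, div_le_div_iff₀ (mul_pos hZF hm1pos) hZF]
  nlinarith [mul_le_mul_of_nonneg_left hmain hZF.le]

end Crest.Agent.R144.Zf349
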