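import Crest.Agent.R144.Zg_349
import Crest.Agent.R144.HyC_349
import Crest.Agent.R161.KWabs_729

/-!
# R144: Kramers–Wannier duality for triple hyperedges (helper349)

* `tri_kw` : abstract duality, the only input is exactness;
* `kw_F` : duality on a simply connected finite set `F` of up triangles, for arbitrary weights
  (`A t + 3 B t` if the sites spins are constant on `t`, `A t - B t` if not ↔ `A t` if the down-triangle spins
  around `t` are constant, `B t` if not);
* `count_F` : number of sign functions of the sites constant on the triangles of `F \ Z`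
  `= 2^|VF| / 4^|F \ Z| * psi dn (ID F) Z ∅`.
-/

set_option autoImplicit false
set_option linter.unusedSectionVars false
set_option linter.unusedSimpArgs false

namespace Crest.Agent.R144.Zk349

open Finset
open Crest.Agent.R144.It844 (P2)
open Crest.Agent.R144.Zg349
open Crest.Agent.R144.HyA349 Crest.Agent.R144.HyB349 Crest.Agent.R144.HyC349
open Crest.Agent.R161.KWabs729 (sgz sgz_zero sgz_one z2_cases sgz_add sgz_sum sum_sgz_char)

/-- the three values agree -/
def M3 {α : Type*} (c : Fin 3 → α) (s : α → ZMod 2) : Prop := s (c 0) = s (c 1) ∧ s (c 0) = s (c 2)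

instance {α : Type*} (c : Fin 3 → α) (s : α → ZMod 2) : Decidable (M3 c s) := by
  unfold M3; infer_instance

/-- pattern of a dual spin function around a hyperedge -/
def dQ {β : Type*} (d : Fin 3 → β) (σ : β → ZMod 2) : ZMod 2 × ZMod 2 :=
  (σ (d 0) + σ (d 2), σ (d 0) + σ (d 1))

theorem dQ_add {β : Type*} (d : Fin 3 → β) (σ τ : β → ZMod 2) :
    dQ d (σ + τ) = dQ d σ + dQ d τ := by
  unfold dQ
  refine Prod.ext ?_ ?_
  · simp only [Pi.add_apply, Prod.fst_add]; ring
  · simp only [Pi.add_apply, Prod.snd_add]; ring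

theorem dQ_eq_zero {β : Type*} {d : Fin 3 → β} {σ : β → ZMod 2} : dQ d σ = 0 ↔ M3 d σ := by
  unfold dQ M3
  rw [Prod.ext_iff]
  simp only [Prod.fst_zero, Prod.snd_zero]
  generalize σ (d 0) = x
  generalize σ (d 1) = y
  generalize σ (d 2) = z
  revert x y z
  decide

section abs

variable {U α β : Type*} [Fintype U] [DecidableEq U]

/-- pairing of a pattern with a spin function -/
def pr (c : U → Fin 3 → α) (H : U → ZMod 2 × ZMod 2) (s : α → ZMod 2) : ZMod 2 :=
  ∑ t, ((H t).1 * (s (c t 0) + s (c t 1)) + (H t).2 * (s (c t 0) + s (c t 2)))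

theorem pp_add_self (x : ZMod 2 × ZMod 2) : x + x = 0 := by revert x; decide

theorem fun_add_self {β : Type*} (σ τ : β → ZMod 2) : σ + τ + τ = σ := by
  funext b
  simp only [Pi.add_apply]
  generalize σ b = x
  generalize τ b = y
  revert x y
  decide

/-- **Abstract Kramers–Wannier duality for triples.** -/
theorem tri_kw (c : U → Fin 3 → α) (d : U → Fin 3 → β) (X : Finset (α → ZMod 2))
    (Y : Finset (β → ZMod 2)) (hX0 : (0 : α → ZMod 2) ∈ X) (hY0 : (0 : β → ZMod 2) ∈ Y)
    (hXadd : ∀ x ∈ X, ∀ y ∈ X, x + y ∈ X) (hYadd : ∀ x ∈ Y, ∀ y ∈ Y, x + y ∈ Y)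
    (exact : ∀ H : U → ZMod 2 × ZMod 2, (∀ s ∈ X, pr c H s = 0) →
      ∃ σ ∈ Y, ∀ t, dQ (d t) σ = H t)
    (orth : ∀ σ ∈ Y, ∀ s ∈ X, pr c (fun t => dQ (d t) σ) s = 0) (A B : U → ℝ) :
    ∑ s ∈ X, ∏ t, (if M3 (c t) s then A t + 3 * B t else A t - B t) =
      (X.card : ℝ) / ((Y.filter fun σ => ∀ t, M3 (d t) σ).card : ℝ) *
        ∑ σ ∈ Y, ∏ t, (if M3 (d t) σ then A t else B t) := by
  classical
  have hneg : ∀ x ∈ X, -x ∈ X := by
    intro x hx
    have : -x = x := by
      funext v
      show -(x v) = x v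
      generalize x v = y
      revert y
      decide
    rwa [this]
  let w : U → ZMod 2 × ZMod 2 → ℝ := fun t x => if x = 0 then A t else B t
  let dS : (β → ZMod 2) → (U → ZMod 2 × ZMod 2) := fun σ t => dQ (d t) σ
  have hL : ∀ σ : β → ZMod 2, ∏ t, (if M3 (d t) σ then A t else B t) = ∏ t, w t (dS σ t) := by
    intro σ
    refine Finset.prod_congr rfl fun t _ => ?_
    simp only [w, dS]
    by_cases h : M3 (d t) σ
    · rw [if_pos h, if_pos (dQ_eq_zero.2 h)]
    · rw [if_neg h, if_neg (fun h' => h (dQ_eq_zero.1 h'))]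
  set ker : ℝ := ((Y.filter fun σ => ∀ t, M3 (d t) σ).card : ℝ) with hker
  have hkerpos : ker ≠ 0 := by
    rw [hker]
    have : 0 < (Y.filter fun σ => ∀ t, M3 (d t) σ).card :=
      Finset.card_pos.2 ⟨0, Finset.mem_filter.2 ⟨hY0, fun t => ⟨rfl, rfl⟩⟩⟩
    exact Nat.cast_ne_zero.mpr this.ne'
  have hXc : (X.card : ℝ) ≠ 0 := by
    have : 0 < X.card := Finset.card_pos.mpr ⟨0, hX0⟩
    exact Nat.cast_ne_zero.mpr this.ne'
  -- counting fibres
  have hcard : ∀ H : U → ZMod 2 × ZMod 2, ((Y.filter (fun σ => dS σ = H)).card : ℝ)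
      = ker / X.card * ∑ s ∈ X, sgz (pr c H s) := by
    intro H
    rw [sum_sgz_char X hXadd hneg (pr c H) (by
      intro x _ y _
      simp only [pr, Pi.add_apply]
      rw [← Finset.sum_add_distrib]
      refine Finset.sum_congr rfl fun t _ => ?_
      ring)]
    split_ifs with h
    · obtain ⟨σ0, hσ0Y, hσ0⟩ := exact H h
      rw [div_mul_cancel₀ _ hXc, hker]
      norm_cast
      refine Finset.card_bij' (fun s _ => s + σ0) (fun s _ => s + σ0) ?_ ?_ ?_ ?_
      · intro s hs
        rw [Finset.mem_filter] at hs ⊢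
        refine ⟨hYadd _ hs.1 _ hσ0Y, fun t => ?_⟩
        have h1 := congrFun hs.2 t
        simp only [dS] at h1
        rw [← dQ_eq_zero, dQ_add, h1, hσ0 t, pp_add_self]
      · intro s hs
        rw [Finset.mem_filter] at hs ⊢
        refine ⟨hYadd _ hs.1 _ hσ0Y, ?_⟩
        funext t
        simp only [dS]
        rw [dQ_add, dQ_eq_zero.2 (hs.2 t), hσ0 t, zero_add]
      · intro s _
        exact fun_add_self s σ0
      · intro s _
        exact fun_add_self s σ0
    · rw [mul_zero, Nat.cast_eq_zero, Finset.card_eq_zero, Finset.filter_eq_empty_iff]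
      intro σ hσ hs
      apply h
      intro s hs'
      rw [← hs]
      exact orth σ hσ s hs'
  have huniv : (univ : Finset (ZMod 2 × ZMod 2)) = {(0, 0), (0, 1), (1, 0), (1, 1)} := by decide
  have main : ∑ σ ∈ Y, ∏ t, (if M3 (d t) σ then A t else B t) = ker / X.card *
      ∑ s ∈ X, ∏ t, (if M3 (c t) s then A t + 3 * B t else A t - B t) := by
    calc ∑ σ ∈ Y, ∏ t, (if M3 (d t) σ then A t else B t)
        = ∑ σ ∈ Y, ∏ t, w t (dS σ t) := Finset.sum_congr rfl fun σ _ => hL σ
      _ = ∑ H : U → ZMod 2 × ZMod 2, ∑ σ ∈ Y.filter (fun σ => dS σ = H),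
            ∏ t, w t (dS σ t) := (Finset.sum_fiberwise _ _ _).symm
      _ = ∑ H : U → ZMod 2 × ZMod 2, ((Y.filter (fun σ => dS σ = H)).card : ℝ) *
            ∏ t, w t (H t) := by
          refine Finset.sum_congr rfl fun H _ => ?_
          rw [← nsmul_eq_mul, ← Finset.sum_const]
          refine Finset.sum_congr rfl fun σ hσ => ?_
          rw [(Finset.mem_filter.mp hσ).2]
      _ = ∑ H : U → ZMod 2 × ZMod 2, ker / X.card * ∑ s ∈ X, ∏ t,
            (sgz ((H t).1 * (s (c t 0) + s (c t 1)) + (H t).2 * (s (c t 0) + s (c t 2))) *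
            w t (H t)) := by
          refine Finset.sum_congr rfl fun H _ => ?_
          rw [hcard, mul_assoc, Finset.sum_mul]
          congr 1
          refine Finset.sum_congr rfl fun s _ => ?_
          rw [pr, sgz_sum, Finset.prod_mul_distrib]
      _ = ker / X.card * ∑ s ∈ X, ∑ H : U → ZMod 2 × ZMod 2, ∏ t,
            (sgz ((H t).1 * (s (c t 0) + s (c t 1)) + (H t).2 * (s (c t 0) + s (c t 2))) *
            w t (H t)) := by
          rw [← Finset.mul_sum, Finset.sum_comm]
      _ = ker / X.card * ∑ s ∈ X, ∏ t, (if M3 (c t) s then A t + 3 * B t else A t - B t) := by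
          congr 1
          refine Finset.sum_congr rfl fun s _ => ?_
          have := Finset.prod_univ_sum (fun _ : U => (univ : Finset (ZMod 2 × ZMod 2)))
            (fun t x => sgz (x.1 * (s (c t 0) + s (c t 1)) + x.2 * (s (c t 0) + s (c t 2))) *
              w t x)
          rw [Fintype.piFinset_univ] at this
          rw [← this]
          refine Finset.prod_congr rfl fun t _ => ?_
          rw [huniv, Finset.sum_insert (by decide), Finset.sum_insert (by decide),
            Finset.sum_insert (by decide), Finset.sum_singleton]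
          have e1 : ((0, 1) : ZMod 2 × ZMod 2) ≠ 0 := by decide
          have e2 : ((1, 0) : ZMod 2 × ZMod 2) ≠ 0 := by decide
          have e3 : ((1, 1) : ZMod 2 × ZMod 2) ≠ 0 := by decide
          have e0 : ((0, 0) : ZMod 2 × ZMod 2) = 0 := rfl
          simp only [w, e0, if_true, if_neg e1, if_neg e2, if_neg e3, Prod.fst_zero, Prod.snd_zero,
            zero_mul, one_mul, zero_add, add_zero, sgz_zero]
          have key : ∀ x y z : ZMod 2, (x = y ∧ x = z → x + y = 0 ∧ x + z = 0) ∧
              (¬ (x = y ∧ x = z) → (x + y = 0 ∧ x + z = 1) ∨ (x + y = 1 ∧ x + z = 0) ∨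
                (x + y = 1 ∧ x + z = 1)) := by decide
          obtain ⟨k1, k2⟩ := key (s (c t 0)) (s (c t 1)) (s (c t 2))
          by_cases h : M3 (c t) s
          · rw [if_pos h, (k1 h).1, (k1 h).2, add_zero, sgz_zero]
            ring
          · rw [if_neg h]
            rcases k2 h with ⟨h1, h2⟩ | ⟨h1, h2⟩ | ⟨h1, h2⟩
            · rw [h1, h2, zero_add, sgz_zero, sgz_one]; ring
            · rw [h1, h2, add_zero, sgz_zero, sgz_one]; ring
            · rw [h1, h2, show (1 : ZMod 2) + 1 = 0 by decide, sgz_zero, sgz_one]; ring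
  rw [main]
  field_simp

end abs

/-! ### finite families of spin functions -/

/-- indicator of a finite set as a `ZMod 2` function -/
def ch (B : Finset P2) (v : P2) : ZMod 2 := if v ∈ B then 1 else 0

theorem ch_inj : Function.Injective ch := by
  intro A B h
  ext v
  have := congrFun h v
  unfold ch at this
  by_cases h1 : v ∈ A <;> by_cases h2 : v ∈ B <;> simp [h1, h2] at this ⊢

open Classical in
/-- spin functions supported in `A` -/
noncomputable def fs (A : Finset P2) : Finset (P2 → ZMod 2) := A.powerset.image ch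

theorem mem_fs {A : Finset P2} {s : P2 → ZMod 2} : s ∈ fs A ↔ ∀ v, v ∉ A → s v = 0 := by
  classical
  unfold fs
  rw [Finset.mem_image]
  constructor
  · rintro ⟨B, hB, rfl⟩ v hv
    unfold ch
    rw [if_neg fun h => hv (Finset.mem_powerset.1 hB h)]
  · intro h
    refine ⟨A.filter fun v => s v = 1, by simp, ?_⟩
    funext v
    unfold ch
    by_cases hv : v ∈ A
    · rcases z2_cases (s v) with h0 | h0
      · rw [h0, if_neg]
        simp [h0]
      · rw [h0, if_pos]
        simp [h0, hv]
    · rw [h v hv, if_neg]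
      simp [hv]

theorem sum_fs {M : Type*} [AddCommMonoid M] (A : Finset P2) (f : (P2 → ZMod 2) → M) :
    ∑ s ∈ fs A, f s = ∑ B ∈ A.powerset, f (ch B) := by
  classical
  unfold fs
  rw [Finset.sum_image fun x _ y _ h => ch_inj h]

theorem card_fs (A : Finset P2) : (fs A).card = 2 ^ A.card := by
  classical
  unfold fs
  rw [Finset.card_image_of_injective _ ch_inj, Finset.card_powerset]

theorem zero_mem_fs (A : Finset P2) : (0 : P2 → ZMod 2) ∈ fs A := mem_fs.2 fun _ _ => rfl

theorem add_mem_fs (A : Finset P2) : ∀ x ∈ fs A, ∀ y ∈ fs A, x + y ∈ fs A := by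
  intro x hx y hy
  rw [mem_fs] at *
  intro v hv
  rw [Pi.add_apply, hx v hv, hy v hv, add_zero]

/-! ### duality on a simply connected set of up triangles -/

/-- rearrangement of the pairing -/
theorem pr_eq (F : Finset P2) (q : P2 → ZMod 2 × ZMod 2) (hq : ∀ t, t ∉ F → q t = 0)
    (s : P2 → ZMod 2) :
    pr (fun t : ↥F => cr (t : P2)) (fun t => q t) s = ∑ v ∈ VF F, defect q v * s v := by
  classical
  unfold pr
  rw [Finset.sum_coe_sort F (fun t => (q t).1 * (s (cr t 0) + s (cr t 1)) +
    (q t).2 * (s (cr t 0) + s (cr t 2)))]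
  have hsup : ∀ (g : P2 → ZMod 2) (W : Finset P2), F ⊆ W → (∀ t, t ∉ F → g t = 0) →
      ∑ t ∈ F, g t = ∑ t ∈ W, g t := fun g W hW hg =>
    Finset.sum_subset hW fun t _ ht => hg t ht
  have hF0 : F ⊆ VF F := fun t ht => mem_VF'.2 (Or.inl ht)
  -- shift by e1
  have s1 : ∑ t ∈ F, (q t).1 * s (cr t 1) = ∑ v ∈ VF F, (q (v.1 - 1, v.2)).1 * s v := by
    have h1 : F.image (fun t => ((t.1 + 1, t.2) : P2)) ⊆ VF F := by
      intro v hv
      obtain ⟨t, ht, rfl⟩ := Finset.mem_image.1 hv
      exact mem_VF'.2 (Or.inr (Or.inl (by simpa using ht)))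
    rw [← Finset.sum_subset h1 fun v _ hv => ?_, Finset.sum_image]
    · refine Finset.sum_congr rfl fun t _ => ?_
      simp
    · intro x _ y _ h
      simp only [Prod.mk.injEq] at h
      exact Prod.ext (by omega) h.2
    · have : q (v.1 - 1, v.2) = 0 := hq _ fun h => hv (Finset.mem_image.2 ⟨_, h, by simp⟩)
      rw [this]; simp
  have s2 : ∑ t ∈ F, (q t).2 * s (cr t 2) = ∑ v ∈ VF F, (q (v.1, v.2 - 1)).2 * s v := by
    have h1 : F.image (fun t => ((t.1, t.2 + 1) : P2)) ⊆ VF F := by
      intro v hv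
      obtain ⟨t, ht, rfl⟩ := Finset.mem_image.1 hv
      exact mem_VF'.2 (Or.inr (Or.inr (by simpa using ht)))
    rw [← Finset.sum_subset h1 fun v _ hv => ?_, Finset.sum_image]
    · refine Finset.sum_congr rfl fun t _ => ?_
      simp
    · intro x _ y _ h
      simp only [Prod.mk.injEq] at h
      exact Prod.ext h.1 (by omega)
    · have : q (v.1, v.2 - 1) = 0 := hq _ fun h => hv (Finset.mem_image.2 ⟨_, h, by simp⟩)
      rw [this]; simp
  have s0 : ∑ t ∈ F, ((q t).1 + (q t).2) * s (cr t 0) = ∑ v ∈ VF F, ((q v).1 + (q v).2) * s v := by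
    refine hsup _ _ hF0 fun t ht => ?_
    rw [hq t ht]; simp
  calc ∑ t ∈ F, ((q t).1 * (s (cr t 0) + s (cr t 1)) + (q t).2 * (s (cr t 0) + s (cr t 2)))
      = ∑ t ∈ F, ((q t).1 + (q t).2) * s (cr t 0) + ∑ t ∈ F, (q t).1 * s (cr t 1) +
          ∑ t ∈ F, (q t).2 * s (cr t 2) := by
        rw [← Finset.sum_add_distrib, ← Finset.sum_add_distrib]
        refine Finset.sum_congr rfl fun t _ => ?_
        ring
    _ = _ := by
        rw [s0, s1, s2, ← Finset.sum_add_distrib, ← Finset.sum_add_distrib]
        refine Finset.sum_congr rfl fun v _ => ?_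
        unfold defect
        ring

/-- **Kramers–Wannier duality on a simply connected set of up triangles.** -/
theorem kw_F {F : Finset P2} (hF : SC F) (A B : P2 → ℝ) :
    ∑ S ∈ (VF F).powerset, ∏ t ∈ F, (if M3 (cr t) (ch S) then A t + 3 * B t else A t - B t) =
      2 ^ (VF F).card *
        ∑ σ ∈ (ID F).powerset, ∏ t ∈ F, (if M3 (dn t) (ch σ) then A t else B t) := by
  classical
  have h := tri_kw (U := ↥F) (fun t => cr (t : P2)) (fun t => dn (t : P2)) (fs (VF F)) (fs (ID F))
    (zero_mem_fs _) (zero_mem_fs _) (add_mem_fs _) (add_mem_fs _) ?_ ?_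
    (fun t => A t) (fun t => B t)
  · rw [sum_fs, sum_fs, card_fs] at h
    have hN : ((fs (ID F)).filter fun σ => ∀ t : ↥F, M3 (dn (t : P2)) σ) = {0} := by
      ext σ
      rw [Finset.mem_filter, mem_fs, Finset.mem_singleton]
      constructor
      · rintro ⟨h1, h2⟩
        have h3 : ∀ t, ∀ i, σ (dn t i) = σ t := by
          intro t i
          by_cases ht : t ∈ F
          · obtain ⟨h4, h5⟩ := h2 ⟨t, ht⟩
            fin_cases i
            · rfl
            · exact h4.symm
            · exact h5.symm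
          · have hk : ∀ j, σ (dn t j) = 0 := fun j => h1 _ fun h => ht ((mem_ID'.1 h) t j rfl)
            rw [hk i]
            exact (hk 0).symm
        -- constant along rows, hence zero
        have h4 : ∀ n : ℕ, ∀ v : P2, σ v = σ (v.1 - n, v.2) := by
          intro n
          induction n with
          | zero => intro v; simp
          | succ n ih =>
            intro v
            rw [ih v]
            have := h3 (v.1 - n, v.2) 1
            simp only [dn1] at this
            rw [← this]
            congr 2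
            push_cast
            ring
        funext v
        have hinj : Function.Injective fun n : ℕ => ((v.1 - (n : ℤ), v.2) : P2) := by
          intro a b hab
          simp only [Prod.mk.injEq, and_true] at hab
          omega
        obtain ⟨n, hn⟩ : ∃ n : ℕ, ((v.1 - (n : ℤ), v.2) : P2) ∉ ID F := by
          by_contra hcon
          push Not at hcon
          have : (Set.range fun n : ℕ => ((v.1 - (n : ℤ), v.2) : P2)).Finite :=
            (ID F : Set P2).toFinite.subset (by
              rintro _ ⟨n, rfl⟩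
              exact hcon n)
          exact Set.infinite_range_of_injective hinj this
        rw [h4 n v, h1 _ hn]
        rfl
      · rintro rfl
        exact ⟨fun _ _ => rfl, fun t => ⟨rfl, rfl⟩⟩
    rw [hN, Finset.card_singleton] at h
    have c1 : ∀ (G : P2 → ℝ), ∏ t : ↥F, G (t : P2) = ∏ t ∈ F, G t := fun G =>
      Finset.prod_coe_sort F G
    have e1 : ∀ S : Finset P2,
        ∏ t : ↥F, (if M3 (cr (t : P2)) (ch S) then A t + 3 * B t else A t - B t) =
        ∏ t ∈ F, (if M3 (cr t) (ch S) then A t + 3 * B t else A t - B t) := fun S =>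
      c1 fun t => if M3 (cr t) (ch S) then A t + 3 * B t else A t - B t
    have e2 : ∀ S : Finset P2,
        ∏ t : ↥F, (if M3 (dn (t : P2)) (ch S) then A t else B t) =
        ∏ t ∈ F, (if M3 (dn t) (ch S) then A t else B t) := fun S =>
      c1 fun t => if M3 (dn t) (ch S) then A t else B t
    rw [Finset.sum_congr rfl fun S _ => e1 S, Finset.sum_congr rfl fun S _ => e2 S] at h
    rw [h]
    push_cast
    ring
  · -- exactness
    intro H hH
    let q : P2 → ZMod 2 × ZMod 2 := fun t => if h : t ∈ F then H ⟨t, h⟩ else 0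
    have hq0 : ∀ t, t ∉ F → q t = 0 := fun t ht => dif_neg ht
    have hqH : ∀ t : ↥F, q t = H t := fun t => dif_pos t.2
    have hpr : ∀ s, pr (fun t : ↥F => cr (t : P2)) H s = ∑ v ∈ VF F, defect q v * s v := by
      intro s
      rw [← pr_eq F q hq0 s]
      unfold pr
      refine Finset.sum_congr rfl fun t _ => ?_
      simp only [hqH]
    obtain ⟨σ, h1, h2⟩ := exact_F hF q hq0 fun v => by
      by_cases hv : v ∈ VF F
      · have h3 := hH (ch {v}) (mem_fs.2 fun u hu => by
          unfold ch
          rw [if_neg]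
          rw [Finset.mem_singleton]
          rintro rfl
          exact hu hv)
        rw [hpr, Finset.sum_eq_single v] at h3
        · simpa [ch] using h3
        · intro u _ hu
          unfold ch
          rw [if_neg (by simpa using hu), mul_zero]
        · intro h
          exact absurd hv h
      · rw [mem_VF'] at hv
        push Not at hv
        unfold defect
        rw [hq0 _ hv.1, hq0 _ hv.2.1, hq0 _ hv.2.2]
        simp
    refine ⟨σ, mem_fs.2 h2, fun t => ?_⟩
    rw [← hqH t, ← h1]
    rfl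
  · -- orthogonality
    intro σ hσ s _
    have hσ' := mem_fs.1 hσ
    have h1 : ∀ t, t ∉ F → dq σ t = 0 := by
      intro t ht
      have hk : ∀ j, σ (dn t j) = 0 := fun j => hσ' _ fun h => ht ((mem_ID'.1 h) t j rfl)
      unfold dq
      rw [hk 0, hk 1, hk 2]
      rfl
    have h2 := pr_eq F (dq σ) h1 s
    have h3 : pr (fun t : ↥F => cr (t : P2)) (fun t => dQ (dn (t : P2)) σ) s =
        pr (fun t : ↥F => cr (t : P2)) (fun t => dq σ t) s := rfl
    rw [h3, h2]
    refine Finset.sum_eq_zero fun v _ => ?_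
    rw [defect_dq, zero_mul]

/-! ### counting -/

/-- `psi` as a sum over finite sets of minus down triangles -/
theorem psi_eq (VA : Finset P2) (c : ℝ) (D : Finset P2) :
    psi dn VA c D ∅ = ∑ B ∈ VA.powerset, ∏ t ∈ D, (if M3 (dn t) (ch B) then (1 : ℝ) else 0) := by
  classical
  unfold psi
  simp only [Finset.prod_empty, mul_one]
  let toB : (↥VA → ℤˣ) → Finset P2 := fun σ =>
    Finset.image (fun v : ↥VA => (v : P2)) (Finset.univ.filter fun v : ↥VA => σ v = -1)
  have hmem : ∀ σ v, v ∈ toB σ ↔ ∃ h : v ∈ VA, σ ⟨v, h⟩ = -1 := by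
    intro σ v
    simp only [toB]
    rw [Finset.mem_image]
    constructor
    · rintro ⟨w, h1, rfl⟩
      exact ⟨w.2, (Finset.mem_filter.1 h1).2⟩
    · rintro ⟨h, h1⟩
      exact ⟨⟨v, h⟩, Finset.mem_filter.2 ⟨Finset.mem_univ _, h1⟩, rfl⟩
  refine Finset.sum_bij' (fun σ _ => toB σ)
    (fun B _ => fun v : ↥VA => if (v : P2) ∈ B then -1 else 1) ?_ ?_ ?_ ?_ ?_
  · intro σ _
    rw [Finset.mem_powerset]
    intro v hv
    exact ((hmem σ v).1 hv).1
  · intro B _
    exact Finset.mem_univ _
  · intro σ _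
    funext v
    simp only [hmem]
    by_cases h : σ v = -1
    · rw [if_pos ⟨v.2, h⟩, h]
    · rw [if_neg]
      · exact ((Int.units_eq_one_or (σ v)).resolve_right h).symm
      · rintro ⟨_, h'⟩
        exact h h'
  · intro B hB
    ext v
    rw [hmem]
    constructor
    · rintro ⟨h, h1⟩
      by_contra h2
      simp [h2] at h1
    · intro h
      exact ⟨Finset.mem_powerset.1 hB h, by simp [h]⟩
  · intro σ _
    refine Finset.prod_congr rfl fun t _ => ?_
    have key : ∀ v, ch (toB σ) v = if sp VA σ v = 1 then 0 else 1 := by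
      intro v
      unfold ch sp
      by_cases hv : v ∈ VA
      · rw [dif_pos hv]
        rcases Int.units_eq_one_or (σ ⟨v, hv⟩) with h1 | h1
        · rw [if_neg, if_pos h1]
          rw [hmem]
          rintro ⟨_, h2⟩
          rw [h1] at h2
          exact absurd h2 (by decide)
        · rw [if_pos ((hmem σ v).2 ⟨hv, h1⟩), if_neg]
          rw [h1]; decide
      · rw [dif_neg hv, if_neg, if_pos rfl]
        rw [hmem]
        rintro ⟨h, _⟩
        exact hv h
    have h2 : Mono dn VA σ t ↔ M3 (dn t) (ch (toB σ)) := by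
      unfold Mono M3
      rw [key, key, key]
      rcases Int.units_eq_one_or (sp VA σ (dn t 0)) with h0 | h0 <;>
        rcases Int.units_eq_one_or (sp VA σ (dn t 1)) with h1 | h1 <;>
        rcases Int.units_eq_one_or (sp VA σ (dn t 2)) with h2 | h2 <;>
        rw [h0, h1, h2] <;> decide
    unfold hd
    by_cases h : Mono dn VA σ t
    · rw [if_pos h, if_pos (h2.1 h)]
    · rw [if_neg h, if_neg (fun h' => h (h2.2 h'))]

/-- number of (exponentiated) closed clusters: sign functions of the interior down triangles constant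
around every triangle of `Z` -/
noncomputable def ncl (F Z : Finset P2) : ℝ := psi dn (ID F) 1 Z ∅

theorem psi_ncl (c : ℝ) (F Z : Finset P2) : psi dn (ID F) c Z ∅ = ncl F Z := by
  unfold ncl psi
  simp only [Finset.prod_empty]

theorem ncl_pos (F Z : Finset P2) : 0 < ncl F Z := psi_pos _ _ le_rfl _ _

/-- **Counting**: sign functions of the sites constant on every triangle of `F \ Z`. -/
theorem count_F {F : Finset P2} (hF : SC F) {Z : Finset P2} (hZ : Z ⊆ F) :
    ∑ S ∈ (VF F).powerset, ∏ t ∈ F \ Z, (if M3 (cr t) (ch S) then (1 : ℝ) else 0) =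
      2 ^ (VF F).card / 4 ^ (F \ Z).card * ncl F Z := by
  have h := kw_F hF (fun t => if t ∈ Z then 1 else 1 / 4) (fun t => if t ∈ Z then 0 else 1 / 4)
  have e1 : ∀ S : Finset P2, ∏ t ∈ F, (if M3 (cr t) (ch S) then
      (if t ∈ Z then (1 : ℝ) else 1 / 4) + 3 * (if t ∈ Z then (0 : ℝ) else 1 / 4) else
      (if t ∈ Z then (1 : ℝ) else 1 / 4) - (if t ∈ Z then (0 : ℝ) else 1 / 4)) =
      ∏ t ∈ F \ Z, (if M3 (cr t) (ch S) then (1 : ℝ) else 0) := by
    intro S
    rw [← Finset.prod_inter_mul_prod_sdiff F Z]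
    have h1 : ∏ t ∈ F ∩ Z, (if M3 (cr t) (ch S) then
      (if t ∈ Z then (1 : ℝ) else 1 / 4) + 3 * (if t ∈ Z then (0 : ℝ) else 1 / 4) else
      (if t ∈ Z then (1 : ℝ) else 1 / 4) - (if t ∈ Z then (0 : ℝ) else 1 / 4)) = 1 := by
      refine Finset.prod_eq_one fun t ht => ?_
      rw [if_pos (Finset.mem_inter.1 ht).2, if_pos (Finset.mem_inter.1 ht).2]
      split_ifs <;> norm_num
    rw [h1, one_mul]
    refine Finset.prod_congr rfl fun t ht => ?_
    rw [if_neg (Finset.mem_sdiff.1 ht).2, if_neg (Finset.mem_sdiff.1 ht).2]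
    split_ifs <;> norm_num
  have e2 : ∀ B : Finset P2, ∏ t ∈ F, (if M3 (dn t) (ch B) then
      (if t ∈ Z then (1 : ℝ) else 1 / 4) else (if t ∈ Z then (0 : ℝ) else 1 / 4)) =
      (1 / 4) ^ (F \ Z).card * ∏ t ∈ Z, (if M3 (dn t) (ch B) then (1 : ℝ) else 0) := by
    intro B
    rw [← Finset.prod_inter_mul_prod_sdiff F Z, Finset.inter_eq_right.2 hZ, mul_comm]
    congr 1
    · rw [← Finset.prod_const]
      refine Finset.prod_congr rfl fun t ht => ?_
      rw [if_neg (Finset.mem_sdiff.1 ht).2, if_neg (Finset.mem_sdiff.1 ht).2]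
      split_ifs <;> rfl
    · refine Finset.prod_congr rfl fun t ht => ?_
      rw [if_pos ht, if_pos ht]
  rw [Finset.sum_congr rfl fun S _ => e1 S, Finset.sum_congr rfl fun B _ => e2 B,
    ← Finset.mul_sum] at h
  rw [h]
  unfold ncl
  rw [psi_eq]
  have h4 : ((1 : ℝ) / 4) ^ (F \ Z).card = 1 / 4 ^ (F \ Z).card := by
    rw [div_pow, one_pow]
  rw [h4]
  ring

end Crest.Agent.R144.Zk349
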