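import Crest.Agent.R144.Zs2_349

/-!
# R144: joint law of heights and closed triangles with FIXED boundary heights (helper349)

`Λ` finite set of sites, `ξ` boundary heights off `Λ`; `K = upT Λ` the up triangles touching `Λ`.
* `cf Λ ξ` : configurations `(h, z)`, `h ∈ It844.conf Λ ξ`, `z` closed off `K`;
* `Z0 c Λ ξ`, `S0 c Λ ξ f`, `E0 c Λ ξ f` with weight `wt c K` (same triangle weights as the F-type law);
* `E0_height` : the height marginal is `It844.ex x Λ ξ`, `c * x ^ 2 = 1`;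
* `E0_swap`, `E0_dec` : exact decoupling across a closed layer.
-/

set_option autoImplicit false
set_option linter.unusedSectionVars false
set_option linter.unusedSimpArgs false

noncomputable section

namespace Crest.Agent.R144.Zo349

open Finset
open Crest.Agent.R144.It844 (P2 Lip Cst adj_iff adj_symm lip_iff upT mem_upT tw)
open Crest.Agent.R144.Zg349 Crest.Agent.R144.Zk349 Crest.Agent.R144.Zd349 Crest.Agent.R144.Zm349
open Crest.Agent.R144.Ze349 Crest.Agent.R144.Zs349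
open Crest.ProbabilityR.HexHeights (Adj)

/-- configurations with boundary heights `ξ` off `Λ` -/
def cf (Λ : Finset P2) (ξ : P2 → ℤ) : Finset Cfg := It844.conf Λ ξ ×ˢ zs (upT Λ)

theorem mem_cf {Λ : Finset P2} {ξ : P2 → ℤ} {ω : Cfg} :
    ω ∈ cf Λ ξ ↔ (Lip ω.1 ∧ ∀ v, v ∉ Λ → ω.1 v = ξ v) ∧ ∀ t, t ∉ upT Λ → ω.2 t = true := by
  unfold cf
  rw [Finset.mem_product, It844.mem_conf, mem_zs]

theorem mem_upT_iff {Λ : Finset P2} {t : P2} : t ∈ upT Λ ↔ ∃ v ∈ Λ, v ∈ up t := by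
  rw [mem_upT]
  constructor
  · rintro (h | h | h)
    · exact ⟨_, h, mem_up.2 (Or.inl rfl)⟩
    · exact ⟨_, h, mem_up.2 (Or.inr (Or.inl rfl))⟩
    · exact ⟨_, h, mem_up.2 (Or.inr (Or.inr rfl))⟩
  · rintro ⟨v, hv, h⟩
    rcases mem_up.1 h with rfl | rfl | rfl
    · exact Or.inl hv
    · exact Or.inr (Or.inl hv)
    · exact Or.inr (Or.inr hv)

/-- partition function -/
def Z0 (c : ℝ) (Λ : Finset P2) (ξ : P2 → ℤ) : ℝ := ∑ ω ∈ cf Λ ξ, wt c (upT Λ) ω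
/-- unnormalised expectation -/
def S0 (c : ℝ) (Λ : Finset P2) (ξ : P2 → ℤ) (f : Cfg → ℝ) : ℝ := ∑ ω ∈ cf Λ ξ, wt c (upT Λ) ω * f ω
/-- expectation -/
def E0 (c : ℝ) (Λ : Finset P2) (ξ : P2 → ℤ) (f : Cfg → ℝ) : ℝ := S0 c Λ ξ f / Z0 c Λ ξ

section basic
variable {c : ℝ} {Λ : Finset P2} {ξ : P2 → ℤ}

theorem S0_one : S0 c Λ ξ (fun _ => 1) = Z0 c Λ ξ := by
  unfold S0 Z0
  exact Finset.sum_congr rfl fun ω _ => mul_one _

/-- a configuration of positive weight above a height -/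
def cz (h : P2 → ℤ) : Cfg := (h, fun t => decide (C1 h t))

theorem ew_cz {c : ℝ} {h : P2 → ℤ} (hh : Lip h) (t : P2) : 0 < ew c (cz h) t := by
  unfold ew cz
  by_cases h1 : C1 h t
  · simp only [h1, decide_true, if_true]
    exact one_pos
  · have h2 : C2 h t := (c1_or_c2 fun i j => lip_cr hh t i j).resolve_left h1
    simp only [h1, h2, decide_false, Bool.false_eq_true, if_false, if_true]
    exact one_pos

theorem Z0_pos (hc : 1 ≤ c) (hξ : Lip ξ) : 0 < Z0 c Λ ξ := by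
  let ω : Cfg := (ξ, fun t => if t ∈ upT Λ then decide (C1 ξ t) else true)
  refine Finset.sum_pos' (fun ω _ => wt_nonneg hc _ ω) ⟨ω, ?_, ?_⟩
  · rw [mem_cf]
    refine ⟨⟨hξ, fun _ _ => rfl⟩, fun t ht => ?_⟩
    simp only [ω, if_neg ht]
  · unfold wt
    refine Finset.prod_pos fun t ht => ?_
    have h1 := ew_cz (c := c) hξ t
    have h2 : ew c ω t = ew c (cz ξ) t := by
      have e1 : ω.2 t = (cz ξ).2 t := if_pos ht
      unfold ew
      rw [e1]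
      rfl
    rw [h2]
    exact h1

theorem E0_add (f g : Cfg → ℝ) : E0 c Λ ξ (fun ω => f ω + g ω) = E0 c Λ ξ f + E0 c Λ ξ g := by
  unfold E0 S0
  rw [← add_div, ← Finset.sum_add_distrib]
  congr 1
  exact Finset.sum_congr rfl fun ω _ => mul_add _ _ _

theorem E0_smul (a : ℝ) (f : Cfg → ℝ) : E0 c Λ ξ (fun ω => a * f ω) = a * E0 c Λ ξ f := by
  unfold E0 S0
  rw [← mul_div_assoc, Finset.mul_sum]
  congr 1
  exact Finset.sum_congr rfl fun ω _ => by ring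

theorem E0_sub (f g : Cfg → ℝ) : E0 c Λ ξ (fun ω => f ω - g ω) = E0 c Λ ξ f - E0 c Λ ξ g := by
  have h1 := E0_add (c := c) (Λ := Λ) (ξ := ξ) f (fun ω => (-1) * g ω)
  rw [E0_smul] at h1
  have e : (fun ω => f ω - g ω) = fun ω => f ω + (-1) * g ω := by funext ω; ring
  rw [e, h1]; ring

theorem E0_const (hc : 1 ≤ c) (hξ : Lip ξ) (a : ℝ) : E0 c Λ ξ (fun _ => a) = a := by
  have h1 := E0_smul (c := c) (Λ := Λ) (ξ := ξ) a (fun _ => 1)
  simp only [mul_one] at h1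
  rw [h1]
  unfold E0
  rw [S0_one, div_self (Z0_pos hc hξ).ne', mul_one]

theorem E0_nonneg (hc : 1 ≤ c) {f : Cfg → ℝ} (h : ∀ ω ∈ cf Λ ξ, 0 ≤ f ω) : 0 ≤ E0 c Λ ξ f :=
  div_nonneg (Finset.sum_nonneg fun ω hω => mul_nonneg (wt_nonneg hc _ ω) (h ω hω))
    (Finset.sum_nonneg fun ω _ => wt_nonneg hc _ ω)

/-- only configurations of positive weight matter -/
theorem E0_congr {f g : Cfg → ℝ} (h : ∀ ω ∈ cf Λ ξ, wt c (upT Λ) ω ≠ 0 → f ω = g ω) :
    E0 c Λ ξ f = E0 c Λ ξ g := by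
  unfold E0 S0
  congr 1
  refine Finset.sum_congr rfl fun ω hω => ?_
  by_cases hw : wt c (upT Λ) ω = 0
  · rw [hw, zero_mul, zero_mul]
  · rw [h ω hω hw]

theorem E0_mono (hc : 1 ≤ c) {f g : Cfg → ℝ} (h : ∀ ω ∈ cf Λ ξ, wt c (upT Λ) ω ≠ 0 → f ω ≤ g ω) :
    E0 c Λ ξ f ≤ E0 c Λ ξ g := by
  unfold E0 S0
  refine div_le_div_of_nonneg_right (Finset.sum_le_sum fun ω hω => ?_)
    (Finset.sum_nonneg fun ω _ => wt_nonneg hc _ ω)
  by_cases hw : wt c (upT Λ) ω = 0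
  · rw [hw, zero_mul, zero_mul]
  · exact mul_le_mul_of_nonneg_left (h ω hω hw) (wt_nonneg hc _ ω)

theorem E0_sum {ι : Type*} (s : Finset ι) (f : ι → Cfg → ℝ) :
    E0 c Λ ξ (fun ω => ∑ i ∈ s, f i ω) = ∑ i ∈ s, E0 c Λ ξ (f i) := by
  unfold E0 S0
  rw [← Finset.sum_div, Finset.sum_comm]
  simp only [Finset.mul_sum]

end basic

/-! ### height marginal -/

theorem sum_z {K : Finset P2} (c : ℝ) {h : P2 → ℤ} (hh : Lip h) :
    ∑ z ∈ zs K, wt c K (h, z) = ∏ t ∈ K, (if Cst h t then c else 1) := by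
  classical
  rw [sum_zs]
  have h1 : ∀ t, (if Cst h t then c else 1) = (if C1 h t then (1 : ℝ) else 0) +
      (if C2 h t then (if C1 h t then c - 1 else 1) else 0) := by
    intro t
    have hl := fun i j => lip_cr hh t i j
    have a1 := cst_iff (h := h) (t := t) hl
    have a2 := c1_or_c2 (h := h) (t := t) hl
    by_cases b1 : C1 h t <;> by_cases b2 : C2 h t
    · rw [if_pos (a1.2 ⟨b1, b2⟩), if_pos b1, if_pos b2, if_pos b1]; ring
    · rw [if_neg fun h' => b2 (a1.1 h').2, if_pos b1, if_neg b2]; ring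
    · rw [if_neg fun h' => b1 (a1.1 h').1, if_neg b1, if_pos b2, if_neg b1]; ring
    · exact absurd a2 (by tauto)
  rw [Finset.prod_congr rfl fun t _ => h1 t, Finset.prod_add]
  refine Finset.sum_congr rfl fun Z hZ => ?_
  rw [Finset.mem_powerset] at hZ
  unfold wt
  rw [← Finset.prod_inter_mul_prod_sdiff K Z, Finset.inter_eq_right.2 hZ]
  congr 1
  · refine Finset.prod_congr rfl fun t ht => ?_
    have e : (zb K Z t) = true := by
      unfold zb; rw [decide_eq_true_eq]; exact Or.inr ht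
    unfold ew
    simp only [e, if_true]
  · refine Finset.prod_congr rfl fun t ht => ?_
    rw [Finset.mem_sdiff] at ht
    have e : (zb K Z t) = false := by
      unfold zb; rw [decide_eq_false_iff_not]; tauto
    unfold ew
    simp only [e, Bool.false_eq_true, if_false]

/-- **Height marginal.** -/
theorem S0_height {c x : ℝ} (hcx : c * x ^ 2 = 1) (Λ : Finset P2) (ξ : P2 → ℤ) (f : (P2 → ℤ) → ℝ) :
    S0 c Λ ξ (fun ω => f ω.1) = c ^ (upT Λ).card * ∑ h ∈ It844.conf Λ ξ, It844.wt x Λ h * f h := by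
  unfold S0 cf
  rw [Finset.sum_product, Finset.mul_sum]
  refine Finset.sum_congr rfl fun h hh => ?_
  show ∑ z ∈ zs (upT Λ), wt c (upT Λ) (h, z) * f h = _
  rw [← Finset.sum_mul, sum_z c (It844.mem_conf.1 hh).1, ← mul_assoc]
  congr 1
  unfold It844.wt
  rw [← Finset.prod_const, ← Finset.prod_mul_distrib]
  refine Finset.prod_congr rfl fun t _ => ?_
  unfold tw
  split_ifs
  · ring
  · exact hcx.symm

theorem E0_height {c x : ℝ} (hcx : c * x ^ 2 = 1) (Λ : Finset P2) (ξ : P2 → ℤ) (f : (P2 → ℤ) → ℝ) :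
    E0 c Λ ξ (fun ω => f ω.1) = It844.ex x Λ ξ f := by
  have h1 := S0_height hcx Λ ξ f
  have h2 := S0_height hcx Λ ξ (fun _ => 1)
  rw [S0_one] at h2
  have hc : c ≠ 0 := by
    rintro rfl
    rw [zero_mul] at hcx
    exact zero_ne_one hcx
  unfold E0 It844.ex
  rw [h1, h2, mul_div_mul_left _ _ (pow_ne_zero _ hc)]
  simp only [mul_one, smul_eq_mul]
  unfold It844.Z
  rw [div_eq_inv_mul]

/-! ### exact decoupling -/

section dec
variable {c : ℝ} {Λ : Finset P2} {ξ : P2 → ℤ} {e : Bool} {W : Finset P2}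

theorem glue_mem_cf (hW : SC W) (hWΛ : VF W ⊆ Λ) {ω ω' : Cfg} (hω : ω ∈ cf Λ ξ) (hL : Lay e W ω)
    (hω' : Valid W ω') : glue e W ω ω' ∈ cf Λ ξ := by
  rw [mem_cf] at hω ⊢
  obtain ⟨⟨h1, h2⟩, h3⟩ := hω
  have hWK : ∀ t ∈ W, t ∈ upT Λ := fun t ht =>
    mem_upT_iff.2 ⟨t, hWΛ (mem_VF.2 ⟨t, ht, base_mem_up t⟩), base_mem_up t⟩
  refine ⟨⟨glue_lip hW h1 hL hω', fun v hv => ?_⟩, fun t ht => ?_⟩
  · rw [glue_out fun h => hv (hWΛ h)]
    exact h2 v hv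
  · rw [glue_z' fun h => ht (hWK t h)]
    exact h3 t ht

theorem sub_upT (hWΛ : VF W ⊆ Λ) : W ⊆ upT Λ := fun t ht =>
  mem_upT_iff.2 ⟨t, hWΛ (mem_VF.2 ⟨t, ht, base_mem_up t⟩), base_mem_up t⟩

/-- **Exact decoupling, swap form, fixed boundary heights.** -/
theorem E0_swap (hc : 1 ≤ c) (hW : SC W) (hWΛ : VF W ⊆ Λ) (Ψ : Cfg → ℝ) :
    E0 c Λ ξ (fun ω => layI e W ω * Ψ ω) =
      E0 c Λ ξ (fun ω => layI e W ω * E c W (fun ω' => Ψ (glue e W ω ω'))) := by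
  classical
  have h := swap (e := e) hW c (sub_upT hWΛ) (cf Λ ξ) (fun ω hω => (mem_cf.1 hω).1.1)
    (fun ω hω hL ω' hω' => glue_mem_cf hW hWΛ hω hL (mem_conf.1 hω')) Ψ
  have hZ := Z_pos hc W
  have red : ∀ f : Cfg → ℝ, ∑ ω ∈ cf Λ ξ, wt c (upT Λ) ω * (layI e W ω * f ω) =
      ∑ ω ∈ (cf Λ ξ).filter (Lay e W), wt c (upT Λ) ω * f ω := by
    intro f
    rw [Finset.sum_filter]
    refine Finset.sum_congr rfl fun ω _ => ?_
    by_cases hL : Lay e W ω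
    · rw [layI_of hL, if_pos hL, one_mul]
    · rw [layI_of_not hL, if_neg hL, zero_mul, mul_zero]
  unfold E0 S0
  rw [red, red]
  congr 1
  rw [← mul_right_cancel_iff_of_pos hZ, h, Finset.sum_mul]
  refine Finset.sum_congr rfl fun ω _ => ?_
  rw [E_eq_div, mul_assoc, div_mul_cancel₀ _ hZ.ne']

/-- consequence for products -/
theorem E0_dec (hc : 1 ≤ c) (hW : SC W) (hWΛ : VF W ⊆ Λ) {Ψ g : Cfg → ℝ} {φ : Cfg → Cfg → ℝ}
    (h0 : ∀ ω ∈ cf Λ ξ, wt c (upT Λ) ω ≠ 0 → ¬ Lay e W ω → Ψ ω = 0 ∧ g ω = 0)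
    (h1 : ∀ ω ω', ω ∈ cf Λ ξ → wt c (upT Λ) ω ≠ 0 → Lay e W ω → Valid W ω' →
      Ψ (glue e W ω ω') = g ω * φ ω ω') :
    E0 c Λ ξ Ψ = E0 c Λ ξ (fun ω => g ω * E c W (φ ω)) := by
  have e1 : E0 c Λ ξ Ψ = E0 c Λ ξ (fun ω => layI e W ω * Ψ ω) := E0_congr fun ω hω hw => by
    by_cases hL : Lay e W ω
    · rw [layI_of hL, one_mul]
    · rw [layI_of_not hL, zero_mul, (h0 ω hω hw hL).1]
  rw [e1, E0_swap hc hW hWΛ]
  refine E0_congr fun ω hω hw => ?_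
  by_cases hL : Lay e W ω
  · rw [layI_of hL, one_mul]
    have e2 : E c W (fun ω' => Ψ (glue e W ω ω')) = E c W (fun ω' => g ω * φ ω ω') :=
      E_congr fun ω' hω' => h1 ω ω' hω hw hL hω'
    rw [e2, E_smul]
  · rw [layI_of_not hL, zero_mul, (h0 ω hω hw hL).2, zero_mul]

theorem closed_c1' {ω : Cfg} (hw : wt c (upT Λ) ω ≠ 0)
    {t : P2} (htK : t ∈ upT Λ) (ht : ω.2 t = true) {v : P2} (hv : v ∈ up t) : s1 (ω.1 v) = s1 (ω.1 t) := by
  have h1 : ew c ω t ≠ 0 := fun h => hw (Finset.prod_eq_zero htK h)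
  have h2 : C1 ω.1 t := by
    by_contra h
    apply h1
    unfold ew
    rw [if_pos ht, if_neg h]
  obtain ⟨a, b⟩ := h2
  obtain ⟨i, rfl⟩ := mem_up_iff.1 hv
  fin_cases i
  · rfl
  · exact a.symm
  · exact b.symm

/-- the layer event from the closed status and the sign of the base site; `VF W ⊆ Λ` -/
theorem lay_of' (hWΛ : VF W ⊆ Λ) {ω : Cfg} (hw : wt c (upT Λ) ω ≠ 0)
    (h : ∀ t, t ∉ W → (∃ v ∈ VF W, v ∈ up t) → ω.2 t = true ∧ s1 (ω.1 t) = e) : Lay e W ω := by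
  intro t ht h1
  obtain ⟨h2, h3⟩ := h t ht h1
  obtain ⟨v, hv, hvt⟩ := h1
  have htK : t ∈ upT Λ := mem_upT_iff.2 ⟨v, hWΛ hv, hvt⟩
  exact ⟨h2, fun v hv => by rw [closed_c1' hw htK h2 hv, h3]⟩

/-- decoupling across a closed layer of sign `e` for colour observables -/
theorem E0_dec_col (hc : 1 ≤ c) (hW : SC W) (hWΛ : VF W ⊆ Λ) {g f f' : Cfg → ℝ} (hg : OffTZ W g)
    (hg1 : ∀ ω, g ω ≠ 0 → ∀ t, t ∉ W → (∃ v ∈ VF W, v ∈ up t) → ω.2 t = true ∧ s1 (ω.1 t) = e)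
    (hf : ∀ ω ω' : Cfg, (∀ v ∈ VF W, (ω.1 v - ω'.1 v) % 4 = off e) → (∀ t ∈ W, ω.2 t = ω'.2 t) →
      f ω = f' ω') :
    E0 c Λ ξ (fun ω => g ω * f ω) = E0 c Λ ξ g * E c W f' := by
  rw [E0_dec (e := e) hc hW hWΛ (g := g) (φ := fun _ => f')]
  · have : (fun ω => g ω * E c W f') = fun ω => E c W f' * g ω := by funext ω; ring
    rw [this, E0_smul, mul_comm]
  · intro ω hω hw hL
    have : g ω = 0 := by
      by_contra h
      exact hL (lay_of' hWΛ hw fun t ht h1 => hg1 ω h t ht h1)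
    exact ⟨by rw [this, zero_mul], this⟩
  · intro ω ω' hω hw hL hω'
    have hl := (mem_cf.1 hω).1.1
    rw [offTZ_glue hW hl hL hω' hg]
    congr 1
    refine hf _ _ (fun v hv => ?_) fun t ht => glue_z ht
    rw [glue_in hv, add_sub_cancel_right]
    exact lev_mod hW hl hL hv

end dec

end Crest.Agent.R144.Zo349
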