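import Crest.Agent.R144.Zo2_349

/-!
# R144: `(s1, Z)` marginal of the law with fixed boundary heights `ξ ∈ {0, 1}` (helper349)

`Λ` finite with connected complement, `ξ v ∈ {0, 1}` off `Λ` (so `s1 = +` there, `s2` prescribed).
* `exists_lift0`, `conf_inj0`, `sum_conf0` : heights ↔ colours;
* `Cmp Λ ξ Z` : the boundary values of `s2` extend to a function constant on the open triangles;
* `cmp_plus` : `Cmp` only depends on the PLUS closed triangles (for compatible `s1`);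
* `S0_tz` : the marginal is `NmL Λ * fw up c K T Z * nL Λ Z * 1{Cmp Z}`.
-/

set_option autoImplicit false
set_option linter.unusedSectionVars false
set_option linter.unusedSimpArgs false

noncomputable section

namespace Crest.Agent.R144.Zo349

open Finset
open Crest.Agent.R144.It844 (P2 Lip Cst adj_iff adj_symm lip_iff upT mem_upT tw adj_up exists_exit)
open Crest.Agent.R144.Zg349 Crest.Agent.R144.Zk349 Crest.Agent.R144.Zd349 Crest.Agent.R144.Zm349
open Crest.Agent.R144.HyA349 Crest.Agent.R144.HyB349 Crest.Agent.R144.HyC349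
open Crest.Agent.R144.Ze349 Crest.Agent.R144.Zs349
open Crest.ProbabilityR.HexHeights (Adj)
open Crest.Agent.R161.KWabs729 (z2_cases)
open Crest.Agent.R144.Pst967 (hexB subset_hexB conn_hexB)

/-- boundary values of the F-type at prescribed `s2` -/
def Bv (Λ : Finset P2) (ξ : P2 → ℤ) : Prop := ∀ v, v ∉ Λ → ξ v = 0 ∨ ξ v = 1

/-- boundary sites with `s2 = -` -/
def A0 (Λ : Finset P2) (ξ : P2 → ℤ) : Finset P2 := (VF (upT Λ) \ Λ).filter fun v => ξ v = 1

/-- `s1` minus sites -/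
def tmL (Λ : Finset P2) (h : P2 → ℤ) : Finset P2 := Λ.filter fun v => s1 (h v) = false
/-- `s2` minus sites in `Λ` -/
def amL (Λ : Finset P2) (h : P2 → ℤ) : Finset P2 := Λ.filter fun v => s2 (h v) = false

section
variable {Λ : Finset P2} {ξ : P2 → ℤ}

theorem s1_off (hξ : Bv Λ ξ) {h : P2 → ℤ} (hh : h ∈ It844.conf Λ ξ) {v : P2} (hv : v ∉ Λ) :
    s1 (h v) = true := by
  rw [(It844.mem_conf.1 hh).2 v hv]
  rcases hξ v hv with h1 | h1 <;> rw [h1] <;> decide

theorem mem_tmL (hξ : Bv Λ ξ) {h : P2 → ℤ} (hh : h ∈ It844.conf Λ ξ) {v : P2} :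
    v ∈ tmL Λ h ↔ s1 (h v) = false := by
  unfold tmL
  rw [Finset.mem_filter, and_iff_right_iff_imp]
  intro h1
  by_contra h2
  rw [s1_off hξ hh h2] at h1
  exact absurd h1 (by decide)

theorem mem_amL (hξ : Bv Λ ξ) {h : P2 → ℤ} (hh : h ∈ It844.conf Λ ξ) {v : P2} (hv : v ∈ VF (upT Λ)) :
    v ∈ amL Λ h ∪ A0 Λ ξ ↔ s2 (h v) = false := by
  unfold amL A0
  rw [Finset.mem_union, Finset.mem_filter, Finset.mem_filter, Finset.mem_sdiff]
  by_cases h1 : v ∈ Λ
  · tauto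
  · rw [(It844.mem_conf.1 hh).2 v h1]
    rcases hξ v h1 with h2 | h2 <;> rw [h2]
    · simp only [h1, hv, false_and, not_false_eq_true, and_self, true_and, false_or]
      decide
    · simp only [h1, hv, false_and, not_false_eq_true, and_self, true_and, false_or]
      decide

theorem c1_iff0 (hξ : Bv Λ ξ) {h : P2 → ℤ} (hh : h ∈ It844.conf Λ ξ) (t : P2) :
    C1 h t ↔ M3 (cr t) (ch (tmL Λ h)) := by
  rw [m3_ch, mem_tmL hξ hh, mem_tmL hξ hh, mem_tmL hξ hh]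
  unfold C1
  generalize s1 (h (cr t 0)) = a
  generalize s1 (h (cr t 1)) = b
  generalize s1 (h (cr t 2)) = d
  revert a b d
  decide

theorem cr_mem_VF' {W : Finset P2} {t : P2} (ht : t ∈ W) (i : Fin 3) : cr t i ∈ VF W :=
  mem_VF.2 ⟨t, ht, cr_mem_up t i⟩

theorem c2_iff0 (hξ : Bv Λ ξ) {h : P2 → ℤ} (hh : h ∈ It844.conf Λ ξ) {t : P2} (ht : t ∈ upT Λ) :
    C2 h t ↔ M3 (cr t) (ch (amL Λ h ∪ A0 Λ ξ)) := by
  rw [m3_ch, mem_amL hξ hh (cr_mem_VF' ht 0), mem_amL hξ hh (cr_mem_VF' ht 1),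
    mem_amL hξ hh (cr_mem_VF' ht 2)]
  unfold C2
  generalize s2 (h (cr t 0)) = a
  generalize s2 (h (cr t 1)) = b
  generalize s2 (h (cr t 2)) = d
  revert a b d
  decide

/-- heights are determined by their colours -/
theorem conf_inj0 (hξ : Bv Λ ξ) {h g : P2 → ℤ} (hh : h ∈ It844.conf Λ ξ) (hg : g ∈ It844.conf Λ ξ)
    (e1 : tmL Λ h = tmL Λ g) (e2 : amL Λ h = amL Λ g) : h = g := by
  have k : ∀ a b : Bool, (a = false ↔ b = false) → a = b := by decide
  have f1 := It844.mem_conf.1 hh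
  have f2 := It844.mem_conf.1 hg
  have hm : ∀ v, (h v - g v) % 4 = 0 := by
    intro v
    by_cases hv : v ∈ Λ
    · refine mod4_of_s (k _ _ ?_) (k _ _ ?_)
      · rw [← mem_tmL hξ hh, ← mem_tmL hξ hg, e1]
      · have a1 : v ∈ amL Λ h ↔ s2 (h v) = false := by
          unfold amL; rw [Finset.mem_filter, and_iff_right hv]
        have a2 : v ∈ amL Λ g ↔ s2 (g v) = false := by
          unfold amL; rw [Finset.mem_filter, and_iff_right hv]
        rw [← a1, ← a2, e2]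
    · rw [f1.2 v hv, f2.2 v hv]; norm_num
  funext v
  obtain ⟨j, -, hj, hj'⟩ := exists_exit Λ v
  have key : ∀ i : ℕ, i ≤ j → h (v.1 + (i : ℤ), v.2) - g (v.1 + (i : ℤ), v.2) = h v - g v := by
    intro i
    induction i with
    | zero => intro _; simp
    | succ i ih =>
      intro hi
      rw [← ih (by omega)]
      have l1 := abs_le.1 (lip_cr f1.1 (v.1 + (i : ℤ), v.2) 0 1)
      have l2 := abs_le.1 (lip_cr f2.1 (v.1 + (i : ℤ), v.2) 0 1)
      have m1 := hm (v.1 + (i : ℤ), v.2)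
      have m2 := hm (v.1 + (i : ℤ) + 1, v.2)
      simp only [cr0, cr1] at l1 l2
      have e : v.1 + (((i + 1 : ℕ) : ℤ)) = v.1 + i + 1 := by push_cast; ring
      rw [e]
      omega
  have h1 := key j le_rfl
  rw [f1.2 _ hj, f2.2 _ hj] at h1
  omega

/-- **Lift** with prescribed boundary heights. -/
theorem exists_lift0 (hΛ : IsConn ((Λ : Set P2)ᶜ)) (hξ : Bv Λ ξ) {T A : Finset P2}
    (hT : T ⊆ Λ) (hA : A ⊆ Λ) (hc : ∀ t ∈ upT Λ, M3 (cr t) (ch T) ∨ M3 (cr t) (ch (A ∪ A0 Λ ξ))) :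
    ∃ h ∈ It844.conf Λ ξ, tmL Λ h = T ∧ amL Λ h = A := by
  classical
  obtain ⟨n, hn⟩ := subset_hexB (upT Λ)
  set F := hexB n with hF
  have hSC : SC F := conn_hexB n
  have hIV : Λ ⊆ IV F := fun v hv => mem_IV'.2 fun t ht => hn (mem_upT_iff.2 ⟨v, hv, ht⟩)
  have hA0 : A0 Λ ξ ⊆ VF (upT Λ) := fun v hv =>
    (Finset.mem_sdiff.1 (Finset.mem_filter.1 hv).1).1
  have hA' : A ∪ A0 Λ ξ ⊆ VF F :=
    Finset.union_subset ((hA.trans hIV).trans (IV_sub_VF F)) (hA0.trans (VF_mono hn))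
  obtain ⟨h, h1, h2, h3⟩ := exists_height hSC (hT.trans hIV) hA' (fun t _ => by
    by_cases ht : t ∈ upT Λ
    · exact hc t ht
    · left
      rw [m3_ch]
      have : ∀ i, cr t i ∉ T := fun i hi => ht (mem_upT_iff.2 ⟨_, hT hi, cr_mem_up t i⟩)
      simp only [this]
      decide)
  have hl := h1.toLip
  -- off `Λ`
  have hoff : ∀ v, v ∉ Λ → (h v % 4 = 0 ∨ h v % 4 = 1) := by
    intro v hv
    have : s1 (h v) = true := (h2 v).2 fun h' => hv (hT h')
    rw [s1_true] at this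
    omega
  have hstep : ∀ u v, u ∉ Λ → v ∉ Λ → Adj u v → h u / 4 = h v / 4 := by
    intro u v hu hv huv
    have a1 := hoff u hu
    have a2 := hoff v hv
    have a3 := abs_le.1 (hl u v huv)
    omega
  obtain ⟨v1, hv1⟩ := Infinite.exists_notMem_finset (Λ ∪ VF F)
  rw [Finset.mem_union, not_or] at hv1
  have hz : ∀ v, v ∉ Λ → h v = 0 ∨ h v = 1 := by
    intro v hv
    have hp : ∀ w, Relation.ReflTransGen (StepIn ((Λ : Set P2)ᶜ)) v w → h v / 4 = h w / 4 := by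
      intro w hw
      induction hw with
      | refl => rfl
      | @tail b d _ h6 ih =>
        rw [ih]
        exact hstep b d (by simpa using h6.1) (by simpa using h6.2.1) h6.2.2
    have h5 : h v / 4 = h v1 / 4 := hp v1 (hΛ v (by simpa using hv) v1 (by simpa using hv1.1))
    rw [h1.off v1 hv1.2] at h5
    have := hoff v hv
    omega
  have hK : ∀ v, v ∉ Λ → v ∈ VF (upT Λ) → h v = ξ v := by
    intro v hv hvK
    have a1 : v ∈ A0 Λ ξ ↔ ξ v = 1 := by
      unfold A0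
      rw [Finset.mem_filter, and_iff_right (Finset.mem_sdiff.2 ⟨hvK, hv⟩)]
    have a2 : s2 (h v) = true ↔ v ∉ A0 Λ ξ := by
      rw [h3, Finset.mem_union, not_or]
      exact ⟨fun h => h.2, fun h => ⟨fun h' => hv (hA h'), h⟩⟩
    rw [a1] at a2
    rcases hz v hv with b | b <;> rcases hξ v hv with b' | b' <;> rw [b, b'] at a2 <;> rw [b, b'] <;>
      (exfalso; revert a2; decide)
  refine ⟨fun v => if v ∈ Λ then h v else ξ v, It844.mem_conf.2 ⟨?_, fun v hv => if_neg hv⟩, ?_, ?_⟩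
  · intro u v huv
    have nb : ∀ u v, Adj u v → u ∈ Λ → v ∉ Λ → v ∈ VF (upT Λ) := by
      intro u v huv hu hv
      obtain ⟨w, i, k, l, _, _, _, rfl, rfl⟩ := adj_cr huv
      exact mem_VF.2 ⟨w, mem_upT_iff.2 ⟨_, hu, cr_mem_up w k⟩, cr_mem_up w l⟩
    simp only
    by_cases hu : u ∈ Λ <;> by_cases hv : v ∈ Λ
    · rw [if_pos hu, if_pos hv]; exact hl u v huv
    · rw [if_pos hu, if_neg hv, ← hK v hv (nb u v huv hu hv)]; exact hl u v huv
    · rw [if_neg hu, if_pos hv, ← hK u hu (nb v u (adj_symm huv) hv hu)]; exact hl u v huv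
    · rw [if_neg hu, if_neg hv]
      rcases hξ u hu with b | b <;> rcases hξ v hv with b' | b' <;> rw [b, b'] <;> decide
  · ext v
    unfold tmL
    rw [Finset.mem_filter]
    show v ∈ Λ ∧ s1 (if v ∈ Λ then h v else ξ v) = false ↔ v ∈ T
    by_cases hv : v ∈ Λ
    · rw [if_pos hv, and_iff_right hv]
      have := h2 v
      rcases hb : s1 (h v) with _ | _
      · rw [hb] at this; simp only [true_iff]; by_contra h'; exact absurd (this.2 h') (by decide)
      · rw [hb] at this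
        simp only [Bool.true_eq_false, false_iff]
        exact this.1 rfl
    · exact ⟨fun h => absurd h.1 hv, fun h => absurd (hT h) hv⟩
  · ext v
    unfold amL
    rw [Finset.mem_filter]
    show v ∈ Λ ∧ s2 (if v ∈ Λ then h v else ξ v) = false ↔ v ∈ A
    by_cases hv : v ∈ Λ
    · rw [if_pos hv, and_iff_right hv]
      have h4 := h3 v
      have h5 : v ∉ A0 Λ ξ := fun h => (Finset.mem_sdiff.1 (Finset.mem_filter.1 h).1).2 hv
      rw [Finset.mem_union, not_or, and_iff_left h5] at h4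
      rcases hb : s2 (h v) with _ | _
      · rw [hb] at h4; simp only [true_iff]; by_contra h'; exact absurd (h4.2 h') (by decide)
      · rw [hb] at h4
        simp only [Bool.true_eq_false, false_iff]
        exact h4.1 rfl
    · exact ⟨fun h => absurd h.1 hv, fun h => absurd (hA h) hv⟩

open Classical in
/-- sums over heights as sums over colours -/
theorem sum_conf0 (hΛ : IsConn ((Λ : Set P2)ᶜ)) (hξ : Bv Λ ξ) (G : Finset P2 → Finset P2 → ℝ) :
    ∑ h ∈ It844.conf Λ ξ, G (tmL Λ h) (amL Λ h) = ∑ T ∈ Λ.powerset, ∑ A ∈ Λ.powerset,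
      if ∀ t ∈ upT Λ, M3 (cr t) (ch T) ∨ M3 (cr t) (ch (A ∪ A0 Λ ξ)) then G T A else 0 := by
  rw [← Finset.sum_product', ← Finset.sum_filter]
  refine Finset.sum_bij (fun h _ => (tmL Λ h, amL Λ h)) ?_ ?_ ?_ ?_
  · intro h hh
    rw [Finset.mem_filter, Finset.mem_product, Finset.mem_powerset, Finset.mem_powerset]
    refine ⟨⟨Finset.filter_subset _ _, Finset.filter_subset _ _⟩, fun t ht => ?_⟩
    rw [← c1_iff0 hξ hh, ← c2_iff0 hξ hh ht]
    exact c1_or_c2 fun i j => lip_cr (It844.mem_conf.1 hh).1 t i j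
  · intro h hh g hg e
    have := Prod.ext_iff.1 e
    exact conf_inj0 hξ hh hg this.1 this.2
  · rintro ⟨T, A⟩ hTA
    rw [Finset.mem_filter, Finset.mem_product, Finset.mem_powerset, Finset.mem_powerset] at hTA
    obtain ⟨⟨hT, hA⟩, hc⟩ := hTA
    obtain ⟨h, hh, h1, h2⟩ := exists_lift0 hΛ hξ hT hA hc
    exact ⟨h, hh, Prod.ext h1 h2⟩
  · intro h _
    rfl

end

/-! ### compatibility of the boundary values -/

/-- the boundary values of `s2` extend to a function which is constant on the open triangles -/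
def Cmp (Λ : Finset P2) (ξ : P2 → ℤ) (Z : Finset P2) : Prop :=
  ∃ A ⊆ Λ, ∀ t ∈ upT Λ \ Z, M3 (cr t) (ch (A ∪ A0 Λ ξ))

theorem Cmp.mono {Λ : Finset P2} {ξ : P2 → ℤ} {Z Z' : Finset P2} (h : Z ⊆ Z') (hc : Cmp Λ ξ Z) :
    Cmp Λ ξ Z' := by
  obtain ⟨A, hA, h1⟩ := hc
  exact ⟨A, hA, fun t ht => h1 t (Finset.sdiff_subset_sdiff (Finset.Subset.refl _) h ht)⟩

/-- `ξ = 0` -/
theorem cmp_zero (Λ : Finset P2) {ξ : P2 → ℤ} (hξ : ∀ v, v ∉ Λ → ξ v = 0) (Z : Finset P2) :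
    Cmp Λ ξ Z := by
  refine ⟨∅, Finset.empty_subset _, fun t _ => ?_⟩
  have : A0 Λ ξ = ∅ := by
    unfold A0
    rw [Finset.filter_eq_empty_iff]
    intro v hv
    rw [hξ v (Finset.mem_sdiff.1 hv).2]
    decide
  rw [this, Finset.empty_union]
  exact ⟨rfl, rfl⟩

/-- **compatibility only depends on the plus closed triangles** -/
theorem cmp_plus {Λ : Finset P2} {ξ : P2 → ℤ} (hΛ : IsConn ((Λ : Set P2)ᶜ)) (hξ : Bv Λ ξ)
    {T Z : Finset P2} (hT : T ⊆ Λ) (hs : ∀ t ∈ Z, Cs up T t) :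
    Cmp Λ ξ Z ↔ Cmp Λ ξ (Z.filter fun t => t ∉ T) := by
  refine ⟨?_, Cmp.mono (Finset.filter_subset _ _)⟩
  rintro ⟨A, hA, h1⟩
  obtain ⟨h, hh, h2, h3⟩ := exists_lift0 hΛ hξ hT hA (fun t ht => by
    by_cases hz : t ∈ Z
    · exact Or.inl (cs_iff.1 (hs t hz))
    · exact Or.inr (h1 t (Finset.mem_sdiff.2 ⟨ht, hz⟩)))
  have hl := (It844.mem_conf.1 hh).1
  refine ⟨Λ.filter fun v => 1 ≤ h v, Finset.filter_subset _ _, fun t ht => ?_⟩
  rw [Finset.mem_sdiff, Finset.mem_filter, not_and, not_not] at ht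
  obtain ⟨htK, ht⟩ := ht
  have key : ∀ i, cr t i ∈ (Λ.filter fun v => 1 ≤ h v) ∪ A0 Λ ξ ↔ 1 ≤ h (cr t i) := by
    intro i
    unfold A0
    rw [Finset.mem_union, Finset.mem_filter, Finset.mem_filter, Finset.mem_sdiff]
    by_cases hi : cr t i ∈ Λ
    · tauto
    · rw [(It844.mem_conf.1 hh).2 _ hi]
      have := cr_mem_VF' htK i
      rcases hξ _ hi with h4 | h4 <;> rw [h4] <;> simp [hi, this]
  rw [m3_ch, key, key, key]
  have l1 := abs_le.1 (lip_cr hl t 0 1)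
  have l2 := abs_le.1 (lip_cr hl t 0 2)
  by_cases hz : t ∈ Z
  · have h4 := cs_minus (hs t hz) (ht hz)
    rw [← h2] at h4
    have b0 := (mem_tmL hξ hh).1 (h4 _ (cr_mem_up t 0))
    have b1 := (mem_tmL hξ hh).1 (h4 _ (cr_mem_up t 1))
    have b2 := (mem_tmL hξ hh).1 (h4 _ (cr_mem_up t 2))
    rw [s1_false] at b0 b1 b2
    omega
  · have h4 := h1 t (Finset.mem_sdiff.2 ⟨htK, hz⟩)
    rw [← h3, ← c2_iff0 hξ hh htK] at h4
    obtain ⟨b1, b2⟩ := h4
    unfold s2 at b1 b2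
    rw [decide_eq_decide] at b1 b2
    omega

open Classical in
/-- indicator of compatibility -/
def cI (Λ : Finset P2) (ξ : P2 → ℤ) (Z : Finset P2) : ℝ := if Cmp Λ ξ Z then 1 else 0

theorem cI_nonneg (Λ : Finset P2) (ξ : P2 → ℤ) (Z : Finset P2) : 0 ≤ cI Λ ξ Z := by
  unfold cI; split_ifs <;> norm_num

theorem cI_mono {Λ : Finset P2} {ξ : P2 → ℤ} {Z Z' : Finset P2} (h : Z ⊆ Z') :
    cI Λ ξ Z ≤ cI Λ ξ Z' := by
  unfold cI
  by_cases h1 : Cmp Λ ξ Z
  · rw [if_pos h1, if_pos (h1.mono h)]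
  · rw [if_neg h1]; split_ifs <;> norm_num

theorem M3_add {α : Type*} {c : Fin 3 → α} {s s0 : α → ZMod 2} (h : M3 c s0) :
    M3 c (s + s0) ↔ M3 c s := by
  obtain ⟨h1, h2⟩ := h
  unfold M3
  simp only [Pi.add_apply]
  rw [← h1, ← h2, add_left_inj, add_left_inj]

/-- the count of `A` with prescribed boundary values -/
theorem count_xi {Λ : Finset P2} {ξ : P2 → ℤ} (Z : Finset P2) :
    ∑ A ∈ Λ.powerset, ∏ t ∈ upT Λ \ Z, (if M3 (cr t) (ch (A ∪ A0 Λ ξ)) then (1 : ℝ) else 0) =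
      cI Λ ξ Z * ∑ A ∈ Λ.powerset, ∏ t ∈ upT Λ \ Z, (if M3 (cr t) (ch A) then (1 : ℝ) else 0) := by
  classical
  by_cases h : Cmp Λ ξ Z
  · unfold cI
    rw [if_pos h, one_mul]
    obtain ⟨A1, hA1, h1⟩ := h
    have hdis : ∀ A ⊆ Λ, ch (A ∪ A0 Λ ξ) = ch A + ch (A0 Λ ξ) := by
      intro A hA
      funext v
      have hv : v ∈ A → v ∉ A0 Λ ξ := fun h h' =>
        (Finset.mem_sdiff.1 (Finset.mem_filter.1 h').1).2 (hA h)
      rw [Pi.add_apply]
      unfold ch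
      by_cases a : v ∈ A
      · rw [if_pos (Finset.mem_union_left _ a), if_pos a, if_neg (hv a), add_zero]
      · by_cases b : v ∈ A0 Λ ξ
        · rw [if_pos (Finset.mem_union_right _ b), if_neg a, if_pos b, zero_add]
        · rw [if_neg (fun h => (Finset.mem_union.1 h).elim a b), if_neg a, if_neg b, add_zero]
    have e1 : ∑ A ∈ Λ.powerset, ∏ t ∈ upT Λ \ Z,
        (if M3 (cr t) (ch (A ∪ A0 Λ ξ)) then (1 : ℝ) else 0) =
        ∑ s ∈ fs Λ, ∏ t ∈ upT Λ \ Z, (if M3 (cr t) (s + ch (A0 Λ ξ)) then (1 : ℝ) else 0) := by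
      rw [sum_fs]
      refine Finset.sum_congr rfl fun A hA => ?_
      rw [hdis A (Finset.mem_powerset.1 hA)]
    have e2 : ∑ A ∈ Λ.powerset, ∏ t ∈ upT Λ \ Z, (if M3 (cr t) (ch A) then (1 : ℝ) else 0) =
        ∑ s ∈ fs Λ, ∏ t ∈ upT Λ \ Z, (if M3 (cr t) s then (1 : ℝ) else 0) := by
      rw [sum_fs]
    have hA1' : ch A1 ∈ fs Λ := mem_fs.2 fun v hv => by
      unfold ch
      rw [if_neg fun h => hv (hA1 h)]
    rw [e1, e2]
    refine Finset.sum_bij' (fun s _ => s + ch A1) (fun s _ => s + ch A1)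
      (fun s hs => add_mem_fs Λ s hs _ hA1') (fun s hs => add_mem_fs Λ s hs _ hA1')
      (fun s _ => fun_add_self s _) (fun s _ => fun_add_self s _) ?_
    intro s _
    refine Finset.prod_congr rfl fun t ht => ?_
    have h2 := h1 t ht
    rw [hdis A1 hA1] at h2
    have h3 : M3 (cr t) (s + ch (A0 Λ ξ)) ↔ M3 (cr t) (s + ch A1) := by
      rw [← M3_add (s := s + ch A1) h2]
      have e : s + ch A1 + (ch A1 + ch (A0 Λ ξ)) = s + ch (A0 Λ ξ) := by
        rw [← add_assoc, fun_add_self]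
      rw [e]
    simp only [h3]
  · unfold cI
    rw [if_neg h, zero_mul]
    refine Finset.sum_eq_zero fun A hA => ?_
    by_contra hne
    apply h
    refine ⟨A, Finset.mem_powerset.1 hA, fun t ht => ?_⟩
    by_contra h1
    exact hne (Finset.prod_eq_zero ht (if_neg h1))

/-! ### the `(s1, Z)` marginal -/

/-- number of dual spin functions constant around the triangles of `Z` -/
def nL (Λ Z : Finset P2) : ℝ := ∑ σ ∈ fsg (VA Λ), ∏ t ∈ Z, (if M3 (dnp Λ t) σ then (1 : ℝ) else 0)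

theorem nL_pos (Λ Z : Finset P2) : 0 < nL Λ Z := by
  unfold nL
  refine Finset.sum_pos' (fun σ _ => Finset.prod_nonneg fun t _ => by split_ifs <;> norm_num)
    ⟨0, zero_mem_fsg _, Finset.prod_pos fun t _ => ?_⟩
  rw [if_pos ⟨rfl, rfl⟩]
  norm_num

/-- normalisation -/
def NmL (Λ : Finset P2) : ℝ := ck Λ / 4 ^ (upT Λ).card

theorem NmL_pos (Λ : Finset P2) : 0 < NmL Λ := div_pos (ck_pos Λ) (by positivity)

theorem tz_conf0 {Λ : Finset P2} {ξ : P2 → ℤ} (hξ : Bv Λ ξ) {f : Cfg → ℝ} (hf : TZ f) {ω : Cfg}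
    (h : ω ∈ cf Λ ξ) : f ω = f (mkZ (upT Λ) (tmL Λ ω.1) (zm (upT Λ) ω)) := by
  rw [mem_cf] at h
  have hh : ω.1 ∈ It844.conf Λ ξ := It844.mem_conf.2 h.1
  refine hf _ _ (fun v => ?_) (fun e => ?_)
  · apply bool_eq_of_iff
    rw [mkZ_s, mem_tmL hξ hh, sf_iff, not_not]
  · apply bool_eq_of_iff
    rw [mkZ_z]
    unfold zm
    rw [Finset.mem_filter]
    constructor
    · intro hz
      by_cases he : e ∈ upT Λ
      · exact Or.inr ⟨he, hz⟩
      · exact Or.inl he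
    · rintro (he | he)
      · exact h.2 e he
      · exact he.2

theorem ew_eq0 {Λ : Finset P2} {ξ : P2 → ℤ} (hξ : Bv Λ ξ) {h : P2 → ℤ} (hh : h ∈ It844.conf Λ ξ)
    (c : ℝ) {Z : Finset P2} {t : P2} (ht : t ∈ upT Λ) :
    ew c (h, zb (upT Λ) Z) t = ewS c (tmL Λ h) (amL Λ h ∪ A0 Λ ξ) Z t := by
  have e : (zb (upT Λ) Z t = true) ↔ t ∈ Z := by
    unfold zb
    rw [decide_eq_true_eq]
    constructor
    · rintro (h | h)
      · exact absurd ht h
      · exact h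
    · exact Or.inr
  unfold ew ewS
  simp only [c1_iff0 hξ hh, c2_iff0 hξ hh ht, e]

/-- **The `(s1, Z)` marginal.** -/
theorem S0_tz {Λ : Finset P2} {ξ : P2 → ℤ} (hΛ : IsConn ((Λ : Set P2)ᶜ)) (hξ : Bv Λ ξ) (c : ℝ)
    {f : Cfg → ℝ} (hf : TZ f) :
    S0 c Λ ξ f = NmL Λ * ∑ T ∈ Λ.powerset, ∑ Z ∈ (upT Λ).powerset,
      fw up c (upT Λ) T Z * nL Λ Z * (cI Λ ξ Z * f (mkZ (upT Λ) T Z)) := by
  classical
  set K := upT Λ with hK
  have h0 : S0 c Λ ξ f = ∑ h ∈ It844.conf Λ ξ, ∑ Z ∈ K.powerset,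
      (∏ t ∈ K, ewS c (tmL Λ h) (amL Λ h ∪ A0 Λ ξ) Z t) * f (mkZ K (tmL Λ h) Z) := by
    unfold S0 cf
    rw [Finset.sum_product]
    refine Finset.sum_congr rfl fun h hh => ?_
    rw [sum_zs]
    refine Finset.sum_congr rfl fun Z hZ => ?_
    rw [Finset.mem_powerset] at hZ
    have hm : (h, zb K Z) ∈ cf Λ ξ := by
      rw [mem_cf]
      refine ⟨It844.mem_conf.1 hh, fun t ht => ?_⟩
      show zb K Z t = true
      unfold zb
      rw [decide_eq_true_eq]
      exact Or.inl ht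
    rw [tz_conf0 hξ hf hm, ← hK, zm_zb hZ]
    congr 1
    exact Finset.prod_congr rfl fun t ht => ew_eq0 hξ hh c ht
  rw [h0, sum_conf0 hΛ hξ (fun T A => ∑ Z ∈ K.powerset,
    (∏ t ∈ K, ewS c T (A ∪ A0 Λ ξ) Z t) * f (mkZ K T Z)), Finset.mul_sum]
  refine Finset.sum_congr rfl fun T _ => ?_
  have h1 : ∀ A ∈ Λ.powerset, (if ∀ t ∈ upT Λ, M3 (cr t) (ch T) ∨ M3 (cr t) (ch (A ∪ A0 Λ ξ)) then
      ∑ Z ∈ K.powerset, (∏ t ∈ K, ewS c T (A ∪ A0 Λ ξ) Z t) * f (mkZ K T Z) else 0) =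
      ∑ Z ∈ K.powerset, (∏ t ∈ K, ewS c T (A ∪ A0 Λ ξ) Z t) * f (mkZ K T Z) := by
    intro A _
    split_ifs with h
    · rfl
    · push Not at h
      obtain ⟨t, ht, h1, h2⟩ := h
      symm
      refine Finset.sum_eq_zero fun Z _ => ?_
      rw [Finset.prod_eq_zero (i := t) ht, zero_mul]
      unfold ewS
      rw [if_neg h1, if_neg h2]
      split_ifs <;> rfl
  rw [Finset.sum_congr rfl h1, Finset.sum_comm, Finset.mul_sum]
  refine Finset.sum_congr rfl fun Z hZ => ?_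
  rw [Finset.mem_powerset] at hZ
  have e1 : ∀ A : Finset P2, ∏ t ∈ K, ewS c T A Z t =
      ((∏ t ∈ Z, if M3 (cr t) (ch T) then (1 : ℝ) else 0) *
        ∏ t ∈ K \ Z, if M3 (cr t) (ch T) then c - 1 else 1) *
      ∏ t ∈ K \ Z, (if M3 (cr t) (ch A) then (1 : ℝ) else 0) := by
    intro A
    rw [← Finset.prod_inter_mul_prod_sdiff K Z, Finset.inter_eq_right.2 hZ, mul_assoc,
      ← Finset.prod_mul_distrib]
    congr 1
    · refine Finset.prod_congr rfl fun t ht => ?_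
      unfold ewS
      rw [if_pos ht]
    · refine Finset.prod_congr rfl fun t ht => ?_
      unfold ewS
      rw [if_neg (Finset.mem_sdiff.1 ht).2]
      split_ifs <;> ring
  have e2 : fw up c K T Z = 4 ^ Z.card * ((∏ t ∈ Z, if M3 (cr t) (ch T) then (1 : ℝ) else 0) *
        ∏ t ∈ K \ Z, if M3 (cr t) (ch T) then c - 1 else 1) := by
    unfold fw
    rw [← Finset.prod_inter_mul_prod_sdiff K Z, Finset.inter_eq_right.2 hZ, ← mul_assoc,
      ← Finset.prod_const, ← Finset.prod_mul_distrib]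
    congr 1
    · refine Finset.prod_congr rfl fun t ht => ?_
      simp only [cs_iff]
      rw [if_pos ht, if_pos ht]
      split_ifs <;> ring
    · refine Finset.prod_congr rfl fun t ht => ?_
      simp only [cs_iff]
      rw [if_neg (Finset.mem_sdiff.1 ht).2, if_neg (Finset.mem_sdiff.1 ht).2]
  have e3 : (K \ Z).card + Z.card = K.card := Finset.card_sdiff_add_card_eq_card hZ
  rw [← Finset.sum_mul, Finset.sum_congr rfl fun A _ => e1 (A ∪ A0 Λ ξ), ← Finset.mul_sum,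
    count_xi, count0 hΛ hZ, e2]
  unfold NmL nL
  rw [← hK, ← e3, pow_add]
  have h4 : (4 : ℝ) ^ (K \ Z).card ≠ 0 := by positivity
  have h5 : (4 : ℝ) ^ Z.card ≠ 0 := by positivity
  field_simp

end Crest.Agent.R144.Zo349
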