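import Crest.Agent.R144.Zo3_349

/-!
# R144: environments for the law with fixed boundary heights (helper349)

`B ⊆ upT Λ` simply connected set of up triangles with `IV B ⊆ Λ`.
* hyperedges `Hy` = up triangles `t` and wirings `w a`; `EBL c Λ B η f`;
* `decompL` : environment decomposition;
* `maxL`, `minL` : extremal environments, `psi_wired`, `EBL_max`, `EBL_min` : they are the F-type law of `B` and
  its shift by `2`.
-/

set_option autoImplicit false
set_option linter.unusedSectionVars false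
set_option linter.unusedSimpArgs false

noncomputable section

namespace Crest.Agent.R144.Zo349

open Finset
open Crest.Agent.R144.It844 (P2 Lip Cst adj_iff adj_symm lip_iff upT mem_upT tw adj_up exists_exit)
open Crest.Agent.R144.Zg349 Crest.Agent.R144.Zk349 Crest.Agent.R144.Zd349 Crest.Agent.R144.Zm349
open Crest.Agent.R144.HyA349 Crest.Agent.R144.HyB349 Crest.Agent.R144.HyC349
open Crest.Agent.R144.Ze349 Crest.Agent.R144.Zs349 Crest.Agent.R144.Zf349
open Crest.ProbabilityR.HexHeights (Adj)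
open Crest.Agent.R161.KWabs729 (z2_cases)

/-- hyperedges -/
inductive Hy : Type
  | t (t : P2)
  | w (a : Du)
  deriving DecidableEq

/-- corners of a hyperedge -/
def uph (B : Finset P2) : Hy → Finset P2
  | Hy.t t => up t
  | Hy.w _ => VF B \ IV B

/-- target of a wired dual -/
def tgt (B : Finset P2) : Du → Du
  | Du.p t i => if dn t i ∈ ID B then Du.f (dn t i) else Du.r
  | _ => Du.r

theorem tgt_p (B : Finset P2) (t : P2) (i : Fin 3) :
    tgt B (Du.p t i) = if dn t i ∈ ID B then Du.f (dn t i) else Du.r := rfl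

/-- dual vertices of a hyperedge -/
def dnh (Λ B : Finset P2) : Hy → Fin 3 → Du
  | Hy.t t => dnp Λ t
  | Hy.w a => ![a, tgt B a, tgt B a]

/-- triangles as hyperedges -/
def emb (Z : Finset P2) : Finset Hy := Z.image Hy.t

theorem mem_emb {Z : Finset P2} {e : Hy} : e ∈ emb Z ↔ ∃ t ∈ Z, Hy.t t = e := by
  unfold emb; rw [Finset.mem_image]

theorem t_mem_emb {Z : Finset P2} {t : P2} : Hy.t t ∈ emb Z ↔ t ∈ Z := by
  rw [mem_emb]
  constructor
  · rintro ⟨s, hs, h⟩
    injection h with h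
    rwa [← h]
  · exact fun h => ⟨t, h, rfl⟩

theorem w_notMem_emb {Z : Finset P2} {a : Du} : Hy.w a ∉ emb Z := by
  rw [mem_emb]
  rintro ⟨t, _, h⟩
  exact Hy.noConfusion h

theorem t_inj : Function.Injective Hy.t := fun _ _ h => by injection h

/-- triangles of a set of hyperedges -/
def pull (P : Finset Hy) : Finset P2 := P.biUnion fun e => match e with
  | Hy.t s => {s}
  | Hy.w _ => ∅

theorem mem_pull {P : Finset Hy} {t : P2} : t ∈ pull P ↔ Hy.t t ∈ P := by
  unfold pull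
  rw [Finset.mem_biUnion]
  constructor
  · rintro ⟨e, he, h⟩
    cases e with
    | t s =>
      simp only [Finset.mem_singleton] at h
      rwa [h]
    | w a => simp at h
  · intro h
    exact ⟨Hy.t t, h, by simp⟩

theorem pull_mono {P P' : Finset Hy} (h : P ⊆ P') : pull P ⊆ pull P' := fun t ht =>
  mem_pull.2 (h (mem_pull.1 ht))

theorem emb_union (Z Z' : Finset P2) : emb (Z ∪ Z') = emb Z ∪ emb Z' := Finset.image_union _ _

theorem psi_nc' {β ε : Type*} [DecidableEq β] [DecidableEq ε] (dn : ε → Fin 3 → β) (c c' : ℝ)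
    (VA : Finset β) (D : Finset ε) : psi dn VA c D ∅ = psi dn VA c' D ∅ := by
  unfold psi
  simp only [Finset.prod_empty]

theorem psi_emb (Λ B : Finset P2) (c : ℝ) (Z : Finset P2) :
    psi (dnh Λ B) (VA Λ) c (emb Z) ∅ = nL Λ Z := by
  rw [psi_fsg]
  unfold nL emb
  refine Finset.sum_congr rfl fun σ _ => ?_
  rw [Finset.prod_image fun x _ y _ h => t_inj h]
  rfl

theorem psi_emb0 (Λ B : Finset P2) (c : ℝ) : psi (dnh Λ B) (VA Λ) c ∅ ∅ = nL Λ ∅ := by
  have h := psi_emb Λ B c ∅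
  have e : emb ∅ = ∅ := Finset.image_empty _
  rwa [e] at h

theorem sum_emb (B : Finset P2) (G : Finset Hy → ℝ) :
    ∑ Z ∈ (emb B).powerset, G Z = ∑ Z ∈ B.powerset, G (emb Z) := by
  classical
  have h : (emb B).powerset = B.powerset.image emb := by
    ext Z
    rw [Finset.mem_powerset, Finset.mem_image]
    constructor
    · intro hZ
      refine ⟨pull Z, Finset.mem_powerset.2 fun t ht => t_mem_emb.1 (hZ (mem_pull.1 ht)), ?_⟩
      ext e
      rw [mem_emb]
      constructor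
      · rintro ⟨t, ht, rfl⟩
        exact mem_pull.1 ht
      · intro he
        obtain ⟨t, _, rfl⟩ := mem_emb.1 (hZ he)
        exact ⟨t, mem_pull.2 he, rfl⟩
    · rintro ⟨Z', hZ', rfl⟩
      exact Finset.image_subset_image (Finset.mem_powerset.1 hZ')
  rw [h, Finset.sum_image]
  intro x _ y _ hxy
  ext t
  rw [← t_mem_emb, ← t_mem_emb (Z := y), hxy]

theorem fw_emb (c : ℝ) (B E X Z : Finset P2) :
    fw (uph B) c (emb E) X (emb Z) = fw up c E X Z := by
  unfold fw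
  unfold emb
  rw [Finset.prod_image fun x _ y _ h => t_inj h]
  refine Finset.prod_congr rfl fun t _ => ?_
  have h1 : Cs (uph B) X (Hy.t t) ↔ Cs up X t := Iff.rfl
  have h2 : Hy.t t ∈ Z.image Hy.t ↔ t ∈ Z := t_mem_emb
  simp only [h1, h2]

theorem pull_E2 (B E X Z : Finset P2) :
    pull (emb Z ∩ E2 (uph B) (emb E) X) = Z ∩ E2 up E X := by
  ext t
  rw [mem_pull, Finset.mem_inter, Finset.mem_inter, t_mem_emb]
  unfold E2
  rw [Finset.mem_filter, Finset.mem_filter, t_mem_emb]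
  rfl

theorem pull_E1 (B E X Z : Finset P2) :
    pull (emb Z ∩ E1 (uph B) (emb E) X) = Z ∩ E1 up E X := by
  ext t
  rw [mem_pull, Finset.mem_inter, Finset.mem_inter, t_mem_emb]
  unfold E1
  rw [Finset.mem_filter, Finset.mem_filter, t_mem_emb]
  rfl

/-- environment expectation -/
def EBL (c : ℝ) (Λ B : Finset P2) (η : BC P2 Hy) (f : Finset P2 → Finset P2 → Finset P2 → ℝ) : ℝ :=
  En (uph B) (dnh Λ B) (VA Λ) (IV B) (emb B) c η fun T P M => f T (pull P) (pull M)

abbrev SepL (Λ B : Finset P2) (η : BC P2 Hy) : Prop :=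
  Sep (uph B) (dnh Λ B) (VA Λ) (IV B) (emb B) η

theorem EBL_eq (c : ℝ) (Λ B : Finset P2) {η : BC P2 Hy} (hs : SepL Λ B η)
    (f : Finset P2 → Finset P2 → Finset P2 → ℝ) :
    EBL c Λ B η f = nL Λ ∅ * ∑ T ∈ (IV B).powerset, ∑ Z ∈ B.powerset,
      fw up c B (T ∪ η.T0) Z * psi (dnh Λ B) (VA Λ) c (η.Dp ∪ η.Dm ∪ emb Z) ∅ *
        f T (Z ∩ E2 up B (T ∪ η.T0)) (Z ∩ E1 up B (T ∪ η.T0)) := by
  unfold EBL
  rw [En_Z c hs, psi_emb0]
  congr 1
  refine Finset.sum_congr rfl fun T _ => ?_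
  rw [sum_emb]
  refine Finset.sum_congr rfl fun Z _ => ?_
  rw [fw_emb, pull_E2, pull_E1]

/-- increasing functions stay increasing -/
theorem inc_pull {f : Finset P2 → Finset P2 → Finset P2 → ℝ} (hf : Inc f) :
    Inc fun (T : Finset P2) (P M : Finset Hy) => f T (pull P) (pull M) :=
  fun _ _ _ _ _ _ h1 h2 h3 => hf _ _ _ _ _ _ h1 (pull_mono h2) (pull_mono h3)

theorem EBL_fkg {c : ℝ} (hc : 1 ≤ c) {Λ B : Finset P2} {η : BC P2 Hy}
    (hη : η.Ok (IV B) (emb B)) {f g : Finset P2 → Finset P2 → Finset P2 → ℝ}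
    (hf : Inc f) (hg : Inc g) :
    EBL c Λ B η f * EBL c Λ B η g ≤
      EBL c Λ B η (fun _ _ _ => 1) * EBL c Λ B η (fun T P M => f T P M * g T P M) :=
  En_fkg (up := uph B) (dn := dnh Λ B) (VA := VA Λ) hc hη (inc_pull hf) (inc_pull hg)

theorem EBL_mono {c : ℝ} (hc : 1 ≤ c) {Λ B : Finset P2} {η η' : BC P2 Hy}
    (hη : η.Ok (IV B) (emb B)) (hη' : η'.Ok (IV B) (emb B)) (hle : η.Le η')
    {f : Finset P2 → Finset P2 → Finset P2 → ℝ} (hf : Inc f) :
    EBL c Λ B η f * EBL c Λ B η' (fun _ _ _ => 1) ≤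
      EBL c Λ B η (fun _ _ _ => 1) * EBL c Λ B η' f :=
  En_mono (up := uph B) (dn := dnh Λ B) (VA := VA Λ) hc hη hη' hle (inc_pull hf)

theorem EBL_one_pos {c : ℝ} (hc : 1 ≤ c) {Λ B : Finset P2} {η : BC P2 Hy}
    (hη : η.Ok (IV B) (emb B)) : 0 < EBL c Λ B η (fun _ _ _ => 1) :=
  En_one_pos (up := uph B) (dn := dnh Λ B) (VA := VA Λ) hc hη

theorem EBL_nonneg {c : ℝ} (hc : 1 ≤ c) {Λ B : Finset P2} {η : BC P2 Hy}
    {f : Finset P2 → Finset P2 → Finset P2 → ℝ} (hf : ∀ T P M, 0 ≤ f T P M) :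
    0 ≤ EBL c Λ B η f := by
  unfold EBL En
  refine Finset.sum_nonneg fun T _ => Finset.sum_nonneg fun M _ => Finset.sum_nonneg
    fun P _ => ?_
  exact mul_nonneg (mul_nonneg (aw_nonneg _ _ hc _ _ _) (aw_nonneg _ _ hc _ _ _)) (hf _ _ _)

/-! ### sharing sites -/

theorem share_dn {t t' : P2} {i j : Fin 3} (h : dn t i = dn t' j) :
    ∃ k l, k ≠ i ∧ l ≠ j ∧ cr t k = cr t' l := by
  obtain ⟨a, b⟩ := t
  obtain ⟨x, y⟩ := t'
  fin_cases i <;> fin_cases j <;>
    simp only [Fin.zero_eta, Fin.mk_one, Fin.reduceFinMk, dn0, dn1, dn2, Prod.mk.injEq] at h <;>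
    obtain ⟨h1, h2⟩ := h
  · exact ⟨1, 1, by decide, by decide, by simp [h1, h2]⟩
  · exact ⟨1, 0, by decide, by decide, by simp; omega⟩
  · exact ⟨2, 0, by decide, by decide, by simp; omega⟩
  · exact ⟨0, 1, by decide, by decide, by simp; omega⟩
  · exact ⟨0, 0, by decide, by decide, by simp; omega⟩
  · exact ⟨2, 1, by decide, by decide, by simp; omega⟩
  · exact ⟨0, 2, by decide, by decide, by simp; omega⟩
  · exact ⟨1, 2, by decide, by decide, by simp; omega⟩
  · exact ⟨0, 0, by decide, by decide, by simp; omega⟩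

theorem share_dnp {Λ : Finset P2} {t t' : P2} {i j : Fin 3} (h : dnp Λ t i = dnp Λ t' j) :
    ∃ v ∈ up t, v ∈ up t' := by
  unfold dnp at h
  split_ifs at h with h1 h2
  · injection h with h
    exact share h
  · injection h with h3 h4
    subst h3
    exact ⟨t, base_mem_up t, base_mem_up t⟩

/-! ### the environments seen by `B` -/

/-- environment seen by `B` -/
def etaL (T1 Z1 : Finset P2) : BC P2 Hy :=
  ⟨T1, emb (Z1.filter fun t => t ∉ T1), emb (Z1.filter fun t => t ∈ T1)⟩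

theorem etaL_union (T1 Z1 : Finset P2) : (etaL T1 Z1).Dp ∪ (etaL T1 Z1).Dm = emb Z1 := by
  unfold etaL
  simp only
  rw [← emb_union]
  congr 1
  ext e
  simp only [Finset.mem_union, Finset.mem_filter]
  tauto

theorem emb_disj {Z B : Finset P2} (h : ∀ t ∈ Z, t ∉ B) : Disjoint (emb Z) (emb B) := by
  rw [Finset.disjoint_left]
  intro e h1 h2
  obtain ⟨t, ht, rfl⟩ := mem_emb.1 h1
  exact h t ht (t_mem_emb.1 h2)

theorem etaL_ok {B Λ K T1 Z1 : Finset P2} (hT1 : T1 ⊆ Λ \ IV B) (hZ1 : Z1 ⊆ K \ B) :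
    (etaL T1 Z1).Ok (IV B) (emb B) := by
  refine ⟨?_, emb_disj fun t ht => (Finset.mem_sdiff.1 (hZ1 (Finset.mem_filter.1 ht).1)).2,
    emb_disj fun t ht => (Finset.mem_sdiff.1 (hZ1 (Finset.mem_filter.1 ht).1)).2⟩
  rw [Finset.disjoint_left]
  intro v hv
  exact (Finset.mem_sdiff.mp (hT1 hv)).2

theorem etaL_sep {Λ B K T1 Z1 : Finset P2} (hZ1 : Z1 ⊆ K \ B) (h : ∀ t ∈ Z1, Cs up T1 t) :
    SepL Λ B (etaL T1 Z1) := by
  constructor
  · intro e he v hv
    obtain ⟨t, ht, rfl⟩ := mem_emb.1 he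
    rw [Finset.mem_filter] at ht
    refine ⟨fun hv' => (Finset.mem_sdiff.mp (hZ1 ht.1)).2 (mem_of_corner hv hv'), ?_⟩
    exact cs_plus (h t ht.1) ht.2 v hv
  · intro e he v hv
    obtain ⟨t, ht, rfl⟩ := mem_emb.1 he
    rw [Finset.mem_filter] at ht
    exact cs_minus (h t ht.1) ht.2 v hv
  · intro e he e' he' i j hij _
    have a : ∀ (s : Finset P2) e, e ∈ emb B ∪ emb s → ∃ t, Hy.t t = e := by
      intro s e h
      rcases Finset.mem_union.1 h with h | h <;> obtain ⟨t, _, h⟩ := mem_emb.1 h <;> exact ⟨t, h⟩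
    obtain ⟨t, rfl⟩ := a _ e he
    obtain ⟨t', rfl⟩ := a _ e' he'
    exact share_dnp (Λ := Λ) hij
  · intro e he
    obtain ⟨t, _, rfl⟩ := mem_emb.1 he
    exact ⟨t, base_mem_up t⟩

/-- **Environment decomposition.** -/
theorem decompL (c : ℝ) {Λ B K : Finset P2} (hBK : B ⊆ K) (hIV : IV B ⊆ Λ)
    (Φ : Finset P2 → Finset P2 → Finset P2 → Finset P2 → Finset P2 → ℝ) :
    nL Λ ∅ * ∑ T ∈ Λ.powerset, ∑ Z ∈ K.powerset, fw up c K T Z * nL Λ Z *
      Φ (T \ IV B) (Z \ B) (T ∩ IV B) (Z ∩ E2 up B T) (Z ∩ E1 up B T) =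
    ∑ T1 ∈ (Λ \ IV B).powerset, ∑ Z1 ∈ (K \ B).powerset,
      fw up c (K \ B) T1 Z1 * EBL c Λ B (etaL T1 Z1) (Φ T1 Z1) := by
  rw [sum_powerset_split hIV, Finset.mul_sum]
  refine Finset.sum_congr rfl fun T1 hT1 => ?_
  rw [Finset.mem_powerset] at hT1
  have h0 : ∀ T2 ∈ (IV B).powerset,
      ∑ Z ∈ K.powerset, fw up c K (T2 ∪ T1) Z * nL Λ Z *
        Φ ((T2 ∪ T1) \ IV B) (Z \ B) ((T2 ∪ T1) ∩ IV B) (Z ∩ E2 up B (T2 ∪ T1))
          (Z ∩ E1 up B (T2 ∪ T1)) =
      ∑ Z1 ∈ (K \ B).powerset, ∑ Z2 ∈ B.powerset,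
        fw up c (K \ B) T1 Z1 * fw up c B (T2 ∪ T1) Z2 *
          nL Λ (Z2 ∪ Z1) * Φ T1 Z1 T2 (Z2 ∩ E2 up B (T2 ∪ T1))
            (Z2 ∩ E1 up B (T2 ∪ T1)) := by
    intro T2 hT2
    rw [Finset.mem_powerset] at hT2
    rw [sum_powerset_split hBK]
    refine Finset.sum_congr rfl fun Z1 hZ1 => Finset.sum_congr rfl fun Z2 hZ2 => ?_
    rw [Finset.mem_powerset] at hZ1 hZ2
    rw [fw_split c hBK hT2 hZ2 hZ1]
    have a1 : (T2 ∪ T1) \ IV B = T1 := by
      ext x
      have := fun h : x ∈ T1 => (Finset.mem_sdiff.mp (hT1 h)).2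
      have := fun h : x ∈ T2 => hT2 h
      simp only [Finset.mem_union, Finset.mem_sdiff]
      tauto
    have a2 : (T2 ∪ T1) ∩ IV B = T2 := by
      ext x
      have := fun h : x ∈ T1 => (Finset.mem_sdiff.mp (hT1 h)).2
      have := fun h : x ∈ T2 => hT2 h
      simp only [Finset.mem_union, Finset.mem_inter]
      tauto
    have a3 : (Z2 ∪ Z1) \ B = Z1 := by
      ext x
      have := fun h : x ∈ Z1 => (Finset.mem_sdiff.mp (hZ1 h)).2
      have := fun h : x ∈ Z2 => hZ2 h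
      simp only [Finset.mem_union, Finset.mem_sdiff]
      tauto
    have a4 : ∀ W ⊆ B, (Z2 ∪ Z1) ∩ W = Z2 ∩ W := by
      intro W hW
      ext x
      have := fun h : x ∈ Z1 => (Finset.mem_sdiff.mp (hZ1 h)).2
      have := fun h : x ∈ W => hW h
      simp only [Finset.mem_union, Finset.mem_inter]
      tauto
    rw [a1, a2, a3, a4 _ (E2_sub _ _ _), a4 _ (E1_sub _ _ _)]
  rw [Finset.sum_congr rfl h0, Finset.sum_comm, Finset.mul_sum]
  refine Finset.sum_congr rfl fun Z1 hZ1 => ?_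
  rw [Finset.mem_powerset] at hZ1
  by_cases hs : ∀ t ∈ Z1, Cs up T1 t
  · rw [EBL_eq c Λ B (etaL_sep hZ1 hs) (Φ T1 Z1), etaL_union]
    have hT0 : (etaL T1 Z1).T0 = T1 := rfl
    rw [hT0]
    rw [Finset.mul_sum, Finset.mul_sum, Finset.mul_sum]
    refine Finset.sum_congr rfl fun T2 hT2 => ?_
    rw [Finset.mul_sum, Finset.mul_sum, Finset.mul_sum]
    refine Finset.sum_congr rfl fun Z2 hZ2 => ?_
    rw [← emb_union, psi_emb, Finset.union_comm Z2]
    ring
  · rw [fw_zero_of_not c _ _ hZ1 hs]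
    simp only [zero_mul]
    rw [Finset.sum_eq_zero (fun _ _ => Finset.sum_const_zero), mul_zero]

/-! ### extremal environments -/

open Classical in
/-- wirings of all dual vertices which are not interior to `B` -/
def wires (Λ B : Finset P2) : Finset Hy :=
  ((VA Λ).filter fun a => ∀ w ∈ ID B, a ≠ Du.f w).image Hy.w

theorem mem_wires {Λ B : Finset P2} {e : Hy} :
    e ∈ wires Λ B ↔ ∃ a ∈ VA Λ, (∀ w ∈ ID B, a ≠ Du.f w) ∧ Hy.w a = e := by
  unfold wires
  rw [Finset.mem_image]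
  constructor
  · rintro ⟨a, ha, h⟩
    rw [Finset.mem_filter] at ha
    exact ⟨a, ha.1, ha.2, h⟩
  · rintro ⟨a, h1, h2, h3⟩
    exact ⟨a, Finset.mem_filter.2 ⟨h1, h2⟩, h3⟩

/-- maximal environment -/
def maxL (Λ B : Finset P2) : BC P2 Hy := ⟨∅, emb (upT Λ \ B) ∪ wires Λ B, ∅⟩

/-- minimal environment -/
def minL (Λ B : Finset P2) : BC P2 Hy :=
  ⟨(Λ ∪ VF B) \ IV B, ∅, emb ((upT Λ \ B).filter fun t => up t ⊆ (Λ ∪ VF B) \ IV B) ∪ wires Λ B⟩

theorem wires_disj (Λ B E : Finset P2) : Disjoint (wires Λ B) (emb E) := by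
  rw [Finset.disjoint_left]
  intro e h1 h2
  obtain ⟨a, _, _, rfl⟩ := mem_wires.1 h1
  exact w_notMem_emb h2

theorem maxL_ok (Λ B : Finset P2) : (maxL Λ B).Ok (IV B) (emb B) := by
  refine ⟨Finset.disjoint_empty_left _, ?_, Finset.disjoint_empty_left _⟩
  exact Finset.disjoint_union_left.2 ⟨emb_disj fun t ht => (Finset.mem_sdiff.1 ht).2, wires_disj _ _ _⟩

theorem minL_ok (Λ B : Finset P2) : (minL Λ B).Ok (IV B) (emb B) := by
  refine ⟨Finset.sdiff_disjoint, Finset.disjoint_empty_left _, ?_⟩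
  exact Finset.disjoint_union_left.2 ⟨emb_disj fun t ht =>
    (Finset.mem_sdiff.1 (Finset.mem_filter.1 ht).1).2, wires_disj _ _ _⟩

/-- a triangle of `B` touching a wired dual has a boundary site -/
theorem wire_corner {Λ B : Finset P2} (hIV : IV B ⊆ Λ) {a : Du} (ha : a ∈ VA Λ)
    (haB : ∀ w ∈ ID B, a ≠ Du.f w) {t : P2} (ht : t ∈ B) {j : Fin 3}
    (h : a = dnp Λ t j ∨ tgt B a = dnp Λ t j) :
    ∃ v ∈ up t, v ∈ VF B \ IV B := by
  have fin : (∃ k, cr t k ∉ IV B) → ∃ v ∈ up t, v ∈ VF B \ IV B := by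
    rintro ⟨k, hk⟩
    exact ⟨cr t k, cr_mem_up t k, Finset.mem_sdiff.2 ⟨cr_mem_VF' ht k, hk⟩⟩
  apply fin
  by_cases h1 : Tc Λ t j
  · have e : dnp Λ t j = Du.f (dn t j) := if_pos h1
    rw [e] at h
    rcases h with h | h
    · -- `a = f w`, `w` not interior
      have hw : dn t j ∉ ID B := fun h' => haB _ h' h
      rw [mem_ID'] at hw
      push Not at hw
      obtain ⟨s, i, h2, h3⟩ := hw
      obtain ⟨k, l, _, _, h4⟩ := share_dn h2
      refine ⟨k, fun h5 => h3 (mem_of_corner (cr_mem_up s l) ?_)⟩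
      rwa [← h4]
    · -- target
      cases a with
      | f w => exact Du.noConfusion h
      | r => exact Du.noConfusion h
      | p s i =>
        rw [tgt_p] at h
        split_ifs at h with h2
        injection h with h
        obtain ⟨k, l, hk, hl, h4⟩ := share_dn h
        refine ⟨l, fun h5 => p_mem ha ⟨k, hk, hIV ?_⟩⟩
        rwa [h4]
  · -- private dual: the side `j` is off `Λ`
    obtain ⟨k, hk⟩ : ∃ k : Fin 3, k ≠ j := by
      have : ∀ j : Fin 3, ∃ k, k ≠ j := by decide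
      exact this j
    exact ⟨k, fun h5 => h1 ⟨k, hk, hIV h5⟩⟩

theorem dnh_w {Λ B : Finset P2} {a : Du} (i : Fin 3) :
    dnh Λ B (Hy.w a) i = a ∨ dnh Λ B (Hy.w a) i = tgt B a := by
  fin_cases i
  · exact Or.inl rfl
  · exact Or.inr rfl
  · exact Or.inr rfl

theorem maxL_sep {Λ B : Finset P2} (hIV : IV B ⊆ Λ) : SepL Λ B (maxL Λ B) := by
  constructor
  · intro e he v hv
    rcases Finset.mem_union.1 he with he | he
    · obtain ⟨t, ht, rfl⟩ := mem_emb.1 he
      exact ⟨fun hv' => (Finset.mem_sdiff.mp ht).2 (mem_of_corner hv hv'), by simp [maxL]⟩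
    · obtain ⟨a, _, _, rfl⟩ := mem_wires.1 he
      exact ⟨(Finset.mem_sdiff.1 hv).2, by simp [maxL]⟩
  · intro e he
    exact absurd he (by simp [maxL])
  · intro e he e' he' i j hij hmem
    have h1 : ∃ t' ∈ B, Hy.t t' = e' := by
      have : e' ∈ emb B := by simpa [maxL] using he'
      exact mem_emb.1 this
    obtain ⟨t', ht', rfl⟩ := h1
    have h2 : (∃ t, Hy.t t = e) ∨ e ∈ wires Λ B := by
      rcases Finset.mem_union.1 he with h | h
      · obtain ⟨t, _, h⟩ := mem_emb.1 h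
        exact Or.inl ⟨t, h⟩
      · rcases Finset.mem_union.1 h with h | h
        · obtain ⟨t, _, h⟩ := mem_emb.1 h
          exact Or.inl ⟨t, h⟩
        · exact Or.inr h
    rcases h2 with ⟨t, rfl⟩ | h2
    · exact share_dnp (Λ := Λ) hij
    · obtain ⟨a, ha, haB, rfl⟩ := mem_wires.1 h2
      have hj : dnh Λ B (Hy.t t') j = dnp Λ t' j := rfl
      rw [hij, hj] at hmem
      obtain ⟨v, hv, hv'⟩ := wire_corner hIV ha haB ht' (j := j)
        ((dnh_w (Λ := Λ) (B := B) (a := a) i).imp (fun h => by rw [← h, hij, hj])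
          (fun h => by rw [← h, hij, hj]))
      exact ⟨v, hv', hv⟩
  · intro e he
    obtain ⟨t, _, rfl⟩ := mem_emb.1 he
    exact ⟨t, base_mem_up t⟩

theorem minL_sep {Λ B : Finset P2} (hIV : IV B ⊆ Λ) : SepL Λ B (minL Λ B) := by
  constructor
  · intro e he
    exact absurd he (by simp [minL])
  · intro e he v hv
    rcases Finset.mem_union.1 he with he | he
    · obtain ⟨t, ht, rfl⟩ := mem_emb.1 he
      exact (Finset.mem_filter.1 ht).2 hv
    · obtain ⟨a, _, _, rfl⟩ := mem_wires.1 he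
      have h1 := Finset.mem_sdiff.1 hv
      exact Finset.mem_sdiff.2 ⟨Finset.mem_union_right _ h1.1, h1.2⟩
  · intro e' he' e he j i hij hmem
    have h1 : ∃ t' ∈ B, Hy.t t' = e' := by
      have : e' ∈ emb B := by simpa [minL] using he'
      exact mem_emb.1 this
    obtain ⟨t', ht', rfl⟩ := h1
    have h2 : (∃ t, Hy.t t = e) ∨ e ∈ wires Λ B := by
      rcases Finset.mem_union.1 he with h | h
      · obtain ⟨t, _, h⟩ := mem_emb.1 h
        exact Or.inl ⟨t, h⟩
      · rcases Finset.mem_union.1 h with h | h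
        · obtain ⟨t, _, h⟩ := mem_emb.1 h
          exact Or.inl ⟨t, h⟩
        · exact Or.inr h
    have hj : dnh Λ B (Hy.t t') j = dnp Λ t' j := rfl
    rcases h2 with ⟨t, rfl⟩ | h2
    · exact share_dnp (Λ := Λ) hij
    · obtain ⟨a, ha, haB, rfl⟩ := mem_wires.1 h2
      rw [hj] at hmem
      obtain ⟨v, hv, hv'⟩ := wire_corner hIV ha haB ht' (j := j)
        ((dnh_w (Λ := Λ) (B := B) (a := a) i).imp (fun h => by rw [← h, ← hij, hj])
          (fun h => by rw [← h, ← hij, hj]))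
      exact ⟨v, hv, hv'⟩
  · intro e he
    obtain ⟨t, _, rfl⟩ := mem_emb.1 he
    exact ⟨t, base_mem_up t⟩

/-- `psi` as the number of admissible spin functions -/
theorem psi_card {β ε : Type*} [DecidableEq β] [DecidableEq ε] (dn : ε → Fin 3 → β) (VA : Finset β)
    (c : ℝ) (D : Finset ε) [DecidablePred fun s : β → ZMod 2 => ∀ e ∈ D, M3 (dn e) s] :
    psi dn VA c D ∅ = (((fsg VA).filter fun s => ∀ e ∈ D, M3 (dn e) s).card : ℝ) := by
  rw [psi_fsg, Finset.card_filter, Nat.cast_sum]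
  refine Finset.sum_congr rfl fun s _ => ?_
  by_cases h : ∀ e ∈ D, M3 (dn e) s
  · rw [if_pos h]
    push_cast
    exact Finset.prod_eq_one fun e he => if_pos (h e he)
  · rw [if_neg h]
    push Not at h
    obtain ⟨e, he, h1⟩ := h
    push_cast
    exact Finset.prod_eq_zero he (if_neg h1)

theorem M3_const {α : Type*} {c : Fin 3 → α} {s : α → ZMod 2} (h : ∀ i, s (c i) = 0) : M3 c s :=
  ⟨by rw [h, h], by rw [h, h]⟩

/-- **the wired dual count is the one of `B`** -/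
theorem psi_wired (c : ℝ) {Λ B R Z : Finset P2} (hBK : B ⊆ upT Λ) (hR : R ⊆ upT Λ \ B) (hZ : Z ⊆ B) :
    psi (dnh Λ B) (VA Λ) c (emb R ∪ wires Λ B ∪ emb Z) ∅ = ncl B Z := by
  classical
  unfold ncl
  rw [psi_card, psi_card]
  congr 1
  -- interior duals are dual vertices
  have hf : ∀ w ∈ ID B, Du.f w ∈ VA Λ := fun w hw => f_mem (hBK (ID_sub B hw)) 0
  have hpt : ∀ t i, t ∉ B → dn t i ∉ ID B := fun t i ht h => ht ((mem_ID'.1 h) t i rfl)
  -- consequences of the wirings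
  have W1 : ∀ σ : Du → ZMod 2, (∀ a, a ∉ VA Λ → σ a = 0) → (∀ e ∈ wires Λ B, M3 (dnh Λ B e) σ) →
      (∀ w, w ∉ ID B → σ (Du.f w) = 0) ∧
      (∀ t i, Du.p t i ∈ VA Λ → σ (Du.p t i) = σ (Du.f (dn t i))) := by
    intro σ h0 hw
    have hr : σ Du.r = 0 := h0 _ r_notMem
    have key : ∀ a ∈ VA Λ, (∀ w ∈ ID B, a ≠ Du.f w) → σ a = σ (tgt B a) := fun a ha h =>
      (hw (Hy.w a) (mem_wires.2 ⟨a, ha, h, rfl⟩)).1
    have a1 : ∀ w, w ∉ ID B → σ (Du.f w) = 0 := by
      intro w hwB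
      by_cases ha : Du.f w ∈ VA Λ
      · rw [key _ ha fun w' hw' h => by injection h with h; exact hwB (h ▸ hw')]
        exact hr
      · exact h0 _ ha
    refine ⟨a1, fun t i ha => ?_⟩
    rw [key _ ha fun w' _ h => Du.noConfusion h]
    rw [tgt_p]
    by_cases h : dn t i ∈ ID B
    · rw [if_pos h]
    · rw [if_neg h, hr, a1 _ h]
  -- values around a triangle of `B`
  have W2 : ∀ σ : Du → ZMod 2, (∀ t i, Du.p t i ∈ VA Λ → σ (Du.p t i) = σ (Du.f (dn t i))) →
      ∀ t ∈ B, (M3 (dnp Λ t) σ ↔ M3 (dn t) fun w => σ (Du.f w)) := by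
    intro σ h t ht
    have key : ∀ i, σ (dnp Λ t i) = σ (Du.f (dn t i)) := by
      intro i
      by_cases h1 : Tc Λ t i
      · have e : dnp Λ t i = Du.f (dn t i) := if_pos h1
        rw [e]
      · have e : dnp Λ t i = Du.p t i := if_neg h1
        rw [e]
        exact h t i (e ▸ dnp_mem (hBK ht) i)
    unfold M3
    rw [key, key, key]
  let J : (P2 → ZMod 2) → Du → ZMod 2 := fun s a => match a with
    | Du.f w => s w
    | Du.p t i => if Du.p t i ∈ VA Λ then s (dn t i) else 0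
    | Du.r => 0
  refine Finset.card_nbij' (fun σ w => σ (Du.f w)) J ?_ ?_ ?_ ?_
  · intro σ hσ
    rw [Finset.mem_coe, Finset.mem_filter, mem_fsg] at hσ
    obtain ⟨h0, h1⟩ := hσ
    obtain ⟨b1, b2⟩ := W1 σ h0 fun e he => h1 e (Finset.mem_union_left _ (Finset.mem_union_right _ he))
    rw [Finset.mem_coe, Finset.mem_filter, mem_fsg]
    refine ⟨b1, fun t ht => (W2 σ b2 t (hZ ht)).1 ?_⟩
    exact h1 (Hy.t t) (Finset.mem_union_right _ (t_mem_emb.2 ht))
  · intro s hs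
    rw [Finset.mem_coe, Finset.mem_filter, mem_fsg] at hs
    obtain ⟨h0, h1⟩ := hs
    rw [Finset.mem_coe, Finset.mem_filter, mem_fsg]
    have c0 : ∀ a, a ∉ VA Λ → J s a = 0 := by
      intro a ha
      cases a with
      | f w => exact h0 w fun h => ha (hf w h)
      | p t i => exact if_neg ha
      | r => rfl
    have c1 : ∀ t i, Du.p t i ∈ VA Λ → J s (Du.p t i) = J s (Du.f (dn t i)) := fun t i h => if_pos h
    refine ⟨c0, fun e he => ?_⟩
    rcases Finset.mem_union.1 he with he | he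
    · rcases Finset.mem_union.1 he with he | he
      · obtain ⟨t, ht, rfl⟩ := mem_emb.1 he
        have ht' := Finset.mem_sdiff.1 (hR ht)
        refine M3_const fun i => ?_
        show J s (dnp Λ t i) = 0
        unfold dnp
        by_cases h2 : Tc Λ t i
        · rw [if_pos h2]
          exact h0 _ (hpt t i ht'.2)
        · rw [if_neg h2]
          show (if Du.p t i ∈ VA Λ then s (dn t i) else 0) = 0
          rw [h0 _ (hpt t i ht'.2), ite_self]
      · obtain ⟨a, ha, haB, rfl⟩ := mem_wires.1 he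
        have key : J s a = J s (tgt B a) := by
          cases a with
          | f w =>
            show s w = 0
            exact h0 w fun h => haB w h rfl
          | p t i =>
            rw [c1 t i ha]
            rw [tgt_p]
            by_cases h : dn t i ∈ ID B
            · rw [if_pos h]
            · rw [if_neg h]
              exact h0 _ h
          | r => rfl
        exact ⟨key, key⟩
    · obtain ⟨t, ht, rfl⟩ := mem_emb.1 he
      exact (W2 (J s) c1 t (hZ ht)).2 (h1 t ht)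
  · intro σ hσ
    rw [Finset.mem_coe, Finset.mem_filter, mem_fsg] at hσ
    obtain ⟨h0, h1⟩ := hσ
    obtain ⟨b1, b2⟩ := W1 σ h0 fun e he => h1 e (Finset.mem_union_left _ (Finset.mem_union_right _ he))
    funext a
    cases a with
    | f w => rfl
    | p t i =>
      show (if Du.p t i ∈ VA Λ then σ (Du.f (dn t i)) else 0) = σ (Du.p t i)
      by_cases h : Du.p t i ∈ VA Λ
      · rw [if_pos h, b2 t i h]
      · rw [if_neg h, h0 _ h]
    | r => exact (h0 _ r_notMem).symm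
  · intro s _
    rfl

/-- the maximal environment is the F-type law of `B` -/
theorem EBL_max (c : ℝ) {Λ B : Finset P2} (hBK : B ⊆ upT Λ) (hIV : IV B ⊆ Λ)
    (φ : Finset P2 → Finset P2 → Finset P2 → ℝ) :
    EBL c Λ B (maxL Λ B) φ * ncl B ∅ = nL Λ ∅ * EB c (ID B) B (eta ∅ ∅) φ := by
  rw [EBL_eq c Λ B (maxL_sep hIV), EB_eq c (ID B) B (eta0_sep _ B)]
  simp only [psi_ncl]
  have h1 : ∀ T ∈ (IV B).powerset, ∀ Z ∈ B.powerset,
      fw up c B (T ∪ (maxL Λ B).T0) Z *
        psi (dnh Λ B) (VA Λ) c ((maxL Λ B).Dp ∪ (maxL Λ B).Dm ∪ emb Z) ∅ *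
        φ T (Z ∩ E2 up B (T ∪ (maxL Λ B).T0)) (Z ∩ E1 up B (T ∪ (maxL Λ B).T0)) =
      fw up c B (T ∪ (eta ∅ ∅).T0) Z * ncl B ((eta ∅ ∅).Dp ∪ (eta ∅ ∅).Dm ∪ Z) *
        φ T (Z ∩ E2 up B (T ∪ (eta ∅ ∅).T0)) (Z ∩ E1 up B (T ∪ (eta ∅ ∅).T0)) := by
    intro T _ Z hZ
    rw [Finset.mem_powerset] at hZ
    have e1 : (maxL Λ B).Dp ∪ (maxL Λ B).Dm ∪ emb Z = emb (upT Λ \ B) ∪ wires Λ B ∪ emb Z := by
      unfold maxL
      simp only [Finset.union_empty]
    have e2 : (eta ∅ ∅).Dp ∪ (eta ∅ ∅).Dm ∪ Z = Z := by simp [eta]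
    rw [e1, e2, psi_wired c hBK (Finset.Subset.refl _) hZ]
    rfl
  rw [Finset.sum_congr rfl (fun T hT => Finset.sum_congr rfl (h1 T hT))]
  ring

/-- the minimal environment is the shifted F-type law of `B` -/
theorem EBL_min (c : ℝ) {Λ B : Finset P2} (hB : SC B) (hBK : B ⊆ upT Λ) (hIV : IV B ⊆ Λ)
    {f : Cfg → ℝ} (hf : IncP f) (hin : InTZ B f) :
    EBL c Λ B (minL Λ B) (fun T P M => f (mk B T P M)) * Nm B =
      nL Λ ∅ * S c B (fun ω => f (addH 2 ω)) := by
  rw [S_tz hB c (hf.tz.addH2), EBL_eq c Λ B (minL_sep hIV)]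
  rw [sum_powerset_compl (IV B)]
  have e0 : (minL Λ B).T0 = (Λ ∪ VF B) \ IV B := rfl
  have h1 : ∀ T ∈ (IV B).powerset, ∀ Z ∈ B.powerset,
      fw up c B ((IV B \ T) ∪ (minL Λ B).T0) Z *
        psi (dnh Λ B) (VA Λ) c ((minL Λ B).Dp ∪ (minL Λ B).Dm ∪ emb Z) ∅ *
        f (mk B (IV B \ T) (Z ∩ E2 up B ((IV B \ T) ∪ (minL Λ B).T0))
          (Z ∩ E1 up B ((IV B \ T) ∪ (minL Λ B).T0))) =
      fw up c B T Z * ncl B Z * f (addH 2 (mkZ B T Z)) := by
    intro T hT Z hZ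
    rw [Finset.mem_powerset] at hT hZ
    have e1 : (minL Λ B).Dp ∪ (minL Λ B).Dm ∪ emb Z =
        emb ((upT Λ \ B).filter fun t => up t ⊆ (Λ ∪ VF B) \ IV B) ∪ wires Λ B ∪ emb Z := by
      unfold minL
      simp only [Finset.empty_union]
    rw [e0, e1, psi_wired c hBK (Finset.filter_subset _ _) hZ]
    have hmem : ∀ v ∈ VF B, (v ∈ (IV B \ T) ∪ ((Λ ∪ VF B) \ IV B) ↔ v ∉ T) := by
      intro v hv
      have := fun h : v ∈ T => hT h
      simp only [Finset.mem_union, Finset.mem_sdiff]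
      tauto
    have hcs : ∀ t ∈ B, (Cs up ((IV B \ T) ∪ ((Λ ∪ VF B) \ IV B)) t ↔ Cs up T t) := by
      intro t ht
      unfold Cs
      have a1 : ∀ v ∈ up t, (v ∈ (IV B \ T) ∪ ((Λ ∪ VF B) \ IV B) ↔ v ∉ T) := fun v hv =>
        hmem v (mem_VF.2 ⟨t, ht, hv⟩)
      constructor
      · rintro (h | h)
        · exact Or.inr fun v hv => (a1 v hv).1 (h v hv)
        · exact Or.inl fun v hv => not_not.1 (mt (a1 v hv).2 (h v hv))
      · rintro (h | h)
        · exact Or.inr fun v hv h' => (a1 v hv).1 h' (h v hv)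
        · exact Or.inl fun v hv => (a1 v hv).2 (h v hv)
    have hfw : fw up c B ((IV B \ T) ∪ ((Λ ∪ VF B) \ IV B)) Z = fw up c B T Z := by
      unfold fw
      refine Finset.prod_congr rfl fun t ht => ?_
      simp only [hcs t ht]
    rw [hfw]
    by_cases hs : ∀ t ∈ Z, Cs up T t
    · have h3 : f (mk B (IV B \ T) (Z ∩ E2 up B ((IV B \ T) ∪ ((Λ ∪ VF B) \ IV B)))
          (Z ∩ E1 up B ((IV B \ T) ∪ ((Λ ∪ VF B) \ IV B)))) = f (addH 2 (mkZ B T Z)) := by
        apply hin.eq_of_agree hf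
        · intro v hv
          apply bool_eq_of_iff
          rw [mk_s, mkZ_add2_s, Finset.mem_sdiff]
          tauto
        · intro t ht htv
          apply bool_eq_of_iff
          have h4 : (addH 2 (mkZ B T Z)).2 t = (mkZ B T Z).2 t := rfl
          rw [h4, mk_z, mkZ_z]
          have a1 : ∀ v ∈ up t, (v ∈ (IV B \ T) ∪ ((Λ ∪ VF B) \ IV B) ↔ v ∉ T) := fun v hv =>
            hmem v (mem_VF.2 ⟨t, ht, hv⟩)
          constructor
          · rintro (h | h | h)
            · exact Or.inl h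
            · exact Or.inr (Finset.mem_inter.1 h.1).1
            · exact Or.inr (Finset.mem_inter.1 h.1).1
          · rintro (h | h)
            · exact Or.inl h
            · by_cases htT : t ∈ T
              · refine Or.inr (Or.inl ⟨Finset.mem_inter.2 ⟨h, ?_⟩, fun h' =>
                  (Finset.mem_sdiff.1 h').2 htT⟩)
                refine Finset.mem_filter.2 ⟨ht, fun v hv h' => (a1 v hv).1 h' ?_⟩
                exact cs_minus (hs t h) htT v hv
              · refine Or.inr (Or.inr ⟨Finset.mem_inter.2 ⟨h, ?_⟩, Finset.mem_sdiff.2 ⟨htv, htT⟩⟩)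
                refine Finset.mem_filter.2 ⟨ht, fun v hv => (a1 v hv).2 ?_⟩
                exact cs_plus (hs t h) htT v hv
      rw [h3]
    · rw [fw_zero_of_not c _ _ hZ hs]
      ring
  rw [Finset.sum_congr rfl (fun T hT => Finset.sum_congr rfl (h1 T hT))]
  unfold Nm
  ring

end Crest.Agent.R144.Zo349
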