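import Crest.Agent.R144.Zf_349

/-!
# R144: exact decoupling across a closed layer, all heights (helper349)

`W` simply connected set of up triangles, `e` a sign (`true` = plus).
* `Lay e W ω` : every up triangle off `W` sharing a site with `W` is closed with `s1 = e` at its corners;
* `inH e W ω` : the `F`-type height of `W` below `ω` (same colours for `e = true`, opposite colours for
  `e = false`); `lev e W ω v = ω.1 v - inH e W ω v` : level function, constant on every triangle of `W`,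
  `= 0` mod 4 (plus) or `= 2` mod 4 (minus);
* `ins e W ω` : the inside configuration; `glue e W ω ω'` : replace the inside by `ω'` (same levels);
* `swap` : `∑_{ω ∈ C, Lay} w(ω) Ψ(ω) Z_W = ∑_{ω ∈ C, Lay} w(ω) ∑_{ω' ∈ conf W} w_W(ω') Ψ(glue ω ω')` for every
  finite ambient family `C` of configurations stable under `glue`.
-/

set_option autoImplicit false
set_option linter.unusedSectionVars false
set_option linter.unusedSimpArgs false

noncomputable section

namespace Crest.Agent.R144.Zs349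

open Finset
open Crest.Agent.R144.It844 (P2 Lip adj_iff adj_symm lip_iff)
open Crest.Agent.R144.Zg349 Crest.Agent.R144.Zk349 Crest.Agent.R144.Zd349 Crest.Agent.R144.Zm349
open Crest.Agent.R144.Ze349
open Crest.ProbabilityR.HexHeights (Adj)

/-- heights of a layer of sign `e` are `off e` or `off e + 1` mod 4 -/
def off (e : Bool) : ℤ := if e then 0 else 2

theorem s1_eq (e : Bool) (a : ℤ) : s1 a = e ↔ (a - off e) % 4 < 2 := by
  cases e
  · rw [s1_false]; unfold off; simp only [Bool.false_eq_true, if_false]; omega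
  · rw [s1_true]; unfold off; simp only [if_true]; omega

theorem s2_eq (e : Bool) (a : ℤ) : s2 a = e ↔ (a + 1 - off e) % 4 < 2 := by
  cases e
  · rw [s2_false]; unfold off; simp only [Bool.false_eq_true, if_false]; omega
  · rw [s2_true]; unfold off; simp only [if_true]; omega

theorem off_cases (e : Bool) : off e = 0 ∨ off e = 2 := by
  cases e
  · exact Or.inr rfl
  · exact Or.inl rfl

theorem mod4_of {e : Bool} {a b : ℤ} (h1 : s1 b = true ↔ s1 a = e) (h2 : s2 b = true ↔ s2 a = e) :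
    (a - b) % 4 = off e := by
  rw [s1_true, s1_eq] at h1
  rw [s2_true, s2_eq] at h2
  have ho := off_cases e
  omega

theorem s1_even {k : ℤ} (hk : k % 2 = 0) (a b : ℤ) : s1 (k + a) = s1 (k + b) ↔ s1 a = s1 b := by
  unfold s1
  rw [decide_eq_decide, decide_eq_decide]
  omega

theorem s2_even {k : ℤ} (hk : k % 2 = 0) (a b : ℤ) : s2 (k + a) = s2 (k + b) ↔ s2 a = s2 b := by
  unfold s2
  rw [decide_eq_decide, decide_eq_decide]
  omega

theorem even_of {e : Bool} {k : ℤ} (hk : k % 4 = off e) : k % 2 = 0 := by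
  have ho := off_cases e
  omega

theorem s1_lev {e : Bool} {k : ℤ} (hk : k % 4 = off e) (a : ℤ) : s1 (k + a) = e ↔ s1 a = true := by
  rw [s1_eq, s1_true]
  have ho := off_cases e
  omega

theorem lip_cr {h : P2 → ℤ} (hh : Lip h) (t : P2) (i j : Fin 3) : |h (cr t i) - h (cr t j)| ≤ 1 := by
  obtain ⟨h1, h2, h3⟩ := lip_iff.1 hh t
  fin_cases i <;> fin_cases j <;>
    simp only [Fin.zero_eta, Fin.mk_one, Fin.reduceFinMk, cr0, cr1, cr2, sub_self, abs_zero, zero_le_one]
  · exact h1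
  · exact h2
  · rw [abs_sub_comm]; exact h1
  · exact h3
  · rw [abs_sub_comm]; exact h2
  · rw [abs_sub_comm]; exact h3

theorem lip_of_cr {h : P2 → ℤ} (H : ∀ (t : P2) (i j : Fin 3), |h (cr t i) - h (cr t j)| ≤ 1) : Lip h := by
  rw [lip_iff]
  intro u
  exact ⟨H u 0 1, H u 0 2, H u 1 2⟩

/-- all triangles off `W` touching `W` are closed with sign `e` -/
def Lay (e : Bool) (W : Finset P2) (ω : Cfg) : Prop :=
  ∀ t, t ∉ W → (∃ v ∈ VF W, v ∈ up t) → ω.2 t = true ∧ ∀ v ∈ up t, s1 (ω.1 v) = e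

theorem Lay.bd {e : Bool} {W : Finset P2} {ω : Cfg} (h : Lay e W ω) {v : P2} (hv : v ∈ VF W)
    (hv' : v ∉ IV W) : s1 (ω.1 v) = e := by
  rw [mem_IV'] at hv'
  push Not at hv'
  obtain ⟨t, h1, h2⟩ := hv'
  exact (h t h2 ⟨v, hv, h1⟩).2 v h1

theorem cr_mem_VF {W : Finset P2} {t : P2} (ht : t ∈ W) (i : Fin 3) : cr t i ∈ VF W :=
  mem_VF.2 ⟨t, ht, cr_mem_up t i⟩

theorem exists_inH {e : Bool} {W : Finset P2} {ω : Cfg} (hW : SC W) (hl : Lip ω.1) (hL : Lay e W ω) :
    ∃ H : P2 → ℤ, HV W H ∧ ∀ v ∈ VF W, (ω.1 v - H v) % 4 = off e := by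
  classical
  set T : Finset P2 := (IV W).filter fun v => ¬ s1 (ω.1 v) = e with hT
  set A : Finset P2 := (VF W).filter fun v => ¬ s2 (ω.1 v) = e with hA
  have mT : ∀ v ∈ VF W, (v ∈ T ↔ ¬ s1 (ω.1 v) = e) := by
    intro v hv
    rw [hT, Finset.mem_filter, and_iff_right_iff_imp]
    intro h1
    by_contra h2
    exact h1 (hL.bd hv h2)
  have mA : ∀ v ∈ VF W, (v ∈ A ↔ ¬ s2 (ω.1 v) = e) := by
    intro v hv
    rw [hA, Finset.mem_filter, and_iff_right hv]
  have bt : ∀ a b e : Bool, ((¬ a = e ↔ ¬ b = e) ↔ a = b) := by decide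
  obtain ⟨H, h1, h2, h3⟩ := exists_height hW (T := T) (A := A) (Finset.filter_subset _ _)
    (Finset.filter_subset _ _) (fun t ht => by
      have key := c1_or_c2 (h := ω.1) (t := t) (fun i j => lip_cr hl t i j)
      rw [m3_ch, m3_ch, mT _ (cr_mem_VF ht 0), mT _ (cr_mem_VF ht 1), mT _ (cr_mem_VF ht 2),
        mA _ (cr_mem_VF ht 0), mA _ (cr_mem_VF ht 1), mA _ (cr_mem_VF ht 2), bt, bt, bt, bt]
      exact key)
  refine ⟨H, h1, fun v hv => mod4_of ?_ ?_⟩
  · rw [h2, mT v hv, not_not]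
  · rw [h3, mA v hv, not_not]

open Classical in
/-- the `F`-type height of `W` below `ω` -/
def inH (e : Bool) (W : Finset P2) (ω : Cfg) : P2 → ℤ :=
  if h : ∃ H : P2 → ℤ, HV W H ∧ ∀ v ∈ VF W, (ω.1 v - H v) % 4 = off e then h.choose else fun _ => 0

theorem inH_spec {e : Bool} {W : Finset P2} {ω : Cfg} (hW : SC W) (hl : Lip ω.1) (hL : Lay e W ω) :
    HV W (inH e W ω) ∧ ∀ v ∈ VF W, (ω.1 v - inH e W ω v) % 4 = off e := by
  have h := exists_inH hW hl hL
  unfold inH
  rw [dif_pos h]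
  exact h.choose_spec

theorem hv_unique {e : Bool} {W : Finset P2} {a H H' : P2 → ℤ} (h1 : HV W H) (h2 : HV W H')
    (h3 : ∀ v ∈ VF W, (a v - H v) % 4 = off e) (h4 : ∀ v ∈ VF W, (a v - H' v) % 4 = off e) :
    H = H' := by
  have key : ∀ v, (H v - H' v) % 4 = 0 := by
    intro v
    by_cases hv : v ∈ VF W
    · have h5 := h3 v hv
      have h6 := h4 v hv
      omega
    · rw [h1.off v hv, h2.off v hv]
      norm_num
  refine height_inj h1 h2 (fun v => ?_) (fun v => ?_)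
  · have := key v
    unfold s1
    rw [decide_eq_decide]
    omega
  · have := key v
    unfold s2
    rw [decide_eq_decide]
    omega

theorem inH_unique {e : Bool} {W : Finset P2} {ω : Cfg} {H : P2 → ℤ} (h1 : HV W H)
    (h2 : ∀ v ∈ VF W, (ω.1 v - H v) % 4 = off e) : inH e W ω = H := by
  have h : ∃ H : P2 → ℤ, HV W H ∧ ∀ v ∈ VF W, (ω.1 v - H v) % 4 = off e := ⟨H, h1, h2⟩
  unfold inH
  rw [dif_pos h]
  exact hv_unique h.choose_spec.1 h1 h.choose_spec.2 h2

/-- level function -/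
def lev (e : Bool) (W : Finset P2) (ω : Cfg) (v : P2) : ℤ := ω.1 v - inH e W ω v

/-- the inside configuration -/
def ins (e : Bool) (W : Finset P2) (ω : Cfg) : Cfg :=
  (inH e W ω, fun t => if t ∈ W then ω.2 t else true)

/-- replace the inside -/
def glue (e : Bool) (W : Finset P2) (ω ω' : Cfg) : Cfg :=
  (fun v => if v ∈ VF W then lev e W ω v + ω'.1 v else ω.1 v, fun t => if t ∈ W then ω'.2 t else ω.2 t)

theorem glue_in {e : Bool} {W : Finset P2} {ω ω' : Cfg} {v : P2} (hv : v ∈ VF W) :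
    (glue e W ω ω').1 v = lev e W ω v + ω'.1 v := if_pos hv
theorem glue_out {e : Bool} {W : Finset P2} {ω ω' : Cfg} {v : P2} (hv : v ∉ VF W) :
    (glue e W ω ω').1 v = ω.1 v := if_neg hv
theorem glue_z {e : Bool} {W : Finset P2} {ω ω' : Cfg} {t : P2} (ht : t ∈ W) :
    (glue e W ω ω').2 t = ω'.2 t := if_pos ht
theorem glue_z' {e : Bool} {W : Finset P2} {ω ω' : Cfg} {t : P2} (ht : t ∉ W) :
    (glue e W ω ω').2 t = ω.2 t := if_neg ht

section
variable {e : Bool} {W : Finset P2} {ω ω' : Cfg} (hW : SC W) (hl : Lip ω.1) (hL : Lay e W ω)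
include hW hl hL

theorem lev_mod {v : P2} (hv : v ∈ VF W) : lev e W ω v % 4 = off e := (inH_spec hW hl hL).2 v hv

/-- the level is constant on the triangles of `W` -/
theorem lev_tri {t : P2} (ht : t ∈ W) (i j : Fin 3) : lev e W ω (cr t i) = lev e W ω (cr t j) := by
  have h1 := lev_mod hW hl hL (cr_mem_VF ht i)
  have h2 := lev_mod hW hl hL (cr_mem_VF ht j)
  have h3 := abs_le.1 (lip_cr hl t i j)
  have h4 := abs_le.1 ((inH_spec hW hl hL).1.lip t ht i j)
  unfold lev at *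
  omega

theorem inH_bd {v : P2} (hv' : v ∉ IV W) : inH e W ω v = 0 ∨ inH e W ω v = 1 :=
  (inH_spec hW hl hL).1.bd v hv'

/-- on a layer triangle all heights are `k, k+1` with `k` the level of any of its corners in `VF W` -/
theorem lay_corner {t v u : P2} (ht : t ∉ W) (hv : v ∈ VF W) (hvt : v ∈ up t) (hu : u ∈ up t) :
    (ω.1 u = lev e W ω v ∨ ω.1 u = lev e W ω v + 1) ∧ (u ∈ VF W → lev e W ω u = lev e W ω v) := by
  have hIV : ∀ w ∈ up t, w ∉ IV W := fun w hw h => ht (mem_of_corner hw h)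
  obtain ⟨_, h1⟩ := hL t ht ⟨v, hv, hvt⟩
  have a1 := h1 v hvt
  have a2 := h1 u hu
  obtain ⟨i, rfl⟩ := mem_up_iff.1 hvt
  obtain ⟨j, rfl⟩ := mem_up_iff.1 hu
  have h3 := abs_le.1 (lip_cr hl t i j)
  have h4 := inH_bd hW hl hL (hIV _ hvt)
  have h5 := lev_mod hW hl hL hv
  rw [s1_eq] at a1 a2
  have h6 : ω.1 (cr t j) = lev e W ω (cr t i) ∨ ω.1 (cr t j) = lev e W ω (cr t i) + 1 := by
    unfold lev at *
    have ho := off_cases e
    omega
  refine ⟨h6, fun hu' => ?_⟩
  have h7 := inH_bd hW hl hL (hIV _ hu)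
  have h8 := lev_mod hW hl hL hu'
  unfold lev at *
  have ho := off_cases e
  omega

variable (hω' : Valid W ω')
include hω'

/-- new heights at the corners of a layer triangle -/
theorem glue_corner {t v u : P2} (ht : t ∉ W) (hv : v ∈ VF W) (hvt : v ∈ up t) (hu : u ∈ up t) :
    (glue e W ω ω').1 u = lev e W ω v ∨ (glue e W ω ω').1 u = lev e W ω v + 1 := by
  obtain ⟨h1, h2⟩ := lay_corner hW hl hL ht hv hvt hu
  by_cases hu' : u ∈ VF W
  · rw [glue_in hu', h2 hu']
    rcases hω'.ht.bd u (fun h => ht (mem_of_corner hu h)) with h | h <;> rw [h]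
    · exact Or.inl (add_zero _)
    · exact Or.inr rfl
  · rw [glue_out hu']
    exact h1

theorem glue_lip : Lip (glue e W ω ω').1 := by
  apply lip_of_cr
  intro t i j
  by_cases ht : t ∈ W
  · rw [glue_in (cr_mem_VF ht i), glue_in (cr_mem_VF ht j), lev_tri hW hl hL ht i j]
    have := hω'.ht.lip t ht i j
    rw [abs_le] at *
    omega
  · by_cases h : ∃ v ∈ VF W, v ∈ up t
    · obtain ⟨v, hv, hvt⟩ := h
      have h1 := glue_corner hW hl hL hω' ht hv hvt (cr_mem_up t i)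
      have h2 := glue_corner hW hl hL hω' ht hv hvt (cr_mem_up t j)
      rw [abs_le]
      omega
    · push Not at h
      have h1 : ∀ k, cr t k ∉ VF W := fun k hk => h _ hk (cr_mem_up t k)
      rw [glue_out (h1 i), glue_out (h1 j)]
      exact lip_cr hl t i j

theorem glue_lay : Lay e W (glue e W ω ω') := by
  intro t ht h
  refine ⟨?_, fun u hu => ?_⟩
  · rw [glue_z' ht]
    exact (hL t ht h).1
  · obtain ⟨v, hv, hvt⟩ := h
    have h1 := glue_corner hW hl hL hω' ht hv hvt hu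
    have h2 := lev_mod hW hl hL hv
    rw [s1_eq]
    have ho := off_cases e
    omega

theorem inH_glue : inH e W (glue e W ω ω') = ω'.1 := by
  apply inH_unique hω'.ht
  intro v hv
  rw [glue_in hv, add_sub_cancel_right]
  exact lev_mod hW hl hL hv

theorem lev_glue {v : P2} (hv : v ∈ VF W) : lev e W (glue e W ω ω') v = lev e W ω v := by
  unfold lev
  rw [inH_glue hW hl hL hω', glue_in hv]
  unfold lev
  ring

theorem ins_glue : ins e W (glue e W ω ω') = ω' := by
  refine Prod.ext (inH_glue hW hl hL hω') ?_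
  funext t
  simp only [ins]
  by_cases ht : t ∈ W
  · rw [if_pos ht, glue_z ht]
  · rw [if_neg ht, hω'.cl t ht]

theorem glue_glue (ω'' : Cfg) : glue e W (glue e W ω ω') ω'' = glue e W ω ω'' := by
  refine Prod.ext ?_ ?_
  · funext v
    by_cases hv : v ∈ VF W
    · rw [glue_in hv, glue_in hv, lev_glue hW hl hL hω' hv]
    · rw [glue_out hv, glue_out hv, glue_out hv]
  · funext t
    by_cases ht : t ∈ W
    · rw [glue_z ht, glue_z ht]
    · rw [glue_z' ht, glue_z' ht, glue_z' ht]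

theorem ew_glue_in (c : ℝ) {t : P2} (ht : t ∈ W) : ew c (glue e W ω ω') t = ew c ω' t := by
  have hk := even_of (lev_mod hW hl hL (cr_mem_VF ht 0))
  have e1 : ∀ i, (glue e W ω ω').1 (cr t i) = lev e W ω (cr t 0) + ω'.1 (cr t i) := fun i => by
    rw [glue_in (cr_mem_VF ht i), lev_tri hW hl hL ht i 0]
  have h1 : C1 (glue e W ω ω').1 t ↔ C1 ω'.1 t := by
    unfold C1
    rw [e1, e1, e1, s1_even hk, s1_even hk]
  have h2 : C2 (glue e W ω ω').1 t ↔ C2 ω'.1 t := by
    unfold C2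
    rw [e1, e1, e1, s2_even hk, s2_even hk]
  unfold ew
  simp only [h1, h2, glue_z ht]

theorem ew_glue_out (c : ℝ) {t : P2} (ht : t ∉ W) : ew c (glue e W ω ω') t = ew c ω t := by
  by_cases h : ∃ v ∈ VF W, v ∈ up t
  · have h1 := hL t ht h
    have h2 := glue_lay hW hl hL hω' t ht h
    have c1 : C1 ω.1 t := ⟨by rw [h1.2 _ (cr_mem_up t 0), h1.2 _ (cr_mem_up t 1)],
      by rw [h1.2 _ (cr_mem_up t 0), h1.2 _ (cr_mem_up t 2)]⟩
    have c2 : C1 (glue e W ω ω').1 t := ⟨by rw [h2.2 _ (cr_mem_up t 0), h2.2 _ (cr_mem_up t 1)],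
      by rw [h2.2 _ (cr_mem_up t 0), h2.2 _ (cr_mem_up t 2)]⟩
    unfold ew
    rw [if_pos h1.1, if_pos h2.1, if_pos c1, if_pos c2]
  · push Not at h
    have h1 : ∀ k, cr t k ∉ VF W := fun k hk => h _ hk (cr_mem_up t k)
    have e1 : C1 (glue e W ω ω').1 t ↔ C1 ω.1 t := by
      unfold C1
      rw [glue_out (h1 0), glue_out (h1 1), glue_out (h1 2)]
    have e2 : C2 (glue e W ω ω').1 t ↔ C2 ω.1 t := by
      unfold C2
      rw [glue_out (h1 0), glue_out (h1 1), glue_out (h1 2)]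
    unfold ew
    simp only [e1, e2, glue_z' ht]

omit hω'

theorem valid_ins : Valid W (ins e W ω) :=
  ⟨(inH_spec hW hl hL).1, fun t ht => by simp only [ins, if_neg ht]⟩

theorem glue_ins : glue e W ω (ins e W ω) = ω := by
  refine Prod.ext ?_ ?_
  · funext v
    by_cases hv : v ∈ VF W
    · rw [glue_in hv]
      simp only [lev, ins]
      ring
    · rw [glue_out hv]
  · funext t
    by_cases ht : t ∈ W
    · rw [glue_z ht]
      simp only [ins, if_pos ht]
    · rw [glue_z' ht]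

theorem ew_ins (c : ℝ) {t : P2} (ht : t ∈ W) : ew c (ins e W ω) t = ew c ω t := by
  have h := ew_glue_in hW hl hL (valid_ins hW hl hL) c ht
  rw [glue_ins hW hl hL] at h
  exact h.symm

end

/-- weights are exchanged -/
theorem wt_swap {e : Bool} {W : Finset P2} {ω ω' : Cfg} (hW : SC W) (hl : Lip ω.1) (hL : Lay e W ω)
    (hω' : Valid W ω') (c : ℝ) {K : Finset P2} (hK : W ⊆ K) :
    wt c K (glue e W ω ω') * wt c W (ins e W ω) = wt c K ω * wt c W ω' := by
  unfold wt
  rw [← Finset.prod_sdiff hK, ← Finset.prod_sdiff hK,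
    Finset.prod_congr rfl fun t ht => ew_glue_out hW hl hL hω' c (Finset.mem_sdiff.1 ht).2,
    Finset.prod_congr (s₁ := W) rfl fun t ht => ew_glue_in hW hl hL hω' c ht,
    Finset.prod_congr (s₁ := W) (f := fun t => ew c (ins e W ω) t) rfl
      fun t ht => ew_ins hW hl hL c ht]
  ring

open Classical in
/-- **Exact decoupling, swap form.** -/
theorem swap {e : Bool} {W : Finset P2} (hW : SC W) (c : ℝ) {K : Finset P2} (hK : W ⊆ K)
    (C : Finset Cfg) (hC1 : ∀ ω ∈ C, Lip ω.1)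
    (hC2 : ∀ ω ∈ C, Lay e W ω → ∀ ω' ∈ conf W, glue e W ω ω' ∈ C) (Ψ : Cfg → ℝ) :
    (∑ ω ∈ C.filter (Lay e W), wt c K ω * Ψ ω) * Z c W =
      ∑ ω ∈ C.filter (Lay e W), wt c K ω * ∑ ω' ∈ conf W, wt c W ω' * Ψ (glue e W ω ω') := by
  unfold Z
  rw [Finset.sum_mul_sum, ← Finset.sum_product']
  have hR : ∑ ω ∈ C.filter (Lay e W), wt c K ω * ∑ ω' ∈ conf W, wt c W ω' * Ψ (glue e W ω ω') =
      ∑ p ∈ C.filter (Lay e W) ×ˢ conf W, wt c K p.1 * (wt c W p.2 * Ψ (glue e W p.1 p.2)) := by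
    rw [Finset.sum_product]
    exact Finset.sum_congr rfl fun ω _ => Finset.mul_sum _ _ _
  rw [hR]
  have mem : ∀ p ∈ C.filter (Lay e W) ×ˢ conf W, Lip p.1.1 ∧ Lay e W p.1 ∧ Valid W p.2 ∧ p.1 ∈ C := by
    intro p hp
    rw [Finset.mem_product, Finset.mem_filter] at hp
    exact ⟨hC1 _ hp.1.1, hp.1.2, mem_conf.1 hp.2, hp.1.1⟩
  have hmap : ∀ p ∈ C.filter (Lay e W) ×ˢ conf W,
      (glue e W p.1 p.2, ins e W p.1) ∈ C.filter (Lay e W) ×ˢ conf W := by
    intro p hp
    obtain ⟨h1, h2, h3, h4⟩ := mem p hp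
    rw [Finset.mem_product, Finset.mem_filter]
    exact ⟨⟨hC2 _ h4 h2 _ (mem_conf.2 h3), glue_lay hW h1 h2 h3⟩, mem_conf.2 (valid_ins hW h1 h2)⟩
  have hinv : ∀ p ∈ C.filter (Lay e W) ×ˢ conf W,
      ((glue e W (glue e W p.1 p.2) (ins e W p.1), ins e W (glue e W p.1 p.2)) : Cfg × Cfg) = p := by
    intro p hp
    obtain ⟨h1, h2, h3, _⟩ := mem p hp
    refine Prod.ext ?_ ?_
    · simp only
      rw [glue_glue hW h1 h2 h3, glue_ins hW h1 h2]
    · simp only
      rw [ins_glue hW h1 h2 h3]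
  refine Finset.sum_bij' (fun p _ => (glue e W p.1 p.2, ins e W p.1))
    (fun p _ => (glue e W p.1 p.2, ins e W p.1)) hmap hmap hinv hinv ?_
  intro p hp
  obtain ⟨h1, h2, h3, _⟩ := mem p hp
  simp only
  rw [glue_glue hW h1 h2 h3, glue_ins hW h1 h2, ← mul_assoc, wt_swap hW h1 h2 h3 c hK]
  ring

end Crest.Agent.R144.Zs349
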